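import Crest.Agent.T24.Ct2Def_10

/-!
# Row 24, CT(2), part B (helper10): the quaternion algebra inside `B`; the root trick
-/

set_option autoImplicit false
set_option linter.unusedSectionVars false

noncomputable section

namespace Crest.Agent.T24.Ct2

open Quaternion

section Hq

variable {F : Type*} [Field F] {a c : F}

/-- the reduced norm -/
def nq (x : ℍ[F,a,0,c]) : F := x.re ^ 2 - a * x.imI ^ 2 - c * x.imJ ^ 2 + a * c * x.imK ^ 2

theorem star_mul_nq (x : ℍ[F,a,0,c]) : star x * x = ⟨nq x, 0, 0, 0⟩ := by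
  ext <;> simp [nq] <;> ring

theorem mul_star_nq (x : ℍ[F,a,0,c]) : x * star x = ⟨nq x, 0, 0, 0⟩ := by
  ext <;> simp [nq] <;> ring

theorem nq_mul (x y : ℍ[F,a,0,c]) : nq (x * y) = nq x * nq y := by
  simp [nq]; ring

end Hq

namespace Quat

variable {F B : Type*} [Field F] [Ring B] [StarRing B] (q : Quat F B)

/-- the centraliser of the centre -/
def Cz : Subring B := Subring.centralizer (Set.range q.i)

theorem mem_Cz {x : B} : x ∈ q.Cz ↔ ∀ f, q.i f * x = x * q.i f := by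
  simp [Cz, Subring.mem_centralizer_iff]

theorem i_mem (f : F) : q.i f ∈ q.Cz := q.mem_Cz.2 fun g => by rw [← map_mul, mul_comm, map_mul]

instance : Algebra F q.Cz :=
  (q.i.codRestrict q.Cz q.i_mem).toAlgebra' fun f x => Subtype.ext (q.mem_Cz.1 x.2 f)

theorem coe_smul (f : F) (x : q.Cz) : ((f • x : q.Cz) : B) = q.i f * x := rfl

/-- the quaternion basis -/
def bas : QuaternionAlgebra.Basis q.Cz (q.a : F) 0 (q.c : F) where
  i := ⟨q.j, q.mem_Cz.2 q.ij⟩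
  j := ⟨q.r, q.mem_Cz.2 q.ir⟩
  k := ⟨q.j, q.mem_Cz.2 q.ij⟩ * ⟨q.r, q.mem_Cz.2 q.ir⟩
  i_mul_i := Subtype.ext (by simp [coe_smul, q.jj])
  j_mul_j := Subtype.ext (by simp [coe_smul, q.rr])
  i_mul_j := rfl
  j_mul_i := Subtype.ext (by simp [q.jr])

/-- the model -/
abbrev H : Type _ := ℍ[F,(q.a : F),0,(q.c : F)]

/-- the embedding -/
def ι : q.H →+* B := q.Cz.subtype.comp q.bas.liftHom.toRingHom

theorem ι_apply (x : q.H) : q.ι x = q.el x.re x.imI x.imJ x.imK := rfl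

theorem ι_mk (x₀ x₁ x₂ x₃ : F) : q.ι ⟨x₀, x₁, x₂, x₃⟩ = q.el x₀ x₁ x₂ x₃ := rfl

theorem ι_re (f : F) : q.ι ⟨f, 0, 0, 0⟩ = q.i f := by simp [ι_mk, el]

theorem i_comm (f : F) (x : q.H) : q.i f * q.ι x = q.ι x * q.i f :=
  q.mem_Cz.1 (q.bas.liftHom x).2 f

theorem ι_star (x : q.H) : q.ι (star x) = star (q.ι x) := by
  have h1 : ∀ f, q.j * q.r * q.i f = q.i f * (q.j * q.r) := fun f => by
    rw [mul_assoc, ← q.ir, ← mul_assoc, ← q.ij, mul_assoc]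
  have h2 : q.r * q.j = -(q.j * q.r) := by rw [q.jr, neg_neg]
  simp only [ι_apply, el, star_add, star_mul, q.star_i, q.star_j, q.star_r, neg_mul, mul_neg,
    neg_neg, ← q.ij, ← q.ir, h2, h1]
  simp

theorem star_mul_ι (x : q.H) : star (q.ι x) * q.ι x = q.i (nq x) := by
  rw [← ι_star, ← map_mul, star_mul_nq, ι_re]

theorem ι_mul_star (x : q.H) : q.ι x * star (q.ι x) = q.i (nq x) := by
  rw [← ι_star, ← map_mul, mul_star_nq, ι_re]

theorem ι_mem {x : q.H} (h : nq x = 1) : q.ι x ∈ unitary B := by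
  rw [Unitary.mem_iff, star_mul_ι, ι_mul_star, h, map_one]; simp

theorem isUnit_ι {x : q.H} (h : nq x ≠ 0) : IsUnit (q.ι x) :=
  ⟨⟨q.ι x, star (q.ι x) * q.i (nq x)⁻¹, by
      rw [← mul_assoc, ι_mul_star, ← map_mul, mul_inv_cancel₀ h, map_one], by
      rw [← ι_star, ← i_comm, ι_star, mul_assoc, star_mul_ι, ← map_mul, inv_mul_cancel₀ h,
        map_one]⟩, rfl⟩

theorem nq_eq_one [Nontrivial B] {x : q.H} (h : q.ι x ∈ unitary B) : nq x = 1 :=
  q.i.injective (by rw [← star_mul_ι, h.1, map_one])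

theorem ι_eq_zero (hB : Aniso B) {x : q.H} (h : nq x = 0) : q.ι x = 0 :=
  hB _ (by rw [star_mul_ι, h, map_zero])

theorem eq_zero [CharZero F] [Nontrivial B] {x : q.H} (h : q.ι x = 0) : x = 0 := by
  have key : ∀ y : q.H, q.ι y = 0 → y.re = 0 := fun y hy => by
    have h1 : y + star y = ⟨2 * y.re, 0, 0, 0⟩ := by ext <;> simp; ring
    have h2 := congrArg q.ι h1
    rw [map_add, ι_star, hy, star_zero, add_zero, ι_re, eq_comm, map_eq_zero] at h2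
    simpa using h2
  have h0 := key _ h
  have h1 := key (x * ⟨0, 1, 0, 0⟩) (by rw [map_mul, h, zero_mul])
  have h2 := key (x * ⟨0, 0, 1, 0⟩) (by rw [map_mul, h, zero_mul])
  have h3 := key (x * ⟨0, 0, 0, 1⟩) (by rw [map_mul, h, zero_mul])
  simp at h1 h2 h3
  ext <;> simp [h0, h1, h2, h3]

theorem aniso [CharZero F] [Nontrivial B] (hB : Aniso B) {x : q.H} (h : x ≠ 0) : nq x ≠ 0 :=
  fun h0 => h (q.eq_zero (q.ι_eq_zero hB h0))

/-- elements of norm one are killed by every character that does not vanish on units -/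
theorem char_one {K : Type*} [Field K] (χ : B →* K) {x w r : q.H} (hr : nq r ≠ 0) (hw : nq w ≠ 0)
    (h : r * w = star w * r) (hx : x * star w = w) : χ (q.ι x) = 1 := by
  have h1 := congrArg (fun y => χ (q.ι y)) h
  have h2 := congrArg (fun y => χ (q.ι y)) hx
  simp only [map_mul] at h1 h2
  have h3 := ((q.isUnit_ι hr).map χ).ne_zero
  have h4 := ((q.isUnit_ι hw).map χ).ne_zero
  rw [mul_comm] at h1
  rw [← mul_right_cancel₀ h3 h1] at h2
  exact mul_right_cancel₀ h4 (h2.trans (one_mul _).symm)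

/-- one commutator -/
theorem comm {θ : B} {d : F} (h1 : star θ = -θ) (h2 : θ * θ = q.i d) (h3 : ∀ b, θ * b = b * θ)
    {x y g : q.H} {z₁ z₂ : F} (hx : nq x = z₁ ^ 2 - d * z₂ ^ 2) (h0 : nq x ≠ 0)
    (h : x * y = g * y * x) (Y G : unitary B) (hY : (Y : B) = q.ι y) (hG : (G : B) = q.ι g) :
    ∃ U : unitary B, U * Y * U⁻¹ * Y⁻¹ = G := by
  set ζ : B := q.i (z₁ / nq x) + q.i (z₂ / nq x) * θ with hζ
  have h4 : ∀ u : q.H, ζ * q.ι u = q.ι u * ζ := fun u => by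
    rw [hζ, add_mul, mul_add, mul_assoc, h3, ← mul_assoc, i_comm, i_comm, mul_assoc]
  have h5 : star ζ = q.i (z₁ / nq x) - q.i (z₂ / nq x) * θ := by
    rw [hζ, star_add, star_mul, q.star_i, q.star_i, h1, neg_mul, h3, sub_eq_add_neg]
  have h6 : ∀ f g : F, (q.i f + q.i g * θ) * (q.i f - q.i g * θ) = q.i (f ^ 2 - d * g ^ 2) ∧
      (q.i f - q.i g * θ) * (q.i f + q.i g * θ) = q.i (f ^ 2 - d * g ^ 2) := fun f g => by
    have e1 : q.i g * θ * q.i f = q.i f * (q.i g * θ) := by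
      rw [mul_assoc, h3, ← mul_assoc, ← mul_assoc, ← map_mul, ← map_mul, mul_comm f]
    have e2 : q.i g * θ * (q.i g * θ) = q.i (d * g ^ 2) := by
      rw [mul_assoc, ← mul_assoc θ, h3, mul_assoc, h2, ← map_mul, ← map_mul]; congr 1; ring
    simp only [add_mul, mul_add, sub_mul, mul_sub, e1, e2, map_sub, sq f, map_mul q.i f f]
    constructor <;> abel
  have h7 : (z₁ / nq x) ^ 2 - d * (z₂ / nq x) ^ 2 = (nq x)⁻¹ := by
    field_simp; rw [hx]
  have h8 := h6 (z₁ / nq x) (z₂ / nq x)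
  rw [← h5, ← hζ, h7] at h8
  have h9 : ζ * q.i (nq x) = q.i (nq x) * ζ := by rw [← ι_re, h4]
  refine ⟨⟨q.ι x * ζ, ?_, ?_⟩, ?_⟩
  · rw [star_mul, mul_assoc, ← mul_assoc (star (q.ι x)), star_mul_ι, ← h9, ← mul_assoc, h8.2,
      ← map_mul, inv_mul_cancel₀ h0, map_one]
  · rw [star_mul, mul_assoc, ← mul_assoc ζ, h8.1, ← ι_star, i_comm, ← mul_assoc, ι_star,
      ι_mul_star, ← map_mul, mul_inv_cancel₀ h0, map_one]
  · rw [mul_inv_eq_iff_eq_mul, mul_inv_eq_iff_eq_mul]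
    apply Subtype.ext
    simp only [Submonoid.coe_mul, hY, hG]
    rw [mul_assoc, h4, ← mul_assoc, ← map_mul, h, map_mul, map_mul, mul_assoc _ (q.ι x)]

/-- change of basis -/
def rot (n r : q.H) (hn : n.re = 0) (hr : r.re = 0) (h : n * r = -(r * n)) (h1 : nq n ≠ 0)
    (h2 : nq r ≠ 0) : Quat F B where
  i := q.i
  j := q.ι n
  r := q.ι r
  a := Units.mk0 (-nq n) (neg_ne_zero.2 h1)
  c := Units.mk0 (-nq r) (neg_ne_zero.2 h2)
  star_i := q.star_i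
  star_j := by rw [← ι_star, ← map_neg]; congr 1; ext <;> simp [hn]
  star_r := by rw [← ι_star, ← map_neg]; congr 1; ext <;> simp [hr]
  jj := by rw [← map_mul, ← ι_re]; congr 1; ext <;> simp [hn, nq] <;> ring
  rr := by rw [← map_mul, ← ι_re]; congr 1; ext <;> simp [hr, nq] <;> ring
  jr := by rw [← map_mul, h, map_neg, map_mul]
  ij f := q.i_comm f n
  ir f := q.i_comm f r

end Quat

section Gram

variable {L : Type*} [Field L]

/-- splitting does not depend on the basis -/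
theorem split_rot [CharZero L] {a c n₁ n₂ n₃ e₁ e₂ e₃ a' c' : L} (ha : a ≠ 0) (hc : c ≠ 0)
    (h : ∃ X Y, c = X ^ 2 - a * Y ^ 2) (ha' : a' = a * n₁ ^ 2 + c * n₂ ^ 2 - a * c * n₃ ^ 2)
    (hc' : c' = a * (c * (n₃ * e₂ - n₂ * e₃)) ^ 2 + c * (a * (n₁ * e₃ - n₃ * e₁)) ^ 2 -
      a * c * (n₁ * e₂ - n₂ * e₁) ^ 2) (h1 : a' ≠ 0) (h2 : c' ≠ 0) :
    ∃ X Y, c' = X ^ 2 - a' * Y ^ 2 := by
  obtain ⟨X, Y, h⟩ := h
  obtain ⟨r₁, e1⟩ : ∃ r₁, r₁ = c * (n₃ * e₂ - n₂ * e₃) := ⟨_, rfl⟩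
  obtain ⟨r₂, e2⟩ : ∃ r₂, r₂ = a * (n₁ * e₃ - n₃ * e₁) := ⟨_, rfl⟩
  obtain ⟨r₃, e3⟩ : ∃ r₃, r₃ = n₁ * e₂ - n₂ * e₁ := ⟨_, rfl⟩
  obtain ⟨k₁, f1⟩ : ∃ k₁, k₁ = c * (n₃ * r₂ - n₂ * r₃) := ⟨_, rfl⟩
  obtain ⟨k₂, f2⟩ : ∃ k₂, k₂ = a * (n₁ * r₃ - n₃ * r₁) := ⟨_, rfl⟩
  obtain ⟨k₃, f3⟩ : ∃ k₃, k₃ = n₁ * r₂ - n₂ * r₁ := ⟨_, rfl⟩
  have gram : ∀ y₁ y₂ y₃ z₁ z₂ z₃ : L, a' * c' * (a * y₁ * z₁ + c * y₂ * z₂ - a * c * y₃ * z₃) =
      c' * (a * y₁ * n₁ + c * y₂ * n₂ - a * c * y₃ * n₃) * (a * z₁ * n₁ + c * z₂ * n₂ - a * c * z₃ * n₃)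
      + a' * (a * y₁ * r₁ + c * y₂ * r₂ - a * c * y₃ * r₃) *
        (a * z₁ * r₁ + c * z₂ * r₂ - a * c * z₃ * r₃)
      - (a * y₁ * k₁ + c * y₂ * k₂ - a * c * y₃ * k₃) *
        (a * z₁ * k₁ + c * z₂ * k₂ - a * c * z₃ * k₃) := by
    intros
    rw [ha', hc', f1, f2, f3, e1, e2, e3]
    ring
  have g1 := gram c (a * Y) X c (a * Y) X
  have g2 := gram c (a * Y) X 1 0 0
  generalize a * c * n₁ + c * (a * Y) * n₂ - a * c * X * n₃ = α at g1 g2
  generalize a * c * r₁ + c * (a * Y) * r₂ - a * c * X * r₃ = β at g1 g2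
  generalize a * c * k₁ + c * (a * Y) * k₂ - a * c * X * k₃ = γ at g1 g2
  have g3 : c' * α ^ 2 + a' * β ^ 2 - γ ^ 2 = 0 := by
    linear_combination -g1 + a' * c' * a * c * h
  by_cases h3 : α = 0
  · have h4 : β ≠ 0 := by
      rintro rfl
      have : γ = 0 := by simpa [h3] using g3
      simp [h3, this, h1, h2, ha, hc] at g2
    have h5 : γ ≠ 0 := by
      rintro rfl
      simp [h3, h1, h4] at g3
    refine ⟨(c' + 1) / 2, (c' - 1) * β / (2 * γ), ?_⟩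
    field_simp
    rw [h3] at g3
    linear_combination (c' - 1) ^ 2 * g3
  · exact ⟨γ / α, β / α, by field_simp; linear_combination g3⟩

end Gram

/-- a filtration of a commutative ring -/
structure Fil (L : Type*) [CommRing L] where
  /-- the steps -/
  P : ℕ → AddSubgroup L
  one : 1 ∈ P 0
  mul : ∀ {k l x y}, x ∈ P k → y ∈ P l → x * y ∈ P (k + l)
  anti : ∀ {k l}, k ≤ l → P l ≤ P k
  qinv : ∀ {k x}, 1 ≤ k → x ∈ P k → ∃ y ∈ P k, (1 + x) * (1 + y) = 1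

namespace Fil

variable {L : Type*} [CommRing L] (Φ : Fil L)

theorem one_add {k : ℕ} {x : L} (h : x ∈ Φ.P k) : 1 + x ∈ Φ.P 0 :=
  add_mem Φ.one (Φ.anti (Nat.zero_le k) h)

theorem mul0 {k : ℕ} {x y : L} (hx : x ∈ Φ.P 0) (hy : y ∈ Φ.P k) : x * y ∈ Φ.P k := by
  simpa using Φ.mul hx hy

theorem pow0 {x : L} (hx : x ∈ Φ.P 0) (n : ℕ) : x ^ n ∈ Φ.P 0 := by
  induction n with
  | zero => simpa using Φ.one
  | succ n ih => rw [pow_succ]; exact Φ.mul0 ih hx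

theorem binom {k : ℕ} {x : L} (h : x ∈ Φ.P k) (n : ℕ) :
    (1 + x) ^ n - 1 - n * x ∈ Φ.P (k + k) := by
  induction n with
  | zero => simp
  | succ n ih =>
    have : (1 + x) ^ (n + 1) - 1 - ((n + 1 : ℕ) : L) * x =
        (1 + x) * ((1 + x) ^ n - 1 - n * x) + n • (x * x) := by
      push_cast; ring
    rw [this]
    exact add_mem (Φ.mul0 (Φ.one_add h) ih) (nsmul_mem (Φ.mul h h) n)

variable [StarRing L]

theorem step {n e k : ℕ} {c : L} (hc : c * (2 * n) = 1) (hs : star c = c)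
    (hd : ∀ k x, x ∈ Φ.P (k + e) → c * x ∈ Φ.P k) (hk : 2 * e + 1 ≤ k) {x : L}
    (hx : x * star x = 1) (h : x - 1 ∈ Φ.P k) :
    ∃ g w w' x' : L, w * w' = 1 ∧ g * star w = w ∧ x' * star x' = 1 ∧ x' - 1 ∈ Φ.P (k + 1) ∧
      x = x' * g ^ n := by
  obtain ⟨k, rfl⟩ : ∃ j, k = j + e := ⟨k - e, by omega⟩
  obtain ⟨y, hy, h1⟩ := Φ.qinv (by omega) h
  rw [add_sub_cancel] at h1
  have h2 : star x - 1 = y := by linear_combination (1 + y) * hx - star x * h1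
  have h3 := hd _ _ h
  have h4 := hd _ _ hy
  obtain ⟨u, hu, h5⟩ := Φ.qinv (by omega) h3
  have h6 : star (1 + c * (x - 1)) = 1 + c * y := by simp [hs, ← h2]
  have h7 := congrArg star h5
  rw [star_mul', h6, star_one] at h7
  refine ⟨(1 + c * (x - 1)) * star (1 + u), 1 + c * (x - 1), 1 + u,
    x * ((1 + c * y) * (1 + u)) ^ n, h5, ?_, ?_, ?_, ?_⟩
  · rw [h6]; linear_combination (1 + c * (x - 1)) * h7
  · rw [star_mul', star_pow, star_mul', ← h6, star_star, mul_mul_mul_comm, hx, one_mul, ← mul_pow,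
      h6, show (1 + c * y) * (1 + u) * ((1 + c * (x - 1)) * star (1 + u)) = 1 by
        linear_combination ((1 + c * y) * star (1 + u)) * h5 + h7, one_pow]
  · have h8 : x * ((1 + c * y) * (1 + u)) ^ n - 1 = (1 + u) ^ n *
        (x * ((1 + c * y) ^ n - 1 - n * (c * y)) -
          ((1 + c * (x - 1)) ^ n - 1 - n * (c * (x - 1)))) := by
      have : (1 + u) ^ n * (1 + c * (x - 1)) ^ n = 1 := by rw [← mul_pow, mul_comm, h5, one_pow]
      rw [mul_pow]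
      linear_combination this + (1 + u) ^ n * (n * c * h1 - (x - 1) * hc)
    rw [h8]
    refine Φ.anti (show k + e + 1 ≤ k + k by omega) (Φ.mul0 (Φ.pow0 (Φ.one_add hu) n)
      (sub_mem (Φ.mul0 ?_ (Φ.binom h4 n)) (Φ.binom h3 n)))
    simpa using Φ.one_add h
  · rw [mul_assoc, ← mul_pow, show (1 + c * y) * (1 + u) * ((1 + c * (x - 1)) * star (1 + u)) = 1 by
      linear_combination ((1 + c * y) * star (1 + u)) * h5 + h7, one_pow, mul_one]

/-- **the root trick** -/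
theorem root {n e k₁ : ℕ} {c : L} (hc : c * (2 * n) = 1) (hs : star c = c)
    (hd : ∀ k x, x ∈ Φ.P (k + e) → c * x ∈ Φ.P k) (G : Submonoid L)
    (h1 : ∀ g w w' : L, w * w' = 1 → g * star w = w → g ^ n ∈ G)
    (h2 : ∀ x, x * star x = 1 → x - 1 ∈ Φ.P k₁ → x ∈ G) {x : L}
    (hx : x * star x = 1) (h : x - 1 ∈ Φ.P (2 * e + 1)) : x ∈ G := by
  have key : ∀ j k x, 2 * e + 1 ≤ k → k₁ ≤ k + j → x * star x = 1 → x - 1 ∈ Φ.P k → x ∈ G := by
    intro j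
    induction j with
    | zero => exact fun k x _ h3 h4 h5 => h2 x h4 (Φ.anti h3 h5)
    | succ j ih =>
      intro k x h3 h4 h5 h6
      obtain ⟨g, w, w', x', e1, e2, e3, e4, rfl⟩ := Φ.step hc hs hd h3 h5 h6
      exact mul_mem (ih (k + 1) x' (by omega) (by omega) e3 e4) (h1 g w w' e1 e2)
  exact key k₁ _ x le_rfl (by omega) hx h

end Fil

end Crest.Agent.T24.Ct2
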