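import Crest.Agent.T24.Csa1_50

/-! Central simple algebras, part 3: Skolem-Noether and the double centraliser theorem (helper56). -/

set_option autoImplicit false

noncomputable section

namespace Crest.Agent.T24.Csa

open scoped TensorProduct
open Module

/-! ## Modules over a finite dimensional simple algebra -/
section Mod

variable (K : Type*) {R : Type*} [Field K] [Ring R] [Algebra K R] [IsSimpleRing R]
  [FiniteDimensional K R]

include K in
theorem exists_fun (S : Type*) [AddCommGroup S] [Module R S] [IsSimpleModule R S] (M : Type*)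
    [AddCommGroup M] [Module R M] [Module.Finite R M] : ∃ n : ℕ, Nonempty (M ≃ₗ[R] Fin n → S) := by
  have := IsArtinianRing.of_finite K R
  have e := LinearEquiv.ofInjective (LinearMap.inr R M S) LinearMap.inr_injective
  have := IsSimpleModule.congr e.symm
  exact (((IsSimpleRing.isIsotypic R (M × S) _).of_injective (LinearMap.inl R M S)
    LinearMap.inl_injective).of_linearEquiv_type e.symm).linearEquiv_fun

include K in
theorem exists_simple : ∃ S : Ideal R, IsSimpleModule R S := by
  have := IsArtinianRing.of_finite K R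
  obtain ⟨S, hS⟩ := IsAtomic.exists_atom (Submodule R R)
  exact ⟨S, isSimpleModule_iff_isAtom.2 hS⟩

variable {K} {M N : Type*} [AddCommGroup M] [Module R M] [Module K M] [IsScalarTower K R M]
  [FiniteDimensional K M] [AddCommGroup N] [Module R N] [Module K N] [IsScalarTower K R N]
  [FiniteDimensional K N]

/-- modules of the same dimension are isomorphic -/
theorem equiv_of_finrank (h : finrank K M = finrank K N) : Nonempty (M ≃ₗ[R] N) := by
  obtain ⟨S, hS⟩ := exists_simple K (R := R)
  have := Module.Finite.of_restrictScalars_finite K R M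
  have := Module.Finite.of_restrictScalars_finite K R N
  obtain ⟨m, ⟨e⟩⟩ := exists_fun K (R := R) S M
  obtain ⟨n, ⟨e'⟩⟩ := exists_fun K (R := R) S N
  have : FiniteDimensional K S :=
    .of_injective (S.subtype.restrictScalars K) Subtype.val_injective
  have := IsSimpleModule.nontrivial R S
  rw [(e.restrictScalars K).finrank_eq, (e'.restrictScalars K).finrank_eq, finrank_pi_fintype,
    finrank_pi_fintype] at h
  simp only [Finset.sum_const, Finset.card_univ, Fintype.card_fin, smul_eq_mul] at h
  obtain rfl := Nat.eq_of_mul_eq_mul_right finrank_pos h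
  exact ⟨e.trans e'.symm⟩

variable (K R M N) in
theorem finrank_hom : finrank K (M →ₗ[R] N) * finrank K R = finrank K M * finrank K N := by
  classical
  obtain ⟨e⟩ := equiv_of_finrank (K := K) (R := R) (M := Fin (finrank K R) → M)
    (N := Fin (finrank K M) → R) (by simp [finrank_pi_fintype, mul_comm])
  have : FiniteDimensional K (M →ₗ[R] N) :=
    .of_injective (LinearMap.restrictScalarsₗ K R M N K) (LinearMap.restrictScalars_injective K)
  have h := ((LinearMap.lsum R (fun _ : Fin (finrank K R) => M) K).trans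
    ((LinearEquiv.congrLeft N K e).trans (LinearMap.lsum R (fun _ : Fin (finrank K M) => R) K).symm)
    ).trans (LinearEquiv.piCongrRight fun _ => LinearMap.ringLmapEquivSelf R K N) |>.finrank_eq
  simpa [finrank_pi_fintype, mul_comm] using h

variable (K R M) in
include K in
theorem isSimpleRing_end [Nontrivial M] : IsSimpleRing (End R M) := by
  classical
  have := IsArtinianRing.of_finite K R
  have := Module.Finite.of_restrictScalars_finite K R M
  obtain ⟨n, hn, S, hS, ⟨e⟩⟩ := (IsSimpleRing.isIsotypic R M).linearEquiv_fun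
  exact IsSimpleRing.of_ringEquiv (e.conjRingEquiv.trans (endVecRingEquivMatrixEnd ..)).symm
    inferInstance

end Mod

/-! ## The bimodule of an embedding -/
section Bm

variable {K A B : Type*} [Field K] [Ring A] [Algebra K A] [Ring B] [Algebra K B]

/-- `B` with `A` acting on the left through `f` and `B` on the right -/
def Bm (_f : A →ₐ[K] B) : Type _ := B

namespace Bm
variable (f : A →ₐ[K] B)

instance : AddCommGroup (Bm f) := inferInstanceAs (AddCommGroup B)
instance : Module K (Bm f) := inferInstanceAs (Module K B)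
instance [h : FiniteDimensional K B] : FiniteDimensional K (Bm f) := h
instance [h : Nontrivial B] : Nontrivial (Bm f) := h

/-- the action -/
def act : A ⊗[K] Bᵐᵒᵖ →ₐ[K] End K B :=
  (AlgHom.mulLeftRight K B).comp (Algebra.TensorProduct.map f (AlgHom.id K _))

instance : Module (A ⊗[K] Bᵐᵒᵖ) (Bm f) := Module.compHom B (act f).toRingHom

/-- the identity -/
def mk : B ≃ₗ[K] Bm f := LinearEquiv.refl K B

theorem smul_mk (r : A ⊗[K] Bᵐᵒᵖ) (x : B) : r • mk f x = mk f (act f r x) := rfl

theorem tmul_smul_mk (a : A) (b x : B) :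
    (a ⊗ₜ[K] MulOpposite.op b) • mk f x = mk f (f a * x * b) := by
  rw [smul_mk]; simp [act]

instance : IsScalarTower K (A ⊗[K] Bᵐᵒᵖ) (Bm f) :=
  ⟨fun c r x => by
    obtain ⟨x, rfl⟩ := (mk f).surjective x
    rw [smul_mk, smul_mk, map_smul, LinearMap.smul_apply, map_smul]⟩

variable {f} {g : A →ₐ[K] B}

theorem hom_mk (e : Bm f →ₗ[A ⊗[K] Bᵐᵒᵖ] Bm g) (x : B) :
    e (mk f x) = mk g ((mk g).symm (e (mk f 1)) * x) := by
  have := e.map_smul ((1 : A) ⊗ₜ[K] MulOpposite.op x) (mk f 1)
  rw [tmul_smul_mk, ← (mk g).apply_symm_apply (e (mk f 1)), tmul_smul_mk] at this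
  simpa using this

theorem hom_comm (e : Bm f →ₗ[A ⊗[K] Bᵐᵒᵖ] Bm g) (a : A) :
    g a * (mk g).symm (e (mk f 1)) = (mk g).symm (e (mk f 1)) * f a := by
  have := e.map_smul (a ⊗ₜ[K] MulOpposite.op (1 : B)) (mk f 1)
  rw [tmul_smul_mk, hom_mk, ← (mk g).apply_symm_apply (e (mk f 1)), tmul_smul_mk] at this
  simpa using ((mk g).injective this).symm

/-- left multiplication by an intertwiner -/
def lm (c : B) (hc : ∀ a, g a * c = c * f a) : Bm f →ₗ[A ⊗[K] Bᵐᵒᵖ] Bm g where
  toFun x := mk g (c * (mk f).symm x)
  map_add' x y := by rw [map_add, mul_add, map_add]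
  map_smul' r x := by
    obtain ⟨x, rfl⟩ := (mk f).surjective x
    simp only [smul_mk, RingHom.id_apply, LinearEquiv.symm_apply_apply,
      EmbeddingLike.apply_eq_iff_eq]
    induction r with
    | zero => simp
    | add r r' h h' => simp only [map_add, LinearMap.add_apply, mul_add, h, h']
    | tmul a b => simp [act, ← mul_assoc, hc]

variable (f) in
/-- the endomorphisms of the bimodule are the centraliser -/
def endEquiv : Subalgebra.centralizer K (Set.range f) ≃ₐ[K] End (A ⊗[K] Bᵐᵒᵖ) (Bm f) :=
  AlgEquiv.ofBijective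
    { toFun := fun c => lm c.1 fun a => c.2 _ ⟨a, rfl⟩
      map_one' := by ext x; simp [lm]
      map_mul' := fun c c' => by ext x; simp [lm, mul_assoc]
      map_zero' := by ext x; simp [lm]
      map_add' := fun c c' => by ext x; simp [lm, add_mul]
      commutes' := fun c => by
        ext x
        simp [lm, Algebra.algebraMap_eq_smul_one] }
    ⟨fun c c' h => Subtype.ext (by
        simpa [lm] using LinearMap.congr_fun h (mk f 1)),
      fun e => ⟨⟨(mk f).symm (e (mk f 1)), by rintro _ ⟨a, rfl⟩; exact hom_comm e a⟩, by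
        ext x
        obtain ⟨x, rfl⟩ := (mk f).surjective x
        rw [hom_mk e x]; rfl⟩⟩

end Bm

variable [Algebra.IsCentral K B] [IsSimpleRing B] [FiniteDimensional K B] [IsSimpleRing A]

omit [Algebra.IsCentral K B] in
theorem finite_of_algHom (f : A →ₐ[K] B) : FiniteDimensional K A :=
  .of_injective f.toLinearMap (RingHom.injective f.toRingHom)

/-- **Skolem-Noether** -/
theorem skolemNoether (f g : A →ₐ[K] B) : ∃ u : Bˣ, ∀ a, g a = u * f a * ↑u⁻¹ := by
  have := finite_of_algHom f
  have := isSimpleRing_tensor (K := K) (A := A) (B := Bᵐᵒᵖ)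
  obtain ⟨e⟩ := equiv_of_finrank (K := K) (R := A ⊗[K] Bᵐᵒᵖ) (M := Bm f) (N := Bm g)
    ((Bm.mk f).finrank_eq.symm.trans (Bm.mk g).finrank_eq)
  have h1 := Bm.hom_mk e.toLinearMap ((Bm.mk f).symm (e.symm (Bm.mk g 1)))
  have h2 := Bm.hom_mk e.symm.toLinearMap ((Bm.mk g).symm (e (Bm.mk f 1)))
  simp only [LinearEquiv.apply_symm_apply, LinearEquiv.coe_coe, LinearEquiv.symm_apply_apply,
    EmbeddingLike.apply_eq_iff_eq] at h1 h2
  refine ⟨⟨_, _, h1.symm, h2.symm⟩, fun a => ?_⟩
  rw [Units.eq_mul_inv_iff_mul_eq]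
  exact Bm.hom_comm e.toLinearMap a

/-- every `K`-automorphism (endomorphism) of `B` is inner -/
theorem inner_of_algHom (g : B →ₐ[K] B) : ∃ u : Bˣ, ∀ x, g x = u * x * ↑u⁻¹ :=
  skolemNoether (AlgHom.id K B) g

theorem isSimpleRing_centralizer_range (f : A →ₐ[K] B) :
    IsSimpleRing (Subalgebra.centralizer K (Set.range f)) := by
  have := finite_of_algHom f
  have := isSimpleRing_tensor (K := K) (A := A) (B := Bᵐᵒᵖ)
  exact IsSimpleRing.of_ringEquiv (Bm.endEquiv f).symm.toRingEquiv
    (isSimpleRing_end K (A ⊗[K] Bᵐᵒᵖ) (Bm f))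

theorem finrank_centralizer_range (f : A →ₐ[K] B) :
    finrank K A * finrank K (Subalgebra.centralizer K (Set.range f)) = finrank K B := by
  have := finite_of_algHom f
  have := isSimpleRing_tensor (K := K) (A := A) (B := Bᵐᵒᵖ)
  have h := finrank_hom K (A ⊗[K] Bᵐᵒᵖ) (Bm f) (Bm f)
  rw [← (Bm.endEquiv f).toLinearEquiv.finrank_eq, finrank_tensorProduct,
    ← (MulOpposite.opLinearEquiv K : B ≃ₗ[K] Bᵐᵒᵖ).finrank_eq, ← (Bm.mk f).finrank_eq,
    ← mul_assoc] at h
  rw [mul_comm]
  exact Nat.eq_of_mul_eq_mul_right finrank_pos h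

end Bm

/-! ## Subalgebras -/
section Sub

variable {K B : Type*} [Field K] [Ring B] [Algebra K B] [Algebra.IsCentral K B] [IsSimpleRing B]
  [FiniteDimensional K B]

theorem isSimpleRing_centralizer (A : Subalgebra K B) [IsSimpleRing A] :
    IsSimpleRing (Subalgebra.centralizer K (A : Set B)) := by
  have key : ∀ S : Set B, Set.range A.val = S → IsSimpleRing (Subalgebra.centralizer K S) := by
    rintro _ rfl; exact isSimpleRing_centralizer_range A.val
  exact key _ Subtype.range_coe

/-- the dimension formula -/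
theorem finrank_centralizer (A : Subalgebra K B) [IsSimpleRing A] :
    finrank K A * finrank K (Subalgebra.centralizer K (A : Set B)) = finrank K B := by
  have key : ∀ S : Set B, Set.range A.val = S →
      finrank K A * finrank K (Subalgebra.centralizer K S) = finrank K B := by
    rintro _ rfl; exact finrank_centralizer_range A.val
  exact key _ Subtype.range_coe

/-- **double centraliser** -/
theorem centralizer_centralizer (A : Subalgebra K B) [IsSimpleRing A] :
    Subalgebra.centralizer K (Subalgebra.centralizer K (A : Set B) : Set B) = A := by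
  have := isSimpleRing_centralizer A
  have h1 := finrank_centralizer A
  have h2 := finrank_centralizer (Subalgebra.centralizer K (A : Set B))
  refine (Subalgebra.eq_of_le_of_finrank_eq (fun x hx y hy => (hy x hx).symm) ?_).symm
  rw [← h2, mul_comm] at h1
  exact Nat.eq_of_mul_eq_mul_left finrank_pos h1

/-- a commutative simple subalgebra of the right dimension is its own centraliser -/
theorem centralizer_eq_self (L : Subalgebra K B) [IsSimpleRing L]
    (hc : ∀ x ∈ L, ∀ y ∈ L, x * y = y * x) (h : finrank K L ^ 2 = finrank K B) :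
    Subalgebra.centralizer K (L : Set B) = L := by
  have h1 := finrank_centralizer L
  refine (Subalgebra.eq_of_le_of_finrank_eq (show L ≤ Subalgebra.centralizer K (L : Set B) from
    fun x hx y hy => hc y hy x hx) ?_).symm
  rw [← h, sq] at h1
  exact (Nat.eq_of_mul_eq_mul_left finrank_pos h1).symm

theorem finrank_sq_of_centralizer_eq (L : Subalgebra K B) [IsSimpleRing L]
    (h : Subalgebra.centralizer K (L : Set B) = L) : finrank K L ^ 2 = finrank K B := by
  have h1 := finrank_centralizer L
  rwa [h, ← sq] at h1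

/-- the dimension of a simple subalgebra divides, a subfield has degree at most the degree -/
theorem finrank_sq_dvd (L : Subalgebra K B) [IsSimpleRing L] (hL : IsField L) :
    finrank K L ^ 2 ∣ finrank K B := by
  let := hL.toField
  have hle : L ≤ Subalgebra.centralizer K (L : Set B) := fun x hx y hy =>
    congrArg Subtype.val (hL.mul_comm ⟨y, hy⟩ ⟨x, hx⟩)
  let : Module L (Subalgebra.centralizer K (L : Set B)) :=
    Module.compHom _ (Subalgebra.inclusion hle).toRingHom
  have : IsScalarTower K L (Subalgebra.centralizer K (L : Set B)) :=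
    ⟨fun c x y => Subtype.ext (smul_mul_assoc c (x : B) (y : B))⟩
  rw [← finrank_centralizer L, ← finrank_mul_finrank K L (Subalgebra.centralizer K (L : Set B)), sq,
    ← mul_assoc]
  exact dvd_mul_right _ _

/-- `B = A ⊗ C(A)` for a central simple subalgebra -/
theorem tensor_centralizer_bij {A : Type*} [Ring A] [Algebra K A] [Algebra.IsCentral K A]
    [IsSimpleRing A] (f : A →ₐ[K] B) :
    Function.Bijective (Algebra.TensorProduct.lift f (Subalgebra.centralizer K (Set.range f)).val
      fun a c => c.2 _ ⟨a, rfl⟩) := by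
  have := finite_of_algHom f
  have := isSimpleRing_centralizer_range f
  have := isSimpleRing_tensor' (K := K) (A := Subalgebra.centralizer K (Set.range f)) (B := A)
  set F := Algebra.TensorProduct.lift f (Subalgebra.centralizer K (Set.range f)).val
    fun a c => c.2 _ ⟨a, rfl⟩
  have hinj : Function.Injective F := RingHom.injective F.toRingHom
  exact ⟨hinj, (LinearMap.injective_iff_surjective_of_finrank_eq_finrank
    (by rw [finrank_tensorProduct, finrank_centralizer_range]) (f := F.toLinearMap)).1 hinj⟩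

/-- two roots of an irreducible polynomial are conjugate -/
theorem conj_of_irreducible {p : Polynomial K} (hp : Irreducible p) {x y : B}
    (hx : Polynomial.aeval x p = 0) (hy : Polynomial.aeval y p = 0) :
    ∃ u : Bˣ, y = u * x * ↑u⁻¹ := by
  have := Fact.mk hp
  let F : ∀ z : B, Polynomial.aeval z p = 0 → (AdjoinRoot p →ₐ[K] B) := fun z hz =>
    Ideal.Quotient.liftₐ _ (Polynomial.aeval z) fun q hq => by
      obtain ⟨r, rfl⟩ := Ideal.mem_span_singleton.1 hq
      rw [map_mul, hz, zero_mul]
  have hF : ∀ z hz, F z hz (AdjoinRoot.root p) = z := fun z hz => Polynomial.aeval_X z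
  obtain ⟨u, hu⟩ := skolemNoether (F x hx) (F y hy)
  exact ⟨u, by simpa only [hF] using hu (AdjoinRoot.root p)⟩

end Sub

/-! ## Division algebras -/
section Div

variable {K D : Type*} [Field K] [DivisionRing D] [Algebra K D] [FiniteDimensional K D]

theorem isUnit_sub (A : Subalgebra K D) {x : A} (hx : x ≠ 0) : IsUnit x :=
  FiniteDimensional.isUnit K hx

/-- subalgebras of a division algebra are simple -/
theorem isSimpleRing_sub (A : Subalgebra K D) : IsSimpleRing A := by
  classical
  let := DivisionRing.ofIsUnitOrEqZero fun x : A => or_iff_not_imp_right.2 (isUnit_sub A)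
  infer_instance

theorem isField_sub (A : Subalgebra K D) (hc : ∀ x ∈ A, ∀ y ∈ A, x * y = y * x) : IsField A :=
  ⟨exists_pair_ne A, fun x y => Subtype.ext (hc _ x.2 _ y.2), fun hx => (isUnit_sub A hx).exists_right_inv⟩

variable [Algebra.IsCentral K D]

/-- conjugacy classes of a division algebra are given by the minimal polynomial -/
theorem conj_of_minpoly_eq {x y : D} (h : minpoly K x = minpoly K y) :
    ∃ u : Dˣ, y = u * x * ↑u⁻¹ :=
  conj_of_irreducible (minpoly.irreducible (Algebra.IsIntegral.isIntegral x)) (minpoly.aeval K x)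
    (h ▸ minpoly.aeval K y)

/-- every commutative subalgebra lies in a maximal subfield -/
theorem exists_maximal_subfield (L₀ : Subalgebra K D) (hc : ∀ x ∈ L₀, ∀ y ∈ L₀, x * y = y * x) :
    ∃ L : Subalgebra K D, L₀ ≤ L ∧ IsField L ∧ Subalgebra.centralizer K (L : Set D) = L ∧
      finrank K L ^ 2 = finrank K D := by
  obtain ⟨L, ⟨h0, hL⟩, hmax⟩ := exists_max_image_of_finrank L₀ hc
  have hcen : Subalgebra.centralizer K (L : Set D) = L := by
    refine le_antisymm (fun z hz => ?_) fun x hx y hy => hL y hy x hx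
    have hcomm : ∀ a ∈ insert z (L : Set D), ∀ b ∈ insert z (L : Set D), a * b = b * a := by
      rintro a (rfl | ha) b (rfl | hb)
      · rfl
      · exact (hz b hb).symm
      · exact hz a ha
      · exact hL a ha b hb
    have hle : L ≤ Algebra.adjoin K (insert z (L : Set D)) := fun x hx =>
      Algebra.subset_adjoin (Set.mem_insert_of_mem _ hx)
    have := Subalgebra.eq_of_le_of_finrank_le hle (hmax _ ⟨h0.trans hle, fun x hx y hy =>
      Algebra.commute_of_mem_adjoin_of_forall_mem_commute hy fun b hb =>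
        (Algebra.commute_of_mem_adjoin_of_forall_mem_commute hx fun a ha => hcomm b hb a ha).symm⟩)
    rw [this]
    exact Algebra.subset_adjoin (Set.mem_insert _ _)
  have := isSimpleRing_sub L
  exact ⟨L, h0, isField_sub L hL, hcen, finrank_sq_of_centralizer_eq L hcen⟩
where
  exists_max_image_of_finrank (L₀ : Subalgebra K D) (hc : ∀ x ∈ L₀, ∀ y ∈ L₀, x * y = y * x) :
      ∃ L : Subalgebra K D, (L₀ ≤ L ∧ ∀ x ∈ L, ∀ y ∈ L, x * y = y * x) ∧ ∀ L' : Subalgebra K D,
        (L₀ ≤ L' ∧ ∀ x ∈ L', ∀ y ∈ L', x * y = y * x) → finrank K L' ≤ finrank K L := by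
    obtain ⟨⟨L, hL⟩, h⟩ := exists_max_of_bdd (α := {L : Subalgebra K D //
      L₀ ≤ L ∧ ∀ x ∈ L, ∀ y ∈ L, x * y = y * x}) ⟨L₀, le_rfl, hc⟩ (fun L => finrank K L.1)
      (finrank K D) fun L => L.1.toSubmodule.finrank_le
    exact ⟨L, hL, fun L' hL' => h ⟨L', hL'⟩⟩
  exists_max_of_bdd {α : Type _} (a : α) (f : α → ℕ) (n : ℕ) (h : ∀ x, f x ≤ n) :
      ∃ x, ∀ y, f y ≤ f x := by
    obtain ⟨x, hx⟩ := Nat.sSup_mem (Set.range_nonempty_iff_nonempty.2 ⟨a⟩)
      (show BddAbove (Set.range f) from ⟨n, by rintro _ ⟨x, rfl⟩; exact h x⟩)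
    exact ⟨x, fun y => hx ▸ le_csSup ⟨n, by rintro _ ⟨x, rfl⟩; exact h x⟩ ⟨y, rfl⟩⟩

end Div

end Crest.Agent.T24.Csa
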