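import Crest.Agent.T24.Csa2_50
import Crest.Agent.T24.Csa3_56

/-! Central simple algebras, part 5: Noether-Deuring descent and regular elements (helper56). -/

set_option autoImplicit false

noncomputable section

namespace Crest.Agent.T24.Csa

open scoped TensorProduct
open Module Polynomial

/-! ## Descent of units -/
section ND

variable {K L B C : Type*} [Field K] [Field L] [Ring B] [Algebra K B] [Ring C] [Algebra L C]

theorem isUnit_of_mul_inj [FiniteDimensional K B] {b : B} (h : ∀ x, b * x = 0 → x = 0) :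
    IsUnit b := by
  have hs : Function.Surjective (LinearMap.mulLeft K b) :=
    LinearMap.injective_iff_surjective.1 ((injective_iff_map_eq_zero _).2 h)
  obtain ⟨y, hy⟩ := hs 1
  have hy' : b * y = 1 := hy
  have : y * b = 1 := sub_eq_zero.1 (h _ (by rw [mul_sub, ← mul_assoc, hy', one_mul, mul_one, sub_self]))
  exact ⟨⟨b, y, hy', this⟩, rfl⟩

include K in
theorem isUnit_of_map [FiniteDimensional K B] (φ : B →+* C) (hφ : Function.Injective φ) {b : B}
    (h : IsUnit (φ b)) : IsUnit b :=
  isUnit_of_mul_inj (K := K) fun x hx => hφ (by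
    rw [map_zero]; exact h.mul_right_eq_zero.1 (by rw [← map_mul, hx, map_zero]))

/-- Zariski density: if some `L`-combination is a unit, so is a combination with coefficients in any
infinite set -/
theorem exists_unit_comb [FiniteDimensional L C] {ι : Type*} (s : Finset ι) (v : ι → C) (c : ι → L)
    (h : IsUnit (∑ i ∈ s, c i • v i)) {S : Set L} (hS : S.Infinite) :
    ∃ a : ι → L, (∀ i, a i ∈ S) ∧ IsUnit (∑ i ∈ s, a i • v i) := by
  classical
  let e := Module.finBasis L C
  let P : MvPolynomial ι L := (∑ i ∈ s, (MvPolynomial.X i : MvPolynomial ι L) •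
    (Algebra.leftMulMatrix e (v i)).map MvPolynomial.C).det
  have hP : ∀ a : ι → L, MvPolynomial.eval a P = (Algebra.leftMulMatrix e (∑ i ∈ s, a i • v i)).det := by
    intro a
    rw [RingHom.map_det]
    congr 1
    ext i j
    simp [Matrix.sum_apply]
  by_contra hne
  have h0 : P = 0 := MvPolynomial.funext_set (fun _ => S) (fun _ => hS) fun a ha => by
    rw [hP, map_zero]
    by_contra hd
    refine hne ⟨a, fun i => ha i trivial, isUnit_of_map (K := L) (Algebra.leftMulMatrix e).toRingHom
      (Algebra.leftMulMatrix_injective e) ((Matrix.isUnit_iff_isUnit_det _).2 (Ne.isUnit hd))⟩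
  have := ((Matrix.isUnit_iff_isUnit_det _).1 (h.map (Algebra.leftMulMatrix e))).ne_zero
  rw [← hP, h0, map_zero] at this
  exact this rfl

variable [Algebra K L]

/-- contraction with a functional -/
def ctr (B : Type*) [AddCommGroup B] [Module K B] (l : L →ₗ[K] K) : L ⊗[K] B →ₗ[K] B :=
  TensorProduct.lift (LinearMap.lsmul K B ∘ₗ l)

@[simp] theorem ctr_tmul {B : Type*} [AddCommGroup B] [Module K B] (l : L →ₗ[K] K) (c : L) (b : B) :
    ctr B l (c ⊗ₜ[K] b) = l c • b := rfl

theorem ctr_mul (l : L →ₗ[K] K) (z : L ⊗[K] B) (x y : B) :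
    ctr B l ((1 : L) ⊗ₜ[K] x * z * (1 : L) ⊗ₜ[K] y) = x * ctr B l z * y := by
  induction z with
  | zero => simp
  | add z z' h h' => simp only [mul_add, add_mul, map_add, h, h']
  | tmul c b => simp

theorem exists_sum_ctr {B : Type*} [AddCommGroup B] [Module K B] (z : L ⊗[K] B) :
    ∃ (s : Finset (Basis.ofVectorSpaceIndex K L)) (c : _ → L) (l : _ → L →ₗ[K] K),
      z = ∑ i ∈ s, c i ⊗ₜ[K] ctr B (l i) z := by
  classical
  let e := Basis.ofVectorSpace K L
  obtain ⟨c, rfl⟩ := TensorProduct.eq_repr_basis_left e z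
  refine ⟨c.support, e, e.coord, Finset.sum_congr rfl fun i hi => ?_⟩
  simp only [Finsupp.sum, map_sum, ctr_tmul, Basis.coord_apply, Basis.repr_self,
    Finsupp.single_apply, ite_smul, one_smul, zero_smul, Finset.sum_ite_eq', if_pos hi]

/-- **Noether-Deuring**: a subspace that contains a unit after base change contains a unit -/
theorem exists_unit_mem [Infinite K] [FiniteDimensional K B] (H : Submodule K B) {z : L ⊗[K] B}
    (hz : IsUnit z) (h : ∀ l, ctr B l z ∈ H) : ∃ u ∈ H, IsUnit u := by
  obtain ⟨s, c, l, e⟩ := exists_sum_ctr z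
  have e' : z = ∑ i ∈ s, c i • ((1 : L) ⊗ₜ[K] ctr B (l i) z) := by
    simpa only [TensorProduct.smul_tmul', smul_eq_mul, mul_one] using e
  obtain ⟨a, ha, hu⟩ := exists_unit_comb s _ c (e' ▸ hz)
    (Set.infinite_range_of_injective (algebraMap K L).injective)
  choose a' ha' using ha
  refine ⟨∑ i ∈ s, a' i • ctr B (l i) z, H.sum_mem fun i _ => H.smul_mem _ (h _),
    isUnit_of_map (K := K) (Algebra.TensorProduct.includeRight (R := K) (A := L) (B := B)).toRingHom
      (Algebra.TensorProduct.includeRight_injective (algebraMap K L).injective) ?_⟩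
  convert hu using 1
  simp only [AlgHom.toRingHom_eq_coe, RingHom.coe_coe, map_sum, map_smul, ← ha', algebraMap_smul]
  rfl

/-- families conjugate after base change are conjugate -/
theorem conj_of_baseChange [Infinite K] [FiniteDimensional K B] {ι : Type*} (x y : ι → B)
    {z : L ⊗[K] B} (hz : IsUnit z) (h : ∀ j, z * (1 : L) ⊗ₜ[K] x j = (1 : L) ⊗ₜ[K] y j * z) :
    ∃ u : Bˣ, ∀ j, y j = u * x j * ↑u⁻¹ := by
  let H : Submodule K B :=
    { carrier := {u | ∀ j, u * x j = y j * u}
      add_mem' := fun ha hb j => by rw [add_mul, mul_add, ha j, hb j]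
      zero_mem' := fun j => by rw [zero_mul, mul_zero]
      smul_mem' := fun c u hu j => by rw [smul_mul_assoc, mul_smul_comm, hu j] }
  obtain ⟨_, hu, u, rfl⟩ := exists_unit_mem H hz fun l j => by
    have h1 := ctr_mul l z 1 (x j)
    have h2 := ctr_mul l z (y j) 1
    rw [← Algebra.TensorProduct.one_def, one_mul, one_mul] at h1
    rw [← Algebra.TensorProduct.one_def, mul_one, mul_one] at h2
    rw [← h1, ← h2, h j]
  exact ⟨u, fun j => by rw [Units.eq_mul_inv_iff_mul_eq, hu j]⟩

variable [Algebra K C] [IsScalarTower K L C] [Nontrivial C] [Algebra.IsCentral K B] [IsSimpleRing B]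
  [FiniteDimensional K B]

/-- the same along any `φ : B → C` with `dim_L C = dim_K B` -/
theorem conj_of_map [Infinite K] (φ : B →ₐ[K] C) (hd : finrank L C = finrank K B) {ι : Type*}
    (x y : ι → B) {v : C} (hv : IsUnit v) (h : ∀ j, v * φ (x j) = φ (y j) * v) :
    ∃ u : Bˣ, ∀ j, y j = u * x j * ↑u⁻¹ :=
  conj_of_baseChange x y (hv.map (bcEquiv φ hd).symm) fun j => (bcEquiv φ hd).injective (by
    simp only [map_mul, AlgEquiv.apply_symm_apply, bcEquiv_tmul, one_smul, h j])

omit [FiniteDimensional K B] in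
/-- the minimal polynomial does not change under base change -/
theorem minpoly_map (φ : B →ₐ[K] C) {x : B} (hx : IsIntegral K x) :
    minpoly L (φ x) = (minpoly K x).map (algebraMap K L) := by
  have hm := minpoly.monic hx
  refine (minpoly.unique' L _ (hm.map _) ?_ fun q hq => ?_).symm
  · rw [aeval_map_algebraMap, aeval_algHom_apply, minpoly.aeval, map_zero]
  · rw [or_iff_not_imp_right, not_not]
    intro h0
    by_contra hq0
    rw [degree_map, degree_eq_natDegree hm.ne_zero, ← natDegree_lt_iff_degree_lt hq0] at hq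
    have hl := linInd_map (R := L) φ.toRingHom (linearIndependent_pow (K := K) x)
    rw [aeval_eq_sum_range' hq, Finset.sum_range] at h0
    have := Fintype.linearIndependent_iff.1 hl (fun i => q.coeff i) (by simpa using h0)
    exact hq0 (leadingCoeff_eq_zero.1 (this ⟨_, hq⟩))

end ND

/-! ## Cyclic vectors -/
section Cyc

variable {L V : Type*} [Field L] [AddCommGroup V] [Module L V] [FiniteDimensional L V]

theorem exists_cyclic (A : End L V) : ∃ v, ∀ q : L[X], aeval A q v = 0 → aeval A q = 0 := by
  obtain ⟨v, hv⟩ := exists_ker_toSpanSingleton_eq_annihilator L[X] (AEval' A)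
  rw [AEval.annihilator_eq_ker_aeval] at hv
  exact ⟨(AEval'.of A).symm v, fun q hq => (SetLike.ext_iff.1 hv q).1 hq⟩

/-- a regular endomorphism has a cyclic vector -/
theorem exists_cyc_equiv {A : End L V} (hd : (minpoly L A).natDegree = finrank L V) :
    ∃ (v : V) (T : degreeLT L (finrank L V) ≃ₗ[L] V), ∀ q, T q = aeval A q.1 v := by
  obtain ⟨v, hv⟩ := exists_cyclic A
  have hm := minpoly.monic (Algebra.IsIntegral.isIntegral (R := L) A)
  let T : degreeLT L (finrank L V) →ₗ[L] V :=
    LinearMap.applyₗ v ∘ₗ (aeval A).toLinearMap ∘ₗ Submodule.subtype _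
  have hT : Function.Injective T := (injective_iff_map_eq_zero _).2 fun q hq => Subtype.ext
    (eq_zero_of_dvd_of_degree_lt (minpoly.dvd L A (hv _ hq))
      (by rw [degree_eq_natDegree hm.ne_zero, hd]; exact mem_degreeLT.1 q.2))
  exact ⟨v, LinearEquiv.ofInjectiveOfFinrankEq T hT (by
    rw [(degreeLTEquiv L _).finrank_eq, finrank_fin_fun]), fun _ => rfl⟩

theorem mem_adjoin_of_commute_end {A z : End L V} (hd : (minpoly L A).natDegree = finrank L V)
    (hz : A * z = z * A) : ∃ q : L[X], q.degree < finrank L V ∧ z = aeval A q := by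
  obtain ⟨v, T, hT⟩ := exists_cyc_equiv hd
  obtain ⟨q, hq⟩ := T.surjective (z v)
  refine ⟨q.1, mem_degreeLT.1 q.2, LinearMap.ext fun w => ?_⟩
  obtain ⟨r, rfl⟩ := T.surjective w
  have hc : aeval A r.1 * z = z * aeval A r.1 :=
    Algebra.commute_of_mem_adjoin_singleton_of_commute (aeval_mem_adjoin_singleton L A)
      (Commute.symm hz) |>.symm
  rw [hT, ← End.mul_apply, ← hc, End.mul_apply, ← hq, hT, ← End.mul_apply, ← End.mul_apply,
    ← map_mul, ← map_mul, mul_comm]

theorem conj_of_regular_end {A A' : End L V} (hd : (minpoly L A).natDegree = finrank L V)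
    (h : minpoly L A = minpoly L A') : ∃ g : End L V, IsUnit g ∧ g * A = A' * g := by
  obtain ⟨v, T, hT⟩ := exists_cyc_equiv hd
  obtain ⟨v', T', hT'⟩ := exists_cyc_equiv (h ▸ hd)
  have hm := minpoly.monic (Algebra.IsIntegral.isIntegral (R := L) A)
  have key : ∀ q : L[X], T' (T.symm (aeval A q v)) = aeval A' q v' := fun q => by
    let r : degreeLT L (finrank L V) := ⟨q %ₘ minpoly L A, mem_degreeLT.2 (by
      rw [← hd, ← degree_eq_natDegree hm.ne_zero]; exact degree_modByMonic_lt q hm)⟩
    rw [← aeval_modByMonic_eq_self_of_root (p := q) (minpoly.aeval L A), ← hT r,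
      T.symm_apply_apply, hT', aeval_modByMonic_eq_self_of_root (h ▸ minpoly.aeval L A')]
  refine ⟨(T.symm.trans T').toLinearMap, (LinearMap.isUnit_iff_ker_eq_bot _).2
    (LinearEquiv.ker _), LinearMap.ext fun w => ?_⟩
  obtain ⟨r, rfl⟩ := T.surjective w
  have h1 := key (X * r.1)
  simp only [map_mul, aeval_X, End.mul_apply] at h1
  simp only [End.mul_apply, LinearEquiv.coe_coe, LinearEquiv.trans_apply, hT, h1, key]

end Cyc

/-! ## Regular elements -/
section Reg

variable {K B : Type*} [Field K] [Ring B] [Algebra K B] [Algebra.IsCentral K B] [IsSimpleRing B]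
  [FiniteDimensional K B]

variable (K B) in
/-- the fixed splitting as endomorphisms -/
def spE : B →ₐ[K] End (AlgebraicClosure K) (Fin (deg K B) → AlgebraicClosure K) :=
  (Matrix.toLinAlgEquiv'.toAlgHom.restrictScalars K).comp (sp K B)

variable (K B) in
theorem spE_finrank : finrank (AlgebraicClosure K)
    (End (AlgebraicClosure K) (Fin (deg K B) → AlgebraicClosure K)) = finrank K B := by
  rw [finrank_linearMap, finrank_eq_deg_sq K B]; simp [sq]

theorem spE_natDegree {x : B} (hx : (minpoly K x).natDegree = deg K B) :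
    (minpoly (AlgebraicClosure K) (spE K B x)).natDegree =
      finrank (AlgebraicClosure K) (Fin (deg K B) → AlgebraicClosure K) := by
  have : Nonempty (Fin (deg K B)) := ⟨⟨0, deg_pos K B⟩⟩
  rw [minpoly_map _ (Algebra.IsIntegral.isIntegral x), natDegree_map, hx, finrank_fin_fun]

/-- regular elements with the same minimal polynomial are conjugate -/
theorem conj_of_regular [Infinite K] {x y : B} (hx : (minpoly K x).natDegree = deg K B)
    (h : minpoly K x = minpoly K y) : ∃ u : Bˣ, y = u * x * ↑u⁻¹ := by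
  have : Nonempty (Fin (deg K B)) := ⟨⟨0, deg_pos K B⟩⟩
  obtain ⟨g, hg, hc⟩ := conj_of_regular_end (A' := spE K B y) (spE_natDegree hx) (by
    rw [minpoly_map _ (Algebra.IsIntegral.isIntegral x),
      minpoly_map _ (Algebra.IsIntegral.isIntegral y), h])
  obtain ⟨u, hu⟩ := conj_of_map (spE K B) (spE_finrank K B) (fun _ : Unit => x) (fun _ => y) hg
    fun _ => hc
  exact ⟨u, hu ()⟩

/-- the centraliser of a regular element consists of polynomials in it -/
theorem exists_aeval_of_commute {x z : B} (hx : (minpoly K x).natDegree = deg K B)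
    (hz : x * z = z * x) : ∃ q : K[X], q.degree < deg K B ∧ z = aeval x q := by
  classical
  have : Nonempty (Fin (deg K B)) := ⟨⟨0, deg_pos K B⟩⟩
  obtain ⟨q, hq, e⟩ := mem_adjoin_of_commute_end (z := spE K B z) (spE_natDegree hx)
    (by rw [← map_mul, hz, map_mul])
  rw [finrank_fin_fun] at hq
  obtain ⟨l, hl⟩ : ∃ l : AlgebraicClosure K →ₗ[K] K, l 1 = 1 := by
    obtain ⟨l, hl⟩ := (Algebra.linearMap K (AlgebraicClosure K)).exists_leftInverse_of_injective
      (LinearMap.ker_eq_bot.2 (algebraMap K _).injective)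
    exact ⟨l, by simpa using LinearMap.congr_fun hl 1⟩
  let E := bcEquiv (spE K B) (spE_finrank K B)
  have e1 : (1 : AlgebraicClosure K) ⊗ₜ[K] z =
      ∑ i ∈ Finset.range (deg K B), q.coeff i ⊗ₜ[K] (x ^ i) := E.injective (by
    by_cases hq0 : q = 0
    · simp [E, e, hq0]
    · simp only [E, map_sum, bcEquiv_tmul, one_smul, map_pow, e]
      exact aeval_eq_sum_range' ((natDegree_lt_iff_degree_lt hq0).2 hq) _)
  have e2 := congrArg (ctr B l) e1
  simp only [map_sum, ctr_tmul, hl, one_smul] at e2
  refine ⟨∑ i ∈ Finset.range (deg K B), monomial i (l (q.coeff i)), mem_degreeLT.1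
    (Submodule.sum_mem _ fun i hi => monomial_coe_mem_degreeLT ⟨i, Finset.mem_range.1 hi⟩ _), ?_⟩
  simp only [map_sum, aeval_monomial, ← Algebra.smul_def, e2]

theorem centralizer_regular {x : B} (hx : (minpoly K x).natDegree = deg K B) :
    Subalgebra.centralizer K {x} = Algebra.adjoin K {x} := by
  refine le_antisymm (fun z hz => ?_) (Algebra.adjoin_le ?_)
  · obtain ⟨q, -, rfl⟩ := exists_aeval_of_commute hx (hz x rfl)
    exact aeval_mem_adjoin_singleton K x
  · rintro _ rfl _ rfl; rfl

variable [CharZero K]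

theorem minpoly_eq_rch_of_squarefree {x : B} (hx : Squarefree (rch K x)) : minpoly K x = rch K x := by
  refine eq_of_monic_of_associated (minpoly.monic (Algebra.IsIntegral.isIntegral x))
    (rch_monic K x) (associated_of_dvd_dvd (minpoly_dvd_rch x) ?_)
  have : Nonempty (Fin (deg K B)) := ⟨⟨0, deg_pos K B⟩⟩
  have hs := (PerfectField.separable_iff_squarefree.2 hx).map (f := algebraMap K (AlgebraicClosure K))
  rw [← map_dvd_map' (algebraMap K (AlgebraicClosure K))]
  refine (IsAlgClosed.splits _).dvd_of_roots_le_roots hs.ne_zero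
    ((Multiset.le_iff_subset (nodup_roots hs)).2 fun t ht => ?_)
  have h1 := spectrum.subset_polynomial_aeval (sp K B x)
    ((minpoly K x).map (algebraMap K (AlgebraicClosure K)))
    ⟨t, Matrix.mem_spectrum_iff_isRoot_charpoly.2 (by rw [sp_charpoly]; exact isRoot_of_mem_roots ht), rfl⟩
  rw [aeval_map_algebraMap, aeval_algHom_apply, minpoly.aeval, map_zero, spectrum.zero_eq] at h1
  exact (mem_roots (map_monic_ne_zero (minpoly.monic (Algebra.IsIntegral.isIntegral x)))).2 h1

theorem regular_of_squarefree {x : B} (hx : Squarefree (rch K x)) :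
    (minpoly K x).natDegree = deg K B := by
  rw [minpoly_eq_rch_of_squarefree hx, rch_natDegree]

/-- elements with the same separable reduced characteristic polynomial are conjugate -/
theorem conj_of_rch_eq {x y : B} (hx : Squarefree (rch K x)) (h : rch K x = rch K y) :
    ∃ u : Bˣ, y = u * x * ↑u⁻¹ :=
  conj_of_regular (regular_of_squarefree hx) (by
    rw [minpoly_eq_rch_of_squarefree hx, minpoly_eq_rch_of_squarefree (h ▸ hx), h])

end Reg

end Crest.Agent.T24.Csa
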