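import Crest.Agent.T24.InDef_71
import Crest.Agent.T24.HsmC_23

/-! Row 24 (helper23): interpolation with approximation of the element; the `N`-adic filter in
valuation words. -/

set_option autoImplicit false

noncomputable section

open scoped TensorProduct Topology Valued
open Module Polynomial NumberField IsDedekindDomain Filter WithZero
open Crest.Agent.T24.Csa Crest.Agent.T24.Asa

namespace Crest.Agent.T24.Hsm

universe u v w

variable {K : Type u} [Field K] [NumberField K]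

/-- conjugation into a neighbourhood, in coordinates -/
theorem conj_coord (F : Type*) [NontriviallyNormedField F] [CompleteSpace F] [CharZero F]
    {C : Type*} [Ring C] [Algebra F C] [Algebra.IsCentral F C] [IsSimpleRing C]
    [FiniteDimensional F C] {ι : Type*} (b : Basis ι F C) {y : C} (hs : (rch F y).Separable)
    {δ : ℝ} (hδ : 0 < δ) :
    ∃ ε > 0, ∀ x : C, (∀ i < deg F C, ‖(rch F x).coeff i - (rch F y).coeff i‖ < ε) →
      ∃ t : ι → F, ∃ η > 0, ∀ g : C, (∀ i, ‖b.repr g i - t i‖ < η) →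
        IsUnit g ∧ ∀ i, ‖b.repr (g * x * Ring.inverse g) i - b.repr y i‖ < δ := by
  have := Module.Finite.finite_basis b
  have := Fintype.ofFinite ι
  let _ := Opn.nrmR F C
  let _ := Opn.nrmA F C
  have hO : IsOpen {x : C | ∀ i, ‖b.repr x i - b.repr y i‖ < δ} := by
    simp only [Set.ofPred_forall]
    exact isOpen_iInter_of_finite fun i => isOpen_lt
      ((b.coord i).continuous_of_finiteDimensional.sub continuous_const).norm continuous_const
  obtain ⟨ε, hε, h⟩ := conj_into F hs (hO.mem_nhds fun i => by simpa using hδ)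
  refine ⟨ε, hε, fun x hx => ?_⟩
  obtain ⟨g, hg, -⟩ := h x hx
  have h1 := (Opn.ev_isUnit F g.isUnit).and (((continuousAt_id.mul continuousAt_const).mul
    (Opn.inverse_continuousAt F g.isUnit)).eventually_mem (hO.mem_nhds (x := g * x * Ring.inverse (g : C))
      (by simpa using hg)))
  have h2 : Tendsto b.equivFun.symm (𝓝 (b.equivFun g)) (𝓝 g) := by
    simpa using b.equivFun.symm.toLinearMap.continuous_of_finiteDimensional.tendsto (b.equivFun g)
  obtain ⟨η, hη, h3⟩ := Metric.eventually_nhds_iff.1 (h2.eventually h1)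
  refine ⟨b.equivFun g, η, hη, fun g' hg' => ?_⟩
  have := h3 (y := b.equivFun g') ((dist_pi_lt_iff hη).2 fun i => by rw [dist_eq_norm]; exact hg' i)
  rwa [LinearEquiv.symm_apply_apply] at this

theorem tmul_conj {K F B : Type*} [Field K] [Field F] [Algebra K F] [Ring B] [Algebra K B] (u : Bˣ)
    (z : B) : (1 : F) ⊗ₜ[K] (u : B) * 1 ⊗ₜ z * Ring.inverse ((1 : F) ⊗ₜ[K] (u : B)) =
      1 ⊗ₜ (u * z * ↑u⁻¹) := by
  have h5 : Ring.inverse ((1 : F) ⊗ₜ[K] (u : B)) = 1 ⊗ₜ (↑u⁻¹ : B) :=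
    Ring.inverse_unit (Units.map (Algebra.TensorProduct.includeRight (R := K)
      (A := F) (B := B)).toMonoidHom u)
  simp [h5]

theorem isUnit_of_tmul {K F B : Type*} [Field K] [Field F] [Algebra K F] [Ring B] [Algebra K B]
    [CharZero K] [CharZero F] [Algebra.IsCentral K B] [IsSimpleRing B] [FiniteDimensional K B] {b : B}
    (h : IsUnit ((1 : F) ⊗ₜ[K] b)) : IsUnit b := by
  have := (isUnit_iff_Nrd (K := F) _).1 h
  rw [Nrd_def, rch_tmul, coeff_map] at this
  rw [isUnit_iff_Nrd (K := K), Nrd_def]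
  exact mul_ne_zero (by simp) fun h0 => this (by rw [h0, map_zero, mul_zero])

theorem exists_norm_exp (v : Pl K) (m : ℕ) :
    ∃ δ > 0, ∀ x : v.adicCompletion K, ‖x‖ < δ → Valued.v x ≤ exp (-(m : ℤ)) := by
  obtain ⟨x, hx⟩ := v.valuedAdicCompletion_surjective K (exp (-(m : ℤ)))
  refine ⟨‖x‖, norm_pos_iff.2 ?_, fun y hy => hx ▸ (Valued.toNormedField.norm_lt_iff.1 hy).le⟩
  rintro rfl
  exact exp_ne_zero (hx.symm.trans (map_zero _))

variable {B : Type v} [Ring B] [Algebra K B] [Algebra.IsCentral K B] [IsSimpleRing B]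
  [FiniteDimensional K B] {n : ℕ}

/-- **interpolation with approximation of the element** at a finite set `S` of finite places that
contains the ramified ones -/
theorem near_loc (hn : finrank K B = n ^ 2) (S : Finset (Pl K)) (hne : S.Nonempty)
    (hS : ∀ v ∉ S, Spl B n (algebraMap K (v.adicCompletion K)))
    (y : ∀ v : Pl K, v.adicCompletion K ⊗[K] B)
    (hy : ∀ v ∈ S, (rch (v.adicCompletion K) (y v)).Separable) {ι : Type*} (e : Basis ι K B)
    {δ : ℝ} (hδ : 0 < δ) :
    ∃ ε > 0, ∀ P : K[X], P.Monic → P.natDegree = n →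
      (∀ v ∈ S, ∀ i < n, ‖algebraMap K _ (P.coeff i) - (rch (v.adicCompletion K) (y v)).coeff i‖ < ε) →
      (∀ ρ : K →+* ℝ, Spl B n ρ ∨ ∀ x : ℝ, ¬ (P.map ρ).IsRoot x) →
      P.Separable ∧ ∃ z : B, rch K z = P ∧ ∀ v ∈ S, ∀ i,
        ‖algebraMap K _ (e.repr z i) - (e.baseChange (v.adicCompletion K)).repr (y v) i‖ < δ := by
  classical
  have := Module.Finite.finite_basis e
  have := Fintype.ofFinite ι
  have hd : ∀ v : Pl K, deg (v.adicCompletion K) (v.adicCompletion K ⊗[K] B) = n :=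
    fun v => deg_eq _ (by rw [finrank_baseChange, hn])
  choose ε₁ p₁ h₁ using fun v : S => exists_eps (v.1.adicCompletion K) (hy v v.2)
  choose ε₂ p₂ h₂ using fun v : S => conj_coord (v.1.adicCompletion K) (e.baseChange _) (hy v v.2) hδ
  obtain ⟨ε, hε, h⟩ := exists_min Finset.univ (fun v => min (ε₁ v) (ε₂ v))
    fun v => lt_min (p₁ v) (p₂ v)
  refine ⟨ε, hε, fun P hP hP' hc hr => ?_⟩
  have h3 := fun v : S => h₁ v (P.map (algebraMap K _)) (hP.map _)
    (by rw [natDegree_map, hP', hd]) fun i hi => by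
      rw [coeff_map]
      exact (hc v v.2 i (hd v ▸ hi)).trans_le ((h v (Finset.mem_univ _)).trans (min_le_left _ _))
  obtain ⟨v₀, h₀⟩ := hne
  have hs : P.Separable := (separable_map _).1 (h3 ⟨v₀, h₀⟩).1
  obtain ⟨z, -, rfl⟩ := interp_loc hn hP hP' hs (fun v => by
    by_cases hv : v ∈ S
    · obtain ⟨-, z, -, hz⟩ := h3 ⟨v, hv⟩
      exact .inr ⟨z, hz⟩
    · exact .inl (hS v hv)) hr
  choose t η hη ht using fun v : S => h₂ v (1 ⊗ₜ z) fun i hi => by
    rw [rch_tmul, coeff_map]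
    exact (hc v v.2 i (hd v ▸ hi)).trans_le ((h v (Finset.mem_univ _)).trans (min_le_right _ _))
  obtain ⟨η₀, q₀, r₀⟩ := exists_min Finset.univ η hη
  obtain ⟨v₁, h₁⟩ := exists_notMem S
  choose a ha _ using fun i => approx_real S v₁ h₁ (fun v => if h : v ∈ S then t ⟨v, h⟩ i else 0) 0 q₀
  have hb := fun v : S => ht v (1 ⊗ₜ e.equivFun.symm a) fun i => by
    rw [Basis.baseChange_repr_tmul, ← Algebra.algebraMap_eq_smul_one, ← e.equivFun_apply,
      LinearEquiv.apply_symm_apply]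
    simpa only [dif_pos v.2] using (ha i v v.2).trans_le (r₀ v (Finset.mem_univ _))
  obtain ⟨u, hu⟩ := isUnit_of_tmul (hb ⟨v₀, h₀⟩).1
  have h5 := fun (v : S) i => (hb v).2 i
  simp only [← hu, tmul_conj, Basis.baseChange_repr_tmul, ← Algebra.algebraMap_eq_smul_one] at h5
  exact ⟨hs, (u : B) * z * (u⁻¹ : Bˣ), rch_units_conj u z, fun v hv => h5 ⟨v, hv⟩⟩

/-- the same around a global element, in valuation words -/
theorem near_val (hn : finrank K B = n ^ 2) (S : Finset (Pl K)) (hne : S.Nonempty)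
    (hS : ∀ v ∉ S, Spl B n (algebraMap K (v.adicCompletion K))) {y : B}
    (hy : (rch K y).Separable) {ι : Type*} (e : Basis ι K B) (m : ℕ) :
    ∃ m' : ℕ, ∀ P : K[X], P.Monic → P.natDegree = n →
      (∀ v ∈ S, ∀ i < n, v.valuation K (P.coeff i - (rch K y).coeff i) ≤ exp (-(m' : ℤ))) →
      (∀ ρ : K →+* ℝ, Spl B n ρ ∨ ∀ x : ℝ, ¬ (P.map ρ).IsRoot x) →
      P.Separable ∧ ∃ z : B, rch K z = P ∧
        ∀ v ∈ S, ∀ i, v.valuation K (e.repr (z - y) i) ≤ exp (-(m : ℤ)) := by
  choose δ hδ h using fun v : Pl K => exists_norm_exp v m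
  obtain ⟨δ₀, h₀, h₁⟩ := exists_min S δ hδ
  obtain ⟨ε, hε, h₂⟩ := near_loc hn S hne hS (fun v => 1 ⊗ₜ y)
    (fun v _ => by rw [rch_tmul]; exact hy.map) e h₀
  obtain ⟨m', hm⟩ := exists_exp_norm' S hε
  refine ⟨m', fun P h1 h2 h3 h4 => ?_⟩
  obtain ⟨hs, z, h5, h6⟩ := h₂ P h1 h2 (fun v hv i hi => hm v hv _ (by
    rw [rch_tmul, coeff_map, ← map_sub]
    exact (v.valuedAdicCompletion_eq_valuation' _).trans_le (h3 v hv i hi))) h4
  refine ⟨hs, z, h5, fun v hv i => ?_⟩
  have := h v _ ((h6 v hv i).trans_le (h₁ v hv))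
  rw [Basis.baseChange_repr_tmul, ← Algebra.algebraMap_eq_smul_one, ← map_sub] at this
  rw [map_sub, Finsupp.sub_apply]
  exact (v.valuedAdicCompletion_eq_valuation' _).symm.trans_le this

end Crest.Agent.T24.Hsm

namespace Crest.Agent.T24.In

open Crest.Agent.T24.Hsm

universe u v w

namespace N23

variable {N : ℕ} {K : Type*} [Field K] [NumberField K]

theorem val_N {v : Pl K} : v.valuation K (N : K) < 1 ↔ (N : 𝓞 K) ∈ v.asIdeal := by
  simpa using v.valuation_lt_one_iff_mem (K := K) (N : 𝓞 K)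

theorem val_nat (v : Pl K) (b : ℕ) : v.valuation K (b : K) ≤ 1 := by simpa using val_int v b

theorem val_eq_one {v : Pl K} (h : (N : 𝓞 K) ∉ v.asIdeal) : v.valuation K (N : K) = 1 :=
  (val_nat v N).antisymm (not_lt.1 (mt val_N.1 h))

theorem val_coprime {v : Pl K} (h : (N : 𝓞 K) ∈ v.asIdeal) {b : ℕ} (hb : b.Coprime N) :
    v.valuation K (b : K) = 1 := val_eq_one fun h' => by
  obtain ⟨x, y, e⟩ := (Nat.isCoprime_iff_coprime.2 hb).map (Int.castRingHom (𝓞 K))
  refine v.isPrime.ne_top ((Ideal.eq_top_iff_one _).2 (e ▸ add_mem ?_ ?_))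
  exacts [Ideal.mul_mem_left _ _ (by simpa using h'), Ideal.mul_mem_left _ _ (by simpa using h)]

theorem val_ZN {v : Pl K} (h : (N : 𝓞 K) ∈ v.asIdeal) {q : ℚ} (hq : q ∈ ZN N) :
    v.valuation K (q : K) ≤ 1 := by
  rw [Rat.cast_def, map_div₀, val_coprime h hq, div_one]
  simpa using val_int v (q.num : 𝓞 K)

theorem finite_N (hN : N ≠ 0) : {v : Pl K | (N : 𝓞 K) ∈ v.asIdeal}.Finite :=
  (finite_ne_one (Nat.cast_ne_zero.2 hN)).subset fun _ hv => (val_N.2 hv).ne

theorem exists_N (hN : 2 ≤ N) : ∃ v : Pl K, (N : 𝓞 K) ∈ v.asIdeal := by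
  have h : Ideal.span {(N : 𝓞 K)} ≠ ⊤ := fun h => by
    have := (Ideal.span_singleton_eq_top.1 h).map (Algebra.norm ℤ)
    rw [← map_natCast (algebraMap ℤ (𝓞 K)), Algebra.norm_algebraMap,
      isUnit_pow_iff finrank_pos.ne', Int.isUnit_iff] at this
    omega
  obtain ⟨m, hm, h'⟩ := Ideal.exists_le_maximal _ h
  have h1 : (N : 𝓞 K) ∈ m := h' (Ideal.mem_span_singleton_self _)
  exact ⟨⟨m, hm.isPrime, fun h0 => by simp [h0] at h1; omega⟩, h1⟩

theorem exists_den_coprime {c : K} (h : ∀ v : Pl K, (N : 𝓞 K) ∈ v.asIdeal → v.valuation K c ≤ 1) :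
    ∃ b : ℕ, b ≠ 0 ∧ b.Coprime N ∧ ∃ r : 𝓞 K, (r : K) = b * c := by
  obtain ⟨d, hd, h1⟩ := exists_den ({()} : Finset Unit) fun _ => c
  obtain ⟨r, hr⟩ := h1 () (by simp)
  obtain ⟨s, hs⟩ := Ideal.mem_span_singleton'.1 (Ideal.absNorm_mem (Ideal.span {d}))
  obtain ⟨k, b, hb0, hb, t, ht⟩ := exists_dvd N (n := Ideal.absNorm (Ideal.span {d}))
    (by simpa using hd)
  refine ⟨b, hb0, hb, HeightOneSpectrum.mem_integers_of_valuation_le_one K _ fun v => ?_⟩
  by_cases hv : (N : 𝓞 K) ∈ v.asIdeal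
  · rw [map_mul]; exact mul_le_one' (val_nat v b) (h v hv)
  · have h2 : (N : K) ^ k * (b * c) = ((t * s * r : 𝓞 K) : K) := by
      have h3 : (N : K) ^ k * b = (s * d) * t := by
        have := congrArg (algebraMap (𝓞 K) K) hs
        simp only [map_mul, map_natCast] at this
        rw [show ((s : K) * d) = _ from this]; exact_mod_cast ht
      have h4 : ((t * s * r : 𝓞 K) : K) = t * s * r := by simp
      rw [h4, hr, ← mul_assoc, h3]; ring
    have := val_int v (t * s * r)
    rwa [← h2, map_mul, map_pow, val_eq_one hv, one_pow, one_mul] at this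

variable {B : Type*} [AddCommGroup B] [Module ℚ B] [Module K B] {ι : Type*} (e : Basis ι K B)

theorem repr_smul (q : ℚ) (x : B) (i : ι) : e.repr (q • x) i = (q : K) * e.repr x i := by
  rw [← algebraMap_smul K q x, map_smul]; simp

variable (N) in
/-- vectors with coordinates integral at the places dividing `N` -/
def Lam : Submodule (ZN N) B where
  carrier := {x | ∀ v : Pl K, (N : 𝓞 K) ∈ v.asIdeal → ∀ i, v.valuation K (e.repr x i) ≤ 1}
  add_mem' hx hy v hv i := by
    rw [map_add, Finsupp.add_apply]; exact Valuation.map_add_le _ (hx v hv i) (hy v hv i)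
  zero_mem' v _ i := by simp
  smul_mem' q x hx v hv i := by
    rw [show q • x = (q : ℚ) • x from rfl, repr_smul, map_mul]
    exact mul_le_one' (val_ZN hv q.2) (hx v hv i)

theorem lat_Lam [Finite ι] : Lat N (Lam N e) := by
  have := Fintype.ofFinite ι
  let b := (integralBasis K).smulTower e
  have h : Submodule.span (ZN N) (Set.range b) = Lam N e := by
    refine le_antisymm (Submodule.span_le.2 ?_) fun x hx => ?_
    · rintro _ ⟨⟨j, i⟩, rfl⟩ v _ k
      rw [Basis.smulTower_apply, map_smul, Basis.repr_self, integralBasis_apply,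
        Finsupp.smul_apply, smul_eq_mul, map_mul]
      refine mul_le_one' (val_int v _) ?_
      classical
      rw [Finsupp.single_apply]
      split_ifs <;> simp
    · rw [← e.sum_repr x]
      refine Submodule.sum_mem _ fun i _ => ?_
      obtain ⟨d, h0, hd, r, hr⟩ := exists_den_coprime fun v hv => hx v hv i
      have h1 : e.repr x i • e i = (d : ℚ)⁻¹ • ∑ j, (RingOfIntegers.basis K).repr r j • b (j, i) := by
        simp only [b, Basis.smulTower_apply, ← smul_assoc, ← Finset.sum_smul, integralBasis_apply,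
          ← map_zsmul, ← map_sum, Basis.sum_repr]
        rw [show algebraMap (𝓞 K) K r = d * e.repr x i from hr, Rat.smul_def]
        simp [h0]
      rw [h1]
      exact zsmul_mem (inv_mem_ZN hd) (Submodule.sum_mem _ fun j _ =>
        zsmul_mem' (Submodule.subset_span (Set.mem_range_self _)) _)
  exact h ▸ lat_span b b.span_eq
where
  zsmul_mem' {Λ : Submodule (ZN N) B} {x : B} (hx : x ∈ Λ) (n : ℤ) : n • x ∈ Λ :=
    _root_.zsmul_mem hx n

theorem basis_val (hN : N ≠ 0) [Finite ι] (a : B) :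
    (nr N a).HasBasis (fun _ : ℕ => True) fun m => {x | ∀ v : Pl K, (N : 𝓞 K) ∈ v.asIdeal →
      ∀ i, v.valuation K (e.repr (x - a) i) ≤ exp (-(m : ℤ))} := by
  refine ((lat_Lam e).nr_basis a).to_hasBasis (fun m _ => ?_) fun m _ => ⟨m, trivial, ?_⟩
  · have h0 : ((N : K) ^ m) ≠ 0 := pow_ne_zero _ (Nat.cast_ne_zero.2 hN)
    choose k hk using fun v : Pl K => exists_exp_le (val_ne_zero v h0)
    refine ⟨(finite_N hN).toFinset.sup k, trivial, fun x hx =>
      ⟨((N : ℚ) ^ m)⁻¹ • (x - a), fun v hv i => ?_, smul_inv_smul₀ (by positivity) _⟩⟩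
    rw [repr_smul, map_mul, Rat.cast_inv, map_inv₀, Rat.cast_pow, Rat.cast_natCast,
      inv_mul_le_one₀ (zero_lt_iff.2 (val_ne_zero v h0))]
    exact (hx v hv i).trans ((exp_neg_anti (Finset.le_sup (by simpa using hv))).trans (hk v))
  · rintro x ⟨y, hy, h⟩ v hv i
    rw [← h, repr_smul, map_mul, Rat.cast_pow, Rat.cast_natCast, map_pow]
    refine (mul_le_of_le_one_right' (hy v hv i)).trans ?_
    have h1 : v.valuation K (N : K) ≤ exp (-1 : ℤ) := by
      have := val_N.2 hv
      rwa [← exp_zero, ← exp_log (val_ne_zero v (Nat.cast_ne_zero.2 hN)), exp_lt_exp,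
        Int.lt_iff_add_one_le, ← le_sub_iff_add_le, zero_sub, ← exp_le_exp,
        exp_log (val_ne_zero v (Nat.cast_ne_zero.2 hN))] at this
    refine (pow_le_pow_left' h1 m).trans_eq ?_
    rw [← exp_nsmul]; simp

end N23

theorem valStmt : ValStmt.{u, v, w} := fun _ hN _ _ _ _ _ _ _ _ _ e a =>
  N23.basis_val e (by omega) a

theorem nearStmt : NearStmt.{u, v} := by
  intro N hN K _ _ B _ _ _ _ _ _ hS y₀ hy U hU
  have h0 : N ≠ 0 := by omega
  obtain ⟨m, -, hm⟩ := (N23.basis_val (Module.finBasis K B) h0 y₀).mem_iff.1 hU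
  obtain ⟨m', h⟩ := near_val (finrank_eq_deg_sq K B) (N23.finite_N h0).toFinset
    ((Set.Finite.toFinset_nonempty _).2 (N23.exists_N hN)) (fun v hv => hS v (by simpa using hv)) hy
    (Module.finBasis K B) m
  refine ⟨_, nr_zero (N := N) (V := K) ▸ (N23.basis_val (Basis.singleton Unit K) h0 0).mem_of_mem
    (i := m') trivial, fun P h1 h2 h3 h4 => ?_⟩
  obtain ⟨-, z, h5, h6⟩ := h P h1 h2 (fun v hv i _ => by
    simpa using h3 i v (by simpa using hv) ()) h4
  exact ⟨z, hm fun v hv => h6 v (by simpa using hv), h5⟩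

end Crest.Agent.T24.In
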