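import Crest.Agent.T24.Ct2A_10
import Crest.Agent.T24.Ct2B_10
import Crest.Agent.T24.InNear_23

/-!
# Row 24, CT(2) (helper10): `ct2Stmt`
-/

set_option autoImplicit false
set_option linter.unusedSectionVars false

noncomputable section

namespace Crest.Agent.T24.Ct2

open NumberField Filter Quaternion WithZero Module In Csa

universe u v w t

section Alg

variable {F : Type*} [Field F] {a c : F}

theorem cancel {e x y : ℍ[F,a,0,c]} (he : nq e ≠ 0) (h : e * x = e * y) : x = y := by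
  have h1 := congrArg (fun z => ⟨(nq e)⁻¹, 0, 0, 0⟩ * (star e * z)) h
  have h2 : (⟨(nq e)⁻¹, 0, 0, 0⟩ : ℍ[F,a,0,c]) * ⟨nq e, 0, 0, 0⟩ = 1 := by ext <;> simp [he]
  simpa only [← mul_assoc (star e), star_mul_nq, ← mul_assoc, h2, one_mul] using h1

theorem conj_id (s t u w p r : F) :
    (⟨1, -s, 0, 0⟩ : ℍ[F,a,0,c]) * (⟨1, s, 0, 0⟩ * ⟨0, 0, u, w⟩ * ⟨p, -(r * t * s), r * u, r * w⟩ *
      ⟨t, -(t * s), u, w⟩) = ⟨1, s, 0, 0⟩ * (⟨t, -(t * s), u, w⟩ *
      (⟨1, s, 0, 0⟩ * ⟨0, 0, u, w⟩ * ⟨p, -(r * t * s), r * u, r * w⟩)) := by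
  ext <;> simp <;> ring

variable (c) in
/-- the standard torus -/
def tor : QuadraticAlgebra F a 0 →+* ℍ[F,a,0,c] where
  toFun z := ⟨z.re, z.im, 0, 0⟩
  map_one' := rfl
  map_zero' := rfl
  map_add' x y := by ext <;> simp
  map_mul' x y := by ext <;> simp

theorem tor_apply (z : QuadraticAlgebra F a 0) : tor c z = ⟨z.re, z.im, 0, 0⟩ := rfl

theorem tor_star (z : QuadraticAlgebra F a 0) : tor c (star z) = star (tor c z) := by
  ext <;> simp [tor_apply]

theorem nq_star (x : ℍ[F,a,0,c]) : nq (star x) = nq x := by simp [nq]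

theorem unit_iff (z : QuadraticAlgebra F a 0) :
    z * star z = 1 ↔ z.re ^ 2 - a * z.im ^ 2 = 1 := by
  rw [← QuadraticAlgebra.algebraMap_norm_eq_mul_star, ← map_one (algebraMap F _),
    (algebraMap F (QuadraticAlgebra F a 0)).injective.eq_iff, QuadraticAlgebra.norm_def]
  constructor <;> intro h <;> linear_combination h

theorem exists_cross (hc : c ≠ 0) {n₁ n₂ n₃ : F}
    (h : (⟨0, n₁, n₂, n₃⟩ : ℍ[F,a,0,c]) ≠ 0) : ∃ e₁ e₂ e₃ : F,
    (⟨0, c * (n₃ * e₂ - n₂ * e₃), a * (n₁ * e₃ - n₃ * e₁), n₁ * e₂ - n₂ * e₁⟩ : ℍ[F,a,0,c]) ≠ 0 := by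
  by_contra h0
  push Not at h0
  have h1 := congrArg QuaternionAlgebra.imK (h0 1 0 0)
  have h2 := congrArg QuaternionAlgebra.imK (h0 0 1 0)
  have h3 := congrArg QuaternionAlgebra.imI (h0 0 1 0)
  simp [hc] at h1 h2 h3
  exact h (by ext <;> simp [h1, h2, h3])

end Alg

variable {k K B : Type*} [Field k] [NumberField k] [Field K] [NumberField K] [Algebra k K]
  [StarRing K] [Ring B] [StarRing B] [Algebra K B] [StarModule K B] [Algebra.IsCentral K B]
  [IsSimpleRing B] [FiniteDimensional K B] [Algebra k B] [IsScalarTower k K B] [Algebra ℚ B]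
  {M : ℕ}

theorem ev_deep (hM : M ≠ 0) (hT : ∀ w ∈ TT K B, (M : 𝓞 K) ∈ w.asIdeal) (m : ℕ) :
    ∀ᶠ x in nr M (1 : B), x ∈ Deep K B m := by
  have := fdQ K B
  have h1 : Tendsto (fun x : B => x - 1) (nr M 1) (nr M 0) := by
    simpa using nr_sub (tendsto_id (x := nr M (1 : B))) (nr_const (1 : B))
  have h2 := (nr_Nrd (N := M) K (0 : B)).comp h1
  filter_upwards [h2.eventually
    ((N23.basis_val (Basis.singleton Unit K) hM _).mem_of_mem (i := m + 1) trivial)] with x hx w hw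
  have h3 := hx w (hT w hw) ()
  simp only [Function.comp, Basis.singleton_repr, map_zero, sub_zero] at h3
  exact h3.trans_lt (by rw [exp_lt_exp]; omega)

/-- the hypotheses -/
structure Hyp (k K : Type*) {B : Type*} [Field k] [NumberField k] [Field K] [NumberField K]
    [Algebra k K] [StarRing K] [Ring B] [StarRing B] [Algebra K B] [StarModule K B]
    [Algebra.IsCentral K B] [IsSimpleRing B] [FiniteDimensional K B] (M : ℕ) (θ : K) (δ : k) (m : ℕ)
    (N : Subgroup (unitary B)) : Prop where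
  an : Aniso B
  two : 2 ∣ M
  ne : M ≠ 0
  tt : ∀ w ∈ TT K B, (M : 𝓞 K) ∈ w.asIdeal
  sk : star θ = -θ
  ne' : θ ≠ 0
  sq : θ ^ 2 = algebraMap k K δ
  un : ∀ v : Hn.Pl k, (M : 𝓞 k) ∉ v.asIdeal → v.valuation k δ = 1
  idx : N.relIndex (SU K B) ≠ 0
  inv : ∀ u : unitary B, ∀ g ∈ SUm K B m, u * g * u⁻¹ * g⁻¹ ∈ N

variable {θ : K} {δ : k} {m : ℕ} {N : Subgroup (unitary B)}

theorem Hyp.le (H : Hyp k K M θ δ m N) : 2 ≤ M := Nat.le_of_dvd (Nat.pos_of_ne_zero H.ne) H.two

variable {F : Type*} [Field F] [NumberField F] [Algebra k F] (q : Quat F B)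

/-- the coordinates as an additive map -/
def elA : (Fin 4 → F) →+ B where
  toFun x := q.ι ⟨x 0, x 1, x 2, x 3⟩
  map_zero' := map_zero q.ι
  map_add' x y := by rw [← map_add]; rfl

/-- LEMMA Q -/
theorem Hyp.lemQ (H : Hyp k K M θ δ m N) (hk : ∀ y : k, q.i (algebraMap k F y) = algebraMap k B y)
    (hc : ∀ v : Hn.Pl F, (M : 𝓞 F) ∉ v.asIdeal → q.c ∈ Hn.LN (q.a : F) v) :
    ∀ᶠ s in nr M (0 : F), ∀ g : q.H, ⟨1, -s, 0, 0⟩ * g = ⟨1, s, 0, 0⟩ →
      ∀ G : unitary B, (G : B) = q.ι g → G ∈ N := by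
  have hδ : δ ≠ 0 := fun h => H.ne' (by simpa [h] using H.sq)
  have h1 : Tendsto (elA q) (nr M ![1, 0, 0, 0]) (nr M 1) := by
    have := nr_map (N := M) (elA q) ![1, 0, 0, 0]
    rwa [show elA q ![1, 0, 0, 0] = 1 from map_one q.ι] at this
  obtain ⟨m₁, -, h2⟩ := (N23.basis_val (Pi.basisFun F (Fin 4)) H.ne _).mem_iff.1
    (h1.eventually (ev_deep H.ne H.tt m))
  have hS : ∀ v, v ∈ (N23.finite_N (K := F) H.ne).toFinset ↔ (M : 𝓞 F) ∈ v.asIdeal := fun v => by
    simp
  obtain ⟨m', h3⟩ := core (N23.finite_N H.ne).toFinset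
    ((Set.Finite.toFinset_nonempty _).2 (N23.exists_N H.le)) q.a q.c
    (Units.mk0 (algebraMap k F δ) (by simpa using hδ))
    (fun v hv => by
      obtain ⟨M', h⟩ := H.two
      refine N23.val_eq_one (N := 2) fun h' => hv ((hS v).2 ?_)
      rw [h, Nat.cast_mul]
      exact Ideal.mul_mem_right _ _ h')
    (fun v hv => (Asa.below_eq_one v δ).2 (H.un _ fun h => hv ((hS v).2 (by
      simpa using Ideal.mem_comap.1 h))))
    (fun v hv => hc v fun h => hv ((hS v).2 h)) m₁
  filter_upwards [(N23.basis_val (Basis.singleton Unit F) H.ne 0).mem_of_mem (i := max m' m₁)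
    trivial] with s hs g hg G hG
  replace hs : ∀ v : Hn.Pl F, (M : 𝓞 F) ∈ v.asIdeal →
      v.valuation F s ≤ exp (-((max m' m₁ : ℕ) : ℤ)) := fun v hv => by simpa using hs v hv ()
  by_cases hs0 : s = 0
  · have : g = 1 := by
      have h4 : (⟨1, -s, 0, 0⟩ : q.H) = 1 := by ext <;> simp [hs0]
      rw [h4, one_mul] at hg
      rw [hg]; ext <;> simp [hs0]
    rw [show G = 1 from Subtype.ext (by rw [hG, this, map_one]; rfl)]
    exact one_mem _
  obtain ⟨t, u, w, p, r, z₁, z₂, e1, e2, e3, e4⟩ := h3 s hs0 fun v hv =>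
    (hs v ((hS v).1 hv)).trans (Asa.exp_neg_anti (le_max_left _ _))
  simp only [Units.val_mk0] at e2 e3
  have hy : nq (⟨t, -(t * s), u, w⟩ : q.H) = 1 := by simp only [nq]; linear_combination e1
  have hx : nq ((⟨1, s, 0, 0⟩ * ⟨0, 0, u, w⟩ * ⟨p, -(r * t * s), r * u, r * w⟩ : q.H)) =
      z₁ ^ 2 - algebraMap k F δ * z₂ ^ 2 := by
    rw [nq_mul, nq_mul, ← e2]
    simp only [nq]
    rw [show (0 : F) ^ 2 - q.a * 0 ^ 2 - q.c * u ^ 2 + q.a * q.c * w ^ 2 =
      1 - t ^ 2 * (1 - s ^ 2 * q.a) by linear_combination e1,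
      show p ^ 2 - q.a * (-(r * t * s)) ^ 2 - q.c * (r * u) ^ 2 + q.a * q.c * (r * w) ^ 2 =
      p ^ 2 + (1 - t ^ 2) * r ^ 2 by linear_combination r ^ 2 * e1]
    ring
  rw [← e2] at e3
  have hD := left_ne_zero_of_mul (left_ne_zero_of_mul e3)
  have hν := right_ne_zero_of_mul (left_ne_zero_of_mul e3)
  obtain ⟨U, hU⟩ := q.comm (θ := algebraMap K B θ) (d := algebraMap k F δ)
    (by rw [T24.star_algebraMap (K := K), H.sk, map_neg])
    (by rw [← map_mul, ← pow_two θ, H.sq, hk, ← IsScalarTower.algebraMap_apply])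
    (Algebra.commutes θ) hx (by rwa [hx, ← e2]) (y := ⟨t, -(t * s), u, w⟩) (g := g)
    (cancel (e := ⟨1, -s, 0, 0⟩) (by simpa [nq, mul_comm] using hD) (by
      rw [conj_id, ← hg]; simp only [mul_assoc])) ⟨_, q.ι_mem hy⟩ G rfl hG
  rw [← hU]
  refine H.inv U _ ⟨?_, ?_⟩
  · refine q.char_one (Nrd K : B →*₀ K).toMonoidHom (w := 1 + ⟨t, -(t * s), u, w⟩)
      (r := ⟨0, 0, q.a * w, u⟩) (fun h => mul_ne_zero q.a.ne_zero hν ?_) (q.aniso H.an fun h => hν ?_)
      (by ext <;> simp <;> ring) ?_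
    · simp only [nq] at h
      linear_combination -h - q.a * e1
    · have h5 := congrArg QuaternionAlgebra.imJ h
      have h6 := congrArg QuaternionAlgebra.imK h
      simp at h5 h6
      rw [h5, h6] at e1
      linear_combination -e1
    · rw [star_add, star_one, mul_add, mul_one, mul_star_nq, hy, add_comm]; rfl
  · refine h2 (a := ![t, -(t * s), u, w]) fun v hv i => ?_
    obtain ⟨e5, e6, e7⟩ := e4 v ((hS v).2 hv)
    fin_cases i
    · simpa using e5
    · have h5 : v.valuation F t ≤ 1 := by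
        have := (v.valuation F).map_add_le (e5.trans (Asa.exp_neg_le_one _)) (map_one _).le
        rwa [sub_add_cancel] at this
      simpa using (mul_le_of_le_one_left' h5).trans
        ((hs v hv).trans (Asa.exp_neg_anti (le_max_right _ _)))
    · simpa using e6
    · simpa using e7

/-- the torus inside `B` -/
def lam : QuadraticAlgebra F (q.a : F) 0 →+* B := q.ι.comp (tor (q.c : F))

theorem lam_apply (z : QuadraticAlgebra F (q.a : F) 0) :
    lam q z = q.i z.re + q.i z.im * q.j := by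
  simp [lam, tor_apply, Quat.ι_mk, Quat.el]

theorem lam_star (z : QuadraticAlgebra F (q.a : F) 0) : lam q (star z) = star (lam q z) := by
  rw [lam, RingHom.comp_apply, tor_star, q.ι_star]; rfl

/-- the filtration of the torus -/
def fil [FiniteDimensional ℚ B] (hM : 2 ≤ M) (O : Subalgebra (ZN M) B) (h : O.toSubmodule.FG) :
    Fil (QuadraticAlgebra F (q.a : F) 0) where
  P j := (dp O.toSubmodule j).toAddSubgroup.comap (lam q).toAddMonoidHom
  one := mem_dp_zero (Λ := O.toSubmodule) (by simp)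
  mul {_ _ x y} hx hy := by
    change lam q (x * y) ∈ dp _ _
    rw [map_mul]; exact mul_mem_dp O hx hy
  anti hkl := AddSubgroup.comap_mono (dp_anti _ hkl)
  qinv {j x} hj hx := by
    obtain ⟨y, hy, h1, h2⟩ := exists_qinv hM h hj (x := lam q x) hx
    have h3 : IsUnit (lam q (1 + x)) := by rw [map_add, map_one]; exact ⟨⟨_, _, h1, h2⟩, rfl⟩
    have h4 : IsUnit (1 + x) := by
      rw [QuadraticAlgebra.isUnit_iff_norm_isUnit, isUnit_iff_ne_zero]
      intro h0
      have := h3.mul h3.star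
      rw [← lam_star, ← map_mul, ← QuadraticAlgebra.algebraMap_norm_eq_mul_star, h0, map_zero,
        map_zero] at this
      exact not_isUnit_zero this
    obtain ⟨w, hw⟩ := h4.exists_right_inv
    refine ⟨w - 1, ?_, by rwa [add_sub_cancel]⟩
    change lam q (w - 1) ∈ dp _ _
    have h5 := congrArg (lam q) hw
    rw [map_mul, map_add, map_one] at h5
    rwa [map_sub, map_one, ← left_inv_eq_right_inv h2 h5, add_sub_cancel_left]

theorem Hyp.near (H : Hyp k K M θ δ m N) (hk : ∀ y : k, q.i (algebraMap k F y) = algebraMap k B y)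
    (hc : ∀ v : Hn.Pl F, (M : 𝓞 F) ∉ v.asIdeal → q.c ∈ Hn.LN (q.a : F) v) :
    ∀ᶠ z in comap (lam q) (nr M (1 : B)), z * star z = 1 →
      ∀ G : unitary B, (G : B) = lam q z → G ∈ N := by
  have := fdQ K B
  have h0 : Tendsto (lam q) (comap (lam q) (nr M (1 : B))) (nr M 1) := tendsto_comap
  have h1 : Tendsto (fun z => star (lam q z)) (comap (lam q) (nr M (1 : B))) (nr M 1) := by
    simpa using nr_lin (starAddEquiv (R := B)).toAddMonoidHom h0
  have h2 : Tendsto (fun z : QuadraticAlgebra F (q.a : F) 0 => 2⁻¹ * (1 + z.re))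
      (comap (lam q) (nr M (1 : B))) (nr M 1) := by
    refine nr_of_inj q.i.toAddMonoidHom q.i.injective ?_
    have h3 := nr_mul (nr_const (q.i 4⁻¹)) (nr_add (nr_const (q.i 2)) (nr_add h0 h1))
    convert h3 using 2 with z
    · rw [← lam_star, ← map_add, lam_apply]
      simp only [QuadraticAlgebra.re_add, QuadraticAlgebra.im_add, QuadraticAlgebra.re_star,
        QuadraticAlgebra.im_star, add_neg_cancel, map_zero, zero_mul, add_zero, ← map_add,
        ← map_mul]
      exact congrArg q.i (by ring)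
    · rw [← map_one q.i, ← map_add, ← map_add, ← map_mul]
      exact congrArg q.i (by norm_num)
  have h4 : Tendsto (fun z : QuadraticAlgebra F (q.a : F) 0 => 2⁻¹ * z.im)
      (comap (lam q) (nr M (1 : B))) (nr M 0) := by
    refine nr_of_inj q.i.toAddMonoidHom q.i.injective ?_
    have h3 := nr_mul (nr_mul (nr_const (q.i (4 * q.a)⁻¹)) (nr_sub h0 h1)) (nr_const q.j)
    convert h3 using 2 with z
    · rw [← lam_star, ← map_sub, lam_apply]
      simp only [QuadraticAlgebra.re_sub, QuadraticAlgebra.im_sub, QuadraticAlgebra.re_star,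
        QuadraticAlgebra.im_star, sub_self, map_zero, zero_mul, add_zero, zero_add, mul_assoc,
        q.jj, ← map_mul]
      exact congrArg q.i (by field_simp; ring)
    · simp
  have h5 := nr_mul h4 ((nr_inverse H.le).comp h2)
  rw [zero_mul] at h5
  filter_upwards [h5.eventually (H.lemQ q hk hc), h2.eventually (ev_isUnit H.le)] with z h6 h7 h8
  have h9 : 1 + z.re ≠ 0 := right_ne_zero_of_mul h7.ne_zero
  have h10 := (unit_iff z).1 h8
  refine h6 (tor _ z) ?_
  ext <;> simp [tor_apply] <;> field_simp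
  · linear_combination h10
  · ring

theorem Hyp.torus [FiniteDimensional ℚ B] (H : Hyp k K M θ δ m N)
    (hk : ∀ y : k, q.i (algebraMap k F y) = algebraMap k B y)
    (hc : ∀ v : Hn.Pl F, (M : 𝓞 F) ∉ v.asIdeal → q.c ∈ Hn.LN (q.a : F) v)
    {O : Subalgebra (ZN M) B} (hO : Lat M O.toSubmodule) {e : ℕ}
    (he : (M : ℚ) ^ e * (2 * ((N.relIndex (SU K B)).factorial : ℚ))⁻¹ ∈ ZN M)
    {z : QuadraticAlgebra F (q.a : F) 0} (hz : z * star z = 1)
    (h : lam q z - 1 ∈ dp O.toSubmodule (2 * e + 1)) (G : unitary B) (hG : (G : B) = lam q z) :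
    G ∈ N := by
  set n := (N.relIndex (SU K B)).factorial with hn
  have hn0 : (n : F) ≠ 0 := Nat.cast_ne_zero.2 (Nat.factorial_ne_zero _)
  obtain ⟨k₁, -, h1⟩ := ((hO.nr_basis 1).comap (lam q)).mem_iff.1 (H.near q hk hc)
  have key := (fil q H.le O hO.fg).root (n := n) (e := e) (k₁ := k₁)
    (c := algebraMap F _ (2 * n : F)⁻¹) (by
      have : (2 * n : QuadraticAlgebra F (q.a : F) 0) = algebraMap F _ (2 * n) := by
        rw [map_mul, map_natCast, map_ofNat]
      rw [this, ← map_mul, inv_mul_cancel₀ (by simpa using hn0), map_one]) (by ext <;> simp)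
    (fun j x hx => by
      obtain ⟨y, hy, h2⟩ := hx
      refine ⟨_, zsmul_mem he hy, ?_⟩
      change _ = lam q (_ * x)
      have h3 : lam q (algebraMap F _ (2 * n : F)⁻¹) = algebraMap ℚ B (2 * n : ℚ)⁻¹ := by
        have : (2 * n : F)⁻¹ = algebraMap ℚ F (2 * n : ℚ)⁻¹ := by simp
        rw [lam_apply, this]
        simp only [QuadraticAlgebra.algebraMap_re, QuadraticAlgebra.algebraMap_im, map_zero,
          zero_mul, add_zero]
        exact RingHom.map_rat_algebraMap _ _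
      rw [map_mul, h3, ← Algebra.smul_def, show lam q x = _ from h2.symm, smul_smul, smul_smul]
      congr 1; ring)
    ((N.toSubmonoid.map (unitary B).subtype).comap (lam q).toMonoidHom)
    (fun g w w' h2 h3 => by
      have h4 : nq (tor (q.c : F) w) ≠ 0 := fun h0 => by
        have := congrArg (fun y => nq (tor (q.c : F) y)) h2
        simp only [map_mul, nq_mul, h0, zero_mul, map_one] at this
        simp [nq] at this
      have h5 := congrArg (tor (q.c : F)) h3
      rw [map_mul, tor_star] at h5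
      have h6 : nq (tor (q.c : F) g) = 1 := by
        have := congrArg nq h5
        rw [nq_mul, nq_star] at this
        exact mul_right_cancel₀ h4 (this.trans (one_mul _).symm)
      have h7 : (⟨_, q.ι_mem h6⟩ : unitary B) ∈ SU K B :=
        q.char_one (Nrd K : B →*₀ K).toMonoidHom (r := ⟨0, 0, 1, 0⟩) (by simp [nq]) h4
          (by ext <;> simp [tor_apply]) h5
      exact ⟨_, (Subgroup.pow_mem_of_relIndex_ne_zero_of_dvd H.idx h7 (n := n)
        fun j h8 h9 => Nat.dvd_factorial h8 h9).1, (map_pow (lam q) g n).symm⟩)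
    (fun x h2 h3 => by
      have h4 : lam q x ∈ unitary B := by
        rw [Unitary.mem_iff, ← lam_star, ← map_mul, ← map_mul, mul_comm, h2, map_one]; simp
      exact ⟨⟨_, h4⟩, h1 (show lam q x - 1 ∈ dp _ _ by
        rw [← map_one (lam q), ← map_sub]; exact h3) h2 _ rfl, rfl⟩)
    hz (show lam q (z - 1) ∈ dp _ _ by rwa [map_sub, map_one])
  obtain ⟨G', h2, h3⟩ := key
  rwa [show G = G' from Subtype.ext (hG.trans h3.symm)]

theorem ct (hB : Aniso B) : Ct.{t} k K B := by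
  intro M θ δ h1 h2 h3 h4 h5 h6 h7 m N h8 h9
  have H : Hyp k K M θ δ m N := ⟨hB, h1, h2, h3, h4, h5, h6, h7, h8, h9⟩
  have := fdQ K B
  obtain ⟨O, hO⟩ := exists_od M B
  obtain ⟨e, he⟩ := exists_pow_mul_mem M (2 * ((N.relIndex (SU K B)).factorial : ℚ))⁻¹
  filter_upwards [hO.ev_nr 1 (2 * e + 1)] with x hx F _ _ _ q hk hc ⟨x₀, x₁, x₂, x₃, h⟩ hu
  have h10 : nq (⟨x₀, x₁, x₂, x₃⟩ : q.H) = 1 := q.nq_eq_one (by rwa [q.ι_mk, ← h])
  by_cases h0 : (⟨0, x₁, x₂, x₃⟩ : q.H) = 0
  · obtain ⟨-, rfl, rfl, rfl⟩ := QuaternionAlgebra.mk.inj h0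
    have h11 : x = lam q ⟨x₀, 0⟩ := by rw [h]; rfl
    exact H.torus q hk hc hO he (z := ⟨x₀, 0⟩) ((unit_iff _).2 (by simpa [nq] using h10))
      (h11 ▸ hx) _ h11
  obtain ⟨e₁, e₂, e₃, h11⟩ := exists_cross q.c.ne_zero h0
  let q' := q.rot _ _ rfl rfl (by ext <;> simp <;> ring) (q.aniso hB h0) (q.aniso hB h11)
  have h12 : x = lam q' ⟨x₀, 1⟩ := by
    rw [lam_apply, h]
    change _ = q.i x₀ + q.i 1 * q.ι _
    simp [Quat.ι_mk, Quat.el, add_assoc]
  refine H.torus q' hk (fun v hv => ?_) hO he (z := ⟨x₀, 1⟩) ?_ (h12 ▸ hx) _ h12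
  · have : CharZero (v.adicCompletion F) := algebraRat.charZero _
    refine (Hn.Loc.mem_LN_iff v _ _).2 (split_rot (n₁ := algebraMap F _ x₁) (n₂ := algebraMap F _ x₂)
      (n₃ := algebraMap F _ x₃) (e₁ := algebraMap F _ e₁) (e₂ := algebraMap F _ e₂)
      (e₃ := algebraMap F _ e₃) (by simp) (by simp) ((Hn.Loc.mem_LN_iff v _ _).1 (hc v hv)) ?_ ?_
      (by simp) (by simp))
    · simp only [← map_pow, ← map_mul, ← map_add, ← map_sub]
      congr 1
      change -nq _ = _
      simp only [nq]; ring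
    · simp only [← map_pow, ← map_mul, ← map_add, ← map_sub]
      congr 1
      change -nq _ = _
      simp only [nq]; ring
  · have h13 : (q'.a : F) = -nq (⟨0, x₁, x₂, x₃⟩ : q.H) := rfl
    rw [unit_iff]
    simp only [nq] at h10 h13 ⊢
    linear_combination h10 - h13

theorem ct2Stmt : Ct2Stmt.{u, v, w, t} := fun _ _ hB => ct hB

end Crest.Agent.T24.Ct2
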