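import Crest.Agent.T24.EvBrDef_21

/-!
# Row 24, even step (helper20): the corner algebra
-/

set_option autoImplicit false
set_option linter.unusedSectionVars false

noncomputable section

namespace Crest.Agent.T24.Ev

open Module Csa
open scoped TensorProduct

universe u v w

namespace C20

theorem exists_fac {Ω n : Type*} [Field Ω] [Fintype n] [DecidableEq n] {E : Matrix n n Ω}
    (h : E * E = E) : ∃ (r : ℕ) (P : Matrix n (Fin r) Ω) (R : Matrix (Fin r) n Ω),
      P * R = E ∧ R * P = 1 := by
  let f := Matrix.toLin' E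
  let b := finBasis Ω (LinearMap.range f)
  refine ⟨_, LinearMap.toMatrix b (Pi.basisFun Ω n) (LinearMap.range f).subtype,
    LinearMap.toMatrix (Pi.basisFun Ω n) b f.rangeRestrict, ?_, ?_⟩
  · rw [← LinearMap.toMatrix_comp, show (LinearMap.range f).subtype ∘ₗ f.rangeRestrict = f from rfl,
      LinearMap.toMatrix_eq_toMatrix', LinearMap.toMatrix'_toLin']
  · rw [← LinearMap.toMatrix_comp, ← LinearMap.toMatrix_id (v₁ := b)]
    congr 1
    ext1 ⟨_, x, rfl⟩
    apply Subtype.ext
    change f (f x) = f x
    rw [← LinearMap.comp_apply, ← Matrix.toLin'_mul, h]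

variable {K B : Type*} [Field K] [Ring B] [Algebra K B] {e : B} (he : IsIdempotentElem e)

theorem left (x : he.Corner) : e * x.1 = x.1 := ((Subsemigroup.mem_corner_iff he).1 x.2).1

theorem right (x : he.Corner) : x.1 * e = x.1 := ((Subsemigroup.mem_corner_iff he).1 x.2).2

/-- an element of the corner -/
def mk (b : B) : he.Corner := ⟨e * b * e, b, rfl⟩

theorem val_mul (x y : he.Corner) : (x * y).1 = x.1 * y.1 := rfl

theorem val_add (x y : he.Corner) : (x + y).1 = x.1 + y.1 := rfl

theorem val_one : (1 : he.Corner).1 = e := rfl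

theorem val_zero : (0 : he.Corner).1 = 0 := rfl

theorem val_sum {ι : Type*} (s : Finset ι) (f : ι → he.Corner) :
    (∑ j ∈ s, f j).1 = ∑ j ∈ s, (f j).1 := by
  classical
  induction s using Finset.induction_on with
  | empty => rfl
  | insert a s h ih => rw [Finset.sum_insert h, Finset.sum_insert h, val_add, ih]

instance : Module K he.Corner where
  smul c x := ⟨c • x.1, (Subsemigroup.mem_corner_iff he).2
    ⟨by rw [mul_smul_comm, left], by rw [smul_mul_assoc, right]⟩⟩
  one_smul x := Subtype.ext (one_smul K x.1)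
  mul_smul a b x := Subtype.ext (mul_smul a b x.1)
  smul_zero a := Subtype.ext (smul_zero a)
  smul_add a x y := Subtype.ext (smul_add a x.1 y.1)
  add_smul a b x := Subtype.ext (add_smul a b x.1)
  zero_smul x := Subtype.ext (zero_smul K x.1)

instance : Algebra K he.Corner := Algebra.ofModule
  (fun c x y => Subtype.ext (smul_mul_assoc c x.1 y.1))
  fun c x y => Subtype.ext (mul_smul_comm c x.1 y.1)

variable (K) in
/-- the inclusion -/
def inc : he.Corner →ₗ[K] B where
  toFun x := x.1
  map_add' _ _ := rfl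
  map_smul' _ _ := rfl

variable [Algebra.IsCentral K B] [IsSimpleRing B]

theorem sand (x : he.Corner) (a b : B) : (mk he a * x * mk he b).1 = e * (a * x.1 * b) * e := by
  change e * a * e * x.1 * (e * b * e) = _
  rw [mul_assoc (e * a), left, mul_assoc e b, ← mul_assoc _ e, mul_assoc _ _ e, right]
  simp only [mul_assoc]

include K in
theorem simple (h0 : e ≠ 0) : IsSimpleRing he.Corner := by
  have : Nontrivial he.Corner := ⟨1, 0, fun h => h0 (congrArg Subtype.val h)⟩
  refine IsSimpleRing.of_eq_bot_or_eq_top fun I => ?_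
  rw [or_iff_not_imp_left, ← I.one_mem_iff]
  intro h
  obtain ⟨x, hx, hx0⟩ := SetLike.exists_of_lt (bot_lt_iff_ne_bot.2 h)
  have h1 : LinearIndependent K fun _ : Unit => x.1 :=
    linearIndependent_unique_iff.2 fun h => hx0 (Subtype.ext h)
  obtain ⟨S, hS⟩ := dens_coord h1 Finset.univ () 1
  have h2 : ∑ p ∈ S, mk he p.1 * x * mk he p.2 = 1 := Subtype.ext (by
    rw [val_sum]
    simp only [sand]
    rw [← Finset.sum_mul, ← Finset.mul_sum, hS () (Finset.mem_univ _), if_pos rfl, mul_one, he.eq,
      val_one])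
  rw [← h2]
  exact sum_mem fun p _ => I.mul_mem_right _ _ (I.mul_mem_left _ _ hx)

theorem central (h0 : e ≠ 0) : Algebra.IsCentral K he.Corner := ⟨fun z hz => by
  rw [Subalgebra.mem_center_iff] at hz
  by_contra hn
  have h1 : LinearIndependent K ![e, z.1] := (LinearIndependent.pair_iff' h0).2 fun a ha =>
    hn ⟨a, (Algebra.algebraMap_eq_smul_one (A := he.Corner) a).trans (Subtype.ext ha)⟩
  obtain ⟨S, hS⟩ := dens_coord h1 Finset.univ 1 e
  have h2 := hS 0 (Finset.mem_univ _)
  have h3 := hS 1 (Finset.mem_univ _)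
  simp only [Matrix.cons_val_zero, Matrix.cons_val_one, zero_ne_one, if_false, if_true] at h2 h3
  have h4 : ∀ p : B × B, e * (p.1 * z.1 * p.2) * e = z.1 * (e * (p.1 * e * p.2) * e) := fun p => by
    rw [← sand, hz, mul_assoc, ← mul_one (mk he p.1), val_mul, sand, val_one]
  apply h0
  calc e = e * (∑ p ∈ S, p.1 * z.1 * p.2) * e := by rw [h3, he.eq, he.eq]
    _ = z.1 * (e * (∑ p ∈ S, p.1 * e * p.2) * e) := by
      simp only [Finset.mul_sum, Finset.sum_mul, h4]
    _ = 0 := by rw [h2]; simp⟩

variable [FiniteDimensional K B]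

theorem finite : FiniteDimensional K he.Corner :=
  Module.Finite.of_injective (inc K he) Subtype.val_injective

theorem nrd [CharZero K] (h0 : e ≠ 0) (x : he.Corner) :
    haveI := simple (K := K) he h0
    haveI := central (K := K) he h0
    haveI := finite (K := K) he
    Nrd K (1 - e + x.1) = Nrd K x := by
  have := simple (K := K) he h0
  have := central (K := K) he h0
  have := finite (K := K) he
  let Ω := AlgebraicClosure K
  let ψ := sp K B
  obtain ⟨r, P, R, h1, h2⟩ := exists_fac (E := ψ e) (by rw [← map_mul, he.eq])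
  have hR : R * ψ e = R := by rw [← h1, ← Matrix.mul_assoc, h2, Matrix.one_mul]
  have hP : ψ e * P = P := by rw [← h1, Matrix.mul_assoc, h2, Matrix.mul_one]
  let ρ : he.Corner →ₐ[K] Matrix (Fin r) (Fin r) Ω := AlgHom.ofLinearMap
    { toFun := fun x => R * ψ x.1 * P
      map_add' := fun x y => by rw [val_add, map_add, Matrix.mul_add, Matrix.add_mul]
      map_smul' := fun c x => by
        change R * ψ (c • x.1) * P = _
        rw [map_smul, Matrix.mul_smul, Matrix.smul_mul, RingHom.id_apply] }
    (by change R * ψ e * P = 1; rw [hR, h2])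
    fun x y => by
      change R * ψ (x.1 * y.1) * P = R * ψ x.1 * P * (R * ψ y.1 * P)
      conv_lhs => rw [← left he y, map_mul, map_mul, ← h1]
      simp only [Matrix.mul_assoc]
  have hρ : ∀ x, ρ x = R * ψ x.1 * P := fun _ => rfl
  have : Nonempty (Fin (deg K B)) := ⟨⟨0, deg_pos K B⟩⟩
  have hb := bcHom_bij (L := Ω) ψ (finrank_mat.trans sp_card.symm)
  have hs : Function.Surjective (bcHom Ω ρ) := fun Y => by
    obtain ⟨t, ht⟩ := hb.2 (P * Y * R)
    have h3 : ∀ t : Ω ⊗[K] B, ∃ t', bcHom Ω ρ t' = R * bcHom Ω ψ t * P := fun t => by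
      induction t with
      | zero => exact ⟨0, by simp⟩
      | tmul c b =>
        refine ⟨c ⊗ₜ mk he b, ?_⟩
        rw [bcHom_tmul, bcHom_tmul, hρ, Matrix.mul_smul, Matrix.smul_mul]
        change c • (R * ψ (e * b * e) * P) = _
        rw [map_mul, map_mul, ← Matrix.mul_assoc, ← Matrix.mul_assoc, hR, Matrix.mul_assoc, hP]
      | add a b ha hb =>
        obtain ⟨a', ha⟩ := ha
        obtain ⟨b', hb⟩ := hb
        exact ⟨a' + b', by rw [map_add, map_add, ha, hb, Matrix.mul_add, Matrix.add_mul]⟩
    obtain ⟨t', ht'⟩ := h3 t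
    refine ⟨t', ?_⟩
    rw [ht', ht, ← Matrix.mul_assoc, ← Matrix.mul_assoc, h2, Matrix.one_mul, Matrix.mul_assoc, h2,
      Matrix.mul_one]
  have hr : Nonempty (Fin r) := by
    by_contra hn
    rw [not_nonempty_iff] at hn
    refine h0 (RingHom.injective ψ.toRingHom ?_)
    change ψ e = ψ 0
    rw [← h1, map_zero]
    ext i j
    simp [Matrix.mul_apply]
  have hsim := isSimpleRing_tensor (K := K) (A := Ω) (B := he.Corner)
  have hi : Function.Injective (bcHom Ω ρ) := RingHom.injective (bcHom Ω ρ).toRingHom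
  have hf : finrank K he.Corner = Fintype.card (Fin r) ^ 2 := by
    rw [← finrank_mat (L := Ω), ← (LinearEquiv.ofBijective (bcHom Ω ρ).toLinearMap ⟨hi, hs⟩).finrank_eq,
      Module.finrank_baseChange]
  apply (algebraMap K Ω).injective
  rw [← det_eq ψ sp_card, ← det_eq ρ hf]
  have h4 : ψ (1 - e + x.1) = 1 + P * ((ρ x - 1) * R) := by
    rw [map_add, map_sub, map_one, hρ, Matrix.sub_mul, Matrix.mul_sub, Matrix.one_mul, h1]
    conv_lhs => rw [← left he x, ← right he x, map_mul, map_mul]
    rw [← h1]
    simp only [Matrix.mul_assoc]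
    abel
  rw [h4, Matrix.det_one_add_mul_comm, Matrix.mul_assoc, h2, Matrix.mul_one, add_sub_cancel]

end C20

theorem corStmt : CorStmt.{u, v, w} := by
  intro D e he' hs h0
  have he : IsIdempotentElem e := he'
  let _ : StarRing (IsIdempotentElem.Corner he) :=
    { star := fun x => ⟨star x.1, (Subsemigroup.mem_corner_iff he).2
        ⟨by simpa only [star_mul, hs] using congrArg star (C20.right he x),
          by simpa only [star_mul, hs] using congrArg star (C20.left he x)⟩⟩
      star_involutive := fun x => Subtype.ext (star_star x.1)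
      star_mul := fun x y => Subtype.ext (star_mul x.1 y.1)
      star_add := fun x y => Subtype.ext (star_add x.1 y.1) }
  exact ⟨IsIdempotentElem.Corner he, inferInstance, inferInstance, inferInstance,
    ⟨fun c x => Subtype.ext (star_smul c x.1)⟩, C20.central he h0, C20.simple (K := D.K) he h0,
    C20.finite he, C20.inc D.K he, Subtype.val_injective, rfl, fun _ _ => rfl, fun _ => rfl,
    fun b => ⟨C20.mk he b, rfl⟩, C20.nrd he h0⟩

end Crest.Agent.T24.Ev
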