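import Crest.Agent.T24.EvBrDef_21

/-!
# Row 24 (helper30): a quaternion subalgebra split off `M` kills the anisotropic places off `M`
-/

set_option autoImplicit false

noncomputable section

namespace Crest.Agent.T24.Ev

open NumberField IsDedekindDomain WithZero Csa Asa

universe u v w t

namespace T30

/-- the place under a non-trivial valuation -/
theorem exists_place {F : Type*} [Field F] [NumberField F] (u : Valuation F ℤᵐ⁰) {p : 𝓞 F}
    (hp : p ≠ 0) (h1 : u p < 1) : ∃ v : Pl F, (∀ a : 𝓞 F, a ∈ v.asIdeal → u a < 1) ∧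
      ∀ x, v.valuation F x < 1 → u x < 1 := by
  have h2 : ∀ a : 𝓞 F, u a ≤ 1 := fun a =>
    (Valuation.integer.integers u).mem_of_integral (a.isIntegral_coe.tower_top)
  let P : Ideal (𝓞 F) :=
    { carrier := {a | u a < 1}
      add_mem' := fun {a b} ha hb => by simpa using u.map_add_lt ha hb
      zero_mem' := by simp
      smul_mem' := fun c a ha => by simpa [mul_comm] using mul_lt_one_of_lt_of_le ha (h2 c) }
  have hP : P.IsPrime := ⟨(Ideal.ne_top_iff_one _).2 (by simp [P]), fun {a b} h => by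
    by_contra h3
    have h4 : u a = 1 := (h2 a).antisymm (not_lt.1 fun h => h3 (Or.inl h))
    have h5 : u b = 1 := (h2 b).antisymm (not_lt.1 fun h => h3 (Or.inr h))
    simp [P, h4, h5] at h⟩
  let v : Pl F := ⟨P, hP, fun h0 => hp (by
    have h4 : p ∈ P := h1
    rwa [h0, Ideal.mem_bot] at h4)⟩
  refine ⟨v, fun a ha => ha, fun x hx => ?_⟩
  obtain ⟨n, d, h⟩ := v.exists_primeCompl_mul_eq_of_integer x hx.le
  have h4 : u (algebraMap (𝓞 F) F d) = 1 := (h2 d).antisymm (not_lt.1 d.2)
  have h5 := congrArg u h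
  rw [map_mul, h4, mul_one] at h5
  refine h5 ▸ (v.valuation_lt_one_iff_mem (K := F) n).1 ?_
  change v.valuation F (algebraMap (𝓞 F) F n) < 1
  rw [← h, map_mul]
  exact mul_lt_one_of_lt_of_le hx (v.valuation_le_one _)

variable {K B : Type*} [Field K] [NumberField K] [StarRing K] [Ring B] [StarRing B] [Algebra K B]
  [StarModule K B] [Algebra.IsCentral K B] [IsSimpleRing B] [FiniteDimensional K B]

omit [StarRing K] [StarRing B] [StarModule K B] in
theorem val_nat (w : Pl K) (n : ℕ) : val w (n : B) = w.valuation K (n : K) ^ deg K B := by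
  rw [val, ← map_natCast (algebraMap K B), Nrd_algebraMap, map_pow]

/-- an element conjugate to its negative is not congruent to a square root of one -/
theorem two_lt {w : Pl K} (hw : Ultra B w) {j r : B} (hj : IsUnit j) (h : j * r = -(r * j))
    (h1 : val w (r * r - 1) < 1) : val w (2 : B) < 1 := by
  have hj0 : val w j ≠ 0 := by simpa [val] using (isUnit_iff_Nrd (K := K) j).1 hj
  have e1 : val w (r + 1) = val w (r - 1) := by
    have : j * (r - 1) = -((r + 1) * j) := by rw [mul_sub, h]; noncomm_ring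
    have h2 := congrArg (val w) this
    rw [val_neg, val_mul, val_mul, mul_comm] at h2
    exact (mul_right_cancel₀ hj0 h2).symm
  rw [show r * r - 1 = (r + 1) * (r - 1) by noncomm_ring, val_mul, e1] at h1
  have h2 : val w (r - 1) < 1 := by
    by_contra h3
    exact absurd h1 (not_lt.2 (one_le_mul (not_lt.1 h3) (not_lt.1 h3)))
  have h3 := hw (r + 1) (-(r - 1))
  rw [val_neg, e1, max_self, show r + 1 + -(r - 1) = 2 by rw [← one_add_one_eq_two]; abel] at h3
  exact h3.trans_lt h2

end T30

theorem ttStmt : TtStmt.{u, v, w, t} := fun D F _ _ q M hM hs w hw => by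
  by_contra hMw
  have hv : ∀ n : ℕ, (n : 𝓞 D.K) ∉ w.asIdeal → val w (n : D.B) = 1 := fun n hn => by
    have : w.valuation D.K (n : D.K) = 1 := by
      simpa using (w.valuation_eq_one_iff_notMem (K := D.K) (r := (n : 𝓞 D.K))).2 hn
    rw [T30.val_nat, this, one_pow]
  let u : Valuation F ℤᵐ⁰ :=
    { toFun := fun x => val w (q.i x)
      map_zero' := by simp
      map_one' := by simp
      map_mul' := fun x y => by simp [val_mul]
      map_add_le_max' := fun x y => by simpa using hw.2 _ _ }
  have hu : ∀ x, u x = val w (q.i x) := fun _ => rfl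
  obtain ⟨v, h1, h2⟩ := T30.exists_place u (p := (Ideal.absNorm w.asIdeal : ℕ))
    (by simpa [Ideal.absNorm_eq_zero_iff] using w.ne_bot) (by
      have : w.valuation D.K ((Ideal.absNorm w.asIdeal : ℕ) : D.K) < 1 := by
        simpa using (w.valuation_lt_one_iff_mem (K := D.K) _).2 (Ideal.absNorm_mem w.asIdeal)
      rw [hu, show (((Ideal.absNorm w.asIdeal : ℕ) : 𝓞 F) : F) = (Ideal.absNorm w.asIdeal : ℕ) by
        simp, map_natCast, T30.val_nat]
      exact pow_lt_one₀ zero_le this (deg_pos D.K D.B).ne')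
  have h3 : (M : 𝓞 F) ∉ v.asIdeal := fun h => by
    have := h1 _ h
    rw [hu, show ((M : 𝓞 F) : F) = M by simp, map_natCast, hv M hMw] at this
    exact lt_irrefl _ this
  obtain ⟨n, ⟨x, y, hn⟩, s, ⟨z, hz⟩, e⟩ := Subgroup.mem_sup.1 (hs v h3)
  have h4 := h2 _ (hz.trans_le (by
    simpa [map_ofNat] using v.valuation_le_one (K := F) (4 : 𝓞 F)))
  have hj : IsUnit q.j := isUnit_mul_self_iff.1 (q.jj ▸ q.a.isUnit.map _)
  have c1 : ∀ f, q.j * q.i f = q.i f * q.j := fun f => (q.ij f).symm
  have c2 : ∀ f, q.r * q.i f = q.i f * q.r := fun f => (q.ir f).symm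
  have c3 : (q.i x + q.i y * q.j) * q.r = q.r * (q.i x - q.i y * q.j) := by
    rw [add_mul, mul_sub, c2, ← mul_assoc, c2, mul_assoc, mul_assoc, q.jr, mul_neg, sub_eq_add_neg]
  have c4 : (q.i x - q.i y * q.j) * (q.i x + q.i y * q.j) = q.i n := by
    have : q.i y * q.j * (q.i y * q.j) = q.i (q.a * y ^ 2) := by
      rw [mul_assoc, ← mul_assoc q.j, c1, mul_assoc, q.jj, ← map_mul, ← map_mul]; congr 1; ring
    rw [sub_mul, mul_add, mul_add, this, mul_assoc (q.i y) q.j, c1, ← mul_assoc, ← mul_assoc,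
      ← map_mul, ← map_mul, ← map_mul, mul_comm y x, hn, map_sub, sq x]
    abel
  have h5 := T30.two_lt hw.2 hj (r := q.i (z / n) * (q.r * (q.i x + q.i y * q.j))) (by
    have : q.j * (q.i x + q.i y * q.j) = (q.i x + q.i y * q.j) * q.j := by
      rw [mul_add, add_mul, c1, ← mul_assoc, c1]
    rw [← mul_assoc, c1, mul_assoc, ← mul_assoc q.j, q.jr, neg_mul, mul_neg, mul_assoc q.r, this]
    simp only [mul_assoc]) (by
    have c5 : ∀ f, (q.i x + q.i y * q.j) * q.i f = q.i f * (q.i x + q.i y * q.j) := fun f => by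
      rw [add_mul, mul_add, mul_assoc, c1, ← mul_assoc, ← mul_assoc, ← map_mul, ← map_mul,
        ← map_mul, ← map_mul, mul_comm x, mul_comm y]
    have : q.i (z / n) * (q.r * (q.i x + q.i y * q.j)) * (q.i (z / n) *
        (q.r * (q.i x + q.i y * q.j))) - 1 = q.i (s * z ^ 2 - 1) := by
      rw [mul_assoc, mul_assoc q.r, ← mul_assoc (q.i x + _), c5, mul_assoc, ← mul_assoc q.r, c2,
        ← mul_assoc (q.i x + _), c3, mul_assoc q.r, c4, mul_assoc, ← mul_assoc q.r, q.rr,
        ← map_mul, ← map_mul, ← map_mul, map_sub, map_one, ← e]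
      congr 2
      have := n.ne_zero
      push_cast
      field_simp
    rw [this]; exact h4)
  have h6 := hv 2 fun h => hMw (by
    obtain ⟨m, rfl⟩ := hM
    push_cast at h ⊢
    exact w.asIdeal.mul_mem_right _ h)
  rw [Nat.cast_ofNat] at h6
  exact h5.ne h6

end Crest.Agent.T24.Ev
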