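import Crest.Agent.T24.EvBrA_21
import Crest.Agent.T24.EvCor_20
import Crest.Agent.T24.EvTt_30

/-!
# Row 24, even step (helper21): the bridge from the quaternion step over a field to `CtC`
-/

set_option autoImplicit false
set_option linter.unusedSectionVars false

noncomputable section

namespace Crest.Agent.T24.Ev

open Module NumberField WithZero Csa Asa Topology Filter Polynomial

universe u v w

namespace B21

section Cut
variable {B : Type*} [Ring B] [StarRing B]

theorem cut_mul {e x y : B} (he : e * e = e) (hx : Commute e x) :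
    (1 - e + e * x) * (1 - e + e * y) = 1 - e + e * (x * y) := by
  have h1 : ∀ z, e * (e * z) = e * z := fun z => by rw [← mul_assoc, he]
  have h2 : ∀ z, x * (e * z) = e * (x * z) := fun z => hx.symm.left_comm z
  simp only [add_mul, mul_add, sub_mul, mul_sub, mul_assoc, one_mul, mul_one, he, h1, h2, ← hx.eq]
  abel

theorem cut_unitary {e x : B} (he : e * e = e) (hs : star e = e) (hx : Commute e x)
    (hu : x ∈ unitary B) : 1 - e + e * x ∈ unitary B := by
  have h1 : Commute e (star x) := by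
    have := congrArg star hx.eq
    rw [star_mul, star_mul, hs] at this
    exact this.symm
  rw [Unitary.mem_iff, star_add, star_sub, star_one, star_mul, hs, ← h1.eq, cut_mul he h1,
    cut_mul he hx, hu.1, hu.2]
  simp

theorem cut_add {e f x : B} (hef : e * f = 0) (hx : Commute f x) :
    (1 - e + e * x) * (1 - f + f * x) = 1 - (e + f) + (e + f) * x := by
  have h1 : ∀ z, e * (f * z) = 0 := fun z => by rw [← mul_assoc, hef, zero_mul]
  have h2 : ∀ z, x * (f * z) = f * (x * z) := fun z => hx.symm.left_comm z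
  simp only [add_mul, mul_add, sub_mul, mul_sub, mul_assoc, one_mul, mul_one, hef, h1, h2, ← hx.eq]
  abel

end Cut

section Fld
variable {k : Type u} {K : Type v} {B C : Type w} [Field k] [NumberField k] [Field K]
  [NumberField K] [Algebra k K] [StarRing K] [Quad k K] [Ring B] [StarRing B] [Algebra K B]
  [StarModule K B] [Algebra.IsCentral K B] [IsSimpleRing B] [FiniteDimensional K B] [Algebra k B]
  [IsScalarTower k K B] [Ring C] [StarRing C] [Algebra K C] [StarModule K C]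
  [Algebra.IsCentral K C] [IsSimpleRing C] [FiniteDimensional K C] [Algebra k C]
  [IsScalarTower k K C]

/-- the corner -/
structure Emb (e : B) (ι : C →ₗ[K] B) : Prop where
  inj : Function.Injective ι
  one : ι 1 = e
  mul : ∀ x y, ι (x * y) = ι x * ι y
  star : ∀ x, ι (star x) = star (ι x)
  surj : ∀ b, ∃ x, ι x = e * b * e
  nrd : ∀ x, Nrd K (1 - e + ι x) = Nrd K x

variable {e : B} {ι : C →ₗ[K] B}

theorem Emb.left (h : Emb e ι) (x : C) : e * ι x = ι x := by rw [← h.one, ← h.mul, one_mul]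
theorem Emb.right (h : Emb e ι) (x : C) : ι x * e = ι x := by rw [← h.one, ← h.mul, mul_one]
theorem Emb.idem (h : Emb e ι) : e * e = e := by have := h.left 1; rwa [h.one] at this
theorem Emb.herm (h : Emb e ι) : Star.star e = e := by rw [← h.one, ← h.star, star_one]

theorem Emb.cut (h : Emb e ι) (x y : C) : (1 - e + ι x) * (1 - e + ι y) = 1 - e + ι (x * y) := by
  simp only [add_mul, mul_add, sub_mul, mul_sub, one_mul, mul_one, h.idem, h.left, h.right, h.mul]
  abel

theorem Emb.star_cut (h : Emb e ι) (x : C) :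
    Star.star (1 - e + ι x) = 1 - e + ι (Star.star x) := by
  rw [star_add, star_sub, star_one, h.herm, h.star]

theorem Emb.unitary_iff (h : Emb e ι) (x : C) : 1 - e + ι x ∈ unitary B ↔ x ∈ unitary C := by
  have h1 : ∀ y, 1 - e + ι y = 1 ↔ y = 1 := fun y => by
    rw [← h.inj.eq_iff, h.one, sub_add, sub_eq_self, sub_eq_zero, eq_comm]
  rw [Unitary.mem_iff, Unitary.mem_iff, h.star_cut, h.cut, h.cut, h1, h1]

/-- the map of unitary groups -/
def Emb.φ (h : Emb e ι) : unitary C →* unitary B where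
  toFun u := ⟨1 - e + ι u, (h.unitary_iff _).2 u.2⟩
  map_one' := Subtype.ext (by simp [h.one])
  map_mul' a b := Subtype.ext (h.cut a b).symm

theorem Emb.mem_SU (h : Emb e ι) {u : unitary C} : h.φ u ∈ SU K B ↔ u ∈ SU K C := by
  rw [T24.mem_SU, T24.mem_SU, ← h.nrd]; rfl

theorem Emb.mem_SUm (h : Emb e ι) {m : ℕ} {u : unitary C} (hu : u ∈ SUm K C m) :
    h.φ u ∈ SUm K B m := by
  refine ⟨h.mem_SU.2 hu.1, fun w hw => ?_⟩
  have h0 : val w (1 - e) = 0 := by
    have := h.nrd 0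
    rw [map_zero, add_zero, map_zero] at this
    rw [val, this, map_zero]
  have h1 := hw.2 e (1 - e)
  rw [add_sub_cancel, val_one, h0, max_eq_left zero_le] at h1
  have h2 : IsUnit e := (isUnit_iff_Nrd (K := K) e).2 fun h3 => by
    rw [val, h3, map_zero] at h1
    exact absurd h1 (by simp)
  have h3 : e = 1 := h2.mul_left_cancel (by rw [h.idem, mul_one])
  have h4 : ∀ x, val w (ι x) = val w x := fun x => by
    rw [val, val, ← h.nrd, h3, sub_self, zero_add]
  have h5 := hu.2 w ⟨hw.1, fun x y => by rw [← h4, ← h4, ← h4, map_add]; exact hw.2 _ _⟩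
  rw [← h4, map_sub, h.one] at h5
  change val w (1 - e + ι u - 1) < _
  rwa [show 1 - e + ι u - 1 = ι u - e by abel]

theorem Emb.aniso (h : Emb e ι) (ha : Aniso B) : Aniso C := fun x hx =>
  h.inj ((ha _ (by rw [← h.star, ← h.mul, hx, map_zero])).trans (map_zero ι).symm)

/-- the projection -/
def Emb.π (h : Emb e ι) : B →+ C := AddMonoidHom.mk' (fun b => (h.surj b).choose) fun a b =>
  h.inj (by rw [map_add, (h.surj _).choose_spec, (h.surj _).choose_spec, (h.surj _).choose_spec,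
    mul_add, add_mul])

theorem Emb.ιπ (h : Emb e ι) {b : B} (hb : Commute e b) : ι (h.π b) = e * b :=
  (h.surj b).choose_spec.trans (by rw [mul_assoc, ← hb.eq, ← mul_assoc, h.idem])

theorem Emb.π_one (h : Emb e ι) : h.π 1 = 1 :=
  h.inj (by rw [h.ιπ (Commute.one_right e), mul_one, h.one])

theorem Emb.π_mul (h : Emb e ι) {a b : B} (ha : Commute e a) (hb : Commute e b) :
    h.π (a * b) = h.π a * h.π b := h.inj (by
  rw [h.mul, h.ιπ ha, h.ιπ hb, h.ιπ (ha.mul_right hb), mul_assoc, ha.symm.left_comm, ← mul_assoc e e,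
    h.idem])

theorem Emb.π_star (h : Emb e ι) {a : B} (ha : Commute e a) (ha' : Commute e (Star.star a)) :
    h.π (Star.star a) = Star.star (h.π a) := h.inj (by
  rw [h.star, h.ιπ ha, h.ιπ ha', star_mul, h.herm, ha'.eq])

theorem Emb.π_aeval (h : Emb e ι) {a : B} (ha : Commute e a) (g : k[X]) :
    h.π (aeval a g) = aeval (h.π a) g := by
  have h1 : ∀ j : ℕ, h.π (a ^ j) = h.π a ^ j := fun j => by
    induction j with
    | zero => rw [pow_zero, pow_zero, h.π_one]
    | succ j ih => rw [pow_succ, pow_succ, h.π_mul (ha.pow_right j) ha, ih]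
  simp only [aeval_eq_sum_range, map_sum, ← h1]
  refine Finset.sum_congr rfl fun j _ => h.inj ?_
  rw [h.ιπ ((ha.pow_right j).smul_right _), LinearMap.map_smul_of_tower, h.ιπ (ha.pow_right j),
    mul_smul_comm]

variable {ε : kˣ} {i κ ω : B} {β : k[X]}

theorem fld [Algebra ℚ B] [Algebra ℚ C] (hct : Ct2.Ct.{u} k K C)
    (htt : TtStmt.{u, v, w, u}) (hE : Emb e ι) {M : ℕ} {θ : K} {δ : k} (hM : 2 ∣ M)
    (hM0 : M ≠ 0) (hθ : star θ = -θ) (hθ0 : θ ≠ 0) (hδ : θ ^ 2 = algebraMap k K δ)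
    (hδ' : ∀ v : Pl k, (M : 𝓞 k) ∉ v.asIdeal → v.valuation k δ = 1) {S : Finset (Pl k)}
    (hS : ∀ v : Pl k, (M : 𝓞 k) ∈ v.asIdeal ↔ v ∈ S) {m : ℕ} {N : Subgroup (unitary B)}
    (h2 : N.relIndex (SU K B) ≠ 0) (h3 : ∀ u : unitary B, ∀ g ∈ SUm K B m, u * g * u⁻¹ * g⁻¹ ∈ N)
    (h : QD ε i κ ω β) (hq : QSpl S (ε : k) ω β) {E p : k[X]} (he : e = aeval ω E)
    (hp : Irreducible p) (hpe : e * aeval ω p = 0) :
    ∀ᶠ x in nb k K B S 1, x ∈ h.alg → ∀ u : unitary B, (u : B) = 1 - e + e * x → u ∈ N := by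
  haveI : Fact (Irreducible p) := ⟨hp⟩
  haveI : Module.Finite k (AdjoinRoot p) := (AdjoinRoot.powerBasis hp.ne_zero).finite
  haveI : NumberField (AdjoinRoot p) := NumberField.of_module_finite k _
  have cω : Commute e ω := he ▸ comm_aeval (Commute.refl ω) E
  have ci : Commute e i := he ▸ comm_aeval h.ωi E
  have cκ : Commute e κ := he ▸ comm_aeval h.ωκ E
  have ca : ∀ g : k[X], Commute e (aeval ω g) := fun g => (comm_aeval cω.symm g).symm
  let i₀ : AdjoinRoot p →+* C := Ideal.Quotient.lift _ (aeval (hE.π ω) : k[X] →ₐ[k] C).toRingHom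
    fun a ha => by
      obtain ⟨c, rfl⟩ := Ideal.mem_span_singleton'.1 ha
      change aeval (hE.π ω) (c * p) = 0
      rw [map_mul, ← hE.π_aeval cω p, hE.inj ((hE.ιπ (ca p)).trans (hpe.trans (map_zero ι).symm)),
        mul_zero]
  have hi : ∀ g : k[X], i₀ (AdjoinRoot.mk p g) = hE.π (aeval ω g) := fun g =>
    (hE.π_aeval cω g).symm
  have hrr : hE.π κ * hE.π κ = i₀ (AdjoinRoot.mk p β) := by rw [hi, ← hE.π_mul cκ cκ, h.κκ]
  have hβ : AdjoinRoot.mk p β ≠ 0 := fun h0 => by
    obtain ⟨κ', hκ'⟩ := (h.uκ.mul h.uκ).exists_right_inv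
    have h4 := congrArg ι hrr
    rw [h0, map_zero, map_zero, ← hE.π_mul cκ cκ, hE.ιπ (cκ.mul_right cκ)] at h4
    have h5 : ι 1 = ι 0 := by rw [hE.one, map_zero, ← mul_one e, ← hκ', ← mul_assoc, h4, zero_mul]
    exact one_ne_zero (hE.inj h5)
  have hk : ∀ y : k, i₀ (algebraMap k _ y) = algebraMap k C y := fun y => aeval_C _ y
  let q : Ct2.Quat (AdjoinRoot p) C :=
    { i := i₀, j := hE.π i, r := hE.π κ
      a := Units.map (algebraMap k (AdjoinRoot p) : k →* AdjoinRoot p) ε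
      c := Units.mk0 _ hβ
      star_i := fun f => by
        obtain ⟨g, rfl⟩ := AdjoinRoot.mk_surjective f
        have : star (aeval ω g) = aeval ω g := by rw [star_aeval K, h.sω]
        rw [hi, ← hE.π_star (ca g) (this.symm ▸ ca g), this]
      star_j := by rw [← hE.π_star ci (h.si.symm ▸ ci.neg_right), h.si, map_neg]
      star_r := by rw [← hE.π_star cκ (h.sκ.symm ▸ cκ.neg_right), h.sκ, map_neg]
      jj := by rw [← hE.π_mul ci ci, h.ii, ← aeval_C ω, ← hi]; rfl
      rr := hrr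
      jr := by rw [← hE.π_mul ci cκ, ← hE.π_mul cκ ci, h.κi, map_neg, neg_neg]
      ij := fun f => by
        obtain ⟨g, rfl⟩ := AdjoinRoot.mk_surjective f
        rw [hi, ← hE.π_mul (ca g) ci, ← hE.π_mul ci (ca g), (comm_aeval h.ωi g).eq]
      ir := fun f => by
        obtain ⟨g, rfl⟩ := AdjoinRoot.mk_surjective f
        rw [hi, ← hE.π_mul (ca g) cκ, ← hE.π_mul cκ (ca g), (comm_aeval h.ωκ g).eq] }
  have hsp : ∀ v : Hn.Pl (AdjoinRoot p), (M : 𝓞 (AdjoinRoot p)) ∉ v.asIdeal →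
      q.c ∈ Hn.LN (q.a : AdjoinRoot p) v := fun v hv =>
    hq _ (AdjoinRoot.root p) (i₀.injective (by
      rw [AdjoinRoot.aeval_eq, hi, minpoly.aeval, map_zero, map_zero])) v
      (fun h0 => hv (by simpa using Ideal.mem_comap.1 ((hS _).2 h0))) _
      (AdjoinRoot.aeval_eq β).symm
  have h4 := hct M θ δ hM hM0 (htt ⟨k, K, C⟩ _ q M hM hsp) hθ hθ0 hδ hδ' m (N.comap hE.φ)
    (fun h0 => h2 (Subgroup.relIndex_eq_zero_of_le_right (K := (SU K C).map hE.φ)
      (by rintro _ ⟨u, hu, rfl⟩; exact hE.mem_SU.2 hu) (by rwa [← Subgroup.relIndex_comap])))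
    fun u g hg => by simpa using h3 _ _ (hE.mem_SUm hg)
  have h5 : Tendsto hE.π (nb k K B S 1) (In.nr M 1) := by
    rw [← hE.π_one]
    exact (In.nr_map hE.π 1).mono_left
      ((HolZ.nb_le_ng k K B hM0 (fun v hv => (hS v).1 hv) 1).trans inf_le_left)
  filter_upwards [h5.eventually h4] with x hx hxq u hu
  rw [← hE.ιπ (he ▸ h.comm E hxq)] at hu
  obtain ⟨a, b, c, d, rfl⟩ := hxq
  have h6 := hx _ q hk hsp ⟨AdjoinRoot.mk p a, AdjoinRoot.mk p b, AdjoinRoot.mk p c,
    AdjoinRoot.mk p d, by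
      simp only [el, Ct2.Quat.el, q, hi, map_add, hE.π_mul (ca b) ci, hE.π_mul (ca c) cκ,
        hE.π_mul (ca d) (ci.mul_right cκ), hE.π_mul ci cκ]⟩ ((hE.unitary_iff _).1 (hu ▸ u.2))
  rw [Subgroup.mem_comap] at h6
  convert h6 using 1
  exact Subtype.ext hu

end Fld

end B21

section Main
variable {k : Type u} {K : Type v} {B : Type w} [Field k] [NumberField k] [Field K]
  [NumberField K] [Algebra k K] [StarRing K] [Quad k K] [Ring B] [StarRing B] [Algebra K B]
  [StarModule K B] [Algebra.IsCentral K B] [IsSimpleRing B] [FiniteDimensional K B] [Algebra k B]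
  [IsScalarTower k K B]

open B21 in
theorem ctC_of (hct : Ct2.Ct2Stmt.{u, v, w, u}) (hco : CorStmt.{u, v, w})
    (htt : TtStmt.{u, v, w, u}) (ha : Aniso B) {N : Subgroup (unitary B)} [N.Normal]
    (h2 : N.relIndex (SU K B) ≠ 0) {m : ℕ}
    (h3 : ∀ u : unitary B, ∀ g ∈ SUm K B m, u * g * u⁻¹ * g⁻¹ ∈ N) : CtC k K N := by
  intro S₁
  have := finite_kB k K B
  letI : Algebra ℚ B := ((algebraMap K B).comp (algebraMap ℚ K)).toAlgebra'
    fun c x => Algebra.commutes _ x
  obtain ⟨θ, hθ0, hθ⟩ := exists_skew (Quad.ne (k := k) (K := K))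
  obtain ⟨δ, hδ⟩ : ∃ δ : k, algebraMap k K δ = θ ^ 2 :=
    fixed Quad.fr (sig_ne k K) (by rw [sig_apply, star_pow, hθ, neg_sq])
  have hδ0 : δ ≠ 0 := fun h => pow_ne_zero 2 hθ0 (by rw [← hδ, h, map_zero])
  obtain ⟨M, hM, hM'⟩ := HolZ.exists_N (S₁.finite_toSet.union (finite_ne_one hδ0))
  have hM0 : 2 * M ≠ 0 := by omega
  have hM2 : ∀ v : Pl k, (M : 𝓞 k) ∈ v.asIdeal → ((2 * M : ℕ) : 𝓞 k) ∈ v.asIdeal := fun v hv => by
    rw [Nat.cast_mul]; exact Ideal.mul_mem_left _ _ hv
  set S := (In.N23.finite_N (K := k) hM0).toFinset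
  have hS : ∀ v : Pl k, ((2 * M : ℕ) : 𝓞 k) ∈ v.asIdeal ↔ v ∈ S := fun v =>
    (In.N23.finite_N (K := k) hM0).mem_toFinset.symm
  refine ⟨S, fun v hv => (hS v).1 (hM2 v (hM' v (Or.inl hv))), ?_⟩
  filter_upwards [uniform K h2 S] with x hx u hu ⟨ε, i, κ, ω, β, a, b, c, d, p1, p2, p3, p4, p5, p6,
    p7, p8, p9, p10, hq⟩
  have h : QD ε i κ ω β := ⟨p1, p2, p3, p4, p5, p6, p7, p8, p9⟩
  refine hx u hu ε i κ ω β h ⟨a, b, c, d, p10⟩ ?_
  have hs : ∀ g : k[X], star (aeval ω g) = aeval ω g := fun g => by rw [star_aeval K, p1]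
  have key : ∀ f : k[X], f ≠ 0 → ∀ E : k[X], aeval ω (E * E) = aeval ω E → aeval ω (E * f) = 0 →
      ∀ᶠ y in nb k K B S 1, y ∈ h.alg → y ∈ unitary B →
        ∀ u : unitary B, (u : B) = 1 - aeval ω E + aeval ω E * y → u ∈ N := fun f => by
    have z0 : ∀ E : k[X], aeval ω E = 0 → ∀ᶠ y in nb k K B S 1, y ∈ h.alg → y ∈ unitary B →
        ∀ u : unitary B, (u : B) = 1 - aeval ω E + aeval ω E * y → u ∈ N := fun E hE =>
      Eventually.of_forall fun y _ _ u hu => by
        rw [show u = 1 from Subtype.ext (by simpa [hE] using hu)]; exact one_mem _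
    induction f using WfDvdMonoid.induction_on_irreducible with
    | zero => exact fun h0 => absurd rfl h0
    | unit f hf =>
      exact fun _ E _ e2 => z0 E (by rwa [map_mul, (hf.map _).mul_left_eq_zero] at e2)
    | mul g p hg hp ih =>
      intro _ E e1 e2
      by_cases hd : p ∣ g
      · obtain ⟨g', rfl⟩ := hd
        refine ih hg E e1 (ha _ ?_)
        rw [hs, ← map_mul, show E * (p * g') * (E * (p * g')) = E * (p * (p * g')) * (E * g') by ring,
          map_mul, e2, zero_mul]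
      obtain ⟨s, t, hst⟩ := (hp.coprime_iff_not_dvd.2 hd : IsCoprime p g)
      have z : ∀ r : k[X], aeval ω (E * (p * g) * r) = 0 := fun r => by rw [map_mul, e2, zero_mul]
      have z1 : ∀ r : k[X], aeval ω (E * E * r) = aeval ω (E * r) := fun r => by
        rw [map_mul, e1, map_mul]
      have a1 : aeval ω (E * (s * p) * (E * (s * p))) = aeval ω (E * (s * p)) := by
        rw [← z1, ← sub_eq_zero, ← map_sub, ← z (-(E * s * t))]; congr 1
        linear_combination (E * E * s * p) * hst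
      have a2 : aeval ω (E * (t * g) * (E * (t * g))) = aeval ω (E * (t * g)) := by
        rw [← z1, ← sub_eq_zero, ← map_sub, ← z (-(E * s * t))]; congr 1
        linear_combination (E * E * t * g) * hst
      have a3 : aeval ω (E * (s * p)) * aeval ω (E * (t * g)) = 0 := by
        rw [← map_mul, ← z (E * s * t)]; congr 1; ring
      have a4 : aeval ω (E * (s * p)) + aeval ω (E * (t * g)) = aeval ω E := by
        rw [← map_add, ← mul_add, hst, mul_one]
      have b1 := ih hg _ a1 (by rw [← z s]; congr 1; ring)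
      have b2 : ∀ᶠ y in nb k K B S 1, y ∈ h.alg → y ∈ unitary B → ∀ u : unitary B,
          (u : B) = 1 - aeval ω (E * (t * g)) + aeval ω (E * (t * g)) * y → u ∈ N := by
        by_cases e0 : aeval ω (E * (t * g)) = 0
        · exact z0 _ e0
        obtain ⟨C, _, _, _, _, _, _, _, ι, q1, q2, q3, q4, q5, q6⟩ :=
          hco ⟨k, K, B⟩ _ (by rwa [map_mul] at a2) (hs _) e0
        letI : Algebra k C := ((algebraMap K C).comp (algebraMap k K)).toAlgebra'
          fun c x => Algebra.commutes _ x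
        haveI : IsScalarTower k K C := IsScalarTower.of_algebraMap_eq' rfl
        letI : Algebra ℚ C := ((algebraMap K C).comp (algebraMap ℚ K)).toAlgebra'
          fun c x => Algebra.commutes _ x
        have hE : Emb (aeval ω (E * (t * g))) ι := ⟨q1, q2, q3, q4, q5, q6⟩
        exact (fld (hct ⟨k, K, C⟩ (hE.aniso ha)) htt hE (dvd_mul_right 2 M) hM0 hθ hθ0 hδ.symm
          (fun v hv => not_not.1 fun h0 => hv (hM2 v (hM' v (Or.inr h0)))) hS h2 h3 h hq rfl hp
          (by rw [← map_mul, ← z t]; congr 1; ring)).mono fun y hy h1 _ => hy h1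
      rw [map_mul] at a1 a2
      filter_upwards [b1, b2] with y y1 y2 hy hy' u hu
      have := mul_mem (y1 hy hy' ⟨_, cut_unitary a1 (hs _) (h.comm _ hy) hy'⟩ rfl)
        (y2 hy hy' ⟨_, cut_unitary a2 (hs _) (h.comm _ hy) hy'⟩ rfl)
      convert this using 1
      refine Subtype.ext (hu.trans ?_)
      rw [← a4]
      exact (cut_add a3 (h.comm _ hy)).symm
  filter_upwards [key _ (minpoly.ne_zero (Algebra.IsIntegral.isIntegral (R := k) ω)) 1 (by simp)
    (by simp)] with y hy h1 u' hu'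
  exact hy h1 (hu' ▸ u'.2) u' (by simpa using hu')

/-- the bridge with the two leaves plugged in -/
theorem ctC_of' (hct : Ct2.Ct2Stmt.{u, v, w, u}) (ha : Aniso B) {N : Subgroup (unitary B)}
    (h1 : N.Normal) (h2 : N.relIndex (SU K B) ≠ 0) {m : ℕ}
    (h3 : ∀ u : unitary B, ∀ g ∈ SUm K B m, u * g * u⁻¹ * g⁻¹ ∈ N) : CtC k K N :=
  ctC_of hct corStmt ttStmt ha h2 h3

end Main

theorem ct2CStmt (hct : Ct2.Ct2Stmt.{u, v, w, u}) (hco : CorStmt.{u, v, w})
    (htt : TtStmt.{u, v, w, u}) : Ct2CStmt.{u, v, w} := fun _ ha _ N _ h2 hG h3 =>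
  haveI := HolZ.normal_of N hG
  ctC_of hct hco htt ha h2 h3

theorem ct2CStmt' (hct : Ct2.Ct2Stmt.{u, v, w, u}) : Ct2CStmt.{u, v, w} :=
  ct2CStmt hct corStmt ttStmt

end Crest.Agent.T24.Ev
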