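import Mathlib
import Crest.Agent.T24.HnDef_7

/-!
# Row 24, Hasse norm theorem, local part A (helper73): `l1Stmt`, `l3Stmt`

The number of local square classes is at most `4 |O/P^e|`.
-/

set_option autoImplicit false

noncomputable section

open scoped NumberField
open IsDedekindDomain WithZero

namespace Crest.Agent.T24.Hn

namespace Loc

section Grp

theorem relIndex_le_card {G : Type*} [Group G] {α : Type*} [Finite α] (H K : Subgroup G)
    (f : G → α) (h : ∀ x ∈ K, ∀ y ∈ K, f x = f y → x⁻¹ * y ∈ H) :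
    H.relIndex K ≠ 0 ∧ H.relIndex K ≤ Nat.card α := by
  let g : K ⧸ H.subgroupOf K → α := fun q => f (q.out : K)
  have hg : Function.Injective g := by
    intro q r hqr
    rw [← q.out_eq, ← r.out_eq]
    apply QuotientGroup.eq.mpr
    exact Subgroup.mem_subgroupOf.mpr (h _ (q.out).2 _ (r.out).2 hqr)
  have : Finite (K ⧸ H.subgroupOf K) := Finite.of_injective g hg
  exact ⟨Subgroup.index_ne_zero_of_finite, Nat.card_le_card_of_injective g hg⟩

/-- cokernel and kernel of squaring on the finite group `U/H` have the same order -/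
theorem relIndex_sq_sup {G : Type*} [CommGroup G] (U H : Subgroup G) (hle : H ≤ U)
    (hfin : H.relIndex U ≠ 0) :
    (U.map (powMonoidHom 2) ⊔ H).relIndex U = H.relIndex (H.comap (powMonoidHom 2) ⊓ U) := by
  have h1 : U.map (powMonoidHom 2) ⊔ H ≤ U := by
    refine sup_le ?_ hle
    rintro _ ⟨x, hx, rfl⟩
    exact U.pow_mem hx 2
  have h2 := Subgroup.relIndex_mul_relIndex H (U.map (powMonoidHom 2) ⊔ H) U le_sup_right h1
  rw [Subgroup.relIndex_sup_right, ← Subgroup.relIndex_comap] at h2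
  have h3 := Subgroup.relIndex_inf_mul_relIndex H (H.comap (powMonoidHom 2)) U
  have h4 : H ⊓ H.comap (powMonoidHom 2) = H :=
    inf_eq_left.mpr fun x hx => H.pow_mem hx 2
  rw [h4] at h3
  have h5 : (H.comap (powMonoidHom 2)).relIndex U ≠ 0 := by
    intro h0
    rw [h0, zero_mul] at h2
    exact hfin h2.symm
  apply Nat.eq_of_mul_eq_mul_left (Nat.pos_of_ne_zero h5)
  rw [h2, mul_comm, h3]

end Grp

variable {F : Type*} [Field F] [NumberField F] (v : Pl F)

theorem lt_exp_iff {a : ℤᵐ⁰} {n : ℤ} : a < exp n ↔ a ≤ exp (n - 1) := by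
  rcases eq_or_ne a 0 with rfl | ha
  · simp [zero_lt_iff]
  · rw [← exp_log ha, exp_lt_exp, exp_le_exp]; omega

theorem val_int_le (a : 𝓞 F) : v.valuation F (a : F) ≤ 1 := v.valuation_le_one (K := F) a

theorem val_int_lt_iff (a : 𝓞 F) : v.valuation F (a : F) < 1 ↔ a ∈ v.asIdeal :=
  v.valuation_lt_one_iff_mem (K := F) a

theorem val_int_le_pow_iff (a : 𝓞 F) (k : ℕ) :
    v.valuation F (a : F) ≤ exp (-(k : ℤ)) ↔ a ∈ v.asIdeal ^ k := by
  rw [← v.intValuation_le_pow_iff_mem, ← v.valuation_of_algebraMap (K := F)]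

theorem exists_int_near {x : F} (hx : v.valuation F x ≤ 1) (n : ℤ) :
    ∃ a : 𝓞 F, v.valuation F ((a : F) - x) < exp n := by
  obtain ⟨a, ha⟩ := v.exists_valuation_sub_lt_of_integer hx (Units.mk0 (exp n) exp_ne_zero)
  exact ⟨a, ha⟩

theorem val_two_le : v.valuation F 2 ≤ 1 := by
  have := val_int_le v (2 : 𝓞 F)
  simpa [map_ofNat] using this

theorem val_four : v.valuation F 4 = v.valuation F 2 ^ 2 := by
  rw [← map_pow]; norm_num

theorem val_four_le : v.valuation F 4 ≤ 1 := by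
  rw [val_four]; exact pow_le_one' (val_two_le v) 2

theorem val_four_pos : 0 < v.valuation F 4 := zero_lt_iff.mpr (by simp)

/-- the exponent of `v` in `2` -/
def e2 : ℕ := (-log (v.valuation F 2)).toNat

theorem val_two : v.valuation F 2 = exp (-(e2 v : ℤ)) := by
  have h0 : v.valuation F 2 ≠ 0 := by simp
  have h1 : log (v.valuation F 2) ≤ 0 := by
    rw [← exp_le_exp, exp_log h0]; exact val_two_le v
  rw [e2, Int.toNat_of_nonneg (by omega), neg_neg, exp_log h0]

theorem val_four' : v.valuation F 4 = exp (-((2 * e2 v : ℕ) : ℤ)) := by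
  rw [val_four, val_two, ← exp_nsmul]; congr 1; push_cast; ring

theorem exists_cls (k : ℕ) : ∃ f : F → 𝓞 F ⧸ v.asIdeal ^ k, ∀ x y : F, v.valuation F x ≤ 1 →
    v.valuation F y ≤ 1 → f x = f y → v.valuation F (x - y) ≤ exp (-(k : ℤ)) := by
  classical
  have h : ∀ x : F, ∃ a : 𝓞 F, v.valuation F x ≤ 1 → v.valuation F ((a : F) - x) < exp (-(k : ℤ)) := by
    intro x
    by_cases hx : v.valuation F x ≤ 1
    · obtain ⟨a, ha⟩ := exists_int_near v hx (-(k : ℤ))
      exact ⟨a, fun _ => ha⟩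
    · exact ⟨0, fun h => absurd h hx⟩
  choose a ha using h
  refine ⟨fun x => Ideal.Quotient.mk _ (a x), fun x y hx hy hxy => ?_⟩
  have h1 := (val_int_le_pow_iff v _ k).mpr (Ideal.Quotient.eq.mp hxy)
  have e : x - y = (((a x - a y : 𝓞 F) : F) - ((a x : F) - x)) + ((a y : F) - y) := by
    push_cast; ring
  rw [e]
  exact (v.valuation F).map_add_le ((v.valuation F).map_sub_le h1 (ha x hx).le) (ha y hy).le

instance finite_quot (k : ℕ) : Finite (𝓞 F ⧸ v.asIdeal ^ k) :=
  Ideal.finiteQuotientOfFreeOfNeBot _ (pow_ne_zero k v.ne_bot)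

/-- units at `v` -/
def Un : Subgroup Fˣ where
  carrier := {x | v.valuation F (x : F) = 1}
  one_mem' := by simp
  mul_mem' := by
    intro a b ha hb
    simp only [Set.mem_ofPred_eq, Units.val_mul, map_mul] at *
    rw [ha, hb, mul_one]
  inv_mem' := by
    intro a ha
    simp only [Set.mem_ofPred_eq, Units.val_inv_eq_inv_val, map_inv₀] at *
    rw [ha, inv_one]

theorem mem_Un {x : Fˣ} : x ∈ Un v ↔ v.valuation F (x : F) = 1 := Iff.rfl

theorem val_eq_one_of_lt {x : F} (h : v.valuation F (x - 1) < 1) : v.valuation F x = 1 := by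
  have := (v.valuation F).map_one_add_of_lt h
  simpa using this

theorem exp_neg_le_one (k : ℕ) : exp (-(k : ℤ)) ≤ 1 := by
  rw [← exp_zero, exp_le_exp]; omega

/-- principal units of level `k + 1` -/
def Pr (k : ℕ) : Subgroup Fˣ where
  carrier := {x | v.valuation F ((x : F) - 1) < exp (-(k : ℤ))}
  one_mem' := by simp [zero_lt_iff]
  mul_mem' := by
    intro a b ha hb
    simp only [Set.mem_ofPred_eq, Units.val_mul] at *
    have e : (a : F) * b - 1 = a * (b - 1) + (a - 1) := by ring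
    rw [e]
    refine (v.valuation F).map_add_lt ?_ ha
    rw [map_mul, val_eq_one_of_lt v (ha.trans_le (exp_neg_le_one k)), one_mul]
    exact hb
  inv_mem' := by
    intro a ha
    simp only [Set.mem_ofPred_eq, Units.val_inv_eq_inv_val] at *
    have e : (a : F)⁻¹ - 1 = -((a - 1) / a) := by
      have := a.ne_zero
      field_simp
      ring
    rw [e, Valuation.map_neg, map_div₀, val_eq_one_of_lt v (ha.trans_le (exp_neg_le_one k)),
      div_one]
    exact ha

theorem mem_Pr {k : ℕ} {x : Fˣ} : x ∈ Pr v k ↔ v.valuation F ((x : F) - 1) < exp (-(k : ℤ)) :=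
  Iff.rfl

theorem Pr_le_Un (k : ℕ) : Pr v k ≤ Un v := fun _ hx =>
  val_eq_one_of_lt v (lt_of_lt_of_le hx (exp_neg_le_one k))

theorem Pr_le_Sq : Pr v (2 * e2 v) ≤ Sq v := fun x hx =>
  ⟨1, by rw [val_four']; simpa using (mem_Pr v).mp hx⟩

theorem sq_mem_Sq (x : Fˣ) : x ^ 2 ∈ Sq v :=
  ⟨(x : F)⁻¹, by
    have : ((x ^ 2 : Fˣ) : F) * (x : F)⁻¹ ^ 2 - 1 = 0 := by
      have := x.ne_zero
      rw [Units.val_pow_eq_pow_val]; field_simp; ring
    rw [this, map_zero]; exact val_four_pos v⟩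

theorem exists_val_eq (n : ℤ) : ∃ c : Fˣ, v.valuation F (c : F) = exp n := by
  obtain ⟨c, hc⟩ := v.valuation_surjective F (exp n)
  have : c ≠ 0 := by
    rintro rfl
    rw [map_zero] at hc
    exact exp_ne_zero hc.symm
  exact ⟨Units.mk0 c this, hc⟩

theorem relIndex_Pr (K : Subgroup Fˣ) (hK : K ≤ Un v) (j k m : ℕ) (hm : m < j + k)
    (hj : ∀ x ∈ K, v.valuation F ((x : F) - 1) ≤ exp (-(j : ℤ))) :
    (Pr v m).relIndex K ≠ 0 ∧ (Pr v m).relIndex K ≤ Nat.card (𝓞 F ⧸ v.asIdeal ^ k) := by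
  obtain ⟨f, hf⟩ := exists_cls v k
  obtain ⟨c, hc⟩ := exists_val_eq v (j : ℤ)
  have hb : ∀ x ∈ K, v.valuation F (((x : F) - 1) * c) ≤ 1 := by
    intro x hx
    rw [map_mul, hc]
    calc _ ≤ exp (-(j : ℤ)) * exp (j : ℤ) := by gcongr; exact hj x hx
      _ = 1 := by rw [← exp_add]; simp
  refine relIndex_le_card _ _ (fun x : Fˣ => f (((x : F) - 1) * c)) fun x hx y hy hxy => ?_
  have h1 := hf _ _ (hb x hx) (hb y hy) hxy
  have e : ((x⁻¹ * y : Fˣ) : F) - 1 = -((((x : F) - 1) * c - ((y : F) - 1) * c) / (x * c)) := by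
    have := x.ne_zero
    have := c.ne_zero
    rw [Units.val_mul, Units.val_inv_eq_inv_val]; field_simp; ring
  rw [mem_Pr, e, Valuation.map_neg, map_div₀, map_mul, (mem_Un v).mp (hK hx), hc, one_mul,
    div_lt_iff₀ (zero_lt_iff.mpr exp_ne_zero), ← exp_add]
  refine h1.trans_lt ?_
  rw [exp_lt_exp]; omega

theorem relIndex_Pr_Un (m : ℕ) : (Pr v m).relIndex (Un v) ≠ 0 :=
  (relIndex_Pr v (Un v) le_rfl 0 (m + 1) m (by omega) fun x hx => by
    simpa using (v.valuation F).map_sub_le ((mem_Un v).mp hx).le (map_one _).le).1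

theorem pm_of_sq {x : F} (h : v.valuation F (x ^ 2 - 1) < exp (-((2 * e2 v : ℕ) : ℤ))) :
    v.valuation F (x - 1) < exp (-(e2 v : ℤ)) ∨ v.valuation F (-x - 1) < exp (-(e2 v : ℤ)) := by
  by_contra hc
  push Not at hc
  have e : x ^ 2 - 1 = -((x - 1) * (-x - 1)) := by ring
  rw [e, Valuation.map_neg, map_mul] at h
  refine absurd h (not_lt.mpr ?_)
  calc exp (-((2 * e2 v : ℕ) : ℤ)) = exp (-(e2 v : ℤ)) * exp (-(e2 v : ℤ)) := by
        rw [← exp_add]; congr 1; push_cast; ring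
    _ ≤ _ := mul_le_mul' hc.1 hc.2

/-- the unit square classes: at most `2 |O/P^e|` -/
theorem relIndex_Sq_Un : (Sq v).relIndex (Un v) ≠ 0 ∧
    (Sq v).relIndex (Un v) ≤ 2 * Nat.card (𝓞 F ⧸ v.asIdeal ^ e2 v) := by
  classical
  have hfin := relIndex_Pr_Un v (2 * e2 v)
  have hne : (Sq v).relIndex (Un v) ≠ 0 := fun h0 =>
    hfin (Subgroup.relIndex_eq_zero_of_le_left (Pr_le_Sq v) h0)
  refine ⟨hne, ?_⟩
  have hle : (Un v).map (powMonoidHom 2) ⊔ Pr v (2 * e2 v) ≤ Sq v := by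
    refine sup_le ?_ (Pr_le_Sq v)
    rintro _ ⟨x, -, rfl⟩
    exact sq_mem_Sq v x
  have h1 := Subgroup.relIndex_le_of_le_left (L := Un v) hle fun h0 =>
    hfin (Subgroup.relIndex_eq_zero_of_le_left le_sup_right h0)
  rw [relIndex_sq_sup _ _ (Pr_le_Un v _) hfin] at h1
  refine h1.trans ?_
  set K := (Pr v (2 * e2 v)).comap (powMonoidHom 2) ⊓ Un v with hK
  have h2 := Subgroup.relIndex_inf_mul_relIndex (Pr v (2 * e2 v)) (Pr v (e2 v)) K
  have h3 : Pr v (2 * e2 v) ⊓ Pr v (e2 v) = Pr v (2 * e2 v) :=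
    inf_eq_left.mpr fun x hx => by
      rw [mem_Pr] at *
      refine hx.trans_le ?_
      rw [exp_le_exp]; omega
  rw [h3] at h2
  have h4 := relIndex_Pr v (Pr v (e2 v)) (Pr_le_Un v _) (e2 v + 1) (e2 v) (2 * e2 v) (by omega)
    fun x hx => by
      have := lt_exp_iff.mp ((mem_Pr v).mp hx)
      convert this using 2
      push_cast; ring
  have h5 := Subgroup.relIndex_le_of_le_right (H := Pr v (2 * e2 v))
    (inf_le_left : Pr v (e2 v) ⊓ K ≤ Pr v (e2 v)) h4.1
  have h6 := (relIndex_le_card (Pr v (e2 v)) K (fun x => decide (x ∈ Pr v (e2 v)))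
    fun x hx y hy hxy => by
      by_cases hx' : x ∈ Pr v (e2 v)
      · have hy' : y ∈ Pr v (e2 v) := by simpa [hx'] using hxy
        exact mul_mem (inv_mem hx') hy'
      · have hy' : y ∉ Pr v (e2 v) := by simpa [hx'] using hxy
        have hx2 : -x ∈ Pr v (e2 v) := by
          have := pm_of_sq v (x := x) (by simpa using (mem_Pr v).mp hx.1)
          exact this.resolve_left hx'
        have hy2 : -y ∈ Pr v (e2 v) := by
          have := pm_of_sq v (x := y) (by simpa using (mem_Pr v).mp hy.1)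
          exact this.resolve_left hy'
        have := mul_mem (inv_mem hx2) hy2
        simpa using this).2
  rw [Nat.card_eq_fintype_card, Fintype.card_bool] at h6
  rw [← h2, mul_comm]
  exact Nat.mul_le_mul h6 (h5.trans h4.2)

/-- an element of even order is a unit times a square -/
theorem exists_sq_mul_mem_Un {z : Fˣ} {n : ℤ} (h : v.valuation F (z : F) = exp (2 * n)) :
    ∃ c : Fˣ, z * c ^ 2 ∈ Un v := by
  obtain ⟨c, hc⟩ := exists_val_eq v (-n)
  refine ⟨c, ?_⟩
  rw [mem_Un, Units.val_mul, Units.val_pow_eq_pow_val, map_mul, map_pow, h, hc, ← exp_nsmul,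
    ← exp_add]
  simp

theorem val_unit_ne (x : Fˣ) : v.valuation F (x : F) ≠ 0 := by simp

theorem index_Un_sup_Sq : (Un v ⊔ Sq v).index ≠ 0 ∧ (Un v ⊔ Sq v).index ≤ 2 := by
  classical
  have := relIndex_le_card (Un v ⊔ Sq v) ⊤ (fun x => decide (Even (log (v.valuation F (x : F)))))
    fun x _ y _ hxy => by
      have h1 : Even (log (v.valuation F (y : F)) - log (v.valuation F (x : F))) := by
        rw [Int.even_sub]
        exact (decide_eq_decide.mp hxy).symm
      obtain ⟨n, hn⟩ := h1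
      have h2 : v.valuation F ((x⁻¹ * y : Fˣ) : F) = exp (2 * n) := by
        rw [Units.val_mul, Units.val_inv_eq_inv_val, map_mul, map_inv₀,
          ← exp_log (val_unit_ne v x), ← exp_log (val_unit_ne v y), ← exp_neg, ← exp_add]
        congr 1; omega
      obtain ⟨c, hc⟩ := exists_sq_mul_mem_Un v h2
      have := mul_mem (Subgroup.mem_sup_left hc : _ ∈ Un v ⊔ Sq v)
        (Subgroup.mem_sup_right (inv_mem (sq_mem_Sq v c)))
      simpa using this
  simpa using this

theorem index_Sq : (Sq v).index ≠ 0 ∧ (Sq v).index ≤ 4 * Nat.card (𝓞 F ⧸ v.asIdeal ^ e2 v) := by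
  have h1 := Subgroup.relIndex_mul_index (le_sup_right : Sq v ≤ Un v ⊔ Sq v)
  rw [Subgroup.relIndex_sup_right] at h1
  rw [← h1]
  refine ⟨mul_ne_zero (relIndex_Sq_Un v).1 (index_Un_sup_Sq v).1, ?_⟩
  calc _ ≤ (2 * Nat.card (𝓞 F ⧸ v.asIdeal ^ e2 v)) * 2 :=
        Nat.mul_le_mul (relIndex_Sq_Un v).2 (index_Un_sup_Sq v).2
    _ = _ := by ring

theorem absNorm_two : Ideal.absNorm (Ideal.span {(2 : 𝓞 F)}) = 2 ^ Module.finrank ℚ F := by
  rw [Ideal.absNorm_span_singleton, ← NumberField.RingOfIntegers.rank]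
  have : (2 : 𝓞 F) = algebraMap ℤ (𝓞 F) 2 := by simp
  rw [this, Algebra.norm_algebraMap]
  simp [Int.natAbs_pow]

theorem prod_card_le (S : Finset (Pl F)) :
    ∏ v ∈ S, Nat.card (𝓞 F ⧸ v.asIdeal ^ e2 v) ≤ 2 ^ Module.finrank ℚ F := by
  have h1 : ∏ v ∈ S, v.asIdeal ^ e2 v ∣ Ideal.span {(2 : 𝓞 F)} := by
    refine Finset.prod_dvd_of_coprime (fun v _ w _ hvw => ?_) fun v _ => ?_
    · exact IsCoprime.pow (Ideal.isCoprime_iff_sup_eq.mpr
        (v.isMaximal.coprime_of_ne w.isMaximal fun h => hvw (HeightOneSpectrum.ext h)))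
    · rw [Ideal.dvd_span_singleton, ← val_int_le_pow_iff]
      simpa [map_ofNat] using (val_two v).le
  have h2 := map_dvd Ideal.absNorm h1
  rw [absNorm_two, map_prod] at h2
  exact Nat.le_of_dvd (by positivity) h2

end Loc

open Loc

universe u

theorem l1Stmt : L1Stmt.{u} := by
  intro F _ _ S
  refine ⟨fun v => (index_Sq v).1, ?_⟩
  calc _ ≤ ∏ v ∈ S, 4 * Nat.card (𝓞 F ⧸ v.asIdeal ^ e2 v) :=
        Finset.prod_le_prod' fun v _ => (index_Sq v).2
    _ = 4 ^ S.card * ∏ v ∈ S, Nat.card (𝓞 F ⧸ v.asIdeal ^ e2 v) := by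
        rw [Finset.prod_mul_distrib, Finset.prod_const]
    _ ≤ _ := Nat.mul_le_mul_left _ (prod_card_le S)

theorem l3Stmt : L3Stmt.{u} := by
  intro F _ _ v x y h2 hx hy hx' hy'
  have he : e2 v = 0 := by simp [e2, h2]
  obtain ⟨h0, hle⟩ := relIndex_Sq_Un v
  rw [he, pow_zero, Ideal.one_eq_top] at hle
  have hc : Nat.card (𝓞 F ⧸ (⊤ : Ideal (𝓞 F))) = 1 := Nat.card_unique
  rw [hc] at hle
  have h1 : (Sq v).relIndex (Un v) ≠ 1 := fun h => hx' (Subgroup.relIndex_eq_one.mp h hx)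
  have h : ((Sq v).subgroupOf (Un v)).index = 2 := by
    change (Sq v).relIndex (Un v) = 2
    omega
  have := (Subgroup.mul_mem_iff_of_index_two h (a := ⟨x, hx⟩) (b := ⟨y, hy⟩)).mpr
    (by simp [Subgroup.mem_subgroupOf, hx', hy'])
  exact this

end Crest.Agent.T24.Hn
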