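import Mathlib
import Crest.Agent.T24.HnLocA_73

/-!
# Row 24, Hasse norm theorem, local part B (helper73): `l2Stmt`

At a place where `d` is not a square there is a local non-norm (quadratic defect).
-/

set_option autoImplicit false

noncomputable section

open scoped NumberField
open IsDedekindDomain WithZero

namespace Crest.Agent.T24.Hn

namespace Loc

variable {F : Type*} [Field F] [NumberField F] (v : Pl F)

/-- nonzero of even order -/
def Ev (z : F) : Prop := ∃ n : ℤ, v.valuation F z = exp (2 * n)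

theorem Ev.ne_zero {v : Pl F} {z : F} (h : Ev v z) : z ≠ 0 := by
  rintro rfl
  obtain ⟨n, hn⟩ := h
  rw [map_zero] at hn
  exact exp_ne_zero hn.symm

theorem ev_sq {c : F} (hc : c ≠ 0) : Ev v (c ^ 2) :=
  ⟨log (v.valuation F c), by
    rw [map_pow, two_mul, exp_add, exp_log (by simpa using hc), sq]⟩

theorem Ev.mul {v : Pl F} {a b : F} (ha : Ev v a) (hb : Ev v b) : Ev v (a * b) := by
  obtain ⟨m, hm⟩ := ha
  obtain ⟨n, hn⟩ := hb
  exact ⟨m + n, by rw [map_mul, hm, hn, ← exp_add, mul_add]⟩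

theorem Ev.inv {v : Pl F} {a : F} (ha : Ev v a) : Ev v a⁻¹ := by
  obtain ⟨m, hm⟩ := ha
  exact ⟨-m, by rw [map_inv₀, hm, ← exp_neg, mul_neg]⟩

theorem Ev.neg {v : Pl F} {a : F} (ha : Ev v a) : Ev v (-a) := by
  obtain ⟨m, hm⟩ := ha
  exact ⟨m, by rw [Valuation.map_neg, hm]⟩

theorem Ev.of_mul {v : Pl F} {a b : F} (h : Ev v (a * b)) (hb : Ev v b) : Ev v a := by
  have := h.mul hb.inv
  rwa [mul_assoc, mul_inv_cancel₀ hb.ne_zero, mul_one] at this

theorem ev_of_val_one {a : F} (h : v.valuation F a = 1) : Ev v a := ⟨0, by simpa using h⟩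

theorem not_ev_of_odd {a : F} {n : ℤ} (h : v.valuation F a = exp (2 * n + 1)) : ¬ Ev v a := by
  rintro ⟨m, hm⟩
  rw [hm, exp_inj] at h
  omega

theorem ev_or_odd {a : F} (ha : a ≠ 0) : Ev v a ∨ ∃ n : ℤ, v.valuation F a = exp (2 * n + 1) := by
  have h0 : v.valuation F a ≠ 0 := by simpa using ha
  rcases Int.even_or_odd' (log (v.valuation F a)) with ⟨n, hn | hn⟩
  · exact Or.inl ⟨n, by rw [← hn, exp_log h0]⟩
  · exact Or.inr ⟨n, by rw [← hn, exp_log h0]⟩

/-- elements of even order -/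
def EvS : Subgroup Fˣ where
  carrier := {x | Ev v (x : F)}
  one_mem' := ev_of_val_one v (by simp)
  mul_mem' := fun ha hb => Ev.mul ha hb
  inv_mem' := by
    intro a ha
    simpa using Ev.inv ha

theorem EvS_ne_top : EvS v ≠ ⊤ := by
  intro h
  obtain ⟨c, hc⟩ := exists_val_eq v (2 * 0 + 1)
  exact not_ev_of_odd v hc (show c ∈ EvS v from h ▸ Subgroup.mem_top c)

/-- a local square is a square times an element close to `1` -/
theorem exists_of_mem_Sq {s : Fˣ} (hs : s ∈ Sq v) :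
    ∃ y : F, y ≠ 0 ∧ v.valuation F ((s : F) * y ^ 2 - 1) < v.valuation F 4 ∧
      v.valuation F ((s : F) * y ^ 2) = 1 := by
  obtain ⟨y, hy⟩ := hs
  have h1 := val_eq_one_of_lt v (hy.trans_le (val_four_le v))
  refine ⟨y, ?_, hy, h1⟩
  rintro rfl
  simp at h1

theorem Sq_le_EvS : Sq v ≤ EvS v := fun s hs => by
  obtain ⟨y, hy, -, h1⟩ := exists_of_mem_Sq v hs
  exact (ev_of_val_one v h1).of_mul (ev_sq v hy)

/-- `Δ` generates the unramified quadratic extension at `v` -/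
def UR (D : F) : Prop := v.valuation F (D - 1) ≤ v.valuation F 4 ∧
  ∀ t : F, v.valuation F t ≤ 1 → v.valuation F 4 ≤ v.valuation F ((1 + 2 * t) ^ 2 - D)

theorem UR.near {v : Pl F} {D D' : F} (h : UR v D) (h' : v.valuation F (D' - D) < v.valuation F 4) :
    UR v D' := by
  refine ⟨?_, fun t ht => ?_⟩
  · have e : D' - 1 = (D' - D) + (D - 1) := by ring
    rw [e]
    exact (v.valuation F).map_add_le h'.le h.1
  · have e : (1 + 2 * t) ^ 2 - D' = ((1 + 2 * t) ^ 2 - D) - (D' - D) := by ring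
    rw [e, Valuation.map_sub_eq_of_lt_left _ (h'.trans_le (h.2 t ht))]
    exact h.2 t ht

theorem ev_four : Ev v 4 := by
  have := ev_sq v (c := 2) two_ne_zero
  norm_num at this
  exact this

theorem UR.ev_sub {v : Pl F} {D : F} (h : UR v D) (u : F) : Ev v (u ^ 2 - D) := by
  obtain ⟨t, rfl⟩ : ∃ t, u = 1 + 2 * t := ⟨(u - 1) / 2, by ring⟩
  have e : (1 + 2 * t) ^ 2 - D = 4 * t ^ 2 + (4 * t - (D - 1)) := by ring
  obtain ⟨n, hn⟩ := ev_four v
  by_cases ht : v.valuation F t ≤ 1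
  · refine ⟨n, hn ▸ le_antisymm ?_ (h.2 t ht)⟩
    rw [e]
    refine (v.valuation F).map_add_le ?_ ((v.valuation F).map_sub_le ?_ h.1)
    · rw [map_mul, map_pow]
      exact mul_le_of_le_one_right' (pow_le_one' ht 2)
    · rw [map_mul]
      exact mul_le_of_le_one_right' ht
  · push Not at ht
    have ht0 : t ≠ 0 := by
      rintro rfl
      simp at ht
    have h1 : v.valuation F 4 < v.valuation F (4 * t) := by
      rw [map_mul]
      exact lt_mul_of_one_lt_right (val_four_pos v) ht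
    have h2 : v.valuation F (4 * t) < v.valuation F (4 * t ^ 2) := by
      rw [sq, ← mul_assoc, map_mul _ (4 * t)]
      exact lt_mul_of_one_lt_right ((val_four_pos v).trans h1) ht
    obtain ⟨m, hm⟩ := (ev_four v).mul (ev_sq v ht0)
    refine ⟨m, ?_⟩
    rw [e, Valuation.map_add_eq_of_lt_left _
      ((v.valuation F).map_sub_lt h2 (h.1.trans_lt (h1.trans h2))), hm]

theorem UR.ev_norm {v : Pl F} {D : F} (h : UR v D) {x y : F} (h0 : x ^ 2 - D * y ^ 2 ≠ 0) :
    Ev v (x ^ 2 - D * y ^ 2) := by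
  by_cases hy : y = 0
  · subst hy
    have hx : x ≠ 0 := by
      rintro rfl
      simp at h0
    simpa using ev_sq v hx
  · have e : x ^ 2 - D * y ^ 2 = ((x / y) ^ 2 - D) * y ^ 2 := by field_simp
    rw [e]
    exact (h.ev_sub _).mul (ev_sq v hy)

theorem UR.val_eq_one {v : Pl F} {D : F} (h : UR v D) : v.valuation F D = 1 := by
  rcases (val_two_le v).lt_or_eq with h2 | h2
  · refine val_eq_one_of_lt v (h.1.trans_lt ?_)
    rw [val_four]
    exact pow_lt_one₀ zero_le h2 two_ne_zero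
  · have h1 := h.2 (-1 / 2) (by simp [h2])
    have e : (1 + 2 * (-1 / 2 : F)) ^ 2 - D = -D := by ring
    rw [e, Valuation.map_neg, val_four, h2, one_pow] at h1
    refine le_antisymm ?_ h1
    have e : D = (D - 1) + 1 := by ring
    rw [e]
    exact (v.valuation F).map_add_le (h.1.trans (val_four_le v)) (map_one _).le

theorem UR.LN_le {v : Pl F} {D : F} (h : UR v D) : LN D v ≤ EvS v := by
  refine sup_le ?_ (Sq_le_EvS v)
  rintro a ⟨x, y, ha⟩
  change Ev v (a : F)
  rw [ha]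
  exact h.ev_norm (ha ▸ a.ne_zero)

instance finite_res : Finite (𝓞 F ⧸ v.asIdeal) :=
  Ideal.finiteQuotientOfFreeOfNeBot _ v.ne_bot

theorem val_int_eq_one {a : 𝓞 F} (h : a ∉ v.asIdeal) : v.valuation F (a : F) = 1 :=
  le_antisymm (val_int_le v a) (not_lt.mp fun h' => h ((val_int_lt_iff v a).mp h'))

theorem exists_UR : ∃ D : F, UR v D := by
  have hp := v.isPrime
  have h1 : ¬ Function.Injective fun x : 𝓞 F ⧸ v.asIdeal => x ^ 2 + x := fun h => by
    have : (0 : 𝓞 F ⧸ v.asIdeal) = -1 := h (by ring)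
    simp at this
  rw [Finite.injective_iff_surjective, Function.Surjective] at h1
  push Not at h1
  obtain ⟨r, hr⟩ := h1
  obtain ⟨r, rfl⟩ := Ideal.Quotient.mk_surjective r
  refine ⟨1 + 4 * r, ?_, fun t ht => ?_⟩
  · rw [add_sub_cancel_left, map_mul]
    exact mul_le_of_le_one_right' (val_int_le v r)
  · obtain ⟨a, ha⟩ := exists_int_near v ht 0
    rw [exp_zero] at ha
    have h2 : a ^ 2 + a - r ∉ v.asIdeal := fun h => hr (Ideal.Quotient.mk _ a) (by
      have := Ideal.Quotient.eq.mpr h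
      simpa using this)
    have h3 := val_int_eq_one v h2
    have e : (1 + 2 * t) ^ 2 - (1 + 4 * (r : F)) =
        4 * (((a ^ 2 + a - r : 𝓞 F) : F) - ((a : F) - t) * (a + t + 1)) := by
      push_cast; ring
    have h4 : v.valuation F (((a : F) - t) * (a + t + 1)) < 1 := by
      rw [map_mul]
      refine mul_lt_one_of_lt_of_le ha ?_
      exact (v.valuation F).map_add_le ((v.valuation F).map_add_le (val_int_le v a) ht)
        (map_one _).le
    rw [e, map_mul, Valuation.map_sub_eq_of_lt_left _ (h3 ▸ h4), h3, mul_one]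

theorem UR_of_notMem {d : Fˣ} (hd : d ∉ Sq v) (h1 : v.valuation F (d : F) = 1)
    (h : v.valuation F ((d : F) - 1) ≤ v.valuation F 4) : UR v d := by
  refine ⟨h, fun t _ => not_lt.mp fun hlt => hd ?_⟩
  set u := 1 + 2 * t
  have h2 : v.valuation F (u ^ 2) = 1 := by
    have e : u ^ 2 = d + (u ^ 2 - d) := by ring
    rw [e, Valuation.map_add_eq_of_lt_left _ (h1 ▸ hlt.trans_le (val_four_le v)), h1]
  have hu : u ≠ 0 := by
    rintro h0
    simp [h0] at h2
  refine ⟨u⁻¹, ?_⟩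
  have e : (d : F) * u⁻¹ ^ 2 - 1 = -((u ^ 2 - d) / u ^ 2) := by field_simp; ring
  rw [e, Valuation.map_neg, map_div₀, h2, div_one]
  exact hlt

/-- `(d, Δ - d) = (Δ, Δ d (Δ - d))` -/
theorem notMem_LN {D : F} (h : UR v D) {d a : Fˣ} (hda : (d : F) + a = D)
    (ha : v.valuation F (a : F) ≤ 1) (hodd : ¬ Ev v ((d : F) * a)) : a ∉ LN (d : F) v := by
  intro hm
  obtain ⟨n, ⟨x, z, hn⟩, s, hs, hns⟩ := Subgroup.mem_sup.mp hm
  obtain ⟨y, hy, hy1, hy2⟩ := exists_of_mem_Sq v (inv_mem hs)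
  set g := ((s⁻¹ : Fˣ) : F) * y ^ 2 with hg
  have hag : (a : F) * g = (x * y) ^ 2 - d * (z * y) ^ 2 := by
    have : (a : F) * g = n * y ^ 2 := by
      have := s.ne_zero
      rw [hg, ← hns, Units.val_mul, Units.val_inv_eq_inv_val]; field_simp
    rw [this, hn]; ring
  have hD : UR v (d + a * g) := h.near (by
    have e : (d : F) + a * g - D = a * (g - 1) := by rw [← hda]; ring
    rw [e, map_mul]
    exact (mul_le_of_le_one_left' ha).trans_lt hy1)
  set X := x * y
  set Y := z * y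
  by_cases hY : Y = 1
  · refine (hD.ev_sub X).ne_zero ?_
    rw [hag, hY]; ring
  · have hY' : 1 - Y ≠ 0 := fun h0 => hY (by linear_combination -h0)
    have hg0 : g ≠ 0 := (ev_of_val_one v hy2).ne_zero
    have e : ((d : F) * Y + a * g) ^ 2 - (d + a * g) * X ^ 2 = -(d * a * g * (1 - Y) ^ 2) := by
      linear_combination ((d : F) + a * g) * hag
    have h0 : ((d : F) * Y + a * g) ^ 2 - (d + a * g) * X ^ 2 ≠ 0 := by
      rw [e]
      have := d.ne_zero
      have := a.ne_zero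
      simp [*]
    have h1 := (hD.ev_norm h0).neg
    rw [e, neg_neg] at h1
    exact hodd ((h1.of_mul (ev_sq v hY')).of_mul (ev_of_val_one v hy2))

omit [NumberField F] in
theorem Nr_mul_sq (d : F) {c : F} (hc : c ≠ 0) : Nr (d * c ^ 2) = Nr d := by
  ext a
  constructor
  · rintro ⟨x, y, h⟩
    exact ⟨x, c * y, by rw [h]; ring⟩
  · rintro ⟨x, y, h⟩
    exact ⟨x, y / c, by rw [h]; field_simp⟩

theorem LN_mul_sq (d c : Fˣ) : LN ((d * c ^ 2 : Fˣ) : F) v = LN (d : F) v := by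
  rw [LN, LN, Units.val_mul, Units.val_pow_eq_pow_val, Nr_mul_sq _ c.ne_zero]

theorem mul_sq_mem_Sq {d : Fˣ} (c : Fˣ) : d * c ^ 2 ∈ Sq v ↔ d ∈ Sq v :=
  Subgroup.mul_mem_cancel_right _ (sq_mem_Sq v c)

theorem exists_sq_near (h2 : v.valuation F 2 < 1) {c : F} (hc : v.valuation F c ≤ 1) :
    ∃ b : F, v.valuation F b ≤ 1 ∧ v.valuation F (b ^ 2 - c) < 1 := by
  have hp := v.isPrime
  have h20 : (2 : 𝓞 F ⧸ v.asIdeal) = 0 := by
    have : (2 : 𝓞 F) ∈ v.asIdeal := (val_int_lt_iff v 2).mp (by simpa [map_ofNat] using h2)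
    have := Ideal.Quotient.eq_zero_iff_mem.mpr this
    simpa [map_ofNat] using this
  have h1 : Function.Injective fun x : 𝓞 F ⧸ v.asIdeal => x ^ 2 := fun x y h => by
    have h' : x ^ 2 = y ^ 2 := h
    have : (x - y) ^ 2 = 0 := by linear_combination h' + (y ^ 2 - x * y) * h20
    exact sub_eq_zero.mp (pow_eq_zero_iff two_ne_zero |>.mp this)
  obtain ⟨a, ha⟩ := exists_int_near v hc 0
  rw [exp_zero] at ha
  obtain ⟨b, hb⟩ := Finite.injective_iff_surjective.mp h1 (Ideal.Quotient.mk _ a)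
  obtain ⟨b, rfl⟩ := Ideal.Quotient.mk_surjective b
  have h3 : b ^ 2 - a ∈ v.asIdeal := Ideal.Quotient.eq.mp (by simpa using hb)
  refine ⟨b, val_int_le v b, ?_⟩
  have e : (b : F) ^ 2 - c = ((b ^ 2 - a : 𝓞 F) : F) + (a - c) := by push_cast; ring
  rw [e]
  exact (v.valuation F).map_add_lt ((val_int_lt_iff v _).mpr h3) ha

/-- the quadratic defect: the three normal forms of a local non-square -/
theorem defect {d : Fˣ} (hd : d ∉ Sq v) : ∃ c : Fˣ,
    v.valuation F ((d * c ^ 2 : Fˣ) : F) = exp (-1) ∨ UR v ((d * c ^ 2 : Fˣ) : F) ∨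
    (v.valuation F ((d * c ^ 2 : Fˣ) : F) = 1 ∧ ∃ j : ℕ, j < e2 v ∧
      v.valuation F (((d * c ^ 2 : Fˣ) : F) - 1) = exp (-(2 * j + 1 : ℤ))) := by
  classical
  rcases ev_or_odd v d.ne_zero with ⟨n, hn⟩ | ⟨n, hn⟩
  swap
  · obtain ⟨c, hc⟩ := exists_val_eq v (-n - 1)
    refine ⟨c, Or.inl ?_⟩
    rw [Units.val_mul, Units.val_pow_eq_pow_val, map_mul, map_pow, hn, hc, ← exp_nsmul,
      ← exp_add]
    congr 1
    simp only [nsmul_eq_mul]; push_cast; ring
  let P : ℕ → Prop := fun k => ∃ c : Fˣ, v.valuation F ((d * c ^ 2 : Fˣ) : F) = 1 ∧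
    v.valuation F (((d * c ^ 2 : Fˣ) : F) - 1) ≤ exp (-(k : ℤ))
  have hP0 : P 0 := by
    obtain ⟨c, hc⟩ := exists_sq_mul_mem_Un v hn
    exact ⟨c, hc, by simpa using (v.valuation F).map_sub_le (le_of_eq hc) (map_one _).le⟩
  by_cases hPe : P (2 * e2 v)
  · obtain ⟨c, hc1, hc2⟩ := hPe
    exact ⟨c, Or.inr (Or.inl (UR_of_notMem v (fun h => hd ((mul_sq_mem_Sq v c).mp h)) hc1
      (by rwa [val_four'])))⟩
  have hex : ∃ k, ¬ P k := ⟨_, hPe⟩
  have h0 : Nat.find hex ≠ 0 := fun h => Nat.find_spec hex (h ▸ hP0)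
  obtain ⟨k, hk⟩ := Nat.exists_eq_succ_of_ne_zero h0
  have hk1 : ¬ P (k + 1) := by
    have := Nat.find_spec hex
    rwa [hk] at this
  have hk2 : P k := not_not.mp (Nat.find_min hex (by omega))
  have hk3 : k + 1 ≤ 2 * e2 v := by
    have := Nat.find_min' hex hPe
    omega
  obtain ⟨c, hc1, hc2⟩ := hk2
  set d' : F := ((d * c ^ 2 : Fˣ) : F) with hd'
  have hc3 : v.valuation F (d' - 1) = exp (-(k : ℤ)) := by
    refine le_antisymm hc2 (not_lt.mp fun h => hk1 ⟨c, hc1, ?_⟩)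
    convert lt_exp_iff.mp h using 2
    push_cast; ring
  rcases Nat.even_or_odd' k with ⟨j, hj | hj⟩
  swap
  · refine ⟨c, Or.inr (Or.inr ⟨hc1, j, by omega, ?_⟩)⟩
    rw [← hd', hc3, hj]; push_cast; rfl
  exfalso
  obtain ⟨p, hp⟩ := exists_val_eq v (-(j : ℤ))
  have hp2 : v.valuation F ((p : F) ^ 2) = exp (-(k : ℤ)) := by
    rw [map_pow, hp, ← exp_nsmul, hj]; congr 1; simp only [nsmul_eq_mul]; push_cast; ring
  have h2 : v.valuation F 2 < 1 := by
    rw [val_two, ← exp_zero, exp_lt_exp]; omega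
  obtain ⟨b, hb1, hb2⟩ := exists_sq_near v h2 (c := (d' - 1) / p ^ 2) (by
    rw [map_div₀, hc3, hp2, div_self exp_ne_zero])
  set u : F := 1 + p * b with hu
  have h3 : v.valuation F (u ^ 2 - d') < exp (-(k : ℤ)) := by
    have e : u ^ 2 - d' = 2 * p * b + p ^ 2 * (b ^ 2 - (d' - 1) / p ^ 2) := by
      have := p.ne_zero
      rw [hu]; field_simp; ring
    rw [e]
    refine (v.valuation F).map_add_lt ?_ ?_
    · rw [map_mul, map_mul, val_two, hp, ← exp_add]
      refine (mul_le_of_le_one_right' hb1).trans_lt ?_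
      rw [exp_lt_exp]; omega
    · rw [map_mul, hp2]
      exact mul_lt_of_lt_one_right (zero_lt_iff.mpr exp_ne_zero) hb2
  have h4 : v.valuation F (u ^ 2) = 1 := by
    have e : u ^ 2 = d' + (u ^ 2 - d') := by ring
    rw [e, Valuation.map_add_eq_of_lt_left _ (hc1 ▸ h3.trans_le (exp_neg_le_one k)), hc1]
  have hu0 : u ≠ 0 := by
    rintro h0
    simp [h0] at h4
  have e1 : ((d * (c * (Units.mk0 u hu0)⁻¹) ^ 2 : Fˣ) : F) = d' / u ^ 2 := by
    rw [hd']; simp; field_simp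
  refine hk1 ⟨c * (Units.mk0 u hu0)⁻¹, ?_, ?_⟩
  · rw [e1, map_div₀, hc1, h4, div_one]
  · have e : d' / u ^ 2 - 1 = -((u ^ 2 - d') / u ^ 2) := by field_simp; ring
    rw [e1, e, Valuation.map_neg, map_div₀, h4, div_one]
    convert lt_exp_iff.mp h3 using 2
    push_cast; ring

end Loc

open Loc

universe u

theorem l2Stmt : L2Stmt.{u} := by
  intro F _ _ v d hd
  obtain ⟨c, hc⟩ := defect v hd
  rw [← LN_mul_sq v d c]
  set d' := d * c ^ 2
  obtain ⟨D, hD⟩ := exists_UR v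
  have key : ∀ n : ℤ, v.valuation F (D - d') ≤ 1 → v.valuation F (d' * (D - d')) = exp (2 * n + 1) →
      LN (d' : F) v ≠ ⊤ := by
    intro n h1 h2 ht
    have h0 : D - d' ≠ 0 := by
      intro h0
      rw [h0, mul_zero, map_zero] at h2
      exact exp_ne_zero h2.symm
    exact notMem_LN v hD (d := d') (a := Units.mk0 _ h0) (by simp) h1 (not_ev_of_odd v h2)
      (ht ▸ Subgroup.mem_top _)
  rcases hc with hc | hc | ⟨hc, j, hj, hc'⟩
  · have h1 : v.valuation F (D - d') = 1 := by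
      rw [Valuation.map_sub_eq_of_lt_left _ (by
        rw [hD.val_eq_one, hc, ← exp_zero, exp_lt_exp]; omega), hD.val_eq_one]
    exact key (-1) h1.le (by rw [map_mul, h1, hc, mul_one]; rfl)
  · exact fun ht => EvS_ne_top v (top_le_iff.mp (ht ▸ hc.LN_le))
  · have h1 : v.valuation F (D - d') = exp (-(2 * j + 1 : ℤ)) := by
      have e : D - d' = (D - 1) - (d' - 1) := by ring
      rw [e, Valuation.map_sub_eq_of_lt_right _ (hD.1.trans_lt (by
        rw [hc', val_four', exp_lt_exp]; omega)), hc']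
    refine key (-(j : ℤ) - 1) (by rw [h1, ← exp_zero, exp_le_exp]; omega) ?_
    rw [map_mul, hc, h1, one_mul]; congr 1; ring

end Crest.Agent.T24.Hn
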