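import Mathlib
import Crest.Agent.T24.HnLocB_73

/-!
# Row 24, Hasse norm theorem, local part D (helper73): `l5Stmt`

Bridge between the completion-free words and the completions; good places.
-/

set_option autoImplicit false

noncomputable section

open scoped NumberField
open IsDedekindDomain WithZero Polynomial

namespace Crest.Agent.T24.Hn

namespace Loc

/-- Hensel's lemma for `t ^ 2 + t = c` -/
theorem exists_sq_add {K : Type*} [NormedField K] [IsUltrametricDist K] [CompleteSpace K] {c : K}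
    (hc : ‖c‖ < 1) : ∃ t : K, t ^ 2 + t = c := by
  let f : K → K := fun t => c - t ^ 2
  have hm : Set.MapsTo f (Metric.closedBall 0 ‖c‖) (Metric.closedBall 0 ‖c‖) := by
    intro t ht
    rw [mem_closedBall_zero_iff] at *
    change ‖c - t ^ 2‖ ≤ ‖c‖
    rw [sub_eq_add_neg]
    refine (IsUltrametricDist.norm_add_le_max _ _).trans (max_le le_rfl ?_)
    rw [norm_neg, norm_pow]
    nlinarith [norm_nonneg t]
  have hf : ContractingWith ‖c‖₊ (hm.restrict f _ _) := by
    refine ⟨by exact_mod_cast hc, LipschitzWith.of_dist_le_mul fun s t => ?_⟩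
    have hs := mem_closedBall_zero_iff.mp s.2
    have ht := mem_closedBall_zero_iff.mp t.2
    change dist (f s) (f t) ≤ ‖c‖ * dist (s : K) t
    rw [dist_eq_norm, dist_eq_norm]
    have e : f s - f t = -(((s : K) + t) * (s - t)) := by simp only [f]; ring
    rw [e, norm_neg, norm_mul]
    gcongr
    exact (IsUltrametricDist.norm_add_le_max _ _).trans (max_le hs ht)
  obtain ⟨t, -, ht, -⟩ := hf.exists_fixedPoint' Metric.isClosed_closedBall.isComplete hm
    (Metric.mem_closedBall_self (norm_nonneg c)) (edist_ne_top _ _)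
  exact ⟨t, by have : c - t ^ 2 = t := ht; linear_combination -this⟩

variable {F : Type*} [Field F] [NumberField F] (v : Pl F)

theorem valued_algebraMap (x : F) :
    Valued.v (algebraMap F (v.adicCompletion F) x) = v.valuation F x :=
  v.valuedAdicCompletion_eq_valuation' x

theorem norm_lt_iff (x y : F) : ‖algebraMap F (v.adicCompletion F) x‖ <
    ‖algebraMap F (v.adicCompletion F) y‖ ↔ v.valuation F x < v.valuation F y := by
  rw [Valued.toNormedField.norm_lt_iff, valued_algebraMap, valued_algebraMap]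

theorem isSquare_of_mem_Sq {s : Fˣ} (hs : s ∈ Sq v) :
    IsSquare (algebraMap F (v.adicCompletion F) s) := by
  obtain ⟨y, hy, hy1, -⟩ := exists_of_mem_Sq v hs
  have h1 : v.valuation F (((s : F) * y ^ 2 - 1) / 4) < v.valuation F 1 := by
    rw [map_div₀, map_one, div_lt_one₀ (val_four_pos v)]
    exact hy1
  rw [← norm_lt_iff, map_one, norm_one] at h1
  obtain ⟨t, ht⟩ := exists_sq_add h1
  have hy' : algebraMap F (v.adicCompletion F) y ≠ 0 := by simpa using hy
  have h4 : algebraMap F (v.adicCompletion F) 4 ≠ 0 := by simp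
  refine ⟨(1 + 2 * t) / algebraMap F _ y, ?_⟩
  rw [map_div₀, map_sub, map_mul, map_pow, map_one, eq_div_iff h4, map_ofNat] at ht
  field_simp
  linear_combination -ht

theorem mem_LN_of_near {d : F} {a : Fˣ} {x y : F}
    (h : v.valuation F ((a : F) - (x ^ 2 - d * y ^ 2)) < v.valuation F (4 * a)) : a ∈ LN d v := by
  have h1 : v.valuation F (4 * a) ≤ v.valuation F a := by
    rw [map_mul]; exact mul_le_of_le_one_left' (val_four_le v)
  have h2 : v.valuation F (x ^ 2 - d * y ^ 2) = v.valuation F a := by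
    have e : x ^ 2 - d * y ^ 2 = a - ((a : F) - (x ^ 2 - d * y ^ 2)) := by ring
    rw [e, Valuation.map_sub_eq_of_lt_left _ (h.trans_le h1)]
  have h0 : x ^ 2 - d * y ^ 2 ≠ 0 := by
    intro h0
    rw [h0, map_zero] at h2
    exact val_unit_ne v a h2.symm
  refine Subgroup.mem_sup.mpr ⟨Units.mk0 _ h0, ⟨x, y, rfl⟩, (Units.mk0 _ h0)⁻¹ * a, ⟨1, ?_⟩,
    mul_inv_cancel_left _ _⟩
  have e : (((Units.mk0 _ h0)⁻¹ * a : Fˣ) : F) * 1 ^ 2 - 1 =
      ((a : F) - (x ^ 2 - d * y ^ 2)) / (x ^ 2 - d * y ^ 2) := by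
    simp only [Units.val_mul, Units.val_inv_eq_inv_val, Units.val_mk0]
    field_simp
  rw [e, map_div₀, h2, div_lt_iff₀ (zero_lt_iff.mpr (val_unit_ne v a)), ← map_mul]
  exact h

theorem mem_LN_iff (d : F) (a : Fˣ) : a ∈ LN d v ↔ ∃ x y : v.adicCompletion F,
    algebraMap F (v.adicCompletion F) a = x ^ 2 - algebraMap F (v.adicCompletion F) d * y ^ 2 := by
  constructor
  · intro h
    obtain ⟨n, ⟨x, y, hn⟩, s, hs, rfl⟩ := Subgroup.mem_sup.mp h
    obtain ⟨z, hz⟩ := isSquare_of_mem_Sq v hs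
    refine ⟨algebraMap F _ x * z, algebraMap F _ y * z, ?_⟩
    rw [Units.val_mul, map_mul, hz, hn, map_sub, map_mul, map_pow, map_pow]
    ring
  · rintro ⟨x, y, h⟩
    let ι := algebraMap F (v.adicCompletion F)
    have hd : DenseRange (Prod.map ι ι) :=
      (v.denseRange_algebraMap F).prodMap (v.denseRange_algebraMap F)
    have ho : IsOpen {p : v.adicCompletion F × v.adicCompletion F |
        ‖ι a - (p.1 ^ 2 - ι d * p.2 ^ 2)‖ < ‖ι (4 * a)‖} :=
      isOpen_lt (by fun_prop) continuous_const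
    obtain ⟨⟨x', y'⟩, hp⟩ := hd.exists_mem_open ho ⟨(x, y), by
      change ‖ι a - (x ^ 2 - ι d * y ^ 2)‖ < _
      rw [← h, sub_self, norm_zero, norm_pos_iff]
      simp⟩
    refine mem_LN_of_near v (x := x') (y := y') ((norm_lt_iff v _ _).mp ?_)
    simpa [ι] using hp

theorem mem_Sq_iff (s : Fˣ) : s ∈ Sq v ↔ IsSquare (algebraMap F (v.adicCompletion F) s) := by
  refine ⟨isSquare_of_mem_Sq v, ?_⟩
  rintro ⟨z, hz⟩
  obtain ⟨n, ⟨x, y, hn⟩, t, ht, rfl⟩ :=
    Subgroup.mem_sup.mp ((mem_LN_iff v 0 s).mpr ⟨z, 0, by rw [hz]; ring⟩)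
  refine mul_mem ?_ ht
  have hx : x ≠ 0 := by
    rintro rfl
    simp at hn
  have : n = Units.mk0 x hx ^ 2 := Units.ext (by simpa using hn)
  exact this ▸ sq_mem_Sq v _

theorem mem_LN_of_odd {d : F} {a : Fˣ} (h2 : v.valuation F 2 = 1) (hd : v.valuation F d = 1)
    (ha : v.valuation F (a : F) = 1) : a ∈ LN d v := by
  classical
  obtain ⟨d', hd'⟩ := exists_int_near v hd.le 0
  obtain ⟨a', ha'⟩ := exists_int_near v ha.le 0
  rw [exp_zero] at hd' ha'
  have hd1 : d' ∉ v.asIdeal := fun h => by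
    have e : d = d' - (d' - d) := by ring
    have := (v.valuation F).map_sub_lt ((val_int_lt_iff v d').mpr h) hd'
    rw [← e, hd] at this
    exact lt_irrefl _ this
  have hmax := v.isMaximal
  let _ : Field (𝓞 F ⧸ v.asIdeal) := Ideal.Quotient.field _
  let _ : Fintype (𝓞 F ⧸ v.asIdeal) := Fintype.ofFinite _
  have hchar : ringChar (𝓞 F ⧸ v.asIdeal) ≠ 2 := fun h => by
    have h1 := ringChar.Nat.cast_ringChar (R := 𝓞 F ⧸ v.asIdeal)
    rw [h] at h1
    have h3 : (2 : 𝓞 F) ∈ v.asIdeal := Ideal.Quotient.eq_zero_iff_mem.mp (by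
      simpa [map_ofNat] using h1)
    have := (val_int_lt_iff v 2).mpr h3
    simp [map_ofNat, h2] at this
  have hd2 : -Ideal.Quotient.mk v.asIdeal d' ≠ 0 :=
    neg_ne_zero.mpr (mt Ideal.Quotient.eq_zero_iff_mem.mp hd1)
  obtain ⟨x, y, hxy⟩ := FiniteField.exists_root_sum_quadratic
    (f := X ^ 2 - C (Ideal.Quotient.mk v.asIdeal a'))
    (g := C (-Ideal.Quotient.mk v.asIdeal d') * X ^ 2) (degree_X_pow_sub_C two_pos _)
    (degree_C_mul_X_pow 2 hd2) (FiniteField.odd_card_of_char_ne_two hchar)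
  obtain ⟨x, rfl⟩ := Ideal.Quotient.mk_surjective x
  obtain ⟨y, rfl⟩ := Ideal.Quotient.mk_surjective y
  have h3 : x ^ 2 - a' - d' * y ^ 2 ∈ v.asIdeal := Ideal.Quotient.eq_zero_iff_mem.mp (by
    simp only [eval_sub, eval_pow, eval_X, eval_C, eval_mul] at hxy
    simp only [map_sub, map_pow, map_mul]
    linear_combination hxy)
  refine mem_LN_of_near v (x := x) (y := y) ?_
  have e : (a : F) - ((x : F) ^ 2 - d * y ^ 2) =
      -((x ^ 2 - a' - d' * y ^ 2 : 𝓞 F) : F) - ((a' : F) - a) - ((d' : F) - d) * y ^ 2 := by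
    push_cast; ring
  rw [e, map_mul, val_four, h2, ha, one_pow, mul_one]
  refine (v.valuation F).map_sub_lt ((v.valuation F).map_sub_lt ?_ ha') ?_
  · rw [Valuation.map_neg]; exact (val_int_lt_iff v _).mpr h3
  · rw [map_mul, map_pow]
    exact mul_lt_one_of_lt_of_le hd' (pow_le_one' (val_int_le v y) 2)

end Loc

open Loc

universe u

theorem l5Stmt : L5Stmt.{u} := fun _ _ _ v d a =>
  ⟨mem_LN_iff v d a, mem_LN_of_odd v⟩

end Crest.Agent.T24.Hn
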