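import Crest.Agent.T24.CsaN_50

/-! The coefficients of `rch` as polynomials in coordinates; continuity; generic elements. -/

set_option autoImplicit false

noncomputable section

namespace Crest.Agent.T24.Csa

open scoped TensorProduct
open Module Polynomial

section Mv

variable {K L ι : Type*} [Field K] [Field L]

/-- polynomials agreeing on a box of infinite subsets of a subfield agree -/
theorem mv_ext (f : K →+* L) (S : ι → Set K) (hS : ∀ i, (S i).Infinite) {G G' : MvPolynomial ι L}
    (h : ∀ x : ι → K, (∀ i, x i ∈ S i) →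
      MvPolynomial.eval (f ∘ x) G = MvPolynomial.eval (f ∘ x) G') : G = G' := by
  refine MvPolynomial.funext_set (fun i => f '' S i)
    (fun i => (hS i).image f.injective.injOn) fun y hy => ?_
  choose x hx hxy using fun i => hy i (Set.mem_univ i)
  have : y = f ∘ x := funext fun i => (hxy i).symm
  rw [this]; exact h x hx

/-- a nonzero polynomial over `L` has a non-root in any box of infinite subsets of `K` -/
theorem mv_exists_ne (f : K →+* L) (S : ι → Set K) (hS : ∀ i, (S i).Infinite)
    {G : MvPolynomial ι L} (hG : G ≠ 0) :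
    ∃ x : ι → K, (∀ i, x i ∈ S i) ∧ MvPolynomial.eval (f ∘ x) G ≠ 0 := by
  by_contra h
  push Not at h
  exact hG (mv_ext f S hS fun x hx => by simpa using h x hx)

theorem eval_comp_map (f : K →+* L) (x : ι → K) (P : MvPolynomial ι K) :
    MvPolynomial.eval (f ∘ x) (P.map f) = f (MvPolynomial.eval x P) :=
  (MvPolynomial.map_eval f x P).symm

/-- a polynomial with values in `K` at the `K`-points is defined over `K` -/
theorem mv_descent [Infinite K] (f : K →+* L) (G : MvPolynomial ι L)
    (h : ∀ x : ι → K, MvPolynomial.eval (f ∘ x) G ∈ f.range) :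
    ∃ P : MvPolynomial ι K, P.map f = G := by
  classical
  let _ : Algebra K L := f.toAlgebra
  obtain ⟨π, hπ⟩ := (Algebra.linearMap K L).exists_leftInverse_of_injective
    (LinearMap.ker_eq_bot.2 f.injective)
  have hπ1 : ∀ c, π (f c) = c := fun c => LinearMap.congr_fun hπ c
  have hπm : ∀ (a : L) (c : K), π (a * f c) = π a * c := fun a c => by
    rw [mul_comm, mul_comm (π a), ← smul_eq_mul c (π a), ← map_smul]; rfl
  refine ⟨∑ m ∈ G.support, MvPolynomial.monomial m (π (G.coeff m)), ?_⟩
  refine mv_ext f (fun _ => Set.univ) (fun _ => Set.infinite_univ) fun x _ => ?_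
  obtain ⟨c, hc⟩ := h x
  rw [eval_comp_map, ← hc]
  congr 1
  rw [← hπ1 c, hc, MvPolynomial.eval_eq (f ∘ x), map_sum, map_sum]
  refine Finset.sum_congr rfl fun m _ => ?_
  rw [MvPolynomial.eval_monomial, ← hπm, Finsupp.prod, map_prod]
  simp

end Mv

section Gen

variable {L ι n : Type*} [CommRing L] [Fintype ι] [Fintype n] [DecidableEq n]

/-- the generic linear combination of a family of matrices -/
def genM (A : ι → Matrix n n L) : Matrix n n (MvPolynomial ι L) :=
  ∑ i, (MvPolynomial.X i : MvPolynomial ι L) • (A i).map MvPolynomial.C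

omit [Fintype n] [DecidableEq n] in
theorem genM_map (A : ι → Matrix n n L) (x : ι → L) :
    (genM A).map (MvPolynomial.eval x) = ∑ i, x i • A i := by
  ext a b
  simp [genM, Matrix.sum_apply]

theorem genM_charpoly (A : ι → Matrix n n L) (x : ι → L) :
    (genM A).charpoly.map (MvPolynomial.eval x) = (∑ i, x i • A i).charpoly := by
  rw [← Matrix.charpoly_map, genM_map]

theorem genM_hom (A : ι → Matrix n n L) (j k : ℕ) (h : j + k = Fintype.card n) :
    ((genM A).charpoly.coeff j).IsHomogeneous k := by
  have h1 := Matrix.charpoly.univ_coeff_eval₂Hom n (MvPolynomial.C : L →+* MvPolynomial ι L)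
    (fun p : n × n => genM A p.1 p.2) j
  have h2 : (Matrix.of (Function.curry fun p : n × n => genM A p.1 p.2)) = genM A := rfl
  rw [h2] at h1
  rw [← h1]
  have := (Matrix.charpoly.univ_coeff_isHomogeneous L n j k h).eval₂ (n := 1) MvPolynomial.C
    (fun p : n × n => genM A p.1 p.2) (fun r => MvPolynomial.isHomogeneous_C _ r) (fun p => by
      simp only [genM, Matrix.sum_apply, Matrix.smul_apply, Matrix.map_apply, smul_eq_mul]
      exact MvPolynomial.IsHomogeneous.sum _ _ _ fun i _ =>
        (MvPolynomial.isHomogeneous_X L i).mul (MvPolynomial.isHomogeneous_C _ _))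
  rw [one_mul] at this
  exact this

omit [Fintype ι] in
theorem map_aeval_mat {L' : Type*} [CommRing L'] (f : L →+* L') (M : Matrix n n L) (g : L[X]) :
    (aeval M g).map f = aeval (M.map f) (g.map f) := by
  induction g using Polynomial.induction_on' with
  | add p q hp hq => rw [map_add, Polynomial.map_add, map_add, Matrix.map_add _ (map_add f), hp, hq]
  | monomial k a =>
    rw [Polynomial.map_monomial, aeval_monomial, aeval_monomial, Matrix.map_mul, Matrix.map_pow,
      Algebra.algebraMap_eq_smul_one, Algebra.algebraMap_eq_smul_one]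
    congr 1
    ext i j
    simp [Matrix.one_apply, apply_ite f]

end Gen

section Main

variable {K : Type*} [Field K] [CharZero K] {B : Type*} [Ring B] [Algebra K B]
  [Algebra.IsCentral K B] [IsSimpleRing B] [FiniteDimensional K B]
  {ι : Type*} [Fintype ι]

omit [CharZero K] in
theorem sp_sum (e : ι → B) (x : ι → K) : sp K B (∑ i, x i • e i) =
    ∑ i, (algebraMap K (AlgebraicClosure K) ∘ x) i • sp K B (e i) := by
  simp [map_sum]

theorem exists_rchP (e : ι → B) (j : ℕ) : ∃ P : MvPolynomial ι K,
    P.map (algebraMap K (AlgebraicClosure K)) = (genM fun i => sp K B (e i)).charpoly.coeff j := by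
  refine mv_descent _ _ fun x => ⟨(rch K (∑ i, x i • e i)).coeff j, ?_⟩
  rw [← coeff_map, ← sp_charpoly, ← coeff_map, genM_charpoly, sp_sum]

variable (K) in
/-- the `j`-th coefficient of `rch (∑ xᵢ eᵢ)` as a polynomial in `x` (any finite family `e`) -/
def rchP (e : ι → B) (j : ℕ) : MvPolynomial ι K := (exists_rchP e j).choose

theorem rchP_map (e : ι → B) (j : ℕ) : (rchP K e j).map (algebraMap K (AlgebraicClosure K)) =
    (genM fun i => sp K B (e i)).charpoly.coeff j := (exists_rchP e j).choose_spec

theorem eval_rchP (e : ι → B) (j : ℕ) (x : ι → K) :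
    MvPolynomial.eval x (rchP K e j) = (rch K (∑ i, x i • e i)).coeff j := by
  apply (algebraMap K (AlgebraicClosure K)).injective
  rw [← eval_comp_map, rchP_map, ← coeff_map, ← coeff_map, ← sp_charpoly, genM_charpoly, sp_sum]

theorem rchP_hom (e : ι → B) (j k : ℕ) (h : j + k = deg K B) : (rchP K e j).IsHomogeneous k := by
  refine MvPolynomial.IsHomogeneous.of_map (algebraMap K (AlgebraicClosure K)).injective ?_
  rw [rchP_map]
  exact genM_hom _ j k (by simpa using h)

variable (K) in
/-- the reduced norm form of a finite family -/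
def nrdP (e : ι → B) : MvPolynomial ι K := (-1) ^ deg K B * rchP K e 0

theorem eval_nrdP (e : ι → B) (x : ι → K) :
    MvPolynomial.eval x (nrdP K e) = Nrd K (∑ i, x i • e i) := by
  simp [nrdP, eval_rchP, Nrd_def]

theorem nrdP_hom (e : ι → B) : (nrdP K e).IsHomogeneous (deg K B) := by
  have h := rchP_hom (K := K) e 0 (deg K B) (zero_add _)
  rcases neg_one_pow_eq_or (MvPolynomial ι K) (deg K B) with h1 | h1 <;> rw [nrdP, h1]
  · simpa using h
  · simpa using h.neg

section Map

variable {L C : Type*} [Field L] [CharZero L] [Ring C] [Algebra L C] [Algebra.IsCentral L C]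
  [IsSimpleRing C] [FiniteDimensional L C]

/-- base change -/
theorem rchP_baseChange (f : K →+* L) (φ : B →+* C)
    (hf : ∀ c, φ (algebraMap K B c) = algebraMap L C (f c)) (h : finrank L C = finrank K B)
    (e : ι → B) (j : ℕ) : rchP L (fun i => φ (e i)) j = (rchP K e j).map f := by
  refine mv_ext f (fun _ => Set.univ) (fun _ => Set.infinite_univ) fun x _ => ?_
  rw [eval_comp_map, eval_rchP, eval_rchP, ← coeff_map, ← rch_map f φ hf h, map_sum]
  simp only [Algebra.smul_def, map_mul, hf, Function.comp_apply]

theorem nrdP_baseChange (f : K →+* L) (φ : B →+* C)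
    (hf : ∀ c, φ (algebraMap K B c) = algebraMap L C (f c)) (h : finrank L C = finrank K B)
    (e : ι → B) : nrdP L (fun i => φ (e i)) = (nrdP K e).map f := by
  have hd : deg L C = deg K B := by rw [deg, deg, h]
  rw [nrdP, nrdP, rchP_baseChange f φ hf h, hd]; simp

end Map

section Split

variable {L n : Type*} [Field L] [Fintype n] [DecidableEq n]

/-- in a splitting -/
theorem charpoly_sum_coeff (f : K →+* L) (φ : B →+* Matrix n n L)
    (hf : ∀ c, φ (algebraMap K B c) = algebraMap L _ (f c))
    (h : finrank K B = Fintype.card n ^ 2) (e : ι → B) (y : ι → L) (j : ℕ) :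
    (∑ i, y i • φ (e i)).charpoly.coeff j = MvPolynomial.eval₂ f y (rchP K e j) := by
  have : (genM fun i => φ (e i)).charpoly.coeff j = (rchP K e j).map f := by
    refine mv_ext f (fun _ => Set.univ) (fun _ => Set.infinite_univ) fun x _ => ?_
    rw [eval_comp_map, eval_rchP, ← coeff_map, ← coeff_map, genM_charpoly,
      ← charpoly_eq' f φ hf h, map_sum]
    simp only [Algebra.smul_def, map_mul, hf, Function.comp_apply]
  rw [← genM_charpoly, coeff_map, this, MvPolynomial.eval_map]

theorem det_sum (f : K →+* L) (φ : B →+* Matrix n n L)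
    (hf : ∀ c, φ (algebraMap K B c) = algebraMap L _ (f c))
    (h : finrank K B = Fintype.card n ^ 2) (e : ι → B) (y : ι → L) :
    (∑ i, y i • φ (e i)).det = MvPolynomial.eval₂ f y (nrdP K e) := by
  rw [Matrix.det_eq_sign_charpoly_coeff, charpoly_sum_coeff f φ hf h, nrdP, deg_eq K h]
  simp [MvPolynomial.eval₂_mul, MvPolynomial.eval₂_pow]

end Split

theorem nrdP_ne_zero {e : ι → B} {x : ι → K} (h : IsUnit (∑ i, x i • e i)) : nrdP K e ≠ 0 := by
  intro h0
  have := (isUnit_iff_Nrd (K := K) _).1 h
  rw [← eval_nrdP, h0, map_zero] at this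
  exact this rfl

/-- a family whose span contains a unit has unit combinations in every infinite box -/
theorem exists_isUnit_box {e : ι → B} {x : ι → K} (h : IsUnit (∑ i, x i • e i)) (S : ι → Set K)
    (hS : ∀ i, (S i).Infinite) : ∃ y : ι → K, (∀ i, y i ∈ S i) ∧ IsUnit (∑ i, y i • e i) := by
  obtain ⟨y, hy, h'⟩ := mv_exists_ne (RingHom.id K) S hS (nrdP_ne_zero h)
  exact ⟨y, hy, (isUnit_iff_Nrd (K := K) _).2 (by rw [← eval_nrdP]; exact h')⟩

/-- the discriminant form -/
theorem exists_discP (e : ι → B) : ∃ P : MvPolynomial ι K,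
    (∀ x : ι → K, MvPolynomial.eval x P ≠ 0 ↔ (rch K (∑ i, x i • e i)).Separable) ∧
    ∀ y : ι → AlgebraicClosure K, (∑ i, y i • sp K B (e i)).charpoly.Separable →
      MvPolynomial.eval y (P.map (algebraMap K (AlgebraicClosure K))) ≠ 0 := by
  let M := genM fun i => sp K B (e i)
  let G := (aeval M (derivative M.charpoly)).det
  have hG : ∀ y, MvPolynomial.eval y G = (aeval (∑ i, y i • sp K B (e i))
      (derivative (∑ i, y i • sp K B (e i)).charpoly)).det := by
    intro y
    rw [RingHom.map_det, ← genM_charpoly, derivative_map, ← genM_map]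
    exact congrArg Matrix.det (map_aeval_mat _ _ _)
  have hK : ∀ x : ι → K, MvPolynomial.eval (algebraMap K (AlgebraicClosure K) ∘ x) G =
      algebraMap K (AlgebraicClosure K) (Nrd K (aeval (∑ i, x i • e i)
        (derivative (rch K (∑ i, x i • e i))))) := by
    intro x
    rw [hG, ← sp_sum, ← det_eq (sp K B) sp_card, sp_aeval, sp_charpoly, derivative_map]
  obtain ⟨P, hP⟩ := mv_descent _ G fun x => ⟨_, (hK x).symm⟩
  refine ⟨P, fun x => ?_, fun y hy => ?_⟩
  · rw [separable_iff_Nrd, ← (algebraMap K (AlgebraicClosure K)).injective.ne_iff, ← eval_comp_map,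
      hP, hK, map_zero, _root_.map_ne_zero]
  · have : Nonempty (Fin (deg K B)) := ⟨⟨0, deg_pos K B⟩⟩
    rw [hP, hG, ← Nrd_mat, ← rch_mat, ← separable_iff_Nrd, rch_mat]
    exact hy

/-- For a spanning family the discriminant form is nonzero. -/
theorem exists_discP_ne (e : ι → B) (he : ⊤ ≤ Submodule.span K (Set.range e)) :
    ∃ P : MvPolynomial ι K, P ≠ 0 ∧
      ∀ x : ι → K, MvPolynomial.eval x P ≠ 0 ↔ (rch K (∑ i, x i • e i)).Separable := by
  classical
  obtain ⟨P, h1, h2⟩ := exists_discP (K := K) e
  refine ⟨P, ?_, h1⟩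
  have : Nonempty (Fin (deg K B)) := ⟨⟨0, deg_pos K B⟩⟩
  have hsp : ∀ M : Matrix (Fin (deg K B)) (Fin (deg K B)) (AlgebraicClosure K),
      M ∈ Submodule.span (AlgebraicClosure K) (Set.range fun i => sp K B (e i)) := by
    intro M
    let b := mapBasis (L := AlgebraicClosure K) (Module.finBasis K B) (sp K B).toRingHom
      (by rw [finrank_mat]; exact sp_card.symm)
    rw [← b.sum_repr M]
    refine Submodule.sum_mem _ fun j _ => Submodule.smul_mem _ _ ?_
    obtain ⟨c, hc⟩ := (Submodule.mem_span_range_iff_exists_fun K).1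
      (he (Submodule.mem_top (x := Module.finBasis K B j)))
    rw [mapBasis_apply, ← hc]
    change sp K B _ ∈ _
    rw [sp_sum]
    exact Submodule.sum_mem _ fun i _ => Submodule.smul_mem _ _ (Submodule.subset_span ⟨i, rfl⟩)
  obtain ⟨y, hy⟩ := (Submodule.mem_span_range_iff_exists_fun _).1
    (hsp (Matrix.diagonal fun i => ((i : ℕ) : AlgebraicClosure K)))
  intro h0
  refine h2 y ?_ (by simp [h0])
  rw [hy, Matrix.charpoly_diagonal]
  exact separable_prod_X_sub_C_iff.2 fun a b hab => Fin.ext (Nat.cast_injective hab)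

/-- elements with separable `rch` exist in every infinite box -/
theorem exists_separable_box (e : ι → B) (he : ⊤ ≤ Submodule.span K (Set.range e)) (S : ι → Set K)
    (hS : ∀ i, (S i).Infinite) :
    ∃ x : ι → K, (∀ i, x i ∈ S i) ∧ (rch K (∑ i, x i • e i)).Separable := by
  obtain ⟨P, h0, h⟩ := exists_discP_ne e he
  obtain ⟨x, hx, h'⟩ := mv_exists_ne (RingHom.id K) S hS h0
  exact ⟨x, hx, (h x).1 h'⟩

variable (K B) in
theorem exists_separable : ∃ b : B, (rch K b).Separable := by
  obtain ⟨x, -, h⟩ := exists_separable_box (Module.finBasis K B) (Module.finBasis K B).span_eq.ge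
    (fun _ => Set.univ) fun _ => Set.infinite_univ
  exact ⟨_, h⟩

section Top

variable [TopologicalSpace K] [IsTopologicalRing K] {X : Type*} [TopologicalSpace X]

theorem continuous_rch_coeff_of (e : Basis ι K B) {g : X → B}
    (hg : ∀ i, Continuous fun x => e.repr (g x) i) (j : ℕ) :
    Continuous fun x => (rch K (g x)).coeff j := by
  have : (fun x => (rch K (g x)).coeff j) =
      fun x => MvPolynomial.eval (fun i => e.repr (g x) i) (rchP K e j) := by
    funext x; rw [eval_rchP, e.sum_repr]
  rw [this]
  exact (MvPolynomial.continuous_eval _).comp (continuous_pi hg)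

theorem continuous_Nrd_of (e : Basis ι K B) {g : X → B}
    (hg : ∀ i, Continuous fun x => e.repr (g x) i) : Continuous fun x => Nrd K (g x) :=
  continuous_const.mul (continuous_rch_coeff_of e hg 0)

variable [TopologicalSpace B]

theorem continuous_rch_coeff (h : ∀ l : B →ₗ[K] K, Continuous l) (j : ℕ) :
    Continuous fun x : B => (rch K x).coeff j :=
  continuous_rch_coeff_of (Module.finBasis K B) (fun i => h ((Module.finBasis K B).coord i)) j

theorem continuous_Nrd (h : ∀ l : B →ₗ[K] K, Continuous l) : Continuous (Nrd K : B → K) :=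
  continuous_const.mul (continuous_rch_coeff h 0)

theorem isOpen_separable [T1Space K] (h : ∀ l : B →ₗ[K] K, Continuous l) :
    IsOpen {x : B | (rch K x).Separable} := by
  let e := Module.finBasis K B
  obtain ⟨P, hP, -⟩ := exists_discP (K := K) e
  have : {x : B | (rch K x).Separable} =
      (fun x => MvPolynomial.eval (fun i => e.repr x i) P) ⁻¹' {0}ᶜ := by
    ext x
    have := hP fun i => e.repr x i
    rw [e.sum_repr] at this
    exact this.symm
  rw [this]
  exact isOpen_compl_singleton.preimage ((MvPolynomial.continuous_eval _).comp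
    (continuous_pi fun i => h (e.coord i)))

end Top

end Main

end Crest.Agent.T24.Csa
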