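import Mathlib
import Crest.Prelude.Def_UnitaryMP

/-!
# Row 24 (helper53): additive strong approximation in a number field
-/

set_option autoImplicit false

noncomputable section

namespace Crest.Agent.T24.Asa

open NumberField IsDedekindDomain Module WithZero
open NumberField.mixedEmbedding (mixedSpace normAtPlace)
open scoped nonZeroDivisors ENNReal NNReal

/-- finite places -/
abbrev Pl (k : Type*) [Field k] : Type _ := HeightOneSpectrum (𝓞 k)

variable {k : Type*} [Field k] [NumberField k]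

theorem val_ne_zero (v : Pl k) {x : k} (hx : x ≠ 0) : v.valuation k x ≠ 0 :=
  (Valuation.ne_zero_iff _).2 hx

theorem val_int (v : Pl k) (r : 𝓞 k) : v.valuation k (r : k) ≤ 1 := v.valuation_le_one r

/-- a nonzero element is a unit at almost all places -/
theorem finite_ne_one {x : k} (hx : x ≠ 0) : {v : Pl k | v.valuation k x ≠ 1}.Finite := by
  obtain ⟨a, b, hb, rfl⟩ := IsFractionRing.div_surjective (A := 𝓞 k) x
  have hb0 : b ≠ 0 := nonZeroDivisors.ne_zero hb
  have ha0 : a ≠ 0 := by rintro rfl; simp at hx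
  have h1 := Ideal.finite_factors (I := Ideal.span {a}) (by simpa using ha0)
  have h2 := Ideal.finite_factors (I := Ideal.span {b}) (by simpa using hb0)
  refine (h1.union h2).subset fun v hv => ?_
  by_contra hn
  simp only [Set.mem_union, Set.mem_ofPred_eq, Ideal.dvd_span_singleton, not_or] at hn
  apply hv
  rw [map_div₀, (v.valuation_eq_one_iff_notMem (K := k)).2 hn.1,
    (v.valuation_eq_one_iff_notMem (K := k)).2 hn.2, div_one]

/-- every element is integral at almost all places -/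
theorem finite_not_le (x : k) : {v : Pl k | ¬ v.valuation k x ≤ 1}.Finite := by
  by_cases hx : x = 0
  · simp [hx]
  · exact (finite_ne_one hx).subset fun v hv h => hv (le_of_eq h)

theorem exists_exp_le {γ : ℤᵐ⁰} (h : γ ≠ 0) : ∃ m : ℕ, exp (-(m : ℤ)) ≤ γ := by
  refine ⟨(log γ).natAbs, ?_⟩
  conv_rhs => rw [← exp_log h]
  rw [exp_le_exp]
  omega

theorem exp_neg_le_one (m : ℕ) : exp (-(m : ℤ)) ≤ (1 : ℤᵐ⁰) := by
  rw [← exp_zero, exp_le_exp]; omega

theorem exp_neg_lt_one {m : ℕ} (hm : 0 < m) : exp (-(m : ℤ)) < (1 : ℤᵐ⁰) := by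
  rw [← exp_zero, exp_lt_exp]; omega

theorem exp_neg_anti {m n : ℕ} (h : m ≤ n) : exp (-(n : ℤ)) ≤ (exp (-(m : ℤ)) : ℤᵐ⁰) := by
  rw [exp_le_exp]; omega

/-- common denominator of finitely many elements -/
theorem exists_den {ι : Type*} (S : Finset ι) (a : ι → k) :
    ∃ d : 𝓞 k, d ≠ 0 ∧ ∀ i ∈ S, ∃ r : 𝓞 k, (r : k) = d * a i := by
  obtain ⟨d, hd⟩ := IsLocalization.exist_integer_multiples (𝓞 k)⁰ S a
  refine ⟨d, nonZeroDivisors.ne_zero d.2, fun i hi => ?_⟩
  obtain ⟨r, hr⟩ := hd i hi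
  exact ⟨r, by rw [Algebra.smul_def] at hr; exact hr⟩

/-- the Chinese remainder theorem for valuations -/
theorem crt_int (S : Finset (Pl k)) (a : Pl k → 𝓞 k) (m : ℕ) :
    ∃ y : 𝓞 k, ∀ v ∈ S, v.valuation k ((y : k) - a v) ≤ exp (-(m : ℤ)) := by
  obtain ⟨y, hy⟩ := IsDedekindDomain.exists_forall_sub_mem_ideal (s := S)
    (fun v : Pl k => v.asIdeal) (fun _ => m) (fun v _ => v.prime)
    (fun i _ j _ h e => h (HeightOneSpectrum.ext e)) (fun v => a v)
  refine ⟨y, fun v hv => ?_⟩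
  have := (v.intValuation_le_pow_iff_mem _ m).2 (hy v hv)
  rw [← v.valuation_of_algebraMap (K := k)] at this
  simpa using this

/-- approximation at finitely many finite places, integral at all others -/
theorem approx_fin (S : Finset (Pl k)) (a : Pl k → k) (m : ℕ) :
    ∃ x : k, (∀ v ∈ S, v.valuation k (x - a v) ≤ exp (-(m : ℤ))) ∧
      ∀ v ∉ S, v.valuation k x ≤ 1 := by
  classical
  obtain ⟨d, hd0, hd⟩ := exists_den S a
  have hdk : (d : k) ≠ 0 := by simpa using hd0
  choose! r hr using hd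
  let T : Finset (Pl k) := S ∪ (finite_ne_one hdk).toFinset
  have : ∀ v : Pl k, ∃ M : ℕ, exp (-(M : ℤ)) ≤ v.valuation k (d : k) := fun v =>
    exists_exp_le (val_ne_zero v hdk)
  choose M hM using this
  obtain ⟨y, hy⟩ := crt_int T (fun v => if v ∈ S then r v else 0) (m + T.sup M)
  have key : ∀ v ∈ T, ∀ z : k, v.valuation k z ≤ exp (-((m + T.sup M : ℕ) : ℤ)) →
      v.valuation k (z / d) ≤ exp (-(m : ℤ)) := by
    intro v hv z hz
    rw [map_div₀, div_le_iff₀ (zero_lt_iff.2 (val_ne_zero v hdk))]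
    refine hz.trans (le_trans ?_ (mul_le_mul_right (hM v) _))
    rw [← exp_add, exp_le_exp]
    have := Finset.le_sup (f := M) hv
    push_cast
    omega
  refine ⟨y / d, fun v hv => ?_, fun v hv => ?_⟩
  · have h1 := hy v (Finset.mem_union_left _ hv)
    rw [if_pos hv, hr v hv] at h1
    have : (y : k) / d - a v = (y - d * a v) / d := by field_simp
    rw [this]
    exact key v (Finset.mem_union_left _ hv) _ h1
  · by_cases hT : v ∈ T
    · have h1 := hy v hT
      rw [if_neg hv] at h1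
      simp only [map_zero, sub_zero] at h1
      exact (key v hT _ (by simpa using h1)).trans (exp_neg_le_one m)
    · have : v.valuation k (d : k) = 1 := by
        by_contra h
        exact hT (Finset.mem_union_right _ ((Set.Finite.mem_toFinset _).2 h))
      rw [map_div₀, this, div_one]
      exact val_int v y

/-- a nonzero integer divisible by high powers of finitely many primes -/
theorem exists_deep (S : Finset (Pl k)) (m : ℕ) :
    ∃ c : 𝓞 k, c ≠ 0 ∧ ∀ v ∈ S, v.valuation k (c : k) ≤ exp (-(m : ℤ)) := by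
  have : ∀ v : Pl k, ∃ c : 𝓞 k, c ∈ v.asIdeal ∧ c ≠ 0 := fun v =>
    Submodule.exists_mem_ne_zero_of_ne_bot v.ne_bot
  choose c hc hc0 using this
  refine ⟨∏ v ∈ S, c v ^ m, Finset.prod_ne_zero_iff.2 fun v _ => pow_ne_zero _ (hc0 v),
    fun v hv => ?_⟩
  have : ∏ v ∈ S, c v ^ m ∈ v.asIdeal ^ m :=
    Ideal.mem_of_dvd _ (Finset.dvd_prod_of_mem _ hv) (Ideal.pow_mem_pow (hc v) m)
  have := (v.intValuation_le_pow_iff_mem _ m).2 this
  rwa [← v.valuation_of_algebraMap (K := k)] at this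

/-- Minkowski: a nonzero element, small at all infinite places, with denominators only at `v₀` -/
theorem exists_small (v₀ : Pl k) {ε : ℝ} (hε : 0 < ε) :
    ∃ u : k, u ≠ 0 ∧ (∀ w : InfinitePlace k, w u < ε) ∧ ∀ v ≠ v₀, v.valuation k u ≤ 1 := by
  classical
  let P : (FractionalIdeal (𝓞 k)⁰ k)ˣ := Units.mk0 (v₀.asIdeal : FractionalIdeal (𝓞 k)⁰ k)
    (by simpa using v₀.ne_bot)
  let f : InfinitePlace k → ℝ≥0 := fun _ => ⟨ε, hε.le⟩
  have hf : MeasureTheory.volume (mixedEmbedding.convexBodyLT k f) ≠ 0 := by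
    rw [mixedEmbedding.convexBodyLT_volume]
    refine mul_ne_zero (by simpa using mixedEmbedding.convexBodyLTFactor_ne_zero k) ?_
    have : f = fun _ => ⟨ε, hε.le⟩ := rfl
    simp only [ne_eq, ENNReal.coe_eq_zero, Finset.prod_eq_zero_iff, not_exists, not_and]
    intro w _ h
    have := (pow_eq_zero_iff (InfinitePlace.mult_pos (w := w)).ne').1 h
    exact hε.ne' (congrArg NNReal.toReal this)
  set q : ℝ := (Ideal.absNorm v₀.asIdeal : ℝ) with hq
  have hq1 : 1 < q := by
    rw [hq]; exact_mod_cast NumberField.HeightOneSpectrum.one_lt_absNorm v₀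
  set C : ℝ≥0∞ := MeasureTheory.volume (ZSpan.fundamentalDomain (mixedEmbedding.latticeBasis k)) *
    (2 : ℝ≥0∞) ^ (finrank ℝ (mixedSpace k)) with hC
  have hCt : C ≠ ⊤ := ENNReal.mul_ne_top (ZSpan.fundamentalDomain_isBounded _).measure_lt_top.ne
    (ENNReal.pow_ne_top ENNReal.ofNat_ne_top)
  have hb : ∀ n : ℕ, mixedEmbedding.minkowskiBound k (P⁻¹ ^ n) = ENNReal.ofReal (q⁻¹ ^ n) * C := by
    intro n
    rw [mixedEmbedding.minkowskiBound,
      mixedEmbedding.volume_fundamentalDomain_fractionalIdealLatticeBasis, mul_assoc]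
    congr 2
    simp [P, hq, FractionalIdeal.coeIdeal_absNorm]
  have hlim : Filter.Tendsto (fun n : ℕ => ENNReal.ofReal (q⁻¹ ^ n) * C) Filter.atTop (nhds 0) := by
    have h1 : Filter.Tendsto (fun n : ℕ => ENNReal.ofReal (q⁻¹ ^ n)) Filter.atTop (nhds 0) := by
      have := ENNReal.tendsto_ofReal (tendsto_pow_atTop_nhds_zero_of_lt_one
        (inv_nonneg.2 (by linarith)) (inv_lt_one_of_one_lt₀ hq1))
      simpa using this
    simpa using ENNReal.Tendsto.mul_const h1 (Or.inr hCt)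
  obtain ⟨n, hn⟩ := (hlim.eventually (gt_mem_nhds (pos_iff_ne_zero.2 hf))).exists
  obtain ⟨u, hu, hu0, hw⟩ := mixedEmbedding.exists_ne_zero_mem_ideal_lt k (P⁻¹ ^ n)
    (f := f) (by rw [hb]; exact hn)
  refine ⟨u, hu0, hw, fun v hv => ?_⟩
  obtain ⟨y, hy, hyv⟩ : ∃ y ∈ v₀.asIdeal, y ∉ v.asIdeal := by
    by_contra h
    push Not at h
    exact hv (HeightOneSpectrum.ext (v₀.isMaximal.eq_of_le v.isPrime.ne_top h).symm)
  have h1 : (algebraMap (𝓞 k) k (y ^ n)) ∈ ((P ^ n : (FractionalIdeal (𝓞 k)⁰ k)ˣ) :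
      FractionalIdeal (𝓞 k)⁰ k) := by
    have : ((P ^ n : (FractionalIdeal (𝓞 k)⁰ k)ˣ) : FractionalIdeal (𝓞 k)⁰ k) =
        ((v₀.asIdeal ^ n : Ideal (𝓞 k)) : FractionalIdeal (𝓞 k)⁰ k) := by
      simp [P, FractionalIdeal.coeIdeal_pow]
    rw [this]
    exact FractionalIdeal.mem_coeIdeal_of_mem _ (Ideal.pow_mem_pow hy n)
  have h2 := FractionalIdeal.mul_mem_mul hu h1
  rw [← Units.val_mul, ← mul_pow, inv_mul_cancel, one_pow, Units.val_one,
    FractionalIdeal.mem_one_iff] at h2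
  obtain ⟨z, hz⟩ := h2
  have h3 := v.valuation_le_one (K := k) z
  change v.valuation k (algebraMap (𝓞 k) k z) ≤ 1 at h3
  rwa [hz, map_mul, map_pow, map_pow, (v.valuation_eq_one_iff_notMem (K := k)).2 hyv, one_pow,
    mul_one] at h3

/-- the integers are relatively dense in the mixed space -/
theorem exists_close : ∃ C : ℝ, 0 < C ∧ ∀ b : mixedSpace k, ∃ z : 𝓞 k,
    ∀ w, normAtPlace w (mixedEmbedding k z - b) ≤ C := by
  classical
  refine ⟨∑ i, ‖mixedEmbedding.latticeBasis k i‖ + 1, by positivity, fun b => ?_⟩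
  obtain ⟨z, hz⟩ := (mixedEmbedding.mem_span_latticeBasis k).1
    (ZSpan.floor (mixedEmbedding.latticeBasis k) b).2
  refine ⟨z, fun w => ?_⟩
  have h1 := ZSpan.norm_fract_le (mixedEmbedding.latticeBasis k) b
  rw [ZSpan.fract_apply, ← hz, mixedEmbedding.norm_eq_sup'_normAtPlace] at h1
  have h2 := Finset.le_sup' (fun w => normAtPlace w (b - mixedEmbedding k z)) (Finset.mem_univ w)
  rw [← mixedEmbedding.normAtPlace_neg, neg_sub]
  exact (h2.trans h1).trans (by linarith)

/-- **additive strong approximation** -/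
theorem approx (S : Finset (Pl k)) (v₀ : Pl k) (h₀ : v₀ ∉ S) (a : Pl k → k) (m : ℕ)
    (b : mixedSpace k) {ε : ℝ} (hε : 0 < ε) :
    ∃ x : k, (∀ v ∈ S, v.valuation k (x - a v) ≤ exp (-(m : ℤ))) ∧
      (∀ w, normAtPlace w (mixedEmbedding k x - b) < ε) ∧
      ∀ v ∉ S, v ≠ v₀ → v.valuation k x ≤ 1 := by
  obtain ⟨x₀, h1, h2⟩ := approx_fin S a m
  obtain ⟨c, hc0, hc⟩ := exists_deep S m
  have hck : (c : k) ≠ 0 := by simpa using hc0
  obtain ⟨C, hC, hz⟩ := exists_close (k := k)
  obtain ⟨B, hB0, hB⟩ : ∃ B : ℝ, 0 < B ∧ ∀ w : InfinitePlace k, w (c : k) ≤ B := by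
    refine ⟨∑ w : InfinitePlace k, w (c : k) + 1, by positivity, fun w => ?_⟩
    have := Finset.single_le_sum (f := fun w : InfinitePlace k => w (c : k))
      (fun w _ => apply_nonneg w _) (Finset.mem_univ w)
    linarith
  obtain ⟨u, hu0, hu, hu'⟩ := exists_small v₀ (ε := ε / (B * C)) (by positivity)
  obtain ⟨z, hz⟩ := hz (mixedEmbedding k (u * c)⁻¹ * (b - mixedEmbedding k x₀))
  have hv : ∀ v : Pl k, v ≠ v₀ → v.valuation k (u * c * z) ≤ v.valuation k (c : k) := by
    intro v hv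
    rw [map_mul, map_mul]
    calc _ ≤ 1 * v.valuation k (c : k) * 1 :=
          mul_le_mul' (mul_le_mul' (hu' v hv) le_rfl) (val_int v z)
      _ = _ := by simp
  refine ⟨x₀ + u * c * z, fun v hv' => ?_, fun w => ?_, fun v hv' hv₀ => ?_⟩
  · rw [add_sub_right_comm]
    exact Valuation.map_add_le _ (h1 v hv') ((hv v fun e => h₀ (e ▸ hv')).trans (hc v hv'))
  · have : mixedEmbedding k (x₀ + u * c * z) - b = mixedEmbedding k (u * c) *
        (mixedEmbedding k z - mixedEmbedding k (u * c)⁻¹ * (b - mixedEmbedding k x₀)) := by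
      rw [mul_sub, ← mul_assoc, ← map_mul, ← map_mul, mul_inv_cancel₀ (mul_ne_zero hu0 hck),
        map_one, map_add]
      ring
    rw [this, map_mul, mixedEmbedding.normAtPlace_apply, map_mul]
    calc w u * w (c : k) * _ ≤ w u * B * C :=
          mul_le_mul (mul_le_mul_of_nonneg_left (hB w) (apply_nonneg w _)) (hz w)
            (mixedEmbedding.normAtPlace_nonneg _ _) (by positivity)
      _ < ε := by
          have := hu w
          rw [lt_div_iff₀ (by positivity)] at this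
          linarith
  · exact Valuation.map_add_le _ (h2 v hv') ((hv v hv₀).trans (val_int v c))

/-- the same with global targets: `a v` at the finite places of `S`, `b` at all infinite places -/
theorem approx' (S : Finset (Pl k)) (v₀ : Pl k) (h₀ : v₀ ∉ S) (a : Pl k → k) (m : ℕ)
    (b : k) {ε : ℝ} (hε : 0 < ε) :
    ∃ x : k, (∀ v ∈ S, v.valuation k (x - a v) ≤ exp (-(m : ℤ))) ∧
      (∀ w : InfinitePlace k, w (x - b) < ε) ∧ ∀ v ∉ S, v ≠ v₀ → v.valuation k x ≤ 1 := by
  obtain ⟨x, h1, h2, h3⟩ := approx S v₀ h₀ a m (mixedEmbedding k b) hε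
  refine ⟨x, h1, fun w => ?_, h3⟩
  have := h2 w
  rwa [← map_sub, mixedEmbedding.normAtPlace_apply] at this

/-- `k` is dense in `k_v`, in terms of valuations -/
theorem exists_near_completion (v : Pl k) (a : v.adicCompletion k) (m : ℕ) :
    ∃ x : k, Valued.v ((x : v.adicCompletion k) - a) ≤ exp (-(m : ℤ)) := by
  obtain ⟨c, hc0, hc⟩ := exists_deep {v} m
  have hck : ((c : k) : v.adicCompletion k) ≠ 0 := by
    intro h
    have := v.valuedAdicCompletion_eq_valuation' (c : k)
    rw [h, map_zero] at this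
    exact val_ne_zero v (by simpa using hc0) this.symm
  have hn : {y : v.adicCompletion k | Valued.v (y - a) ≤ Valued.v ((c : k) : v.adicCompletion k)} ∈
      nhds a := by
    have h1 : IsOpen {y : v.adicCompletion k | Valued.v y ≤ 1} :=
      Valued.isOpen_integer (v.adicCompletion k)
    have h2 : Continuous fun y : v.adicCompletion k => (y - a) / ((c : k) : v.adicCompletion k) :=
      by fun_prop
    refine Filter.mem_of_superset ((h1.preimage h2).mem_nhds (by simp)) fun y hy => ?_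
    simp only [Set.mem_preimage, Set.mem_ofPred_eq, map_div₀] at hy ⊢
    rwa [div_le_one₀ (zero_lt_iff.2 ((Valuation.ne_zero_iff _).2 hck))] at hy
  obtain ⟨x, hx⟩ := (v.denseRange_algebraMap k).mem_nhds hn
  refine ⟨x, le_trans hx ?_⟩
  rw [v.valuedAdicCompletion_eq_valuation']
  exact hc v (Finset.mem_singleton_self v)

/-- additive strong approximation with targets in the completions -/
theorem approxC (S : Finset (Pl k)) (v₀ : Pl k) (h₀ : v₀ ∉ S)
    (a : ∀ v : Pl k, v.adicCompletion k) (m : ℕ) (b : mixedSpace k) {ε : ℝ} (hε : 0 < ε) :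
    ∃ x : k, (∀ v ∈ S, Valued.v ((x : v.adicCompletion k) - a v) ≤ exp (-(m : ℤ))) ∧
      (∀ w, normAtPlace w (mixedEmbedding k x - b) < ε) ∧
      ∀ v ∉ S, v ≠ v₀ → v.valuation k x ≤ 1 := by
  choose a' ha' using fun v : Pl k => exists_near_completion v (a v) m
  obtain ⟨x, h1, h2, h3⟩ := approx S v₀ h₀ a' m b hε
  refine ⟨x, fun v hv => ?_, h2, h3⟩
  have : (x : v.adicCompletion k) - a v =
      ((x - a' v : k) : v.adicCompletion k) + ((a' v : v.adicCompletion k) - a v) := by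
    have := map_sub (algebraMap k (v.adicCompletion k)) x (a' v)
    change ((x - a' v : k) : v.adicCompletion k) = (x : v.adicCompletion k) - (a' v : k) at this
    rw [this]; ring
  rw [this]
  refine Valuation.map_add_le _ ?_ (ha' v)
  rw [v.valuedAdicCompletion_eq_valuation']
  exact h1 v hv

/-- `1 + B θ` has a prime factor for a suitable natural number `B` -/
theorem exists_prime_one_add {θ : 𝓞 k} (hθ : θ ≠ 0) :
    ∃ (B : ℕ) (v : Pl k), 1 + B * θ ∈ v.asIdeal := by
  obtain ⟨B, hB⟩ : ∃ B : ℕ, ∀ w : InfinitePlace k, 2 < B * w (θ : k) := by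
    have : ∀ w : InfinitePlace k, ∃ B : ℕ, 2 < B * w (θ : k) := fun w => by
      have hp : 0 < w (θ : k) := InfinitePlace.pos_iff.2 (by simpa using hθ)
      obtain ⟨B, hB⟩ := exists_nat_gt (2 / w (θ : k))
      exact ⟨B, by rwa [div_lt_iff₀ hp] at hB⟩
    choose B hB using this
    refine ⟨Finset.univ.sup B, fun w => (hB w).trans_le ?_⟩
    exact mul_le_mul_of_nonneg_right
      (by exact_mod_cast Finset.le_sup (f := B) (Finset.mem_univ w)) (apply_nonneg w _)
  have h1 : ∀ w : InfinitePlace k, 1 < w ((1 + B * θ : 𝓞 k) : k) := by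
    intro w
    have h2 : w ((B : k) * θ) ≤ w (1 + (B : k) * θ) + w (-1) := by
      have := w.1.add_le (1 + (B : k) * θ) (-1)
      rwa [show 1 + (B : k) * θ + -1 = B * θ by ring] at this
    have h3 : w (-1) = 1 := by
      have := w.1.map_neg 1
      rwa [map_one] at this
    rw [map_mul, InfinitePlace.map_natCast, h3] at h2
    have := hB w
    push_cast
    linarith
  obtain ⟨w₀⟩ : Nonempty (InfinitePlace k) := inferInstance
  have hnu : ¬ IsUnit (1 + B * θ : 𝓞 k) := by
    rintro ⟨u, hu⟩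
    have hlt : ∀ w : InfinitePlace k, w ((u⁻¹ : (𝓞 k)ˣ) : 𝓞 k) < 1 := by
      intro w
      have h2 : w ((u : 𝓞 k) : k) * w ((u⁻¹ : (𝓞 k)ˣ) : 𝓞 k) = 1 := by
        rw [← map_mul, ← map_mul (algebraMap (𝓞 k) k), Units.mul_inv, map_one, map_one]
      have h3 := h1 w
      rw [← hu] at h3
      by_contra h4
      push Not at h4
      nlinarith
    exact absurd (InfinitePlace.one_le_of_lt_one (w := w₀) (Units.ne_zero u⁻¹)
      fun z _ => hlt z) (not_le.2 (hlt w₀))
  have h0 : (1 + B * θ : 𝓞 k) ≠ 0 := by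
    intro h
    have := h1 w₀
    rw [h] at this
    simp at this
    linarith
  obtain ⟨M, hM, hle⟩ := Ideal.exists_le_maximal (Ideal.span {(1 + B * θ : 𝓞 k)})
    (by rwa [Ne, Ideal.span_singleton_eq_top])
  have hm : (1 + B * θ : 𝓞 k) ∈ M := hle (Ideal.mem_span_singleton_self _)
  exact ⟨B, ⟨M, hM.isPrime, fun h => h0 (by simpa [h] using hm)⟩, hm⟩

/-- there are infinitely many finite places -/
theorem exists_notMem (S : Finset (Pl k)) : ∃ v : Pl k, v ∉ S := by
  obtain ⟨c, hc0, hc⟩ := exists_deep S 1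
  obtain ⟨B, v, hv⟩ := exists_prime_one_add hc0
  refine ⟨v, fun h => v.isPrime.ne_top ((Ideal.eq_top_iff_one _).2 ?_)⟩
  have h1 : c ∈ v.asIdeal :=
    (v.valuation_lt_one_iff_mem (K := k) c).1 ((hc v h).trans_lt (exp_neg_lt_one one_pos))
  simpa using v.asIdeal.sub_mem hv (v.asIdeal.mul_mem_left B h1)

/-- weak approximation (no integrality asked) -/
theorem weak (S : Finset (Pl k)) (a : Pl k → k) (m : ℕ) (b : mixedSpace k) {ε : ℝ} (hε : 0 < ε) :
    ∃ x : k, (∀ v ∈ S, v.valuation k (x - a v) ≤ exp (-(m : ℤ))) ∧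
      (∀ w, normAtPlace w (mixedEmbedding k x - b) < ε) := by
  obtain ⟨v₀, h₀⟩ := exists_notMem S
  obtain ⟨x, h1, h2, -⟩ := approx S v₀ h₀ a m b hε
  exact ⟨x, h1, h2⟩

/-- the admissible set of strong approximation is infinite -/
theorem approx_infinite (S : Finset (Pl k)) (v₀ : Pl k) (h₀ : v₀ ∉ S) (a : Pl k → k) (m : ℕ)
    (b : mixedSpace k) {ε : ℝ} (hε : 0 < ε) :
    {x : k | (∀ v ∈ S, v.valuation k (x - a v) ≤ exp (-(m : ℤ))) ∧
      (∀ w, normAtPlace w (mixedEmbedding k x - b) < ε) ∧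
      ∀ v ∉ S, v ≠ v₀ → v.valuation k x ≤ 1}.Infinite := by
  obtain ⟨x, h1, h2, h3⟩ := approx S v₀ h₀ a m b (half_pos hε)
  obtain ⟨c, hc0, hc⟩ := exists_deep S m
  have hck : (c : k) ≠ 0 := by simpa using hc0
  obtain ⟨w₀⟩ : Nonempty (InfinitePlace k) := inferInstance
  intro hfin
  -- the elements different from `x` stay away from `x`
  obtain ⟨δ, hδ, hsep⟩ : ∃ δ : ℝ, 0 < δ ∧ ∀ y ∈ hfin.toFinset, y ≠ x → δ ≤ w₀ (y - x) := by
    classical
    by_cases hne : (hfin.toFinset.erase x).Nonempty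
    · obtain ⟨y, hy, hmin⟩ := (hfin.toFinset.erase x).exists_min_image (fun y => w₀ (y - x)) hne
      exact ⟨w₀ (y - x), InfinitePlace.pos_iff.2 (sub_ne_zero.2 (Finset.mem_erase.1 hy).1),
        fun z hz hzx => hmin z (Finset.mem_erase.2 ⟨hzx, hz⟩)⟩
    · exact ⟨1, one_pos, fun z hz hzx => absurd ⟨z, Finset.mem_erase.2 ⟨hzx, hz⟩⟩ hne⟩
  obtain ⟨B, hB0, hB⟩ : ∃ B : ℝ, 0 < B ∧ ∀ w : InfinitePlace k, w (c : k) ≤ B := by
    refine ⟨∑ w : InfinitePlace k, w (c : k) + 1, by positivity, fun w => ?_⟩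
    have := Finset.single_le_sum (f := fun w : InfinitePlace k => w (c : k))
      (fun w _ => apply_nonneg w _) (Finset.mem_univ w)
    linarith
  obtain ⟨u, hu0, hu, hu'⟩ := exists_small v₀ (ε := min δ (ε / 2) / B) (by positivity)
  have hs : ∀ w : InfinitePlace k, w (u * c) < min δ (ε / 2) := by
    intro w
    have h4 := hu w
    rw [lt_div_iff₀ hB0] at h4
    rw [map_mul]
    exact (mul_le_mul_of_nonneg_left (hB w) (apply_nonneg w _)).trans_lt h4
  have hv : ∀ v : Pl k, v ≠ v₀ → v.valuation k (u * c) ≤ v.valuation k (c : k) := by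
    intro v hv
    rw [map_mul]
    exact (mul_le_mul' (hu' v hv) le_rfl).trans (by simp)
  have hmem : x + u * c ∈ hfin.toFinset := by
    rw [Set.Finite.mem_toFinset]
    refine ⟨fun v hv' => ?_, fun w => ?_, fun v hv' hv₀ => ?_⟩
    · rw [add_sub_right_comm]
      exact Valuation.map_add_le _ (h1 v hv') ((hv v fun e => h₀ (e ▸ hv')).trans (hc v hv'))
    · rw [map_add, add_sub_right_comm]
      refine (mixedEmbedding.normAtPlace_add_le _ _ _).trans_lt ?_
      rw [mixedEmbedding.normAtPlace_apply]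
      have := (hs w).trans_le (min_le_right _ _)
      have := h2 w
      linarith
    · exact Valuation.map_add_le _ (h3 v hv' hv₀) ((hv v hv₀).trans (val_int v c))
  have := hsep _ hmem (by simpa using ⟨hu0, hc0⟩)
  rw [add_sub_cancel_left] at this
  exact absurd ((hs w₀).trans_le (min_le_left _ _)) (not_lt.2 this)

section Ext

variable {K : Type*} [Field K] [NumberField K] [Algebra k K]

/-- the place of `k` below a place of `K` -/
abbrev below (k : Type*) [Field k] [Algebra k K] (w : Pl K) : Pl k := w.under (𝓞 k)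

theorem val_below (w : Pl K) : ∃ e : ℕ, e ≠ 0 ∧ ∀ x : k,
    w.valuation K (algebraMap k K x) = (below k w).valuation k x ^ e := by
  have : w.asIdeal.LiesOver (below k w).asIdeal := ⟨rfl⟩
  exact ⟨_, Ideal.IsDedekindDomain.ramificationIdx'_ne_zero_of_liesOver w.asIdeal
    (below k w).ne_bot,
    fun x => (HeightOneSpectrum.valuation_liesOver K (below k w) w x).symm⟩

theorem below_le_one (w : Pl K) (x : k) :
    w.valuation K (algebraMap k K x) ≤ 1 ↔ (below k w).valuation k x ≤ 1 := by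
  obtain ⟨e, he, h⟩ := val_below (k := k) w
  rw [h, pow_le_one_iff he]

theorem below_lt_one (w : Pl K) (x : k) :
    w.valuation K (algebraMap k K x) < 1 ↔ (below k w).valuation k x < 1 := by
  obtain ⟨e, he, h⟩ := val_below (k := k) w
  rw [h, pow_lt_one_iff he]

theorem below_eq_one (w : Pl K) (x : k) :
    w.valuation K (algebraMap k K x) = 1 ↔ (below k w).valuation k x = 1 := by
  obtain ⟨e, he, h⟩ := val_below (k := k) w
  rw [h, pow_eq_one_iff_of_nonneg zero_le he]

theorem below_le_exp (w : Pl K) (x : k) (m : ℕ)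
    (hx : (below k w).valuation k x ≤ exp (-(m : ℤ))) :
    w.valuation K (algebraMap k K x) ≤ exp (-(m : ℤ)) := by
  obtain ⟨e, he, h⟩ := val_below (k := k) w
  rw [h]
  exact (pow_le_of_le_one zero_le (hx.trans (exp_neg_le_one m)) he).trans hx

omit [NumberField K] in
theorem aut_cases (hK : finrank k K = 2) {σ : K ≃ₐ[k] K} (hσ : σ ≠ AlgEquiv.refl)
    (ρ : K ≃ₐ[k] K) : ρ = AlgEquiv.refl ∨ ρ = σ := by
  classical
  have : Module.Finite k K := Module.finite_of_finrank_pos (by omega)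
  have hc : Fintype.card (K ≃ₐ[k] K) ≤ 2 := hK ▸ AlgEquiv.card_le
  by_contra h
  push Not at h
  have := Finset.card_le_univ ({AlgEquiv.refl, σ, ρ} : Finset (K ≃ₐ[k] K))
  rw [Finset.card_eq_three.2 ⟨_, _, _, hσ.symm, h.1.symm, h.2.symm, rfl⟩] at this
  omega

omit [NumberField K] in
theorem sigma_sigma (hK : finrank k K = 2) {σ : K ≃ₐ[k] K} (hσ : σ ≠ AlgEquiv.refl) (x : K) :
    σ (σ x) = x := by
  rcases aut_cases hK hσ (σ.trans σ) with h | h
  · exact DFunLike.congr_fun h x
  · exact absurd (AlgEquiv.ext fun y => σ.injective (DFunLike.congr_fun h y)) hσ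

omit [NumberField K] in
theorem fixed (hK : finrank k K = 2) {σ : K ≃ₐ[k] K} (hσ : σ ≠ AlgEquiv.refl) {x : K}
    (hx : σ x = x) : ∃ c : k, algebraMap k K c = x := by
  have : Module.Finite k K := Module.finite_of_finrank_pos (by omega)
  have : Algebra.IsQuadraticExtension k K := { finrank_eq_two' := hK }
  refine (IsGalois.mem_range_algebraMap_iff_fixed x).2 fun ρ => ?_
  rcases aut_cases hK hσ ρ with h | h <;> rw [h]
  · rfl
  · exact hx

open Crest.NumberTheoryR.UnitaryMP in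
/-- there are infinitely many split places -/
theorem exists_split (hK : finrank k K = 2) {σ : K ≃ₐ[k] K} (hσ : σ ≠ AlgEquiv.refl)
    (S : Finset (Pl k)) :
    ∃ v₀ : Pl k, v₀ ∉ S ∧ ∀ w : Pl K, below k w = v₀ → SplitsBelow σ w := by
  let s : 𝓞 K →+* 𝓞 K := RingOfIntegers.mapRingHom (σ : K →+* K)
  obtain ⟨θ, hθ⟩ : ∃ θ : 𝓞 K, θ - s θ ≠ 0 := by
    by_contra h
    push Not at h
    refine hσ (AlgEquiv.ext fun x => ?_)
    obtain ⟨a, b, -, rfl⟩ := IsFractionRing.div_surjective (A := 𝓞 K) x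
    have h1 : ∀ y : 𝓞 K, σ (algebraMap (𝓞 K) K y) = algebraMap (𝓞 K) K y := fun y =>
      (congrArg (algebraMap (𝓞 K) K) (sub_eq_zero.1 (h y))).symm
    rw [map_div₀, h1, h1]; rfl
  have hθ0 : θ ≠ 0 := by rintro rfl; simp at hθ
  obtain ⟨c, hc0, hc⟩ := exists_deep S 1
  let c' : 𝓞 K := algebraMap (𝓞 k) (𝓞 K) c
  have hc' : c' ≠ 0 := by simpa [c'] using hc0
  let N : ℕ := Ideal.absNorm (Ideal.span {c' * (θ - s θ)})
  have hN0 : N ≠ 0 := by
    simp only [N, ne_eq, Ideal.absNorm_eq_zero_iff, Ideal.span_singleton_eq_bot]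
    exact mul_ne_zero hc' hθ
  have hN : c' * (θ - s θ) ∣ (N : 𝓞 K) := Ideal.mem_span_singleton.1 (Ideal.absNorm_mem _)
  obtain ⟨B, w, hw⟩ := exists_prime_one_add (θ := (N : 𝓞 K) * θ)
    (mul_ne_zero (by exact_mod_cast hN0) hθ0)
  set z : 𝓞 K := 1 + B * (N * θ) with hz
  have hone : ∀ u : Pl K, z ∈ u.asIdeal → ((B : 𝓞 K) * N) ∉ u.asIdeal := by
    intro u h1 h2
    refine u.isPrime.ne_top ((Ideal.eq_top_iff_one _).2 ?_)
    have := u.asIdeal.sub_mem h1 (u.asIdeal.mul_mem_right θ h2)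
    rwa [hz, mul_assoc, add_sub_cancel_right] at this
  have hboth : ∀ u : Pl K, z ∈ u.asIdeal → s z ∉ u.asIdeal := by
    intro u h1 h2
    have h3 := u.asIdeal.sub_mem h1 h2
    have : z - s z = B * N * (θ - s θ) := by
      simp only [hz, map_add, map_one, map_mul, map_natCast]; ring
    rw [this] at h3
    rcases u.isPrime.mem_or_mem h3 with h4 | h4
    · exact hone u h1 h4
    · exact hone u h1 (u.asIdeal.mul_mem_left _
        (Ideal.mem_of_dvd _ ((dvd_mul_left _ _).trans hN) h4))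
  obtain ⟨n, hn⟩ := fixed hK hσ (x := (z : K) * σ z) (by
    rw [map_mul, sigma_sigma hK hσ, mul_comm])
  have hsz : σ (z : K) = ((s z : 𝓞 K) : K) := rfl
  refine ⟨below k w, fun h => ?_, fun u hu => ⟨z, fun he => ?_⟩⟩
  · have h1 : c ∈ (below k w).asIdeal :=
      ((below k w).valuation_lt_one_iff_mem (K := k) c).1
        ((hc _ h).trans_lt (exp_neg_lt_one one_pos))
    exact hone w hw (w.asIdeal.mul_mem_left _
      (Ideal.mem_of_dvd _ ((dvd_mul_right _ _).trans hN) h1))
  · have h1 : w.valuation K (algebraMap k K n) < 1 := by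
      rw [hn, map_mul, hsz]
      exact mul_lt_one_of_lt_of_le ((w.valuation_lt_one_iff_mem (K := K) z).2 hw) (val_int w _)
    rw [below_lt_one, ← hu, ← below_lt_one, hn, map_mul, he] at h1
    have h2 : u.valuation K (z : K) < 1 := by
      by_contra h3
      have h4 : u.valuation K (z : K) = 1 := le_antisymm (val_int u z) (not_lt.1 h3)
      rw [h4, one_mul] at h1
      exact lt_irrefl _ h1
    refine hboth u ((u.valuation_lt_one_iff_mem (K := K) z).1 h2)
      ((u.valuation_lt_one_iff_mem (K := K) (s z)).1 ?_)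
    change u.valuation K ((s z : 𝓞 K) : K) < 1
    rwa [← hsz, he]

end Ext

end Crest.Agent.T24.Asa
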