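import Mathlib

/-!
# Row 24: Baer–Suzuki, Zenkov, and the two-point count (helper52)
-/

set_option autoImplicit false

namespace Crest.Agent.T24.Zen

open Subgroup

variable {G : Type*} [Group G] [Finite G]

/-- in a `p`-group one finds an element of `D` outside `I` that normalises `I` -/
theorem exists_norm {p : ℕ} [Fact p.Prime] {D : Set G} (hD : ∀ u ∈ D, ∀ v ∈ D, u * v * u⁻¹ ∈ D)
    {P H : Subgroup G} (hP : IsPGroup p P) (hH : H ≤ P) (hne : ¬ D ∩ P ⊆ H) :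
    ∃ u ∈ D, u ∈ P ∧ u ∉ H ∧ ∀ v ∈ D, v ∈ H → u * v * u⁻¹ ∈ D ∧ u * v * u⁻¹ ∈ H := by
  obtain ⟨K, ⟨h1, h2, h3⟩, hmax⟩ := (Set.toFinite {K : Subgroup G | H ≤ K ∧ K ≤ P ∧ D ∩ K ⊆ H}).exists_maximal
    ⟨H, le_rfl, hH, Set.inter_subset_right⟩
  have := hP.isNilpotent
  have h4 : K.subgroupOf P < ⊤ := lt_top_iff_ne_top.2 fun h => hne fun y hy =>
    h3 ⟨hy.1, (subgroupOf_eq_top.1 h) hy.2⟩
  obtain ⟨w, hw, hw'⟩ := SetLike.exists_of_lt (Group.normalizerCondition_of_isNilpotent _ h4)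
  have h5 : K ≤ P ⊓ normalizer (K : Set G) := le_inf h2 le_normalizer
  have h6 : ¬ D ∩ (P ⊓ normalizer (K : Set G) : Subgroup G) ⊆ H := fun h => by
    have h7 := hmax ⟨h1.trans h5, inf_le_left, h⟩ h5
    refine hw' (h7 ⟨w.2, ?_⟩)
    refine mem_normalizer_iff.2 fun y => ⟨fun hy => ?_, fun hy => ?_⟩
    · exact (mem_normalizer_iff.1 hw ⟨y, h2 hy⟩).1 hy
    · have hy' : y ∈ P := by simpa [mul_assoc] using P.mul_mem (P.mul_mem (P.inv_mem w.2) (h2 hy)) w.2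
      exact (mem_normalizer_iff.1 hw ⟨y, hy'⟩).2 hy
  obtain ⟨u, ⟨hu, huP, huK⟩, hu'⟩ := Set.not_subset.1 h6
  exact ⟨u, hu, huP, hu', fun v hv hv' =>
    ⟨hD u hu v hv, h3 ⟨hD u hu v hv, (mem_normalizer_iff.1 huK v).1 (h1 hv')⟩⟩⟩

theorem mem_normalizer_closure {I : Set G} {u : G} (h : ∀ v ∈ I, u * v * u⁻¹ ∈ I) :
    u ∈ normalizer (closure I : Set G) := by
  refine mem_normalizer_fintype fun y hy => ?_
  induction hy using closure_induction with
  | mem v hv => exact subset_closure (h v hv)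
  | one => simp
  | mul a b _ _ ha hb => simpa [mul_assoc] using mul_mem ha hb
  | inv a _ ha => simpa [mul_assoc] using inv_mem ha

/-- **Baer–Suzuki** (proof of Alperin and Lyons) -/
theorem baer {p : ℕ} [Fact p.Prime] {D : Set G} (hD : ∀ u ∈ D, ∀ v ∈ D, u * v * u⁻¹ ∈ D)
    (h2 : ∀ u ∈ D, ∀ v ∈ D, IsPGroup p (closure {u, v} : Subgroup G)) : IsPGroup p (closure D) := by
  classical
  let 𝒮 : Set (Set G) := {X | ∃ P : Subgroup G, IsPGroup p P ∧ X = D ∩ P}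
  have hex : ∀ X ∈ 𝒮, ∃ Z, X ⊆ Z ∧ Maximal (· ∈ 𝒮) Z := fun X hX =>
    (Set.toFinite 𝒮).exists_le_maximal hX
  have key : ∀ n : ℕ, ∀ X Y, Maximal (· ∈ 𝒮) X → Maximal (· ∈ 𝒮) Y →
      Nat.card G - (X ∩ Y).ncard = n → X = Y := by
    intro n
    induction n using Nat.strong_induction_on with
    | _ n ih =>
      intro X Y hX hY hn
      by_contra hne
      obtain ⟨P, hP, rfl⟩ := hX.1
      obtain ⟨Q, hQ, rfl⟩ := hY.1
      set I := D ∩ P ∩ (D ∩ Q) with hI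
      have hHP : closure I ≤ P := (closure_le _).2 fun y hy => hy.1.2
      have hHQ : closure I ≤ Q := (closure_le _).2 fun y hy => hy.2.2
      obtain ⟨u, hu, huP, huH, hu'⟩ := exists_norm hD hP hHP fun h =>
        hne (hX.eq_of_subset hY.1 fun y hy => ⟨hy.1, hHQ (h hy)⟩)
      obtain ⟨v, hv, hvQ, hvH, hv'⟩ := exists_norm hD hQ hHQ fun h =>
        hne (hY.eq_of_subset hX.1 fun y hy => ⟨hy.1, hHP (h hy)⟩).symm
      have hn' : ∀ u, (∀ v ∈ D, v ∈ closure I → u * v * u⁻¹ ∈ D ∧ u * v * u⁻¹ ∈ closure I) →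
          u ∈ normalizer (closure I : Set G) := fun u h => mem_normalizer_closure fun y hy =>
        have h' := h y hy.1.1 (subset_closure hy)
        ⟨⟨h'.1, hHP h'.2⟩, h'.1, hHQ h'.2⟩
      have hR : IsPGroup p (closure {u, v} ⊔ closure I : Subgroup G) :=
        (h2 u hu v hv).to_sup_of_normal_right' (hP.to_le hHP) ((closure_le _).2 (by
          rintro y (rfl | rfl)
          exacts [hn' _ hu', hn' _ hv']))
      obtain ⟨Z, hZ, hZm⟩ := hex _ ⟨_, hR, rfl⟩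
      have hIZ : I ⊆ Z := fun y hy => hZ ⟨hy.1.1, mem_sup_right (subset_closure hy)⟩
      have lt : ∀ (W : Set G) (w : G), I ⊆ W → w ∈ W → w ∈ Z → w ∉ closure I →
          Nat.card G - (W ∩ Z).ncard < n := fun W w h1 h3 h4 h5 => by
        have h6 : I.ncard < (W ∩ Z).ncard := Set.ncard_lt_ncard
          ⟨Set.subset_inter h1 hIZ, fun h => h5 (subset_closure (h ⟨h3, h4⟩))⟩
        have h7 : (W ∩ Z).ncard ≤ Nat.card G := Set.ncard_le_card _
        omega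
      have e1 := ih _ (lt _ u Set.inter_subset_left ⟨hu, huP⟩
        (hZ ⟨hu, mem_sup_left (subset_closure (by simp))⟩) huH) _ _ hX hZm rfl
      have e2 := ih _ (lt _ v Set.inter_subset_right ⟨hv, hvQ⟩
        (hZ ⟨hv, mem_sup_left (subset_closure (by simp))⟩) hvH) _ _ hY hZm rfl
      exact hne (e1.trans e2.symm)
  obtain ⟨Z, -, hZ⟩ := hex _ ⟨⊥, IsPGroup.of_bot, rfl⟩
  obtain ⟨P, hP, hZP⟩ := hZ.1
  refine hP.to_le ((closure_le _).2 fun y hy => ?_)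
  obtain ⟨Z', h3, hZ'⟩ := hex _ ⟨_, h2 y hy y hy, rfl⟩
  have h4 := h3 ⟨hy, subset_closure (by simp)⟩
  rw [key _ _ _ hZ' hZ rfl, hZP] at h4
  exact h4.2

/-- the class of `x` under `H` -/
def cls (H : Subgroup G) (x : G) : Set G := {y | ∃ h ∈ H, y = h * x * h⁻¹}

omit [Finite G] in
theorem cls_conj {H : Subgroup G} {x u v : G} (hu : u ∈ H) (hv : v ∈ cls H x) :
    u * v * u⁻¹ ∈ cls H x := by
  obtain ⟨h, hh, rfl⟩ := hv
  exact ⟨u * h, mul_mem hu hh, by group⟩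

/-- **Zenkov**: a minimal intersection of two abelian subgroups lies in the Fitting subgroup -/
theorem zen {p : ℕ} [Fact p.Prime] (H : Subgroup G) : ∀ A B : Subgroup G, A ≤ H → B ≤ H →
    (∀ a ∈ A, ∀ a' ∈ A, a * a' = a' * a) → (∀ b ∈ B, ∀ b' ∈ B, b * b' = b' * b) →
    (∀ h ∈ H, (∀ y ∈ A, h⁻¹ * y * h ∈ B → y ∈ B) → ∀ y ∈ A, y ∈ B → h⁻¹ * y * h ∈ B) →
    ∀ x ∈ A, x ∈ B → x ^ p = 1 → IsPGroup p (closure (cls H x)) := by
  induction H using WellFoundedLT.induction with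
  | ind H ih =>
  intro A B hA hB cA cB hmin x hxA hxB hx
  have hz : ∀ y : G, y ^ p = 1 → IsPGroup p (zpowers y) := fun y hy => by
    rintro ⟨_, k, rfl⟩
    refine ⟨1, Subtype.ext ?_⟩
    simp only [pow_one, SubgroupClass.coe_pow, OneMemClass.coe_one]
    rw [← zpow_natCast, ← zpow_mul, mul_comm, zpow_mul, zpow_natCast, hy, one_zpow]
  have key : ∀ g ∈ H, IsPGroup p (closure {x, g * x * g⁻¹} : Subgroup G) := by
    intro g hg
    let Bg := B.comap (MulAut.conj g⁻¹).toMonoidHom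
    have mBg : ∀ y, y ∈ Bg ↔ g⁻¹ * y * g ∈ B := fun y => by simp [Bg]
    have hBg : Bg ≤ H := fun y hy => by
      simpa [mul_assoc] using mul_mem (mul_mem hg (hB ((mBg y).1 hy))) (inv_mem hg)
    rcases (sup_le hA hBg).eq_or_lt with he | hlt
    · have cen : ∀ y ∈ A, g⁻¹ * y * g ∈ B → g * y = y * g := fun y hy hy' => by
        have h1 : A ⊔ Bg ≤ centralizer {y} := sup_le
          (fun a ha => mem_centralizer_singleton_iff.2 (cA a ha y hy)) fun b hb =>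
            mem_centralizer_singleton_iff.2 (by
              have := cB _ ((mBg b).1 hb) _ hy'
              simpa [← mul_assoc] using (by simpa [mul_assoc] using this : b * (y * g) = y * (b * g)))
        exact mem_centralizer_singleton_iff.1 (h1 (he ▸ hg))
      have h2 := hmin g hg (fun y hy hy' => by
        have h3 := cen y hy hy'
        rwa [mul_assoc, ← h3, inv_mul_cancel_left] at hy') x hxA hxB
      rw [cen x hxA h2, mul_inv_cancel_right, Set.pair_eq_singleton, ← zpowers_eq_closure]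
      exact hz x hx
    · have hAH : A ≤ A ⊔ Bg := le_sup_left
      have h1 := ih _ hlt A (B ⊓ (A ⊔ Bg)) le_sup_left inf_le_right cA
        (fun b hb b' hb' => cB b hb.1 b' hb'.1) (fun h hh h0 y hy hy' =>
          ⟨hmin h (hlt.le hh) (fun z hz hz' =>
            (h0 z hz ⟨hz', (A ⊔ Bg).mul_mem (mul_mem (inv_mem hh) (hAH hz)) hh⟩).1) y hy hy'.1,
            (A ⊔ Bg).mul_mem (mul_mem (inv_mem hh) (hAH hy)) hh⟩) x hxA ⟨hxB, hAH hxA⟩ hx
      have h2 : g * x * g⁻¹ ∈ A ⊔ Bg := mem_sup_right ((mBg _).2 (by simpa [mul_assoc] using hxB))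
      have h3 := (hz (g * x * g⁻¹) (by rw [conj_pow, hx]; simp)).to_sup_of_normal_right' h1
        ((zpowers_le).2 (mem_normalizer_closure fun v hv => cls_conj h2 hv))
      refine h3.to_le ((closure_le _).2 ?_)
      rintro y (rfl | rfl)
      · exact mem_sup_right (subset_closure ⟨1, one_mem _, by simp⟩)
      · exact mem_sup_left (mem_zpowers _)
  refine baer (fun u hu v hv => cls_conj ?_ hv) ?_
  · obtain ⟨h, hh, rfl⟩ := hu
    exact mul_mem (mul_mem hh (hA hxA)) (inv_mem hh)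
  · rintro _ ⟨h₁, hh₁, rfl⟩ _ ⟨h₂, hh₂, rfl⟩
    have := (key (h₁⁻¹ * h₂) (mul_mem (inv_mem hh₁) hh₂)).map (MulAut.conj h₁).toMonoidHom
    rw [MonoidHom.map_closure, Set.image_pair] at this
    rw [show h₂ * x * h₂⁻¹ = h₁ * (h₁⁻¹ * h₂ * x * (h₁⁻¹ * h₂)⁻¹) * h₁⁻¹ by group]
    exact this

/-- no non-trivial `p`-subgroup of `H` is normalised by `H`, for any prime `p` -/
def NoP (H : Subgroup G) : Prop := ∀ (p : ℕ) (O : Subgroup G), p.Prime → IsPGroup p O → O ≤ H →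
  (∀ h ∈ H, ∀ y ∈ O, h * y * h⁻¹ ∈ O) → O = ⊥

theorem exists_disjoint {H A B : Subgroup G} (hH : NoP H) (hA : A ≤ H) (hB : B ≤ H)
    (cA : ∀ a ∈ A, ∀ a' ∈ A, a * a' = a' * a) (cB : ∀ b ∈ B, ∀ b' ∈ B, b * b' = b' * b) :
    ∃ g ∈ H, ∀ y ∈ A, g⁻¹ * y * g ∈ B → y = 1 := by
  let S : G → Set G := fun g => {y | y ∈ A ∧ g⁻¹ * y * g ∈ B}
  obtain ⟨g, hg, hmin⟩ := (Set.toFinite (H : Set G)).exists_minimalFor S _ ⟨1, one_mem H⟩
  refine ⟨g, hg, fun y hy hy' => ?_⟩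
  by_contra hy1
  let Bg := B.comap (MulAut.conj g⁻¹).toMonoidHom
  have mBg : ∀ y, y ∈ Bg ↔ g⁻¹ * y * g ∈ B := fun y => by simp [Bg]
  have ho : orderOf y ≠ 1 := mt orderOf_eq_one_iff.1 hy1
  obtain ⟨p, hp, k, hk⟩ := Nat.exists_prime_and_dvd ho
  have := Fact.mk hp
  have hk0 : 0 < k := Nat.pos_of_ne_zero fun h => (orderOf_pos y).ne' (by rw [hk, h, mul_zero])
  have hx1 : y ^ k ≠ 1 := pow_ne_one_of_lt_orderOf hk0.ne' (by
    rw [hk]; exact lt_mul_left hk0 hp.one_lt)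
  have h1 := zen (p := p) H A Bg hA (fun y hy => by
      simpa [mul_assoc] using mul_mem (mul_mem hg (hB ((mBg y).1 hy))) (inv_mem hg)) cA
    (fun b hb b' hb' => by
      have := cB _ ((mBg b).1 hb) _ ((mBg b').1 hb')
      simpa [← mul_assoc] using (by simpa [mul_assoc] using this : b * (b' * g) = b' * (b * g)))
    (fun h hh h0 z hz hz' => by
      have h2 : S (h * g) ≤ S g := fun w hw =>
        ⟨hw.1, (mBg w).1 (h0 w hw.1 ((mBg _).2 (by simpa [mul_assoc] using hw.2)))⟩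
      have h3 := (hmin (mul_mem hh hg) h2 ⟨hz, (mBg z).1 hz'⟩).2
      exact (mBg _).2 (by simpa [mul_assoc] using h3))
    (y ^ k) (pow_mem hy k) (pow_mem ((mBg y).2 hy') k)
    (by rw [← pow_mul, mul_comm, ← hk, pow_orderOf_eq_one])
  have h2 := hH p _ hp h1 ((closure_le _).2 (by
      rintro _ ⟨h, hh, rfl⟩
      exact mul_mem (mul_mem hh (hA (pow_mem hy k))) (inv_mem hh)))
    fun h hh z hz => (mem_normalizer_iff.1 (mem_normalizer_closure fun v hv => cls_conj hh hv) z).1 hz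
  exact hx1 (mem_bot.1 (h2 ▸ subset_closure ⟨1, one_mem _, by simp⟩))

/-- **two-point count**: `F` normal with abelian quotient, trivial centraliser, trivial Fitting subgroup -/
theorem two {F A B : Subgroup G} [F.Normal] (hab : ∀ a b : G, a * b * a⁻¹ * b⁻¹ ∈ F) (hF : NoP F)
    (hC : ∀ g : G, (∀ f ∈ F, g * f = f * g) → g = 1) (hne : F ≠ ⊥)
    (cA : ∀ a ∈ A, ∀ a' ∈ A, a * a' = a' * a) (cB : ∀ b ∈ B, ∀ b' ∈ B, b * b' = b' * b) :
    ∃ f₁ ∈ F, ∃ f₂ ∈ F, f₁ ≠ f₂ ∧ (∀ y ∈ B, f₁⁻¹ * y * f₁ ∈ A → y = 1) ∧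
      ∀ y ∈ B, f₂⁻¹ * y * f₂ ∈ A → y = 1 := by
  have hN : F.Normal := inferInstance
  have : (B ⊔ F).Normal := ⟨fun y hy g => by
    have := mul_mem (mem_sup_right (S := B) (hab g y)) hy
    simpa [mul_assoc] using this⟩
  have hH : NoP (B ⊔ F ⊔ A) := fun p O hp hO _ hn => by
    have h1 := hF p (O ⊓ F) hp (hO.to_le inf_le_left) inf_le_right fun h hh y hy =>
      ⟨hn h (mem_sup_left (mem_sup_right hh)) y hy.1, hN.conj_mem _ hy.2 _⟩
    refine (eq_bot_iff_forall _).2 fun y hy => hC y fun f hf => ?_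
    have h2 : f * y * f⁻¹ * y⁻¹ ∈ O ⊓ F :=
      ⟨O.mul_mem (hn f (mem_sup_left (mem_sup_right hf)) y hy) (inv_mem hy), hab f y⟩
    rw [h1, mem_bot, mul_inv_eq_one, mul_inv_eq_iff_eq_mul] at h2
    exact h2.symm
  obtain ⟨g, hg, h0⟩ := exists_disjoint hH (le_sup_left.trans le_sup_left) le_sup_right cB cA
  obtain ⟨_, hbf, a, ha, rfl⟩ := (mem_sup_of_normal_left).1 hg
  obtain ⟨b, hb, f, hf, rfl⟩ := (mem_sup_of_normal_right).1 hbf
  have tr : ∀ (f b a : G), b ∈ B → a ∈ A → (∀ y ∈ B, (b * f * a)⁻¹ * y * (b * f * a) ∈ A → y = 1) →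
      ∀ y ∈ B, f⁻¹ * y * f ∈ A → y = 1 := fun f b a hb ha h y hy hy' => by
    refine h y hy ?_
    have := mul_mem (mul_mem (inv_mem ha) hy') ha
    rwa [show (b * f * a)⁻¹ * y * (b * f * a) = a⁻¹ * (f⁻¹ * (b⁻¹ * (y * b)) * f) * a by group,
      ← cB b hb y hy, inv_mul_cancel_left]
  have h1 := tr f b a hb ha h0
  by_cases h2 : ∃ b ∈ B, ∃ a ∈ A, b * a ∈ F ∧ (b ≠ 1 ∨ a ≠ 1)
  · obtain ⟨b', hb', a', ha', h3, h4⟩ := h2
    refine ⟨f, hf, b' * f * a', ?_, fun h5 => ?_, h1,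
      tr _ b'⁻¹ a'⁻¹ (inv_mem hb') (inv_mem ha') (by simpa [mul_assoc] using h1)⟩
    · have := mul_mem (hN.conj_mem f hf b') h3
      simpa [mul_assoc] using this
    · have h6 : f⁻¹ * b' * f = a'⁻¹ := by
        rw [eq_inv_iff_mul_eq_one, mul_assoc, mul_assoc, ← mul_assoc b', ← h5, inv_mul_cancel]
      have h7 := h1 b' hb' (h6 ▸ inv_mem ha')
      rw [h7, mul_one, inv_mul_cancel, eq_comm, inv_eq_one] at h6
      tauto
  · obtain ⟨⟨f', hf'⟩, hf1⟩ := ne_bot_iff_exists_ne_one.1 hne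
    have all : ∀ f ∈ F, ∀ y ∈ B, f⁻¹ * y * f ∈ A → y = 1 := fun f hf y hy hy' => by
      by_contra hy1
      refine h2 ⟨y, hy, _, inv_mem hy', ?_, Or.inl hy1⟩
      simpa [mul_assoc] using hab y f⁻¹
    exact ⟨f', hf', 1, one_mem _, fun h => hf1 (Subtype.ext h), all _ hf', all _ (one_mem _)⟩

end Crest.Agent.T24.Zen
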