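import Crest.Prelude.Def_UnitaryMP
import Crest.Agent.T24.Csa2_50
import Crest.Agent.T24.AsaA_53
import Crest.Agent.T24.Zen_52

/-!
# Row 24: the global set-up (star words, depth at `T`) and the top chain of statements.
-/

set_option autoImplicit false
set_option linter.unusedSectionVars false

noncomputable section

namespace Crest.Agent.T24

open Module NumberField IsDedekindDomain WithZero Csa Asa
open scoped NumberField commutatorElement

universe u v w

/-- `K/k` quadratic and `star` is the non-trivial automorphism -/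
class Quad (k K : Type*) [Field k] [Field K] [Algebra k K] [StarRing K] : Prop where
  fr : finrank k K = 2
  star_k : ∀ c : k, star (algebraMap k K c) = algebraMap k K c
  ne : ∃ c : K, star c ≠ c

section Sig
variable (k K : Type*) [Field k] [Field K] [Algebra k K] [StarRing K] [Quad k K]

/-- `star` as a `k`-automorphism of `K` -/
def sig : K ≃ₐ[k] K :=
  { starRingAut with commutes' := Quad.star_k }

@[simp] theorem sig_apply (x : K) : sig k K x = star x := rfl

theorem sig_ne : sig k K ≠ AlgEquiv.refl := fun h => by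
  obtain ⟨c, hc⟩ := Quad.ne (k := k) (K := K)
  exact hc (by simpa using congrArg (fun f : K ≃ₐ[k] K => f c) h)

end Sig

section Glob
variable (K : Type*) [Field K] [NumberField K] [StarRing K] (B : Type*) [Ring B] [StarRing B]
  [Algebra K B] [StarModule K B] [Algebra.IsCentral K B] [IsSimpleRing B] [FiniteDimensional K B]

variable {K B} in
theorem star_algebraMap (c : K) : star (algebraMap K B c) = algebraMap K B (star c) := by
  rw [Algebra.algebraMap_eq_smul_one, Algebra.algebraMap_eq_smul_one, star_smul, star_one]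

variable {B} in
theorem rch_star (b : B) : rch K (star b) = (rch K b).map (starRingEnd K) :=
  rch_anti (starRingEnd K) (starAddEquiv (R := B)).toAddMonoidHom (star_one B)
    (fun x y => star_mul x y) (fun c => star_algebraMap c) b

variable {B} in
theorem Nrd_star (b : B) : Nrd K (star b) = star (Nrd K b) :=
  Nrd_anti (starRingEnd K) (starAddEquiv (R := B)).toAddMonoidHom (star_one B)
    (fun x y => star_mul x y) (fun c => star_algebraMap c) b

variable {B} in
theorem Trd_star (b : B) : Trd K (star b) = star (Trd K b) :=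
  Trd_anti (starRingEnd K) (starAddEquiv (R := B)).toAddMonoidHom (star_one B)
    (fun x y => star_mul x y) (fun c => star_algebraMap c) b

/-- the special unitary group -/
def SU : Subgroup (unitary B) where
  carrier := {u | Nrd K (u : B) = 1}
  one_mem' := by simp
  mul_mem' {a b} ha hb := by
    simp only [Set.mem_ofPred_eq, Submonoid.coe_mul, map_mul] at *; rw [ha, hb, one_mul]
  inv_mem' {a} ha := by
    simp only [Set.mem_ofPred_eq] at *
    have : Nrd K ((a⁻¹ * a : unitary B) : B) = 1 := by simp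
    rwa [Submonoid.coe_mul, map_mul, ha, mul_one] at this

variable {K B} in
theorem mem_SU {u : unitary B} : u ∈ SU K B ↔ Nrd K (u : B) = 1 := Iff.rfl

variable {B} in
theorem Nrd_inv_mul (u : unitary B) : Nrd K ((u⁻¹ : unitary B) : B) * Nrd K (u : B) = 1 := by
  rw [← map_mul, ← Submonoid.coe_mul]; simp

variable {B} in
theorem comm_mem_SU (a b : unitary B) : a * b * a⁻¹ * b⁻¹ ∈ SU K B := by
  have h1 := Nrd_inv_mul K a
  have h2 := Nrd_inv_mul K b
  simp only [mem_SU, Submonoid.coe_mul, map_mul]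
  linear_combination (Nrd K ((b⁻¹ : unitary B) : B) * Nrd K (b : B)) * h1 + h2

instance : (SU K B).Normal := ⟨fun n hn g => by
  have h1 := Nrd_inv_mul K g
  simp only [mem_SU, Submonoid.coe_mul, map_mul] at *
  rw [hn]; linear_combination h1⟩

/-- the involution is anisotropic -/
def Aniso (B : Type*) [Ring B] [StarRing B] : Prop := ∀ x : B, star x * x = 0 → x = 0

variable {K B} in
/-- the valuation of the reduced norm -/
def val (w : Pl K) (x : B) : ℤᵐ⁰ := w.valuation K (Nrd K x)

variable {K B} in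
theorem val_mul (w : Pl K) (x y : B) : val w (x * y) = val w x * val w y := by
  simp [val]

variable {K B} in
@[simp] theorem val_one (w : Pl K) : val w (1 : B) = 1 := by simp [val]

variable {K B} in
@[simp] theorem val_zero (w : Pl K) : val w (0 : B) = 0 := by simp [val]

variable {K B} in
@[simp] theorem val_neg (w : Pl K) (x : B) : val w (-x) = val w x := by
  simp [val, Nrd_neg]

variable {K} in
/-- the place of `k` under `w` splits -/
def Split (w : Pl K) : Prop := ∃ x : K, w.valuation K (star x) ≠ w.valuation K x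

variable {K} in
/-- `val w` is a valuation of `B` (equivalent to: `B ⊗ K_w` is a division algebra) -/
def Ultra (w : Pl K) : Prop := ∀ x y : B, val w (x + y) ≤ max (val w x) (val w y)

/-- the anisotropic places -/
def TT : Set (Pl K) := {w | Split w ∧ Ultra B w}

variable {K B} in
theorem Ultra.val_eq_one {w : Pl K} (h : Ultra B w) {x : B} (hx : val w (x - 1) < 1) :
    val w x = 1 := by
  have h1 := h (x - 1) 1
  have h2 := h x (-(x - 1))
  rw [sub_add_cancel, val_one] at h1
  rw [val_neg, show x + -(x - 1) = 1 by abel, val_one] at h2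
  refine le_antisymm (h1.trans (max_le hx.le le_rfl)) ?_
  rcases le_max_iff.1 h2 with h3 | h3
  · exact h3
  · exact absurd hx (not_lt.2 h3)

/-- `x` is congruent to `1` to depth `m` at `T` -/
def Deep (m : ℕ) : Submonoid B where
  carrier := {x | ∀ w ∈ TT K B, val w (x - 1) < exp (-(m : ℤ))}
  one_mem' w _ := by simp
  mul_mem' {a b} ha hb w hw := by
    have h1 : val w a = 1 := hw.2.val_eq_one ((ha w hw).trans_le (exp_neg_le_one m))
    have h2 := hw.2 (a * (b - 1)) (a - 1)
    rw [val_mul, h1, one_mul, show a * (b - 1) + (a - 1) = a * b - 1 by noncomm_ring] at h2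
    exact h2.trans_lt (max_lt (hb w hw) (ha w hw))

variable {K B} in
theorem mem_Deep {m : ℕ} {x : B} :
    x ∈ Deep K B m ↔ ∀ w ∈ TT K B, val w (x - 1) < exp (-(m : ℤ)) := Iff.rfl

variable {K B} in
theorem Deep.val_eq_one {m : ℕ} {x : B} (hx : x ∈ Deep K B m) {w : Pl K} (hw : w ∈ TT K B) :
    val w x = 1 := hw.2.val_eq_one ((hx w hw).trans_le (exp_neg_le_one m))

variable {K B} in
theorem Deep.inv {m : ℕ} {x y : B} (hx : x ∈ Deep K B m) (h : y * x = 1) : y ∈ Deep K B m :=
  fun w hw => by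
    have h1 : val w y = 1 := by
      have := val_mul w y x
      rwa [h, val_one, Deep.val_eq_one hx hw, mul_one, eq_comm] at this
    have : y - 1 = -(y * (x - 1)) := by rw [mul_sub, h, mul_one, neg_sub]
    rw [this, val_neg, val_mul, h1, one_mul]; exact hx w hw

variable {K B} in
theorem Deep.conj {m : ℕ} {x g g' : B} (hx : x ∈ Deep K B m) (h : g * g' = 1) :
    g * x * g' ∈ Deep K B m := fun w hw => by
  have h1 : val w g * val w g' = 1 := by rw [← val_mul, h, val_one]
  have : g * x * g' - 1 = g * (x - 1) * g' := by rw [mul_sub, sub_mul, mul_one, h]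
  rw [this, val_mul, val_mul, mul_right_comm, h1, one_mul]; exact hx w hw

variable {K B} in
theorem Deep.anti {m n : ℕ} (h : m ≤ n) : Deep K B n ≤ Deep K B m :=
  fun _ hx w hw => (hx w hw).trans_le (exp_neg_anti h)

/-- the unitary elements of depth `m` at `T` -/
def Um (m : ℕ) : Subgroup (unitary B) where
  carrier := {u | (u : B) ∈ Deep K B m}
  one_mem' := (Deep K B m).one_mem
  mul_mem' ha hb := (Deep K B m).mul_mem ha hb
  inv_mem' {a} ha := Deep.inv ha (by rw [← Submonoid.coe_mul]; simp)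

variable {K B} in
theorem mem_Um {m : ℕ} {u : unitary B} : u ∈ Um K B m ↔ (u : B) ∈ Deep K B m := Iff.rfl

instance (m : ℕ) : (Um K B m).Normal :=
  ⟨fun _ hn g => Deep.conj hn (by rw [← Submonoid.coe_mul]; simp)⟩

variable {K B} in
theorem Um_anti {m n : ℕ} (h : m ≤ n) : Um K B n ≤ Um K B m := fun _ hx => Deep.anti h hx

/-- the elements of `SU` of depth `m` at `T` -/
def SUm (m : ℕ) : Subgroup (unitary B) := SU K B ⊓ Um K B m

instance (m : ℕ) : (SUm K B m).Normal := Subgroup.normal_inf_normal _ _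

variable {K B} in
theorem SUm_anti {m n : ℕ} (h : m ≤ n) : SUm K B n ≤ SUm K B m := inf_le_inf_left _ (Um_anti h)

variable {B} in
/-- a non-central normal subgroup of `SU` -/
structure NC (N : Subgroup (unitary B)) : Prop where
  le : N ≤ SU K B
  nrm : ∀ g ∈ SU K B, ∀ x ∈ N, g * x * g⁻¹ ∈ N
  nc : ∃ x ∈ N, ∃ g ∈ SU K B, x * g ≠ g * x

/-- Margulis–Platonov -/
def MP : Prop := ∀ N : Subgroup (unitary B), NC K N → ∃ m, SUm K B m ≤ N

/-- Kneser–Tits form: no proper non-central normal subgroup -/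
def Iso : Prop := ∀ N : Subgroup (unitary B), NC K N → SU K B ≤ N

/-- finite index -/
def NstK : Prop := ∀ N : Subgroup (unitary B), NC K N → N.relIndex (SU K B) ≠ 0

/-- every `SUm m` has finite index in `SU` and `n`-th powers of its elements are not all central -/
def Pow : Prop := ∀ m n : ℕ, n ≠ 0 → (SUm K B m).relIndex (SU K B) ≠ 0 ∧
  ∃ x ∈ SUm K B m, ∃ g ∈ SU K B, x ^ n * g ≠ g * x ^ n

variable {K B} in
/-- a finite colouring of `Um m` in which all the `SUm m'`, `m ≤ m'`, have the same image `M ≠ 1` -/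
structure Col (m : ℕ) {Q : Type} [Group Q] (c : Um K B m →* Q) (M : Subgroup Q) : Prop where
  surj : Function.Surjective c
  im : ∀ m', m ≤ m' → ((SUm K B m').subgroupOf (Um K B m)).map c = M
  deep : ∀ m', ((Um K B m').subgroupOf (Um K B m)).map c = ⊤
  ne : M ≠ ⊥

/-- no exotic non-abelian chief factor -/
def NA : Prop := ∀ (m : ℕ) (Q : Type) [Group Q] [Finite Q] (c : Um K B m →* Q) (M : Subgroup Q),
  Col m c M → Zen.NoP M → (∀ q : Q, (∀ x ∈ M, q * x = x * q) → q = 1) → False

/-- no exotic twisted abelian chief factor (Frobenius group with abelian kernel `M`) -/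
def TW : Prop := ∀ (m : ℕ) (Q : Type) [Group Q] [Finite Q] (c : Um K B m →* Q) (M : Subgroup Q),
  Col m c M → (∀ x ∈ M, ∀ y ∈ M, x * y = y * x) → M ≠ ⊤ →
  (∀ q : Q, q ∉ M → ∀ x ∈ M, q * x = x * q → x = 1) → False

/-- the central step -/
def Cen : Prop := ∀ (m : ℕ) (N : Subgroup (unitary B)), N.relIndex (SU K B) ≠ 0 →
  (∀ u ∈ Um K B m, ∀ g ∈ SUm K B m, u * g * u⁻¹ * g⁻¹ ∈ N) → ∃ m', SUm K B m' ≤ N

variable {B} in
/-- `N` is stable under conjugation by all similitudes -/
def GUInv (N : Subgroup (unitary B)) : Prop :=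
  ∀ (g : Bˣ) (c : K), star (g : B) * g = algebraMap K B c → ∀ x ∈ N, ∀ y : unitary B,
    (y : B) = g * x * (g⁻¹ : Bˣ) → y ∈ N

/-- the central step with all the invariance one can have for free -/
def CenU : Prop := ∀ (m : ℕ) (N : Subgroup (unitary B)), N ≤ SU K B → N.relIndex (SU K B) ≠ 0 →
  GUInv K N → (∀ u : unitary B, ∀ g ∈ SUm K B m, u * g * u⁻¹ * g⁻¹ ∈ N) → ∃ m', SUm K B m' ≤ N

/-- `T`-adic continuity of commutators -/
def Cont : Prop := ∀ m : ℕ, ∃ m' : ℕ, ∀ u : unitary B, ∀ g ∈ SUm K B m',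
  u * g * u⁻¹ * g⁻¹ ∈ ⁅Um K B m, SUm K B m⁆

/-- division at `w` (words of the statement) is `Ultra`; `T` is finite -/
def Val : Prop := (TT K B).Finite ∧
  ∀ w : Pl K, Crest.NumberTheoryR.UnitaryMP.IsDivisionAt B w ↔ Ultra B w

/-- congruences in a basis are cofinal with depth -/
def Cof : Prop := ∀ w : Pl K, Ultra B w → ∀ e : Basis (Fin (finrank K B)) K B, ∀ m : ℕ,
  (∃ m' : ℕ, ∀ x : B, (∀ i, w.valuation K (e.repr x i) ≤ exp (-(m' : ℤ))) →
    val w x < exp (-(m : ℤ))) ∧
  ∃ m' : ℕ, ∀ x : B, val w x < exp (-(m' : ℤ)) → ∀ i, w.valuation K (e.repr x i) ≤ exp (-(m : ℤ))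

end Glob

set_option linter.checkUnivs false in
/-- the data of the row -/
structure Dat where
  k : Type u
  K : Type v
  B : Type w
  [i1 : Field k] [i2 : NumberField k] [i3 : Field K] [i4 : NumberField K] [i5 : Algebra k K]
  [i6 : StarRing K] [i7 : Quad k K] [i8 : Ring B] [i9 : StarRing B] [i10 : Algebra K B]
  [i11 : StarModule K B] [i12 : Algebra.IsCentral K B] [i13 : IsSimpleRing B]
  [i14 : FiniteDimensional K B] [i15 : Algebra k B] [i16 : IsScalarTower k K B]

attribute [instance] Dat.i1 Dat.i2 Dat.i3 Dat.i4 Dat.i5 Dat.i6 Dat.i7 Dat.i8 Dat.i9 Dat.i10 Dat.i11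
  Dat.i12 Dat.i13 Dat.i14 Dat.i15 Dat.i16

def MPStmt : Prop := ∀ D : Dat.{u, v, w}, 3 ≤ deg D.K D.B → MP D.K D.B
def ValStmt : Prop := ∀ D : Dat.{u, v, w}, 2 ≤ deg D.K D.B → Val D.K D.B
def CofStmt : Prop := ∀ D : Dat.{u, v, w}, Cof D.K D.B
def PowStmt : Prop := ∀ D : Dat.{u, v, w}, 2 ≤ deg D.K D.B → Pow D.K D.B
def IsoStmt : Prop := ∀ D : Dat.{u, v, w}, 3 ≤ deg D.K D.B → ¬ Aniso D.B → Iso D.K D.B
def NstKStmt : Prop := ∀ D : Dat.{u, v, w}, 3 ≤ deg D.K D.B → Aniso D.B → NstK D.K D.B
def NAStmt : Prop := ∀ D : Dat.{u, v, w}, 3 ≤ deg D.K D.B → Aniso D.B → NA D.K D.B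
def TWStmt : Prop := ∀ D : Dat.{u, v, w}, 3 ≤ deg D.K D.B → Aniso D.B → TW D.K D.B
def CenOddStmt : Prop :=
  ∀ D : Dat.{u, v, w}, 3 ≤ deg D.K D.B → Aniso D.B → Odd (deg D.K D.B) → CenU D.K D.B
def CenEvenStmt : Prop :=
  ∀ D : Dat.{u, v, w}, 3 ≤ deg D.K D.B → Aniso D.B → Even (deg D.K D.B) → CenU D.K D.B
def ContStmt : Prop := ∀ D : Dat.{u, v, w}, 2 ≤ deg D.K D.B → Cont D.K D.B
/-- pure group theory: verbal subgroup -/
def CenRedStmt : Prop := ∀ D : Dat.{u, v, w}, Pow D.K D.B → NstK D.K D.B → Cont D.K D.B →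
  CenU D.K D.B → Cen D.K D.B
/-- pure group theory: verbal subgroup, chief factor -/
def ChiefStmt : Prop := ∀ D : Dat.{u, v, w}, Pow D.K D.B → NstK D.K D.B → NA D.K D.B →
  TW D.K D.B → Cen D.K D.B → MP D.K D.B

theorem mpStmt (h1 : ChiefStmt.{u, v, w}) (h2 : PowStmt.{u, v, w}) (h3 : IsoStmt.{u, v, w})
    (h4 : NstKStmt.{u, v, w}) (h5 : NAStmt.{u, v, w}) (h6 : TWStmt.{u, v, w})
    (h7 : CenOddStmt.{u, v, w}) (h8 : CenEvenStmt.{u, v, w}) (h9 : ContStmt.{u, v, w})
    (h10 : CenRedStmt.{u, v, w}) : MPStmt.{u, v, w} := fun D hd => by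
  by_cases ha : Aniso D.B
  · exact h1 D (h2 D (by omega)) (h4 D hd ha) (h5 D hd ha) (h6 D hd ha)
      (h10 D (h2 D (by omega)) (h4 D hd ha) (h9 D (by omega))
        ((Nat.even_or_odd _).elim (h8 D hd ha) (h7 D hd ha)))
  · exact fun N hN => ⟨0, inf_le_left.trans (h3 D hd ha N hN)⟩

end Crest.Agent.T24
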