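import Crest.Agent.T24.LocC_59
import Crest.Agent.T24.CsaP_50
import Crest.Agent.T24.Def_26

/-!
# Row 24 (helper59): a central simple algebra over a number field splits at almost all places;
the places where it is a division algebra
-/

set_option autoImplicit false

namespace Crest.Agent.T24.Loc

open Finset Module Csa NumberField IsDedekindDomain Filter WithZero Crest.NumberTheoryR.UnitaryMP
open scoped Valued TensorProduct

section dual
variable {K : Type*} [Field K] [CharZero K] {B : Type*} [Ring B] [Algebra K B] [Algebra.IsCentral K B]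
  [IsSimpleRing B] [FiniteDimensional K B] {ι : Type*} [Fintype ι]

/-- the dual basis for the trace form -/
theorem exists_dual (e : Basis ι K B) : ∃ g : ι → B, ∀ x, x = ∑ i, Trd K (x * e i) • g i := by
  classical
  let β : LinearMap.BilinForm K B := (LinearMap.mul K B).compr₂ (Trd K)
  have hβ : β.Nondegenerate := ⟨fun x hx => eq_zero_of_Trd (K := K) fun y => by simpa [β] using hx y,
    fun x hx => eq_zero_of_Trd (K := K) fun y => (Trd_mul_comm x y).trans (by simpa [β] using hx y)⟩
  refine ⟨β.dualBasis hβ e, fun x => ?_⟩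
  conv_lhs => rw [← (β.dualBasis hβ e).sum_repr x]
  simp [LinearMap.BilinForm.dualBasis_repr_apply, β]

end dual

variable {K : Type*} [Field K] [NumberField K]

theorem val_alg (w : HeightOneSpectrum (𝓞 K)) (c : K) :
    Valued.v (algebraMap K (w.adicCompletion K) c) = w.valuation K c :=
  w.valuedAdicCompletion_eq_valuation' c

theorem int_ae (c : K) : ∀ᶠ w : HeightOneSpectrum (𝓞 K) in cofinite, w.valuation K c ≤ 1 :=
  (HeightOneSpectrum.Support.finite (𝓞 K) c).subset fun w hw =>
    show 1 < w.valuation K c from lt_of_not_ge fun h => hw h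

theorem mem_int_iff (w : HeightOneSpectrum (𝓞 K)) (c : w.adicCompletion K) :
    c ∈ Set.range (algebraMap (w.adicCompletionIntegers K) (w.adicCompletion K)) ↔ ‖c‖ ≤ 1 := by
  rw [Valued.toNormedField.norm_le_one_iff]
  exact ⟨fun ⟨a, ha⟩ => ha ▸ a.2, fun h => ⟨⟨c, h⟩, rfl⟩⟩

variable {B : Type*} [Ring B] [Algebra K B] [Algebra.IsCentral K B] [IsSimpleRing B] [FiniteDimensional K B]

/-- **almost everywhere the lattice spanned by a basis is a full matrix ring** -/
theorem split_ae {ι : Type*} [Fintype ι] (e : Basis ι K B) {d : ℕ} (hd : finrank K B = d ^ 2) :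
    ∀ᶠ w : HeightOneSpectrum (𝓞 K) in cofinite,
      ∃ ψ : B →ₐ[K] Matrix (Fin d) (Fin d) (w.adicCompletion K), ∀ (c : ι → w.adicCompletion K) (γ : ℤᵐ⁰),
        (∀ k, Valued.v (c k) ≤ γ) ↔ ∀ i j, Valued.v ((∑ k, c k • ψ (e k)) i j) ≤ γ := by
  obtain ⟨g, hg⟩ := exists_dual e
  filter_upwards [eventually_all.2 fun p : ι × ι × ι => int_ae (e.repr (e p.1 * e p.2.1) p.2.2),
    eventually_all.2 fun p : ι × ι => int_ae (e.repr (g p.1) p.2)] with w h1 h2
  have := proper_adic K w
  have := charZero_adic K w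
  let F := w.adicCompletion K
  have := isSimpleRing_tensor (K := K) (A := F) (B := B)
  have := isCentral_tensor (K := K) (F := F) (A := F) (B := B)
  let φ : B →ₐ[K] F ⊗[K] B := Algebra.TensorProduct.includeRight
  have hφ : ∀ c, φ (algebraMap K B c) = algebraMap F _ (algebraMap K F c) := fun c =>
    (φ.commutes c).trans (IsScalarTower.algebraMap_apply _ _ _ _)
  have hr : finrank F (F ⊗[K] B) = finrank K B := Module.finrank_baseChange
  let e' := mapBasis e φ.toRingHom hr
  have he : ∀ i, e' i = φ (e i) := mapBasis_apply _ _ _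
  have he' : ∀ x i, e'.repr (φ x) i = algebraMap K F (e.repr x i) := mapBasis_repr e φ.toRingHom hr _ hφ
  have hU : Unim e' := ⟨fun i j k => by
      rw [he, he, ← map_mul, he', Valued.toNormedField.norm_le_one_iff, val_alg]; exact h1 (i, j, k),
    fun i => φ (g i), fun i k => by
      rw [he', Valued.toNormedField.norm_le_one_iff, val_alg]; exact h2 (i, k), fun x => by
      have : LinearMap.id = ∑ i, (Trd F ∘ₗ LinearMap.mulRight F (e' i)).smulRight (φ (g i)) :=
        e'.ext fun k => by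
          rw [LinearMap.id_apply, he, LinearMap.sum_apply]
          conv_lhs => rw [hg (e k), map_sum]
          refine sum_congr rfl fun i _ => ?_
          rw [map_smul, ← algebraMap_smul F, ← Trd_map _ φ.toRingHom hφ hr]
          simp [he]
      simpa using LinearMap.congr_fun this x⟩
  obtain ⟨ψ, hψ⟩ := hU.split (w.adicCompletionIntegers K) (mem_int_iff w) (hr.trans hd)
  refine ⟨(ψ.toAlgHom.restrictScalars K).comp φ, fun c γ => ?_⟩
  obtain ⟨a, rfl⟩ := w.valuedAdicCompletion_surjective K γ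
  have := hψ (∑ k, c k • e' k) ‖a‖ (norm_nonneg _)
  simp only [Basis.repr_sum_self] at this
  simp only [Valued.toNormedField.norm_le_iff, map_sum, map_smul, he] at this
  exact this

theorem split_ae' {ι : Type*} [Fintype ι] (e : Basis ι K B) {d : ℕ} (hd : finrank K B = d ^ 2) :
    ∀ᶠ w : HeightOneSpectrum (𝓞 K) in cofinite,
      ∃ ψ : B →ₐ[K] Matrix (Fin d) (Fin d) (w.adicCompletion K), ∀ (x : B) (γ : ℤᵐ⁰),
        (∀ k, w.valuation K (e.repr x k) ≤ γ) ↔ ∀ i j, Valued.v (ψ x i j) ≤ γ :=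
  (split_ae e hd).mono fun w ⟨ψ, h⟩ => ⟨ψ, fun x γ => by
    simpa only [val_alg, algebraMap_smul, ← map_smul, ← map_sum, e.sum_repr] using
      h (fun k => algebraMap K _ (e.repr x k)) γ⟩

theorem spl_ae {d : ℕ} (hd : finrank K B = d ^ 2) : ∀ᶠ w : HeightOneSpectrum (𝓞 K) in cofinite,
    Nonempty (B →ₐ[K] Matrix (Fin d) (Fin d) (w.adicCompletion K)) :=
  (split_ae (finBasis K B) hd).mono fun _ ⟨ψ, _⟩ => ⟨ψ⟩

theorem not_division_of_split {d : ℕ} (hd : finrank K B = d ^ 2) (h2 : 2 ≤ d) {w : HeightOneSpectrum (𝓞 K)}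
    (ψ : B →ₐ[K] Matrix (Fin d) (Fin d) (w.adicCompletion K)) : ¬ IsDivisionAt B w := fun h => by
  have : Nonempty (Fin d) := ⟨⟨0, by omega⟩⟩
  let q := (Algebra.TensorProduct.comm K B _).toRingEquiv.trans
    (bcEquiv (L := w.adicCompletion K) ψ (by rw [hd, finrank_mat, Fintype.card_fin])).toRingEquiv
  let i : Fin d := ⟨0, by omega⟩
  let j : Fin d := ⟨1, by omega⟩
  obtain ⟨z, hz, -⟩ := h (q.symm (Matrix.single i i 1)) (by
    rw [Ne, map_eq_zero_iff _ q.symm.injective]
    exact fun h0 => by simpa using congrFun (congrFun h0 i) i)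
  have h3 := congrFun (congrFun (congrArg q hz) j) j
  rw [map_mul, q.apply_symm_apply, map_one, Matrix.single_mul_apply_of_ne _ _ _ _ _ (by simp [i, j])] at h3
  simp at h3

/-- **there are only finitely many places where `B` is a division algebra** -/
theorem finite_division (h : 2 ≤ deg K B) : {w : HeightOneSpectrum (𝓞 K) | IsDivisionAt B w}.Finite :=
  (spl_ae (finrank_eq_deg_sq K B)).subset fun _ hw ⟨ψ⟩ =>
    not_division_of_split (finrank_eq_deg_sq K B) h ψ hw

universe u v in
/-- the completion at a place where `B` is a division algebra -/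
theorem exists_local {K : Type u} [Field K] [NumberField K] {B : Type v} [Ring B] [Algebra K B]
    [Algebra.IsCentral K B] [IsSimpleRing B] [FiniteDimensional K B] {w : HeightOneSpectrum (𝓞 K)}
    (h : IsDivisionAt B w) :
    ∃ (D : Type (max u v)) (_ : NormedDivisionRing D) (_ : NormedAlgebra (w.adicCompletion K) D)
      (_ : IsUltrametricDist D) (_ : FiniteDimensional (w.adicCompletion K) D)
      (_ : Algebra.IsCentral (w.adicCompletion K) D) (φ : B →+* D),
      (∀ c, φ (algebraMap K B c) = algebraMap _ D (algebraMap K (w.adicCompletion K) c)) ∧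
      finrank (w.adicCompletion K) D = finrank K B ∧
      ∀ x, ‖φ x‖ ^ deg K B = ‖algebraMap K (w.adicCompletion K) (Nrd K x)‖ := by
  have := proper_adic K w
  have := charZero_adic K w
  let F := w.adicCompletion K
  have hc := isCentral_tensor (K := K) (F := F) (A := F) (B := B)
  let q := Algebra.TensorProduct.comm K B F
  let : DivisionRing (F ⊗[K] B) := DivisionRing.ofIsUnitOrEqZero fun z => or_iff_not_imp_right.2 fun hz => by
    obtain ⟨y, h1, h2⟩ := h (q.symm z) (by simpa using hz)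
    exact ⟨⟨z, q y, by simpa using congrArg q h1, by simpa using congrArg q h2⟩, rfl⟩
  let φ : B →ₐ[K] F ⊗[K] B := Algebra.TensorProduct.includeRight
  have hφ : ∀ c, φ (algebraMap K B c) = algebraMap F _ (algebraMap K F c) := fun c =>
    (φ.commutes c).trans (IsScalarTower.algebraMap_apply _ _ _ _)
  have hr : finrank F (F ⊗[K] B) = finrank K B := Module.finrank_baseChange
  refine ⟨F ⊗[K] B, ndr F _, nalg F _, ultra F _, inferInstance, hc, φ.toRingHom, hφ, hr, fun x => ?_⟩
  rw [← Nrd_map _ φ.toRingHom hφ hr, ← nm_pow_deg, deg, deg, hr]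
  rfl

/-- **VAL**: the valuation of the reduced norm is ultrametric -/
theorem val_add {w : HeightOneSpectrum (𝓞 K)} (h : IsDivisionAt B w) (x y : B) :
    w.valuation K (Nrd K (x + y)) ≤ max (w.valuation K (Nrd K x)) (w.valuation K (Nrd K y)) := by
  obtain ⟨D, _, _, _, _, _, φ, -, -, h1⟩ := exists_local h
  simp only [le_max_iff, ← val_alg, ← Valued.toNormedField.norm_le_iff, ← h1,
    pow_le_pow_iff_left₀ (norm_nonneg _) (norm_nonneg _) (deg_pos K B).ne', map_add]
  exact le_max_iff.1 (IsUltrametricDist.norm_add_le_max _ _)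

theorem division_of_ultra {w : HeightOneSpectrum (𝓞 K)} (h : ∀ x y : B,
    w.valuation K (Nrd K (x + y)) ≤ max (w.valuation K (Nrd K x)) (w.valuation K (Nrd K y))) :
    IsDivisionAt B w := by
  have := charZero_adic K w
  let F := w.adicCompletion K
  have := isSimpleRing_tensor (K := K) (A := F) (B := B)
  have := isCentral_tensor (K := K) (F := F) (A := F) (B := B)
  let φ : B →ₐ[K] F ⊗[K] B := Algebra.TensorProduct.includeRight
  have hφ : ∀ c, φ (algebraMap K B c) = algebraMap F _ (algebraMap K F c) := fun c =>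
    (φ.commutes c).trans (IsScalarTower.algebraMap_apply _ _ _ _)
  have hr : finrank F (F ⊗[K] B) = finrank K B := Module.finrank_baseChange
  let e := finBasis K B
  let e' := mapBasis e φ.toRingHom hr
  let N : (Fin (finrank K B) → F) → ℝ := fun c => ‖Nrd F (e'.equivFun.symm c)‖
  have hN : Continuous N := continuous_norm.comp (continuous_Nrd_of e' (g := e'.equivFun.symm) fun i => by
    simp only [← e'.equivFun_apply, LinearEquiv.apply_symm_apply]; exact continuous_apply i)
  have h1 : ∀ c : Fin (finrank K B) → K, N (Pi.map (fun _ => algebraMap K F) c) =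
      ‖algebraMap K F (Nrd K (e.equivFun.symm c))‖ := fun c => by
    rw [← Nrd_map _ φ.toRingHom hφ hr]
    refine congrArg (fun z => ‖Nrd F z‖) ?_
    rw [LinearEquiv.symm_apply_eq]
    funext i
    rw [Basis.equivFun_apply, mapBasis_repr e φ.toRingHom hr _ hφ, ← e.equivFun_apply,
      LinearEquiv.apply_symm_apply]
    rfl
  have h2 : ∀ a b, N (a + b) ≤ max (N a) (N b) := fun a b =>
    (DenseRange.piMap fun _ => w.denseRange_algebraMap K).induction_on₂
      (p := fun a b => N (a + b) ≤ max (N a) (N b)) (isClosed_le (by fun_prop) (by fun_prop)) (fun a b => by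
        rw [show Pi.map (fun _ => algebraMap K F) a + Pi.map (fun _ => algebraMap K F) b =
          Pi.map (fun _ => algebraMap K F) (a + b) from funext fun i => (map_add _ _ _).symm, h1, h1, h1, map_add]
        simpa only [le_max_iff, Valued.toNormedField.norm_le_iff, F, val_alg] using h _ _) a b
  let I : TwoSidedIdeal (F ⊗[K] B) := TwoSidedIdeal.mk' {x | Nrd F x = 0} (by simp)
    (fun {a b} ha hb => by
      have := h2 (e'.equivFun a) (e'.equivFun b)
      simp only [N, map_add, LinearEquiv.symm_apply_apply] at this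
      rwa [show Nrd F a = 0 from ha, show Nrd F b = 0 from hb, norm_zero, max_self, norm_le_zero_iff] at this)
    (fun {a} ha => by simp [Nrd_neg, show Nrd F a = 0 from ha])
    (fun {a b} hb => by simp [show Nrd F b = 0 from hb])
    (fun {a b} ha => by simp [show Nrd F a = 0 from ha])
  let q := Algebra.TensorProduct.comm K B F
  intro z hz
  obtain ⟨u, hu⟩ := ((isUnit_iff_Nrd (K := F) (q z)).2 fun h0 => by
    simpa using (TwoSidedIdeal.mem_mk' _ _ _ _ _ _ _).1 (IsSimpleRing.one_mem_of_ne_zero_mem I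
      (show q z ≠ 0 by simpa using hz) ((TwoSidedIdeal.mem_mk' _ _ _ _ _ _ _).2 h0))).map q.symm
  rw [q.symm_apply_apply] at hu
  exact ⟨(u⁻¹ : _ˣ), hu ▸ u.mul_inv, hu ▸ u.inv_mul⟩

theorem eq_of_le_exp {γ δ : ℤᵐ⁰} (h1 : δ ≤ 1) (h : ∀ n : ℕ, δ ≤ exp (-(n : ℤ)) → γ ≤ exp (-(n : ℤ))) :
    γ ≤ δ := by
  by_cases h0 : γ = 0
  · simp [h0]
  by_cases h2 : δ = 0
  · have := h ((log γ).natAbs + 1) (by simp [h2])
    rw [← exp_log h0, exp_le_exp, log_exp] at this
    omega
  rw [← exp_log h2, ← exp_zero, exp_le_exp] at h1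
  have h3 : δ = exp (-((log δ).natAbs : ℤ)) := by rw [← exp_log h2, log_exp]; congr 1; omega
  exact h3 ▸ h _ h3.le

/-- the conjugate place -/
theorem exists_conj_place (s : K ≃+* K) (w : HeightOneSpectrum (𝓞 K)) :
    ∃ w' : HeightOneSpectrum (𝓞 K), ∀ x, w'.valuation K x = w.valuation K (s x) := by
  let f := RingOfIntegers.mapRingEquiv s
  let w' := HeightOneSpectrum.comap (f : 𝓞 K →+* 𝓞 K) f.surjective w
  have h1 : ∀ (a : 𝓞 K) (n : ℕ), w'.intValuation a ≤ exp (-(n : ℤ)) ↔ w.intValuation (f a) ≤ exp (-(n : ℤ)) :=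
    fun a n => by
      rw [HeightOneSpectrum.intValuation_le_pow_iff_mem, HeightOneSpectrum.intValuation_le_pow_iff_mem,
        show w'.asIdeal = w.asIdeal.comap f from rfl, ← Ideal.map_symm, ← Ideal.map_pow, Ideal.map_symm,
        Ideal.mem_comap]
  have h2 : ∀ a : 𝓞 K, w'.valuation K a = w.valuation K (s a) := fun a => by
    rw [HeightOneSpectrum.valuation_of_algebraMap, show s a = algebraMap (𝓞 K) K (f a) from rfl,
      HeightOneSpectrum.valuation_of_algebraMap]
    exact le_antisymm (eq_of_le_exp (w.intValuation_le_one _) fun n => (h1 a n).2)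
      (eq_of_le_exp (w'.intValuation_le_one _) fun n => (h1 a n).1)
  refine ⟨w', fun x => ?_⟩
  obtain ⟨a, b, -, rfl⟩ := IsFractionRing.div_surjective (A := 𝓞 K) x
  rw [map_div₀, map_div₀, map_div₀]
  exact congrArg₂ _ (h2 a) (h2 b)

theorem exists_exp (w : HeightOneSpectrum (𝓞 K)) : ∃ t : ℝ, 0 < t ∧ t < 1 ∧ ∀ (c : w.adicCompletion K) (m : ℕ),
    Valued.v c ≤ exp (-(m : ℤ)) ↔ ‖c‖ ≤ t ^ m := by
  obtain ⟨p, hp⟩ := w.valuedAdicCompletion_surjective K (exp (-1))
  refine ⟨‖p‖, norm_pos_iff.2 fun h => exp_ne_zero (by rw [← hp, h, map_zero]), ?_, fun c m => ?_⟩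
  · rw [Valued.toNormedField.norm_lt_one_iff, hp, ← exp_zero, exp_lt_exp]; omega
  · rw [← norm_pow, Valued.toNormedField.norm_le_iff, map_pow, hp, ← exp_nsmul]; simp

/-- **COF**: congruence conditions in a basis and in terms of the reduced norm are cofinal -/
theorem cofinal {w : HeightOneSpectrum (𝓞 K)} (h : IsDivisionAt B w) {ι : Type*} (e : Basis ι K B) (m : ℕ) :
    ∀ᶠ m' : ℕ in atTop, ∀ x : B,
      ((∀ i, w.valuation K (e.repr x i) ≤ exp (-(m' : ℤ))) → w.valuation K (Nrd K x) ≤ exp (-(m : ℤ))) ∧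
      (w.valuation K (Nrd K x) ≤ exp (-(m' : ℤ)) → ∀ i, w.valuation K (e.repr x i) ≤ exp (-(m : ℤ))) := by
  obtain ⟨D, _, _, _, _, _, φ, hφ, hr, h1⟩ := exists_local h
  obtain ⟨t, h0, ht, h2⟩ := exists_exp w
  have := FiniteDimensional.fintypeBasisIndex e
  let e' := mapBasis e φ hr
  have he' : ∀ x i, e'.repr (φ x) i = algebraMap K _ (e.repr x i) := mapBasis_repr e φ hr _ hφ
  obtain ⟨C, hC, h3⟩ := e'.equivFunL.toContinuousLinearMap.bound
  obtain ⟨C', hC', h4⟩ := e'.equivFunL.symm.toContinuousLinearMap.bound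
  have h5 := tendsto_pow_atTop_nhds_zero_of_lt_one h0.le ht
  filter_upwards [h5.eventually (ge_mem_nhds (show 0 < (t ^ m / C) ^ deg K B by positivity)),
    h5.eventually (ge_mem_nhds (show 0 < t ^ m / C' by positivity))] with m' h6 h7 x
  simp only [← val_alg, h2, ← h1, ← he']
  refine ⟨fun h8 => ?_, fun h8 i => ?_⟩
  · have h9 : ‖φ x‖ ≤ t ^ m := by
      have := h4 (e'.equivFun (φ x))
      rw [le_div_iff₀' hC'] at h7
      refine le_trans (by simpa using this) (le_trans (mul_le_mul_of_nonneg_left ?_ hC'.le) h7)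
      exact (pi_norm_le_iff_of_nonneg (by positivity)).2 h8
    exact (pow_le_of_le_one (norm_nonneg _) (h9.trans (pow_le_one₀ h0.le ht.le)) (deg_pos K B).ne').trans h9
  · have h9 := (pow_le_pow_iff_left₀ (norm_nonneg _) (by positivity) (deg_pos K B).ne').1 (h8.trans h6)
    rw [le_div_iff₀' hC] at h9
    exact (norm_le_pi_norm (e'.equivFun (φ x)) i).trans ((h3 (φ x)).trans h9)

/-- **COF**, uniformly in the places -/
theorem cofinal_all (hd : 2 ≤ deg K B) {ι : Type*} (e : Basis ι K B) (m : ℕ) :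
    ∀ᶠ m' : ℕ in atTop, ∀ w : HeightOneSpectrum (𝓞 K), IsDivisionAt B w → ∀ x : B,
      ((∀ i, w.valuation K (e.repr x i) ≤ exp (-(m' : ℤ))) → w.valuation K (Nrd K x) ≤ exp (-(m : ℤ))) ∧
      (w.valuation K (Nrd K x) ≤ exp (-(m' : ℤ)) → ∀ i, w.valuation K (e.repr x i) ≤ exp (-(m : ℤ))) :=
  (eventually_all_finite (finite_division hd)).2 fun _ hw => cofinal hw e m

section star
variable [StarRing K] [StarRing B] [StarModule K B]

omit [StarRing K] [StarRing B] [StarModule K B] in
theorem ultra_iff {w : Asa.Pl K} : Ultra B w ↔ IsDivisionAt B w := ⟨division_of_ultra, val_add⟩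

omit [StarRing B] [StarModule K B] in
theorem finite_TT (h : 2 ≤ deg K B) : (TT K B).Finite :=
  (finite_division h).subset fun _ hw => ultra_iff.1 hw.2

/-- `T` is stable under conjugation -/
theorem TT_star {w : Asa.Pl K} (hw : w ∈ TT K B) : ∃ w' ∈ TT K B,
    (∀ c : K, w'.valuation K c = w.valuation K (star c)) ∧ ∀ x : B, val w' x = val w (star x) := by
  obtain ⟨w', h⟩ := exists_conj_place starRingAut w
  have h1 : ∀ x : B, val w' x = val w (star x) := fun x => by rw [val, val, h, Nrd_star]; rfl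
  obtain ⟨c, hc⟩ := hw.1
  exact ⟨w', ⟨⟨c, by simpa [h] using hc.symm⟩, fun x y => by simpa only [h1, star_add] using hw.2 _ _⟩, h, h1⟩

theorem Deep_star {m : ℕ} {x : B} (hx : x ∈ Deep K B m) : star x ∈ Deep K B m := fun w hw => by
  obtain ⟨w', h1, -, h2⟩ := TT_star hw
  simpa [h2] using hx w' h1

end star

universe u v w

theorem valStmt : ValStmt.{u, v, w} := fun _ h => ⟨finite_TT h, fun _ => ultra_iff.symm⟩

theorem cofStmt : CofStmt.{u, v, w} := fun D w hw e m => by
  obtain ⟨m', h⟩ := (cofinal (ultra_iff.1 hw) e (m + 1)).exists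
  have h1 : exp (-((m + 1 : ℕ) : ℤ)) < exp (-(m : ℤ)) := by rw [exp_lt_exp]; omega
  exact ⟨⟨m', fun x hx => ((h x).1 hx).trans_lt h1⟩, m', fun x hx i => ((h x).2 hx.le i).trans h1.le⟩

end Crest.Agent.T24.Loc
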