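import Crest.Agent.T24.DefS_26
import Crest.Agent.T24.LocG_59
import Crest.Agent.T24.HnLocD_73

/-!
# Row 24 (helper33): star-stable orders exist; good splittings at almost all split places.
-/

set_option autoImplicit false
set_option linter.unusedSectionVars false

noncomputable section

namespace Crest.Agent.T24

open Module NumberField IsDedekindDomain WithZero Csa Asa Filter Polynomial
open scoped NumberField TensorProduct Valued

universe u v w

namespace SplE

section field
variable {k K : Type*} [Field k] [NumberField k] [Field K] [NumberField K] [Algebra k K]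

theorem exists_nat (c : K) : ∃ n : ℕ, n ≠ 0 ∧ IsIntegral ℤ ((n : K) * c) := by
  have : Algebra.IsAlgebraic ℤ K := (IsFractionRing.comap_isAlgebraic_iff (K := ℚ)).2 inferInstance
  obtain ⟨n, hn, h⟩ := (Algebra.IsAlgebraic.isAlgebraic (R := ℤ) c).exists_integral_multiple
  refine ⟨n.natAbs, by simpa using hn, ?_⟩
  rw [zsmul_eq_mul] at h
  rcases Int.natAbs_eq n with h1 | h1
  · rwa [h1, Int.cast_natCast] at h
  · rw [h1, Int.cast_neg, Int.cast_natCast, neg_mul] at h
    simpa using h.neg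

theorem val_iota_int {v : Pl k} (ι : K →ₐ[k] Kv v) {c : K} (hc : IsIntegral ℤ c) :
    Valued.v (ι c) ≤ 1 :=
  (Valuation.integer.integers (Valued.v (R := Kv v))).mem_of_integral
    (hc.map_of_comp_eq (algebraMap ℤ _) ι.toRingHom (RingHom.ext_int _ _))

theorem val_iota_alg {v : Pl k} (ι : K →ₐ[k] Kv v) (c : k) :
    Valued.v (ι (algebraMap k K c)) = v.valuation k c := by
  rw [ι.commutes, Loc.val_alg]

/-- an element of `K` is integral at almost all embeddings -/
theorem iota_ae (c : K) : ∀ᶠ v : Pl k in cofinite, ∀ ι : K →ₐ[k] Kv v, Valued.v (ι c) ≤ 1 := by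
  obtain ⟨n, hn, h⟩ := exists_nat c
  filter_upwards [Loc.int_ae (n : k)⁻¹] with v hv ι
  have : c = algebraMap k K (n : k)⁻¹ * ((n : K) * c) := by
    have : (n : K) ≠ 0 := by exact_mod_cast hn
    simp [this]
  rw [this, map_mul, map_mul, val_iota_alg]
  exact mul_le_one' hv (val_iota_int ι h)

theorem nat_ae {n : ℕ} (hn : n ≠ 0) : ∀ᶠ v : Pl k in cofinite, (n : 𝓞 k) ∉ v.asIdeal :=
  (finite_ne_one (x := (n : k)) (by exact_mod_cast hn)).subset fun v hv => by
    have h := (v.valuation_lt_one_iff_mem (K := k) n).2 (not_not.1 hv)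
    exact fun h1 => h.ne (by simpa using h1)

theorem val_eq_one {v : Pl k} {c : 𝓞 k} (hc : c ∉ v.asIdeal) : v.valuation k (c : k) = 1 :=
  le_antisymm (val_int v c) (not_lt.1 fun h => hc ((v.valuation_lt_one_iff_mem (K := k) c).1 h))

variable [StarRing K] [Quad k K]

variable (k) in
theorem fixed' {x : K} (hx : star x = x) : ∃ c : k, algebraMap k K c = x :=
  fixed Quad.fr (sig_ne k K) hx

/-- local integrality in `K` is read off from an embedding -/
theorem exists_int {v : Pl k} (ι : K →ₐ[k] Kv v) {c : K} (h1 : Valued.v (ι c) ≤ 1)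
    (h2 : Valued.v (ι (star c)) ≤ 1) :
    ∃ q : 𝓞 k, q ∉ v.asIdeal ∧ IsIntegral ℤ (algebraMap k K q * c) := by
  obtain ⟨t, ht⟩ := fixed' k (x := c + star c) (by rw [star_add, star_star, add_comm])
  obtain ⟨n, hn⟩ := fixed' k (x := c * star c) (by rw [star_mul, star_star])
  obtain ⟨p1, q1, e1⟩ := v.exists_primeCompl_mul_eq_of_integer t (by
    rw [← val_iota_alg ι, ht, map_add]; exact Valuation.map_add_le _ h1 h2)
  obtain ⟨p2, q2, e2⟩ := v.exists_primeCompl_mul_eq_of_integer n (by
    rw [← val_iota_alg ι, hn, map_mul, map_mul]; exact mul_le_one' h1 h2)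
  refine ⟨q1 * q2, (q1 * q2).2, isIntegral_trans (A := 𝓞 k) _
    ⟨X ^ 2 - C (q2 * p1) * X + C (q1 ^ 2 * q2 * p2), by monicity!, ?_⟩⟩
  have f1 := congrArg (algebraMap k K) e1
  have f2 := congrArg (algebraMap k K) e2
  rw [map_mul, ht] at f1
  rw [map_mul, hn] at f2
  simp only [eval₂_add, eval₂_sub, eval₂_mul, eval₂_pow, eval₂_X, eval₂_C, map_mul, map_pow,
    IsScalarTower.algebraMap_apply (𝓞 k) k K]
  rw [← f1, ← f2]
  ring

/-- an embedding of `K` from a root -/
theorem exists_hom {F : Type*} [Field F] [Algebra k F] {u : K} (hu : star u ≠ u) {t n : k}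
    (ht : algebraMap k K t = u + star u) (hn : algebraMap k K n = u * star u) {r : F}
    (hr : r ^ 2 - algebraMap k F t * r + algebraMap k F n = 0) : ∃ ι : K →ₐ[k] F, ι u = r := by
  have := finite_kK k K
  have hi : IsIntegral k u := Algebra.IsIntegral.isIntegral u
  have ht2 : Algebra.adjoin k {u} = ⊤ := by
    have := Subalgebra.isSimpleOrder_of_finrank_prime k K (by rw [Quad.fr]; norm_num)
    refine (eq_bot_or_eq_top _).resolve_left fun h => hu ?_
    obtain ⟨c, hc⟩ := Algebra.mem_bot.1 (h ▸ Algebra.self_mem_adjoin_singleton k u)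
    rw [← hc, Quad.star_k]
  let pb := PowerBasis.ofAdjoinEqTop hi ht2
  have hg : pb.gen = u := PowerBasis.ofAdjoinEqTop_gen hi ht2
  have hm : X ^ 2 - C t * X + C n = minpoly k u := by
    refine minpoly.unique_of_degree_le_degree_minpoly k u (by monicity!) ?_ ?_
    · simp only [map_add, map_sub, map_mul, map_pow, aeval_X, aeval_C, ht, hn]; ring
    · rw [← hg, pb.degree_minpoly, ← pb.finrank, Quad.fr]
      compute_degree!
  refine ⟨pb.lift r ?_, by rw [← hg, pb.lift_gen]⟩
  rw [hg, ← hm]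
  simpa using hr

/-- a split place gives an embedding of `K` into `k_v` -/
theorem hom_of_split {w : Pl K} (hw : Split w) : Nonempty (K →ₐ[k] Kv (below k w)) := by
  obtain ⟨u, hu, h1⟩ : ∃ u : K, u * star u = 1 ∧ w.valuation K u < 1 := by
    obtain ⟨z, hz⟩ := hw
    have h0 : z ≠ 0 := by rintro rfl; simp at hz
    have h0' : star z ≠ 0 := by simpa using h0
    rcases lt_or_gt_of_ne hz with h | h
    · refine ⟨star z / z, by rw [star_div₀, star_star]; field_simp, ?_⟩
      rwa [map_div₀, div_lt_one₀ (zero_lt_iff.2 (val_ne_zero w h0))]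
    · refine ⟨z / star z, by rw [star_div₀, star_star]; field_simp, ?_⟩
      rwa [map_div₀, div_lt_one₀ (zero_lt_iff.2 (val_ne_zero w h0'))]
  have h2 : 1 < w.valuation K (star u) := by
    by_contra h
    have := mul_lt_one_of_lt_of_le h1 (not_lt.1 h)
    rw [← map_mul, hu, map_one] at this
    exact lt_irrefl _ this
  obtain ⟨t, ht⟩ := fixed' k (x := u + star u) (by rw [star_add, star_star, add_comm])
  have h3 : 1 < (below k w).valuation k t := by
    rw [← not_le, ← below_le_one, ht, not_le, Valuation.map_add_eq_of_lt_right _ (h1.trans h2)]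
    exact h2
  have := Loc.proper_adic k (below k w)
  set T := algebraMap k (Kv (below k w)) t with hT
  have h4 : 1 < ‖T‖ := by rwa [Valued.toNormedField.one_lt_norm_iff, hT, Loc.val_alg]
  have h5 : T ≠ 0 := norm_pos_iff.1 (one_pos.trans h4)
  obtain ⟨y, hy⟩ := Hn.Loc.exists_sq_add (c := -(T ^ 2)⁻¹) (by
    rw [norm_neg, norm_inv, norm_pow]
    exact inv_lt_one_of_one_lt₀ (one_lt_pow₀ h4 two_ne_zero))
  obtain ⟨ι, -⟩ := exists_hom (F := Kv (below k w)) (u := u) (fun h => (h1.trans h2).ne' (by rw [h]))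
    ht (n := 1) (by rw [map_one, hu]) (r := -T * y) (by
      rw [map_one, ← hT]
      have : T ^ 2 * (T ^ 2)⁻¹ = 1 := mul_inv_cancel₀ (pow_ne_zero 2 h5)
      linear_combination T ^ 2 * hy - this)
  exact ⟨ι⟩

variable (k K) in
/-- there are infinitely many places with an embedding of `K` -/
theorem exists_hom_notMem (S : Finset (Pl k)) : ∃ v ∉ S, Nonempty (K →ₐ[k] Kv v) := by
  obtain ⟨v, hv, h⟩ := exists_split Quad.fr (sig_ne k K) S
  obtain ⟨P, hP, hl⟩ := Ideal.exists_maximal_ideal_liesOver_of_isIntegral (S := 𝓞 K) v.asIdeal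
  let w : Pl K := ⟨P, hP.isPrime, Ideal.ne_bot_of_liesOver_of_ne_bot v.ne_bot P⟩
  have hw : below k w = v := HeightOneSpectrum.ext hl.over.symm
  exact ⟨v, hv, hw ▸ hom_of_split (h w hw)⟩

variable (k K) in
theorem frequently_hom : ∃ᶠ v : Pl k in cofinite, Nonempty (K →ₐ[k] Kv v) := by
  rw [frequently_cofinite_iff_infinite]
  intro h
  obtain ⟨v, hv, h1⟩ := exists_hom_notMem k K h.toFinset
  exact hv (by simpa using h1)

end field

variable {k K B : Type*} [Field k] [NumberField k] [Field K] [NumberField K] [Algebra k K]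
  [StarRing K] [Quad k K] [Ring B] [StarRing B] [Algebra K B] [StarModule K B]
  [Algebra.IsCentral K B] [IsSimpleRing B] [FiniteDimensional K B] [Algebra k B]
  [IsScalarTower k K B]

variable (k) in
/-- almost everywhere the lattice of a basis is a full matrix ring, for every embedding -/
theorem spl_ae {J : Type*} [Fintype J] (e : Basis J K B) : ∀ᶠ v : Pl k in cofinite,
    ∀ ι : K →ₐ[k] Kv v, ∃ s : Spl K B v, s.ι = ι ∧ ∀ (c : J → Kv v) (γ : ℤᵐ⁰),
      (∀ l, Valued.v (c l) ≤ γ) ↔ ∀ i j, Valued.v ((∑ l, c l • s.ψ (e l)) i j) ≤ γ := by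
  obtain ⟨g, hg⟩ := Loc.exists_dual e
  filter_upwards [eventually_all.2 fun p : J × J × J => iota_ae (e.repr (e p.1 * e p.2.1) p.2.2),
    eventually_all.2 fun p : J × J => iota_ae (e.repr (g p.1) p.2)] with v h1 h2 ι
  have := Loc.proper_adic k v
  have := Loc.charZero_adic k v
  let F := Kv v
  let _ : Algebra K F := (ι : K →+* F).toAlgebra
  have := isSimpleRing_tensor (K := K) (A := F) (B := B)
  have := isCentral_tensor (K := K) (F := F) (A := F) (B := B)
  let φ : B →ₐ[K] F ⊗[K] B := Algebra.TensorProduct.includeRight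
  have hφ : ∀ c, φ (algebraMap K B c) = algebraMap F _ (algebraMap K F c) := fun c =>
    (φ.commutes c).trans (IsScalarTower.algebraMap_apply _ _ _ _)
  have hr : finrank F (F ⊗[K] B) = finrank K B := Module.finrank_baseChange
  let e' := mapBasis e φ.toRingHom hr
  have he : ∀ i, e' i = φ (e i) := mapBasis_apply _ _ _
  have he' : ∀ x i, e'.repr (φ x) i = algebraMap K F (e.repr x i) :=
    mapBasis_repr e φ.toRingHom hr _ hφ
  have hU : Loc.Unim e' := ⟨fun i j l => by
      rw [he, he, ← map_mul, he', Valued.toNormedField.norm_le_one_iff]; exact h1 (i, j, l) ι,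
    fun i => φ (g i), fun i l => by
      rw [he', Valued.toNormedField.norm_le_one_iff]; exact h2 (i, l) ι, fun x => by
      have : LinearMap.id = ∑ i, (Trd F ∘ₗ LinearMap.mulRight F (e' i)).smulRight (φ (g i)) :=
        e'.ext fun l => by
          rw [LinearMap.id_apply, he, LinearMap.sum_apply]
          conv_lhs => rw [hg (e l), map_sum]
          refine Finset.sum_congr rfl fun i _ => ?_
          rw [map_smul, ← algebraMap_smul F, ← Trd_map _ φ.toRingHom hφ hr]
          simp [he]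
      simpa using LinearMap.congr_fun this x⟩
  obtain ⟨ψ, hψ⟩ := hU.split (v.adicCompletionIntegers k) (Loc.mem_int_iff v)
    (hr.trans (finrank_eq_deg_sq K B))
  refine ⟨⟨ι, (ψ : F ⊗[K] B →+* _).comp φ.toRingHom, fun c => ?_⟩, rfl, fun c γ => ?_⟩
  · exact (congrArg ψ (hφ c)).trans (ψ.commutes _)
  obtain ⟨a, rfl⟩ := v.valuedAdicCompletion_surjective k γ
  have := hψ (∑ l, c l • e' l) ‖a‖ (norm_nonneg _)
  simp only [Basis.repr_sum_self] at this
  simp only [Valued.toNormedField.norm_le_iff, map_sum, map_smul, he] at this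
  exact this

theorem psi_smul {v : Pl k} (s : Spl K B v) (c : K) (x : B) : s.ψ (c • x) = s.ι c • s.ψ x := by
  rw [Algebra.smul_def, map_mul, s.compat, ← Algebra.smul_def]

theorem psi_sum {v : Pl k} (s : Spl K B v) {J : Type*} [Fintype J] (e : Basis J K B) (x : B) :
    s.ψ x = ∑ l, s.ι (e.repr x l) • s.ψ (e l) := by
  simp only [← psi_smul, ← map_sum, e.sum_repr]

variable (K B) in
/-- star-stable orders exist -/
theorem exists_ord : Nonempty (Ord K B) := by
  classical
  let e := finBasis K B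
  let R : Subring K := (integralClosure ℤ K).toSubring
  let M := Algebra.leftMulMatrix e
  let P : Subring B := (Subring.matrix R).comap M.toRingHom
  have hP : ∀ x, x ∈ P ↔ ∀ i j, IsIntegral ℤ (M x i j) := fun x => Iff.rfl
  have hden : ∀ x : B, ∃ n : ℕ, n ≠ 0 ∧ (n : B) * x ∈ P := fun x => by
    choose n hn h using fun p : _ × _ => exists_nat (M x p.1 p.2)
    refine ⟨∏ p, n p, Finset.prod_ne_zero_iff.2 fun p _ => hn p, (hP _).2 fun i j => ?_⟩
    rw [← nsmul_eq_mul, map_nsmul, Matrix.smul_apply, nsmul_eq_mul,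
      ← Finset.prod_erase_mul _ _ (Finset.mem_univ (i, j)), Nat.cast_mul, mul_assoc]
    exact (isIntegral_natCast _).mul (h (i, j))
  have hint : ∀ c : K, IsIntegral ℤ c → algebraMap K B c ∈ P := fun c hc => (hP _).2 fun i j => by
    rw [AlgHom.commutes, Matrix.algebraMap_matrix_apply]
    split_ifs
    · exact hc
    · exact isIntegral_zero
  let O : Subring B :=
    { carrier := {x | x ∈ P ∧ star x ∈ P}
      one_mem' := ⟨P.one_mem, by simp⟩
      zero_mem' := ⟨P.zero_mem, by simp⟩
      mul_mem' := fun ha hb => ⟨P.mul_mem ha.1 hb.1, by rw [star_mul]; exact P.mul_mem hb.2 ha.2⟩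
      add_mem' := fun ha hb => ⟨P.add_mem ha.1 hb.1, by rw [star_add]; exact P.add_mem ha.2 hb.2⟩
      neg_mem' := fun ha => ⟨P.neg_mem ha.1, by rw [star_neg]; exact P.neg_mem ha.2⟩ }
  refine ⟨⟨O, fun x hx => ⟨hx.2, by rw [star_star]; exact hx.1⟩, ?_, fun x => ?_, fun c => ?_⟩⟩
  · let f : O.toAddSubgroup →+ Matrix _ _ (𝓞 K) :=
      { toFun := fun x => Matrix.of fun i j => ⟨M x i j, (hP _).1 x.2.1 i j⟩
        map_zero' := Matrix.ext fun i j => Subtype.ext (show M 0 i j = 0 by simp)
        map_add' := fun x y =>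
          Matrix.ext fun i j => Subtype.ext (show M (x + y) i j = M x i j + M y i j by simp) }
    have hf : Function.Injective f := fun x y h => Subtype.ext <|
      Algebra.leftMulMatrix_injective e <| Matrix.ext fun i j =>
        congrArg Subtype.val (congrFun (congrFun h i) j)
    have : Module.Finite ℤ O.toAddSubgroup := Module.Finite.of_injective f.toIntLinearMap hf
    exact (AddGroup.fg_iff_addSubgroup_fg _).1 (Module.Finite.iff_addGroup_fg.1 this)
  · obtain ⟨n, hn, h1⟩ := hden x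
    obtain ⟨m, hm, h2⟩ := hden (star x)
    refine ⟨m * n, mul_ne_zero hm hn, ?_, ?_⟩
    · rw [Nat.cast_mul, mul_assoc]; exact P.mul_mem (natCast_mem P m) h1
    · rw [← nsmul_eq_mul, star_nsmul, nsmul_eq_mul, mul_comm m, Nat.cast_mul, mul_assoc]
      exact P.mul_mem (natCast_mem P n) h2
  · exact ⟨hint _ c.2, by
      rw [star_algebraMap]; exact hint _ (c.2.map (starRingEnd K).toIntAlgHom)⟩

theorem alg_mem_At (Λ : Ord K B) {v : Pl k} (ι : K →ₐ[k] Kv v) {c : K} (h1 : Valued.v (ι c) ≤ 1)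
    (h2 : Valued.v (ι (star c)) ≤ 1) : algebraMap K B c ∈ Λ.At v := by
  obtain ⟨q, hq, h⟩ := exists_int ι h1 h2
  refine ⟨q, hq, ?_⟩
  have : algebraMap K B (algebraMap k K q * c) ∈ Λ.O := Λ.int ⟨_, h⟩
  rwa [map_mul, ← Algebra.smul_def, algebraMap_smul] at this

variable (k) in
theorem mem_At_ae (Λ : Ord K B) (x : B) : ∀ᶠ v : Pl k in cofinite, x ∈ Λ.At v := by
  obtain ⟨n, hn, h⟩ := Λ.den x
  filter_upwards [nat_ae hn] with v hv
  exact ⟨n, hv, by simpa [Nat.cast_smul_eq_nsmul, nsmul_eq_mul] using h⟩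

variable (k) in
/-- almost everywhere an order is the lattice of a given basis -/
theorem At_ae (Λ : Ord K B) {J : Type*} [Fintype J] (e : Basis J K B) : ∀ᶠ v : Pl k in cofinite,
    ∀ (ι : K →ₐ[k] Kv v) (x : B), x ∈ Λ.At v ↔
      (∀ l, Valued.v (ι (e.repr x l)) ≤ 1) ∧ ∀ l, Valued.v (ι (e.repr (star x) l)) ≤ 1 := by
  obtain ⟨G, hG⟩ := Λ.fg
  filter_upwards [(eventually_all_finset G).2 fun g _ => eventually_all.2 fun l =>
      iota_ae (e.repr g l), eventually_all.2 fun l => mem_At_ae k Λ (e l),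
    eventually_all.2 fun p : J × J => iota_ae (star (e.repr (star (e p.1)) p.2))] with v h1 h2 h3 ι
  have hO : ∀ y ∈ Λ.O, ∀ l, Valued.v (ι (e.repr y l)) ≤ 1 := fun y hy l => by
    have hy' : y ∈ AddSubgroup.closure (G : Set B) := hG ▸ hy
    clear hy
    induction hy' using AddSubgroup.closure_induction with
    | mem x hx => exact h1 x hx l ι
    | zero => simp
    | add x y hx hy ix iy =>
      rw [map_add, Finsupp.add_apply, map_add]
      exact Valuation.map_add_le _ ix iy
    | neg x hx ix =>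
      rw [map_neg, Finsupp.neg_apply, map_neg, Valuation.map_neg]; exact ix
  have hA : ∀ y ∈ Λ.At v, ∀ l, Valued.v (ι (e.repr y l)) ≤ 1 := fun y ⟨c, hc, hy⟩ l => by
    have := hO _ hy l
    rwa [← algebraMap_smul K, map_smul, Finsupp.smul_apply, smul_eq_mul, map_mul, map_mul,
      val_iota_alg, val_eq_one hc, one_mul] at this
  refine fun x => ⟨fun h => ⟨hA _ h, hA _ (Λ.star_mem_At v h)⟩, fun ⟨g1, g2⟩ => ?_⟩
  rw [← e.sum_repr x]
  refine Subring.sum_mem _ fun l _ => ?_
  rw [Algebra.smul_def]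
  refine Subring.mul_mem _ (alg_mem_At Λ ι (g1 l) ?_) (h2 l)
  have : star (e.repr x l) = ∑ j, e.repr (star x) j * star (e.repr (star (e j)) l) := by
    conv_lhs => rw [← star_star x, ← e.sum_repr (star x), star_sum, map_sum, Finsupp.finsetSum_apply,
      star_sum]
    simp [star_smul]
  rw [this, map_sum]
  refine Valuation.map_sum_le _ fun j _ => ?_
  rw [map_mul, map_mul]
  exact mul_le_one' (g2 j) (h3 (j, l) ι)

variable (k) in
/-- **at almost all places every embedding extends to a good splitting** -/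
theorem good_ae (Λ : Ord K B) : ∀ᶠ v : Pl k in cofinite,
    ∀ ι : K →ₐ[k] Kv v, ∃ s : Spl K B v, s.ι = ι ∧ s.Good Λ := by
  filter_upwards [spl_ae k (finBasis K B), At_ae k Λ (finBasis K B)] with v h1 h2 ι
  obtain ⟨s, rfl, hs⟩ := h1 ι
  refine ⟨s, rfl, fun x => ?_⟩
  rw [h2 s.ι, hs _ 1, hs _ 1, ← psi_sum, ← psi_sum]
  rfl

variable (k) in
theorem frequently_good (Λ : Ord K B) : ∃ᶠ v : Pl k in cofinite, ∃ s : Spl K B v, s.Good Λ :=
  ((frequently_hom k K).and_eventually (good_ae k Λ)).mono fun _ ⟨⟨ι⟩, h⟩ =>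
    (h ι).imp fun _ hs => hs.2

variable (k K B) in
theorem splEx : SplEx k K B := ⟨exists_ord K B, fun Λ S => by
  obtain ⟨v, h1, h2⟩ := ((frequently_good k Λ).and_eventually S.eventually_cofinite_notMem).exists
  exact ⟨v, h2, h1⟩⟩

end SplE

theorem splExStmt : SplExStmt.{u, v, w} := fun D => SplE.splEx D.k D.K D.B

end Crest.Agent.T24
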