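import Crest.Agent.T24.DefS_26
import Crest.Agent.T24.LocG_59

/-!
# Row 24: depth at `T` is the `k_v`-topology, and the local groups at `T` are compact.
-/

set_option autoImplicit false
set_option linter.unusedSectionVars false

noncomputable section

namespace Crest.Agent.T24

open Module NumberField IsDedekindDomain WithZero Csa Asa Topology Filter
open scoped NumberField TensorProduct Valued

universe u v w

namespace TL31

section Quadr
variable (k K : Type*) [Field k] [NumberField k] [Field K] [NumberField K] [Algebra k K]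
  [StarRing K] [Quad k K]

/-- an integral element of trace zero and the basis `1, δ` -/
theorem exists_basis : ∃ (δ : K) (b : Basis (Fin 2) k K), δ ≠ 0 ∧ star δ = -δ ∧
    (∀ w : Pl K, w.valuation K δ ≤ 1) ∧
    ∀ c : K, c = algebraMap k K (b.repr c 0) + algebraMap k K (b.repr c 1) * δ := by
  obtain ⟨c, hc⟩ := Quad.ne (k := k) (K := K)
  have halg : IsAlgebraic ℤ (c - star c) :=
    (IsFractionRing.isAlgebraic_iff ℤ ℚ K).2 (Algebra.IsAlgebraic.isAlgebraic _)
  obtain ⟨y, hy, hi⟩ := halg.exists_integral_multiple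
  set δ : K := y • (c - star c) with hδ
  have h0 : δ ≠ 0 := smul_ne_zero hy (sub_ne_zero.2 hc.symm)
  have hs : star δ = -δ := by
    rw [hδ, star_zsmul, star_sub, star_star, ← smul_neg, neg_sub]
  have hli : LinearIndependent k ![(1 : K), δ] := by
    rw [LinearIndependent.pair_iff]
    intro s t h
    have h1 := congrArg star h
    rw [star_add, Algebra.smul_def, Algebra.smul_def, star_mul', star_mul', Quad.star_k, Quad.star_k,
      star_one, hs, star_zero] at h1
    rw [Algebra.smul_def, Algebra.smul_def] at h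
    have h2 : algebraMap k K s = 0 := by linear_combination (1 / 2 : K) * (h + h1)
    have h3 : algebraMap k K t * δ = 0 := by linear_combination (1 / 2 : K) * (h - h1)
    exact ⟨by simpa using h2, by simpa [h0] using h3⟩
  let b := basisOfLinearIndependentOfCardEqFinrank hli (by rw [Quad.fr (k := k) (K := K)]; simp)
  refine ⟨δ, b, h0, hs, fun w => val_int w (⟨δ, hi⟩ : 𝓞 K), fun x => ?_⟩
  conv_lhs => rw [← b.sum_repr x]
  simp [b, Fin.sum_univ_two, Algebra.smul_def]

variable {k K}

theorem below_conj {w w' : Pl K} (h : ∀ c : K, w'.valuation K c = w.valuation K (star c)) :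
    below k w' = below k w := by
  ext a
  have h1 := below_lt_one (k := k) w' (a : k)
  have h2 := below_lt_one (k := k) w (a : k)
  rw [h, Quad.star_k, h2] at h1
  rw [← HeightOneSpectrum.valuation_lt_one_iff_mem (K := k),
    ← HeightOneSpectrum.valuation_lt_one_iff_mem (K := k)]
  exact h1.symm

theorem below_le (w : Pl K) (a p : k) : w.valuation K (algebraMap k K a) ≤ w.valuation K (algebraMap k K p) ↔
    (below k w).valuation k a ≤ (below k w).valuation k p := by
  obtain ⟨e, he, h⟩ := val_below (k := k) w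
  rw [h, h, pow_le_pow_iff_left₀ zero_le zero_le he]

end Quadr

variable (k K B : Type*) [Field k] [NumberField k] [Field K] [NumberField K] [Algebra k K]
  [StarRing K] [Quad k K] [Ring B] [StarRing B] [Algebra K B] [StarModule K B]
  [Algebra.IsCentral K B] [IsSimpleRing B] [FiniteDimensional K B] [Algebra k B]
  [IsScalarTower k K B]

theorem crd_inc {R : Type*} [CommRing R] [Algebra k R] [TopologicalSpace R] [IsTopologicalRing R]
    {ι : Type*} [Finite ι] (e : Basis ι k B) (x : B) (i : ι) :
    BC.crd k K B R e (BC.inc k K B R x) i = algebraMap k R (e.repr x i) := by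
  change (Algebra.TensorProduct.basis R e).repr ((1 : R) ⊗ₜ[k] x) i = _
  rw [Algebra.TensorProduct.basis_repr_tmul]; simp

/-- rational points are dense in the local algebra -/
theorem dense_inc (v : Pl k) : DenseRange (BC.inc k K B (Kv v)) := by
  have := finite_kB k K B
  let e := finBasis k B
  have h1 : DenseRange (Pi.map fun _ : Fin (finrank k B) => algebraMap k (Kv v)) :=
    DenseRange.piMap fun _ => HeightOneSpectrum.denseRange_algebraMap k v
  have h2 := (BC.crd k K B (Kv v) e).symm.surjective.denseRange.comp h1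
    (BC.crd k K B (Kv v) e).symm.continuous
  refine h2.mono ?_
  rintro _ ⟨a, rfl⟩
  refine ⟨e.equivFun.symm a, ?_⟩
  rw [Function.comp_apply, ContinuousLinearEquiv.eq_symm_apply]
  funext i
  rw [crd_inc, Pi.map_apply]
  congr 1
  exact congrFun (e.equivFun.apply_symm_apply a) i

/-- the comparison of coordinates over `k` at `v` and reduced norms at the places of `T` over `v` -/
theorem exists_crd (hd : 2 ≤ deg K B) : ∃ (ι : Type) (_ : Fintype ι) (E : Basis ι k B), ∀ (v : Pl k) (m : ℕ),
    (∃ m' : ℕ, ∀ x : B, (∀ i, v.valuation k (E.repr x i) ≤ exp (-(m' : ℤ))) →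
      ∀ w ∈ TT K B, below k w = v → val w x < exp (-(m : ℤ))) ∧
    (v ∈ Tk k K B → ∃ m' : ℕ, ∀ x : B, (∀ w ∈ TT K B, below k w = v → val w x ≤ exp (-(m' : ℤ))) →
      ∀ i, v.valuation k (E.repr x i) ≤ exp (-(m : ℤ))) := by
  obtain ⟨δ, b, h0, hs, hi, hb⟩ := exists_basis k K
  let e := finBasis K B
  refine ⟨_, inferInstance, b.smulTower e, fun v m => ⟨?_, ?_⟩⟩
  · obtain ⟨m', hm⟩ := (Loc.cofinal_all hd e (m + 1)).exists
    refine ⟨m', fun x hx w hw hv => ?_⟩
    refine lt_of_le_of_lt ((hm w (Loc.ultra_iff.1 hw.2) x).1 fun i => ?_) (by rw [exp_lt_exp]; omega)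
    subst hv
    rw [hb (e.repr x i)]
    have h1 := hx (0, i)
    have h2 := hx (1, i)
    rw [Basis.smulTower_repr] at h1 h2
    refine Valuation.map_add_le _ (below_le_exp w _ _ h1) ?_
    rw [map_mul]
    exact (mul_le_of_le_one_right' (hi w)).trans (below_le_exp w _ _ h2)
  · rintro ⟨w, hw, rfl⟩
    obtain ⟨w', hw', h1, -⟩ := Loc.TT_star hw
    obtain ⟨p, hp⟩ := (below k w).valuation_surjective k (exp (-(m : ℤ)))
    have hp0 : p ≠ 0 := fun h => exp_ne_zero (by rw [← hp, h, map_zero])
    have h2 : (2 * δ : K) ≠ 0 := mul_ne_zero two_ne_zero h0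
    obtain ⟨m₁, hm₁⟩ := exists_exp_le (val_ne_zero w (x := 2 * δ * algebraMap k K p)
      (mul_ne_zero h2 (by simpa using hp0)))
    obtain ⟨m', hm⟩ := (Loc.cofinal_all hd e m₁).exists
    refine ⟨m', fun x hx ij => ?_⟩
    have h3 := (hm w (Loc.ultra_iff.1 hw.2) x).2 (hx w hw rfl) ij.2
    have h4 := (hm w' (Loc.ultra_iff.1 hw'.2) x).2 (hx w' hw' (below_conj h1)) ij.2
    rw [h1] at h4
    rw [Basis.smulTower_repr, ← hp, ← below_le]
    set c := e.repr x ij.2
    have h5 := hb c
    have h6 := congrArg star h5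
    rw [star_add, star_mul', Quad.star_k, Quad.star_k, hs] at h6
    have key : ∀ a : K, w.valuation K (2 * δ * a) ≤ exp (-(m₁ : ℤ)) →
        w.valuation K a ≤ w.valuation K (algebraMap k K p) := fun a ha => by
      have := ha.trans hm₁
      rw [map_mul _ _ a, map_mul _ _ (algebraMap k K p)] at this
      exact le_of_mul_le_mul_left this (zero_lt_iff.2 (val_ne_zero w h2))
    refine key _ ?_
    obtain ⟨j, i⟩ := ij
    fin_cases j
    · have : 2 * δ * algebraMap k K (b.repr c 0) = δ * (c + star c) := by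
        linear_combination (-δ) * (h5 + h6)
      simp only [Fin.zero_eta]
      rw [this, map_mul]
      exact (mul_le_of_le_one_left' (hi w)).trans (Valuation.map_add_le _ h3 h4)
    · have : 2 * δ * algebraMap k K (b.repr c 1) = c - star c := by
        linear_combination -(h5 - h6)
      simp only [Fin.mk_one]
      rw [this]
      exact Valuation.map_sub_le _ h3 h4

/-- boxes are a basis of neighbourhoods of `0` in the local algebra -/
theorem nhds_box (v : Pl k) {ι : Type*} [Fintype ι] (E : Basis ι k B) :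
    (𝓝 (0 : BC k K B (Kv v))).HasBasis (fun _ => True) fun m : ℕ =>
      {y | ∀ i, Valued.v (BC.crd k K B (Kv v) E y i) ≤ exp (-(m : ℤ))} := by
  obtain ⟨t, h0, h1, h2⟩ := Loc.exists_exp v
  have h3 := (Metric.nhds_basis_closedBall_pow (x := (0 : ι → Kv v)) h0 h1).comap
    (BC.crd k K B (Kv v) E)
  have h4 := (BC.crd k K B (Kv v) E).toHomeomorph.isInducing.nhds_eq_comap 0
  simp only [ContinuousLinearEquiv.coe_toHomeomorph, map_zero] at h4
  rw [h4]
  convert h3 using 2 with m
  ext y
  simp only [Set.mem_ofPred_eq, h2, Set.mem_preimage, mem_closedBall_zero_iff]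
  exact (pi_norm_le_iff_of_nonneg (by positivity)).symm

/-- near an element of reduced norm one, rational points have integral reduced norms over `v` -/
theorem near_int (v : Pl k) (u : BC k K B (Kv v)) (hu : nrd k K B (Kv v) u = 1) :
    ∃ W ∈ 𝓝 u, ∀ x : B, BC.inc k K B (Kv v) x ∈ W → ∀ w : Pl K, below k w = v → val w x ≤ 1 := by
  obtain ⟨δ, b, h0, hs, hi, hb⟩ := exists_basis k K
  obtain ⟨g, hg⟩ := LinearMap.exists_leftInverse_of_injective (Algebra.linearMap K (AlgebraicClosure K))
    (LinearMap.ker_eq_bot.2 (algebraMap K (AlgebraicClosure K)).injective)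
  have hg' : ∀ c : K, g (algebraMap K _ c) = c := fun c => LinearMap.congr_fun hg c
  let l : Fin 2 → Kv v ⊗[k] AlgebraicClosure K →ₗ[Kv v] Kv v := fun j =>
    (TensorProduct.AlgebraTensorModule.rid k (Kv v) (Kv v)).toLinearMap ∘ₗ
      ((b.coord j) ∘ₗ (g.restrictScalars k)).baseChange (Kv v)
  have hl : ∀ j (c : K), l j ((1 : Kv v) ⊗ₜ[k] algebraMap K (AlgebraicClosure K) c) =
      algebraMap k (Kv v) (b.repr c j) := fun j c => by
    rw [Algebra.algebraMap_eq_smul_one (b.repr c j)]
    simp [l, hg']
  have h1 : ∀ j, ∀ᶠ y in 𝓝 u, ‖l j (nrd k K B (Kv v) y) - l j (nrd k K B (Kv v) u)‖ ≤ 1 := fun j => by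
    have := (continuous_nrd k K B (Kv v) (l j)).continuousAt (x := u)
    filter_upwards [this (Metric.closedBall_mem_nhds _ one_pos)] with y hy
    simpa [dist_eq_norm] using hy
  refine ⟨_, (h1 0).and (h1 1), fun x hx w hw => ?_⟩
  subst hw
  have h2 : ∀ j, ‖l j (nrd k K B (Kv (below k w)) (BC.inc k K B (Kv (below k w)) x)) -
      l j (nrd k K B (Kv (below k w)) u)‖ ≤ 1 →
      w.valuation K (algebraMap k K (b.repr (Nrd K x - 1) j)) ≤ 1 := fun j hj => by
    have h3 : (1 : Kv (below k w) ⊗[k] AlgebraicClosure K) =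
        (1 : Kv (below k w)) ⊗ₜ[k] algebraMap K (AlgebraicClosure K) 1 := by rw [map_one]; rfl
    rw [nrd_inc, hu, h3, hl, hl, ← map_sub, Valued.toNormedField.norm_le_one_iff, Loc.val_alg] at hj
    rw [below_le_one]
    simpa using hj
  have h4 : w.valuation K (Nrd K x - 1) ≤ 1 := by
    rw [hb (Nrd K x - 1)]
    refine Valuation.map_add_le _ (h2 0 hx.1) ?_
    rw [map_mul]
    exact mul_le_one' (h2 1 hx.2) (hi w)
  have := Valuation.map_add_le (w.valuation K) h4 (map_one (w.valuation K)).le
  rwa [sub_add_cancel] at this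

/-- at an anisotropic place the elements of reduced norm one form a compact set -/
theorem isCompact_nrd (hd : 2 ≤ deg K B) {v : Pl k} (hv : v ∈ Tk k K B) :
    IsCompact {u : BC k K B (Kv v) | nrd k K B (Kv v) u = 1} := by
  have := Loc.proper_adic k v
  obtain ⟨ι, _, E, hE⟩ := exists_crd k K B hd
  obtain ⟨m, hm⟩ := (hE v 0).2 hv
  obtain ⟨p, hp⟩ := v.valuation_surjective k (exp (-(m : ℤ)))
  have hp0 : p ≠ 0 := fun h => exp_ne_zero (by rw [← hp, h, map_zero])
  have hp1 : 0 < ‖algebraMap k (Kv v) p‖ := norm_pos_iff.2 (by simpa using hp0)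
  have hC : IsCompact (BC.crd k K B (Kv v) E ⁻¹' Metric.closedBall 0 ‖algebraMap k (Kv v) p‖⁻¹) :=
    (BC.crd k K B (Kv v) E).toHomeomorph.isCompact_preimage.2 (isCompact_closedBall _ _)
  refine hC.of_isClosed_subset (isClosed_nrd k K B (Kv v) 1) fun u hu => ?_
  obtain ⟨W, hW, h1⟩ := near_int k K B v u hu
  rw [← hC.isClosed.closure_eq, mem_closure_iff_nhds]
  intro t ht
  obtain ⟨x, hx⟩ := (dense_inc k K B v).mem_nhds (inter_mem ht hW)
  refine ⟨_, hx.1, ?_⟩
  rw [Set.mem_preimage, mem_closedBall_zero_iff, pi_norm_le_iff_of_nonneg (by positivity)]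
  intro i
  have h2 := hm (p • x) (fun w _ hw => ?_) i
  · rw [map_smul, Finsupp.smul_apply, smul_eq_mul, ← Loc.val_alg, Nat.cast_zero, neg_zero, exp_zero,
      ← Valued.toNormedField.norm_le_one_iff, map_mul, norm_mul] at h2
    rw [crd_inc, ← one_div, le_div_iff₀' hp1]
    exact h2
  · have h3 := h1 x hx.2 w hw
    have h4 : w.valuation K (algebraMap k K p) ≤ exp (-(m : ℤ)) := below_le_exp w p m (by rw [hw, hp])
    rw [val, ← algebraMap_smul K p x, Nrd_smul, map_mul, map_pow]
    refine (mul_le_of_le_one_right' h3).trans (le_trans ?_ h4)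
    exact pow_le_of_le_one zero_le (h4.trans (exp_neg_le_one m)) (deg_pos K B).ne'

theorem compact_SUc (hd : 2 ≤ deg K B) {v : Pl k} (hv : v ∈ Tk k K B) :
    CompactSpace (SUc k K B (Kv v)) :=
  isCompact_iff_compactSpace.1
    ((isClosed_unitary (R := BC k K B (Kv v))).isClosedEmbedding_subtypeVal.isCompact_preimage
      (isCompact_nrd k K B hd hv))

theorem tLink (hd : 2 ≤ deg K B) : TLink k K B := fun v hv => by
  obtain ⟨ι, _, E, hE⟩ := exists_crd k K B hd
  refine ⟨compact_SUc k K B hd hv, fun V hV => ?_, fun m => ?_⟩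
  · obtain ⟨m, -, hm⟩ := (nhds_box k K B v E).mem_iff.1 hV
    obtain ⟨m', h⟩ := (hE v m).2 hv
    refine ⟨m', fun x hx => hm fun i => ?_⟩
    rw [crd_inc, Loc.val_alg]
    exact h x (fun w h1 h2 => (hx w h1 h2).le) i
  · obtain ⟨m', h⟩ := (hE v m).1
    refine ⟨_, (nhds_box k K B v E).mem_of_mem (i := m') trivial, fun x hx => h x fun i => ?_⟩
    have := hx i
    rwa [crd_inc, Loc.val_alg] at this

theorem finite_Tk (hd : 2 ≤ deg K B) : (Tk k K B).Finite :=
  ((Loc.finite_TT hd).image (below k)).subset fun _ h => h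

variable {K B} in
/-- the conjugate of an anisotropic place -/
theorem exists_conj {w : Pl K} (hw : w ∈ TT K B) : ∃ w' ∈ TT K B, w' ≠ w ∧ below k w' = below k w ∧
    (∀ c : K, w'.valuation K c = w.valuation K (star c)) ∧ ∀ x : B, val w' x = val w (star x) := by
  obtain ⟨w', h1, h2, h3⟩ := Loc.TT_star hw
  refine ⟨w', h1, ?_, below_conj h2, h2, h3⟩
  rintro rfl
  obtain ⟨c, hc⟩ := hw.1
  exact hc (h2 c).symm

variable {K B} in
/-- the completion of `k` embeds in the completion of `K` -/
theorem exists_lift (w : Pl K) : ∃ j : Kv (below k w) →+* Kv w, Continuous j ∧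
    ∀ x : k, j (algebraMap k _ x) = algebraMap K _ (algebraMap k K x) := by
  let _ : PseudoMetricSpace k := PseudoMetricSpace.induced (algebraMap k (Kv (below k w))) inferInstance
  have ue : IsUniformInducing (algebraMap k (Kv (below k w))) := ⟨rfl⟩
  have dr := (below k w).denseRange_algebraMap k
  have hf : UniformContinuous ((algebraMap K (Kv w)).comp (algebraMap k K)) := by
    rw [Metric.uniformContinuous_iff]
    intro ε hε
    obtain ⟨t, h0, h1, h2⟩ := Loc.exists_exp w
    obtain ⟨t', h0', -, h2'⟩ := Loc.exists_exp (below k w)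
    obtain ⟨m, hm⟩ := exists_pow_lt_of_lt_one hε h1
    refine ⟨t' ^ m, by positivity, fun {a b} hab => ?_⟩
    change dist (algebraMap k (Kv (below k w)) a) (algebraMap k _ b) < _ at hab
    rw [dist_eq_norm, ← map_sub] at hab ⊢
    refine lt_of_le_of_lt ((h2 _ m).1 ?_) hm
    rw [RingHom.comp_apply, Loc.val_alg]
    refine below_le_exp w _ m ?_
    rw [← Loc.val_alg]
    exact (h2' _ m).2 hab.le
  exact ⟨IsDenseInducing.extendRingHom ue dr hf,
    (uniformContinuous_uniformly_extend ue dr hf).continuous,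
    fun x => (ue.isDenseInducing dr).extend_eq hf.continuous x⟩

variable {K} in
/-- the two `k`-embeddings of `K` in a `K`-field -/
theorem hom_cases {L : Type*} [Field L] [Algebra K L] (f : K →+* L)
    (hf : ∀ x : k, f (algebraMap k K x) = algebraMap K L (algebraMap k K x)) :
    (∀ c, f c = algebraMap K L c) ∨ ∀ c, f (star c) = algebraMap K L c := by
  obtain ⟨δ, b, h0, hs, -, hb⟩ := exists_basis k K
  obtain ⟨a, ha⟩ := fixed (Quad.fr (k := k) (K := K)) (sig_ne k K) (x := δ * δ)
    (by rw [sig_apply, star_mul', hs]; ring)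
  have h1 : f δ * f δ = algebraMap K L δ * algebraMap K L δ := by
    rw [← map_mul, ← map_mul, ← ha, hf]
  rcases mul_self_eq_mul_self_iff.1 h1 with h | h
  · refine Or.inl fun c => ?_
    rw [hb c, map_add, map_mul, map_add, map_mul, hf, hf, h]
  · refine Or.inr fun c => ?_
    rw [hb c, star_add, star_mul', Quad.star_k, Quad.star_k, hs, map_add, map_mul, map_add, map_mul, hf,
      hf, map_neg, h, neg_neg]

variable {k K B} in
/-- over a place with a splitting no place of `K` is a division place -/
theorem not_division (hd : 2 ≤ deg K B) {w : Pl K} (s : Spl K B (below k w)) :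
    ¬ Crest.NumberTheoryR.UnitaryMP.IsDivisionAt B w := by
  obtain ⟨j, -, hj⟩ := exists_lift k w
  have hd' : finrank K B = deg K B ^ 2 := by simpa using (sp_card (K := K) (B := B))
  have h1 : ∀ c : K, j.mapMatrix (s.ψ (algebraMap K B c)) =
      algebraMap (Kv w) (Matrix (Fin (deg K B)) (Fin (deg K B)) (Kv w)) (j (s.ι c)) := fun c => by
    rw [s.compat]
    ext a b
    by_cases h : a = b <;> simp [Matrix.algebraMap_matrix_apply, h]
  rcases hom_cases k (j.comp (s.ι : K →+* Kv (below k w))) (fun x => by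
    rw [RingHom.comp_apply, RingHom.coe_coe, AlgHom.commutes, hj]) with h | h
  · refine Loc.not_division_of_split hd' hd
      { j.mapMatrix.comp s.ψ with commutes' := fun c => ?_ }
    change j.mapMatrix (s.ψ (algebraMap K B c)) = _
    rw [h1, IsScalarTower.algebraMap_apply K (Kv w), ← h]; rfl
  · refine Loc.not_division_of_split hd' hd
      { toFun := fun x => (j.mapMatrix (s.ψ (star x))).transpose
        map_one' := by simp
        map_mul' := fun x y => by rw [star_mul, map_mul, map_mul, Matrix.transpose_mul]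
        map_zero' := by simp
        map_add' := fun x y => by rw [star_add, map_add, map_add, Matrix.transpose_add]
        commutes' := fun c => ?_ }
    rw [star_algebraMap, h1, IsScalarTower.algebraMap_apply K (Kv w), ← h]
    ext a b
    by_cases hab : a = b
    · simp [Matrix.algebraMap_matrix_apply, hab]
    · simp [Matrix.algebraMap_matrix_apply, hab, Ne.symm hab]

end TL31

section
variable {k K B : Type*} [Field k] [NumberField k] [Field K] [NumberField K] [Algebra k K]
  [StarRing K] [Quad k K] [Ring B] [StarRing B] [Algebra K B] [StarModule K B]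
  [Algebra.IsCentral K B] [IsSimpleRing B] [FiniteDimensional K B] [Algebra k B]
  [IsScalarTower k K B]

/-- a place with a splitting is not anisotropic -/
theorem Spl.notMem_Tk (hd : 2 ≤ deg K B) {v : Pl k} (s : Spl K B v) : v ∉ Tk k K B := by
  rintro ⟨w, hw, rfl⟩
  exact TL31.not_division hd s (Loc.ultra_iff.1 hw.2)

end

theorem tLinkStmt : TLinkStmt.{u, v, w} := fun D hd => TL31.tLink D.k D.K D.B hd

end Crest.Agent.T24
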