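import Crest.Agent.T24.EvA_20
import Crest.Agent.T24.TLink_31
import Crest.Agent.T24.SplEx_33

/-!
# Row 24: weak approximation for a non-central normal subgroup, with global targets.
-/

set_option autoImplicit false
set_option linter.unusedSectionVars false

noncomputable section

namespace Crest.Agent.T24.Ev

open Module NumberField WithZero Csa Asa Topology Filter

universe u v w

namespace W31

variable {k : Type u} {K B : Type*} [Field k] [NumberField k] [Field K] [NumberField K] [Algebra k K]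
  [StarRing K] [Quad k K] [Ring B] [StarRing B] [Algebra K B] [StarModule K B]
  [Algebra.IsCentral K B] [IsSimpleRing B] [FiniteDimensional K B] [Algebra k B]
  [IsScalarTower k K B]

/-- deep elements lie in given open subgroups at the places of `T` -/
theorem deep_mem (hd : 2 ≤ deg K B) (V : (v : Pl k) → Subgroup (SUc k K B (Kv v)))
    (hV : ∀ v, IsOpen (V v : Set (SUc k K B (Kv v)))) : ∃ m : ℕ, ∀ v ∈ Tk k K B, ∀ g : SU K B,
      (g : unitary B) ∈ Um K B m → toG k K B (Kv v) g ∈ V v := by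
  have h1 : ∀ v ∈ Tk k K B, ∀ᶠ m : ℕ in atTop, ∀ g : SU K B,
      (g : unitary B) ∈ Um K B m → toG k K B (Kv v) g ∈ V v := fun v hv => by
    have h2 : IsInducing fun x : SUc k K B (Kv v) => ((x : Uc k K B (Kv v)) : BC k K B (Kv v)) :=
      IsInducing.subtypeVal.comp IsInducing.subtypeVal
    have h3 := (hV v).mem_nhds (V v).one_mem
    rw [h2.nhds_eq_comap, mem_comap] at h3
    obtain ⟨U, hU, h4⟩ := h3
    have h5 : (fun x : BC k K B (Kv v) => x + 1) ⁻¹' U ∈ 𝓝 0 :=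
      (continuous_id.add continuous_const).continuousAt.preimage_mem_nhds (by simpa using hU)
    obtain ⟨m, hm⟩ := (TL31.tLink k K B hd v hv).2.1 _ h5
    refine eventually_atTop.2 ⟨m, fun m' hm' g hg => h4 ?_⟩
    have := hm _ fun w hw _ => Um_anti hm' hg w hw
    simpa using this
  obtain ⟨m, hm⟩ := ((eventually_all_finite (TL31.finite_Tk k K B hd)).2 h1).exists
  exact ⟨m, hm⟩

variable (k K B) in
/-- local groups inside local algebras -/
def co (S : Finset (Pl k)) (x : GS k K B S) : AS k K B S :=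
  (((x.1 : Uc k K B (Inf k)) : BC k K B (Inf k)), fun v => ((x.2 v : Uc k K B (Kv v.1)) : BC k K B (Kv v.1)))

theorem continuous_co (S : Finset (Pl k)) : Continuous (co k K B S) := by
  unfold co; fun_prop

theorem co_jS (S : Finset (Pl k)) (g : SU K B) :
    co k K B S (jS k K B S g) = jA k K B S ((g : unitary B) : B) := rfl

open scoped Classical in
theorem waN (hd : 2 ≤ deg K B) (hA : Sa k K B) : WaN k K B := fun N hN => by
  obtain ⟨⟨Λ⟩, hX⟩ := SplE.splEx k K B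
  obtain ⟨v₀, -, s₀, -⟩ := hX Λ ∅
  obtain ⟨V, hV, -, hV'⟩ := hA N hN Λ v₀ ⟨s₀⟩
  obtain ⟨m, hm⟩ := deep_mem hd V hV
  refine ⟨m, fun S t₀ t h₀ ht hT U hU => ?_⟩
  obtain ⟨v₁, hv₁, s₁, -⟩ := hX Λ S
  obtain ⟨W, hW, hW₁, hW₂⟩ := hA N hN Λ v₁ ⟨s₁⟩
  let S₁ := S.filter (· ∈ Tk k K B)
  have h1 := hV' S₁ (fun h => s₀.notMem_Tk hd (Finset.mem_filter.1 h).2)
    (1, fun v => toG k K B (Kv v.1) ⟨t v, ht v⟩) fun v =>
      hm v (Finset.mem_filter.1 v.2).2 _
        (hT v (Finset.mem_filter.1 v.2).1 (Finset.mem_filter.1 v.2).2).2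
  have h2 : IsOpen {x : GS k K B S₁ | ∀ v : S₁, (x.2 v)⁻¹ * toG k K B (Kv v.1) ⟨t v, ht v⟩ ∈ W v} := by
    rw [Set.ofPred_forall]
    exact isOpen_iInter_of_finite fun v => (hW v).preimage (by fun_prop)
  obtain ⟨_, h3, n₁, ⟨-, hn₁⟩, rfl⟩ := mem_closure_iff.1 h1 _ h2 fun v => by simp
  let g : GS k K B S := (toG k K B (Inf k) ⟨t₀, h₀⟩, fun v => toG k K B (Kv v.1) ⟨t v, ht v⟩)
  have h4 := hW₂ S hv₁ ((jS k K B S n₁)⁻¹ * g) fun v => by
    by_cases hv : v.1 ∈ Tk k K B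
    · exact h3 ⟨v.1, Finset.mem_filter.2 ⟨v.2, hv⟩⟩
    · rw [hW₁ _ hv]; trivial
  have h5 : Continuous fun x : GS k K B S => co k K B S (jS k K B S n₁ * x) :=
    (continuous_co S).comp (continuous_const.mul continuous_id)
  have h6 := h5.continuousAt (x := (jS k K B S n₁)⁻¹ * g) |>.preimage_mem_nhds (t := U)
    (by rw [mul_inv_cancel_left]; exact hU)
  obtain ⟨_, h7, n₂, ⟨-, hn₂⟩, rfl⟩ := mem_closure_iff_nhds.1 h4 _ h6
  refine ⟨(n₁ : unitary B) * n₂, N.mul_mem hn₁ hn₂, ?_⟩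
  rwa [Set.mem_preimage, ← map_mul, co_jS] at h7

/-- every deep element is moved near `1` by `N` -/
theorem move (h : WaN k K B) {N : Subgroup (unitary B)} (hN : NC K N) : ∃ m : ℕ, ∀ g ∈ SUm K B m,
    ∀ S, ∀ W ∈ nb k K B S 1, ∃ n ∈ N, ((g * n : unitary B) : B) ∈ W := by
  obtain ⟨m, hm⟩ := h N hN
  refine ⟨m, fun g hg S W hW => ?_⟩
  obtain ⟨U, hU, h1⟩ := mem_nb.1 hW
  have h2 : (fun x : AS k K B S => jA k K B S (g : B) * x) ⁻¹' U ∈
      𝓝 (jA k K B S ((g⁻¹ : unitary B) : B)) :=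
    (continuous_const_mul _).continuousAt.preimage_mem_nhds (by
      rwa [← map_mul, ← Submonoid.coe_mul, mul_inv_cancel])
  obtain ⟨n, hn, h3⟩ := hm S g⁻¹ (fun _ => g⁻¹) ((SU K B).inv_mem hg.1) (fun _ => (SU K B).inv_mem hg.1)
    (fun _ _ _ => (SUm K B m).inv_mem hg) _ h2
  exact ⟨n, hn, h1 _ (by rwa [Submonoid.coe_mul, map_mul])⟩

/-- a subgroup that contains the elements of `SU` near `1` contains a deep subgroup -/
theorem le_of_near (h : WaN k K B) {N : Subgroup (unitary B)} (hN : NC K N) {S : Finset (Pl k)}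
    (hS : ∀ᶠ x in nb k K B S 1, ∀ u ∈ SU K B, (u : B) = x → u ∈ N) : ∃ m, SUm K B m ≤ N := by
  obtain ⟨m, hm⟩ := move h hN
  refine ⟨m, fun g hg => ?_⟩
  obtain ⟨n, hn, h1⟩ := hm g hg S _ hS
  exact (N.mul_mem_cancel_right hn).1 (h1 _ ((SU K B).mul_mem hg.1 (hN.le hn)) rfl)

end W31

theorem waNStmt (hA : SaStmt.{u, v, w}) : WaNStmt.{u, v, w} := fun D hd ha =>
  W31.waN (by omega) (hA D hd ha)

end Crest.Agent.T24.Ev
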