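import Crest.Agent.T24.HilD_56
import Crest.Agent.T24.LocG_59
import Crest.Agent.T24.AsaA_53

/-!
# Row 24, even degree (helper67): the symbol lemma of the step `LAM`
-/

set_option autoImplicit false
set_option linter.unusedSectionVars false

noncomputable section

namespace Crest.Agent.T24.Ev.S67

open Module NumberField IsDedekindDomain Hn Hil
open scoped NumberField

universe u

/-- the norm of a quadratic extension -/
theorem norm_eq {F L : Type*} [Field F] [Field L] [CharZero F] [Algebra F L]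
    (hr : finrank F L = 2) (s : L ≃ₐ[F] L) (hs : s ≠ 1) (x : L) :
    algebraMap F L (Algebra.norm F x) = x * s x := by
  classical
  have : FiniteDimensional F L := Module.finite_of_finrank_pos (by omega)
  have : Algebra.IsQuadraticExtension F L := ⟨hr⟩
  have hc : Fintype.card (L ≃ₐ[F] L) = 2 := by
    rw [← Nat.card_eq_fintype_card, IsGalois.card_aut_eq_finrank, hr]
  have : (Finset.univ : Finset (L ≃ₐ[F] L)) = {1, s} :=
    (Finset.eq_univ_of_card _ (by rw [Finset.card_pair hs.symm, hc])).symm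
  rw [Algebra.norm_eq_prod_automorphisms, this, Finset.prod_pair hs.symm]; rfl

section
variable {F L : Type*} [Field F] [NumberField F] [Field L] [NumberField L] [Algebra F L]

theorem nat_mem (M : ℕ) (u : Pl L) : (M : 𝓞 F) ∈ (un F u).asIdeal ↔ (M : 𝓞 L) ∈ u.asIdeal := by
  change algebraMap (𝓞 F) (𝓞 L) M ∈ u.asIdeal ↔ _
  rw [map_natCast]

theorem un_un {k : Type*} [Field k] [NumberField k] [Algebra k F] [Algebra k L]
    [IsScalarTower k F L] (u : Pl L) : un k (un F u) = un k u := by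
  refine HeightOneSpectrum.ext (Ideal.ext fun x => ?_)
  change algebraMap (𝓞 F) (𝓞 L) (algebraMap (𝓞 k) (𝓞 F) x) ∈ u.asIdeal ↔
    algebraMap (𝓞 k) (𝓞 L) x ∈ u.asIdeal
  rw [← IsScalarTower.algebraMap_apply]

theorem io_io {k : Type*} [Field k] [Algebra k F] [Algebra k L] [IsScalarTower k F L] (x : kˣ) :
    io F L (io k F x) = io k L x :=
  Units.ext (IsScalarTower.algebraMap_apply k F L x).symm

theorem val_two {M : ℕ} (h2 : 2 ∣ M) {v : Pl F} (hv : (M : 𝓞 F) ∉ v.asIdeal) :
    v.valuation F 2 = 1 := by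
  obtain ⟨c, rfl⟩ := h2
  have : ((2 : ℕ) : 𝓞 F) ∉ v.asIdeal := fun h => hv (by
    rw [Nat.cast_mul]; exact Ideal.mul_mem_right _ _ h)
  have h := (v.valuation_eq_one_iff_notMem (K := F)).2 this
  simpa [map_ofNat] using h

end

variable {k F k₁ L : Type u} [Field k] [NumberField k] [Field F] [NumberField F] [Field k₁]
  [NumberField k₁] [Field L] [NumberField L] [Algebra k F] [Algebra k k₁] [Algebra F L]
  [Algebra k₁ L] [Algebra k L] [IsScalarTower k F L] [IsScalarTower k k₁ L]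

/-- the sign of the square root determines the place of `k₁` -/
theorem un_eq {h : k₁} (hk : ∀ z : k₁, ∃ a b : k, z = algebraMap k k₁ a + algebraMap k k₁ b * h)
    (s : L ≃ₐ[F] L) (hs : s (algebraMap k₁ L h) = - algebraMap k₁ L h) {v : Pl k}
    (h2 : v.valuation k 2 = 1) {r : k} (hr : v.valuation k r = 1) {u u' : Pl L} (hu : un k u = v)
    (hu' : un k u' = v) (h1 : u.valuation L (algebraMap k₁ L h - algebraMap k L r) < 1)
    (h1' : u'.valuation L (algebraMap k₁ L h - algebraMap k L r) < 1) : un k₁ u = un k₁ u' := by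
  have key : ∀ (z : 𝓞 k₁) (a b : k), (z : k₁) = algebraMap k k₁ a + algebraMap k k₁ b * h →
      ∀ u : Pl L, un k u = v → u.valuation L (algebraMap k₁ L h - algebraMap k L r) < 1 →
      (z ∈ (un k₁ u).asIdeal ↔ v.valuation k (a + b * r) < 1) := by
    intro z a b hz u hu h1
    subst hu
    have e1 : algebraMap k₁ L z = algebraMap k L a + algebraMap k L b * algebraMap k₁ L h := by
      rw [hz, map_add, map_mul, ← IsScalarTower.algebraMap_apply, ← IsScalarTower.algebraMap_apply]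
    have e2 : s (algebraMap k₁ L z) = algebraMap k L a - algebraMap k L b * algebraMap k₁ L h := by
      rw [e1, map_add, map_mul, hs, IsScalarTower.algebraMap_apply k F L,
        IsScalarTower.algebraMap_apply k F L b, s.commutes, s.commutes]; ring
    have i1 : IsIntegral ℤ (algebraMap k₁ L z) := z.isIntegral_coe.algebraMap
    have i2 : IsIntegral ℤ (s (algebraMap k₁ L z)) := i1.map (s.toRingEquiv.toRingHom.toIntAlgHom)
    have v1 := u.valuation_le_one (K := L) (⟨_, i1⟩ : 𝓞 L)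
    have v2 := u.valuation_le_one (K := L) (⟨_, i2⟩ : 𝓞 L)
    change u.valuation L (algebraMap k₁ L z) ≤ 1 at v1
    change u.valuation L (s (algebraMap k₁ L z)) ≤ 1 at v2
    have hr' := (Asa.below_eq_one (k := k) u r).2 hr
    have h2' := (Asa.below_eq_one (k := k) u 2).2 h2
    rw [map_ofNat] at h2'
    have hh : u.valuation L (algebraMap k₁ L h) = 1 := by
      rw [← hr']; exact Valuation.map_eq_of_sub_lt _ (by rwa [hr'])
    have hb : u.valuation L (algebraMap k L b) ≤ 1 := by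
      have := (u.valuation L).map_sub_le v1 v2
      rwa [e2, e1, show ∀ x y : L, x + y - (x - y) = 2 * y from fun x y => by ring, map_mul,
        map_mul, h2', hh, one_mul, mul_one] at this
    have h3 : u.valuation L (algebraMap k₁ L z - algebraMap k L (a + b * r)) < 1 := by
      rw [e1, map_add, map_mul, add_sub_add_left_eq_sub, ← mul_sub, map_mul]
      exact (mul_le_of_le_one_left' hb).trans_lt h1
    rw [← Asa.below_lt_one (k := k) u, ← Hn.Loc.val_int_lt_iff, ← Asa.below_lt_one (k := k₁) u]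
    constructor
    · intro h4
      have := (u.valuation L).map_sub_lt h4 h3
      rwa [sub_sub_cancel] at this
    · intro h4
      have := (u.valuation L).map_add_lt h3 h4
      rwa [sub_add_cancel] at this
  refine HeightOneSpectrum.ext (Ideal.ext fun z => ?_)
  obtain ⟨a, b, hz⟩ := hk z
  rw [key z a b hz u hu h1, key z a b hz u' hu' h1']

/-- a non-split place above `w` with the prescribed sign -/
theorem exists_up {e : kˣ} {h : L} (hh : h ^ 2 = algebraMap k L e) (s : L ≃ₐ[F] L)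
    (hs : s h = -h) (hr : finrank F L = 2) {w : Pl F} {r : k}
    (h1 : (un k w).valuation k (r ^ 2 - e) < 1) (he : io k F e ∈ Sq w) {d : Fˣ} (hd : d ∉ Sq w) :
    ∃ u : Pl L, un F u = w ∧ io F L d ∉ Sq u ∧ u.valuation L (h - algebraMap k L r) < 1 := by
  have h0 : h ≠ 0 := by
    rintro rfl
    exact e.ne_zero ((algebraMap k L).injective (by rw [← hh]; simp))
  have hs1 : s ≠ 1 := by
    rintro rfl
    exact h0 (by simpa [eq_neg_iff_add_eq_zero, ← two_mul] using hs)
  obtain ⟨x, hx⟩ := exists_hil_neg (p := .inl w) hd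
  have : x ∈ LN (io k F e : F) w := by rw [LN_eq_top w _ he]; trivial
  obtain ⟨n, ⟨a, b, hn⟩, q, hq, rfl⟩ := Subgroup.mem_sup.1 this
  rw [hil_mul_left, hil_of_sq_left (p := .inl w) d hq, mul_one] at hx
  have e1 : algebraMap F L (Algebra.norm F (algebraMap F L a + algebraMap F L b * h)) =
      algebraMap F L n := by
    rw [norm_eq hr s hs1, map_add, map_mul, s.commutes, s.commutes, hs, hn, map_sub, map_mul,
      map_pow, map_pow]
    change _ = _ - algebraMap F L (algebraMap k F e) * _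
    rw [← IsScalarTower.algebraMap_apply, ← hh]; ring
  have e2 := (algebraMap F L).injective e1
  have h3 : algebraMap F L a + algebraMap F L b * h ≠ 0 := fun h' => by
    have : FiniteDimensional F L := Module.finite_of_finrank_pos (by omega)
    rw [h', Algebra.norm_zero] at e2
    exact n.ne_zero e2.symm
  obtain ⟨T, hT⟩ := exists_fibre (F := F) (E := L) (.inl w)
  have h4 := nrmStmt F L (.inl w) (Units.mk0 _ h3) d T hT
  rw [show Units.map (Algebra.norm F : L →* F) (Units.mk0 _ h3) = n from Units.ext e2, hx] at h4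
  obtain ⟨Q, hQ, hQ'⟩ : ∃ Q ∈ T, io F L d ∉ SqP Q := by
    by_contra h5
    push Not at h5
    rw [Finset.prod_eq_one fun Q hQ => hil_of_sq_right _ (h5 Q hQ)] at h4
    exact absurd h4 (by decide)
  obtain ⟨u, rfl⟩ : ∃ u, Q = .inl u := by
    rcases Q with u | φ
    exacts [⟨u, rfl⟩, absurd ((hT _).1 hQ) (by simp [unP])]
  have hu : un F u = w := Sum.inl_injective ((hT _).1 hQ)
  have h5 : u.valuation L (h - algebraMap k L r) * u.valuation L (h + algebraMap k L r) < 1 := by
    rw [← hu, un_un, ← Asa.below_lt_one (k := k) u, map_sub, map_pow, ← hh,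
      Valuation.map_sub_swap] at h1
    rwa [← map_mul, show (h - algebraMap k L r) * (h + algebraMap k L r) =
      h ^ 2 - algebraMap k L r ^ 2 by ring]
  by_cases h6 : u.valuation L (h - algebraMap k L r) < 1
  · exact ⟨u, hu, hQ', h6⟩
  obtain ⟨u', hu'⟩ := Loc.exists_conj_place s.toRingEquiv u
  have hu'' : ∀ x, u'.valuation L x = u.valuation L (s x) := hu'
  refine ⟨u', hu ▸ pl_ext fun x => ?_, fun ⟨y, hy⟩ => hQ' ⟨s y, ?_⟩, ?_⟩
  · rw [← Asa.below_lt_one (k := F) u', ← Asa.below_lt_one (k := F) u, hu'', s.commutes]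
  · rw [hu'', hu'', map_sub, map_mul, map_pow, map_one, map_ofNat] at hy
    rwa [show s (io F L d : Lˣ) = (io F L d : Lˣ) from s.commutes (d : F)] at hy
  · rw [hu'', map_sub, hs, IsScalarTower.algebraMap_apply k F L, s.commutes,
      ← IsScalarTower.algebraMap_apply, ← neg_add', Valuation.map_neg]
    by_contra h7
    exact absurd h5 (not_lt.2 (one_le_mul (not_lt.1 h6) (not_lt.1 h7)))

/-- the same symbols, and local squares wherever the symbol is trivial on a finite set -/
theorem upgrade (a d : Lˣ) (S : Finset (Pl L)) : ∃ s : Lˣ, (∀ Q, hil Q s d = hil Q a d) ∧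
    ∀ Q ∈ full S, hil Q a d = 1 → s ∈ SqP Q := by
  classical
  let T := full S ∪ (finite_hil a d).toFinset
  have hT : ∀ Q, Q ∉ T → hil Q a d = 1 := fun Q h => by
    by_contra h'
    exact h (Finset.mem_union_right _ (by simpa using h'))
  have hc : ∀ Q, hil Q (if hil Q a d = 1 then 1 else a) d = hil Q a d := fun Q => by
    split_ifs with h
    · rw [h, hil_of_sq_left _ (one_mem _)]
    · rfl
  obtain ⟨s, h1, h2⟩ := preStmt L d T (fun Q => if hil Q a d = 1 then 1 else a)
    (by simp only [hc]; exact recStmt L a d T hT)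
  refine ⟨s, fun Q => ?_, fun Q hQ h => by simpa [h] using h1 Q (Finset.mem_union_left _ hQ)⟩
  by_cases h : Q ∈ T
  · rw [hil_congr_left (h1 Q h), hc]
  · rw [h2 Q h, hT Q h]

/-- THE SYMBOL LEMMA -/
theorem sym (ε δ : kˣ) (h : k₁) (hh : h ^ 2 = algebraMap k k₁ (ε * δ))
    (hk : ∀ z : k₁, ∃ a b : k, z = algebraMap k k₁ a + algebraMap k k₁ b * h)
    (s : L ≃ₐ[F] L) (hs : s (algebraMap k₁ L h) = - algebraMap k₁ L h) (hr : finrank F L = 2)
    (β : Fˣ) (M : ℕ) (hM : M ≠ 0) (h2 : 2 ∣ M)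
    (hε : ∀ v : Pl k, (M : 𝓞 k) ∉ v.asIdeal → v.valuation k (ε : k) = 1)
    (hδ : ∀ v : Pl k, (M : 𝓞 k) ∉ v.asIdeal → v.valuation k (δ : k) = 1)
    (hc : ∀ v : Pl k, (M : 𝓞 k) ∉ v.asIdeal → hil (.inl v) (nm k β) ε = 1)
    (hB : ∀ w : Pl F, (M : 𝓞 F) ∉ w.asIdeal → io k F δ ∈ Sq w → hil (.inl w) β (io k F ε) = 1) :
    ∃ a : Lˣ, (∀ t : Pc k₁, hil t (nm k₁ a) (io k k₁ δ) = 1) ∧
      (∀ u : Pl L, (M : 𝓞 L) ∈ u.asIdeal → a ∈ Sq u) ∧ (∀ φ : L →+* ℝ, 0 < φ a) ∧
      ∀ w : Pl F, (M : 𝓞 F) ∉ w.asIdeal → hil (.inl w) (β * nm F a) (io k F ε) = 1 := by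
  classical
  have hh' : algebraMap k₁ L h ^ 2 = algebraMap k L (ε * δ : kˣ) := by
    rw [← map_pow, hh, ← IsScalarTower.algebraMap_apply, Units.val_mul]
  -- the bad places
  obtain ⟨Bd, hBd⟩ : ∃ Bd : Finset (Pl F), ∀ w, w ∈ Bd ↔
      (M : 𝓞 F) ∉ w.asIdeal ∧ hil (.inl w) β (io k F ε) = -1 := by
    have := (finite_hil β (io k F ε)).preimage (Sum.inl_injective (β := F →+* ℝ)).injOn
    have h1 : {w : Pl F | (M : 𝓞 F) ∉ w.asIdeal ∧ hil (.inl w) β (io k F ε) = -1}.Finite :=
      this.subset fun w hw => by simp [hw.2]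
    exact ⟨h1.toFinset, fun w => by simp⟩
  have hδ' : ∀ w ∈ Bd, io k F δ ∉ Sq w := fun w hw h' => by
    have := hB w ((hBd w).1 hw).1 h'
    rw [((hBd w).1 hw).2] at this
    exact absurd this (by decide)
  have hsq : ∀ w ∈ Bd, ε * δ ∈ Sq (un k w) := fun w hw => by
    have hv := mt (nat_mem (F := k) M w).1 ((hBd w).1 hw).1
    refine l3Stmt k _ ε δ (val_two h2 hv) (hε _ hv) (hδ _ hv) (fun h' => ?_) fun h' =>
      hδ' w hw (io_mem_SqP (q := .inl w) h')
    have := hil_of_sq_right (p := .inl w) β (io_mem_SqP (q := .inl w) h')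
    rw [((hBd w).1 hw).2] at this
    exact absurd this (by decide)
  have hrt : ∀ v : Pl k, ∃ r : k, (M : 𝓞 k) ∉ v.asIdeal → ε * δ ∈ Sq v →
      v.valuation k r = 1 ∧ v.valuation k (r ^ 2 - (ε * δ : kˣ)) < 1 := fun v => by
    by_cases h' : (M : 𝓞 k) ∉ v.asIdeal ∧ ε * δ ∈ Sq v
    · obtain ⟨hv, y, hy⟩ := h'
      have h4 : v.valuation k 4 = 1 := by
        rw [show (4 : k) = 2 * 2 by norm_num, map_mul, val_two h2 hv, one_mul]
      have he : v.valuation k ((ε * δ : kˣ) : k) = 1 := by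
        rw [Units.val_mul, map_mul, hε v hv, hδ v hv, one_mul]
      rw [h4] at hy
      have h5 := (v.valuation k).map_one_add_of_lt hy
      rw [add_sub_cancel, map_mul, he, one_mul, map_pow] at h5
      have h6 : v.valuation k y = 1 := (pow_eq_one_iff_of_nonneg zero_le two_ne_zero).1 h5
      refine ⟨(ε * δ : kˣ) * y, fun _ _ => ⟨by rw [map_mul, he, h6, one_mul], ?_⟩⟩
      rw [show (((ε * δ : kˣ) : k) * y) ^ 2 - (ε * δ : kˣ) =
        (ε * δ : kˣ) * (((ε * δ : kˣ) : k) * y ^ 2 - 1) by ring, map_mul, he, one_mul]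
      exact hy
    · exact ⟨0, fun a b => absurd ⟨a, b⟩ h'⟩
  choose r hrt using hrt
  have hup : ∀ w : Pl F, ∃ u : Pl L, un F u = w ∧ (w ∈ Bd → io k L δ ∉ Sq u ∧
      u.valuation L (algebraMap k₁ L h - algebraMap k L (r (un k w))) < 1) := fun w => by
    by_cases hw : w ∈ Bd
    · have hv := mt (nat_mem (F := k) M w).1 ((hBd w).1 hw).1
      obtain ⟨u, h1, h3, h4⟩ := exists_up hh' s hs hr (hrt _ hv (hsq w hw)).2
        (io_mem_SqP (q := .inl w) (hsq w hw)) (hδ' w hw)
      exact ⟨u, h1, fun _ => ⟨io_io (F := F) (L := L) δ ▸ h3, h4⟩⟩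
    · obtain ⟨u, hu⟩ := exists_un L w
      exact ⟨u, hu, fun h' => absurd h' hw⟩
  choose U hU hU' using hup
  have hinj : Function.Injective fun w => (Sum.inl (U w) : Pc L) := fun w w' e => by
    rw [← hU w, ← hU w', Sum.inl_injective e]
  -- parity above each place of `k`
  have hpar : ∀ v : Pl k, ∏ _w ∈ Bd.filter (fun w => un k w = v), (-1 : ℤˣ) = 1 := fun v => by
    by_cases hv : (M : 𝓞 k) ∈ v.asIdeal
    · rw [Finset.filter_false_of_mem, Finset.prod_empty]
      rintro w hw rfl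
      exact ((hBd w).1 hw).1 ((nat_mem M w).1 hv)
    obtain ⟨T, hT⟩ := exists_fibre (F := k) (E := F) (.inl v)
    have h1 := nrmStmt k F (.inl v) β ε T hT
    rw [hc v hv] at h1
    refine Eq.trans ?_ h1.symm
    rw [← Finset.prod_image (s := Bd.filter fun w => un k w = v) (g := Sum.inl)
      (f := fun _ : Pc F => (-1 : ℤˣ)) Sum.inl_injective.injOn]
    refine Finset.prod_subset_one_on_sdiff (fun Q hQ => ?_) (fun Q hQ => ?_) fun Q hQ => ?_
    · obtain ⟨w, hw, rfl⟩ := Finset.mem_image.1 hQ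
      exact (hT _).2 (congrArg Sum.inl (Finset.mem_filter.1 hw).2)
    · obtain ⟨h3, h4⟩ := Finset.mem_sdiff.1 hQ
      rcases Q with w | φ
      · have hw : un k w = v := Sum.inl_injective ((hT _).1 h3)
        by_contra h5
        exact h4 (Finset.mem_image_of_mem _ (Finset.mem_filter.2 ⟨(hBd w).2
          ⟨fun h6 => hv (hw ▸ (nat_mem M w).2 h6), (Int.units_eq_one_or _).resolve_left h5⟩, hw⟩))
      · exact absurd ((hT _).1 h3) (by simp [unP])
    · obtain ⟨w, hw, rfl⟩ := Finset.mem_image.1 hQ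
      exact ((hBd w).1 (Finset.mem_filter.1 hw).1).2.symm
  have hev : Even (Bd.image fun w => (Sum.inl (U w) : Pc L)).card := by
    rw [Finset.card_image_of_injective _ hinj]
    have := Finset.prod_fiberwise_of_maps_to (s := Bd) (t := Bd.image (un k)) (g := un k)
      (fun w hw => Finset.mem_image_of_mem _ hw) fun _ => (-1 : ℤˣ)
    rw [Finset.prod_eq_one fun v _ => hpar v, Finset.prod_const] at this
    exact (neg_one_pow_eq_one_iff_even (by decide)).1 this.symm
  obtain ⟨a₀, ha⟩ := (R7.exists_rm_iff (d := io k L δ) fun p hp => by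
    obtain ⟨w, hw, rfl⟩ := Finset.mem_image.1 hp
    exact (hU' w hw).1).2 hev
  have hfin : {u : Pl L | (M : 𝓞 L) ∈ u.asIdeal}.Finite := by
    simpa [Ideal.dvd_span_singleton] using Ideal.finite_factors (I := Ideal.span {(M : 𝓞 L)})
      (by simpa using hM)
  obtain ⟨a, hb, hb'⟩ := upgrade a₀ (io k L δ) hfin.toFinset
  simp only [← hb] at ha hb'
  have ha1 : ∀ Q, (∀ w ∈ Bd, Sum.inl (U w) ≠ Q) → hil Q a (io k L δ) = 1 := fun Q hQ =>
    (Int.units_eq_one_or _).resolve_right fun h' => by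
      obtain ⟨w, hw, e⟩ := Finset.mem_image.1 ((ha Q).1 h')
      exact hQ w hw e
  have hprod : ∀ T : Finset (Pc L), ∏ Q ∈ T, hil Q a (io k L δ) =
      ∏ _w ∈ Bd.filter (fun w => Sum.inl (U w) ∈ T), (-1 : ℤˣ) := fun T => by
    rw [← Finset.prod_image (s := Bd.filter fun w => Sum.inl (U w) ∈ T)
      (g := fun w => (Sum.inl (U w) : Pc L)) (f := fun _ : Pc L => (-1 : ℤˣ)) hinj.injOn]
    refine (Finset.prod_subset_one_on_sdiff (fun Q hQ => ?_) (fun Q hQ => ?_) fun Q hQ => ?_).symm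
    · obtain ⟨w, hw, rfl⟩ := Finset.mem_image.1 hQ
      exact (Finset.mem_filter.1 hw).2
    · obtain ⟨h3, h4⟩ := Finset.mem_sdiff.1 hQ
      refine ha1 Q ?_
      rintro w hw rfl
      exact h4 (Finset.mem_image_of_mem _ (Finset.mem_filter.2 ⟨hw, h3⟩))
    · obtain ⟨w, hw, rfl⟩ := Finset.mem_image.1 hQ
      exact ((ha _).2 (Finset.mem_image_of_mem _ (Finset.mem_filter.1 hw).1)).symm
  refine ⟨a, fun t => ?_, fun u hu => hb' (.inl u) (by simpa using hu) (ha1 _ fun w hw e => ?_),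
    fun φ => hb' (.inr φ) inr_mem_full (ha1 _ fun w _ => by simp), fun w hw => ?_⟩
  · obtain ⟨T, hT⟩ := exists_fibre (F := k₁) (E := L) t
    rw [nrmStmt k₁ L t a _ T hT, io_io, hprod]
    by_cases hne : ∃ w₀ ∈ Bd, Sum.inl (U w₀) ∈ T
    · obtain ⟨w₀, h0, h0'⟩ := hne
      refine Eq.trans ?_ (hpar (un k w₀))
      refine Finset.prod_congr (Finset.filter_congr fun w hw => ?_) fun _ _ => rfl
      rw [hT, ← (hT _).1 h0']
      have e : ∀ w, un k (U w) = un k w := fun w => by rw [← un_un (F := F), hU]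
      refine ⟨fun h3 => ?_, fun h3 => congrArg Sum.inl ?_⟩
      · rw [← e, ← e, ← un_un (F := k₁), ← un_un (F := k₁) (U w₀), Sum.inl_injective h3]
      · have hv := mt (nat_mem (F := k) M w₀).1 ((hBd w₀).1 h0).1
        exact un_eq hk s hs (val_two h2 hv) (hrt _ hv (hsq _ h0)).1 ((e w).trans h3) (e w₀)
          (h3 ▸ (hU' w hw).2) (hU' _ h0).2
    · push Not at hne
      rw [Finset.filter_false_of_mem hne, Finset.prod_empty]
  · obtain rfl := Sum.inl_injective e
    exact ((hBd w).1 hw).1 (hU w ▸ (nat_mem M (U w)).2 hu)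
  · obtain ⟨T, hT⟩ := exists_fibre (F := F) (E := L) (.inl w)
    have h0 : algebraMap k₁ L h ≠ 0 := fun h' => by
      rw [h', zero_pow two_ne_zero, eq_comm, map_eq_zero] at hh'
      exact (ε * δ).ne_zero hh'
    have h3 : ∀ Q : Pc L, hil Q a (io k L ε) = hil Q a (io k L δ) := fun Q => by
      refine hil_congr_right ?_ a
      have : io k L ε / io k L δ = (Units.mk0 _ h0 / io k L δ) ^ 2 := by
        have : Units.mk0 _ h0 ^ 2 = io k L ε * io k L δ := Units.ext (by
          rw [Units.val_pow_eq_pow_val, Units.val_mk0, hh', ← map_mul]; rfl)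
        rw [div_pow, this, sq, mul_div_mul_right_eq_div]
      rw [this]
      exact sq_mem_SqP _ _
    rw [hil_mul_left, nrmStmt F L (.inl w) a _ T hT, io_io, Finset.prod_congr rfl fun Q _ => h3 Q,
      hprod]
    have h4 : ∀ w', Sum.inl (U w') ∈ T ↔ w' = w := fun w' => by
      rw [hT]; simp [unP, hU]
    by_cases h5 : w ∈ Bd
    · rw [show Bd.filter (fun w' => Sum.inl (U w') ∈ T) = {w} from Finset.ext fun w' => by
        rw [Finset.mem_filter, h4, Finset.mem_singleton]
        exact ⟨fun h => h.2, fun h => ⟨h ▸ h5, h⟩⟩, ((hBd w).1 h5).2]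
      simp
    · rw [Finset.filter_false_of_mem fun w' hw' h => h5 ((h4 w').1 h ▸ hw'), Finset.prod_empty,
        mul_one]
      exact (Int.units_eq_one_or _).resolve_right fun h6 => h5 ((hBd w).2 ⟨hw, h6⟩)

end Crest.Agent.T24.Ev.S67
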