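import Crest.Agent.T24.EvDef_47
import Crest.Agent.T24.EvSym_67

/-!
# Row 24, even degree (helper67): `AdjStmt`
-/

set_option autoImplicit false

noncomputable section

namespace Crest.Agent.T24.Evn

open Module NumberField Hn Hil

universe u

theorem A67.coord {k E : Type*} [Field k] [Field E] [Algebra k E] (hr : finrank k E = 2) {e : E}
    (he : ∀ a : k, algebraMap k E a ≠ e) (z : E) :
    ∃ a b : k, z = algebraMap k E a + algebraMap k E b * e := by
  have : FiniteDimensional k E := Module.finite_of_finrank_pos (by omega)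
  have h1 : LinearIndependent k ![(1 : E), e] := by
    refine (LinearIndependent.pair_iff' one_ne_zero).2 fun a h => he a ?_
    rw [← h, Algebra.algebraMap_eq_smul_one]
  have h2 := h1.span_eq_top_of_card_eq_finrank' (by simp [hr])
  obtain ⟨c, hc⟩ := (Submodule.mem_span_range_iff_exists_fun k).1 (h2 ▸ Submodule.mem_top (x := z))
  refine ⟨c 0, c 1, ?_⟩
  rw [← hc, Fin.sum_univ_two, Algebra.smul_def, Algebra.smul_def]; simp

theorem A67.conj {F L : Type*} [Field F] [CharZero F] [Field L] [Algebra F L]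
    (hr : finrank F L = 2) {e : L} {r : F} (h : e * e = algebraMap F L r) (hn : ¬ IsSquare r) :
    ∃ s : L ≃ₐ[F] L, s e = -e := by
  have : FiniteDimensional F L := Module.finite_of_finrank_pos (by omega)
  have : Algebra.IsQuadraticExtension F L := ⟨hr⟩
  by_contra h1
  push Not at h1
  obtain ⟨a, rfl⟩ := (IsGalois.mem_range_algebraMap_iff_fixed (F := F) e).2 fun s => by
    have h2 : s e * s e = e * e := by rw [← map_mul, h, s.commutes]
    exact (mul_self_eq_mul_self_iff.1 h2).resolve_right (h1 s)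
  exact hn ⟨a, (algebraMap F L).injective (by rw [← h, map_mul])⟩

theorem adjStmt : AdjStmt.{u} := by
  intro k k₁ F L _ _ _ _ _ _ _ _ _ _ _ _ _ _ _ e δ r c₀ β M he h1 h2 hn hM h2M hu hc hB
  have he' : algebraMap k₁ L e * algebraMap k₁ L e = algebraMap F L (algebraMap k F r) := by
    rw [← map_mul, he, ← IsScalarTower.algebraMap_apply, ← IsScalarTower.algebraMap_apply]
  obtain ⟨s, hs⟩ := A67.conj h2 he' hn
  have hε : ∀ v : Pl k, (M : 𝓞 k) ∉ v.asIdeal → v.valuation k ((δ * r : kˣ) : k) = 1 :=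
    fun v hv => by rw [Units.val_mul, map_mul, (hu v hv).1, (hu v hv).2.1, one_mul]
  have e1 : (algebraMap k k₁ δ * e) ^ 2 = algebraMap k k₁ (((δ * r : kˣ) : k) * δ) := by
    rw [mul_pow, sq e, he, ← map_pow, ← map_mul, Units.val_mul]; congr 1; ring
  have e2 : ∀ a : k, algebraMap k k₁ a ≠ algebraMap k k₁ δ * e := fun a h =>
    hn ⟨algebraMap k F (a / δ), by
      rw [← map_mul]
      refine congrArg _ ((algebraMap k k₁).injective ?_)
      rw [← he, map_mul, map_div₀, h, mul_div_cancel_left₀ _ (by simp)]⟩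
  have e3 : s (algebraMap k₁ L (algebraMap k k₁ δ * e)) =
      -algebraMap k₁ L (algebraMap k k₁ δ * e) := by
    rw [map_mul, map_mul, hs, ← IsScalarTower.algebraMap_apply,
      IsScalarTower.algebraMap_apply k F L, s.commutes, mul_neg]
  have e4 : ∀ v : Pl k, (M : 𝓞 k) ∉ v.asIdeal → hil (.inl v) (nm k β) (δ * r) = 1 := fun v hv => by
    rw [← div_mul_cancel (nm k β) c₀, hil_mul_left, hil_of_nr hc,
      hil_unit (Ev.S67.val_two h2M hv) (hu v hv).2.2 (hε v hv), one_mul]
  obtain ⟨a, g1, g2, g3, g4⟩ := Ev.S67.sym (δ * r) δ _ e1 (A67.coord h1 e2) s e3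
    h2 β M (by omega) h2M hε (fun v hv => (hu v hv).1) e4
    (fun w hw h => (hil_inl (b := io k F (δ * r))).2 (hB w hw h))
  exact ⟨a, g3, g2, fun v => (hil_inl (b := io k k₁ δ)).1 (g1 (.inl v)),
    fun w hw => (hil_inl (b := io k F (δ * r))).1 (g4 w hw)⟩

end Crest.Agent.T24.Evn
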