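import Crest.Agent.T24.EvDef_47

/-!
# Row 24, even degree: Eisenstein polynomials are irreducible over every subfield of `k_v` (helper61)
-/

set_option autoImplicit false

noncomputable section

namespace Crest.Agent.T24.Evn

open NumberField IsDedekindDomain WithZero Asa Polynomial

universe u v

namespace E61

/-- Eisenstein's criterion for a valuation with values in `ℤᵐ⁰` -/
theorem irr {F : Type*} [Field F] (w : Valuation F ℤᵐ⁰) {P : F[X]} (hm : P.Monic) (hd : 0 < P.natDegree)
    (h1 : ∀ i < P.natDegree, w (P.coeff i) < 1) (h0 : w (P.coeff 0) = exp (-1 : ℤ)) : Irreducible P := by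
  let O := w.valuationSubring
  have hc : ∀ i, P.coeff i ∈ O := fun i => by
    rcases lt_trichotomy i P.natDegree with h | h | h
    · exact (h1 i h).le
    · rw [h, hm.coeff_natDegree]; exact one_mem _
    · rw [coeff_eq_zero_of_natDegree_lt h]; exact zero_mem _
  obtain ⟨Q, hQ, hQd, hQm⟩ := lifts_and_natDegree_eq_and_monic
    ((lifts_iff_coeff_lifts (f := algebraMap O F) P).2 fun i => ⟨⟨_, hc i⟩, rfl⟩) hm
  have hco : ∀ i, ((Q.coeff i : O) : F) = P.coeff i := fun i => by
    rw [← hQ, coeff_map]; rfl
  have hmx : ∀ x : O, x ∈ IsLocalRing.maximalIdeal O ↔ w x < 1 := fun x =>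
    Valuation.mem_maximalIdeal_iff (v := w)
  have hE : Q.IsEisensteinAt (IsLocalRing.maximalIdeal O) := by
    refine hQm.isEisensteinAt_of_mem_of_notMem (IsLocalRing.maximalIdeal.isMaximal O).ne_top
      (fun {n} hn => ?_) fun h => ?_
    · rw [hmx, hco]; exact h1 n (hQd ▸ hn)
    · have key : ∀ x ∈ IsLocalRing.maximalIdeal O ^ 2, w (x : F) ≤ exp (-2 : ℤ) := by
        intro x hx
        rw [sq] at hx
        refine Submodule.mul_induction_on hx (fun a ha b hb => ?_) fun a b ha hb => ?_
        · have e : ∀ y : O, y ∈ IsLocalRing.maximalIdeal O → w (y : F) ≤ exp (-1 : ℤ) := fun y hy => by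
            have := (hmx y).1 hy
            rcases eq_or_ne (w (y : F)) 0 with h0 | h0
            · rw [h0]; exact zero_le
            · rw [← exp_log h0] at this ⊢
              rw [← exp_zero, exp_lt_exp] at this
              exact exp_le_exp.2 (by omega)
          rw [show ((a * b : O) : F) = a * b from rfl, map_mul, show (-2 : ℤ) = -1 + -1 by norm_num, exp_add]
          exact mul_le_mul' (e a ha) (e b hb)
        · exact (w.map_add _ _).trans (max_le ha hb)
      have := key _ h
      rw [hco, h0, exp_le_exp] at this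
      omega
  have hI := hE.irreducible (IsLocalRing.maximalIdeal.isMaximal O).isPrime hQm.isPrimitive (hQd ▸ hd)
  rw [← hQ]
  exact (hQm.irreducible_iff_irreducible_map_fraction_map (K := F)).1 hI

/-- irreducible over the completion -/
theorem irr_Kv {k : Type u} [Field k] [NumberField k] {v : Pl k} {P : k[X]} (h : Eis v P)
    (hd : 0 < P.natDegree) : Irreducible (P.map (algebraMap k (Kv v))) := by
  have hv : ∀ x : k, Valued.v (algebraMap k (Kv v) x) = v.valuation k x := fun x =>
    HeightOneSpectrum.valuedAdicCompletion_eq_valuation' v x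
  refine irr (Valued.v : Valuation (Kv v) ℤᵐ⁰) (h.1.map _) (by rwa [natDegree_map]) (fun i hi => ?_) ?_
  · rw [coeff_map, hv]; exact h.2.1 i (by rwa [natDegree_map] at hi)
  · rw [coeff_map, hv]; exact h.2.2

end E61

theorem eisStmt : EisStmt.{u, v} := by
  intro k _ _ v P h hd L _ _ ⟨f⟩
  refine (h.1.map _).irreducible_of_irreducible_map f.toRingHom _ ?_
  rw [Polynomial.map_map, show f.toRingHom.comp (algebraMap k L) = algebraMap k (Kv v) from f.comp_algebraMap]
  exact E61.irr_Kv h hd

end Crest.Agent.T24.Evn
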