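import Crest.Agent.T24.EvnApi_57

/-!
# Row 24, even step (helper7): an embedding whose quaternion algebra is split off `M`
-/

set_option autoImplicit false
set_option linter.unusedSectionVars false

noncomputable section

namespace Crest.Agent.T24.Evn

open Module NumberField Csa Asa Polynomial Filter

universe u v w

namespace G7

theorem exists_M {k : Type*} [Field k] [NumberField k] (x : kˣ) :
    ∃ M : ℕ, M ≠ 0 ∧ ∀ v : Pl k, (M : 𝓞 k) ∉ v.asIdeal → v.valuation k x = 1 := by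
  classical
  refine ⟨∏ v ∈ (finite_ne_one x.ne_zero).toFinset, Ideal.absNorm v.asIdeal,
    Finset.prod_ne_zero_iff.2 fun v _ => Ideal.absNorm_eq_zero_iff.not.2 v.ne_bot, fun v hv => ?_⟩
  by_contra h
  obtain ⟨c, hc⟩ := Finset.dvd_prod_of_mem (fun v : Pl k => Ideal.absNorm v.asIdeal)
    ((finite_ne_one x.ne_zero).mem_toFinset.2 h)
  rw [hc, Nat.cast_mul] at hv
  exact hv (Ideal.mul_mem_right _ _ (Ideal.absNorm_mem _))

theorem notMem_of_dvd {k : Type*} [Field k] {a b : ℕ} (h : a ∣ b) {v : Pl k}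
    (hv : (b : 𝓞 k) ∉ v.asIdeal) : (a : 𝓞 k) ∉ v.asIdeal := fun ha => by
  obtain ⟨c, rfl⟩ := h
  rw [Nat.cast_mul] at hv
  exact hv (Ideal.mul_mem_right _ _ ha)

theorem norm_quad {F L : Type*} [Field F] [NumberField F] [Field L] [NumberField L] [Algebra F L]
    (h2 : finrank F L = 2) {e : L} {r : F} (he : e * e = algebraMap F L r)
    (hL : ∀ x : L, ∃ a b : F, x = algebraMap F L a + algebraMap F L b * e) (a b : F) :
    Algebra.norm F (algebraMap F L a + algebraMap F L b * e) = a ^ 2 - r * b ^ 2 := by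
  obtain ⟨σ, h1, -, h3, -⟩ := Ev.R57.exists_sigma h2
  have h4 : σ e * σ e = e * e := by rw [← map_mul, he, σ.commutes]
  have h5 : σ e = -e := (mul_self_eq_mul_self_iff.1 h4).resolve_left fun h => h1 (by
    ext x
    obtain ⟨a, b, rfl⟩ := hL x
    simp [h])
  apply (algebraMap F L).injective
  rw [h3, map_add, map_mul, σ.commutes, σ.commutes, h5, map_sub, map_mul, map_pow, map_pow, ← he]
  ring

variable {D : Dat.{u, v, w}} (T : Tow D)

theorem conj_aeval (z : T.Cˣ) (th : T.C) (f : D.k[X]) :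
    aeval ((z : T.C) * th * (z⁻¹ : T.Cˣ)) f = (z : T.C) * aeval th f * (z⁻¹ : T.Cˣ) :=
  aeval_algHom_apply (MulSemiringAction.toAlgHom D.k _ (ConjAct.toConjAct z)) th f

theorem star_aeval' {th : T.C} (h : star th = th) (f : D.k[X]) : star (aeval th f) = aeval th f := by
  rw [← aeval_map_algebraMap T.E, star_aeval, h, Polynomial.map_map]
  congr 2
  ext a
  exact T.star_k a

/-- the twisted pair -/
theorem twist {P β γ : D.k[X]} {th s s' : T.C} {κ : D.B} (h : T.HC P th) (hκ : T.Kp th κ β)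
    (z : T.Cˣ) (hz : star (z : T.C) * z = s) (h1 : s * th = th * s) (h2 : κ * s = s' * κ)
    (h3 : s' * aeval th β * s = aeval th (β * γ)) :
    T.HC P ((z : T.C) * th * (z⁻¹ : T.Cˣ)) ∧
      T.Kp ((z : T.C) * th * (z⁻¹ : T.Cˣ)) ((z : T.C) * κ * (star (z : T.C) : T.C)) (β * γ) := by
  have e1 : star (z : T.C) = s * (z⁻¹ : T.Cˣ) := by rw [← hz, Units.mul_inv_cancel_right]
  have e2 : star ((z⁻¹ : T.Cˣ) : T.C) * star (z : T.C) = 1 := by
    rw [← star_mul, Units.mul_inv, star_one]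
  have hu : IsUnit ((z : T.C) : D.B) := z.isUnit.map (Cz T.i).val
  have c1 : ∀ c : T.C, (c : D.B) * T.i₀ = T.i₀ * c := fun c => (T.mem_C_iff.1 c.2).eq
  have e3 : (((z⁻¹ : T.Cˣ) : T.C) : D.B) * (z : T.C) = 1 := congrArg Subtype.val z.inv_mul
  have e4 : ((star (z : T.C) : T.C) : D.B) * (z : T.C) = s := congrArg Subtype.val hz
  have e5 : ((star (z : T.C) : T.C) : D.B) = (s : D.B) * ((z⁻¹ : T.Cˣ) : T.C) :=
    congrArg Subtype.val e1
  have e6 : (s : D.B) * th = th * s := congrArg Subtype.val h1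
  refine ⟨⟨?_, by rw [rch_units_conj]; exact h.2⟩, ?_, ?_, ?_, ?_, ?_⟩
  · rw [star_mul, star_mul, h.1]
    have : th * star (z : T.C) = star (z : T.C) * ((z : T.C) * th * (z⁻¹ : T.Cˣ)) := by
      rw [← mul_assoc, ← mul_assoc, hz, h1, e1, mul_assoc]
    rw [this, ← mul_assoc, e2, one_mul]
  · rw [star_mul, star_mul, hκ.skew, Cz.coe_star, star_star]; noncomm_ring
  · exact (hu.mul hκ.unit).mul hu.star
  · rw [mul_assoc, c1, ← mul_assoc, mul_assoc _ κ, hκ.anti, mul_neg, ← mul_assoc, c1]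
    noncomm_ring
  · simp only [MulMemClass.coe_mul]
    rw [e5]
    linear_combination (norm := noncomm_ring)
      (z : T.C) * κ * s * e3 * th * ((z⁻¹ : T.Cˣ) : T.C)
      + (z : T.C) * κ * e6 * ((z⁻¹ : T.Cˣ) : T.C)
      + (z : T.C) * hκ.comm * s * ((z⁻¹ : T.Cˣ) : T.C)
      - (z : T.C) * th * e3 * κ * s * ((z⁻¹ : T.Cˣ) : T.C)
  · rw [← T.coe_aeval, conj_aeval, ← h3]
    simp only [MulMemClass.coe_mul]
    rw [T.coe_aeval, ← hκ.sq]
    linear_combination (norm := noncomm_ring)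
      (z : T.C) * κ * e4 * κ * (star (z : T.C) : T.C)
      + (z : T.C) * h2 * κ * (star (z : T.C) : T.C)
      + (z : T.C) * s' * κ * κ * e5

theorem core [Algebra ℚ D.B] (hA : AdjStmt.{u}) (hT : TwStmt.{u, v, w}) {M : ℕ} (hM : 2 ≤ M)
    (hM2 : 2 ∣ M) {c₀ : D.kˣ} (hv : ∀ v : Pl D.k, (M : 𝓞 D.k) ∉ v.asIdeal →
      v.valuation D.k T.δ = 1 ∧ v.valuation D.k T.r = 1 ∧ v.valuation D.k c₀ = 1)
    {P β : D.k[X]} {th : T.C} {κ : D.B} (h : T.HC P th) (hκ : T.Kp th κ β)
    (F L : Type u) [Field F] [NumberField F] [Field L] [NumberField L] [Algebra D.k F]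
    [Algebra D.k L] [Algebra T.k₁ L] [Algebra F L] [IsScalarTower D.k T.k₁ L]
    [IsScalarTower D.k F L] (l : F) (j : L →ₐ[T.k₁] T.C) (hj : j (algebraMap F L l) = th)
    (hF : ∀ x : F, ∃ f : D.k[X], x = aeval l f)
    (hL : ∀ x : L, ∃ a b : F, x = algebraMap F L a + algebraMap F L b * algebraMap T.k₁ L T.e)
    (h2 : finrank F L = 2) (hd : finrank T.k₁ L = deg T.E T.C)
    (hn : ∀ b : Fˣ, (b : F) = aeval l β → Hil.nm D.k b / c₀ ∈ Hn.Nr (T.ε : D.k))
    (hs : ∀ b : Fˣ, (b : F) = aeval l β → ∀ w : Pl F, (M : 𝓞 F) ∉ w.asIdeal →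
      Hn.io D.k F T.δ ∈ Hn.Sq w → b ∈ Hn.LN (algebraMap D.k F T.ε) w)
    {V : Set D.B} (hV : V ∈ In.nr M (th : D.B)) :
    ∃ (th' : T.C) (κ' : D.B) (β' : D.k[X]), (th' : D.B) ∈ V ∧ T.HC P th' ∧ T.Kp th' κ' β' ∧
      ∃ b : Fˣ, (b : F) = aeval l β' ∧ ∀ w : Pl F, (M : 𝓞 F) ∉ w.asIdeal →
        b ∈ Hn.LN (algebraMap D.k F T.ε) w := by
  set e := algebraMap T.k₁ L T.e with he
  have ja : ∀ f : D.k[X], j (algebraMap F L (aeval l f)) = aeval th f := fun f => by
    rw [← aeval_algebraMap_apply, ← hj]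
    exact (aeval_algHom_apply (j.restrictScalars D.k) _ f).symm
  have je : j e = algebraMap T.E T.C T.e' := j.commutes _
  have ee : e * e = algebraMap F L (algebraMap D.k F T.r) := by
    rw [he, ← map_mul, T.ee, ← IsScalarTower.algebraMap_apply, ← IsScalarTower.algebraMap_apply]
  have ka : ∀ a : F, κ * j (algebraMap F L a) = j (algebraMap F L a) * κ := fun a => by
    obtain ⟨f, rfl⟩ := hF a
    rw [ja, T.coe_aeval]
    induction f using Polynomial.induction_on' with
    | add p q hp hq => rw [map_add, mul_add, add_mul, hp, hq]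
    | monomial n c =>
      rw [aeval_monomial, ← Algebra.smul_def, mul_smul_comm, smul_mul_assoc,
        (Commute.pow_right hκ.comm n).eq]
  have ke : κ * j e = -(j e * κ) := by
    rw [je, Cz.coe_algebraMap, T.anti_iff.1 hκ.anti, T.σ_e', map_neg, neg_mul]
  have hst : ∀ x, star (j x) = j x := fun x => by
    obtain ⟨a, b, rfl⟩ := hL x
    obtain ⟨f, rfl⟩ := hF a
    obtain ⟨g, rfl⟩ := hF b
    have : star (j e) = j e := by rw [je, star_algebraMap, T.star_e']
    rw [map_add, star_add, map_mul, star_mul, this, ja, ja, star_aeval' T h.1, star_aeval' T h.1,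
      ← ja g, ← map_mul, ← map_mul, mul_comm]
  have hb0 : aeval l β ≠ 0 := fun h0 => by
    have := ja β
    rw [h0, map_zero, map_zero] at this
    have h3 := hκ.sq
    rw [← T.coe_aeval, ← this] at h3
    exact (hκ.unit.mul hκ.unit).ne_zero h3
  have hr : ¬ IsSquare (algebraMap D.k F T.r) := fun ⟨x, hx⟩ => by
    have h3 : algebraMap F L x * algebraMap F L x = e * e := by rw [ee, hx, map_mul]
    have h4 : κ * j e = j e * κ := by
      rcases mul_self_eq_mul_self_iff.1 h3 with h5 | h5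
      · rw [← h5]; exact ka x
      · have := ka x
        rw [h5, map_neg] at this
        simpa using this
    have h5 : IsUnit ((j e : T.C) : D.B) := by
      rw [je, Cz.coe_algebraMap]; exact (IsUnit.mk0 _ T.e'_ne).map T.i
    have h6 : (2 : D.K) • ((j e : D.B) * κ) = 0 := by
      rw [two_smul]; exact add_eq_zero_iff_eq_neg.2 (h4.symm.trans ke)
    exact (h5.mul hκ.unit).ne_zero ((smul_eq_zero.1 h6).resolve_left two_ne_zero)
  obtain ⟨s, s1, s2, s3, s4⟩ := hA D.k T.k₁ F L T.e T.δ T.r c₀ (Units.mk0 _ hb0) M T.ee T.fr₁ h2 hr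
    hM hM2 hv (hn _ rfl) (hs _ rfl)
  obtain ⟨z, hz1, hz2⟩ := hT T.dat (algebraMap D.K T.E T.θ) (Hn.io D.k T.k₁ T.δ) T.star_θ'
    (by rw [sq, T.θ_sq]; exact (T.alg_k₁ _).symm) L j hst hd M hM s s3 s1 s2 (algebraMap F L l)
    (Subtype.val ⁻¹' V) (by
      rw [hj]; exact In.nr_map (Cz T.i).val.toRingHom.toAddMonoidHom th hV)
  rw [hj] at hz2
  obtain ⟨a, b, hab⟩ := hL s
  obtain ⟨γ, hγ⟩ := hF (Algebra.norm F (s : L))
  have hN : (algebraMap F L a - algebraMap F L b * e) * s = algebraMap F L (aeval l γ) := by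
    rw [← hγ, hab, norm_quad h2 ee hL, map_sub, map_mul, map_pow, map_pow, ← ee]; ring
  obtain ⟨t1, t2⟩ := twist T (γ := γ) (s' := j (algebraMap F L a - algebraMap F L b * e)) h hκ z hz1
    (by rw [← hj, ← map_mul, ← map_mul, mul_comm]) (by
      rw [hab]
      simp only [map_add, map_sub, map_mul, AddMemClass.coe_add, AddSubgroupClass.coe_sub,
        MulMemClass.coe_mul]
      linear_combination (norm := noncomm_ring) ka a + ka b * (j e : D.B)
        + (j (algebraMap F L b) : D.B) * ke) (by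
      rw [← ja, ← ja, ← map_mul, ← map_mul, map_mul (aeval l), map_mul (algebraMap F L), ← hN]
      congr 1; ring)
  exact ⟨_, _, _, hz2, t1, t2, Units.mk0 _ hb0 * Hil.nm F s, by
    rw [map_mul, ← hγ]; rfl, s4⟩

end G7

open G7 in
theorem gdStmt (hK : KapStmt.{u, v, w}) (hS : SpqStmt.{u, v, w}) (hA : AdjStmt.{u})
    (hT : TwStmt.{u, v, w}) : GdStmt.{u, v, w} := fun D _ T => by
  obtain ⟨c₀, hc⟩ := hK D T
  obtain ⟨M₀, hM₀, hs⟩ := hS D T
  obtain ⟨M₁, h₁, g₁⟩ := exists_M T.δ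
  obtain ⟨M₂, h₂, g₂⟩ := exists_M T.r
  obtain ⟨M₃, h₃, g₃⟩ := exists_M c₀
  refine ⟨2 * (M₀ * (M₁ * M₂ * M₃)), Nat.le_mul_of_pos_right _ (by positivity),
    fun M hM hd P th hP h V hV => ?_⟩
  have hr := (T.HC_iff.1 h).2
  have hm : P.Monic := monic_of_injective (algebraMap D.k T.E).injective (hr ▸ rch_monic T.E th)
  have hP' : Irreducible P := hm.irreducible_of_irreducible_map _ _ hP
  have hdeg : P.natDegree = deg T.E T.C := by
    rw [← natDegree_map (algebraMap D.k T.E), ← hr, rch_natDegree]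
  obtain ⟨κ, β, hκ, hn⟩ := hc P th hP h
  have := Fact.mk hP
  have := Fact.mk hP'
  set Q := P.map (algebraMap D.k T.k₁) with hQ
  let F := AdjoinRoot P
  let L := AdjoinRoot Q
  have fF : finrank D.k F = P.natDegree := (AdjoinRoot.powerBasis hP'.ne_zero).finrank
  have fL : finrank T.k₁ L = P.natDegree :=
    (AdjoinRoot.powerBasis hP.ne_zero).finrank.trans (natDegree_map _)
  have := (AdjoinRoot.powerBasis hP'.ne_zero).finite
  have := (AdjoinRoot.powerBasis hP.ne_zero).finite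
  have : NumberField F := NumberField.of_module_finite D.k F
  have : NumberField L := NumberField.of_module_finite T.k₁ L
  have hl : aeval (AdjoinRoot.root P) P = 0 := AdjoinRoot.aeval_eq P ▸ AdjoinRoot.mk_self
  have hl' : aeval (AdjoinRoot.root Q) P = 0 := by
    rw [← aeval_map_algebraMap T.k₁]; exact AdjoinRoot.aeval_eq Q ▸ AdjoinRoot.mk_self
  let φ : F →ₐ[D.k] L := AdjoinRoot.liftAlgHom P (Algebra.ofId _ _) (AdjoinRoot.root Q) hl'
  have hφ : φ (AdjoinRoot.root P) = AdjoinRoot.root Q := AdjoinRoot.liftAlgHom_root ..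
  let _ : Algebra F L := φ.toAlgebra
  have : IsScalarTower D.k F L := IsScalarTower.of_algebraMap_eq fun x => (φ.commutes x).symm
  have hth : aeval th Q = 0 := by
    rw [hQ, aeval_map_algebraMap, ← aeval_map_algebraMap T.E, ← hr, aeval_rch]
  let j : L →ₐ[T.k₁] T.C := Ideal.Quotient.liftₐ _ (aeval th) fun a ha => by
    obtain ⟨c, rfl⟩ := Ideal.mem_span_singleton.1 ha
    rw [map_mul, hth, zero_mul]
  have hj : j (algebraMap F L (AdjoinRoot.root P)) = th := by
    rw [show algebraMap F L _ = _ from hφ]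
    exact aeval_X th
  have hF : ∀ x : F, ∃ f : D.k[X], x = aeval (AdjoinRoot.root P) f := fun x =>
    AdjoinRoot.induction_on P x fun f => ⟨f, (AdjoinRoot.aeval_eq f).symm⟩
  have hL : ∀ x : L, ∃ a b : F,
      x = algebraMap F L a + algebraMap F L b * algebraMap T.k₁ L T.e := fun x => by
    refine AdjoinRoot.induction_on Q x fun f => ?_
    rw [← AdjoinRoot.aeval_eq]
    induction f using Polynomial.induction_on' with
    | add p q hp hq =>
      obtain ⟨a, b, h1⟩ := hp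
      obtain ⟨c, d, h2⟩ := hq
      exact ⟨a + c, b + d, by rw [map_add, h1, h2, map_add, map_add]; ring⟩
    | monomial n c =>
      obtain ⟨a, b, rfl⟩ := T.k₁_crd c
      refine ⟨algebraMap _ _ a * AdjoinRoot.root P ^ n, algebraMap _ _ b * AdjoinRoot.root P ^ n, ?_⟩
      rw [aeval_monomial, ← show algebraMap F L _ = _ from hφ]
      simp only [map_add, map_mul, map_pow, ← IsScalarTower.algebraMap_apply]
      ring
  have h2 : finrank F L = 2 := by
    have a1 := finrank_mul_finrank D.k F L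
    rw [← finrank_mul_finrank D.k T.k₁ L, T.fr₁, fF, fL, mul_comm] at a1
    exact Nat.eq_of_mul_eq_mul_right (hdeg ▸ deg_pos T.E T.C) a1
  have hd' := (Dvd.intro_left _ rfl).trans hd
  have hd'' := (Dvd.intro_left _ rfl).trans hd'
  obtain ⟨th', κ', β', t1, t2, t3, b, hb, t4⟩ := core T hA hT hM ((Dvd.intro _ rfl).trans hd)
    (c₀ := c₀) (fun v hv =>
      ⟨g₁ v (notMem_of_dvd (((Dvd.intro _ rfl).trans (Dvd.intro _ rfl)).trans hd'') hv),
        g₂ v (notMem_of_dvd (((Dvd.intro_left _ rfl).trans (Dvd.intro _ rfl)).trans hd'') hv),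
        g₃ v (notMem_of_dvd ((Dvd.intro_left _ rfl).trans hd'') hv)⟩)
    h hκ F L (AdjoinRoot.root P) j hj hF hL h2 (fL.trans hdeg) (hn F _ hl fF)
    (fun b hb w hw => hs P th κ β hP'.separable h hκ F _ hl b hb w
      (notMem_of_dvd ((Dvd.intro _ rfl).trans hd') hw)) hV
  refine ⟨th', κ', β', t1, t2, t3, fun F' _ _ _ l hl b' hb' w hw => ?_⟩
  let ψ : F →ₐ[D.k] F' := AdjoinRoot.liftAlgHom P (Algebra.ofId _ _) l hl
  let _ : Algebra F F' := ψ.toAlgebra
  have e : b' = Hn.io F F' b := Units.ext (by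
    change _ = ψ b
    rw [hb, hb', ← aeval_algHom_apply,
      show ψ (AdjoinRoot.root P) = l from AdjoinRoot.liftAlgHom_root ..])
  have := Hil.io_mem_LNP (q := .inl w) (t4 (Hn.un F w) fun hw' => hw (by
    simpa using (Ideal.mem_comap.1 hw')))
  rw [e, ← ψ.commutes]
  exact this

end Crest.Agent.T24.Evn
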