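import Crest.Agent.T24.EvDef_47
import Crest.Agent.T24.Csa5_56

/-!
# Row 24, even step (helper42): the quaternion algebra attached to a hermitian element of `C`
-/

set_option autoImplicit false
set_option linter.unusedSectionVars false

noncomputable section

namespace Crest.Agent.T24.Evn

open Module NumberField Csa Polynomial

universe u v w

namespace K42

/-- the reduced norm on `k[y]` is the field norm -/
theorem nrd_aeval {k E C F : Type*} [Field k] [Field E] [CharZero E] [Algebra k E] [Ring C]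
    [Algebra E C] [Algebra.IsCentral E C] [IsSimpleRing C] [FiniteDimensional E C] [Field F]
    [Algebra k F] {P : k[X]} (hs : P.Separable) {y : C} (hy : rch E y = P.map (algebraMap k E))
    {l : F} (hl : minpoly k l = P) (hF : finrank k F = P.natDegree) (f : k[X]) :
    Nrd E (aeval y (f.map (algebraMap k E))) = algebraMap k E (Algebra.norm k (aeval l f)) := by
  have hd : P.natDegree = deg E C := by rw [← natDegree_map (algebraMap k E), ← hy, rch_natDegree]
  have hm : P.Monic := monic_of_injective (algebraMap k E).injective (hy ▸ rch_monic E y)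
  have : FiniteDimensional k F := Module.finite_of_finrank_pos (by rw [hF, hd]; exact deg_pos E C)
  have : Nonempty (Fin (deg E C)) := ⟨⟨0, deg_pos E C⟩⟩
  let Ω := AlgebraicClosure E
  let e : Basis (Fin (deg E C)) k F := finBasisOfFinrankEq k _ (hF.trans hd)
  let ψ : F →ₐ[k] Matrix (Fin (deg E C)) (Fin (deg E C)) Ω :=
    (Algebra.ofId k Ω).mapMatrix.comp (Algebra.leftMulMatrix e)
  have h1 : (Algebra.leftMulMatrix e l).charpoly = P := by
    refine eq_of_monic_of_dvd_of_natDegree_le hm (Matrix.charpoly_monic _)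
      (hl ▸ minpoly.dvd k l (Algebra.leftMulMatrix_injective e ?_))
      (by rw [Matrix.charpoly_natDegree_eq_dim, Fintype.card_fin, hd])
    rw [← aeval_algHom_apply, Matrix.aeval_self_charpoly, map_zero]
  have h2 : rch Ω (sp E C y) = P.map (algebraMap k Ω) := by
    rw [rch_mat, sp_charpoly, hy, Polynomial.map_map, ← IsScalarTower.algebraMap_eq]
  have h3 : rch Ω (ψ l) = P.map (algebraMap k Ω) := by
    rw [rch_mat]
    exact (Matrix.charpoly_map _ (algebraMap k Ω)).trans (congrArg _ h1)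
  obtain ⟨u, hu⟩ := conj_of_rch_eq (h2 ▸ hs.map.squarefree) (h2.trans h3.symm)
  have h4 : ψ (aeval l f) = u.val * sp E C (aeval y (f.map (algebraMap k E))) * u⁻¹.val := by
    rw [← aeval_algHom_apply, hu, ← aeval_algHom_apply (sp E C), aeval_map_algebraMap]
    exact aeval_algHom_apply ((MulSemiringAction.toAlgHom k _ (ConjAct.toConjAct u))) _ f
  apply (algebraMap E Ω).injective
  rw [← det_eq (sp E C) sp_card, ← Matrix.det_units_conj u, ← h4, ← IsScalarTower.algebraMap_apply,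
    Algebra.norm_eq_matrix_det e]
  exact ((algebraMap k Ω).map_det _).symm

variable {D : Dat.{u, v, w}} (T : Tow D)

theorem star_K (a : D.K) : star (algebraMap D.K T.E a) = algebraMap D.K T.E (star a) :=
  T.i.injective (by
    change T.i _ = T.i _
    rw [StarHom.map_star, T.i.commutes, T.i.commutes, T24.star_algebraMap])

theorem star_k (a : D.k) : star (algebraMap D.k T.E a) = algebraMap D.k T.E a := by
  rw [IsScalarTower.algebraMap_apply D.k T.k₁ T.E, Quad.star_k]

theorem σ_k (a : D.k) : T.σ (algebraMap D.k T.E a) = algebraMap D.k T.E a := by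
  rw [IsScalarTower.algebraMap_apply D.k D.K T.E, T.σ.commutes]

theorem θ_ne : T.θ ≠ 0 := fun h => by
  have := T.θθ
  rw [h, zero_pow two_ne_zero, eq_comm, _root_.map_eq_zero] at this
  exact T.δ.ne_zero this

theorem star_η : star T.η = -T.η := by
  rw [Tow.η, star_mul', star_K, T.star_θ, Quad.star_k, map_neg, neg_mul]

theorem σ_η : T.σ T.η = -T.η := by rw [Tow.η, map_mul, T.σ.commutes, T.σ_e, mul_neg]

theorem η_sq : T.η * T.η = algebraMap D.k T.E T.ε := by
  rw [Tow.η, mul_mul_mul_comm, ← map_mul, ← map_mul, T.ee, ← sq, T.θθ,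
    ← IsScalarTower.algebraMap_apply, ← IsScalarTower.algebraMap_apply, ← map_mul]
  rfl

theorem star_i₀ : star T.i₀ = -T.i₀ := by rw [Tow.i₀, ← StarHom.map_star, star_η, map_neg]

theorem n_i₀ : T.n * T.i₀ = -(T.i₀ * T.n) := by rw [Tow.i₀, T.n_i, σ_η, map_neg, neg_mul]

theorem i₀_sq : T.i₀ * T.i₀ = algebraMap D.k D.B T.ε := by
  rw [Tow.i₀, ← map_mul, η_sq, IsScalarTower.algebraMap_apply D.k D.K T.E, T.i.commutes,
    ← IsScalarTower.algebraMap_apply]

/-- `E = K + K η` -/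
theorem crdK (c : T.E) : ∃ a b : D.K, c = algebraMap _ _ a + algebraMap _ _ b * T.η := by
  obtain ⟨a₀, a₁, a₂, a₃, rfl⟩ := T.crd c
  refine ⟨algebraMap _ _ a₀ + algebraMap _ _ a₁ * T.θ, algebraMap _ _ a₂ * T.θ⁻¹ +
    algebraMap _ _ a₃, ?_⟩
  have h : algebraMap D.K T.E T.θ ≠ 0 := (_root_.map_ne_zero _).2 (θ_ne T)
  simp only [Tow.η, map_add, map_mul, map_inv₀, ← IsScalarTower.algebraMap_apply]
  field_simp
  ring

/-- the element of `E` fixed by `σ ∘ star` lie in `k (η)` -/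
theorem fix₂ {c : T.E} (h : T.σ (star c) = c) :
    ∃ x y : D.k, c = algebraMap _ _ x + algebraMap _ _ y * T.η := by
  obtain ⟨a₀, a₁, a₂, a₃, hc⟩ := T.crd c
  refine ⟨a₀, a₃, ?_⟩
  have h2 := h
  conv_lhs at h2 => rw [hc]
  simp only [star_add, star_mul', star_k, star_K, T.star_θ, Quad.star_k, map_add, map_mul, map_neg,
    σ_k, T.σ_e, AlgEquiv.commutes] at h2
  rw [Tow.η]
  linear_combination (hc - h2) / 2

/-- the elements of `E` fixed by `σ` and `star` lie in `k` -/
theorem fix₀ {c : T.E} (h : star c = c) (h' : T.σ c = c) : ∃ x : D.k, algebraMap _ _ x = c := by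
  obtain ⟨x, y, hc⟩ := fix₂ T (c := c) (by rw [h, h'])
  refine ⟨x, ?_⟩
  have h2 := h
  conv_lhs at h2 => rw [hc]
  rw [star_add, star_mul', star_k, star_k, star_η] at h2
  linear_combination (h2 - hc) / 2

theorem mem_C {x : D.B} (h : x * T.i₀ = T.i₀ * x) : x ∈ Cz T.i := Cz.mem_iff.2 fun c => by
  obtain ⟨a, b, rfl⟩ := crdK T c
  rw [map_add, map_mul, T.i.commutes, T.i.commutes, add_mul, mul_add, Algebra.commutes,
    mul_assoc, ← mul_assoc x, ← Algebra.commutes b x, mul_assoc]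
  exact congrArg (fun z => _ + _ * z) h.symm

theorem comm_i₀ (c : T.C) : (c : D.B) * T.i₀ = T.i₀ * c := (Cz.mem_iff.1 c.2 _).symm

theorem anti_i {x : D.B} (h : x * T.i₀ = -(T.i₀ * x)) (c : T.E) :
    x * T.i c = T.i (T.σ c) * x := by
  obtain ⟨a, b, rfl⟩ := crdK T c
  simp only [map_add, map_mul, AlgEquiv.commutes, AlgHom.commutes, σ_η, map_neg]
  rw [add_mul, mul_add, Algebra.commutes a x, mul_assoc _ _ x, ← mul_assoc x,
    ← Algebra.commutes b x, mul_assoc, neg_mul]
  exact congrArg (fun z => _ + _ * z) h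

/-- conjugation by a unit which anticommutes with `i₀` -/
def cj (g : D.Bˣ) (h : (g : D.B) * T.i₀ = -(T.i₀ * g)) : T.C →+* T.C where
  toFun c := ⟨g * c * ↑g⁻¹, mem_C T (by
    have h' : ((g⁻¹ : D.Bˣ) : D.B) * T.i₀ = -(T.i₀ * ↑g⁻¹) := by
      rw [Units.inv_mul_eq_iff_eq_mul, mul_neg, ← mul_assoc, h, neg_mul, neg_neg,
        Units.mul_inv_cancel_right]
    rw [mul_assoc, h', mul_neg, ← mul_assoc, mul_assoc _ _ T.i₀, comm_i₀, ← mul_assoc, h]
    noncomm_ring)⟩
  map_one' := Subtype.ext (by simp)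
  map_mul' x y := Subtype.ext (by simp [mul_assoc])
  map_zero' := Subtype.ext (by simp)
  map_add' x y := Subtype.ext (by simp [mul_add, add_mul])

variable {T} in
theorem cj_mul {g : D.Bˣ} (h : (g : D.B) * T.i₀ = -(T.i₀ * g)) (c : T.C) :
    (cj T g h c : D.B) * g = g * c := Units.inv_mul_cancel_right _ _

variable {T} in
theorem cj_eq {g : D.Bˣ} (h : (g : D.B) * T.i₀ = -(T.i₀ * g)) {c c' : T.C}
    (hc : (g : D.B) * c = c' * g) : cj T g h c = c' :=
  Subtype.ext (g.mul_left_inj.1 ((cj_mul h c).trans hc))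

variable {T} in
theorem cj_E {g : D.Bˣ} (h : (g : D.B) * T.i₀ = -(T.i₀ * g)) (c : T.E) :
    cj T g h (algebraMap T.E T.C c) = algebraMap T.E T.C ((T.σ : T.E →+* T.E) c) :=
  cj_eq h (anti_i T h c)

variable {T} in
theorem nrd_cj {g : D.Bˣ} (h : (g : D.B) * T.i₀ = -(T.i₀ * g)) (c : T.C) :
    Nrd T.E (cj T g h c) = T.σ (Nrd T.E c) := Nrd_map (T.σ : T.E →+* T.E) _ (cj_E h) rfl c

variable {T} in
theorem rch_cj {g : D.Bˣ} (h : (g : D.B) * T.i₀ = -(T.i₀ * g)) (c : T.C) :
    rch T.E (cj T g h c) = (rch T.E c).map (T.σ : T.E →+* T.E) :=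
  rch_map (T.σ : T.E →+* T.E) _ (cj_E h) rfl c

theorem coe_aeval (th : T.C) (β : D.k[X]) :
    ((aeval th (β.map (algebraMap D.k T.E)) : T.C) : D.B) = aeval (th : D.B) β := by
  rw [aeval_def, eval₂_map, aeval_def]
  refine (hom_eval₂ β _ (Cz T.i).val.toRingHom th).trans (congrArg (fun f => eval₂ f _ β) ?_)
  ext a
  change T.i (algebraMap D.k T.E a) = _
  rw [IsScalarTower.algebraMap_apply D.k D.K T.E, T.i.commutes, ← IsScalarTower.algebraMap_apply]

variable {T} in
theorem HC.rch {P : D.k[X]} {th : T.C} (h : T.HC P th) :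
    rch T.E th = P.map (algebraMap D.k T.E) := by
  rw [h.2, Polynomial.map_map, ← IsScalarTower.algebraMap_eq]

/-- the square of an element which anticommutes with `i₀` -/
def sqC (x : D.B) (h : x * T.i₀ = -(T.i₀ * x)) : T.C :=
  ⟨x * x, mem_C T (by rw [mul_assoc, h, mul_neg, ← mul_assoc, h]; noncomm_ring)⟩

/-- existence of `κ` and `β`; only separability is used -/
theorem exists_kp {P : D.k[X]} {th : T.C} (hs : P.Separable) (h : T.HC P th) :
    ∃ (κ : D.B) (β : D.k[X]), T.Kp th κ β := by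
  have hn : (T.unit_n.unit : D.B) * T.i₀ = -(T.i₀ * T.unit_n.unit) := n_i₀ T
  have hσ : (P.map (algebraMap D.k T.E)).map (T.σ : T.E →+* T.E) = P.map (algebraMap D.k T.E) := by
    rw [Polynomial.map_map]; congr 1; ext a; exact σ_k T a
  have hsq : Squarefree (rch T.E th) := HC.rch h ▸ hs.map.squarefree
  have h1 : rch T.E (cj T _ hn th) = rch T.E th := by rw [rch_cj, HC.rch h, hσ]
  obtain ⟨u, hu⟩ := conj_of_rch_eq (h1 ▸ hsq) h1
  have hth : star (th : D.B) = th := congrArg Subtype.val h.1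
  let W : Submodule D.K D.B :=
    { carrier := {x | x * T.i₀ = -(T.i₀ * x) ∧ x * th = th * x}
      add_mem' := fun {a b} ha hb => ⟨by rw [add_mul, mul_add, ha.1, hb.1, neg_add],
        by rw [add_mul, mul_add, ha.2, hb.2]⟩
      zero_mem' := by simp
      smul_mem' := fun c x hx => ⟨by rw [smul_mul_assoc, mul_smul_comm, hx.1, smul_neg],
        by rw [smul_mul_assoc, mul_smul_comm, hx.2]⟩ }
  have hW : ∀ x ∈ W, star x ∈ W := fun x hx => by
    have a1 := congrArg star hx.1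
    have a2 := congrArg star hx.2
    rw [star_neg, star_mul, star_mul, star_i₀, neg_mul, mul_neg, neg_neg] at a1
    rw [star_mul, star_mul, hth] at a2
    exact ⟨a1.symm, a2.symm⟩
  have hz : ((u : T.C) : D.B) * T.n ∈ W := by
    refine ⟨by rw [mul_assoc, n_i₀, mul_neg, ← mul_assoc, comm_i₀, mul_assoc], ?_⟩
    have a1 : (th : D.B) * (u : T.C) = (u : T.C) * cj T _ hn th :=
      congrArg Subtype.val (u.eq_mul_inv_iff_mul_eq.1 hu)
    rw [← mul_assoc, a1, mul_assoc, mul_assoc]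
    exact congrArg _ (cj_mul hn th).symm
  obtain ⟨x, hx, hx1, hx2⟩ := exists_herm_unit (Quad.ne (k := D.k)) W hW hz
    ((u.isUnit.map (Cz T.i).val).mul T.unit_n)
  have hκ : T.θ • x ∈ W := W.smul_mem _ hx
  have hκ1 : star (T.θ • x) = -(T.θ • x) := by rw [star_smul, T.star_θ, hx1, neg_smul]
  have hκ2 : IsUnit (T.θ • x) := by
    rw [Algebra.smul_def]; exact ((θ_ne T).isUnit.map _).mul hx2
  generalize T.θ • x = κ at hκ hκ1 hκ2
  have hreg := regular_of_squarefree hsq
  obtain ⟨q, hq, hq'⟩ := exists_aeval_of_commute (z := sqC T κ hκ.1) hreg (Subtype.ext (by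
    change (th : D.B) * (κ * κ) = κ * κ * th
    rw [← mul_assoc, ← hκ.2, mul_assoc, ← hκ.2, mul_assoc]))
  have uniq : ∀ f : T.E →+* T.E, aeval th (q.map f) = sqC T κ hκ.1 → ∀ j, f (q.coeff j) = q.coeff j :=
    fun f hf j => by
    rw [← coeff_map]
    congr 1
    by_contra hne
    have := minpoly.degree_le_of_ne_zero T.E th (sub_ne_zero.2 hne) (by rw [map_sub, hf, ← hq', sub_self])
    rw [degree_eq_natDegree (minpoly.ne_zero (Algebra.IsIntegral.isIntegral th)), hreg] at this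
    exact absurd ((degree_sub_le _ _).trans_lt (max_lt (degree_map_le.trans_lt hq) hq)) (not_lt.2 this)
  have hg : (hκ2.unit : D.B) * T.i₀ = -(T.i₀ * hκ2.unit) := hκ.1
  have u1 := uniq (starRingEnd T.E) (by
    have := star_aeval th q
    rw [h.1, ← hq'] at this
    rw [← this]
    exact Subtype.ext (by change star (κ * κ) = κ * κ; rw [star_mul, hκ1, neg_mul_neg]))
  have u2 := uniq (T.σ : T.E →+* T.E) (by
    have := map_aeval_eq_aeval_map (ψ := cj T _ hg) (φ := (T.σ : T.E →+* T.E))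
      (RingHom.ext fun c => (cj_E hg c).symm) q th
    rw [cj_eq hg (c := th) (c' := th) hκ.2, ← hq'] at this
    rw [← this]
    exact cj_eq hg (mul_assoc _ _ _).symm)
  obtain ⟨β, rfl⟩ : ∃ β : D.k[X], β.map (algebraMap D.k T.E) = q :=
    (mem_lifts _).1 ((lifts_iff_coeff_lifts _).2 fun j => fix₀ T (u1 j) (u2 j))
  exact ⟨κ, β, hκ1, hκ2, hκ.1, hκ.2, (congrArg Subtype.val hq').trans (coe_aeval T th β)⟩

/-- the reduced norm of `n ^ 2` lies in `k` -/
theorem exists_c₀ : ∃ c₀ : D.kˣ, algebraMap D.k T.E c₀ = Nrd T.E (sqC T T.n (n_i₀ T)) := by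
  have hn : (T.unit_n.unit : D.B) * T.i₀ = -(T.i₀ * T.unit_n.unit) := n_i₀ T
  obtain ⟨c, hc⟩ := fix₀ T (c := Nrd T.E (sqC T T.n (n_i₀ T))) (by
    rw [← T24.Nrd_star]; congr 1
    exact Subtype.ext (by change star (T.n * T.n) = T.n * T.n; rw [star_mul, T.star_n, neg_mul_neg]))
    (by rw [← nrd_cj hn, cj_eq hn (c' := sqC T T.n (n_i₀ T)) (mul_assoc _ _ _).symm])
  have hu : IsUnit (sqC T T.n (n_i₀ T)) :=
    isUnit_of_map (K := D.K) (Cz T.i).val.toRingHom Subtype.val_injective (T.unit_n.mul T.unit_n)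
  refine ⟨Units.mk0 c fun h0 => (isUnit_iff_Nrd (K := T.E) _).1 hu ?_, hc⟩
  rw [← hc, h0, map_zero]

/-- the reduced norm of `κ ^ 2` -/
theorem nrd_sq {κ : D.B} (h1 : star κ = -κ) (h : κ * T.i₀ = -(T.i₀ * κ)) : ∃ x y : D.k,
    Nrd T.E (sqC T κ h) =
      algebraMap D.k T.E (x ^ 2 - T.ε * y ^ 2) * Nrd T.E (sqC T T.n (n_i₀ T)) := by
  have hn : (T.unit_n.unit : D.B) * T.i₀ = -(T.i₀ * T.unit_n.unit) := n_i₀ T
  obtain ⟨c, rfl⟩ : ∃ c : T.C, κ = c * T.n := by
    refine ⟨⟨κ * ↑T.unit_n.unit⁻¹, mem_C T (T.unit_n.unit.mul_left_inj.1 ?_)⟩,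
      (Units.inv_mul_cancel_right κ T.unit_n.unit).symm⟩
    rw [mul_assoc, ← neg_eq_iff_eq_neg.2 hn, mul_neg, ← mul_assoc, Units.inv_mul_cancel_right,
      mul_assoc, Units.inv_mul_cancel_right, h, neg_neg]
  have a1 : cj T _ hn (star c) = c := cj_eq hn (by
    rw [star_mul, T.star_n, neg_mul, neg_inj] at h1; exact h1)
  have a2 : sqC T _ h = c * cj T _ hn c * sqC T T.n (n_i₀ T) := Subtype.ext (by
    change (c : D.B) * T.n * (c * T.n) = c * cj T _ hn c * (T.n * T.n)
    rw [mul_assoc, mul_assoc, ← mul_assoc T.n, ← mul_assoc _ T.n T.n]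
    exact congrArg (fun z => (c : D.B) * (z * T.n)) (cj_mul hn c).symm)
  obtain ⟨x, y, hxy⟩ := fix₂ T (c := Nrd T.E c) (by rw [← T24.Nrd_star, ← nrd_cj hn, a1])
  refine ⟨x, y, ?_⟩
  rw [a2, map_mul, map_mul, nrd_cj, hxy, map_add, map_mul, σ_k, σ_k, σ_η, map_sub, map_mul, map_pow,
    map_pow, ← η_sq]
  ring

end K42

open K42 in
theorem kapStmt : KapStmt.{u, v, w} := fun D T => by
  obtain ⟨c₀, hc₀⟩ := exists_c₀ T
  refine ⟨c₀, fun P th hP h => ?_⟩
  have hm : P.Monic := monic_of_injective (algebraMap D.k T.E).injective (HC.rch h ▸ rch_monic T.E th)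
  have hP' : Irreducible P := hm.irreducible_of_irreducible_map _ _ hP
  obtain ⟨κ, β, hκ⟩ := exists_kp T hP'.separable h
  refine ⟨κ, β, hκ, fun F _ _ _ l hl hF b hb => ?_⟩
  obtain ⟨x, y, hxy⟩ := nrd_sq T hκ.skew hκ.anti
  have h1 : sqC T κ hκ.anti = aeval th (β.map (algebraMap D.k T.E)) :=
    Subtype.ext (hκ.sq.trans (coe_aeval T th β).symm)
  rw [h1, nrd_aeval hP'.separable (HC.rch h) (minpoly.eq_of_irreducible_of_monic hP' hl hm).symm hF,
    ← hc₀, ← map_mul, (algebraMap D.k T.E).injective.eq_iff, ← hb] at hxy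
  exact ⟨x, y, by rw [Units.val_div_eq_div_val, div_eq_iff c₀.ne_zero]; exact hxy⟩

end Crest.Agent.T24.Evn
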