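import Crest.Agent.T24.BcA_98

/-!
# Row 24: the dichotomy for the base change to a field (split models, non-split fields).
-/

set_option autoImplicit false
set_option linter.unusedSectionVars false
set_option linter.style.haveILetI false

noncomputable section

namespace Crest.Agent.T24

open Module Csa Topology BC
open scoped TensorProduct

universe u v w

/-- a split model: `F ⊗_k B = C × Cᵒᵖ` -/
structure SM (k K B F C : Type*) [Field k] [Field K] [Algebra k K] [Ring B] [Algebra K B]
    [Algebra k B] [Field F] [Algebra k F] [Ring C] [Algebra k C] [Algebra F C] where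
  /-- the embedding of `K` -/
  ι : K →ₐ[k] F
  /-- the map to the model -/
  ψ : B →ₐ[k] C
  compat : ∀ c : K, ψ (algebraMap K B c) = algebraMap F C (ι c)
  fr : finrank F C = finrank K B

namespace SM
variable {k K B F C : Type*} [Field k] [NumberField k] [Field K] [NumberField K] [Algebra k K]
  [StarRing K] [Quad k K] [Ring B] [StarRing B] [Algebra K B] [StarModule K B]
  [Algebra.IsCentral K B] [IsSimpleRing B] [FiniteDimensional K B] [Algebra k B]
  [IsScalarTower k K B] [Field F] [Algebra k F] [Ring C] [Algebra k C] [Algebra F C]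
  [IsScalarTower k F C] (s : SM k K B F C)

include s in
theorem finite : FiniteDimensional F C :=
  Module.finite_of_finrank_pos (by rw [s.fr]; exact finrank_pos)

include s in
theorem nontrivial : Nontrivial C :=
  Module.nontrivial_of_finrank_pos (R := F) (by rw [s.fr]; exact finrank_pos)

/-- the model of the centre -/
def ctr : SM k K K F F := ⟨s.ι, s.ι, fun _ => rfl, by simp⟩

/-- the first projection -/
def hat : BC k K B F →ₐ[F] C := lift k K B F s.ψ

@[simp] theorem hat_inc (b : B) : s.hat (inc k K B F b) = s.ψ b := lift_inc k K B F _ b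

theorem hat_cen (c : BC k K K F) : s.hat (cen k K B F c) = algebraMap F C (s.ctr.hat c) := by
  refine ind c (by simp) (fun r c => ?_) (fun a b ha hb => ?_)
  · rw [map_smul, map_smul, map_smul, cen_inc, hat_inc, hat_inc, s.compat, smul_eq_mul, map_mul,
      Algebra.smul_def]; rfl
  · rw [map_add, map_add, map_add, map_add, ha, hb]

theorem hat_surjective : Function.Surjective s.hat := by
  haveI := s.nontrivial
  intro y
  let b := mapBasis (L := F) (finBasis K B) s.ψ.toRingHom s.fr
  refine ⟨∑ i, b.repr y i • inc k K B F (finBasis K B i), ?_⟩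
  conv_rhs => rw [← b.sum_repr y]
  simp [b]

/-- the idempotent cutting out the first factor -/
theorem exists_idem : ∃ e : BC k K K F, s.ctr.hat e = 1 ∧ s.ctr.hat (star e) = 0 := by
  obtain ⟨θ, h0, hθ⟩ := exists_skew (Quad.ne (k := k) (K := K))
  haveI : CharZero F := charZero_of_injective_algebraMap (algebraMap k F).injective
  have h1 : s.ι θ ≠ 0 := by simpa using h0
  refine ⟨(2 : F)⁻¹ • (1 + (s.ι θ)⁻¹ • inc k K K F θ), ?_, ?_⟩
  · rw [map_smul, map_add, map_one, map_smul, hat_inc]
    change (2 : F)⁻¹ * (1 + (s.ι θ)⁻¹ * s.ι θ) = 1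
    rw [inv_mul_cancel₀ h1]; norm_num
  · rw [star_rsmul, star_add, star_one, star_rsmul, star_inc, hθ, map_smul, map_add, map_one,
      map_smul, hat_inc]
    change (2 : F)⁻¹ * (1 + (s.ι θ)⁻¹ * s.ι (-θ)) = 0
    rw [map_neg, mul_neg, inv_mul_cancel₀ h1]; norm_num

/-- `x ↦ (hat x, hat x*)` -/
def phi₀ : BC k K B F →ₗ[F] C × C :=
  s.hat.toLinearMap.prod (s.hat.toLinearMap.comp (starR k K B F))

theorem phi₀_bijective : Function.Bijective s.phi₀ := by
  haveI := s.finite
  have hs : Function.Surjective s.phi₀ := by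
    rintro ⟨y, z⟩
    obtain ⟨e, h1, h2⟩ := s.exists_idem
    obtain ⟨y, rfl⟩ := s.hat_surjective y
    obtain ⟨z, rfl⟩ := s.hat_surjective z
    refine ⟨cen k K B F e * y + star (cen k K B F e * z), Prod.ext ?_ ?_⟩
    · change s.hat _ = _
      rw [map_add, star_mul, map_mul, map_mul, star_cen, hat_cen, hat_cen, h1, h2]; simp
    · change s.hat (star _) = _
      rw [star_add, star_star, map_add, star_mul, map_mul, map_mul, star_cen, hat_cen, hat_cen, h1,
        h2]; simp
  refine ⟨(LinearMap.injective_iff_surjective_of_finrank_eq_finrank ?_).2 hs, hs⟩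
  rw [finrank_BC, finrank_prod, s.fr, two_mul]

/-- `F ⊗_k B ≃ C × C`, `x ↦ (hat x, hat x*)` -/
def phi : BC k K B F ≃ₗ[F] C × C := LinearEquiv.ofBijective s.phi₀ s.phi₀_bijective

theorem phi_apply (x : BC k K B F) : s.phi x = (s.hat x, s.hat (star x)) := rfl

theorem ext' {x y : BC k K B F} (h1 : s.hat x = s.hat y) (h2 : s.hat (star x) = s.hat (star y)) :
    x = y := s.phi.injective (Prod.ext h1 h2)

/-- the element with components `y`, `z` -/
def mk' (y z : C) : BC k K B F := s.phi.symm (y, z)

@[simp] theorem hat_mk' (y z : C) : s.hat (s.mk' y z) = y :=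
  congrArg Prod.fst (s.phi.apply_symm_apply (y, z))

@[simp] theorem hat_star_mk' (y z : C) : s.hat (star (s.mk' y z)) = z :=
  congrArg Prod.snd (s.phi.apply_symm_apply (y, z))

theorem mk'_hat (x : BC k K B F) : s.mk' (s.hat x) (s.hat (star x)) = x :=
  s.phi.symm_apply_apply x

theorem star_mk' (y z : C) : star (s.mk' y z) = s.mk' z y := s.ext' (by simp) (by simp)

theorem mk'_mul (y z y' z' : C) : s.mk' y z * s.mk' y' z' = s.mk' (y * y') (z' * z) :=
  s.ext' (by simp) (by simp [-hat_star_mk', star_mul, s.hat_star_mk'])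

theorem mk'_one : s.mk' 1 1 = 1 := s.ext' (by simp) (by simp)

/-- hermitian elements are determined by their first component -/
theorem herm_ext {x y : BC k K B F} (hx : star x = x) (hy : star y = y) (h : s.hat x = s.hat y) :
    x = y := s.ext' h (by rw [hx, hy, h])

theorem exists_herm (y : C) : ∃ x : BC k K B F, star x = x ∧ s.hat x = y :=
  ⟨s.mk' y y, s.star_mk' y y, s.hat_mk' y y⟩

theorem exists_skew (y : C) : ∃ x : BC k K B F, star x = -x ∧ s.hat x = y :=
  ⟨s.mk' y (-y), s.ext' (by simp) (by simp), s.hat_mk' _ _⟩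

theorem isUnit_iff (x : BC k K B F) : IsUnit x ↔ IsUnit (s.hat x) ∧ IsUnit (s.hat (star x)) := by
  refine ⟨fun h => ⟨h.map _, h.star.map _⟩, fun ⟨⟨y, hy⟩, ⟨z, hz⟩⟩ => ?_⟩
  rw [← s.mk'_hat x, ← hy, ← hz]
  exact ⟨⟨s.mk' y z, s.mk' ↑y⁻¹ ↑z⁻¹, by simp [mk'_mul, mk'_one], by simp [mk'_mul, mk'_one]⟩, rfl⟩

/-- `U(F) = Cˣ` -/
def uEquiv : Uc k K B F ≃* Cˣ where
  toFun u := ⟨s.hat u, s.hat (star (u : BC k K B F)), by rw [← map_mul, u.2.2, map_one],
    by rw [← map_mul, u.2.1, map_one]⟩
  invFun g := ⟨s.mk' g ↑g⁻¹, by simp [Unitary.mem_iff, star_mk', mk'_mul, mk'_one]⟩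
  left_inv u := Subtype.ext (s.mk'_hat _)
  right_inv g := Units.ext (s.hat_mk' _ _)
  map_mul' a b := Units.ext (map_mul s.hat _ _)

@[simp] theorem coe_uEquiv (u : Uc k K B F) : (s.uEquiv u : C) = s.hat u := rfl

@[simp] theorem coe_uEquiv_inv (u : Uc k K B F) :
    (((s.uEquiv u)⁻¹ : Cˣ) : C) = s.hat (star (u : BC k K B F)) := rfl

theorem coe_uEquiv_symm (g : Cˣ) : (s.uEquiv.symm g : BC k K B F) = s.mk' g ↑g⁻¹ := rfl

theorem nrdK_eq_one_iff (u : Uc k K B F) :
    nrdK k K B F (u : BC k K B F) = 1 ↔ s.ctr.hat (nrdK k K B F (u : BC k K B F)) = 1 := by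
  refine ⟨fun h => by rw [h, map_one], fun h => s.ctr.ext' (by rw [h, map_one]) ?_⟩
  have := congrArg s.ctr.hat (nrdK_unitary u)
  rwa [map_mul, h, mul_one, ← star_one] at this

theorem hat_nrdK_sum {ι : Type*} [Fintype ι] (e : ι → B) (r : ι → F) :
    s.ctr.hat (nrdK k K B F (∑ i, r i • inc k K B F (e i))) =
      MvPolynomial.eval₂ (s.ι : K →+* F) r (nrdP K e) := by
  rw [nrdK_sum]
  refine (MvPolynomial.eval₂_comp_left s.ctr.hat.toRingHom (inc k K K F).toRingHom
    (fun i => algebraMap F _ (r i)) (nrdP K e)).trans ?_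
  congr 1
  · exact RingHom.ext fun c => s.ctr.hat_inc c
  · funext i
    exact s.ctr.hat.commutes (r i)

section Csa
variable [CharZero F] [Algebra.IsCentral F C] [IsSimpleRing C] [FiniteDimensional F C]

include s in
theorem deg_eq : deg F C = deg K B := by rw [deg, deg, s.fr]

theorem Nrd_hat (x : BC k K B F) : Nrd F (s.hat x) = s.ctr.hat (nrdK k K B F x) := by
  haveI := finite_kB k K B
  rw [eq_sum (finBasis k B) x, hat_nrdK_sum, map_sum]
  simp only [map_smul, hat_inc]
  rw [← eval_nrdP, ← MvPolynomial.eval_map,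
    ← nrdP_baseChange (s.ι : K →+* F) s.ψ.toRingHom s.compat s.fr]
  rfl

theorem mem_SUc_iff (u : Uc k K B F) : u ∈ SUc k K B F ↔ Nrd F (s.hat u) = 1 := by
  rw [BC.mem_SUc_iff, s.nrdK_eq_one_iff, Nrd_hat]

end Csa

section Top
variable [TopologicalSpace F] [IsTopologicalRing F] [TopologicalSpace C] [IsModuleTopology F C]

theorem continuous_hat : Continuous s.hat :=
  haveI := IsModuleTopology.toContinuousAdd F C
  IsModuleTopology.continuous_of_linearMap s.hat.toLinearMap

theorem continuous_mk' : Continuous fun p : C × C => s.mk' p.1 p.2 :=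
  IsModuleTopology.continuous_of_linearMap s.phi.symm.toLinearMap

/-- `F ⊗_k B ≃ C × C` as topological vector spaces -/
def phiL : BC k K B F ≃L[F] C × C :=
  { s.phi with
    continuous_toFun := s.continuous_hat.prodMk (s.continuous_hat.comp continuous_star)
    continuous_invFun := s.continuous_mk' }

/-- `U(F) = Cˣ` as topological groups -/
def uHomeo : Uc k K B F ≃ₜ* Cˣ :=
  { s.uEquiv with
    continuous_toFun := Units.continuous_iff.2 ⟨s.continuous_hat.comp continuous_subtype_val,
      s.continuous_hat.comp (continuous_star.comp continuous_subtype_val)⟩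
    continuous_invFun := Continuous.subtype_mk
      (s.continuous_mk'.comp (Units.continuous_val.prodMk Units.continuous_coe_inv)) _ }

@[simp] theorem coe_uHomeo (u : Uc k K B F) : (s.uHomeo u : C) = s.hat u := rfl

end Top

section Mat
variable {n : Type*} [Fintype n] [DecidableEq n] (s : SM k K B F (Matrix n n F))

theorem card_sq (t : SM k K B F (Matrix n n F)) : finrank K B = Fintype.card n ^ 2 := by
  rw [← t.fr, finrank_mat]

theorem det_hat (x : BC k K B F) : (s.hat x).det = s.ctr.hat (nrdK k K B F x) := by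
  haveI := finite_kB k K B
  rw [eq_sum (finBasis k B) x, hat_nrdK_sum, map_sum]
  simp only [map_smul, hat_inc]
  exact det_sum (s.ι : K →+* F) s.ψ.toRingHom s.compat s.card_sq _ _

theorem mem_SUc_det (u : Uc k K B F) : u ∈ SUc k K B F ↔ (s.hat u).det = 1 := by
  rw [BC.mem_SUc_iff, s.nrdK_eq_one_iff, det_hat]

/-- `SU(F) = SL_n(F)` -/
def slEquiv : SUc k K B F ≃* Matrix.SpecialLinearGroup n F where
  toFun u := ⟨s.hat (u : Uc k K B F), (s.mem_SUc_det _).1 u.2⟩
  invFun g := ⟨s.uEquiv.symm (Matrix.SpecialLinearGroup.toGL g), by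
    rw [s.mem_SUc_det, coe_uEquiv_symm, hat_mk']; exact g.2⟩
  left_inv u := Subtype.ext (s.uEquiv.injective (Units.ext (by
    rw [MulEquiv.apply_symm_apply]; rfl)))
  right_inv g := Subtype.ext (s.hat_mk' _ _)
  map_mul' a b := Subtype.ext (map_mul s.hat _ _)

/-- `SU(F) = SL_n(F)` as topological groups -/
def slHomeo [TopologicalSpace F] [IsTopologicalRing F] :
    SUc k K B F ≃ₜ* Matrix.SpecialLinearGroup n F :=
  haveI : IsModuleTopology F (Matrix n n F) := inferInstanceAs (IsModuleTopology F (n → n → F))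
  { s.slEquiv with
    continuous_toFun := Continuous.subtype_mk (s.continuous_hat.comp
      (continuous_subtype_val.comp continuous_subtype_val)) _
    continuous_invFun := Continuous.subtype_mk
      (s.uHomeo.symm.continuous.comp Matrix.SpecialLinearGroup.continuous_toGL) _ }

@[simp] theorem coe_slHomeo [TopologicalSpace F] [IsTopologicalRing F] (u : SUc k K B F) :
    (s.slHomeo u : Matrix n n F) = s.hat (u : Uc k K B F) := rfl

end Mat

end SM

section Ex
variable (k K B F : Type*) [Field k] [Field K] [Algebra k K] [Ring B] [Algebra K B] [Algebra k B]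
  [IsScalarTower k K B] [Field F] [Algebra k F] [Algebra K F] [IsScalarTower k K F]

/-- the tautological split model `C = F ⊗_K B` -/
def SM.taut : SM k K B F (F ⊗[K] B) where
  ι := IsScalarTower.toAlgHom k K F
  ψ := (Algebra.TensorProduct.includeRight (R := K) (A := F) (B := B)).restrictScalars k
  compat c := ((Algebra.TensorProduct.includeRight (R := K) (A := F) (B := B)).commutes c).trans
    (IsScalarTower.algebraMap_apply K F (F ⊗[K] B) c)
  fr := Module.finrank_baseChange

end Ex

section Spl
variable {k K B : Type*} [Field k] [NumberField k] [Field K] [NumberField K] [Algebra k K]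
  [StarRing K] [Quad k K] [Ring B] [StarRing B] [Algebra K B] [StarModule K B]
  [Algebra.IsCentral K B] [IsSimpleRing B] [FiniteDimensional K B] [Algebra k B]
  [IsScalarTower k K B]

/-- the split model of a splitting -/
def Spl.sm {v : Asa.Pl k} (s : Spl K B v) :
    SM k K B (Kv v) (Matrix (Fin (deg K B)) (Fin (deg K B)) (Kv v)) where
  ι := s.ι
  ψ := { s.ψ with
    commutes' := fun c => by
      change s.ψ _ = _
      rw [IsScalarTower.algebraMap_apply k K B, s.compat, AlgHom.commutes,
        ← IsScalarTower.algebraMap_apply] }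
  compat := s.compat
  fr := by rw [finrank_mat, ← sp_card]

theorem Spl.sm_ψ {v : Asa.Pl k} (s : Spl K B v) (b : B) : s.sm.ψ b = s.ψ b := rfl

theorem Spl.sm_toG {v : Asa.Pl k} (s : Spl K B v) (g : SU K B) :
    s.sm.slHomeo (toG k K B (Kv v) g) = s.toSL g := Subtype.ext (s.sm.hat_inc _)

variable (k K B) in
theorem splIso : SplIso k K B := fun _ s => ⟨s.sm.slHomeo, s.sm_toG⟩

end Spl

theorem splIsoStmt : SplIsoStmt.{u, v, w} := fun D => splIso D.k D.K D.B

/-! ### The non-split case -/

namespace BC
section NonSplit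
variable (k K F : Type*) [Field k] [NumberField k] [Field K] [NumberField K] [Algebra k K]
  [StarRing K] [Quad k K] [Field F] [Algebra k F]

/-- a square root of `θ²` in `F` gives an embedding of `K` -/
theorem exists_emb {θ : K} (h0 : θ ≠ 0) (hθ : star θ = -θ) {δ : k} (hδ : algebraMap k K δ = θ * θ)
    {t : F} (ht : t * t = algebraMap k F δ) : ∃ ι : K →ₐ[k] F, ι θ = t := by
  have hli : LinearIndependent k ![(1 : K), θ] := by
    refine LinearIndependent.pair_iff.2 fun a b h => ?_
    have h1 := congrArg star h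
    rw [star_add, star_ksmul k K K, star_ksmul k K K, star_one, hθ, star_zero, smul_neg] at h1
    have h2 : (2 * a) • (1 : K) = 0 := by rw [two_mul, add_smul]; linear_combination h + h1
    have h3 : (2 * b) • θ = 0 := by rw [two_mul, add_smul]; linear_combination h - h1
    simpa [h0] using And.intro h2 h3
  let b : Basis (Fin 2) k K := basisOfLinearIndependentOfCardEqFinrank hli
    (by rw [Quad.fr (k := k) (K := K)]; rfl)
  have b0 : b 0 = 1 := by simp [b]
  have b1 : b 1 = θ := by simp [b]
  let f : K →ₗ[k] F := b.constr k ![1, t]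
  have f0 : f 1 = 1 := by rw [← b0]; simp [f]
  have f1 : f θ = t := by rw [← b1]; simp [f]
  have key : ∀ a c : k, f (algebraMap k K a + algebraMap k K c * θ) =
      algebraMap k F a + algebraMap k F c * t := fun a c => by
    rw [← Algebra.smul_def, Algebra.algebraMap_eq_smul_one, map_add, map_smul, map_smul, f0, f1,
      ← Algebra.algebraMap_eq_smul_one, Algebra.smul_def]
  refine ⟨AlgHom.ofLinearMap f f0 fun x y => ?_, f1⟩
  obtain ⟨a, c, rfl⟩ := exists_coord (Quad.fr (k := k) (K := K)) Quad.star_k h0 hθ x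
  obtain ⟨a', c', rfl⟩ := exists_coord (Quad.fr (k := k) (K := K)) Quad.star_k h0 hθ y
  have : (algebraMap k K a + algebraMap k K c * θ) * (algebraMap k K a' + algebraMap k K c' * θ) =
      algebraMap k K (a * a' + c * c' * δ) + algebraMap k K (a * c' + c * a') * θ := by
    simp only [map_add, map_mul, hδ]; ring
  rw [this, key, key, key]
  simp only [map_add, map_mul, ← ht]; ring

theorem exists_delta : ∃ (θ : K) (δ : k), θ ≠ 0 ∧ star θ = -θ ∧ algebraMap k K δ = θ * θ := by
  obtain ⟨θ, h0, hθ⟩ := Csa.exists_skew (Quad.ne (k := k) (K := K))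
  obtain ⟨δ, hδ⟩ := exists_of_star_eq (Quad.fr (k := k) (K := K)) Quad.star_k
    (Quad.ne (k := k) (K := K)) (c := θ * θ) (by rw [star_mul, hθ, neg_mul_neg])
  exact ⟨θ, δ, h0, hθ, hδ⟩

theorem nonempty_emb_iff {θ : K} (h0 : θ ≠ 0) (hθ : star θ = -θ) {δ : k}
    (hδ : algebraMap k K δ = θ * θ) : Nonempty (K →ₐ[k] F) ↔ IsSquare (algebraMap k F δ) :=
  ⟨fun ⟨ι⟩ => ⟨ι θ, by rw [← map_mul, ← hδ, AlgHom.commutes]⟩,
    fun ⟨t, ht⟩ => ⟨(exists_emb k K F h0 hθ hδ ht.symm).choose⟩⟩

variable [IsEmpty (K →ₐ[k] F)]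

theorem isField : IsField (BC k K K F) := by
  haveI : Nontrivial (BC k K K F) := (inc_injective k K K F).nontrivial
  refine ⟨exists_pair_ne _, mul_comm, fun {x} hx => ?_⟩
  obtain ⟨θ, δ, h0, hθ, hδ⟩ := exists_delta k K
  obtain ⟨a, b, rfl⟩ := exists_coordE k K F h0 hθ x
  have hsq : inc k K K F θ * inc k K K F θ = algebraMap F _ (algebraMap k F δ) := by
    rw [← map_mul, ← hδ, AlgHom.commutes, IsScalarTower.algebraMap_apply k F (BC k K K F)]
  have hn : a * a - b * b * algebraMap k F δ ≠ 0 := fun h => by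
    by_cases hb : b = 0
    · subst hb
      have : a = 0 := by simpa using h
      exact hx (by simp [this])
    · exact IsEmpty.false (exists_emb k K F h0 hθ hδ (t := a / b)
        (by field_simp; linear_combination h)).choose
  refine ⟨(a * a - b * b * algebraMap k F δ)⁻¹ • (algebraMap F _ a - b • inc k K K F θ), ?_⟩
  have : (algebraMap F _ a + b • inc k K K F θ) * (algebraMap F _ a - b • inc k K K F θ) =
      algebraMap F _ (a * a - b * b * algebraMap k F δ) := by
    simp only [map_sub, map_mul, ← hsq, Algebra.smul_def]; ring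
  rw [mul_smul_comm, this, Algebra.smul_def, ← map_mul, inv_mul_cancel₀ hn, map_one]

instance fieldE : Field (BC k K K F) :=
  { (inferInstance : CommRing (BC k K K F)), (isField k K F).toField with }

instance : CharZero (BC k K K F) :=
  charZero_of_injective_algebraMap (algebraMap k (BC k K K F)).injective

instance quadE : Quad F (BC k K K F) where
  fr := by rw [finrank_BC, finrank_self]
  star_k := star_algebraMap
  ne := by
    obtain ⟨c, hc⟩ := Quad.ne (k := k) (K := K)
    exact ⟨inc k K K F c, fun h => hc (inc_injective k K K F h)⟩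

variable (B : Type*) [Ring B] [StarRing B] [Algebra K B] [StarModule K B]
  [Algebra.IsCentral K B] [IsSimpleRing B] [FiniteDimensional K B] [Algebra k B]
  [IsScalarTower k K B]

instance : FiniteDimensional (BC k K K F) (BC k K B F) :=
  Module.Finite.of_restrictScalars_finite F _ _

theorem finrank_E : finrank (BC k K K F) (BC k K B F) = finrank K B := by
  have := Module.finrank_mul_finrank F (BC k K K F) (BC k K B F)
  rw [Quad.fr, finrank_BC] at this
  omega

theorem deg_E : deg (BC k K K F) (BC k K B F) = deg K B := by rw [deg, deg, finrank_E]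

theorem inc_compat (c : K) : inc k K B F (algebraMap K B c) =
    algebraMap (BC k K K F) (BC k K B F) (inc k K K F c) := rfl

theorem exists_equiv : letI : Algebra K (BC k K K F) := (inc k K K F).toRingHom.toAlgebra
    Nonempty (BC k K K F ⊗[K] B ≃ₐ[BC k K K F] BC k K B F) := by
  letI : Algebra K (BC k K K F) := (inc k K K F).toRingHom.toAlgebra
  letI : Algebra K (BC k K B F) := ((cen k K B F).toRingHom.comp
    (inc k K K F).toRingHom).toAlgebra' fun c x => cen_comm k K B F (inc k K K F c) x
  haveI : IsScalarTower K (BC k K K F) (BC k K B F) := IsScalarTower.of_algebraMap_eq fun _ => rfl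
  haveI : Nontrivial (BC k K B F) := (inc_injective k K B F).nontrivial
  exact ⟨bcEquiv (K := K) (B := B) (L := BC k K K F) (C := BC k K B F)
    { (inc k K B F).toRingHom with commutes' := fun _ => rfl } (finrank_E k K F B)⟩

instance : IsSimpleRing (BC k K B F) := by
  letI : Algebra K (BC k K K F) := (inc k K K F).toRingHom.toAlgebra
  obtain ⟨e⟩ := exists_equiv k K F B
  haveI : IsSimpleRing (BC k K K F ⊗[K] B) := isSimpleRing_tensor
  exact IsSimpleRing.of_ringEquiv e.toRingEquiv inferInstance

instance : Algebra.IsCentral (BC k K K F) (BC k K B F) := by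
  letI : Algebra K (BC k K K F) := (inc k K K F).toRingHom.toAlgebra
  obtain ⟨e⟩ := exists_equiv k K F B
  haveI : Algebra.IsCentral (BC k K K F) (BC k K K F ⊗[K] B) := isCentral_tensor
  refine ⟨fun x hx => ?_⟩
  obtain ⟨y, rfl⟩ := e.surjective x
  have hy : y ∈ Subalgebra.center (BC k K K F) (BC k K K F ⊗[K] B) :=
    Subalgebra.mem_center_iff.2 fun b => e.injective (by
      rw [map_mul, map_mul]; exact Subalgebra.mem_center_iff.1 hx _)
  obtain ⟨c, rfl⟩ := Algebra.mem_bot.1 (Algebra.IsCentral.out hy)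
  exact Algebra.mem_bot.2 ⟨c, (e.commutes c).symm⟩

variable {k K F B}

theorem Nrd_E (x : BC k K B F) : Nrd (BC k K K F) x = nrdK k K B F x := by
  haveI := finite_kB k K B
  rw [eq_sum (finBasis k B) x, nrdK_sum, ← MvPolynomial.eval_map,
    ← nrdP_baseChange (inc k K K F).toRingHom (inc k K B F).toRingHom (inc_compat k K F B)
      (finrank_E k K F B), eval_nrdP]
  simp only [algebraMap_smul]
  rfl

theorem mem_SUc_E (u : Uc k K B F) : u ∈ SUc k K B F ↔ Nrd (BC k K K F) (u : BC k K B F) = 1 := by
  rw [mem_SUc_iff, Nrd_E]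

theorem rch_inc (b : B) :
    rch (BC k K K F) (inc k K B F b) = (rch K b).map (inc k K K F).toRingHom :=
  rch_map (inc k K K F).toRingHom (inc k K B F).toRingHom (inc_compat k K F B)
    (finrank_E k K F B) b

end NonSplit
end BC

end Crest.Agent.T24
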