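import Crest.Agent.T24.CsaP_50
import Crest.Agent.T24.Csa3_56

/-! Central simple algebras with an involution of the second kind (`star`). -/

set_option autoImplicit false

noncomputable section

namespace Crest.Agent.T24.Csa

open scoped TensorProduct
open Module Polynomial

section Centre

variable {K : Type*} [Field K] [StarRing K]

theorem exists_skew (hne : ∃ c : K, star c ≠ c) : ∃ θ : K, θ ≠ 0 ∧ star θ = -θ := by
  obtain ⟨c, hc⟩ := hne
  exact ⟨c - star c, sub_ne_zero.2 hc.symm, by simp⟩

/-- Hilbert 90 for `star` -/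
theorem hilbert90 [CharZero K] (hne : ∃ c : K, star c ≠ c) {l : K} (h : l * star l = 1) :
    ∃ c : K, c ≠ 0 ∧ c = l * star c := by
  by_cases h1 : l = -1
  · obtain ⟨θ, h0, hθ⟩ := exists_skew hne
    exact ⟨θ, h0, by rw [h1, hθ]; ring⟩
  · refine ⟨1 + l, fun h0 => h1 (by linear_combination h0), ?_⟩
    rw [star_add, star_one, mul_add, h]; ring

variable {k : Type*} [Field k] [Algebra k K]

/-- `1, θ` is a basis -/
theorem exists_coord (h2 : finrank k K = 2) (hk : ∀ a : k, star (algebraMap k K a) = algebraMap k K a)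
    [CharZero K] {θ : K} (h0 : θ ≠ 0) (hθ : star θ = -θ) (c : K) :
    ∃ a b : k, c = algebraMap k K a + algebraMap k K b * θ := by
  have hli : LinearIndependent k ![(1 : K), θ] := by
    rw [LinearIndependent.pair_iff]
    intro s t h
    rw [Algebra.smul_def, Algebra.smul_def, mul_one] at h
    have h' := congrArg star h
    rw [star_add, star_mul', hk, hk, hθ, star_zero] at h'
    have hs : algebraMap k K s = 0 := by linear_combination (h + h') / 2
    have ht : algebraMap k K t * θ = 0 := by linear_combination (h - h') / 2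
    exact ⟨(_root_.map_eq_zero _).1 hs,
      (_root_.map_eq_zero _).1 ((mul_eq_zero.1 ht).resolve_right h0)⟩
  have hsp := hli.span_eq_top_of_card_eq_finrank (by simp [h2])
  obtain ⟨f, hf⟩ := (Submodule.mem_span_range_iff_exists_fun k).1 (hsp ▸ Submodule.mem_top (x := c))
  exact ⟨f 0, f 1, by simp [← hf, Fin.sum_univ_two, Algebra.smul_def]⟩

/-- the fixed field of `star` -/
theorem exists_of_star_eq (h2 : finrank k K = 2)
    (hk : ∀ a : k, star (algebraMap k K a) = algebraMap k K a) (hne : ∃ c : K, star c ≠ c)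
    [CharZero K] {c : K} (hc : star c = c) : ∃ a : k, algebraMap k K a = c := by
  obtain ⟨θ, h0, hθ⟩ := exists_skew hne
  obtain ⟨a, b, rfl⟩ := exists_coord h2 hk h0 hθ c
  rw [star_add, star_mul', hk, hk, hθ] at hc
  exact ⟨a, by linear_combination hc / 2⟩

theorem exists_map_of_star (hfix : ∀ c : K, star c = c → ∃ a : k, algebraMap k K a = c) {p : K[X]}
    (hp : p.map (starRingEnd K) = p) : ∃ q : k[X], q.map (algebraMap k K) = p :=
  (mem_lifts _).1 ((lifts_iff_coeff_lifts _).2 fun j => hfix _ (by
    conv_rhs => rw [← hp, coeff_map]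
    rfl))

end Centre

section Star

variable {K B : Type*} [Field K] [StarRing K] [Ring B] [StarRing B] [Algebra K B] [StarModule K B]

theorem star_algebraMap (c : K) : star (algebraMap K B c) = algebraMap K B (star c) :=
  (algebraMap_star_comm c).symm

theorem star_aeval (x : B) (p : K[X]) :
    star (aeval x p) = aeval (star x) (p.map (starRingEnd K)) := by
  induction p using Polynomial.induction_on' with
  | add p q hp hq => rw [map_add, star_add, hp, hq, Polynomial.map_add, map_add]
  | monomial n a =>
    rw [Polynomial.map_monomial, aeval_monomial, aeval_monomial, star_mul, star_pow,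
      star_algebraMap, ← Algebra.commutes]
    rfl

/-- decomposition into hermitian parts -/
theorem herm_decomp [CharZero K] {θ : K} (h0 : θ ≠ 0) (hθ : star θ = -θ) (x : B) :
    ∃ a b : B, star a = a ∧ star b = b ∧ x = a + θ • b := by
  refine ⟨(2⁻¹ : K) • (x + star x), (2 * θ)⁻¹ • (x - star x), ?_, ?_, ?_⟩
  · simp [add_comm]
  · rw [star_smul, star_inv₀, star_mul', hθ, star_ofNat, star_sub, star_star, mul_neg, inv_neg,
      neg_smul, ← smul_neg, neg_sub]
  · rw [smul_smul, show θ * (2 * θ)⁻¹ = 2⁻¹ by field_simp, ← smul_add]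
    rw [show x + star x + (x - star x) = (2 : K) • x by rw [two_smul]; abel, smul_smul]; simp

theorem herm_decomp_unique [CharZero K] {θ : K} (h0 : θ ≠ 0) (hθ : star θ = -θ) {a b : B}
    (ha : star a = a) (hb : star b = b) (h : a + θ • b = 0) : a = 0 ∧ b = 0 := by
  have h' := congrArg star h
  rw [star_add, star_smul, ha, hb, hθ, star_zero, neg_smul] at h'
  have h1 : (2 : K) • a = 0 := by
    rw [two_smul, ← add_zero (0 : B)]
    nth_rw 1 [← h]; rw [← h']; abel
  have h2 : a = 0 := (smul_eq_zero.1 h1).resolve_left two_ne_zero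
  rw [h2, zero_add] at h
  exact ⟨h2, (smul_eq_zero.1 h).resolve_left h0⟩

/-- a star-stable subspace is spanned by its hermitian elements -/
theorem le_span_herm [CharZero K] (hne : ∃ c : K, star c ≠ c) (W : Submodule K B)
    (hW : ∀ x ∈ W, star x ∈ W) : W ≤ Submodule.span K {x | x ∈ W ∧ star x = x} := by
  obtain ⟨θ, h0, hθ⟩ := exists_skew hne
  intro x hx
  have e : x = (2⁻¹ : K) • (x + star x) + (2 * θ)⁻¹ • (θ • (x - star x)) := by
    rw [smul_smul, show (2 * θ)⁻¹ * θ = 2⁻¹ by field_simp, ← smul_add]
    rw [show x + star x + (x - star x) = (2 : K) • x by rw [two_smul]; abel, smul_smul]; simp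
  rw [e]
  refine Submodule.add_mem _ (Submodule.smul_mem _ _ (Submodule.subset_span ⟨?_, ?_⟩))
    (Submodule.smul_mem _ _ (Submodule.subset_span ⟨?_, ?_⟩))
  · exact W.add_mem hx (hW x hx)
  · simp [add_comm]
  · exact W.smul_mem _ (W.sub_mem hx (hW x hx))
  · rw [star_smul, hθ, star_sub, star_star, neg_smul, ← smul_neg, neg_sub]

theorem exists_herm_ne_zero [CharZero K] (hne : ∃ c : K, star c ≠ c) (W : Submodule K B)
    (hW : ∀ x ∈ W, star x ∈ W) (h0 : W ≠ ⊥) : ∃ x ∈ W, star x = x ∧ x ≠ 0 := by
  by_contra h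
  push Not at h
  refine h0 (eq_bot_iff.2 ((le_span_herm hne W hW).trans ?_))
  rw [Submodule.span_le]
  rintro x ⟨hx, hx'⟩
  exact h x hx hx'

/-- a finite hermitian spanning family of a star-stable subspace, which is a basis -/
theorem exists_herm_family [CharZero K] [FiniteDimensional K B] (hne : ∃ c : K, star c ≠ c)
    (W : Submodule K B) (hW : ∀ x ∈ W, star x ∈ W) :
    ∃ e : Fin (finrank K W) → B, (∀ i, e i ∈ W ∧ star (e i) = e i) ∧ LinearIndependent K e ∧
      Submodule.span K (Set.range e) = W := by
  have hsp : Submodule.span K {x | x ∈ W ∧ star x = x} = W :=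
    le_antisymm (Submodule.span_le.2 fun x hx => hx.1) (le_span_herm hne W hW)
  obtain ⟨e, h1, h2, h3⟩ := Submodule.exists_fun_fin_finrank_span_eq K {x | x ∈ W ∧ star x = x}
  revert e
  rw [hsp]
  exact fun e h1 h2 h3 => ⟨e, h1, h3, h2⟩

/-- a `K`-basis of hermitian elements -/
theorem exists_herm_basis [CharZero K] [FiniteDimensional K B] (hne : ∃ c : K, star c ≠ c) :
    ∃ e : Basis (Fin (finrank K B)) K B, ∀ i, star (e i) = e i := by
  obtain ⟨e, h1, h2, h3⟩ := exists_herm_family hne (⊤ : Submodule K B) fun _ _ => trivial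
  exact ⟨(Basis.mk h2 h3.ge).reindex (finCongr (finrank_top K B)), fun i => by simp [(h1 _).2]⟩

theorem repr_star {ι : Type*} (e : Basis ι K B) (he : ∀ i, star (e i) = e i) (x : B) (i : ι) :
    e.repr (star x) i = star (e.repr x i) := by
  classical
  have hx : x ∈ Submodule.span K (Set.range e) := e.mem_span x
  induction hx using Submodule.span_induction with
  | mem y hy =>
    obtain ⟨j, rfl⟩ := hy
    rw [he, e.repr_self, Finsupp.single_apply]; split_ifs <;> simp
  | zero => simp
  | add y z _ _ hy hz => simp [hy, hz]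
  | smul c y _ hy => simp [hy]

theorem herm_iff_repr {ι : Type*} (e : Basis ι K B) (he : ∀ i, star (e i) = e i) (x : B) :
    star x = x ↔ ∀ i, star (e.repr x i) = e.repr x i := by
  rw [e.ext_elem_iff]; simp only [repr_star e he]

theorem star_sum_smul {ι : Type*} [Fintype ι] {e : ι → B} (he : ∀ i, star (e i) = e i) {x : ι → K}
    (hx : ∀ i, star (x i) = x i) : star (∑ i, x i • e i) = ∑ i, x i • e i := by
  simp [he, hx]

section KK

variable (k : Type*) [Field k] [Algebra k K] [Algebra k B] [IsScalarTower k K B]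

/-- the hermitian elements as a `k`-space -/
def herm (hk : ∀ a : k, star (algebraMap k K a) = algebraMap k K a) : Submodule k B where
  carrier := {x | star x = x}
  add_mem' ha hb := by simp only [Set.mem_ofPred_eq] at *; rw [star_add, ha, hb]
  zero_mem' := star_zero _
  smul_mem' c x hx := by
    simp only [Set.mem_ofPred_eq] at *
    rw [← algebraMap_smul K c x, star_smul, hk, hx]

variable {k}

theorem mem_herm {hk : ∀ a : k, star (algebraMap k K a) = algebraMap k K a} {x : B} :
    x ∈ herm k hk ↔ star x = x := Iff.rfl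

/-- a hermitian `K`-basis of `B` is a `k`-basis of the hermitian elements -/
def hermBasis (hk : ∀ a : k, star (algebraMap k K a) = algebraMap k K a)
    (hfix : ∀ c : K, star c = c → ∃ a : k, algebraMap k K a = c) {ι : Type*} (e : Basis ι K B)
    (he : ∀ i, star (e i) = e i) : Basis ι k (herm (B := B) k hk) :=
  Basis.mk (v := fun i => ⟨e i, he i⟩)
    (LinearIndependent.of_comp (herm (B := B) k hk).subtype
      (e.linearIndependent.restrict_scalars' k)) (by
    rintro ⟨x, hx⟩ -
    choose a ha using fun i => hfix _ ((herm_iff_repr e he x).1 hx i)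
    have : (⟨x, hx⟩ : herm (B := B) k hk) =
        ∑ i ∈ (e.repr x).support, a i • (⟨e i, he i⟩ : herm (B := B) k hk) := by
      apply Subtype.ext
      simp only [Submodule.coe_sum, Submodule.coe_smul, ← algebraMap_smul K (a _), ha]
      exact (e.linearCombination_repr x).symm
    rw [this]
    exact Submodule.sum_mem _ fun i _ => Submodule.smul_mem _ _ (Submodule.subset_span ⟨i, rfl⟩))

@[simp] theorem hermBasis_apply (hk : ∀ a : k, star (algebraMap k K a) = algebraMap k K a)
    (hfix : ∀ c : K, star c = c → ∃ a : k, algebraMap k K a = c) {ι : Type*} (e : Basis ι K B)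
    (he : ∀ i, star (e i) = e i) (i : ι) : (hermBasis hk hfix e he i : B) = e i := by
  simp [hermBasis]

theorem finrank_herm [CharZero K] [FiniteDimensional K B]
    (hk : ∀ a : k, star (algebraMap k K a) = algebraMap k K a)
    (hfix : ∀ c : K, star c = c → ∃ a : k, algebraMap k K a = c) (hne : ∃ c : K, star c ≠ c) :
    finrank k (herm (B := B) k hk) = finrank K B := by
  obtain ⟨e, he⟩ := exists_herm_basis (B := B) hne
  rw [Module.finrank_eq_card_basis (hermBasis hk hfix e he), Fintype.card_fin]

end KK

section Cayley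

omit [StarRing K] [Algebra K B] [StarModule K B] in
/-- `(star v)⁻¹ v` is unitary for `v` normal -/
theorem unitary_of_normal (v : Bˣ) (h : (v : B) * star (v : B) = star (v : B) * v) :
    star (((v⁻¹ : Bˣ) : B)) * v ∈ unitary B := by
  have h1 : star (((v⁻¹ : Bˣ) : B)) * star (v : B) = 1 := by rw [← star_mul, v.mul_inv, star_one]
  have h2 : star (v : B) * star (((v⁻¹ : Bˣ) : B)) = 1 := by rw [← star_mul, v.inv_mul, star_one]
  have h3 : star (v : B) * (v⁻¹ : Bˣ) = (v⁻¹ : Bˣ) * star (v : B) := by
    rw [Units.mul_inv_eq_iff_eq_mul, mul_assoc, ← h, Units.inv_mul_cancel_left]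
  constructor
  · rw [star_mul, star_star, h3, mul_assoc, ← mul_assoc (star (v : B)), h2, one_mul, v.inv_mul]
  · rw [star_mul, star_star, h3, mul_assoc, v.mul_inv_cancel_left, h1]

omit [StarRing K] [Algebra K B] [StarModule K B] in
/-- inverse Cayley transform: `(1 - u)(1 + u)⁻¹` is skew -/
theorem skew_of_unitary {u : B} (hu : u ∈ unitary B) (w : Bˣ) (hw : (w : B) = 1 + u) :
    star ((1 - u) * (w⁻¹ : Bˣ)) = -((1 - u) * (w⁻¹ : Bˣ)) := by
  have h1 : star (w : B) = star u * w := by rw [hw, mul_add, mul_one, hu.1, star_add, star_one, add_comm]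
  have h2 : star (((w⁻¹ : Bˣ) : B)) = (w⁻¹ : Bˣ) * u := by
    have : star (w : B) * ((w⁻¹ : Bˣ) * u) = 1 := by rw [h1, mul_assoc, w.mul_inv_cancel_left, hu.1]
    have h' : star (((w⁻¹ : Bˣ) : B)) * star (w : B) = 1 := by rw [← star_mul, w.mul_inv, star_one]
    rw [← mul_one (star _), ← this, ← mul_assoc, h', one_mul]
  have h3 : ((w⁻¹ : Bˣ) : B) * (1 - u) = (1 - u) * (w⁻¹ : Bˣ) := by
    rw [Units.inv_mul_eq_iff_eq_mul, ← mul_assoc, Units.eq_mul_inv_iff_mul_eq, hw]; noncomm_ring
  rw [star_mul, h2, star_sub, star_one, mul_assoc, mul_sub, mul_one, hu.2, ← h3, ← mul_neg, neg_sub]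

end Cayley

variable [Algebra.IsCentral K B] [IsSimpleRing B] [FiniteDimensional K B]

section Nrd

variable [CharZero K]

theorem rch_star (x : B) : rch K (star x) = (rch K x).map (starRingEnd K) :=
  rch_anti (starRingEnd K) (starAddEquiv : B ≃+ B).toAddMonoidHom (star_one B) star_mul
    star_algebraMap x

theorem Nrd_star (x : B) : Nrd K (star x) = star (Nrd K x) :=
  Nrd_anti (starRingEnd K) (starAddEquiv : B ≃+ B).toAddMonoidHom (star_one B) star_mul
    star_algebraMap x

theorem Trd_star (x : B) : Trd K (star x) = star (Trd K x) :=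
  Trd_anti (starRingEnd K) (starAddEquiv : B ≃+ B).toAddMonoidHom (star_one B) star_mul
    star_algebraMap x

theorem adj_star (x : B) : adj K (star x) = star (adj K x) := by
  rw [adj, adj, star_aeval, rch_star]
  have : ((rch K x).map (starRingEnd K)).divX = (rch K x).divX.map (starRingEnd K) := by
    ext n; simp [coeff_divX]
  rw [this]; simp

theorem Nrd_unitary {u : B} (hu : u ∈ unitary B) : star (Nrd K u) * Nrd K u = 1 := by
  rw [← Nrd_star, ← map_mul, hu.1, map_one]

theorem rch_herm {x : B} (hx : star x = x) : (rch K x).map (starRingEnd K) = rch K x := by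
  rw [← rch_star, hx]

/-- `rch` of a hermitian element has coefficients in `k` -/
theorem exists_rch_herm {k : Type*} [Field k] [Algebra k K]
    (hfix : ∀ c : K, star c = c → ∃ a : k, algebraMap k K a = c) {x : B} (hx : star x = x) :
    ∃ q : k[X], q.Monic ∧ q.natDegree = deg K B ∧ q.map (algebraMap k K) = rch K x := by
  obtain ⟨q, hq⟩ := exists_map_of_star hfix (rch_herm (K := K) hx)
  refine ⟨q, monic_of_injective (algebraMap k K).injective (hq ▸ rch_monic K x), ?_, hq⟩
  rw [← natDegree_map (algebraMap k K), hq, rch_natDegree]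

theorem infinite_fixed : {c : K | star c = c}.Infinite :=
  Set.infinite_of_injective_forall_mem (f := fun n : ℕ => (n : K)) Nat.cast_injective
    fun n => star_natCast n

/-- a star-stable subspace containing a unit contains a hermitian unit -/
theorem exists_herm_unit (hne : ∃ c : K, star c ≠ c) (W : Submodule K B)
    (hW : ∀ x ∈ W, star x ∈ W) {z : B} (hz : z ∈ W) (hu : IsUnit z) :
    ∃ x ∈ W, star x = x ∧ IsUnit x := by
  obtain ⟨e, h1, -, h3⟩ := exists_herm_family hne W hW
  obtain ⟨c, rfl⟩ := (Submodule.mem_span_range_iff_exists_fun K).1 (h3 ▸ hz)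
  obtain ⟨y, hy, h⟩ := exists_isUnit_box hu (fun _ => {c : K | star c = c}) fun _ => infinite_fixed
  exact ⟨_, W.sum_mem fun i _ => W.smul_mem _ (h1 i).1, star_sum_smul (fun i => (h1 i).2) hy, h⟩

theorem exists_herm_separable (hne : ∃ c : K, star c ≠ c) :
    ∃ x : B, star x = x ∧ (rch K x).Separable := by
  obtain ⟨e, he⟩ := exists_herm_basis (B := B) hne
  obtain ⟨y, hy, h⟩ := exists_separable_box e e.span_eq.ge (fun _ => {c : K | star c = c})
    fun _ => infinite_fixed
  exact ⟨_, star_sum_smul he hy, h⟩

/-- Any other involution inducing `star` on `K` is a twist by a hermitian unit. -/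
theorem exists_twist (hne : ∃ c : K, star c ≠ c) (τ : B →+ B) (hm : ∀ x y, τ (x * y) = τ y * τ x)
    (hi : ∀ x, τ (τ x) = x) (hc : ∀ c, τ (algebraMap K B c) = algebraMap K B (star c)) :
    ∃ h : Bˣ, star (h : B) = h ∧ ∀ x, (h : B) * τ x = star x * h := by
  let g : B →ₐ[K] B :=
    { toFun := fun x => star (τ x)
      map_one' := by rw [← map_one (algebraMap K B), hc, star_algebraMap, star_star]
      map_mul' := fun x y => by rw [hm, star_mul]
      map_zero' := by simp
      map_add' := fun x y => by simp
      commutes' := fun c => by rw [hc, star_algebraMap, star_star] }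
  obtain ⟨u, hu⟩ := inner_of_algHom g
  have h1 : ∀ x, (u : B) * τ x = star x * u := fun x => by
    have : star (τ (τ x)) = u * τ x * ↑u⁻¹ := hu (τ x)
    rw [hi] at this
    rw [this, Units.inv_mul_cancel_right]
  let W : Submodule K B :=
    { carrier := {z | ∀ x, z * τ x = star x * z}
      add_mem' := fun {a b} ha hb x => by rw [add_mul, mul_add, ha x, hb x]
      zero_mem' := fun x => by simp
      smul_mem' := fun c z hz x => by rw [smul_mul_assoc, mul_smul_comm, hz x] }
  obtain ⟨h, hW, hh, hu'⟩ := exists_herm_unit hne W (fun z hz x => by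
    have := congrArg star (hz (τ x))
    rw [hi, star_mul, star_mul, star_star] at this
    exact this.symm) (z := u) h1 u.isUnit
  exact ⟨hu'.unit, hh, hW⟩

end Nrd

end Star

end Crest.Agent.T24.Csa
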