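import Crest.Agent.T24.HilA_56

/-! Row 24, embedding module, part N (helper13): local norms in `k_p ⊗ L`. -/

set_option autoImplicit false
set_option linter.unusedSectionVars false
set_option linter.style.haveILetI false

noncomputable section

open scoped NumberField TensorProduct Valued
open IsDedekindDomain

namespace Crest.Agent.T24.Emb

open Hn Hil

universe u

section Plc

variable {L : Type*} [Field L] [NumberField L]

theorem norm_int_le {E : Type*} [NormedField E] [IsUltrametricDist E] (j : L →+* E) (a : 𝓞 L) :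
    ‖j a‖ ≤ 1 := by
  have h1 : IsIntegral ℤ (j (a : L)) :=
    (NumberField.RingOfIntegers.isIntegral_coe a).map (j.toIntAlgHom)
  have h2 : IsIntegral (NormedField.valuation (K := E)).integer (j (a : L)) := h1.tower_top
  have h3 := (Valuation.integer.integers (NormedField.valuation (K := E))).mem_of_integral h2
  exact_mod_cast h3

/-- the place defined by an embedding in an ultrametric field -/
theorem exists_place {E : Type*} [NormedField E] [IsUltrametricDist E] (j : L →+* E)
    (a₀ : 𝓞 L) (h0 : a₀ ≠ 0) (h1 : ‖j a₀‖ < 1) :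
    ∃ w : Pl L, (∀ a : 𝓞 L, a ∈ w.asIdeal ↔ ‖j a‖ < 1) ∧
      ∀ x : L, w.valuation L x < 1 → ‖j x‖ < 1 := by
  let I : Ideal (𝓞 L) :=
    { carrier := {a | ‖j a‖ < 1}
      add_mem' := fun {a b} ha hb => by
        change ‖j ((a + b : 𝓞 L) : L)‖ < 1
        rw [NumberField.RingOfIntegers.coe_eq_algebraMap, map_add, map_add]
        exact (IsUltrametricDist.norm_add_le_max _ _).trans_lt (max_lt ha hb)
      zero_mem' := by simp
      smul_mem' := fun c a ha => by
        change ‖j ((c * a : 𝓞 L) : L)‖ < 1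
        rw [NumberField.RingOfIntegers.coe_eq_algebraMap, map_mul, map_mul, norm_mul]
        exact mul_lt_one_of_nonneg_of_lt_one_right (norm_int_le j c) (norm_nonneg _) ha }
  have hI : ∀ a : 𝓞 L, a ∈ I ↔ ‖j a‖ < 1 := fun a => Iff.rfl
  have hp : I.IsPrime := ⟨fun h => by
      have : (1 : 𝓞 L) ∈ I := h ▸ Submodule.mem_top
      simpa using (hI 1).1 this, fun {a b} h => by
      by_contra hn
      rw [not_or, hI, hI, not_lt, not_lt] at hn
      have := (hI _).1 h
      rw [NumberField.RingOfIntegers.coe_eq_algebraMap, map_mul, map_mul, norm_mul] at this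
      exact absurd (one_le_mul_of_one_le_of_one_le hn.1 hn.2) (not_le.2 this)⟩
  let w : Pl L := ⟨I, hp, fun h => h0 (by
    have : a₀ ∈ I := (hI _).2 h1
    rwa [h] at this)⟩
  refine ⟨w, hI, fun x hx => ?_⟩
  obtain ⟨n, d, hnd⟩ := w.exists_primeCompl_mul_eq_of_integer x hx.le
  have hd : w.valuation L (algebraMap (𝓞 L) L d) = 1 := w.valuation_eq_one_iff_notMem.2 d.2
  have hn : n ∈ I := by
    refine (w.valuation_lt_one_iff_mem (K := L) n).1 ?_
    change w.valuation L (algebraMap (𝓞 L) L n) < 1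
    rwa [← hnd, map_mul, hd, mul_one]
  have hd' : 1 ≤ ‖j (algebraMap (𝓞 L) L d)‖ := not_lt.1 d.2
  have hn' : ‖j (algebraMap (𝓞 L) L n)‖ < 1 := hn
  rw [← hnd, map_mul, norm_mul] at hn'
  exact lt_of_le_of_lt (le_mul_of_one_le_right (norm_nonneg _) hd') hn'

theorem sq_of_place {E : Type*} [NormedField E] [IsUltrametricDist E] [CompleteSpace E]
    (j : L →+* E) {w : Pl L} (hw : ∀ x : L, w.valuation L x < 1 → ‖j x‖ < 1) {s : Lˣ}
    (hs : s ∈ Sq w) : IsSquare (j s) := by
  obtain ⟨y, hy⟩ := hs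
  have h4 : w.valuation L 4 ≠ 0 := by simp
  have h1 : w.valuation L ((s * y ^ 2 - 1) / 4) < 1 := by
    rwa [map_div₀, div_lt_one₀ (zero_lt_iff.2 h4)]
  obtain ⟨t, ht⟩ := Hn.Loc.exists_sq_add (hw _ h1)
  have hy0 : y ≠ 0 := by
    rintro rfl
    have := Hn.Loc.val_four_le w
    simp only [ne_eq, OfNat.ofNat_ne_zero, not_false_eq_true, zero_pow, mul_zero, zero_sub,
      Valuation.map_neg, map_one] at hy
    exact absurd this (not_le.2 hy)
  have : CharZero E := j.charZero_iff j.injective |>.1 inferInstance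
  have hy1 : j y ≠ 0 := (map_ne_zero j).2 hy0
  refine ⟨(1 + 2 * t) / j y, ?_⟩
  simp only [map_div₀, map_sub, map_mul, map_pow, map_one, map_ofNat] at ht
  field_simp
  linear_combination -4 * ht

end Plc

variable {k : Type u} [Field k] [NumberField k]

/-- every finite extension of `R` containing `L` lies over a place of `L` above `p`, or is
quadratically closed -/
def Up (p : Pc k) (R : Type*) [Field R] [Algebra k R] : Prop :=
  ∀ (L : Type u) [Field L] [NumberField L] [Algebra k L] (m : Ideal (R ⊗[k] L)), m.IsMaximal →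
    ∀ s : Lˣ, (∀ Q : Pc L, unP k Q = p → s ∈ SqP Q) →
      IsSquare (Ideal.Quotient.mk m (1 ⊗ₜ (s : L)))

theorem sq_fin (v : Pl k) {L : Type*} [Field L] [NumberField L] [Algebra k L] {E : Type*} [Field E]
    [Algebra (v.adicCompletion k) E] [FiniteDimensional (v.adicCompletion k) E] (j : L →+* E)
    (hj : ∀ c : k, j (algebraMap k L c) = algebraMap (v.adicCompletion k) E (algebraMap k _ c))
    (s : Lˣ) (hs : ∀ Q : Pc L, unP k Q = .inl v → s ∈ SqP Q) : IsSquare (j s) := by
  letI := spectralNorm.normedField (v.adicCompletion k) E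
  haveI : IsUltrametricDist E := IsUltrametricDist.isUltrametricDist_of_isNonarchimedean_norm
    isNonarchimedean_spectralNorm
  haveI : CompleteSpace E := spectralNorm.completeSpace (v.adicCompletion k) E
  have key : ∀ a : 𝓞 k, ‖j (algebraMap (𝓞 k) (𝓞 L) a : L)‖ < 1 ↔ a ∈ v.asIdeal := fun a => by
    have e : ((algebraMap (𝓞 k) (𝓞 L) a : 𝓞 L) : L) = algebraMap k L a := rfl
    rw [e, hj]
    change spectralNorm _ _ _ < 1 ↔ _
    rw [spectralNorm_extends]
    exact NumberField.FinitePlace.norm_lt_one_iff_mem k v a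
  obtain ⟨a, ha, ha0⟩ := Submodule.exists_mem_ne_zero_of_ne_bot v.ne_bot
  obtain ⟨w, hw, hw'⟩ := exists_place j (algebraMap (𝓞 k) (𝓞 L) a)
    ((map_ne_zero_iff _ (FaithfulSMul.algebraMap_injective _ _)).2 ha0) ((key a).2 ha)
  refine sq_of_place j hw' (hs (.inl w) (congrArg Sum.inl ?_))
  ext b
  rw [← key, ← hw]
  rfl

theorem sq_real (φ : k →+* ℝ) {L : Type*} [Field L] [NumberField L] [Algebra k L] {E : Type*}
    [Field E] [Algebra ℝ E] [FiniteDimensional ℝ E] (j : L →+* E)
    (hj : ∀ c : k, j (algebraMap k L c) = algebraMap ℝ E (φ c))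
    (s : Lˣ) (hs : ∀ Q : Pc L, unP k Q = .inr φ → s ∈ SqP Q) : IsSquare (j s) := by
  rcases Real.nonempty_algEquiv_or E with ⟨⟨e⟩⟩ | ⟨⟨e⟩⟩
  · have := hs (.inr ((e : E →+* ℝ).comp j)) (congrArg Sum.inr (RingHom.ext fun c => by
      simp [hj]))
    have h := ((pos_iff_sq _ s).1 this).map e.symm
    simpa using h
  · obtain ⟨z, hz⟩ := IsAlgClosed.exists_eq_mul_self (e (j s))
    exact ⟨e.symm z, by rw [← map_mul, ← hz]; simp⟩

theorem up_inl (v : Pl k) : Up (.inl v) (v.adicCompletion k) := fun L _ _ _ m _ s hs => by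
  letI := Ideal.Quotient.field m
  exact sq_fin v ((Ideal.Quotient.mk m).comp
    (Algebra.TensorProduct.includeRight (R := k) (A := v.adicCompletion k) (B := L) : L →+* _))
    (fun c => by
      change Ideal.Quotient.mk m _ = Ideal.Quotient.mk m _
      congr 1
      simp [Algebra.TensorProduct.algebraMap_apply])
    s hs

theorem up_inr (φ : k →+* ℝ) : letI := φ.toAlgebra; Up (.inr φ) ℝ := by
  letI := φ.toAlgebra
  intro L _ _ _ m _ s hs
  letI := Ideal.Quotient.field m
  exact sq_real φ ((Ideal.Quotient.mk m).comp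
    (Algebra.TensorProduct.includeRight (R := k) (A := ℝ) (B := L) : L →+* _))
    (fun c => by
      change Ideal.Quotient.mk m _ = Ideal.Quotient.mk m _
      congr 1
      simp [Algebra.TensorProduct.algebraMap_apply]
      rfl)
    s hs

theorem Up.sq {p : Pc k} {R : Type*} [Field R] [Algebra k R] (h : Up p R) {L : Type u} [Field L]
    [NumberField L] [Algebra k L] {s : Lˣ} (hs : ∀ Q : Pc L, unP k Q = p → s ∈ SqP Q) :
    IsSquare ((1 : R) ⊗ₜ[k] (s : L)) := by
  haveI : Algebra.FormallyUnramified k L := Algebra.FormallyUnramified.of_isSeparable k L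
  haveI : IsReduced (R ⊗[k] L) := Algebra.FormallyUnramified.isReduced_of_field R _
  haveI : IsArtinianRing (R ⊗[k] L) := IsArtinianRing.of_finite R _
  choose z hz using fun m : MaximalSpectrum (R ⊗[k] L) => h L m.asIdeal m.isMaximal s hs
  refine ⟨(IsArtinianRing.equivPi _).symm z, (IsArtinianRing.equivPi _).injective ?_⟩
  rw [map_mul, AlgEquiv.apply_symm_apply]
  exact funext hz

theorem finite_unP {L : Type*} [Field L] [NumberField L] [Algebra k L] (p : Pc k) :
    {Q : Pc L | unP k Q = p}.Finite := by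
  refine Set.finite_preimage_inl_and_inr.1 ⟨?_, Set.toFinite _⟩
  rcases p with v | φ
  · exact (finite_un L {v}).subset fun w hw => Finset.mem_singleton.2 (Sum.inl_injective hw)
  · exact Set.finite_empty.subset fun w hw => Sum.inl_ne_inr hw

/-- local norms at all places above `p` are norms in `k_p ⊗ L` -/
theorem Up.nm {p : Pc k} {R : Type*} [Field R] [Algebra k R] (h : Up p R) {L : Type u} [Field L]
    [NumberField L] [Algebra k L] {d : L} {q : Lˣ} (hq : ∀ Q : Pc L, unP k Q = p → q ∈ LNP d Q) :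
    ∃ x y : R ⊗[k] L, (1 : R) ⊗ₜ[k] (q : L) = x ^ 2 - (1 : R) ⊗ₜ[k] d * y ^ 2 := by
  obtain ⟨n, ⟨x, y, hn⟩, h1⟩ := wa_nr d (finite_unP (L := L) p).toFinset (fun _ => q) fun Q hQ =>
    hq Q (by simpa using hQ)
  obtain ⟨z, hz⟩ := h.sq (s := q / n) fun Q hQ => by
    simpa using inv_mem (h1 Q (by simpa using hQ))
  let j : L →+* R ⊗[k] L := Algebra.TensorProduct.includeRight (R := k) (A := R) (B := L)
  refine ⟨j x * z, j y * z, ?_⟩
  have e : (q : L) = n * (q / n : Lˣ) := by rw [← Units.val_mul, mul_div_cancel]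
  change j q = _ - j d * _
  change j _ = _ at hz
  rw [e, map_mul, hz, hn, map_sub, map_mul, map_pow, map_pow]
  ring

end Crest.Agent.T24.Emb
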