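import Mathlib

/-!
# Row 24, Landherr's theorem, part A (helper73): commutative algebra and eigenvalues
-/

set_option autoImplicit false

noncomputable section

open Polynomial Matrix Module

namespace Crest.Agent.T24.Lan

universe u

/-- an element of a finite dimensional commutative algebra which is a non-zero norm in every
residue field is a norm -/
theorem norm_of_residue {k A : Type*} [Field k] [CharZero k] [CommRing A] [Algebra k A]
    [Module.Finite k A] (d a : A)
    (h : ∀ m : Ideal A, m.IsMaximal → a ∉ m ∧ ∃ x y : A, a - (x ^ 2 - d * y ^ 2) ∈ m) :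
    ∃ x y : A, a = x ^ 2 - d * y ^ 2 := by
  have : IsArtinianRing A := IsArtinianRing.of_finite k A
  choose h0 x y hxy using fun m : MaximalSpectrum A => h m.asIdeal m.isMaximal
  have hcop : Pairwise (Function.onFun IsCoprime fun m : MaximalSpectrum A => m.asIdeal) :=
    fun m n hmn => Ideal.isCoprime_iff_sup_eq.mpr
      (m.isMaximal.coprime_of_ne n.isMaximal fun h => hmn (MaximalSpectrum.ext h))
  obtain ⟨X0, hX⟩ := Ideal.pi_quotient_surjective hcop fun m => Ideal.Quotient.mk _ (x m)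
  obtain ⟨Y0, hY⟩ := Ideal.pi_quotient_surjective hcop fun m => Ideal.Quotient.mk _ (y m)
  have h1 : ∀ m : MaximalSpectrum A, a - (X0 ^ 2 - d * Y0 ^ 2) ∈ m.asIdeal := by
    intro m
    have := Ideal.Quotient.eq_zero_iff_mem.mpr (hxy m)
    rw [← Ideal.Quotient.eq_zero_iff_mem]
    simp only [map_sub, map_mul, map_pow] at this ⊢
    rw [← this, ← hX m, ← hY m]
  have hnil : IsNilpotent (a - (X0 ^ 2 - d * Y0 ^ 2)) := by
    obtain ⟨n, hn⟩ := IsArtinianRing.isNilpotent_jacobson_bot (R := A)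
    have h2 : a - (X0 ^ 2 - d * Y0 ^ 2) ∈ Ideal.jacobson (⊥ : Ideal A) :=
      Ideal.mem_sInf.mpr fun J hJ => h1 ⟨J, hJ.2⟩
    have := Ideal.pow_mem_pow h2 n
    rw [hn] at this
    exact ⟨n, this⟩
  have hu : IsUnit (X0 ^ 2 - d * Y0 ^ 2) := by
    by_contra hn
    obtain ⟨m, hm, hm'⟩ := exists_max_ideal_of_mem_nonunits hn
    have := m.add_mem (h1 ⟨m, hm⟩) hm'
    rw [sub_add_cancel] at this
    exact h0 ⟨m, hm⟩ this
  obtain ⟨n0, hn0⟩ := hu
  have h2 : IsUnit (2 : A) := by
    have := (isUnit_iff_ne_zero.mpr (two_ne_zero : (2 : k) ≠ 0)).map (algebraMap k A)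
    rwa [map_ofNat] at this
  obtain ⟨r, ⟨-, hr⟩, -⟩ := existsUnique_nilpotent_sub_and_aeval_eq_zero
    (P := (X ^ 2 - C (a * ↑n0⁻¹) : A[X])) (x := (1 : A)) (by
      have e : aeval (1 : A) (X ^ 2 - C (a * ↑n0⁻¹) : A[X]) =
          (a - (X0 ^ 2 - d * Y0 ^ 2)) * (-↑n0⁻¹) := by
        rw [← hn0]
        simp only [map_sub, map_pow, aeval_X, aeval_C, Algebra.algebraMap_self, RingHom.id_apply]
        linear_combination -n0.mul_inv
      rw [e]
      exact (Commute.all _ _).isNilpotent_mul_right hnil) (by simpa [one_add_one_eq_two] using h2)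
  simp only [map_sub, map_pow, aeval_X, aeval_C, Algebra.algebraMap_self, RingHom.id_apply] at hr
  refine ⟨r * X0, r * Y0, ?_⟩
  have : a = r ^ 2 * n0 := by linear_combination -(n0 : A) * hr - a * n0.inv_mul
  rw [this, hn0]; ring

/-- polynomial form -/
theorem norm_of_roots {k : Type u} [Field k] [NumberField k] (f : k[X]) (hf : f.Monic) (d : k)
    (h : ∀ (F : Type u) [Field F] [NumberField F] [Algebra k F] (l : F), aeval l f = 0 →
      l ≠ 0 ∧ ∃ x y : F, l = x ^ 2 - algebraMap k F d * y ^ 2) :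
    ∃ p q : k[X], f ∣ X - (p ^ 2 - C d * q ^ 2) := by
  have : Module.Finite k (AdjoinRoot f) := hf.finite_adjoinRoot
  obtain ⟨x, y, hxy⟩ := norm_of_residue (k := k) (algebraMap k (AdjoinRoot f) d)
    (AdjoinRoot.root f) fun m hm => by
      let _ : Field (AdjoinRoot f ⧸ m) := Ideal.Quotient.field m
      have : NumberField (AdjoinRoot f ⧸ m) := NumberField.of_module_finite k _
      obtain ⟨h0, x, y, hxy⟩ := h (AdjoinRoot f ⧸ m) (Ideal.Quotient.mkₐ k m (AdjoinRoot.root f))
        (by rw [aeval_algHom_apply, AdjoinRoot.aeval_eq, AdjoinRoot.mk_self, map_zero])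
      obtain ⟨x, rfl⟩ := Ideal.Quotient.mk_surjective x
      obtain ⟨y, rfl⟩ := Ideal.Quotient.mk_surjective y
      refine ⟨fun h => h0 (Ideal.Quotient.eq_zero_iff_mem.mpr h), x, y, Ideal.Quotient.eq.mp ?_⟩
      rw [map_sub, map_mul, map_pow, map_pow]
      exact hxy
  obtain ⟨p, rfl⟩ := AdjoinRoot.mk_surjective x
  obtain ⟨q, rfl⟩ := AdjoinRoot.mk_surjective y
  refine ⟨p, q, AdjoinRoot.mk_eq_mk.mp ?_⟩
  rw [map_sub, map_mul, map_pow, map_pow, AdjoinRoot.mk_X, AdjoinRoot.mk_C]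
  exact hxy

section Eig

variable {k F : Type*} [Field k] [Field F] [Algebra k F] {κ : Type*} [Fintype κ] [DecidableEq κ]

theorem exists_eigvec (M : Matrix κ κ k) {l : F} (hl : aeval l M.charpoly = 0) :
    ∃ V : κ → F, V ≠ 0 ∧ M.map (algebraMap k F) *ᵥ V = l • V := by
  rw [aeval_def, ← eval_map, ← charpoly_map, eval_charpoly] at hl
  obtain ⟨V, hV, h⟩ := exists_mulVec_eq_zero_iff.mpr hl
  refine ⟨V, hV, ?_⟩
  rw [sub_mulVec, sub_eq_zero] at h
  rw [← h]
  ext i
  simp [scalar_apply, mulVec_diagonal]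

theorem exists_max {κ α : Type*} [Finite κ] [Nonempty κ] [LinearOrder α] (g : κ → α) :
    ∃ i, ∀ j, g j ≤ g i := Finite.exists_max g

omit [DecidableEq κ] in
theorem val_eig {Γ : Type*} [LinearOrderedCommGroupWithZero Γ] (u : Valuation F Γ)
    {N : Matrix κ κ F} {V : κ → F} (hV : V ≠ 0) {l : F} (h : N *ᵥ V = l • V) :
    ∃ p q, u l ≤ u (N p q) := by
  obtain ⟨i0, hi0⟩ := Function.ne_iff.mp hV
  have : Nonempty κ := ⟨i0⟩
  obtain ⟨i, hi⟩ := exists_max fun j => u (V j)
  obtain ⟨j, hj⟩ := exists_max fun j => u (N i j)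
  have h0 : 0 < u (V i) := lt_of_lt_of_le (zero_lt_iff.mpr (by simpa using hi0)) (hi i0)
  refine ⟨i, j, le_of_mul_le_mul_right ?_ h0⟩
  have h1 : l * V i = ∑ q, N i q * V q := (congrFun h i).symm
  rw [← map_mul, h1]
  refine Valuation.map_sum_le _ fun q _ => ?_
  rw [map_mul]
  exact mul_le_mul' (hj q) (hi q)

omit [DecidableEq κ] in
theorem real_eig (ρ : F →+* ℝ) {N : Matrix κ κ F} {V : κ → F} (hV : V ≠ 0) {l : F}
    (h : N *ᵥ V = l • V) : ∃ p q, |ρ l| ≤ Fintype.card κ * |ρ (N p q)| := by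
  obtain ⟨i0, hi0⟩ := Function.ne_iff.mp hV
  have : Nonempty κ := ⟨i0⟩
  obtain ⟨i, hi⟩ := exists_max fun j => |ρ (V j)|
  obtain ⟨j, hj⟩ := exists_max fun j => |ρ (N i j)|
  have h0 : 0 < |ρ (V i)| := lt_of_lt_of_le (abs_pos.mpr (by simpa using hi0)) (hi i0)
  refine ⟨i, j, le_of_mul_le_mul_right ?_ h0⟩
  have h1 : l * V i = ∑ q, N i q * V q := (congrFun h i).symm
  rw [← abs_mul, ← map_mul, h1, map_sum]
  refine (Finset.abs_sum_le_sum_abs _ _).trans ?_
  calc _ ≤ ∑ _q : κ, |ρ (N i j)| * |ρ (V i)| := Finset.sum_le_sum fun q _ => by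
        rw [map_mul, abs_mul]
        exact mul_le_mul (hj q) (hi q) (abs_nonneg _) (abs_nonneg _)
    _ = _ := by rw [Finset.sum_const, Finset.card_univ, nsmul_eq_mul, mul_assoc]

theorem eig_sub_one {N : Matrix κ κ F} {V : κ → F} {l : F} (h : N *ᵥ V = l • V) :
    (N - 1) *ᵥ V = (l - 1) • V := by
  rw [sub_mulVec, h, one_mulVec, sub_smul, one_smul]

theorem eig_inv {N N' : Matrix κ κ F} (hN : N' * N = 1) {V : κ → F} (hV : V ≠ 0) {l : F}
    (h : N *ᵥ V = l • V) : l ≠ 0 ∧ N' *ᵥ V = l⁻¹ • V := by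
  have h1 : V = l • N' *ᵥ V := by rw [← mulVec_smul, ← h, mulVec_mulVec, hN, one_mulVec]
  have h0 : l ≠ 0 := by
    rintro rfl
    exact hV (by rw [h1, zero_smul])
  refine ⟨h0, ?_⟩
  conv_rhs => rw [h1, smul_smul, inv_mul_cancel₀ h0, one_smul]

end Eig

section Int

variable {K : Type*} [Field K] {Γ : Type*} [LinearOrderedCommGroupWithZero Γ] (w : Valuation K Γ)
  {ι : Type*} [Fintype ι] [DecidableEq ι]

omit [Fintype ι] [DecidableEq ι] in
theorem exists_lift {M : Matrix ι ι K} (h : ∀ i j, w (M i j) ≤ 1) :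
    ∃ M0 : Matrix ι ι w.integer, M = M0.map w.integer.subtype :=
  ⟨fun i j => ⟨M i j, h i j⟩, rfl⟩

theorem val_charpoly {M : Matrix ι ι K} (h : ∀ i j, w (M i j) ≤ 1) (n : ℕ) :
    w (M.charpoly.coeff n) ≤ 1 := by
  obtain ⟨M0, rfl⟩ := exists_lift w h
  rw [charpoly_map, coeff_map]
  exact (M0.charpoly.coeff n).2

theorem val_adjugate {M : Matrix ι ι K} (h : ∀ i j, w (M i j) ≤ 1) (i j : ι) :
    w (M.adjugate i j) ≤ 1 := by
  obtain ⟨M0, rfl⟩ := exists_lift w h
  have := w.integer.subtype.map_adjugate M0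
  rw [RingHom.mapMatrix_apply, RingHom.mapMatrix_apply] at this
  rw [← this]
  exact (M0.adjugate i j).2

end Int

section Alg

variable {K B : Type*} [Field K] [Ring B] [Algebra K B] {ι : Type*} [Fintype ι] [DecidableEq ι]
  (e : Basis ι K B)

theorem aeval_charpoly (x : B) : aeval x (Algebra.leftMulMatrix e x).charpoly = 0 :=
  Algebra.leftMulMatrix_injective e (by
    rw [← aeval_algHom_apply, aeval_self_charpoly, map_zero])

include e in
theorem mul_eq_one_symm {x y : B} (h : x * y = 1) : y * x = 1 :=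
  Algebra.leftMulMatrix_injective e (by
    rw [map_mul, map_one]
    exact mul_eq_one_comm.mp (by rw [← map_mul, h, map_one]))

/-- the inverse of an element with non-zero determinant, in coordinates -/
theorem exists_inv {y : B} (hy : (Algebra.leftMulMatrix e y).det ≠ 0) : ∃ y' : B, y * y' = 1 ∧
    ⇑(e.repr y') = (Algebra.leftMulMatrix e y).det⁻¹ •
      (Algebra.leftMulMatrix e y).adjugate *ᵥ e.repr 1 := by
  refine ⟨e.equivFun.symm ((Algebra.leftMulMatrix e y).det⁻¹ •
      (Algebra.leftMulMatrix e y).adjugate *ᵥ e.repr 1), ?_, ?_⟩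
  · apply e.repr.injective
    apply DFunLike.coe_injective
    change ⇑(e.repr _) = ⇑(e.repr _)
    rw [← Algebra.leftMulMatrix_mulVec_repr, ← Basis.equivFun_apply, LinearEquiv.apply_symm_apply,
      mulVec_smul, mulVec_mulVec, mul_adjugate, smul_mulVec, one_mulVec, smul_smul,
      inv_mul_cancel₀ hy, one_smul]
  · rw [← Basis.equivFun_apply, LinearEquiv.apply_symm_apply]

end Alg

/-- all but finitely many translates are coprime to their conjugates -/
theorem finite_not_coprime {k K : Type*} [Field k] [Field K] [CharZero K] [Algebra k K]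
    (σ : K ≃ₐ[k] K) {θ : K} (h0 : θ ≠ 0) (hθ : σ θ = -θ) {f : K[X]} (hf : f ≠ 0) :
    {s : k | ¬ IsCoprime (f.comp (X + C (algebraMap k K s * θ)))
      ((f.comp (X + C (algebraMap k K s * θ))).map (σ : K →+* K))}.Finite := by
  classical
  let L := AlgebraicClosure K
  have hf' : f.map (σ : K →+* K) ≠ 0 := map_ne_zero hf
  have hfin := (f.rootSet_finite L).image2 (fun a b => a - b)
    ((f.map (σ : K →+* K)).rootSet_finite L)
  refine Set.Finite.subset (hfin.preimage (f := fun s : k =>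
    algebraMap K L (2 * (algebraMap k K s * θ))) fun s _ t _ hst => ?_) fun s hs => ?_
  · have := (algebraMap K L).injective hst
    exact (algebraMap k K).injective (mul_right_cancel₀ h0 (mul_left_cancel₀ two_ne_zero this))
  · rw [Set.mem_ofPred_eq, Polynomial.isCoprime_iff_aeval_ne_zero_of_isAlgClosed K L] at hs
    push Not at hs
    obtain ⟨a, h1, h2⟩ := hs
    rw [map_comp, aeval_comp] at h2
    rw [aeval_comp] at h1
    refine ⟨_, (mem_rootSet_of_ne hf).mpr h1, _, (mem_rootSet_of_ne hf').mpr h2, ?_⟩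
    simp [hθ, two_mul]

end Crest.Agent.T24.Lan
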