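import Crest.Agent.T24.EmbDef_13
import Crest.Agent.T24.EmbN_13
import Crest.Agent.T24.LanA_73
import Crest.Agent.T24.Csa4_50

/-! Row 24, embedding module (helper16): a hermitian unit is a local norm at almost all places. -/

set_option autoImplicit false
set_option linter.unusedSectionVars false
set_option linter.style.haveILetI false

noncomputable section

namespace Crest.Agent.T24.Emb

open Module Polynomial NumberField IsDedekindDomain Csa
open scoped NumberField TensorProduct

universe u v w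

namespace A16

variable {k : Type u} [Field k] [NumberField k]

/-- the roots of `g` in the extensions of `k_v` are norms -/
def Rt (δ : k) (g : k[X]) (v : Asa.Pl k) : Prop :=
  ∀ (E : Type u) [Field E] [Algebra k E] [Algebra (Kv v) E] [IsScalarTower k (Kv v) E] (l : E),
    aeval l g = 0 → ∃ x y : E, l = x ^ 2 - algebraMap k E δ * y ^ 2

theorem root_ne {E : Type*} [Field E] [Algebra k E] {g : k[X]} (h0 : g.eval 0 ≠ 0) {l : E}
    (hl : aeval l g = 0) : l ≠ 0 := by
  rintro rfl
  rw [← map_zero (algebraMap k E), aeval_algebraMap_apply, coe_aeval_eq_eval, map_zero,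
    map_eq_zero] at hl
  exact h0 hl

theorem rt_irr {δ : k} (hδ : δ ≠ 0) {g : k[X]} (hg : Irreducible g) (h0 : g.eval 0 ≠ 0) :
    ∀ᶠ v in Filter.cofinite, Rt δ g v := by
  haveI := Fact.mk hg
  haveI : Module.Finite k (AdjoinRoot g) := (AdjoinRoot.powerBasis hg.ne_zero).finite
  haveI : NumberField (AdjoinRoot g) := NumberField.of_module_finite k _
  have hl : AdjoinRoot.root g ≠ 0 :=
    root_ne h0 (by rw [AdjoinRoot.aeval_eq, AdjoinRoot.mk_self])
  have hd : algebraMap k (AdjoinRoot g) δ ≠ 0 := (_root_.map_ne_zero _).2 hδ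
  have hf := ((Hil.finite_hil (Units.mk0 _ hl) (Units.mk0 _ hd)).image (Hil.unP k)).preimage
    (Sum.inl_injective.injOn)
  filter_upwards [hf.compl_mem_cofinite] with v hv E _ _ _ _ l hl'
  obtain ⟨x, y, hxy⟩ := (up_inl v).nm (d := algebraMap k (AdjoinRoot g) δ) (q := Units.mk0 _ hl)
    fun Q hQ => by
      by_contra hn
      refine hv ⟨Q, ?_, hQ⟩
      rw [Set.mem_ofPred_eq, Hil.hil, Units.val_mk0, if_neg hn]
      decide
  let ψ : AdjoinRoot g →ₐ[k] E := AdjoinRoot.liftAlgHom g (Algebra.ofId k E) l hl'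
  let φ : Kv v ⊗[k] AdjoinRoot g →ₐ[k] E :=
    Algebra.TensorProduct.lift (IsScalarTower.toAlgHom k _ E) ψ fun _ _ => Commute.all _ _
  refine ⟨φ x, φ y, ?_⟩
  have h1 := congrArg φ hxy
  have h2 : ∀ a, φ (1 ⊗ₜ a) = ψ a := fun a => by
    simp only [φ, Algebra.TensorProduct.lift_tmul, map_one, one_mul]
  rw [map_sub, map_mul, map_pow, map_pow, h2, h2, AlgHom.commutes, Units.val_mk0] at h1
  rw [← h1]
  exact (AdjoinRoot.liftAlgHom_root _ _ _ _).symm

theorem rt_all {δ : k} (hδ : δ ≠ 0) (f : k[X]) (h0 : f.eval 0 ≠ 0) :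
    ∀ᶠ v in Filter.cofinite, Rt δ f v := by
  induction f using WfDvdMonoid.induction_on_irreducible with
  | zero => simp at h0
  | unit u hu => exact .of_forall fun v E _ _ _ _ l hl => absurd hl (hu.map (aeval l)).ne_zero
  | mul a i ha hi ih =>
    rw [eval_mul, mul_ne_zero_iff] at h0
    filter_upwards [rt_irr hδ hi h0.1, ih h0.2] with v h1 h2 E _ _ _ _ l hl
    rw [map_mul, mul_eq_zero] at hl
    exact hl.elim (h1 E l) (h2 E l)

theorem poly {δ : k} {f : k[X]} (hf : f.Monic) (h0 : f.eval 0 ≠ 0) {v : Asa.Pl k} (h : Rt δ f v) :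
    ∃ p q : (Kv v)[X], f.map (algebraMap k _) ∣ X - (p ^ 2 - C (algebraMap k _ δ) * q ^ 2) := by
  set g := f.map (algebraMap k (Kv v)) with hg
  haveI : CharZero (Kv v) := algebraRat.charZero _
  have : Module.Finite (Kv v) (AdjoinRoot g) := (hf.map _).finite_adjoinRoot
  obtain ⟨x, y, hxy⟩ := Lan.norm_of_residue (k := Kv v)
    (algebraMap (Kv v) (AdjoinRoot g) (algebraMap k _ δ)) (AdjoinRoot.root g) fun m hm => by
      let _ : Field (AdjoinRoot g ⧸ m) := Ideal.Quotient.field m
      have hr : aeval (Ideal.Quotient.mkₐ (Kv v) m (AdjoinRoot.root g)) f = 0 := by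
        rw [← aeval_map_algebraMap (Kv v), aeval_algHom_apply, AdjoinRoot.aeval_eq,
          AdjoinRoot.mk_self, map_zero]
      obtain ⟨x, y, hxy⟩ := h (AdjoinRoot g ⧸ m) _ hr
      obtain ⟨x, rfl⟩ := Ideal.Quotient.mk_surjective x
      obtain ⟨y, rfl⟩ := Ideal.Quotient.mk_surjective y
      refine ⟨fun h => root_ne h0 hr (Ideal.Quotient.eq_zero_iff_mem.mpr h), x, y,
        Ideal.Quotient.eq.mp ?_⟩
      rw [map_sub, map_mul, map_pow, map_pow]
      exact hxy
  obtain ⟨p, rfl⟩ := AdjoinRoot.mk_surjective x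
  obtain ⟨q, rfl⟩ := AdjoinRoot.mk_surjective y
  refine ⟨p, q, AdjoinRoot.mk_eq_mk.mp ?_⟩
  rw [map_sub, map_mul, map_pow, map_pow, AdjoinRoot.mk_X, AdjoinRoot.mk_C]
  exact hxy

variable {K B : Type*} [Field K] [Algebra k K] [StarRing K] [Quad k K] [Ring B] [StarRing B]
  [Algebra K B] [StarModule K B] [Algebra k B] [IsScalarTower k K B]
  {R : Type*} [CommRing R] [Algebra k R]

theorem star_aeval {x : BC k K B R} (hx : star x = x) (p : R[X]) : star (aeval x p) = aeval x p := by
  induction p using Polynomial.induction_on' with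
  | add p q hp hq => rw [map_add, star_add, hp, hq]
  | monomial n c => rw [aeval_monomial, ← Algebra.smul_def, BC.star_rsmul, star_pow, hx]

theorem central (θ : K) (y : BC k K B R) :
    y * BC.inc k K B R (algebraMap K B θ) = BC.inc k K B R (algebraMap K B θ) * y := by
  refine BC.ind y (by simp) (fun r b => ?_) fun x y hx hy => by rw [add_mul, mul_add, hx, hy]
  rw [smul_mul_assoc, mul_smul_comm, ← map_mul, ← map_mul, Algebra.commutes]

end A16

open A16

theorem locAe (k : Type u) (K B : Type*) [Field k] [NumberField k] [Field K] [NumberField K]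
    [Algebra k K] [StarRing K] [Quad k K] [Ring B] [StarRing B] [Algebra K B] [StarModule K B]
    [Algebra.IsCentral K B] [IsSimpleRing B] [FiniteDimensional K B] [Algebra k B]
    [IsScalarTower k K B] : LocAe k K B := by
  intro h hh hu
  haveI := finite_kB k K B
  obtain ⟨θ, hθ0, hθ⟩ := exists_skew (Quad.ne (k := k) (K := K))
  obtain ⟨δ, hδ⟩ := exists_of_star_eq (Quad.fr (k := k) (K := K)) Quad.star_k (Quad.ne (k := k))
    (c := θ ^ 2) (by rw [star_pow, hθ, neg_sq])
  have hδ0 : δ ≠ 0 := fun h0 => pow_ne_zero 2 hθ0 (by rw [← hδ, h0, map_zero])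
  have hi : IsIntegral k h := IsIntegral.of_finite k h
  have h0 : (minpoly k h).eval 0 ≠ 0 := fun h0 => by
    obtain ⟨g, hg⟩ := X_dvd_iff.2 ((coeff_zero_eq_eval_zero _).trans h0)
    have h1 := minpoly.aeval k h
    rw [hg, map_mul, aeval_X, hu.mul_right_eq_zero] at h1
    have hg0 : g ≠ 0 := fun h2 => minpoly.ne_zero hi (by rw [hg, h2, mul_zero])
    have h2 := natDegree_le_of_dvd (minpoly.dvd k h h1) hg0
    rw [hg, natDegree_X_mul hg0] at h2
    omega
  filter_upwards [rt_all hδ0 _ h0] with v hv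
  obtain ⟨p, q, c, hc⟩ := poly (minpoly.monic hi) h0 hv
  set x := BC.inc k K B (Kv v) h with hx
  set T := BC.inc k K B (Kv v) (algebraMap K B θ) with hT
  have hsx : star x = x := by rw [hx, BC.star_inc, hh]
  have hsT : star T = -T := by rw [hT, BC.star_inc, star_algebraMap, hθ, map_neg, map_neg]
  have hTT : T * T = algebraMap (Kv v) _ (algebraMap k (Kv v) δ) := by
    rw [hT, ← map_mul, ← map_mul, ← sq, ← hδ, ← IsScalarTower.algebraMap_apply, AlgHom.commutes,
      ← IsScalarTower.algebraMap_apply]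
  have hm : aeval x (minpoly k h) = 0 := by rw [hx, aeval_algHom_apply, minpoly.aeval, map_zero]
  have h1 := congrArg (aeval x) hc
  rw [map_mul, aeval_map_algebraMap, hm, zero_mul,
    map_sub, aeval_X, sub_eq_zero, map_sub, map_mul, map_pow, map_pow, aeval_C, ← hTT] at h1
  have h2 : aeval x q * aeval x p = aeval x p * aeval x q := by rw [← map_mul, mul_comm, map_mul]
  have h3 : ∀ y, y * T = T * y := central θ
  refine ⟨aeval x p + T * aeval x q, ?_⟩
  rw [star_add, star_mul, hsT, star_aeval hsx, star_aeval hsx, mul_neg, h3]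
  set P := aeval x p
  set Q := aeval x q
  have h4 : P * (T * Q) = T * Q * P := by rw [← mul_assoc, h3, mul_assoc, ← h2, mul_assoc]
  have h5 : T * Q * (T * Q) = T * T * Q ^ 2 := by
    rw [mul_assoc, ← mul_assoc Q, h3, sq]; simp only [mul_assoc]
  rw [h1, add_mul, mul_add, mul_add, neg_mul, neg_mul, h4, h5, sq P]
  abel

theorem locAeStmt : LocAeStmt.{u, v, w} := fun D => locAe D.k D.K D.B

end Crest.Agent.T24.Emb
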