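import Mathlib
import Crest.Agent.R018.Frobenius_389
import Crest.Agent.T24.HnLocB_73

/-!
# Row 24, Hasse norm theorem, local part C (helper73): `l4Stmt`

Primes split in `F(√d)` and inert in `F(√u)`, from the Frobenius density theorem of row 18.
-/

set_option autoImplicit false

noncomputable section

open scoped NumberField
open IsDedekindDomain WithZero Polynomial

namespace Crest.Agent.T24.Hn

namespace Loc

theorem exists_aut {F L : Type*} [Field F] [Field L] [Algebra F L] [FiniteDimensional F L]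
    [IsGalois F L] {d u : F} {a b : L} (ha : a ^ 2 = algebraMap F L d)
    (hb : b ^ 2 = algebraMap F L u) (h1 : ¬ IsSquare u) (h2 : ¬ IsSquare (d * u)) :
    ∃ σ : Gal(L/F), σ a = a ∧ σ b = -b := by
  have hpm : ∀ (σ : Gal(L/F)) (c : F) (x : L), x ^ 2 = algebraMap F L c → σ x = x ∨ σ x = -x := by
    intro σ c x hx
    apply sq_eq_sq_iff_eq_or_eq_neg.mp
    rw [← map_pow, hx, AlgEquiv.commutes]
  have hsq : ∀ (c : F) (x : L), x ^ 2 = algebraMap F L c → (∀ σ : Gal(L/F), σ x = x) →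
      IsSquare c := by
    intro c x hx hfix
    obtain ⟨y, rfl⟩ := (IsGalois.mem_range_algebraMap_iff_fixed x).mpr hfix
    exact ⟨y, (algebraMap F L).injective (by rw [← hx, map_mul, sq])⟩
  by_contra hc
  push Not at hc
  obtain ⟨τ, hτ⟩ : ∃ τ : Gal(L/F), τ b = -b := by
    by_contra h
    push Not at h
    exact h1 (hsq u b hb fun σ => (hpm σ u b hb).resolve_right (h σ))
  have hτa : τ a = -a := (hpm τ d a ha).resolve_left fun h => hc τ h hτ
  refine h2 (hsq (d * u) (a * b) (by rw [mul_pow, ha, hb, map_mul]) fun σ => ?_)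
  rcases hpm σ d a ha with h | h <;> rcases hpm σ u b hb with h' | h'
  · rw [map_mul, h, h']
  · exact absurd h' (hc σ h)
  · exact absurd (by simp [h', hτ]) (hc (τ * σ) (by simp [h, hτa]))
  · rw [map_mul, h, h', neg_mul_neg]

variable {F : Type*} [Field F] [NumberField F]

theorem exists_prime_core {L : Type*} [Field L] [NumberField L] [Algebra F L] [IsGalois F L]
    {d u : 𝓞 F} {a b : L} (ha : a ^ 2 = algebraMap F L d) (hb : b ^ 2 = algebraMap F L u)
    (h1 : ¬ IsSquare (u : F)) (h2 : ¬ IsSquare ((d : F) * u)) (N : ℕ) :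
    ∃ v : Pl F, N < Ideal.absNorm v.asIdeal ∧ (2 * d * u ∉ v.asIdeal →
      (∃ x : 𝓞 F, x ^ 2 - d ∈ v.asIdeal) ∧ ∀ x : 𝓞 F, x ^ 2 - u ∉ v.asIdeal) := by
  classical
  obtain ⟨σ, hσa, hσb⟩ := exists_aut ha hb h1 h2
  obtain ⟨p, hp, hpN, -, P, hP, -, hpP, hnorm, -, φ, hφ, hfrob⟩ :=
    Crest.Agent.R018.Frobeniusx389.exists_frob σ N
  have hb0 : b ≠ 0 := by
    rintro rfl
    apply h1
    have : (u : F) = 0 := (algebraMap F L).injective (by rw [← hb]; simp)
    rw [this]; exact IsSquare.zero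
  have hφa : φ a = a := by
    have : Subgroup.zpowers σ ≤ MulAction.stabilizer Gal(L/F) a :=
      Subgroup.zpowers_le.mpr hσa
    exact this (hφ ▸ Subgroup.mem_zpowers φ)
  have hφb : φ b = -b := by
    have h : φ b = b ∨ φ b = -b := by
      apply sq_eq_sq_iff_eq_or_eq_neg.mp
      rw [← map_pow, hb, AlgEquiv.commutes]
    refine h.resolve_left fun h => ?_
    have : Subgroup.zpowers φ ≤ MulAction.stabilizer Gal(L/F) b := Subgroup.zpowers_le.mpr h
    have h3 : σ b = b := this (hφ ▸ Subgroup.mem_zpowers σ)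
    rw [hσb] at h3
    exact hb0 (by linear_combination (-1 / 2 : L) * h3)
  have hint : ∀ (c : 𝓞 F) (x : L), x ^ 2 = algebraMap F L c → ∃ y : 𝓞 L, (y : L) = x ∧
      y ^ 2 = algebraMap (𝓞 F) (𝓞 L) c := by
    intro c x hx
    have : IsIntegral ℤ x := by
      refine IsIntegral.of_pow two_pos ?_
      rw [hx]
      exact (algebraMap (𝓞 F) (𝓞 L) c).isIntegral_coe
    refine ⟨⟨x, this⟩, rfl, ?_⟩
    ext
    exact hx
  obtain ⟨a', ha1, ha2⟩ := hint d a ha
  obtain ⟨b', hb1, hb2⟩ := hint u b hb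
  have hφa' : φ • a' = a' := by
    ext
    change φ (a' : L) = a'
    rw [ha1, hφa]
  have hφb' : φ • b' = -b' := by
    ext
    change φ (b' : L) = -b'
    rw [hb1, hφb]
  have hne : P.under (𝓞 F) ≠ ⊥ := by
    intro h0
    rw [h0, Ideal.absNorm_bot] at hnorm
    exact hp.ne_zero hnorm.symm
  let v : Pl F := ⟨P.under (𝓞 F), inferInstance, hne⟩
  have hmem : ∀ x : 𝓞 F, x ∈ v.asIdeal ↔ algebraMap (𝓞 F) (𝓞 L) x ∈ P := fun x => Iff.rfl
  refine ⟨v, hnorm ▸ hpN, fun hbad => ?_⟩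
  have h2v : (2 : 𝓞 F) ∉ v.asIdeal := fun h =>
    hbad (Ideal.mul_mem_right _ _ (Ideal.mul_mem_right _ _ h))
  have hdv : d ∉ v.asIdeal := fun h => hbad (Ideal.mul_mem_right _ _ (Ideal.mul_mem_left _ _ h))
  have huv : u ∉ v.asIdeal := fun h => hbad (Ideal.mul_mem_left _ _ h)
  have hp2 : p ≠ 2 := by
    rintro rfl
    exact h2v ((hmem 2).mpr (by simpa [map_ofNat] using hpP))
  obtain ⟨m, hm⟩ := hp.odd_of_ne_two hp2
  have hd1 : 1 - d ^ m ∈ v.asIdeal := by
    have h3 := hfrob a'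
    have e : a' - a' ^ p = a' * algebraMap (𝓞 F) (𝓞 L) (1 - d ^ m) := by
      rw [hm, pow_succ, pow_mul, ha2, map_sub, map_one, map_pow]; ring
    rw [hφa', e] at h3
    refine (hmem _).mpr ((hP.mem_or_mem h3).resolve_left fun h => hdv ((hmem _).mpr ?_))
    rw [← ha2]; exact Ideal.pow_mem_of_mem _ h 2 two_pos
  have hu1 : 1 + u ^ m ∈ v.asIdeal := by
    have h3 := hfrob b'
    have e : -b' - b' ^ p = -b' * algebraMap (𝓞 F) (𝓞 L) (1 + u ^ m) := by
      rw [hm, pow_succ, pow_mul, hb2, map_add, map_one, map_pow]; ring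
    rw [hφb', e] at h3
    refine (hmem _).mpr ((hP.mem_or_mem h3).resolve_left fun h => huv ((hmem _).mpr ?_))
    rw [← hb2]; exact Ideal.pow_mem_of_mem _ (neg_mem_iff.mp h) 2 two_pos
  have hmax := v.isMaximal
  let _ : Field (𝓞 F ⧸ v.asIdeal) := Ideal.Quotient.field _
  let _ : Fintype (𝓞 F ⧸ v.asIdeal) := Fintype.ofFinite _
  have hcard : Fintype.card (𝓞 F ⧸ v.asIdeal) / 2 = m := by
    have : Fintype.card (𝓞 F ⧸ v.asIdeal) = p := by
      rw [← Nat.card_eq_fintype_card, ← hnorm]; rfl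
    omega
  have h20 : (2 : 𝓞 F ⧸ v.asIdeal) ≠ 0 := fun h => h2v (Ideal.Quotient.eq_zero_iff_mem.mp (by
    simpa [map_ofNat] using h))
  have hchar : ringChar (𝓞 F ⧸ v.asIdeal) ≠ 2 := fun h => h20 (by
    have := ringChar.Nat.cast_ringChar (R := 𝓞 F ⧸ v.asIdeal)
    rw [h] at this
    exact_mod_cast this)
  constructor
  · have h3 : IsSquare (Ideal.Quotient.mk v.asIdeal d) := by
      rw [FiniteField.isSquare_iff hchar (mt Ideal.Quotient.eq_zero_iff_mem.mp hdv), hcard]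
      have := Ideal.Quotient.eq.mpr hd1
      rw [map_one, map_pow] at this
      exact this.symm
    obtain ⟨x, hx⟩ := h3
    obtain ⟨x, rfl⟩ := Ideal.Quotient.mk_surjective x
    exact ⟨x, Ideal.Quotient.eq.mp (by rw [hx, map_pow, sq])⟩
  · intro x hx
    have h3 : IsSquare (Ideal.Quotient.mk v.asIdeal u) :=
      ⟨Ideal.Quotient.mk _ x, by rw [← Ideal.Quotient.eq.mpr hx, map_pow, sq]⟩
    rw [FiniteField.isSquare_iff hchar (mt Ideal.Quotient.eq_zero_iff_mem.mp huv), hcard] at h3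
    have := Ideal.Quotient.eq_zero_iff_mem.mpr hu1
    rw [map_add, map_one, map_pow, h3] at this
    exact h20 (by rw [← this]; norm_num)

theorem exists_prime_int (d u : 𝓞 F) (h1 : ¬ IsSquare (u : F)) (h2 : ¬ IsSquare ((d : F) * u))
    (N : ℕ) : ∃ v : Pl F, N < Ideal.absNorm v.asIdeal ∧ (2 * d * u ∉ v.asIdeal →
      (∃ x : 𝓞 F, x ^ 2 - d ∈ v.asIdeal) ∧ ∀ x : 𝓞 F, x ^ 2 - u ∉ v.asIdeal) := by
  let f : F[X] := (X ^ 2 - C (d : F)) * (X ^ 2 - C (u : F))
  let L := f.SplittingField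
  have : NumberField L := NumberField.of_module_finite F L
  have : IsGalois F L := {}
  have hs : (f.map (algebraMap F L)).Splits := SplittingField.splits f
  have hf0 : f.map (algebraMap F L) ≠ 0 :=
    map_ne_zero (mul_ne_zero (X_pow_sub_C_ne_zero two_pos _) (X_pow_sub_C_ne_zero two_pos _))
  have hroot : ∀ c : F, X ^ 2 - C c ∣ f → ∃ x : L, x ^ 2 = algebraMap F L c := by
    intro c hc
    have h3 := hs.of_dvd hf0 (Polynomial.map_dvd (algebraMap F L) hc)
    obtain ⟨x, hx⟩ := h3.exists_eval_eq_zero (by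
      rw [degree_map, degree_X_pow_sub_C two_pos]; norm_num)
    exact ⟨x, by simpa [sub_eq_zero] using hx⟩
  obtain ⟨a, ha⟩ := hroot d (dvd_mul_right _ _)
  obtain ⟨b, hb⟩ := hroot u (dvd_mul_left _ _)
  exact exists_prime_core ha hb h1 h2 N

theorem exists_mul_sq_int (x : Fˣ) : ∃ (c : Fˣ) (a : 𝓞 F), ((x * c ^ 2 : Fˣ) : F) = a := by
  obtain ⟨n, m, hm, h⟩ := IsFractionRing.div_surjective (A := 𝓞 F) (x : F)
  have hm0 : (m : F) ≠ 0 := by simpa using nonZeroDivisors.ne_zero hm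
  refine ⟨Units.mk0 _ hm0, n * m, ?_⟩
  rw [Units.val_mul, ← h]
  simp only [Units.val_pow_eq_pow_val, Units.val_mk0]
  push_cast
  field_simp

omit [NumberField F] in
theorem mem_Sqs {x : Fˣ} : x ∈ Sqs F ↔ IsSquare (x : F) := by
  constructor
  · rintro ⟨y, rfl⟩
    exact ⟨y, by simp [sq]⟩
  · rintro ⟨y, hy⟩
    have : y ≠ 0 := by
      rintro rfl
      simp at hy
    exact ⟨Units.mk0 y this, Units.ext (by simp [hy, sq])⟩

omit [NumberField F] in
theorem mul_sq_mem_Sqs {x : Fˣ} (c : Fˣ) : x * c ^ 2 ∈ Sqs F ↔ x ∈ Sqs F :=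
  Subgroup.mul_mem_cancel_right _ ⟨c, rfl⟩

theorem val_two_eq_one (v : Pl F) (h : (2 : 𝓞 F) ∉ v.asIdeal) : v.valuation F 2 = 1 := by
  simpa [map_ofNat] using val_int_eq_one v h

/-- at an odd place a unit is a local square iff it is a square in the residue field -/
theorem mem_Sq_iff_int (v : Pl F) (h2 : v.valuation F 2 = 1) {x : Fˣ} {a : 𝓞 F} (hx : (x : F) = a)
    (ha : a ∉ v.asIdeal) : x ∈ Sq v ↔ ∃ y : 𝓞 F, y ^ 2 - a ∈ v.asIdeal := by
  have h4 : v.valuation F 4 = 1 := by rw [val_four, h2, one_pow]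
  have h1 := val_int_eq_one v ha
  constructor
  · intro hs
    obtain ⟨y, hy, hy1, hy2⟩ := exists_of_mem_Sq v hs
    rw [h4] at hy1
    rw [hx, map_mul, h1, one_mul, map_pow] at hy2
    have hy3 : v.valuation F y = 1 := (pow_eq_one_iff_of_nonneg zero_le two_ne_zero).mp hy2
    obtain ⟨z, hz⟩ := exists_int_near v (x := y⁻¹) (by simp [hy3]) 0
    rw [exp_zero] at hz
    refine ⟨z, (val_int_lt_iff v _).mp ?_⟩
    have e : ((z ^ 2 - a : 𝓞 F) : F) =
        ((z : F) - y⁻¹) * (z + y⁻¹) - ((x : F) * y ^ 2 - 1) / y ^ 2 := by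
      rw [hx]; push_cast; field_simp; ring
    rw [e]
    refine (v.valuation F).map_sub_lt ?_ ?_
    · rw [map_mul]
      exact mul_lt_one_of_lt_of_le hz
        ((v.valuation F).map_add_le (val_int_le v z) (by simp [hy3]))
    · rw [map_div₀, map_pow, hy2, div_one]; exact hy1
  · rintro ⟨y, hy⟩
    have hy1 : y ∉ v.asIdeal := fun h => ha (by
      have := v.asIdeal.sub_mem (Ideal.pow_mem_of_mem _ h 2 two_pos) hy
      simpa using this)
    have hy2 := val_int_eq_one v hy1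
    have hy0 : (y : F) ≠ 0 := (ev_of_val_one v hy2).ne_zero
    refine ⟨(y : F)⁻¹, ?_⟩
    have e : (x : F) * (y : F)⁻¹ ^ 2 - 1 = -(((y ^ 2 - a : 𝓞 F) : F) / y ^ 2) := by
      rw [hx]; push_cast; field_simp; ring
    rw [e, Valuation.map_neg, map_div₀, map_pow, hy2, one_pow, div_one, h4]
    exact (val_int_lt_iff v _).mpr hy

end Loc

open Loc

universe u

theorem l4Stmt : L4Stmt.{u} := by
  intro F _ _ d u h1 h2 hfin
  obtain ⟨c, d', hd⟩ := exists_mul_sq_int d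
  obtain ⟨c', u', hu⟩ := exists_mul_sq_int u
  have hd0 : d' ≠ 0 := fun h => (d * c ^ 2).ne_zero (by rw [hd, h]; rfl)
  have hu0 : u' ≠ 0 := fun h => (u * c' ^ 2).ne_zero (by rw [hu, h]; rfl)
  have h1' : ¬ IsSquare (u' : F) := by
    rwa [← hu, ← mem_Sqs, mul_sq_mem_Sqs]
  have h2' : ¬ IsSquare ((d' : F) * u') := by
    have e : d * c ^ 2 * (u * c' ^ 2) = d * u * (c * c') ^ 2 := by
      rw [mul_pow, mul_mul_mul_comm]
    rwa [← hu, ← hd, ← Units.val_mul, ← mem_Sqs, e, mul_sq_mem_Sqs]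
  have hbad : {v : Pl F | v.asIdeal ∣ Ideal.span {2 * d' * u'}}.Finite :=
    Ideal.finite_factors (by simp [hd0, hu0])
  obtain ⟨N, hN⟩ := ((hfin.union hbad).image fun v => Ideal.absNorm v.asIdeal).bddAbove
  obtain ⟨v, hvN, hv⟩ := exists_prime_int d' u' h1' h2' N
  have hv1 : v ∉ {v : Pl F | d ∈ Sq v ∧ u ∉ Sq v} ∪
      {v : Pl F | v.asIdeal ∣ Ideal.span {2 * d' * u'}} := fun h =>
    absurd (hN ⟨v, h, rfl⟩) (not_le.mpr hvN)
  have hv2 : 2 * d' * u' ∉ v.asIdeal := fun h =>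
    hv1 (Or.inr (Ideal.dvd_span_singleton.mpr h))
  obtain ⟨hv3, hv4⟩ := hv hv2
  have h2v := val_two_eq_one v fun h =>
    hv2 (Ideal.mul_mem_right _ _ (Ideal.mul_mem_right _ _ h))
  refine hv1 (Or.inl ⟨?_, fun h => ?_⟩)
  · rw [← mul_sq_mem_Sq v c]
    exact (mem_Sq_iff_int v h2v hd fun h =>
      hv2 (Ideal.mul_mem_right _ _ (Ideal.mul_mem_left _ _ h))).mpr hv3
  · rw [← mul_sq_mem_Sq v c'] at h
    obtain ⟨y, hy⟩ := (mem_Sq_iff_int v h2v hu fun h => hv2 (Ideal.mul_mem_left _ _ h)).mp h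
    exact hv4 y hy

end Crest.Agent.T24.Hn
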