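import Crest.Agent.T24.Hn_7
import Crest.Agent.T24.HnLocC_73
import Crest.Agent.T24.HnLocD_73

/-!
# Row 24: the Hasse norm theorem for quadratic extensions, unconditional forms
-/

set_option autoImplicit false

noncomputable section

open scoped NumberField
open IsDedekindDomain

namespace Crest.Agent.T24.Hn

universe u

/-- **Hasse norm theorem** -/
theorem hnStmt : HNStmt.{u} := hnStmt_of l1Stmt l2Stmt l3Stmt l4Stmt

variable {F : Type u} [Field F] [NumberField F]

/-- the local norm index at a non-split place is two -/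
theorem index_LN (v : Pl F) (d : Fˣ) (hv : d ∉ Sq v) : (LN (d : F) v).index = 2 :=
  index_LN_of l1Stmt l2Stmt l3Stmt l4Stmt v d hv

theorem LN_eq_top (v : Pl F) (d : Fˣ) (hv : d ∈ Sq v) : LN (d : F) v = ⊤ := by
  refine (Subgroup.eq_top_iff' _).mpr fun a => ((l5Stmt F v d a).1).mpr ?_
  obtain ⟨r, hr⟩ := (Loc.mem_Sq_iff v d).mp hv
  have h0 : r ≠ 0 := by
    rintro rfl
    rw [mul_zero, map_eq_zero] at hr
    exact d.ne_zero hr
  have : CharZero (v.adicCompletion F) := algebraRat.charZero _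
  refine ⟨(algebraMap F _ (a : F) + 1) / 2, (algebraMap F _ (a : F) - 1) / (2 * r), ?_⟩
  rw [hr]
  field_simp
  ring

/-- Hasse norm theorem, hypotheses only at the places dividing `2 d a` -/
theorem hasse_norm_bad (d a : Fˣ)
    (h : ∀ v : Pl F, ¬ (v.valuation F 2 = 1 ∧ v.valuation F (d : F) = 1 ∧ v.valuation F (a : F) = 1) →
      a ∈ LN (d : F) v)
    (hR : ∀ φ : F →+* ℝ, φ d < 0 → 0 < φ a) : a ∈ Nr (d : F) := by
  refine hnStmt F d a (fun v => ?_) hR
  by_cases h1 : v.valuation F 2 = 1 ∧ v.valuation F (d : F) = 1 ∧ v.valuation F (a : F) = 1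
  · exact (l5Stmt F v d a).2 h1.1 h1.2.1 h1.2.2
  · exact h v h1

/-- Hasse norm theorem with completions -/
theorem hasse_norm (d a : F) (hd : d ≠ 0) (ha : a ≠ 0)
    (h : ∀ v : Pl F, ∃ x y : v.adicCompletion F,
      algebraMap F (v.adicCompletion F) a = x ^ 2 - algebraMap F (v.adicCompletion F) d * y ^ 2)
    (hR : ∀ φ : F →+* ℝ, φ d < 0 → 0 < φ a) : ∃ x y : F, a = x ^ 2 - d * y ^ 2 :=
  hnStmt F (Units.mk0 d hd) (Units.mk0 a ha)
    (fun v => ((l5Stmt F v (Units.mk0 d hd) (Units.mk0 a ha)).1).mpr (h v)) hR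

end Crest.Agent.T24.Hn
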