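import Crest.Agent.T24.EmbC_13
import Crest.Agent.T24.EmbA_16
import Crest.Agent.T24.EmbW_56

/-! Row 24, embedding module (helper13): the unconditional statements. -/

set_option autoImplicit false

namespace Crest.Agent.T24.Emb

universe u v w

section
variable (k : Type u) (K B : Type*) [Field k] [NumberField k] [Field K] [NumberField K]
  [Algebra k K] [StarRing K] [Quad k K] [Ring B] [StarRing B] [Algebra K B] [StarModule K B]
  [Algebra.IsCentral K B] [IsSimpleRing B] [FiniteDimensional K B] [Algebra k B]
  [IsScalarTower k K B]

theorem embMod : EmbMod k K B := embMod_of (waU k K B)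

theorem embEx : EmbEx k K B := embEx_of (locAe k K B)

theorem embNear' (h : LocEx k K B) : EmbNear k K B := embNear_of h (embEx k K B) (embMod k K B)

end

theorem embModStmt : EmbModStmt.{u, v, w} := fun D => embMod D.k D.K D.B

theorem embExStmt : EmbExStmt.{u, v, w} := fun D => embEx D.k D.K D.B

end Crest.Agent.T24.Emb
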