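import Crest.Agent.T24.EmbLB_22
import Crest.Agent.T24.Emb_13
import Crest.Agent.T24.BcB_98
import Crest.Agent.T24.SplEx_33

/-! Row 24, embedding module (helper22): no local condition at almost all places. -/

set_option autoImplicit false
set_option linter.unusedSectionVars false
set_option linter.style.haveILetI false

noncomputable section

namespace Crest.Agent.T24.Emb

open Module Polynomial Csa Asa Filter BC
open scoped Valued

universe u v w

variable {k K B : Type*} [Field k] [NumberField k] [Field K] [NumberField K] [Algebra k K]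
  [StarRing K] [Quad k K] [Ring B] [StarRing B] [Algebra K B] [StarModule K B]
  [Algebra.IsCentral K B] [IsSimpleRing B] [FiniteDimensional K B] [Algebra k B]
  [IsScalarTower k K B]

namespace L22

theorem hr_mk {F C : Type*} [Field F] [Algebra k F] [Ring C] [Algebra k C] [Algebra F C]
    [IsScalarTower k F C] (s : SM k K B F C) (y : C) : HR (minpoly F y) (s.mk' y y) := by
  haveI := s.finite
  refine ⟨s.star_mk' y y, eq_of_monic_of_associated (minpoly.monic (Algebra.IsIntegral.isIntegral _))
    (minpoly.monic (Algebra.IsIntegral.isIntegral _)) (associated_of_dvd_dvd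
      (minpoly.dvd _ _ (s.herm_ext ?_ (star_zero _) ?_)) (minpoly.dvd _ _ ?_))⟩
  · rw [star_aeval_bc, s.star_mk']
  · rw [← aeval_algHom_apply, s.hat_mk', minpoly.aeval, map_zero]
  · conv_lhs => rw [← s.hat_mk' y y]
    rw [s.hat_mk' y y, ← s.hat_mk' y y, aeval_algHom_apply, s.hat_mk' y y, minpoly.aeval, map_zero]

theorem le_ae (a : k) : ∀ᶠ v : Pl k in cofinite, ‖algebraMap k (Kv v) a‖ ≤ 1 :=
  (Loc.int_ae a).mono fun v h => by rwa [Valued.toNormedField.norm_le_one_iff, Loc.val_alg]

theorem eq_ae {a : k} (ha : a ≠ 0) : ∀ᶠ v : Pl k in cofinite, ‖algebraMap k (Kv v) a‖ = 1 := by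
  filter_upwards [le_ae a, le_ae a⁻¹] with v h1 h2
  rw [map_inv₀, norm_inv, inv_le_one₀ (norm_pos_iff.2 ((_root_.map_ne_zero _).2 ha))] at h2
  exact le_antisymm h1 h2

theorem it_ae {θ : K} (h0 : θ ≠ 0) (hθ : star θ = -θ) (c : K) : ∀ᶠ v : Pl k in cofinite,
    It (Kv v) (inc k K K (Kv v) θ) (inc k K K (Kv v) c) := by
  obtain ⟨a, b, rfl⟩ := exists_coord (Quad.fr (k := k) (K := K)) Quad.star_k h0 hθ c
  filter_upwards [le_ae a, le_ae b] with v h1 h2
  exact ⟨_, _, h1, h2, by
    rw [map_add, map_mul, AlgHom.commutes, AlgHom.commutes, ← IsScalarTower.algebraMap_apply,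
      ← IsScalarTower.algebraMap_apply]⟩

end L22

open L22

variable (k K B) in
/-- at almost all places every monic polynomial of the right degree has a hermitian root -/
theorem loc_ae : ∀ᶠ v : Pl k in cofinite, ∀ Q : (Kv v)[X], Q.Monic → Q.natDegree = deg K B →
    ∃ t : BC k K B (Kv v), HR Q t := by
  obtain ⟨θ, δ, h0, hθ, hδ⟩ := exists_delta k K
  let e := finBasis K B
  obtain ⟨g, hg⟩ := Loc.exists_dual e
  have hδ0 : δ ≠ 0 := fun h => mul_ne_zero h0 h0 (by rw [← hδ, h, map_zero])
  filter_upwards [SplE.spl_ae k e, eq_ae hδ0, eq_ae (two_ne_zero (α := k)),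
    eventually_all.2 fun p : _ × _ × _ => it_ae (k := k) h0 hθ (e.repr (e p.1 * e p.2.1) p.2.2),
    eventually_all.2 fun p : _ × _ => it_ae (k := k) h0 hθ (e.repr (g p.1) p.2),
    eventually_all.2 fun p : _ × _ => it_ae (k := k) h0 hθ (e.repr (star (e p.1)) p.2)]
    with v h1 h2 h3 h4 h5 h6 Q hQ hd
  rcases isEmpty_or_nonempty (K →ₐ[k] Kv v) with hE | ⟨⟨ι⟩⟩
  · haveI := Loc.proper_adic k v
    haveI := Loc.charZero_adic k v
    let F := Kv v
    let E := BC k K K F
    let φ := (inc k K B F).toRingHom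
    have hr := finrank_E k K F B
    let e' := mapBasis (L := E) e φ hr
    have he : ∀ i, e' i = φ (e i) := mapBasis_apply _ _ _
    have he' : ∀ x i, e'.repr (φ x) i = inc k K K F (e.repr x i) :=
      mapBasis_repr e φ hr (inc k K K F).toRingHom (inc_compat k K F B)
    refine core (F := F) (E := E) (θ := inc k K K F θ) (δ := algebraMap k F δ)
      (by rw [star_inc, hθ, map_neg])
      (by rw [← map_mul, ← hδ, AlgHom.commutes, ← IsScalarTower.algebraMap_apply]) h2
      (by rwa [map_ofNat] at h3) e' (fun i => φ (g i))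
      (fun i j l => by rw [he, he, ← map_mul, he']; exact h4 (i, j, l))
      (fun i l => by rw [he']; exact h5 (i, l)) (fun x => ?_)
      (fun i l => by rw [he]; exact (he' (star (e i)) l).symm ▸ h6 (i, l)) hQ
      (hd.trans (deg_E k K F B).symm)
    have : LinearMap.id = ∑ i, (Trd E ∘ₗ LinearMap.mulRight E (e' i)).smulRight (φ (g i)) :=
      e'.ext fun l => by
        rw [LinearMap.id_apply, he, LinearMap.sum_apply]
        conv_lhs => rw [hg (e l), map_sum]
        refine Finset.sum_congr rfl fun i _ => ?_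
        rw [LinearMap.smulRight_apply, LinearMap.comp_apply, LinearMap.mulRight_apply, he, ← map_mul φ,
          Trd_map (inc k K K F).toRingHom φ (inc_compat k K F B) hr]
        exact inc_smul k K B F _ _
    simpa using LinearMap.congr_fun this x
  · obtain ⟨s, -⟩ := h1 ι
    obtain ⟨y, -, rfl, -⟩ := exists_sym hQ hd (deg_pos K B)
    exact ⟨_, hr_mk s.sm y⟩

variable (k K B)

theorem locEx : LocEx k K B :=
  ⟨(loc_ae k K B).toFinset, fun v hv Q hQ hd _ => by
    by_contra h
    exact hv ((Set.Finite.mem_toFinset _).2 fun h' => h (h' Q hQ hd))⟩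

theorem embNear : EmbNear k K B := embNear' k K B (locEx k K B)

theorem locExStmt : LocExStmt.{u, v, w} := fun D => locEx D.k D.K D.B

theorem embNearStmt : EmbNearStmt.{u, v, w} := fun D => embNear D.k D.K D.B

end Crest.Agent.T24.Emb
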