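import Crest.Agent.T24.Csa2_50
import Crest.Agent.T24.Csa3_56
import Crest.Agent.T24.AbDef_13

/-! Row 24 (helper23): splittings of central simple algebras, local-global principle for
splitting fields and for roots of polynomials (from ABHN for division algebras). -/

set_option autoImplicit false

noncomputable section

namespace Crest.Agent.T24.Hsm

open scoped TensorProduct
open Module Polynomial NumberField IsDedekindDomain
open Crest.Agent.T24.Csa

universe u v w

section Spl

variable {K : Type*} [Field K] {B : Type*} [Ring B] [Algebra K B] {E : Type*} [Field E]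

variable (B) in
/-- `B` has a representation of size `n` over `E`, along `f : K → E` -/
def Spl (n : ℕ) (f : K →+* E) : Prop :=
  ∃ φ : B →+* Matrix (Fin n) (Fin n) E,
    ∀ c : K, φ (algebraMap K B c) = Matrix.scalar (Fin n) (f c)

variable {n : ℕ} {f : K →+* E}

theorem Spl.comp {E' : Type*} [Field E'] (h : Spl B n f) (g : E →+* E') : Spl B n (g.comp f) := by
  obtain ⟨φ, hφ⟩ := h
  refine ⟨g.mapMatrix.comp φ, fun c => ?_⟩
  rw [RingHom.comp_apply, hφ]
  simp [Matrix.diagonal_map (map_zero g)]

theorem spl_iff [Algebra K E] :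
    Spl B n (algebraMap K E) ↔ Nonempty (B →ₐ[K] Matrix (Fin n) (Fin n) E) :=
  ⟨fun ⟨φ, hφ⟩ => ⟨{ φ with commutes' := hφ }⟩, fun ⟨φ⟩ => ⟨φ.toRingHom, φ.commutes⟩⟩

theorem Spl.of_hom {B' : Type*} [Ring B'] [Algebra K B'] (h : Spl B n f) (ψ : B' →ₐ[K] B) :
    Spl B' n f := by
  obtain ⟨φ, hφ⟩ := h
  exact ⟨φ.comp ψ.toRingHom, fun c => by rw [← hφ, ← ψ.commutes]; rfl⟩

/-- semilinear transport -/
theorem Spl.of_hom' {K' B' : Type*} [Field K'] [Ring B'] [Algebra K' B'] (h : Spl B n f)
    (g : K' →+* K) (ψ : B' →+* B) (hψ : ∀ c, ψ (algebraMap K' B' c) = algebraMap K B (g c)) :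
    Spl B' n (f.comp g) := by
  obtain ⟨φ, hφ⟩ := h
  exact ⟨φ.comp ψ, fun c => by rw [RingHom.comp_apply, hψ, hφ]; rfl⟩

theorem spl_of_end {V : Type*} [AddCommGroup V] [Module E V] [FiniteDimensional E V]
    (hn : finrank E V = n) (ρ : B →+* End E V)
    (hρ : ∀ c x, ρ (algebraMap K B c) x = f c • x) : Spl B n f := by
  let b := Module.finBasisOfFinrankEq E V hn
  refine ⟨(LinearMap.toMatrixAlgEquiv b).toRingHom.comp ρ, fun c => ?_⟩
  have : ρ (algebraMap K B c) = algebraMap E _ (f c) := LinearMap.ext fun x => hρ c x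
  rw [RingHom.comp_apply, this]
  exact (LinearMap.toMatrixAlgEquiv b).commutes _

theorem Spl.exists_end (h : Spl B n f) :
    ∃ ρ : B →+* End E (Fin n → E), ∀ c x, ρ (algebraMap K B c) x = f c • x := by
  obtain ⟨φ, hφ⟩ := h
  refine ⟨(Matrix.toLinAlgEquiv' (R := E) (n := Fin n)).toRingHom.comp φ, fun c x => ?_⟩
  rw [RingHom.comp_apply, hφ]
  exact LinearMap.congr_fun ((Matrix.toLinAlgEquiv' (R := E) (n := Fin n)).commutes (f c)) x

/-- base change -/
theorem Spl.bc {L : Type*} [Field L] [Algebra K L] {g : L →+* E}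
    (h : Spl B n (g.comp (algebraMap K L))) : Spl (L ⊗[K] B) n g := by
  let _ : Algebra L E := g.toAlgebra
  let _ : Algebra K E := (g.comp (algebraMap K L)).toAlgebra
  have : IsScalarTower K L E := IsScalarTower.of_algebraMap_eq fun _ => rfl
  obtain ⟨φ⟩ := (spl_iff (K := K) (B := B) (E := E)).1 h
  exact (spl_iff (K := L) (E := E)).2 ⟨bcHom L φ⟩

theorem Spl.of_bc {L : Type*} [Field L] [Algebra K L] {g : L →+* E}
    (h : Spl (L ⊗[K] B) n g) : Spl B n (g.comp (algebraMap K L)) :=
  h.of_hom' _ (Algebra.TensorProduct.includeRight : B →ₐ[K] L ⊗[K] B).toRingHom fun c =>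
    ((Algebra.TensorProduct.includeRight : B →ₐ[K] L ⊗[K] B).commutes c).trans
      (IsScalarTower.algebraMap_apply K L _ c)

/-- restriction of a representation to an invariant subspace -/
def restr {D V : Type*} [Ring D] [AddCommGroup V] [Module E V] (ρ : D →+* End E V)
    (W : Submodule E V) (h : ∀ d, ∀ x ∈ W, ρ d x ∈ W) : D →+* End E W where
  toFun d := (ρ d).restrict (h d)
  map_one' := by ext x; simp
  map_mul' a b := by ext x; simp
  map_zero' := by ext x; simp
  map_add' a b := by ext x; simp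

theorem Spl.corner {D : Type*} [Ring D] [Algebra K D] {r e : ℕ} (hr : 0 < r)
    (h : Spl (Matrix (Fin r) (Fin r) D) (r * e) f) : Spl D e f := by
  obtain ⟨ρ, hρ⟩ := h.exists_end
  let o : Fin r := ⟨0, hr⟩
  let ε : Fin r → Fin r → End E (Fin (r * e) → E) := fun i j => ρ (Matrix.single i j 1)
  have hε : ∀ i j k l x, ε i j (ε k l x) = if j = k then ε i l x else 0 := by
    intro i j k l x
    rw [← End.mul_apply, ← map_mul]
    split_ifs with h
    · subst h; rw [Matrix.single_mul_single_same, one_mul]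
    · rw [Matrix.single_mul_single_of_ne _ _ _ _ h, map_zero, LinearMap.zero_apply]
  have hs : ∀ x, ∑ i, ε i i x = x := by
    intro x
    rw [← LinearMap.sum_apply, ← map_sum, Matrix.sum_single_one, map_one, End.one_apply]
  let W := LinearMap.range (ε o o)
  have hW : ∀ x : W, ε o o x = x := by
    rintro ⟨_, x, rfl⟩; simp [hε]
  let q : (Fin (r * e) → E) ≃ₗ[E] Fin r → W :=
    { toFun := fun x i => ⟨ε o i x, ε o i x, by simp [hε]⟩
      map_add' := fun x y => funext fun i => Subtype.ext (by simp)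
      map_smul' := fun c x => funext fun i => Subtype.ext (by simp)
      invFun := fun y => ∑ i, ε i o (y i)
      left_inv := fun x => by simp [hε, hs]
      right_inv := fun y => funext fun i => Subtype.ext (by simp [hε, hW]) }
  have hd : finrank E W = e := by
    have := q.finrank_eq
    simp only [finrank_pi_fintype, Finset.sum_const, Finset.card_univ, Fintype.card_fin,
      smul_eq_mul, finrank_self, mul_one] at this
    exact (Nat.eq_of_mul_eq_mul_left hr this).symm
  refine spl_of_end hd (restr (ρ.comp (Matrix.scalar (Fin r))) W ?_) fun c x => ?_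
  · rintro d _ ⟨x, rfl⟩
    refine ⟨ρ (Matrix.scalar _ d) x, ?_⟩
    rw [RingHom.comp_apply, ← End.mul_apply, ← End.mul_apply, ← map_mul, ← map_mul]
    congr 2
    ext i j
    simp [Matrix.mul_diagonal, Matrix.diagonal_mul, Matrix.single_apply]
  · exact Subtype.ext (hρ c x)

end Spl

section Emb

variable {K : Type*} [Field K] {B : Type*} [Ring B] [Algebra K B] {E : Type*} [CommRing E]
  [Algebra K E] {n : ℕ}

/-- the column module of a representation -/
def Col (_ψ : B →ₐ[K] Matrix (Fin n) (Fin n) E) : Type _ := Fin n → E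

namespace Col
variable (ψ : B →ₐ[K] Matrix (Fin n) (Fin n) E)

instance : AddCommGroup (Col ψ) := inferInstanceAs (AddCommGroup (Fin n → E))
instance : Module K (Col ψ) := inferInstanceAs (Module K (Fin n → E))
instance : Module E (Col ψ) := inferInstanceAs (Module E (Fin n → E))
instance [FiniteDimensional K E] : FiniteDimensional K (Col ψ) :=
  inferInstanceAs (FiniteDimensional K (Fin n → E))
instance : IsScalarTower K E (Col ψ) := inferInstanceAs (IsScalarTower K E (Fin n → E))

/-- the action -/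
def act : B →+* End E (Col ψ) :=
  (Matrix.toLinAlgEquiv' (R := E) (n := Fin n)).toRingHom.comp ψ.toRingHom

instance : Module B (Col ψ) := Module.compHom _ (act ψ)

theorem smul_def (b : B) (x : Col ψ) : b • x = act ψ b x := rfl

instance : IsScalarTower K B (Col ψ) := ⟨fun c b (x : Fin n → E) => by
  change (ψ (c • b)).mulVec x = c • (ψ b).mulVec x
  rw [map_smul, Matrix.smul_mulVec]⟩

instance : SMulCommClass E B (Col ψ) := ⟨fun a b x => ((act ψ b).map_smul a x).symm⟩

/-- the vector with all entries one -/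
def one : Col ψ := fun _ => 1

theorem eq_zero (hn : 0 < n) {a : E} (h : a • one ψ = 0) : a = 0 := by
  have : a * 1 = 0 := congrFun h ⟨0, hn⟩
  simpa using this

theorem finrank_eq [FiniteDimensional K E] : finrank K (Col ψ) = n * finrank K E := by
  change finrank K (Fin n → E) = _
  simp [finrank_pi_fintype]

end Col

/-- a commutative algebra of the right dimension that splits `B` embeds into `B` -/
theorem emb_of_hom [IsSimpleRing B] [FiniteDimensional K B] [FiniteDimensional K E]
    (hB : finrank K B = n ^ 2) (hE : finrank K E = n)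
    (ψ : B →ₐ[K] Matrix (Fin n) (Fin n) E) : ∃ j : E →ₐ[K] B, Function.Injective j := by
  obtain ⟨e⟩ := equiv_of_finrank (K := K) (R := B) (M := Col ψ) (N := B)
    (by rw [Col.finrank_eq, hE, hB, sq])
  have key : ∀ (a : E) (x : B), e (a • e.symm x) = x * e (a • e.symm 1) := by
    intro a x
    rw [← smul_eq_mul x, ← e.map_smul, ← smul_comm, ← e.symm.map_smul, smul_eq_mul, mul_one]
  have hK : ∀ (c : K) (x : Col ψ), e (c • x) = c • e x := fun c x =>
    (e.restrictScalars K).map_smul c x
  refine ⟨{ toFun := fun a => e (a • e.symm 1)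
            map_one' := by simp
            map_mul' := fun a b => by rw [← key, e.symm_apply_apply, smul_smul, mul_comm]
            map_zero' := by simp
            map_add' := fun a b => by rw [add_smul, map_add]
            commutes' := fun c => by
              rw [algebraMap_smul, hK, e.apply_symm_apply, Algebra.algebraMap_eq_smul_one] },
    (injective_iff_map_eq_zero _).2 fun a ha => ?_⟩
  have hn : 0 < n := Nat.pos_of_ne_zero fun h0 => by
    have := finrank_pos (R := K) (M := B)
    simp [hB, h0] at this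
  have h1 := key a (e (Col.one ψ))
  have ha' : e (a • e.symm 1) = 0 := ha
  rw [ha', mul_zero, e.symm_apply_apply, e.map_eq_zero_iff] at h1
  exact Col.eq_zero ψ hn h1

/-- the degree of a splitting field of a division algebra -/
theorem dvd_of_hom {D : Type*} [DivisionRing D] [Algebra K D] [FiniteDimensional K E]
    (hn : 0 < n) (hD : finrank K D = n ^ 2) (ψ : D →ₐ[K] Matrix (Fin n) (Fin n) E) :
    n ∣ finrank K E := by
  have h := finrank_mul_finrank K D (Col ψ)
  rw [Col.finrank_eq, hD, sq, mul_assoc] at h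
  exact Dvd.intro _ (Nat.eq_of_mul_eq_mul_left hn h)

end Emb

section Glob

theorem isCentral_of_matrix {K D : Type*} [Field K] [Ring D] [Algebra K D] {r : ℕ} (hr : 0 < r)
    [Algebra.IsCentral K (Matrix (Fin r) (Fin r) D)] : Algebra.IsCentral K D := by
  refine ⟨fun z hz => ?_⟩
  have : Matrix.scalar (Fin r) z ∈ Subalgebra.center K (Matrix (Fin r) (Fin r) D) := by
    rw [Subalgebra.mem_center_iff] at hz ⊢
    intro m
    ext i j
    simp [Matrix.mul_diagonal, Matrix.diagonal_mul, hz]
  obtain ⟨c, hc⟩ := (Algebra.IsCentral.mem_center_iff K).1 this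
  refine ⟨c, ?_⟩
  have := congrFun (congrFun hc ⟨0, hr⟩) ⟨0, hr⟩
  simpa [Matrix.algebraMap_matrix_apply] using this.symm

/-- Wedderburn with degrees -/
theorem exists_wedderburn (K : Type*) [Field K] (B : Type v) [Ring B] [Algebra K B]
    [Algebra.IsCentral K B] [IsSimpleRing B] [FiniteDimensional K B] {n : ℕ}
    (hn : finrank K B = n ^ 2) :
    ∃ (r e : ℕ) (D : Type v) (_ : DivisionRing D) (_ : Algebra K D) (_ : Algebra.IsCentral K D)
      (_ : FiniteDimensional K D), 0 < r ∧ 0 < e ∧ n = r * e ∧ finrank K D = e ^ 2 ∧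
      Nonempty (B ≃ₐ[K] Matrix (Fin r) (Fin r) D) := by
  have := IsArtinianRing.of_finite K B
  obtain ⟨r, hr, D, _, _, _, ⟨q⟩⟩ := IsSimpleRing.exists_algEquiv_matrix_divisionRing_finite K B
  have hr0 := Nat.pos_of_neZero r
  have := Algebra.IsCentral.of_algEquiv K _ _ q
  have := isCentral_of_matrix (K := K) (D := D) hr0
  refine ⟨r, deg K D, D, _, _, this, ‹_›, hr0, deg_pos K D, ?_, finrank_eq_deg_sq K D, ⟨q⟩⟩
  have h := q.toLinearEquiv.finrank_eq
  rw [hn, Module.finrank_matrix, finrank_eq_deg_sq K D, Fintype.card_fin] at h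
  exact (Nat.pow_left_injective two_ne_zero (h.trans (by ring)) : n = r * deg K D)

/-- **ABHN** for central simple algebras -/
theorem spl_global (hA : Ab.AbhnStmt.{u, v}) {F : Type u} [Field F] [NumberField F] {B : Type v}
    [Ring B] [Algebra F B] [Algebra.IsCentral F B] [IsSimpleRing B] [FiniteDimensional F B] {n : ℕ}
    (hn : finrank F B = n ^ 2)
    (hfin : ∀ w : HeightOneSpectrum (𝓞 F), Spl B n (algebraMap F (w.adicCompletion F)))
    (hreal : ∀ σ : F →+* ℝ, Spl B n σ) : Spl B n (algebraMap F F) := by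
  obtain ⟨r, e, D, _, _, _, _, hr, he, rfl, hD, ⟨q⟩⟩ := exists_wedderburn F B hn
  obtain rfl := hA F D e he hD
    (fun w => spl_iff.1 (((hfin w).of_hom q.symm.toAlgHom).corner hr))
    (fun σ => ((hreal σ).of_hom q.symm.toAlgHom).corner hr)
  have hb : Function.Bijective (algebraMap F D) :=
    Algebra.finrank_eq_one_iff_bijective_algebraMap.1 (by simpa using hD)
  rw [mul_one]
  exact spl_iff.2 ⟨(AlgEquiv.ofBijective (Algebra.ofId F D) hb).symm.toAlgHom.mapMatrix.comp
    q.toAlgHom⟩

variable {K : Type*} [Field K] {B : Type v} [Ring B] [Algebra K B] [Algebra.IsCentral K B]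
  [IsSimpleRing B] [FiniteDimensional K B] {n : ℕ}

/-- a number field `L` splits `B` iff it does so locally everywhere -/
theorem spl_field (hA : Ab.AbhnStmt.{w, max w v}) (hn : finrank K B = n ^ 2) (L : Type w)
    [Field L] [NumberField L] [Algebra K L]
    (hfin : ∀ w : HeightOneSpectrum (𝓞 L), Spl B n (algebraMap K (w.adicCompletion L)))
    (hreal : ∀ σ : L →+* ℝ, Spl B n (σ.comp (algebraMap K L))) : Spl B n (algebraMap K L) := by
  have := isSimpleRing_tensor (K := K) (A := L) (B := B)
  have := isCentral_tensor (K := K) (A := L) (B := B) (F := L)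
  exact (spl_global hA (B := L ⊗[K] B) (by rw [finrank_baseChange, hn])
    (fun w => Spl.bc (by rw [← IsScalarTower.algebraMap_eq]; exact hfin w))
    fun σ => (hreal σ).bc).of_bc

end Glob

section Root

variable {K : Type u} [Field K] [NumberField K]

omit [NumberField K] in
theorem spl_field_of_root {B : Type v} [Ring B] [Algebra K B] [Algebra.IsCentral K B]
    [IsSimpleRing B] [FiniteDimensional K B] {n : ℕ} (hA : Ab.AbhnStmt.{u, max u v})
    (hn : finrank K B = n ^ 2) {P : K[X]}
    (hreal : ∀ ρ : K →+* ℝ, Spl B n ρ ∨ ∀ x : ℝ, ¬ (P.map ρ).IsRoot x)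
    (L : Type u) [Field L] [NumberField L] [Algebra K L] {a : L} (ha : aeval a P = 0)
    (hfin : ∀ w : HeightOneSpectrum (𝓞 L), Spl B n (algebraMap K (w.adicCompletion L))) :
    Spl B n (algebraMap K L) :=
  spl_field hA hn L hfin fun σ => (hreal _).resolve_right fun h => h (σ a) (by
    rw [IsRoot.def, ← Polynomial.map_map, eval_map, eval₂_hom, eval_map, ← aeval_def, ha,
      map_zero])

/-- **EMB**: roots of polynomials in a division algebra -/
theorem emb (hA : Ab.AbhnStmt.{u, max u v}) {D : Type v} [DivisionRing D] [Algebra K D]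
    [Algebra.IsCentral K D] [FiniteDimensional K D] {d : ℕ} (hD : finrank K D = d ^ 2)
    {P : K[X]} (hP : P.Monic) (hd : P.natDegree = d)
    (hfin : ∀ (L : Type u) [Field L] [NumberField L] [Algebra K L], (∃ a : L, aeval a P = 0) →
      ∀ w : HeightOneSpectrum (𝓞 L),
        Nonempty (D →ₐ[K] Matrix (Fin d) (Fin d) (w.adicCompletion L)))
    (hreal : ∀ ρ : K →+* ℝ, Spl D d ρ ∨ ∀ x : ℝ, ¬ (P.map ρ).IsRoot x) :
    Irreducible P ∧ ∃ θ : D, aeval θ P = 0 := by
  have hd0 : 0 < d := deg_eq K hD ▸ deg_pos K D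
  obtain ⟨Q, hQ, hI, hQP⟩ := exists_monic_irreducible_factor P
    (not_isUnit_of_natDegree_pos P (hd ▸ hd0))
  have := Fact.mk hI
  have := (AdjoinRoot.powerBasis hI.ne_zero).finite
  have := NumberField.of_module_finite K (AdjoinRoot Q)
  have hr : aeval (AdjoinRoot.root Q) P = 0 := by
    rw [AdjoinRoot.aeval_eq, AdjoinRoot.mk_eq_zero]; exact hQP
  obtain ⟨ψ⟩ := spl_iff.1 (spl_field_of_root hA hD hreal (AdjoinRoot Q) hr
    fun w => spl_iff.2 (hfin _ ⟨_, hr⟩ w))
  have hf : finrank K (AdjoinRoot Q) = Q.natDegree := (AdjoinRoot.powerBasis hI.ne_zero).finrank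
  have h1 : P.natDegree ≤ Q.natDegree :=
    hd ▸ Nat.le_of_dvd hI.natDegree_pos (hf ▸ dvd_of_hom hd0 hD ψ)
  obtain rfl : P = Q := eq_of_monic_of_dvd_of_natDegree_le hQ hP hQP h1
  obtain ⟨j, -⟩ := emb_of_hom hD (hf.trans hd) ψ
  exact ⟨hI, j (AdjoinRoot.root P), by rw [aeval_algHom_apply, hr, map_zero]⟩

/-- **interpolation** (G2): a squarefree polynomial with local roots has a regular root -/
theorem interp (hA : Ab.AbhnStmt.{u, max u v}) {B : Type v} [Ring B] [Algebra K B]
    [Algebra.IsCentral K B] [IsSimpleRing B] [FiniteDimensional K B] {n : ℕ}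
    (hn : finrank K B = n ^ 2) {P : K[X]} (hP : P.Monic) (hd : P.natDegree = n)
    (hs : Squarefree P)
    (hfin : ∀ (L : Type u) [Field L] [NumberField L] [Algebra K L], (∃ a : L, aeval a P = 0) →
      ∀ w : HeightOneSpectrum (𝓞 L), Spl B n (algebraMap K (w.adicCompletion L)))
    (hreal : ∀ ρ : K →+* ℝ, Spl B n ρ ∨ ∀ x : ℝ, ¬ (P.map ρ).IsRoot x) :
    ∃ y : B, minpoly K y = P ∧ rch K y = P := by
  have := (AdjoinRoot.powerBasis hP.ne_zero).finite
  have := IsArtinianRing.of_finite K (AdjoinRoot P)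
  have : IsReduced (AdjoinRoot P) := (Ideal.isRadical_iff_quotient_reduced _).1
    (isRadical_iff_span_singleton.1 hs.isRadical)
  have h : ∀ m : MaximalSpectrum (AdjoinRoot P),
      Nonempty (B →ₐ[K] Matrix (Fin n) (Fin n) (AdjoinRoot P ⧸ m.asIdeal)) := by
    intro m
    have := m.isMaximal
    let _ := Ideal.Quotient.field m.asIdeal
    have := NumberField.of_module_finite K (AdjoinRoot P ⧸ m.asIdeal)
    have hr : aeval (Ideal.Quotient.mkₐ K m.asIdeal (AdjoinRoot.root P)) P = 0 := by
      rw [aeval_algHom_apply, AdjoinRoot.aeval_eq, AdjoinRoot.mk_self, map_zero]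
    exact spl_iff.1 (spl_field_of_root hA hn hreal _ hr (hfin _ ⟨_, hr⟩))
  let ψ : B →ₐ[K] Matrix (Fin n) (Fin n) (AdjoinRoot P) :=
    ((IsArtinianRing.equivPi (AdjoinRoot P)).symm.restrictScalars K).toAlgHom.mapMatrix.comp
      ((Matrix.piAlgEquiv K).symm.toAlgHom.comp (AlgHom.pi fun m => (h m).some))
  obtain ⟨j, hj⟩ := emb_of_hom hn ((AdjoinRoot.powerBasis hP.ne_zero).finrank.trans hd) ψ
  have hm : minpoly K (j (AdjoinRoot.root P)) = P := by
    rw [minpoly.algHom_eq j hj, AdjoinRoot.minpoly_root hP.ne_zero, hP.leadingCoeff]; simp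
  exact ⟨_, hm, by rw [rch_eq_minpoly (by rw [hm, hd, deg_eq K hn]), hm]⟩

end Root

end Crest.Agent.T24.Hsm
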