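import Crest.Agent.T24.WgDie_25
import Crest.Agent.T24.CsaN_50
import Crest.Agent.T24.HsmA_23

/-!
# Row 24 (helper25): reduced norms, `SK₁`: reduction to division algebras, transfer, real places
-/

set_option autoImplicit false

noncomputable section

namespace Crest.Agent.T24.Wg

open scoped TensorProduct
open Module Polynomial Csa

universe u v

section tower
variable {K K' B C : Type*} [Field K] [CharZero K] [Field K'] [CharZero K'] [Algebra K K']
  [FiniteDimensional K K'] [Ring B] [Algebra K B] [Algebra.IsCentral K B] [IsSimpleRing B]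
  [FiniteDimensional K B] [Ring C] [Algebra K' C] [Algebra.IsCentral K' C] [IsSimpleRing C]
  [FiniteDimensional K' C] [Algebra K C] [IsScalarTower K K' C]

theorem Nrd_tower_pow (ι : C →ₐ[K] B) (h : finrank K B = finrank K K' * finrank K C) (x : C) :
    Nrd K (ι x) ^ deg K B = Algebra.norm K (Nrd K' x) ^ deg K B := by
  have : FiniteDimensional K C := Module.Finite.trans K' C
  have hd : deg K B = finrank K K' * deg K' C := by
    apply deg_eq
    rw [h, ← finrank_mul_finrank K K' C, finrank_eq_deg_sq K' C]; ring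
  let _ : Module C B := Module.compHom B (ι : C →+* B)
  have hs : ∀ (c : C) (b : B), c • b = ι c * b := fun _ _ => rfl
  have : IsScalarTower K C B := ⟨fun c y b => by rw [hs, hs, map_smul, smul_mul_assoc]⟩
  obtain ⟨e⟩ := equiv_of_finrank (K := K) (R := C) (M := B) (N := Fin (finrank K K') → C)
    (by rw [h, finrank_pi_fintype]; simp)
  let e' : B ≃ₗ[K] (Fin (finrank K K') → C) := e.restrictScalars K
  have h1 : LinearMap.pi (fun i : Fin (finrank K K') =>
      (Algebra.lmul K C x).comp (LinearMap.proj i)) =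
      (e' : B →ₗ[K] _) ∘ₗ Algebra.lmul K B (ι x) ∘ₗ (e'.symm : _ →ₗ[K] B) := by
    refine LinearMap.ext fun y => ?_
    obtain ⟨b, rfl⟩ := e'.surjective y
    simp only [LinearMap.comp_apply, LinearEquiv.coe_coe, LinearEquiv.symm_apply_apply]
    change _ = e (x • b)
    rw [map_smul]
    rfl
  have h2 : Algebra.lmul K C x = (Algebra.lmul K' C x).restrictScalars K := rfl
  rw [Nrd_pow, ← LinearMap.det_conj _ e', ← h1, LinearMap.det_pi, h2,
    LinearMap.det_restrictScalars, ← Nrd_pow, map_pow, hd]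
  simp [← pow_mul, mul_comm]

/-- `Nrd_B = N_{K'/K} ∘ Nrd_C` on a centraliser -/
theorem Nrd_tower (ι : C →ₐ[K] B) (h : finrank K B = finrank K K' * finrank K C) (x : C) :
    Nrd K (ι x) = Algebra.norm K (Nrd K' x) := by
  let Om := AlgebraicClosure K
  let P : Om[X] := (rch K (ι (-x))).map (algebraMap K Om)
  let G : Om[X] := ∏ σ : K' →ₐ[K] Om, (rch K' (-x)).map (σ : K' →+* Om)
  have hP : ∀ t : K, P.eval (algebraMap K Om t) =
      algebraMap K Om (Nrd K (ι (algebraMap K C t - -x))) := fun t => by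
    rw [eval_map_algebraMap, aeval_algebraMap_apply_eq_algebraMap_eval, eval_rch, map_sub ι,
      AlgHom.commutes]
  have hG : ∀ t : K, G.eval (algebraMap K Om t) =
      algebraMap K Om (Algebra.norm K (Nrd K' (algebraMap K C t - -x))) := fun t => by
    rw [eval_prod, Algebra.norm_eq_prod_embeddings, IsScalarTower.algebraMap_apply K K' C,
      ← eval_rch]
    refine Finset.prod_congr rfl fun σ _ => ?_
    rw [← σ.commutes t, eval_map]
    exact eval₂_at_apply (σ : K' →+* Om) _
  have hPG : P = G := by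
    refine root_unique ((rch_monic K _).map _) (monic_prod_of_monic _ _ fun σ _ =>
      (rch_monic K' _).map _) (deg_pos K B).ne' (eq_of_infinite_eval_eq _ _ ?_)
    refine (Set.infinite_range_of_injective (algebraMap K Om).injective).mono ?_
    rintro _ ⟨t, rfl⟩
    simp only [Set.mem_ofPred_eq, eval_pow, hP, hG, ← map_pow, Nrd_tower_pow ι h]
  have := hP 0
  rw [hPG, hG] at this
  simpa using ((algebraMap K Om).injective this).symm

end tower

section sk
variable (K B : Type*) [Field K] [CharZero K] [Ring B] [Algebra K B] [Algebra.IsCentral K B]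
  [IsSimpleRing B] [FiniteDimensional K B]

/-- `SK₁ B = 1` -/
def SK : Prop := ∀ x : Bˣ, Nrd K (x : B) = 1 → Abelianization.of x = 1

/-- `B` is definite at the real place `ρ` -/
def Dfn (ρ : K →+* ℝ) : Prop := ∀ y : Bˣ, 0 < ρ (Nrd K (y : B))

variable {K B}

theorem Nrd_of_eq {x y : Bˣ} (h : Abelianization.of x = Abelianization.of y) :
    Nrd K (x : B) = Nrd K (y : B) := by
  have := congrArg (fun z => ((Abelianization.lift (Units.map (Nrd K : B →*₀ K).toMonoidHom) z :
    Kˣ) : K)) h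
  simpa using this

theorem of_map {G H : Type*} [Group G] [Group H] (f : G →* H) {x y : G}
    (h : Abelianization.of x = Abelianization.of y) :
    Abelianization.of (f x) = Abelianization.of (f y) := by
  have := congrArg (Abelianization.map f) h
  simpa using this

theorem Nrd_equiv {C : Type*} [Ring C] [Algebra K C] [Algebra.IsCentral K C] [IsSimpleRing C]
    [FiniteDimensional K C] (e : B ≃ₐ[K] C) (x : B) : Nrd K (e x) = Nrd K x :=
  Nrd_map (RingHom.id K) (e : B →+* C) e.commutes e.toLinearEquiv.finrank_eq.symm x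

variable {D : Type*} [DivisionRing D] [Algebra K D] [Algebra.IsCentral K D] [FiniteDimensional K D]
  {r : ℕ} [NeZero r]

omit [Algebra.IsCentral K D] [FiniteDimensional K D] in
variable (K D) in
include K in
theorem two_ne : (2 : D) ≠ 0 := by
  have : algebraMap K D 2 ≠ 0 := by simp
  rwa [map_ofNat] at this

theorem Nrd_dg (i : Fin r) (d : Dˣ) : Nrd K (dg i d : Matrix (Fin r) (Fin r) D) = Nrd K (d : D) := by
  rw [dg_val, Nrd_diagonal, Finset.prod_eq_single i]
  · simp
  · intro j _ hj; simp [Pi.mulSingle_eq_of_ne hj]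
  · simp

/-- the diagonal embedding of `Dˣ` in `Bˣ` -/
def emb (e : B ≃ₐ[K] Matrix (Fin r) (Fin r) D) : Dˣ →* Bˣ :=
  (Units.map (e.symm : Matrix (Fin r) (Fin r) D →* B)).comp (dg 0)

theorem Nrd_emb (e : B ≃ₐ[K] Matrix (Fin r) (Fin r) D) (d : Dˣ) :
    Nrd K (emb e d : B) = Nrd K (d : D) :=
  (Nrd_equiv e.symm _).trans (Nrd_dg 0 d)

omit [Algebra.IsCentral K B] [IsSimpleRing B] [FiniteDimensional K B] [Algebra.IsCentral K D]
  [FiniteDimensional K D] in
theorem exists_emb (e : B ≃ₐ[K] Matrix (Fin r) (Fin r) D) (x : Bˣ) :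
    ∃ d : Dˣ, Abelianization.of x = Abelianization.of (emb e d) := by
  obtain ⟨d, hd⟩ := exists_dg (two_ne K D) (0 : Fin r)
    (Units.map (e : B →* Matrix (Fin r) (Fin r) D) x)
  refine ⟨d, ?_⟩
  have := of_map (Units.map (e.symm : Matrix (Fin r) (Fin r) D →* B)) hd
  rwa [show Units.map (e.symm : Matrix (Fin r) (Fin r) D →* B) 
    (Units.map (e : B →* Matrix (Fin r) (Fin r) D) x) = x from
    Units.ext (e.symm_apply_apply _)] at this

theorem exists_Nrd_eq (e : B ≃ₐ[K] Matrix (Fin r) (Fin r) D) (x : Bˣ) :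
    ∃ d : Dˣ, Nrd K (x : B) = Nrd K (d : D) := by
  obtain ⟨d, hd⟩ := exists_emb e x
  exact ⟨d, (Nrd_of_eq hd).trans (Nrd_emb e d)⟩

theorem SK.of_matrix (e : B ≃ₐ[K] Matrix (Fin r) (Fin r) D) (h : SK K D) : SK K B := by
  intro x hx
  obtain ⟨d, hd⟩ := exists_emb e x
  have := h d (by rw [← Nrd_emb e, ← Nrd_of_eq hd, hx])
  rw [hd, of_map (emb e) (this.trans (map_one _).symm), map_one, map_one]

theorem Dfn.of_matrix (e : B ≃ₐ[K] Matrix (Fin r) (Fin r) D) {ρ : K →+* ℝ} (h : Dfn K D ρ) :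
    Dfn K B ρ := fun y => by
  obtain ⟨d, hd⟩ := exists_Nrd_eq e y
  exact hd ▸ h d

end sk

section transfer
variable {K D : Type*} (L : Type*) [Field K] [CharZero K] [DivisionRing D] [Algebra K D] [Field L]
  [Algebra K L] [FiniteDimensional K L]

/-- the inclusion of units in the base change -/
def inc (K L : Type*) {B : Type*} [Field K] [Ring B] [Algebra K B] [Field L] [Algebra K L] :
    Bˣ →* (L ⊗[K] B)ˣ :=
  Units.map ((Algebra.TensorProduct.includeRight : B →ₐ[K] L ⊗[K] B) : B →* L ⊗[K] B)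

theorem inc_val (K L : Type*) {B : Type*} [Field K] [Ring B] [Algebra K B] [Field L] [Algebra K L]
    (x : Bˣ) : (inc K L x : L ⊗[K] B) = 1 ⊗ₜ[K] (x : B) := rfl

theorem Nrd_bc {B : Type*} [Ring B] [Algebra K B] [Algebra.IsCentral K B] [IsSimpleRing B]
    [FiniteDimensional K B] (L : Type*) [Field L] [CharZero L] [Algebra K L]
    [IsSimpleRing (L ⊗[K] B)] [Algebra.IsCentral L (L ⊗[K] B)] (x : B) :
    Nrd L ((1 : L) ⊗ₜ[K] x) = algebraMap K L (Nrd K x) :=
  Nrd_map (algebraMap K L) (Algebra.TensorProduct.includeRight : B →ₐ[K] L ⊗[K] B).toRingHom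
    (fun c => ((Algebra.TensorProduct.includeRight : B →ₐ[K] L ⊗[K] B).commutes c).trans
      (IsScalarTower.algebraMap_apply K L _ c)) finrank_baseChange x

/-- the transfer `K₁ (L ⊗ D) → K₁ D` -/
theorem exists_transfer {A : Type*} [CommGroup A] (χ : Dˣ →* A) :
    ∃ N : (L ⊗[K] D)ˣ →* A, ∀ x : Dˣ, N (inc K L x) = χ x ^ finrank K L := by
  obtain ⟨δ, hδ⟩ := exists_ddetU (two_ne K D) χ
    (Algebra.TensorProduct.basis D (finBasis K L))
  let R : (D ⊗[K] L)ˣ → (D ⊗[K] L ≃ₗ[D] D ⊗[K] L) := fun u =>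
    { toFun := fun z => z * u
      invFun := fun z => z * ↑u⁻¹
      map_add' := fun a b => add_mul _ _ _
      map_smul' := fun d a => smul_mul_assoc _ _ _
      left_inv := fun z => u.mul_inv_cancel_right z
      right_inv := fun z => u.inv_mul_cancel_right z }
  let N : (D ⊗[K] L)ˣ →* A := MonoidHom.mk' (fun u => δ (R u)) fun u w => by
    rw [mul_comm, ← map_mul]
    congr 1
    refine LinearEquiv.ext fun z => ?_
    exact (mul_assoc _ _ _).symm
  refine ⟨N.comp (Units.map (Algebra.TensorProduct.comm K L D : L ⊗[K] D →* D ⊗[K] L)),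
    fun x => ?_⟩
  have := hδ (R (Units.map (Algebra.TensorProduct.comm K L D : L ⊗[K] D →* D ⊗[K] L)
    (inc K L x))) (fun _ => x)
    fun i => by
      change _ * ((x : D) ⊗ₜ[K] (1 : L)) = _
      simp [Algebra.TensorProduct.basis_apply, TensorProduct.smul_tmul']
  rw [Finset.prod_const, Finset.card_univ, Fintype.card_fin] at this
  exact this

theorem transfer {x : Dˣ} (h : Abelianization.of (inc K L x) = 1) :
    Abelianization.of x ^ finrank K L = 1 := by
  obtain ⟨N, hN⟩ := exists_transfer (K := K) L (Abelianization.of : Dˣ →* _)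
  rw [← hN, ← Abelianization.lift_apply_of N, h, map_one]

end transfer

section real

theorem Nrd_pos_real {D : Type*} [DivisionRing D] [Algebra ℝ D] [Algebra.IsCentral ℝ D]
    [FiniteDimensional ℝ D] (h : finrank ℝ D ≠ 1) (d : Dˣ) : 0 < Nrd ℝ (d : D) := by
  have key : ∀ z : D, (∀ t : ℝ, algebraMap ℝ D t ≠ z) → 0 < Nrd ℝ (-z) := by
    intro z hz
    have h0 : ∀ t, (rch ℝ z).eval t ≠ 0 := fun t => by
      rw [eval_rch, ← isUnit_iff_Nrd, isUnit_iff_ne_zero, sub_ne_zero]; exact hz t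
    have hdeg : 0 < (rch ℝ z).degree := by
      rw [← natDegree_pos_iff_degree_pos, rch_natDegree]; exact deg_pos ℝ D
    have hlim := tendsto_atTop_of_leadingCoeff_nonneg _ hdeg
      (by rw [(rch_monic ℝ z).leadingCoeff]; exact zero_le_one)
    obtain ⟨s, hs⟩ := (hlim.eventually_gt_atTop 0).exists
    rw [← zero_sub, ← map_zero (algebraMap ℝ D), ← eval_rch]
    by_contra hn
    obtain ⟨c, hc⟩ := mem_range_of_exists_le_of_exists_ge (c := 0) (rch ℝ z).continuous
      ⟨0, not_lt.1 hn⟩ ⟨s, hs.le⟩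
    exact h0 c hc
  by_cases hd : ∀ t : ℝ, algebraMap ℝ D t ≠ -(d : D)
  · simpa using key _ hd
  · push Not at hd
    obtain ⟨t, ht⟩ := hd
    have hd' : (d : D) = algebraMap ℝ D (-t) := by rw [map_neg, ht, neg_neg]
    have : ∃ z : D, ∀ t : ℝ, algebraMap ℝ D t ≠ z := by
      by_contra hn
      push Not at hn
      exact h (Algebra.finrank_eq_one_iff_bijective_algebraMap.2 ⟨(algebraMap ℝ D).injective, hn⟩)
    obtain ⟨z, hz⟩ := this
    have h1 := key z hz
    have h2 := key (-z) fun t e => hz (-t) (by rw [map_neg, e, neg_neg])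
    rw [neg_neg] at h2
    rw [Nrd_neg, mul_pos_iff_of_pos_right h2] at h1
    have he : Even (deg ℝ D) := by
      by_contra hodd
      rw [(Nat.not_even_iff_odd.1 hodd).neg_one_pow] at h1
      norm_num at h1
    rw [hd', Nrd_algebraMap]
    refine he.pow_pos fun h0 => d.ne_zero ?_
    rw [hd', h0, map_zero]

/-- not split at a real place implies definite -/
theorem spl_or_dfn {K B : Type*} [Field K] [CharZero K] [Ring B] [Algebra K B]
    [Algebra.IsCentral K B] [IsSimpleRing B] [FiniteDimensional K B] (ρ : K →+* ℝ) :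
    Hsm.Spl B (deg K B) ρ ∨ Dfn K B ρ := by
  let _ : Algebra K ℝ := ρ.toAlgebra
  have := isSimpleRing_tensor (K := K) (A := ℝ) (B := B)
  have := isCentral_tensor (K := K) (F := ℝ) (A := ℝ) (B := B)
  have hn : finrank ℝ (ℝ ⊗[K] B) = deg K B ^ 2 := by
    rw [finrank_baseChange, finrank_eq_deg_sq K B]
  obtain ⟨r, e, D, _, _, _, _, hr, he, hre, hD, ⟨φ⟩⟩ := Hsm.exists_wedderburn ℝ (ℝ ⊗[K] B) hn
  have : NeZero r := ⟨hr.ne'⟩
  by_cases h1 : finrank ℝ D = 1
  · left
    have he1 : e = 1 := by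
      rw [hD] at h1; simpa using h1
    rw [hre, he1, mul_one]
    let ψ := AlgEquiv.ofBijective (Algebra.ofId ℝ D)
      (Algebra.finrank_eq_one_iff_bijective_algebraMap.1 h1)
    have : Hsm.Spl (ℝ ⊗[K] B) r (RingHom.id ℝ) :=
      Hsm.spl_iff.2 ⟨(φ.trans ψ.symm.mapMatrix).toAlgHom⟩
    exact this.of_bc
  · right
    intro y
    obtain ⟨d, hd⟩ := exists_Nrd_eq φ (inc K ℝ y)
    rw [inc_val, Nrd_bc] at hd
    exact (Nrd_pos_real h1 d).trans_eq hd.symm

end real

/-- Hasse-Schilling-Maass for division algebras (helper23) -/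
def HsmStmt : Prop :=
  ∀ (F : Type u) (D : Type v) [Field F] [NumberField F] [DivisionRing D] [Algebra F D]
    [Algebra.IsCentral F D] [FiniteDimensional F D] (a : F), a ≠ 0 →
    (∀ ρ : F →+* ℝ, Hsm.Spl D (deg F D) ρ ∨ 0 < ρ a) → ∃ x : D, Nrd F x = a

/-- Hasse-Schilling-Maass, intrinsic form, any central simple algebra -/
theorem hsm (hH : HsmStmt.{u, v}) {F : Type u} {B : Type v} [Field F] [NumberField F] [Ring B]
    [Algebra F B] [Algebra.IsCentral F B] [IsSimpleRing B] [FiniteDimensional F B] {a : F}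
    (ha : a ≠ 0)
    (h : ∀ ρ : F →+* ℝ, Dfn F B ρ → 0 < ρ a) : ∃ x : Bˣ, Nrd F (x : B) = a := by
  obtain ⟨r, e, D, _, _, _, _, hr, -, -, -, ⟨φ⟩⟩ :=
    Hsm.exists_wedderburn F B (finrank_eq_deg_sq F B)
  have : NeZero r := ⟨hr.ne'⟩
  obtain ⟨x, hx⟩ := hH F D a ha fun ρ => (spl_or_dfn ρ).imp_right fun hd => h ρ (hd.of_matrix φ)
  have hx0 : x ≠ 0 := fun e => ha (by rw [← hx, e, map_zero])
  exact ⟨emb φ (Units.mk0 x hx0), (Nrd_emb φ _).trans hx⟩

end Crest.Agent.T24.Wg
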