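import Crest.Agent.T24.EvA_20
import Crest.Agent.T24.TLink_31
import Crest.Agent.T24.Csa7_50

/-!
# Row 24, even degree: restriction from `B` to the centraliser of a quadratic subfield
-/

set_option autoImplicit false
set_option linter.unusedSectionVars false

noncomputable section

namespace Crest.Agent.T24.Ev.R57

open Module NumberField IsDedekindDomain WithZero Csa Asa Topology Filter
open scoped NumberField

universe u v w

section Places
variable {K E : Type*} [Field K] [NumberField K] [Field E] [NumberField E] [Algebra K E]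

variable (E) in
theorem exists_above (w : Pl K) : ∃ w₁ : Pl E, below K w₁ = w := by
  have := w.isMaximal
  obtain ⟨P, hP, hc⟩ := Ideal.exists_ideal_over_maximal_of_isIntegral (S := 𝓞 E) w.asIdeal (by
    rw [(RingHom.injective_iff_ker_eq_bot _).1 (FaithfulSMul.algebraMap_injective (𝓞 K) (𝓞 E))]
    exact bot_le)
  refine ⟨⟨P, hP.isPrime, fun h => w.ne_bot ?_⟩, HeightOneSpectrum.ext hc⟩
  rw [← hc, h]
  exact Ideal.comap_bot_of_injective _ (FaithfulSMul.algebraMap_injective (𝓞 K) (𝓞 E))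

theorem below_below {k : Type*} [Field k] [NumberField k] [Algebra k K] [Algebra k E]
    [IsScalarTower k K E] (w : Pl E) : below k (below K w) = below k w := by
  ext a
  have h1 := below_lt_one (k := k) (below K w) (a : k)
  have h2 := below_lt_one (k := K) w (algebraMap k K a)
  have h3 := below_lt_one (k := k) w (a : k)
  rw [← IsScalarTower.algebraMap_apply, h3, h1] at h2
  rw [← HeightOneSpectrum.valuation_lt_one_iff_mem (K := k),
    ← HeightOneSpectrum.valuation_lt_one_iff_mem (K := k)]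
  exact h2.symm

theorem exists_sigma (h2 : finrank K E = 2) : ∃ σ : E ≃ₐ[K] E, σ ≠ AlgEquiv.refl ∧
    (∀ z, σ (σ z) = z) ∧ (∀ z, algebraMap K E (Algebra.norm K z) = z * σ z) ∧
    ∀ z, algebraMap K E (Algebra.trace K E z) = z + σ z := by
  classical
  have : Module.Finite K E := Module.finite_of_finrank_pos (by omega)
  have : Algebra.IsQuadraticExtension K E := { finrank_eq_two' := h2 }
  have hc : Nat.card (E ≃ₐ[K] E) = 2 := (IsGalois.card_aut_eq_finrank K E).trans h2
  obtain ⟨σ, hσ, hu⟩ := (Nat.card_eq_two_iff' (AlgEquiv.refl : E ≃ₐ[K] E)).1 hc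
  have huniv : (Finset.univ : Finset (E ≃ₐ[K] E)) = {AlgEquiv.refl, σ} := by
    ext ρ
    simp only [Finset.mem_univ, Finset.mem_insert, Finset.mem_singleton, true_iff]
    exact aut_cases h2 hσ ρ
  refine ⟨σ, hσ, sigma_sigma h2 hσ, fun z => ?_, fun z => ?_⟩
  · rw [Algebra.norm_eq_prod_automorphisms, huniv, Finset.prod_pair (Ne.symm hσ)]; rfl
  · rw [trace_eq_sum_automorphisms, huniv, Finset.sum_pair (Ne.symm hσ)]; rfl

end Places

section Depth
variable {K E B : Type*} [Field K] [NumberField K] [StarRing K] [Field E] [NumberField E]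
  [StarRing E] [Algebra K E] [Ring B] [StarRing B] [Algebra K B] [StarModule K B]
  [Algebra.IsCentral K B] [IsSimpleRing B] [FiniteDimensional K B] (φ : E →ₐ[K] B) [StarHom φ]

include φ in
/-- an anisotropic place does not split in a subfield -/
theorem val_sigma {σ : E ≃ₐ[K] E} (hσ : ∀ z, σ (σ z) = z)
    (hN : ∀ z, algebraMap K E (Algebra.norm K z) = z * σ z) {w₁ : Pl E}
    (h : Ultra B (below K w₁)) (z : E) : w₁.valuation E (σ z) = w₁.valuation E z := by
  have := Cz.finite_field φ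
  have hd : deg K B / finrank K E ≠ 0 := by
    rw [← Cz.finrank_mul_deg φ, Nat.mul_div_cancel_left _ finrank_pos]
    exact (deg_pos _ _).ne'
  have key : ∀ t : E, t * σ t = 1 → ¬ w₁.valuation E t < 1 := fun t ht hlt => by
    have h1 : w₁.valuation E (1 + t) = 1 := Valuation.map_one_add_of_lt _ hlt
    have h0 : 1 + t ≠ 0 := fun h => by simp [h] at h1
    have ht0 : t ≠ 0 := left_ne_zero_of_mul_eq_one ht
    have hs : σ t = t⁻¹ := eq_inv_of_mul_eq_one_right ht
    have ha : σ (1 + t)⁻¹ = t * (1 + t)⁻¹ := by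
      rw [map_inv₀, map_add, map_one, hs, show 1 + t⁻¹ = (1 + t) * t⁻¹ by field_simp; ring, mul_inv,
        inv_inv, mul_comm]
    have hb : σ (t * (1 + t)⁻¹) = (1 + t)⁻¹ := by rw [← ha, hσ]
    have hv : ∀ y : E, y * σ y = (1 + t)⁻¹ * (t * (1 + t)⁻¹) → val (below K w₁) (φ y) < 1 :=
      fun y hy => by
        rw [val, Nrd_field, map_pow, pow_lt_one_iff hd, ← below_lt_one, hN, hy, map_mul, map_mul,
          map_inv₀, h1, inv_one, one_mul, mul_one]
        exact hlt
    have h3 := h (φ (1 + t)⁻¹) (φ (t * (1 + t)⁻¹))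
    rw [← map_add, show (1 + t)⁻¹ + t * (1 + t)⁻¹ = 1 by field_simp, map_one, val_one] at h3
    exact absurd h3 (not_le.2 (max_lt (hv _ (by rw [ha])) (hv _ (by rw [hb, mul_comm]))))
  by_cases hz : z = 0
  · simp [hz]
  have hz' : σ z ≠ 0 := by simpa using hz
  have hv := val_ne_zero w₁ hz
  have hv' := val_ne_zero w₁ hz'
  have k1 := key (z / σ z) (by rw [map_div₀, hσ]; field_simp)
  have k2 := key (σ z / z) (by rw [map_div₀, hσ]; field_simp)
  rw [map_div₀, div_lt_one₀ (zero_lt_iff.2 hv'), not_lt] at k1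
  rw [map_div₀, div_lt_one₀ (zero_lt_iff.2 hv), not_lt] at k2
  exact le_antisymm k1 k2

/-- comparison of the two valuations at an anisotropic place -/
theorem val_rel (h2 : finrank K E = 2) {w₁ : Pl E} (h : Ultra B (below K w₁)) :
    ∃ e : ℕ, e ≠ 0 ∧ e ≤ 2 ∧ ∀ x : Cz φ, val (below K w₁) (x : B) ^ e = val w₁ x ^ 2 := by
  obtain ⟨σ, -, hσ, hN, -⟩ := exists_sigma h2
  obtain ⟨e, he, hv⟩ := val_below (k := K) w₁
  have key : ∀ z : E, (below K w₁).valuation K (Algebra.norm K z) ^ e = w₁.valuation E z ^ 2 :=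
    fun z => by rw [← hv, hN, map_mul, val_sigma φ hσ hN h, sq]
  refine ⟨e, he, ?_, fun x => by rw [val, val, Cz.Nrd_coe, key]⟩
  obtain ⟨π, hπ⟩ := w₁.valuation_exists_uniformizer E
  have h1 := key π
  rw [hπ] at h1
  have h0 : (below K w₁).valuation K (Algebra.norm K π) ≠ 0 := fun h0 => by
    rw [h0, zero_pow he] at h1
    exact absurd h1.symm (pow_ne_zero _ exp_ne_zero)
  rw [← exp_log h0, ← exp_nsmul, ← exp_nsmul, exp_inj, nsmul_eq_mul, nsmul_eq_mul] at h1
  have : (e : ℤ) ∣ 2 := ⟨-log ((below K w₁).valuation K (Algebra.norm K π)), by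
    push_cast at h1; linarith⟩
  exact_mod_cast Int.le_of_dvd two_pos this

include φ in
theorem star_alg (c : K) : star (algebraMap K E c) = algebraMap K E (star c) := φ.injective (by
  change φ _ = φ _
  rw [StarHom.map_star, φ.commutes, φ.commutes, star_algebraMap])

theorem mem_TT (h2 : finrank K E = 2) {w₁ : Pl E} (h : below K w₁ ∈ TT K B) :
    w₁ ∈ TT E (Cz φ) := by
  obtain ⟨e, he, -, hv⟩ := val_rel φ h2 h.2
  refine ⟨?_, fun x y => ?_⟩
  · obtain ⟨c, hc⟩ := h.1
    obtain ⟨e', he', hv'⟩ := val_below (k := K) w₁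
    refine ⟨algebraMap K E c, fun h' => hc ?_⟩
    rw [star_alg φ, hv', hv'] at h'
    exact (pow_left_inj₀ zero_le zero_le he').1 h'
  · have h1 := pow_le_pow_left₀ zero_le (h.2 (x : B) (y : B)) e
    rw [← Subalgebra.coe_add, hv] at h1
    rcases le_total (val (below K w₁) (x : B)) (val (below K w₁) (y : B)) with h3 | h3
    · rw [max_eq_right h3, hv] at h1
      exact le_max_of_le_right ((pow_le_pow_iff_left₀ zero_le zero_le two_ne_zero).1 h1)
    · rw [max_eq_left h3, hv] at h1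
      exact le_max_of_le_left ((pow_le_pow_iff_left₀ zero_le zero_le two_ne_zero).1 h1)

/-- depth transfer -/
theorem deep (h2 : finrank K E = 2) {m : ℕ} {x : Cz φ} (hx : x ∈ Deep E (Cz φ) m) :
    (x : B) ∈ Deep K B m := fun w hw => by
  obtain ⟨w₁, rfl⟩ := exists_above E w
  obtain ⟨e, he, he2, hv⟩ := val_rel φ h2 hw.2
  have h1 := hx w₁ (mem_TT φ h2 hw)
  by_contra h3
  have h4 := pow_le_pow_left₀ zero_le (not_lt.1 h3) e
  rw [show (x : B) - 1 = ((x - 1 : Cz φ) : B) from rfl, hv] at h4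
  have h5 : exp (-(m : ℤ)) ^ 2 ≤ exp (-(m : ℤ)) ^ e :=
    pow_le_pow_right_of_le_one' (exp_neg_le_one m) he2
  exact absurd (h5.trans h4) (not_le.2 (pow_lt_pow_left₀ h1 zero_le two_ne_zero))

theorem mem_Um (h2 : finrank K E = 2) {m : ℕ} {u : unitary (Cz φ)} (hu : u ∈ Um E (Cz φ) m) :
    Cz.uni φ u ∈ Um K B m := deep φ h2 hu

theorem mem_SU {u : unitary (Cz φ)} (hu : u ∈ SU E (Cz φ)) : Cz.uni φ u ∈ SU K B := by
  rw [T24.mem_SU, Cz.coe_uni, Cz.Nrd_coe, T24.mem_SU.1 hu, map_one]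

theorem mem_SUm (h2 : finrank K E = 2) {m : ℕ} {u : unitary (Cz φ)} (hu : u ∈ SUm E (Cz φ) m) :
    Cz.uni φ u ∈ SUm K B m := ⟨mem_SU φ hu.1, mem_Um φ h2 hu.2⟩

theorem relIndex_ne {N : Subgroup (unitary B)} (h : N.relIndex (SU K B) ≠ 0) :
    (N.comap (Cz.uni φ)).relIndex (SU E (Cz φ)) ≠ 0 := by
  rw [Subgroup.relIndex_comap]
  refine fun h0 => h (Subgroup.relIndex_eq_zero_of_le_right ?_ h0)
  rintro _ ⟨u, hu, rfl⟩
  exact mem_SU φ hu

end Depth

end Crest.Agent.T24.Ev.R57
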