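import Crest.Agent.T24.EvDef_47
import Crest.Agent.T24.EvRes_57

/-!
# Row 24, even degree: the interface of a tower
-/

set_option autoImplicit false
set_option linter.unusedSectionVars false

noncomputable section

namespace Crest.Agent.T24.Evn.Tow

open Module NumberField WithZero Csa Asa Polynomial

universe u v w

variable {D : Dat.{u, v, w}} (T : Tow D)

/-- the hermitian generator, in `E` -/
def e' : T.E := algebraMap T.k₁ T.E T.e

theorem star_K (c : D.K) : star (algebraMap D.K T.E c) = algebraMap D.K T.E (star c) :=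
  Ev.R57.star_alg T.i c

instance : StarModule D.K T.E := starModule_of_starHom T.i

theorem alg_K (c : D.k) : algebraMap D.K T.E (algebraMap D.k D.K c) = algebraMap D.k T.E c :=
  (IsScalarTower.algebraMap_apply _ _ _ c).symm

theorem alg_k₁ (c : D.k) : algebraMap T.k₁ T.E (algebraMap D.k T.k₁ c) = algebraMap D.k T.E c :=
  (IsScalarTower.algebraMap_apply _ _ _ c).symm

theorem star_k (c : D.k) : star (algebraMap D.k T.E c) = algebraMap D.k T.E c := by
  rw [← alg_k₁, Quad.star_k]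

theorem σ_k (c : D.k) : T.σ (algebraMap D.k T.E c) = algebraMap D.k T.E c := by
  rw [← alg_K, T.σ.commutes]

theorem i_k (c : D.k) : T.i (algebraMap D.k T.E c) = algebraMap D.k D.B c := by
  rw [← alg_K, T.i.commutes, ← IsScalarTower.algebraMap_apply]

theorem i_star (c : T.E) : T.i (star c) = star (T.i c) := StarHom.map_star c

instance : IsScalarTower D.k T.E T.C :=
  IsScalarTower.of_algebraMap_eq fun c => Subtype.ext (T.i_k c).symm

instance : IsScalarTower D.k T.k₁ T.C :=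
  IsScalarTower.of_algebraMap_eq fun c => Subtype.ext ((T.i_k c).symm.trans
    (congrArg T.i (T.alg_k₁ c).symm))

theorem coe_k (c : D.k) : ((algebraMap D.k T.C c : T.C) : D.B) = algebraMap D.k D.B c := rfl

theorem coe_k₁ (c : T.k₁) :
    ((algebraMap T.k₁ T.C c : T.C) : D.B) = T.i (algebraMap T.k₁ T.E c) := rfl

theorem θ_ne : T.θ ≠ 0 := fun h => T.δ.ne_zero <| (algebraMap D.k D.K).injective <| by
  rw [← T.θθ, h]; simp

theorem star_e' : star T.e' = T.e' := Quad.star_k _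

theorem σ_e' : T.σ T.e' = -T.e' := T.σ_e

theorem e'_sq : T.e' * T.e' = algebraMap D.k T.E T.r := by
  rw [e', ← map_mul, T.ee, alg_k₁]

theorem e'_ne : T.e' ≠ 0 := fun h => T.r.ne_zero <| (algebraMap D.k T.E).injective <| by
  rw [← T.e'_sq, h]; simp

theorem η_eq : T.η = algebraMap D.K T.E T.θ * T.e' := rfl

theorem θ_sq : algebraMap D.K T.E T.θ * algebraMap D.K T.E T.θ = algebraMap D.k T.E T.δ := by
  rw [← map_mul, ← sq, T.θθ, alg_K]

theorem star_θ' : star (algebraMap D.K T.E T.θ) = -algebraMap D.K T.E T.θ := by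
  rw [star_K, T.star_θ, map_neg]

theorem η_sq : T.η * T.η = algebraMap D.k T.E (T.ε : D.k) := by
  rw [ε, Units.val_mul, map_mul, ← θ_sq, ← e'_sq, η_eq]; ring

theorem star_η : star T.η = -T.η := by
  rw [η_eq, star_mul', star_θ', star_e', neg_mul]

theorem σ_η : T.σ T.η = -T.η := by
  rw [η_eq, map_mul, T.σ.commutes, σ_e', mul_neg]

theorem η_ne : T.η ≠ 0 := mul_ne_zero (by simpa using T.θ_ne) T.e'_ne

theorem crd' (c : T.E) : ∃ a₀ a₁ a₂ a₃ : D.k, c = algebraMap _ _ a₀ +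
    algebraMap _ _ a₁ * algebraMap _ _ T.θ + algebraMap _ _ a₂ * T.e' + algebraMap _ _ a₃ * T.η :=
  T.crd c

theorem span_e (c : T.E) : ∃ x y : D.K, c = algebraMap _ _ x + algebraMap _ _ y * T.e' := by
  obtain ⟨a₀, a₁, a₂, a₃, h⟩ := T.crd' c
  refine ⟨algebraMap _ _ a₀ + algebraMap _ _ a₁ * T.θ, algebraMap _ _ a₂ + algebraMap _ _ a₃ * T.θ, ?_⟩
  simp only [map_add, map_mul, alg_K]
  rw [h, η_eq]; ring

theorem span_η (c : T.E) : ∃ x y : D.K, c = algebraMap _ _ x + algebraMap _ _ y * T.η := by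
  obtain ⟨x, y, h⟩ := T.span_e c
  have : algebraMap D.K T.E T.θ ≠ 0 := by simpa using T.θ_ne
  refine ⟨x, y / T.θ, ?_⟩
  rw [h, η_eq, map_div₀]; field_simp

theorem σ_σ (c : T.E) : T.σ (T.σ c) = c := by
  obtain ⟨x, y, rfl⟩ := T.span_e c
  simp [σ_e']

theorem σ_star (c : T.E) : T.σ (star c) = star (T.σ c) := by
  obtain ⟨x, y, rfl⟩ := T.span_e c
  simp only [star_add, star_mul', star_neg, map_add, map_mul, AlgEquiv.commutes, σ_e', star_K, star_e']

theorem σ_ne : T.σ ≠ AlgEquiv.refl := fun h => T.e'_ne <| by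
  have := T.σ_e'
  rw [h] at this
  exact self_eq_neg.1 this

theorem norm_eq (c : T.E) : algebraMap D.K T.E (Algebra.norm D.K c) = c * T.σ c := by
  obtain ⟨σ, h1, -, h2, -⟩ := Ev.R57.exists_sigma T.fr
  rw [h2, (aut_cases T.fr T.σ_ne σ).resolve_left h1]

theorem trace_eq (c : T.E) : algebraMap D.K T.E (Algebra.trace D.K T.E c) = c + T.σ c := by
  obtain ⟨σ, h1, -, -, h2⟩ := Ev.R57.exists_sigma T.fr
  rw [h2, (aut_cases T.fr T.σ_ne σ).resolve_left h1]

/-- the fixed field of `σ` -/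
theorem fixed_K {c : T.E} (h : T.σ c = c) : ∃ x : D.K, algebraMap D.K T.E x = c :=
  Asa.fixed T.fr T.σ_ne h

/-- the fixed field of `star` -/
theorem fixed_k₁ {c : T.E} (h : star c = c) : ∃ x : T.k₁, algebraMap T.k₁ T.E x = c :=
  Asa.fixed (Quad.fr (k := T.k₁) (K := T.E)) (sig_ne T.k₁ T.E) h

theorem fixed {c : T.E} (h1 : star c = c) (h2 : T.σ c = c) :
    c ∈ Set.range (algebraMap D.k T.E) := by
  obtain ⟨x, rfl⟩ := T.fixed_K h2
  rw [star_K] at h1
  obtain ⟨a, rfl⟩ := Asa.fixed (Quad.fr (k := D.k) (K := D.K)) (sig_ne D.k D.K)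
    ((algebraMap D.K T.E).injective h1)
  exact ⟨a, (T.alg_K a).symm⟩

/-- the third quadratic subfield -/
theorem k2 {c : T.E} (h : star c = T.σ c) :
    ∃ a b : D.k, c = algebraMap D.k T.E a + algebraMap D.k T.E b * T.η := by
  obtain ⟨a₀, a₁, a₂, a₃, hc⟩ := T.crd' c
  refine ⟨a₀, a₃, ?_⟩
  have h1 := congrArg star hc
  have h2 := congrArg T.σ hc
  have h3 := congrArg T.σ h
  rw [σ_σ] at h3
  have h4 := congrArg T.σ h1
  simp only [star_add, star_mul', star_k, star_θ', star_e', star_η, map_add, map_mul, σ_k, map_neg,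
    AlgEquiv.commutes, σ_e', σ_η] at h4
  rw [h3] at h4
  linear_combination (1 / 2 : T.E) * (hc + h4)

theorem k₁_crd (c : T.k₁) : ∃ a b : D.k, c = algebraMap _ _ a + algebraMap _ _ b * T.e := by
  obtain ⟨a₀, a₁, a₂, a₃, hc⟩ := T.crd' (algebraMap T.k₁ T.E c)
  refine ⟨a₀, a₂, (algebraMap T.k₁ T.E).injective ?_⟩
  have h1 := congrArg star hc
  simp only [star_add, star_mul', star_k, star_θ', star_e', star_η, Quad.star_k] at h1
  rw [map_add, map_mul, alg_k₁, alg_k₁]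
  change _ = _ + _ * T.e'
  linear_combination (1 / 2 : T.E) * (hc + h1)

theorem nsq_ε : ¬ IsSquare (algebraMap D.k D.K (T.ε : D.k)) := fun ⟨x, hx⟩ => T.nsq ⟨x / T.θ, by
  have h := T.θ_ne
  rw [ε, Units.val_mul, map_mul, ← T.θθ] at hx
  field_simp
  linear_combination hx⟩

theorem star_i₀ : star T.i₀ = -T.i₀ := by rw [i₀, ← i_star, star_η, map_neg]

theorem i₀_sq : T.i₀ * T.i₀ = algebraMap D.k D.B (T.ε : D.k) := by
  rw [i₀, ← map_mul, η_sq, i_k]

theorem n_i₀ : T.n * T.i₀ = -(T.i₀ * T.n) := by rw [i₀, T.n_i, σ_η, map_neg, neg_mul]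

theorem e0 : Ev.E0 T.ε T.i₀ T.n := ⟨T.star_i₀, T.i₀_sq, T.star_n, T.unit_n, T.n_i₀⟩

theorem unit_i₀ : IsUnit T.i₀ := (IsUnit.mk0 _ T.η_ne).map T.i

theorem mem_C_iff {x : D.B} : x ∈ Cz T.i ↔ Commute x T.i₀ := by
  refine Cz.mem_iff.trans ⟨fun h => (h _).symm, fun h c => ?_⟩
  obtain ⟨a, b, rfl⟩ := T.span_η c
  rw [map_add, map_mul, T.i.commutes, T.i.commutes, add_mul, mul_add, Algebra.commutes a, mul_assoc,
    ← mul_assoc x, ← Algebra.commutes b, mul_assoc]
  exact congrArg (fun y => x * _ + _ * y) h.eq.symm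

/-- anticommuting with `i₀` is inducing `σ` -/
theorem anti_iff {x : D.B} : x * T.i₀ = -(T.i₀ * x) ↔ ∀ c, x * T.i c = T.i (T.σ c) * x := by
  refine ⟨fun h c => ?_, fun h => by rw [i₀, h, σ_η, map_neg, neg_mul]⟩
  obtain ⟨a, b, rfl⟩ := T.span_η c
  simp only [map_add, map_mul, AlgEquiv.commutes, AlgHom.commutes, σ_η, map_neg]
  rw [add_mul, mul_add, Algebra.commutes a, ← mul_assoc x, ← Algebra.commutes b, mul_assoc,
    mul_assoc, neg_mul]
  exact congrArg (fun y => x * _ + _ * y) h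

theorem anti_mul_anti {x y : D.B} (hx : x * T.i₀ = -(T.i₀ * x)) (hy : y * T.i₀ = -(T.i₀ * y)) :
    x * y ∈ Cz T.i := T.mem_C_iff.2 <| by
  rw [Commute, SemiconjBy, mul_assoc, hy, mul_neg, ← mul_assoc, hx, neg_mul, neg_neg, mul_assoc]

theorem nn_mem : T.n * T.n ∈ Cz T.i := T.anti_mul_anti T.n_i₀ T.n_i₀

theorem two_mul_deg : 2 * deg T.E T.C = deg D.K D.B := by rw [← Cz.finrank_mul_deg T.i, T.fr]

theorem coe_aeval (th : T.C) (P : D.k[X]) : ((aeval th P : T.C) : D.B) = aeval (th : D.B) P :=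
  (aeval_algHom_apply ((Cz T.i).val.restrictScalars D.k) th P).symm

theorem coe_aeval_E (th : T.C) (P : D.k[X]) :
    ((aeval th (P.map (algebraMap D.k T.E)) : T.C) : D.B) = aeval (th : D.B) P := by
  rw [aeval_map_algebraMap, coe_aeval]

theorem coe_aeval_k₁ (th : T.C) (P : D.k[X]) :
    ((aeval th (P.map (algebraMap D.k T.k₁)) : T.C) : D.B) = aeval (th : D.B) P := by
  rw [aeval_map_algebraMap, coe_aeval]

theorem HC_iff {P : D.k[X]} {th : T.C} :
    T.HC P th ↔ star th = th ∧ rch T.E th = P.map (algebraMap D.k T.E) := by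
  rw [HC, Emb.HG, Polynomial.map_map, ← IsScalarTower.algebraMap_eq]

section Conj
variable {κ : D.B} (hu : IsUnit κ) (ha : κ * T.i₀ = -(T.i₀ * κ))

include ha in
theorem conj_mem (x : T.C) : κ * x * (hu.unit⁻¹ : D.Bˣ) ∈ Cz T.i := Cz.mem_iff.2 fun c => by
  have h := T.anti_iff.1 ha
  have h1 : T.i c * κ = κ * T.i (T.σ c) := by rw [h, σ_σ]
  have h2 : T.i (T.σ c) * (hu.unit⁻¹ : D.Bˣ) = (hu.unit⁻¹ : D.Bˣ) * T.i c := by
    rw [Units.eq_inv_mul_iff_mul_eq, ← mul_assoc, Units.mul_inv_eq_iff_eq_mul]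
    exact h1.symm
  rw [← mul_assoc, ← mul_assoc, h1, mul_assoc κ, Cz.mem_iff.1 x.2, mul_assoc, mul_assoc, h2,
    mul_assoc, mul_assoc]

/-- conjugation by a unit anticommuting with `i₀` -/
def cj : T.C →+* T.C where
  toFun x := ⟨κ * x * (hu.unit⁻¹ : D.Bˣ), T.conj_mem hu ha x⟩
  map_one' := Subtype.ext (by simp)
  map_mul' x y := Subtype.ext (by simp [mul_assoc, ← mul_assoc _ κ])
  map_zero' := Subtype.ext (by simp)
  map_add' x y := Subtype.ext (by simp [mul_add, add_mul])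

theorem coe_cj (x : T.C) : (T.cj hu ha x : D.B) = κ * x * (hu.unit⁻¹ : D.Bˣ) := rfl

theorem cj_mul (x : T.C) : (T.cj hu ha x : D.B) * κ = κ * x := by simp [coe_cj, mul_assoc]

theorem cj_alg (c : T.E) : T.cj hu ha (algebraMap T.E T.C c) = algebraMap T.E T.C (T.σ c) :=
  Subtype.ext <| hu.mul_right_cancel <| by
    rw [cj_mul]; exact T.anti_iff.1 ha c

theorem eq_cj {c c' : T.C} (h : (c' : D.B) * κ = κ * c) : c' = T.cj hu ha c :=
  Subtype.ext <| hu.mul_right_cancel <| by rw [h, cj_mul]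

include hu ha in
theorem rch_conj' {c c' : T.C} (h : (c' : D.B) * κ = κ * c) :
    rch T.E c' = (rch T.E c).map (T.σ : T.E →+* T.E) := by
  rw [T.eq_cj hu ha h]
  exact rch_map (T.σ : T.E →+* T.E) (T.cj hu ha) (T.cj_alg hu ha) rfl c

include hu ha in
theorem Nrd_conj' {c c' : T.C} (h : (c' : D.B) * κ = κ * c) : Nrd T.E c' = T.σ (Nrd T.E c) := by
  rw [T.eq_cj hu ha h]
  exact Nrd_map (T.σ : T.E →+* T.E) (T.cj hu ha) (T.cj_alg hu ha) rfl c

end Conj

theorem rch_conj {c c' : T.C} (h : (c' : D.B) * T.n = T.n * c) :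
    rch T.E c' = (rch T.E c).map (T.σ : T.E →+* T.E) := T.rch_conj' T.unit_n T.n_i₀ h

theorem Nrd_conj {c c' : T.C} (h : (c' : D.B) * T.n = T.n * c) : Nrd T.E c' = T.σ (Nrd T.E c) :=
  T.Nrd_conj' T.unit_n T.n_i₀ h

/-- a polynomial fixed by `star` and `σ` comes from `k` -/
theorem poly_fixed {Q : T.E[X]} (h1 : Q.map (starRingEnd T.E) = Q)
    (h2 : Q.map (T.σ : T.E →+* T.E) = Q) : ∃ P : D.k[X], P.map (algebraMap D.k T.E) = Q :=
  (mem_lifts _).1 <| (lifts_iff_coeff_lifts _).2 fun j => T.fixed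
    (by simpa [starRingEnd_apply] using congrArg (fun p => coeff p j) h1) (by simpa using congrArg (fun p => coeff p j) h2)

theorem alg_Nrd (x : T.C) :
    algebraMap D.K T.E (Nrd D.K (x : D.B)) = Nrd T.E x * T.σ (Nrd T.E x) := by
  rw [Cz.Nrd_coe, norm_eq]

theorem aniso (h : Aniso D.B) : Aniso T.C := Cz.aniso T.i h

theorem deep {m : ℕ} {x : T.C} (hx : x ∈ Deep T.E T.C m) : (x : D.B) ∈ Deep D.K D.B m :=
  Ev.R57.deep T.i T.fr hx

theorem uni_SU {u : unitary T.C} (hu : u ∈ SU T.E T.C) : Cz.uni T.i u ∈ SU D.K D.B :=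
  Ev.R57.mem_SU T.i hu

theorem uni_SUm {m : ℕ} {u : unitary T.C} (hu : u ∈ SUm T.E T.C m) :
    Cz.uni T.i u ∈ SUm D.K D.B m := Ev.R57.mem_SUm T.i T.fr hu

/-- the hypothesis of the central step passes to the centraliser -/
theorem hyp {N : Subgroup (unitary D.B)} (h : Hyp D.K N) :
    Hyp T.E (N.comap (Cz.uni T.i) ⊓ SU T.E T.C) := by
  have := h.nrm
  obtain ⟨m, hm⟩ := h.cen
  refine ⟨inferInstance, inf_le_right, ?_, m, fun u g hg => ⟨?_, comm_mem_SU _ u g⟩⟩
  · rw [Subgroup.inf_relIndex_right]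
    exact Ev.R57.relIndex_ne T.i h.idx
  · change Cz.uni T.i _ ∈ N
    simpa only [map_mul, map_inv] using hm (Cz.uni T.i u) _ (T.uni_SUm hg)

end Crest.Agent.T24.Evn.Tow
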