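import Crest.Agent.T24.DefS_26
import Crest.Agent.T24.Csa4_50

/-!
# Row 24: the base-change API (centre, reduced norm with values in `R ⊗ K`).
-/

set_option autoImplicit false
set_option linter.unusedSectionVars false
set_option linter.style.haveILetI false

noncomputable section

namespace Crest.Agent.T24.BC

open Module Csa Topology
open scoped TensorProduct

section Cen
variable (k K B R : Type*) [Field k] [Field K] [Algebra k K] [Ring B] [Algebra K B] [Algebra k B]
  [IsScalarTower k K B] [CommRing R] [Algebra k R]

instance : CommRing (BC k K K R) :=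
  { (inferInstance : Ring (BC k K K R)) with
    mul_comm := fun x y => mul_comm (G := R ⊗[k] K) x y }

/-- the centre -/
def cen : BC k K K R →ₐ[R] BC k K B R :=
  Algebra.TensorProduct.map (AlgHom.id R R) (IsScalarTower.toAlgHom k K B)

@[simp] theorem cen_inc (c : K) :
    cen k K B R (inc k K K R c) = inc k K B R (algebraMap K B c) := rfl

theorem cen_comm (c : BC k K K R) (x : BC k K B R) : cen k K B R c * x = x * cen k K B R c := by
  refine ind c (by simp) (fun r c => ?_) (fun a b ha hb => ?_)
  · refine ind x (by simp) (fun r' b => ?_) (fun a b ha hb => ?_)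
    · rw [map_smul, cen_inc, smul_mul_smul_comm, smul_mul_smul_comm, ← map_mul, ← map_mul,
        Algebra.commutes, mul_comm r]
    · rw [mul_add, add_mul, ha, hb]
  · rw [map_add, mul_add, add_mul, ha, hb]

instance (priority := 90) algE : Algebra (BC k K K R) (BC k K B R) :=
  (cen k K B R).toRingHom.toAlgebra' (cen_comm k K B R)

theorem algebraMap_cen (c : BC k K K R) : algebraMap (BC k K K R) (BC k K B R) c = cen k K B R c :=
  rfl

theorem smul_cen (c : BC k K K R) (x : BC k K B R) : c • x = cen k K B R c * x := rfl

instance : IsScalarTower R (BC k K K R) (BC k K B R) :=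
  ⟨fun r c x => by rw [smul_cen, smul_cen, map_smul, smul_mul_assoc]⟩

theorem inc_smul (c : K) (b : B) :
    inc k K B R (c • b) = inc k K K R c • inc k K B R b := by
  rw [smul_cen, cen_inc, ← map_mul, Algebra.smul_def]

theorem inc_injective [Nontrivial R] : Function.Injective (inc k K B R) :=
  Algebra.TensorProduct.includeRight_injective (algebraMap k R).injective

theorem map_inc {R' : Type*} [CommRing R'] [Algebra k R'] (f : R →ₐ[k] R') (b : B) :
    map k K B R f (inc k K B R b) = inc k K B R' b := by
  change Algebra.TensorProduct.map f (AlgHom.id k B) ((1 : R) ⊗ₜ[k] b) = (1 : R') ⊗ₜ[k] b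
  rw [Algebra.TensorProduct.map_tmul, map_one]; rfl

theorem map_smul' {R' : Type*} [CommRing R'] [Algebra k R'] (f : R →ₐ[k] R') (r : R)
    (x : BC k K B R) : map k K B R f (r • x) = f r • map k K B R f x := by
  rw [Algebra.smul_def, Algebra.smul_def, map_mul]
  rfl

variable {k K B R} in
theorem eq_sum {ι : Type*} [Fintype ι] (e : Basis ι k B) (x : BC k K B R) :
    x = ∑ i, (bas k K B R e).repr x i • inc k K B R (e i) := by
  conv_lhs => rw [← (bas k K B R e).sum_repr x]
  simp only [bas_apply]

theorem repr_inc {ι : Type*} (e : Basis ι k B) (b : B) (i : ι) :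
    (bas k K B R e).repr (inc k K B R b) i = algebraMap k R (e.repr b i) := by
  have := Algebra.TensorProduct.basis_repr_tmul (A := R) e 1 b
  rw [one_smul] at this
  exact congrArg (fun f : ι →₀ R => f i) this

theorem cen_injective [Nontrivial B] : Function.Injective (cen k K B R) :=
  Module.Flat.lTensor_preserves_injective_linearMap (M := R)
    (IsScalarTower.toAlgHom k K B).toLinearMap (algebraMap K B).injective

/-- an `R`-algebra map out of the base change -/
def lift {C : Type*} [Ring C] [Algebra k C] [Algebra R C] [IsScalarTower k R C] (ψ : B →ₐ[k] C) :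
    BC k K B R →ₐ[R] C :=
  Algebra.TensorProduct.lift (Algebra.ofId R C) ψ fun r _ => Algebra.commutes r _

@[simp] theorem lift_inc {C : Type*} [Ring C] [Algebra k C] [Algebra R C] [IsScalarTower k R C]
    (ψ : B →ₐ[k] C) (b : B) : lift k K B R ψ (inc k K B R b) = ψ b := by
  refine (Algebra.TensorProduct.lift_tmul _ _ _ (1 : R) b).trans ?_
  rw [map_one, one_mul]

/-- `R ⊗ K → R ⊗ K̄` -/
def jK : BC k K K R →ₐ[R] R ⊗[k] AlgebraicClosure K :=
  Algebra.TensorProduct.map (AlgHom.id R R) (IsScalarTower.toAlgHom k K (AlgebraicClosure K))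

theorem jK_inc (c : K) :
    jK k K R (inc k K K R c) = (1 : R) ⊗ₜ[k] algebraMap K (AlgebraicClosure K) c := rfl

theorem jK_injective : Function.Injective (jK k K R) :=
  Module.Flat.lTensor_preserves_injective_linearMap (M := R)
    (IsScalarTower.toAlgHom k K (AlgebraicClosure K)).toLinearMap
    (algebraMap K (AlgebraicClosure K)).injective

end Cen

section St
variable (k K B R : Type*) [Field k] [Field K] [Algebra k K] [StarRing K] [Quad k K] [Ring B]
  [StarRing B] [Algebra K B] [StarModule K B] [Algebra k B] [IsScalarTower k K B]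
  [CommRing R] [Algebra k R]

theorem star_cen (c : BC k K K R) : star (cen k K B R c) = cen k K B R (star c) := by
  refine ind c (by simp) (fun r c => ?_) (fun a b ha hb => ?_)
  · rw [map_smul, star_rsmul, star_rsmul, map_smul, cen_inc, star_inc, star_inc, cen_inc,
      Csa.star_algebraMap]
  · rw [map_add, star_add, star_add, map_add, ha, hb]

instance : StarModule (BC k K K R) (BC k K B R) :=
  ⟨fun c x => by rw [smul_cen, smul_cen, star_mul, star_cen, cen_comm]⟩

variable {k K B R} in
theorem star_algebraMap (r : R) : star (algebraMap R (BC k K B R) r) = algebraMap R _ r := by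
  rw [Algebra.algebraMap_eq_smul_one, star_rsmul, star_one]

theorem map_star {R' : Type*} [CommRing R'] [Algebra k R'] (f : R →ₐ[k] R') (x : BC k K B R) :
    map k K B R f (star x) = star (map k K B R f x) := by
  refine ind x (by simp) (fun r c => ?_) (fun a b ha hb => ?_)
  · rw [star_rsmul, map_smul', map_smul', star_rsmul, star_inc, map_inc, map_inc, star_inc]
  · rw [star_add, map_add, map_add, star_add, ha, hb]

theorem finrank_k : finrank k B = 2 * finrank K B := by
  rw [← Quad.fr (k := k) (K := K), Module.finrank_mul_finrank]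

theorem finrank_BC [StrongRankCondition R] [FiniteDimensional K B] :
    finrank R (BC k K B R) = 2 * finrank K B := by
  haveI := finite_kB k K B
  rw [finrank_eq_card_basis (bas k K B R (finBasis k B)), Fintype.card_fin, finrank_k k K B]

/-- every element of `R ⊗ K` is `a + b θ` -/
theorem exists_coordE [CharZero K] {θ : K} (h0 : θ ≠ 0) (hθ : star θ = -θ) (c : BC k K K R) :
    ∃ a b : R, c = algebraMap R _ a + b • inc k K K R θ := by
  refine ind c ⟨0, 0, by simp⟩ (fun r c => ?_) (fun x y hx hy => ?_)
  · obtain ⟨a, b, rfl⟩ := exists_coord (Quad.fr (k := k) (K := K)) Quad.star_k h0 hθ c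
    refine ⟨r * algebraMap k R a, r * algebraMap k R b, ?_⟩
    rw [map_add, map_mul, AlgHom.commutes, AlgHom.commutes, smul_add,
      IsScalarTower.algebraMap_apply k R (BC k K K R), IsScalarTower.algebraMap_apply k R (BC k K K R) b]
    simp only [Algebra.smul_def, map_mul, mul_assoc]
  · obtain ⟨a, b, rfl⟩ := hx
    obtain ⟨a', b', rfl⟩ := hy
    exact ⟨a + a', b + b', by rw [map_add, add_smul]; abel⟩

end St

section Nrd
variable (k K B R : Type*) [Field k] [NumberField k] [Field K] [NumberField K] [Algebra k K]
  [StarRing K] [Quad k K] [Ring B] [StarRing B] [Algebra K B] [StarModule K B]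
  [Algebra.IsCentral K B] [IsSimpleRing B] [FiniteDimensional K B] [Algebra k B]
  [IsScalarTower k K B] [CommRing R] [Algebra k R]

variable {k K B R} in
theorem nrd_sum {ι : Type*} [Fintype ι] (e : ι → B) (r : ι → R) :
    nrd k K B R (∑ i, r i • inc k K B R (e i)) = jK k K R
      (MvPolynomial.eval₂ (inc k K K R).toRingHom (fun i => algebraMap R _ (r i)) (nrdP K e)) := by
  let g : MvPolynomial ι (AlgebraicClosure K) →+* R ⊗[k] AlgebraicClosure K :=
    MvPolynomial.eval₂Hom (Algebra.TensorProduct.includeRight (R := k) (A := R)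
      (B := AlgebraicClosure K)).toRingHom fun i => algebraMap R _ (r i)
  have h1 : spR k K B R (∑ i, r i • inc k K B R (e i)) =
      g.mapMatrix (genM fun i => sp K B (e i)) := by
    rw [map_sum]
    simp only [map_smul, spR_inc]
    ext a b
    simp [g, genM, Matrix.sum_apply, TensorProduct.smul_tmul']
  have h2 : (genM fun i => sp K B (e i)).det =
      (nrdP K e).map (algebraMap K (AlgebraicClosure K)) := by
    rw [Matrix.det_eq_sign_charpoly_coeff, ← rchP_map, nrdP, Fintype.card_fin]
    simp
  rw [nrd_def, h1, ← RingHom.map_det, h2]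
  have h3 := MvPolynomial.eval₂_comp_left (jK k K R).toRingHom (inc k K K R).toRingHom
    (fun i => algebraMap R _ (r i)) (nrdP K e)
  refine Eq.trans ?_ h3.symm
  simp only [g, MvPolynomial.coe_eval₂Hom, MvPolynomial.eval₂_map]
  rfl

theorem exists_jK (x : BC k K B R) : ∃ c, jK k K R c = nrd k K B R x := by
  haveI := finite_kB k K B
  rw [eq_sum (finBasis k B) x, nrd_sum]
  exact ⟨_, rfl⟩

/-- the reduced norm with values in `R ⊗ K` -/
def nrdK : BC k K B R →* BC k K K R where
  toFun x := (exists_jK k K B R x).choose
  map_one' := jK_injective k K R (by rw [(exists_jK k K B R _).choose_spec, map_one, map_one])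
  map_mul' x y := jK_injective k K R (by
    rw [map_mul (jK k K R), (exists_jK k K B R _).choose_spec, (exists_jK k K B R _).choose_spec,
      (exists_jK k K B R _).choose_spec, map_mul])

variable {k K B R}

theorem jK_nrdK (x : BC k K B R) : jK k K R (nrdK k K B R x) = nrd k K B R x :=
  (exists_jK k K B R x).choose_spec

theorem nrdK_sum {ι : Type*} [Fintype ι] (e : ι → B) (r : ι → R) :
    nrdK k K B R (∑ i, r i • inc k K B R (e i)) =
      MvPolynomial.eval₂ (inc k K K R).toRingHom (fun i => algebraMap R _ (r i)) (nrdP K e) :=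
  jK_injective k K R (by rw [jK_nrdK, nrd_sum])

@[simp] theorem nrdK_inc (b : B) : nrdK k K B R (inc k K B R b) = inc k K K R (Nrd K b) :=
  jK_injective k K R (by rw [jK_nrdK, nrd_inc, jK_inc])

theorem nrd_eq_one_iff (x : BC k K B R) : nrd k K B R x = 1 ↔ nrdK k K B R x = 1 := by
  rw [← jK_nrdK, ← map_one (jK k K R), (jK_injective k K R).eq_iff]

theorem mem_SUc_iff (u : Uc k K B R) : u ∈ SUc k K B R ↔ nrdK k K B R (u : BC k K B R) = 1 :=
  nrd_eq_one_iff _

theorem nrdP_star {ι : Type*} [Fintype ι] (e : ι → B) :
    nrdP K (fun i => star (e i)) = (nrdP K e).map (starRingEnd K) := by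
  refine MvPolynomial.funext fun y => ?_
  have := eval_comp_map (starRingEnd K) (fun i => star (y i)) (nrdP K e)
  rw [show (starRingEnd K ∘ fun i => star (y i)) = y from funext fun i => star_star _] at this
  rw [this, eval_nrdP, eval_nrdP, starRingEnd_apply, ← Csa.Nrd_star, star_sum]
  simp only [star_smul, star_star]

theorem nrdK_star (x : BC k K B R) : nrdK k K B R (star x) = star (nrdK k K B R x) := by
  haveI := finite_kB k K B
  rw [eq_sum (finBasis k B) x, star_sum]
  simp only [star_rsmul, star_inc]
  rw [nrdK_sum, nrdK_sum, nrdP_star, MvPolynomial.eval₂_map]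
  have h3 := MvPolynomial.eval₂_comp_left (starRingEnd (BC k K K R)) (inc k K K R).toRingHom
    (fun i => algebraMap R _ ((bas k K B R (finBasis k B)).repr x i)) (nrdP K (finBasis k B))
  refine Eq.trans ?_ h3.symm
  congr 1
  funext i
  exact (star_algebraMap _).symm

theorem nrdK_unitary (u : Uc k K B R) :
    star (nrdK k K B R (u : BC k K B R)) * nrdK k K B R (u : BC k K B R) = 1 := by
  rw [← nrdK_star, ← map_mul, u.2.1, map_one]

theorem nrdK_map {R' : Type*} [CommRing R'] [Algebra k R'] (f : R →ₐ[k] R') (x : BC k K B R) :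
    nrdK k K B R' (map k K B R f x) = map k K K R f (nrdK k K B R x) := by
  haveI := finite_kB k K B
  rw [eq_sum (finBasis k B) x, map_sum]
  simp only [map_smul', map_inc]
  rw [nrdK_sum, nrdK_sum]
  have h3 := MvPolynomial.eval₂_comp_left (map k K K R f).toRingHom (inc k K K R).toRingHom
    (fun i => algebraMap R _ ((bas k K B R (finBasis k B)).repr x i)) (nrdP K (finBasis k B))
  refine Eq.trans ?_ h3.symm
  congr 1
  exact RingHom.ext fun c => (map_inc k K K R f c).symm

theorem nrdK_cen (c : BC k K K R) : nrdK k K B R (cen k K B R c) = c ^ deg K B := by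
  refine jK_injective k K R ?_
  have : spR k K B R (cen k K B R c) = Matrix.scalar _ (jK k K R c) := by
    refine ind c (by simp) (fun r c => ?_) (fun a b ha hb => ?_)
    · rw [map_smul, map_smul, map_smul, cen_inc, spR_inc, jK_inc, AlgHom.commutes]
      ext a b
      by_cases h : a = b <;> simp [h, Matrix.algebraMap_eq_diagonal]
    · rw [map_add, map_add, map_add, map_add, ha, hb]
  rw [jK_nrdK, nrd_def, this, map_pow]
  simp

theorem nrdK_smul (c : BC k K K R) (x : BC k K B R) :
    nrdK k K B R (c • x) = c ^ deg K B * nrdK k K B R x := by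
  rw [smul_cen, map_mul, nrdK_cen]

theorem nrdK_rsmul (r : R) (x : BC k K B R) :
    nrdK k K B R (r • x) = r ^ deg K B • nrdK k K B R x := by
  rw [← algebraMap_smul (BC k K K R) r x, nrdK_smul, ← map_pow, Algebra.smul_def]

variable (k K B R) [TopologicalSpace R] [IsTopologicalRing R]

theorem continuous_nrdK : Continuous (nrdK k K B R) := by
  haveI := finite_kB k K B
  have : (nrdK k K B R : BC k K B R → BC k K K R) = fun x => MvPolynomial.eval
      (fun i => algebraMap R _ ((bas k K B R (finBasis k B)).repr x i))
      ((nrdP K (finBasis k B)).map (inc k K K R).toRingHom) := by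
    funext x
    conv_lhs => rw [eq_sum (finBasis k B) x]
    rw [nrdK_sum, MvPolynomial.eval_map]
  rw [this]
  refine (MvPolynomial.continuous_eval _).comp (continuous_pi fun i => ?_)
  exact IsModuleTopology.continuous_of_linearMap
    ((Algebra.linearMap R (BC k K K R)).comp ((bas k K B R (finBasis k B)).coord i))

theorem continuous_cen : Continuous (cen k K B R) :=
  IsModuleTopology.continuous_of_linearMap (cen k K B R).toLinearMap

end Nrd

end Crest.Agent.T24.BC
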