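import Crest.Agent.T24.HilA_56

/-! Row 24, Hilbert symbols, part C: the Hasse-Minkowski theorem (helper56). -/

set_option autoImplicit false
set_option linter.unusedSectionVars false

noncomputable section

open scoped NumberField Topology
open IsDedekindDomain WithZero Filter

namespace Crest.Agent.T24.Hil

open Hn

universe u

section Fld

variable {L : Type*} [Field L]

/-- the diagonal form `b` is isotropic -/
def IsoL {ι : Type*} [Fintype ι] (b : ι → L) : Prop := ∃ x : ι → L, x ≠ 0 ∧ ∑ i, b i * x i ^ 2 = 0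

theorem bin_sq {a b x y : L} (ha : a ≠ 0) (h0 : x ≠ 0 ∨ y ≠ 0) (h : a * x ^ 2 + b * y ^ 2 = 0) :
    IsSquare (-(a * b)) := by
  have hy : y ≠ 0 := by
    rintro rfl
    simp [ha] at h h0
    exact h0 h
  exact ⟨a * x / y, by field_simp; linear_combination -h⟩

theorem isoL_two {b : Fin 2 → L} (hb : b 0 ≠ 0) (h : IsoL b) : IsSquare (-(b 0 * b 1)) := by
  obtain ⟨x, h0, h⟩ := h
  refine bin_sq (x := x 0) (y := x 1) hb ?_ (by simpa using h)
  by_contra h1
  push Not at h1
  exact h0 (funext (Fin.forall_fin_two.2 h1))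

theorem isoL_three [CharZero L] {b : Fin 3 → L} (hb : ∀ i, b i ≠ 0) :
    IsoL b ↔ ∃ x y, -(b 0 * b 2) = x ^ 2 - -(b 0 * b 1) * y ^ 2 := by
  have := hb 0
  constructor
  · rintro ⟨x, h0, h⟩
    rw [Fin.sum_univ_three] at h
    by_cases hz : x 2 = 0
    · refine nm_of_sq (by simp [hb]) (bin_sq (x := x 0) (y := x 1) (hb 0) ?_ (by simpa [hz] using h))
      by_contra h1
      push Not at h1
      exact h0 (funext fun i => by fin_cases i <;> simp [h1, hz])
    · exact ⟨b 0 * x 0 / x 2, x 1 / x 2, by field_simp; linear_combination -h⟩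
  · rintro ⟨x, y, h⟩
    refine ⟨![x / b 0, y, 1], fun h0 => by simpa using congrFun h0 2, ?_⟩
    simp only [Fin.sum_univ_three, Matrix.cons_val]
    field_simp
    linear_combination -h

theorem IsoL.cons {n : ℕ} {b : Fin n → L} (h : IsoL b) (c : L) : IsoL (Fin.cons c b : Fin (n + 1) → L) := by
  obtain ⟨x, h0, h⟩ := h
  exact ⟨Fin.cons 0 x, fun h1 => h0 (funext fun i => congrFun h1 i.succ), by
    simpa [Fin.sum_univ_succ] using h⟩

theorem IsoL.scale {n : ℕ} {b : Fin n → L} {c c' : L} (h : IsoL (Fin.cons c b : Fin (n + 1) → L))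
    (hc : c ≠ 0) (hc' : c' ≠ 0) (hs : IsSquare (c' / c)) : IsoL (Fin.cons c' b : Fin (n + 1) → L) := by
  obtain ⟨x, h0, h⟩ := h
  obtain ⟨s, hs⟩ := hs
  have hs0 : s ≠ 0 := by
    rintro rfl
    simp [hc, hc'] at hs
  refine ⟨Fin.cons (x 0 / s) (Fin.tail x), fun h1 => ?_, ?_⟩
  · exact h0 (funext (Fin.cases (by simpa [hs0] using congrFun h1 0) fun i => congrFun h1 i.succ))
  · rw [Fin.sum_univ_succ] at h ⊢
    rw [div_eq_iff hc] at hs
    simp only [Fin.cons_zero, Fin.cons_succ, Fin.tail] at h ⊢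
    rw [← h, hs]
    congr 1
    field_simp

theorem IsoL.three {n : ℕ} {b : Fin (n + 3) → L} (h : IsoL ![b 0, b 1, b 2]) : IsoL b := by
  obtain ⟨x, h0, h⟩ := h
  refine ⟨Fin.cons (x 0) (Fin.cons (x 1) (Fin.cons (x 2) 0)), fun h1 => h0 (funext fun i => ?_), ?_⟩
  · fin_cases i
    exacts [congrFun h1 0, congrFun h1 1, congrFun h1 2]
  · simpa [Fin.sum_univ_succ] using h

theorem IsoL.step [CharZero L] {n : ℕ} {b : Fin (n + 3) → L} (hb : ∀ i, b i ≠ 0) (h : IsoL b) :
    ∃ z : Fin 2 → L, b 0 * z 0 ^ 2 + b 1 * z 1 ^ 2 ≠ 0 ∧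
      IsoL (Fin.cons (b 0 * z 0 ^ 2 + b 1 * z 1 ^ 2) fun i => b i.succ.succ : Fin (n + 2) → L) := by
  obtain ⟨x, h0, h⟩ := h
  rw [Fin.sum_univ_succ, Fin.sum_univ_succ, ← add_assoc] at h
  by_cases ht : b 0 * x 0 ^ 2 + b 1 * x 1 ^ 2 = 0
  · by_cases hx : (fun i : Fin (n + 1) => x i.succ.succ) = 0
    · obtain ⟨X, Y, e⟩ := nm_of_sq (b := -(b 0 * b 2)) (by simp [hb]) (bin_sq (hb 0) (by
        by_contra h1
        push Not at h1
        exact h0 (funext (Fin.cases h1.1 (Fin.cases h1.2 (congrFun hx))))) ht)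
      have e' : b 0 * (X / b 0) ^ 2 + b 1 * Y ^ 2 = -b 2 := by
        have := hb 0
        field_simp
        linear_combination -e
      refine ⟨![X / b 0, Y], by simpa [e'] using hb 2, Fin.cons 1 (Fin.cons 1 0),
        fun h1 => by simpa using congrFun h1 0, ?_⟩
      simp [Fin.sum_univ_succ, e']
    · refine ⟨![1, 0], by simpa using hb 0, IsoL.cons ⟨_, hx, ?_⟩ _⟩
      simpa [ht] using h
  · refine ⟨![x 0, x 1], ht, Fin.cons 1 fun i => x i.succ.succ,
      fun h1 => by simpa using congrFun h1 0, ?_⟩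
    simpa [Fin.sum_univ_succ] using h

theorem IsoL.unstep {n : ℕ} {b : Fin (n + 2) → L} {z : Fin 2 → L}
    (hz : b 0 * z 0 ^ 2 + b 1 * z 1 ^ 2 ≠ 0)
    (h : IsoL (Fin.cons (b 0 * z 0 ^ 2 + b 1 * z 1 ^ 2) fun i => b i.succ.succ : Fin (n + 1) → L)) :
    IsoL b := by
  obtain ⟨x, h0, h⟩ := h
  refine ⟨Fin.cons (z 0 * x 0) (Fin.cons (z 1 * x 0) (Fin.tail x)), fun h1 => ?_, ?_⟩
  · refine h0 (funext (Fin.cases ?_ fun i => congrFun h1 i.succ.succ))
    by_contra h2
    have h3 : z 0 * x 0 = 0 := congrFun h1 0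
    have h4 : z 1 * x 0 = 0 := congrFun h1 1
    exact hz (by simp [(mul_eq_zero.1 h3).resolve_right h2, (mul_eq_zero.1 h4).resolve_right h2])
  · rw [Fin.sum_univ_succ] at h
    rw [Fin.sum_univ_succ, Fin.sum_univ_succ]
    simp only [Fin.cons_zero, Fin.cons_succ, Fin.tail] at h ⊢
    rw [Fin.succ_zero_eq_one]
    linear_combination h

end Fld

variable {F : Type u} [Field F] [NumberField F]

/-- a local square at all finite places is a square -/
theorem sq_of_local {u : Fˣ} (h : ∀ v : Pl F, u ∈ Sq v) : u ∈ Sqs F := by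
  by_contra h'
  obtain ⟨v, hv⟩ := (l4Stmt F 1 u h' (by rwa [one_mul])).nonempty
  exact hv.2 (h v)

theorem dense_real (φ : F →+* ℝ) : DenseRange φ :=
  DenseRange.of_comp (g := (Rat.cast : ℚ → F)) (by
    convert Rat.denseRange_cast (𝕜 := ℝ) using 1
    exact funext fun q => map_ratCast φ q)

section Lc

variable {p : Pc F} {L : Type*} [Field L] [CharZero L] [TopologicalSpace L] [IsTopologicalRing L]
  [T1Space L] {f : F →+* L}

theorem Lc.exists_sq (h : Lc p f) (hd : DenseRange f) {c : L} (hc : c ≠ 0) :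
    ∃ c' : Fˣ, IsSquare (f c' / c) := by
  obtain ⟨x, h1, h2⟩ := hd.mem_nhds (h.nhds (g := id) continuousAt_id hc)
  exact ⟨Units.mk0 x ((map_ne_zero f).1 h1), h2⟩

theorem Lc.four (h : Lc p f) (hd : DenseRange f) {a : Fin 4 → Fˣ} (hi : IsoL fun i => f (a i)) :
    ∃ c : Fˣ, c ∈ LNP ((-(a 2 * a 3) : Fˣ) : F) p ∧
      -(a 0 * a 2) * c ∈ LNP ((-(a 0 * a 1) : Fˣ) : F) p := by
  obtain ⟨x, h0, hx⟩ := hi
  rw [Fin.sum_univ_four] at hx
  have ha : ∀ i, f (a i) ≠ 0 := fun i => by simp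
  by_cases ht : f (a 2) * x 2 ^ 2 + f (a 3) * x 3 ^ 2 = 0
  · by_cases h1 : x 2 ≠ 0 ∨ x 3 ≠ 0
    · refine ⟨(-(a 0 * a 2))⁻¹, ?_, by rw [mul_inv_cancel]; exact one_mem _⟩
      rw [LNP_eq_top ((h.sq _).2 (by simpa using bin_sq (ha 2) h1 ht))]
      trivial
    · refine ⟨1, one_mem _, ?_⟩
      push Not at h1
      rw [LNP_eq_top ((h.sq _).2 (by
        simpa using bin_sq (x := x 0) (y := x 1) (b := f (a 1)) (ha 0) (by
          by_contra h2
          push Not at h2
          exact h0 (funext fun i => by fin_cases i <;> simp [h1, h2])) (by linear_combination hx - ht)))]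
      trivial
  · obtain ⟨c, s, hs⟩ := h.exists_sq hd (mul_ne_zero (ha 2) ht)
    rw [div_eq_iff (mul_ne_zero (ha 2) ht)] at hs
    refine ⟨c, (h.nm _ _).2 ⟨f (a 2) * x 2 * s, x 3 * s, ?_⟩,
      (h.nm _ _).2 ⟨f (a 0) * x 0 * (f (a 2) * s), x 1 * (f (a 2) * s), ?_⟩⟩
    · simp only [Units.val_neg, Units.val_mul, map_neg, map_mul, hs]; ring
    · simp only [Units.val_neg, Units.val_mul, map_neg, map_mul, hs]
      linear_combination -(f (a 0) * f (a 2) ^ 2 * s ^ 2) * hx

end Lc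

instance charZero_adic (v : Pl F) : CharZero (v.adicCompletion F) := algebraRat.charZero _

theorem hm_units (n : ℕ) (a : Fin n → Fˣ)
    (h : ∀ v : Pl F, IsoL fun i => algebraMap F (v.adicCompletion F) (a i))
    (h' : ∀ φ : F →+* ℝ, IsoL fun i => φ (a i)) : IsoL fun i => (a i : F) := by
  classical
  induction n using Nat.strong_induction_on with
  | _ n ih =>
  obtain ⟨v₀, -⟩ := Asa.exists_notMem (∅ : Finset (Pl F))
  match n, a, h, h', ih with
  | 0, a, h, _, _ =>
    obtain ⟨x, h0, -⟩ := h v₀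
    exact absurd (Subsingleton.elim _ _) h0
  | 1, a, h, _, _ =>
    obtain ⟨x, h0, h1⟩ := h v₀
    exact absurd (funext fun i => by fin_cases i; simpa using h1) h0
  | 2, a, h, _, _ =>
    obtain ⟨r, hr⟩ := sq_of_local (u := -(a 0 * a 1)) fun v =>
      ((lc_inl v).sq _).2 (by simpa using isoL_two (by simp) (h v))
    have hr' : (r : F) ^ 2 = -(a 0 * a 1) := by simpa using congrArg Units.val hr
    refine ⟨![r, a 0], fun h0 => by simpa using congrFun h0 0, ?_⟩
    simp only [Fin.sum_univ_two, Matrix.cons_val]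
    linear_combination (a 0 : F) * hr'
  | 3, a, h, h', _ =>
    refine (isoL_three (by simp)).2 (nr_of_LNP (a := -(a 0 * a 2)) (d := -(a 0 * a 1)) ?_)
    rintro (v | φ)
    · exact ((lc_inl v).nm _ _).2 (by simpa using (isoL_three (by simp)).1 (h v))
    · exact ((lc_inr φ).nm _ _).2 (by simpa using (isoL_three (by simp)).1 (h' φ))
  | 4, a, h, h', _ =>
    obtain ⟨c, ⟨Z, W, h1⟩, X, Y, h2⟩ := hm4 (-(a 0 * a 2)) (-(a 0 * a 1)) (-(a 2 * a 3)) (by
      rintro (v | φ)
      · exact (lc_inl v).four (v.denseRange_algebraMap F) (h v)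
      · exact (lc_inr φ).four (dense_real φ) (h' φ))
    simp only [Units.val_neg, Units.val_mul] at h1 h2
    refine ⟨![X / a 0, Y, Z, a 3 * W * a 2 / a 3], fun h0 => c.ne_zero ?_, ?_⟩
    · have h3 : Z = 0 := congrFun h0 2
      have h4 : W = 0 := by simpa using congrFun h0 3
      simp [h1, h3, h4]
    · simp only [Fin.sum_univ_four, Matrix.cons_val]
      field_simp
      linear_combination -h2 - (a 0 * a 2 : F) * h1
  | n + 5, a, h, h', ih =>
    obtain ⟨S₂, h2⟩ := exists_supp (a 2)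
    obtain ⟨S₃, h3⟩ := exists_supp (a 3)
    obtain ⟨S, hS, e2, -, h4⟩ := exists_big (insert v₀ (S₂ ∪ S₃)) (a 4)
    choose z hz hi using fun v => (h v).step (by simp)
    choose z' hz' hi' using fun φ => (h' φ).step (by simp)
    obtain ⟨x, h5, h6⟩ := wa S z _ (fun v _ => (lc_inl v).nhds (g := fun z : Fin 2 → _ =>
      algebraMap F _ (a 0) * z 0 ^ 2 + algebraMap F _ (a 1) * z 1 ^ 2) (by fun_prop) (hz v)) z' _
      fun φ => (lc_inr φ).nhds (g := fun z : Fin 2 → _ =>
        φ (a 0) * z 0 ^ 2 + φ (a 1) * z 1 ^ 2) (by fun_prop) (hz' φ)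
    have h0 : (a 0 : F) * x 0 ^ 2 + a 1 * x 1 ^ 2 ≠ 0 := fun h0 =>
      (h5 v₀ (hS (Finset.mem_insert_self _ _))).1 (by
        simpa using congrArg (algebraMap F (v₀.adicCompletion F)) h0)
    have key : ∀ {L : Type u} [Field L] (f : F →+* L), (fun i => f ((Fin.cons (Units.mk0 _ h0)
        (fun i => a i.succ.succ) : Fin (n + 4) → Fˣ) i)) = Fin.cons (f (a 0) * f (x 0) ^ 2 +
          f (a 1) * f (x 1) ^ 2) fun i => f (a i.succ.succ) := fun f =>
      funext (Fin.cases (by simp) fun i => rfl)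
    have key' : ∀ f : F →+* ℝ, (fun i => f ((Fin.cons (Units.mk0 _ h0)
        (fun i => a i.succ.succ) : Fin (n + 4) → Fˣ) i)) = Fin.cons (f (a 0) * f (x 0) ^ 2 +
          f (a 1) * f (x 1) ^ 2) fun i => f (a i.succ.succ) := fun f =>
      funext (Fin.cases (by simp) fun i => rfl)
    refine IsoL.unstep (z := x) h0 ?_
    have := ih (n + 4) (by omega) (Fin.cons (Units.mk0 _ h0) fun i => a i.succ.succ)
      (fun v => ?_) fun φ => ?_
    · exact key (RingHom.id F) ▸ this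
    · rw [key]
      by_cases hv : v ∈ S
      · exact (hi v).scale (hz v) (h5 v hv).1 (h5 v hv).2
      · refine (IsoL.three ((isoL_three (by simp [Fin.forall_fin_succ])).2 ?_)).cons _
        have e3 := h2 v fun h => hv (hS (by simp [Finset.mem_coe.1 h]))
        have e4 := h3 v fun h => hv (hS (by simp [Finset.mem_coe.1 h]))
        have := ((lc_inl v).nm _ _).1 (hil_eq_one.1 (hil_unit (a := -(a 2 * a 4))
          (d := -(a 2 * a 3)) (e2 v hv) (by simp [e3, h4 v hv]) (by simp [e3, e4])))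
        simp only [map_neg, map_mul, Units.val_neg, Units.val_mul] at this
        exact this
    · rw [key']
      exact (hi' φ).scale (hz' φ) (h6 φ).1 (h6 φ).2

/-- **Hasse-Minkowski** -/
theorem hmStmt : HMStmt.{u} := by
  classical
  intro F _ _ n a h h'
  by_cases h0 : ∀ i, a i ≠ 0
  · exact hm_units n (fun i => Units.mk0 _ (h0 i)) h h'
  · push Not at h0
    obtain ⟨i, hi⟩ := h0
    refine ⟨Pi.single i 1, by simp, Finset.sum_eq_zero fun j _ => ?_⟩
    by_cases hj : j = i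
    · simp [hj, hi]
    · simp [hj]

end Crest.Agent.T24.Hil
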