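import Crest.Agent.T24.LocB_59
import Crest.Agent.T24.HsmA_23
import Crest.Prelude.Def_UnitaryMP

/-!
# Row 24 (helper53): a local central simple algebra with an involution of the second kind is split
-/

set_option autoImplicit false

namespace Crest.Agent.T24.Loc

open Finset Module

/-- `τ` is an involution of `B` that acts on the scalars by `s` -/
structure Inv2 {F B : Type*} [Field F] [Ring B] [Algebra F B] (s : F →+* F) (τ : B →+ B) :
    Prop where
  mul : ∀ x y, τ (x * y) = τ y * τ x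
  inv : ∀ x, τ (τ x) = x
  alg : ∀ c, τ (algebraMap F B c) = algebraMap F B (s c)

namespace Inv2

section ring
variable {F B : Type*} [Field F] [Ring B] [Algebra F B] {s : F →+* F} {τ : B →+ B}
  (h : Inv2 s τ)
include h

theorem one : τ 1 = 1 := by simpa using h.alg 1

theorem pow (x : B) (n : ℕ) : τ (x ^ n) = τ x ^ n := by
  induction n with
  | zero => simp [h.one]
  | succ n ih => rw [pow_succ, h.mul, ih, pow_succ']

theorem smul (c : F) (x : B) : τ (c • x) = s c • τ x := by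
  rw [Algebra.smul_def, h.mul, h.alg, Algebra.smul_def, Algebra.commutes]

theorem ne_zero {x : B} (hx : x ≠ 0) : τ x ≠ 0 := fun e => hx (by rw [← h.inv x, e, map_zero])

theorem ss [Nontrivial B] (c : F) : s (s c) = c :=
  (algebraMap F B).injective (by rw [← h.alg, ← h.alg, h.inv])

/-- a nonzero hermitian combination of `u` and `τ u` -/
theorem exists_herm [Nontrivial B] (hs : ∃ c, s c ≠ c) {u : B} (hu : u ≠ 0) :
    ∃ c : F, c • u + s c • τ u ≠ 0 ∧ τ (c • u + s c • τ u) = c • u + s c • τ u := by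
  have key : ∀ c : F, τ (c • u + s c • τ u) = c • u + s c • τ u := fun c => by
    rw [map_add, h.smul, h.smul, h.inv, h.ss, add_comm]
  obtain ⟨c, hc⟩ := hs
  by_cases h1 : (1 : F) • u + s 1 • τ u = 0
  · refine ⟨c, fun h2 => ?_, key c⟩
    rw [map_one, one_smul, one_smul] at h1
    rw [eq_neg_of_add_eq_zero_right h1, smul_neg, ← sub_eq_add_neg, ← sub_smul,
      smul_eq_zero] at h2
    exact h2.elim (fun e => hc (sub_eq_zero.1 e).symm) hu
  · exact ⟨1, h1, key 1⟩

end ring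

section div
variable {F D : Type*} [Field F] [DivisionRing D] [Algebra F D] {s : F →+* F} {τ : D →+ D}
  (h : Inv2 s τ)
include h

theorem map_inv (x : D) : τ x⁻¹ = (τ x)⁻¹ := by
  by_cases hx : x = 0
  · simp [hx]
  · refine eq_inv_of_mul_eq_one_left ?_
    rw [← h.mul, mul_inv_cancel₀ hx, h.one]

/-- twisting by a hermitian element -/
theorem twist {a : D} (ha : a ≠ 0) (hh : τ a = a) :
    Inv2 s ((AddMonoidHom.mulLeft a⁻¹).comp ((AddMonoidHom.mulRight a).comp τ)) where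
  mul x y := by simp [h.mul, mul_assoc, ha]
  inv x := by simp [h.mul, h.map_inv, hh, h.inv, mul_assoc, ha]
  alg c := by simp [h.alg, Algebra.commutes (s c) a, ha]

end div

/-- corner: an involution of `M_r (D)` gives one of `D` -/
theorem corner {F D : Type*} [Field F] [DivisionRing D] [Algebra F D] {s : F →+* F} {r : ℕ}
    (hr : 0 < r) {τ : Matrix (Fin r) (Fin r) D →+ Matrix (Fin r) (Fin r) D} (h : Inv2 s τ)
    (hs : ∃ c, s c ≠ c) : ∃ τ' : D →+ D, Inv2 s τ' := by
  let o : Fin r := ⟨0, hr⟩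
  have : Nonempty (Fin r) := ⟨o⟩
  let ι : D → Matrix (Fin r) (Fin r) D := fun x => Matrix.single o o x
  have ιm : ∀ x y, ι (x * y) = ι x * ι y := fun x y => by simp [ι]
  have ιe : ∀ b : Matrix (Fin r) (Fin r) D, ι 1 * b * ι 1 = ι (b o o) := fun b => by simp [ι]
  have ιa : ∀ x y, ι (x + y) = ι x + ι y := fun x y => Matrix.single_add _ _ _ _
  have ιi : ∀ x y, ι x = ι y → x = y := fun x y e => by
    simpa [ι] using congrFun (congrFun e o) o
  have ιc : ∀ c : F, ι (algebraMap F D c) = c • ι 1 := fun c => by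
    simp [ι, Algebra.algebraMap_eq_smul_one, Matrix.smul_single]
  have e0 : ι 1 ≠ 0 := fun e => one_ne_zero (ιi 1 0 (by rw [e]; simp [ι]))
  obtain ⟨u, hu0, hu1, hu2⟩ : ∃ u, u ≠ 0 ∧ u * ι 1 = u ∧ τ (ι 1) * u = u := by
    obtain ⟨i, j, hij⟩ : ∃ i j, τ (ι 1) i j ≠ 0 := by
      by_contra hn
      push Not at hn
      exact h.ne_zero e0 (Matrix.ext hn)
    refine ⟨τ (ι 1) * Matrix.single j o 1, fun e => hij ?_, ?_, ?_⟩
    · simpa using congrFun (congrFun e i) o
    · simp [ι, mul_assoc]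
    · rw [← mul_assoc, ← h.mul, ← ιm, mul_one]
  obtain ⟨c, ha0, hah⟩ := h.exists_herm hs hu0
  set a := c • u + s c • τ u with ha
  have ha1 : a * ι 1 = a := by
    have : τ u * ι 1 = τ u := by
      conv_rhs => rw [← hu2, h.mul, h.inv]
    rw [ha, add_mul, smul_mul_assoc, smul_mul_assoc, hu1, this]
  obtain ⟨b, hb⟩ : ∃ b, b * a = ι 1 := by
    obtain ⟨i, hi⟩ : ∃ i, a i o ≠ 0 := by
      by_contra hn
      push Not at hn
      refine ha0 (Matrix.ext fun i j => ?_)
      rw [← ha1]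
      by_cases hj : j = o
      · subst hj; simp [ι, hn]
      · simp [ι, hj]
    refine ⟨Matrix.single o i (a i o)⁻¹, ?_⟩
    rw [← ha1, ← mul_assoc]
    simp [ι, hi]
  have hb' : a * τ b = τ (ι 1) := by rw [← hb, h.mul, hah]
  let t : D →+ D := AddMonoidHom.mk' (fun x => (τ b * τ (ι x) * a) o o) fun x y => by
    simp [ιa, mul_add, add_mul]
  have ht : ∀ x, τ (ι x) * a = a * ι (t x) := fun x => by
    have : t x = (τ b * τ (ι x) * a) o o := rfl
    rw [this, ← ιe, ← mul_assoc, ← mul_assoc, ha1, mul_assoc, mul_assoc, ha1, ← mul_assoc,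
      ← mul_assoc, hb', ← h.mul, ← ιm, mul_one]
  have hu : ∀ x y, a * ι x = a * ι y → x = y := fun x y e => by
    have := congrArg (b * ·) e
    simp only [← mul_assoc, hb, ← ιm, one_mul] at this
    exact ιi _ _ this
  refine ⟨t, fun x y => hu _ _ ?_, fun x => hu _ _ ?_, fun c => hu _ _ ?_⟩
  · rw [← ht, ιm, h.mul, mul_assoc, ht, ← mul_assoc, ht, mul_assoc, ← ιm]
  · rw [← ht]
    conv_lhs => rw [← hah, ← h.mul, ← ht, h.mul, h.inv, hah]
  · have : τ (ι 1) * a = a := by
      conv_rhs => rw [← hah, ← ha1, h.mul, hah]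
    rw [← ht, ιc, ιc, h.smul, smul_mul_assoc, mul_smul_comm, this, ha1]

end Inv2

/-- a finite field has at most one involution -/
theorem finite_invol {k : Type*} [Field k] [Finite k] (f g : k →+* k) (hf : ∀ x, f (f x) = x)
    (hg : ∀ x, g (g x) = x) : (∀ x, f x = x) ∨ (∀ x, g x = x) ∨ ∀ x, f x = g x := by
  classical
  obtain ⟨p, hp⟩ := CharP.exists k
  have := Fintype.ofFinite k
  have : Fact p.Prime := ⟨CharP.char_is_prime k p⟩
  let _ := ZMod.algebra k p
  let mk : ∀ f : k →+* k, (∀ x, f (f x) = x) → (k ≃ₐ[ZMod p] k) := fun f hf =>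
    { toFun := f, invFun := f, left_inv := hf, right_inv := hf, map_mul' := f.map_mul,
      map_add' := f.map_add
      commutes' := fun c => DFunLike.congr_fun
        (Subsingleton.elim (f.comp (algebraMap (ZMod p) k)) (algebraMap (ZMod p) k)) c }
  have hc := IsCyclic.card_pow_eq_one_le (α := k ≃ₐ[ZMod p] k) (n := 2) two_pos
  by_contra hn
  push Not at hn
  obtain ⟨⟨x, hx⟩, ⟨y, hy⟩, ⟨z, hz⟩⟩ := hn
  have h3 : ({1, mk f hf, mk g hg} : Finset (k ≃ₐ[ZMod p] k)).card = 3 :=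
    Finset.card_eq_three.2 ⟨_, _, _, fun e => hx (DFunLike.congr_fun e x).symm,
      fun e => hy (DFunLike.congr_fun e y).symm, fun e => hz (DFunLike.congr_fun e z), rfl⟩
  have : ({1, mk f hf, mk g hg} : Finset (k ≃ₐ[ZMod p] k)) ⊆
      Finset.univ.filter fun a => a ^ 2 = 1 := by
    intro a ha
    simp only [mem_insert, mem_singleton] at ha
    simp only [mem_filter, mem_univ, true_and]
    rcases ha with rfl | rfl | rfl
    · simp
    · exact AlgEquiv.ext hf
    · exact AlgEquiv.ext hg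
  have := Finset.card_le_card this
  omega

section res
variable {E : Type*} [NormedDivisionRing E] [IsUltrametricDist E] [ProperSpace E]

/-- an isometric (anti)automorphism of order two -/
structure RI (α : E →+ E) : Prop where
  one : α 1 = 1
  norm : ∀ x, ‖α x‖ = ‖x‖
  mul : (∀ x y, α (x * y) = α x * α y) ∨ ∀ x y, α (x * y) = α y * α x
  inv : ∀ x, α (α x) = x

theorem RI.exists_res {α : E →+ E} (h : RI α) :
    ∃ f : (OO E ⧸ PP E) →+* (OO E ⧸ PP E), ∀ x y : OO E, (y : E) = α x →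
      f (Ideal.Quotient.mk _ x) = Ideal.Quotient.mk _ y := by
  have hk := Finite.isDomain_to_isField (OO E ⧸ PP E)
  let a : OO E → OO E := fun x => ⟨α x, (h.norm x).le.trans x.2⟩
  let g : OO E →+* (OO E ⧸ PP E) :=
    { toFun := fun x => Ideal.Quotient.mk _ (a x)
      map_one' := by
        rw [← map_one (Ideal.Quotient.mk (PP E))]
        congr 1
        exact Subtype.ext h.one
      map_zero' := by
        rw [← map_zero (Ideal.Quotient.mk (PP E))]
        congr 1
        exact Subtype.ext (map_zero α)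
      map_add' := fun x y => by
        rw [← map_add]
        congr 1
        exact Subtype.ext (map_add α _ _)
      map_mul' := fun x y => by
        rcases h.mul with h1 | h1
        · rw [← map_mul]
          congr 1
          exact Subtype.ext (h1 _ _)
        · rw [hk.mul_comm, ← map_mul]
          congr 1
          exact Subtype.ext (h1 _ _) }
  refine ⟨Ideal.Quotient.lift _ g fun x hx => ?_, fun x y e => ?_⟩
  · refine Ideal.Quotient.eq_zero_iff_mem.2 ?_
    change ‖α x‖ < 1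
    rw [h.norm]
    exact hx
  · rw [Ideal.Quotient.lift_mk]
    change Ideal.Quotient.mk _ (a x) = _
    congr 1
    exact Subtype.ext e.symm

theorem res_invol {α β : E →+ E} (hα : RI α) (hβ : RI β) :
    (∀ x, ‖x‖ ≤ 1 → ‖α x - x‖ < 1) ∨ (∀ x, ‖x‖ ≤ 1 → ‖β x - x‖ < 1) ∨
      ∀ x, ‖x‖ ≤ 1 → ‖α x - β x‖ < 1 := by
  obtain ⟨f, hf⟩ := hα.exists_res
  obtain ⟨g, hg⟩ := hβ.exists_res
  let _ := (Finite.isDomain_to_isField (OO E ⧸ PP E)).toField
  let a : OO E → OO E := fun x => ⟨α x, (hα.norm x).le.trans x.2⟩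
  let b : OO E → OO E := fun x => ⟨β x, (hβ.norm x).le.trans x.2⟩
  have := finite_invol f g
    (fun x => by
      obtain ⟨x, rfl⟩ := Ideal.Quotient.mk_surjective x
      rw [hf x (a x) rfl, hf (a x) x (hα.inv x).symm])
    (fun x => by
      obtain ⟨x, rfl⟩ := Ideal.Quotient.mk_surjective x
      rw [hg x (b x) rfl, hg (b x) x (hβ.inv x).symm])
  refine this.imp (fun h x hx => ?_) (Or.imp (fun h x hx => ?_) fun h x hx => ?_)
  · have := h (Ideal.Quotient.mk _ ⟨x, hx⟩)
    rw [hf _ (a ⟨x, hx⟩) rfl] at this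
    exact mk_eq_iff.1 this
  · have := h (Ideal.Quotient.mk _ ⟨x, hx⟩)
    rw [hg _ (b ⟨x, hx⟩) rfl] at this
    exact mk_eq_iff.1 this
  · have := h (Ideal.Quotient.mk _ ⟨x, hx⟩)
    rw [hf _ (a ⟨x, hx⟩) rfl, hg _ (b ⟨x, hx⟩) rfl] at this
    exact mk_eq_iff.1 this

end res

section main
variable {F : Type*} [NontriviallyNormedField F] [ProperSpace F] [IsUltrametricDist F]
  {D : Type*} [NormedDivisionRing D] [NormedAlgebra F D] [IsUltrametricDist D]
  [FiniteDimensional F D] [Algebra.IsCentral F D] {s : F →+* F} {τ : D →+ D}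

omit [IsUltrametricDist F] [IsUltrametricDist D] [Algebra.IsCentral F D] in
theorem Inv2.continuous (h : Inv2 s τ) (hs : Continuous s) : Continuous τ := by
  let b := Module.finBasis F D
  have : (τ : D → D) = fun x => ∑ i, s (b.coord i x) • τ (b i) := by
    funext x
    conv_lhs => rw [← b.sum_repr x, map_sum]
    exact Finset.sum_congr rfl fun i _ => h.smul _ _
  rw [this]
  exact continuous_finsetSum _ fun i _ =>
    (hs.comp (b.coord i).continuous_of_finiteDimensional).smul continuous_const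

omit [IsUltrametricDist F] [IsUltrametricDist D] [Algebra.IsCentral F D] in
theorem Inv2.lt_one (h : Inv2 s τ) (hs : Continuous s) {x : D} (hx : ‖x‖ < 1) : ‖τ x‖ < 1 := by
  have h1 := ((h.continuous hs).tendsto 0).comp (tendsto_pow_atTop_nhds_zero_of_norm_lt_one hx)
  rw [map_zero] at h1
  have h2 := h1.norm
  simp only [Function.comp_apply, h.pow, norm_pow, norm_zero] at h2
  have := tendsto_pow_atTop_nhds_zero_iff.1 h2
  rwa [abs_norm] at this

omit [IsUltrametricDist F] [IsUltrametricDist D] [Algebra.IsCentral F D] in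
theorem Inv2.eq_one (h : Inv2 s τ) (hs : Continuous s) {x : D} (hx : ‖x‖ = 1) : ‖τ x‖ = 1 := by
  have h0 : x ≠ 0 := norm_ne_zero_iff.1 (by rw [hx]; exact one_ne_zero)
  rcases lt_trichotomy ‖τ x‖ 1 with h1 | h1 | h1
  · have := h.lt_one hs h1
    rw [h.inv, hx] at this
    exact absurd this (lt_irrefl _)
  · exact h1
  · have := h.lt_one hs (x := (τ x)⁻¹) (by rw [norm_inv]; exact inv_lt_one_of_one_lt₀ h1)
    rw [h.map_inv, h.inv, norm_inv, hx, inv_one] at this
    exact absurd this (lt_irrefl _)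

omit [IsUltrametricDist F] [Algebra.IsCentral F D] in
theorem Inv2.norm_eq (h : Inv2 s τ) (hs : Continuous s) (x : D) : ‖τ x‖ = ‖x‖ := by
  obtain ⟨π, ζ, M, r, hc⟩ := exists_cyc (F := F) (D := D)
  have hπ : ‖τ π‖ = ‖π‖ := by
    refine le_antisymm (hc.le _ (h.lt_one hs hc.lt)) (not_lt.1 fun h1 => ?_)
    have h2 := h.lt_one hs (x := τ π * π⁻¹) (by
      rwa [norm_mul, norm_inv, ← div_eq_mul_inv, div_lt_one hc.norm_pos])
    rw [h.mul, h.inv, h.map_inv, norm_mul, norm_inv, inv_mul_lt_one₀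
      (norm_pos_iff.2 (h.ne_zero hc.ne))] at h2
    exact lt_asymm h1 h2
  have hz : ∀ k : ℤ, ‖τ (π ^ k)‖ = ‖π‖ ^ k := by
    intro k
    obtain ⟨n, rfl | rfl⟩ := k.eq_nat_or_neg
    · rw [zpow_natCast, h.pow, norm_pow, hπ, zpow_natCast]
    · rw [zpow_neg, zpow_natCast, h.map_inv, h.pow, norm_inv, norm_pow, hπ, zpow_neg, zpow_natCast]
  by_cases hx : x = 0
  · simp [hx]
  obtain ⟨k, hk⟩ := hc.val hx
  have hp : 0 < ‖π‖ ^ k := zpow_pos hc.norm_pos k
  have h1 := h.eq_one hs (x := x * (π ^ k)⁻¹) (by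
    rw [norm_mul, norm_inv, norm_zpow, hk, mul_inv_cancel₀ hp.ne'])
  rw [h.mul, h.map_inv, norm_mul, norm_inv, hz, inv_mul_eq_one₀ hp.ne'] at h1
  rw [hk, h1]

theorem Inv2.n_eq_one_aux (h : Inv2 s τ) (hs : Continuous s) (hne : ∃ c, s c ≠ c) {π ζ : D}
    {M r t : ℕ} (hc : Cyc F π ζ M r) (ht : τ ζ = ζ ^ t) : hc.n = 1 := by
  have hn := h.norm_eq hs
  have htt : (ζ ^ t) ^ t = ζ := by
    conv_rhs => rw [← h.inv ζ, ht, h.pow, ht]
  have h1 : ζ * τ π = τ π * ζ ^ r := by
    have e := congrArg τ hc.conj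
    rw [h.mul, h.mul, h.pow, ht] at e
    have e2 : SemiconjBy (τ π) ((ζ ^ t) ^ r) (ζ ^ t) := e.symm
    have e3 := (e2.pow_right t).eq
    rw [htt, ← pow_mul, ← pow_mul, mul_comm r t, ← mul_assoc, pow_mul, pow_mul, htt] at e3
    exact e3.symm
  have h2 : hc.n ∣ 2 := hc.dvd_nat (x := τ π * π)
    (by rw [commute_iff_eq, mul_assoc, hc.conj, ← mul_assoc, ← h1, mul_assoc])
    (by rw [norm_mul, hn, sq])
  rcases (Nat.dvd_prime Nat.prime_two).1 h2 with h3 | h3
  · exact h3
  exfalso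
  have hvp : algebraMap F D hc.vp = π * π := by rw [hc.vp_eq, h3, sq]
  have hrr : (ζ ^ r) ^ r = ζ := by rw [← pow_mul, ← sq]; exact hc.zp_eq_iff.2 h2
  have h4 : τ π * ζ = ζ ^ r * τ π := by
    have e2 : SemiconjBy (τ π) (ζ ^ r) ζ := h1.symm
    have e3 := (e2.pow_right r).eq
    rwa [hrr] at e3
  -- a hermitian element of odd valuation
  obtain ⟨c, ha0, hah⟩ := h.exists_herm hne hc.ne
  set a := c • π + s c • τ π with ha
  have h5 : a * ζ = ζ ^ r * a := by
    rw [ha, add_mul, mul_add, smul_mul_assoc, smul_mul_assoc, mul_smul_comm, mul_smul_comm, h4,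
      hc.conj]
  have h6 : Commute (a * π⁻¹) ζ := by
    have e : π⁻¹ * ζ ^ r = ζ * π⁻¹ := by
      rw [inv_mul_eq_iff_eq_mul₀ hc.ne, ← mul_assoc, hc.conj, mul_inv_cancel_right₀ hc.ne]
    have e2 : SemiconjBy π⁻¹ (ζ ^ r) ζ := e
    have e3 := (e2.pow_right r).eq
    have e4 : SemiconjBy a ζ (ζ ^ r) := h5
    have e5 := (e4.pow_right r).eq
    rw [hrr] at e3 e5
    rw [commute_iff_eq, mul_assoc, e3, ← mul_assoc, e5, mul_assoc]
  obtain ⟨j, hj⟩ := hc.val_comm h6 (mul_ne_zero ha0 (inv_ne_zero hc.ne))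
  have hv0 : 0 < ‖hc.vp‖ := norm_pos_iff.2 hc.vp_ne
  have hja : ‖a‖ = ‖hc.vp‖ ^ j * ‖π‖ := by
    rw [← hj, norm_mul, norm_inv, inv_mul_cancel_right₀ hc.norm_pos.ne']
  have hres : Res ((hc.vp ^ (-j)) • a) ζ M := hc.toRes.change (by
    rw [norm_smul, norm_zpow, hja, zpow_neg, inv_mul_cancel_left₀ (zpow_pos hv0 j).ne'])
  have h7 : Commute (a * a) ζ := by
    have e4 : SemiconjBy a ζ (ζ ^ r) := h5
    have e5 := (e4.pow_right r).eq
    rw [hrr] at e5
    rw [commute_iff_eq, mul_assoc, h5, ← mul_assoc, e5, mul_assoc]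
  obtain ⟨e, he⟩ : ∃ e : F, algebraMap F D e = a * a :=
    Algebra.mem_bot.1 (Algebra.IsCentral.out (Subalgebra.mem_center_iff.2 fun y =>
      (hres.central h7 (((Commute.refl a).mul_left (Commute.refl a)).smul_right _) y).eq.symm))
  have hse : s e = e := (algebraMap F D).injective (by rw [← h.alg, he, h.mul, hah])
  have hne' : ‖e‖ = (‖hc.vp‖ ^ j * ‖hc.vp‖ ^ j) * ‖hc.vp‖ := by
    rw [← norm_algebraMap' D e, he, norm_mul, hja, mul_mul_mul_comm, ← norm_mul π, ← hvp,
      norm_algebraMap']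
  have hsn : ∀ c : F, ‖s c‖ = ‖c‖ := fun c => by
    rw [← norm_algebraMap' D (s c), ← h.alg, hn, norm_algebraMap']
  -- a uniformiser of `F` fixed by `s`
  obtain ⟨p, hp1, hp2⟩ : ∃ p : F, s p = p ∧ ‖p‖ = ‖hc.vp‖ := by
    refine ⟨e / (hc.vp ^ j * s hc.vp ^ j), ?_, ?_⟩
    · rw [map_div₀, map_mul, map_zpow₀, map_zpow₀, h.ss, hse, mul_comm]
    · rw [norm_div, norm_mul, norm_zpow, norm_zpow, hsn, hne', mul_div_cancel_left₀]
      exact (mul_pos (zpow_pos hv0 j) (zpow_pos hv0 j)).ne'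
  obtain ⟨π₀, ζ₀, h₀⟩ := exists_res (E := F) ⟨hc.vp, hc.vp_ne, hc.vp_lt⟩
  have h₁ : Res p ζ₀ _ := h₀.change (by
    rw [hp2]; exact le_antisymm (h₀.le _ hc.vp_lt) (hc.le_vp' h₀.lt))
  have hfix : ¬ ‖s ζ₀ - ζ₀‖ < 1 := by
    intro h8
    have h9 : s ζ₀ = ζ₀ := eq_of_pow_eq h₁.norm_M (Commute.all _ _) h₁.norm_z h8 (by
      rw [← map_pow, h₁.pow, map_one])
    obtain ⟨c, hc'⟩ := hne
    exact hc' (h₁.eq_top (A := (s.eqLocus (RingHom.id F)).toAddSubgroup)
      (isClosed_eq hs continuous_id) (fun i k => by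
        change s (ζ₀ ^ i * p ^ k) = ζ₀ ^ i * p ^ k
        rw [map_mul, map_pow, map_zpow₀, h9, hp1]) c)
  have := FiniteDimensional.proper F D
  let β : D →+ D := (AddMonoidHom.mulRight π⁻¹).comp (AddMonoidHom.mulLeft π)
  have hβ : ∀ x, β x = π * x * π⁻¹ := fun x => rfl
  have hz : ‖algebraMap F D ζ₀‖ ≤ 1 := by rw [norm_algebraMap', h₁.norm_z]
  rcases res_invol (α := τ) (β := β) ⟨h.one, hn, Or.inr h.mul, h.inv⟩
    ⟨by simp [hβ, hc.ne], fun x => by
      rw [hβ, norm_mul, norm_mul, norm_inv, mul_comm, inv_mul_cancel_left₀ hc.norm_pos.ne'],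
      Or.inl fun x y => by simp [hβ, mul_assoc, hc.ne], fun x => by
      rw [hβ, hβ, ← mul_assoc, ← mul_assoc, ← hvp, Algebra.commutes, hvp, mul_assoc, mul_assoc,
        ← mul_inv_rev, mul_inv_cancel₀ (mul_ne_zero hc.ne hc.ne), mul_one]⟩ with h8 | h8 | h8
  · have := h8 _ hz
    rw [h.alg, ← map_sub, norm_algebraMap'] at this
    exact hfix this
  · have := h8 ζ hc.norm_z.le
    rw [hβ, hc.conj, mul_inv_cancel_right₀ hc.ne] at this
    have e := hc.zp_eq (i := r) (j := 1) (by rwa [pow_one])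
    have := hc.zp_eq_iff.1 (show ζ ^ r ^ 1 = ζ by rw [pow_one, e, pow_one])
    rw [h3] at this
    omega
  · have := h8 _ hz
    rw [hβ, ← Algebra.commutes, mul_inv_cancel_right₀ hc.ne, h.alg, ← map_sub,
      norm_algebraMap'] at this
    exact hfix this

theorem Inv2.finrank_normed (h : Inv2 s τ) (hs : Continuous s) (hne : ∃ c, s c ≠ c) :
    finrank F D = 1 := by
  obtain ⟨π, ζ, M, r, hc⟩ := exists_cyc (F := F) (D := D)
  obtain ⟨t, ht⟩ := hc.gen (τ ζ) (by rw [h.norm_eq hs, hc.norm_z])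
  obtain ⟨h1, h2⟩ := hc.exists_conj (x := 1) (a := τ ζ) (b := ζ ^ t)
    (by rw [← h.pow, hc.pow, h.one]) (hc.zp_pow t) (by simpa using ht)
  set u := ∑ i ∈ range M, τ ζ ^ i * 1 * (ζ ^ t)⁻¹ ^ i
  have hu : u ≠ 0 := norm_ne_zero_iff.1 (by rw [h1, norm_one]; exact one_ne_zero)
  have htt : ζ ^ (t * t) = ζ ^ 1 := hc.zp_eq (by
    have e1 : ‖τ (τ ζ - ζ ^ t)‖ < 1 := by rwa [h.norm_eq hs]
    rw [map_sub, h.inv, h.pow] at e1
    have e2 := (norm_pow_sub_pow (a := τ ζ) (b := ζ ^ t) (by rw [h.norm_eq hs, hc.norm_z])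
      (hc.norm_zp t).le t).trans_lt ht
    rw [pow_one, pow_mul, norm_sub_rev]
    exact tri_lt e1 e2)
  have h3 : τ ζ * τ u = τ u * ζ ^ t := by
    have e := congrArg τ h2
    rw [h.mul, h.mul, h.inv, h.pow] at e
    have e2 : SemiconjBy (τ u) ζ (τ ζ ^ t) := e
    have e3 := (e2.pow_right t).eq
    rw [← pow_mul, ← h.pow, htt, pow_one] at e3
    exact e3.symm
  obtain ⟨c, ha0, hah⟩ := h.exists_herm hne hu
  set a := c • u + s c • τ u with ha
  have h4 : τ ζ * a = a * ζ ^ t := by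
    rw [ha, add_mul, mul_add, smul_mul_assoc, smul_mul_assoc, mul_smul_comm, mul_smul_comm, h2, h3]
  have := (h.twist ha0 hah).n_eq_one_aux hs hne hc (t := t) (by
    change a⁻¹ * (τ ζ * a) = _
    rw [h4, inv_mul_cancel_left₀ ha0])
  rw [hc.rank, this, one_pow]

end main

section alg
variable {F : Type*} [NontriviallyNormedField F] [ProperSpace F] [IsUltrametricDist F]
  {s : F →+* F}

/-- a local division algebra with an involution of the second kind is trivial -/
theorem Inv2.finrank_eq_one {D : Type*} [DivisionRing D] [Algebra F D] [FiniteDimensional F D]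
    [Algebra.IsCentral F D] {τ : D →+ D} (h : Inv2 s τ) (hs : Continuous s)
    (hne : ∃ c, s c ≠ c) : finrank F D = 1 := by
  let _ := ndr F D
  let _ := nalg F D
  have := ultra F D
  exact h.finrank_normed hs hne

/-- a local central simple algebra with an involution of the second kind is split -/
theorem Inv2.split {B : Type*} [Ring B] [Algebra F B] [Algebra.IsCentral F B] [IsSimpleRing B]
    [FiniteDimensional F B] {n : ℕ} (hn : finrank F B = n ^ 2) {τ : B →+ B} (h : Inv2 s τ)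
    (hs : Continuous s) (hne : ∃ c, s c ≠ c) :
    Nonempty (B ≃ₐ[F] Matrix (Fin n) (Fin n) F) := by
  obtain ⟨r, e, D, _, _, _, _, hr, he, rfl, hD, ⟨q⟩⟩ := Hsm.exists_wedderburn F B hn
  let τ' : Matrix (Fin r) (Fin r) D →+ Matrix (Fin r) (Fin r) D :=
    q.toAddEquiv.toAddMonoidHom.comp (τ.comp q.symm.toAddEquiv.toAddMonoidHom)
  have hτ' : ∀ x, τ' x = q (τ (q.symm x)) := fun _ => rfl
  have h' : Inv2 s τ' :=
    ⟨fun x y => by simp [hτ', h.mul], fun x => by simp [hτ', h.inv],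
      fun c => by rw [hτ', AlgEquiv.commutes, h.alg, AlgEquiv.commutes]⟩
  obtain ⟨t, ht⟩ := h'.corner hr hne
  have h1 := ht.finrank_eq_one hs hne
  have he1 : e = 1 := by
    rw [hD] at h1
    exact (Nat.pow_eq_one.1 h1).resolve_right two_ne_zero
  subst he1
  rw [mul_one]
  have hb : Function.Bijective (Algebra.ofId F D) :=
    ⟨(algebraMap F D).injective,
      (LinearMap.injective_iff_surjective_of_finrank_eq_finrank (f := Algebra.linearMap F D)
        (by rw [h1, finrank_self])).1 (algebraMap F D).injective⟩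
  exact ⟨q.trans (AlgEquiv.mapMatrix (AlgEquiv.ofBijective _ hb).symm)⟩

end alg

end Crest.Agent.T24.Loc
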