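import Crest.Agent.T24.AsaA_53

/-!
# Row 24 (helper53): the line trick in one variable
-/

set_option autoImplicit false

noncomputable section

namespace Crest.Agent.T24.Asa

open NumberField IsDedekindDomain Module WithZero Polynomial
open NumberField.mixedEmbedding (mixedSpace normAtPlace)

section Val

variable {E Γ : Type*} [Field E] [LinearOrderedCommGroupWithZero Γ] (u : Valuation E Γ)

/-- all coefficients are integral -/
def IntP (f : E[X]) : Prop := ∀ i, u (f.coeff i) ≤ 1

variable {u}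

theorem IntP.eval_le {f : E[X]} (hf : IntP u f) {x : E} (hx : u x ≤ 1) : u (f.eval x) ≤ 1 := by
  rw [eval_eq_sum_range]
  refine Valuation.map_sum_le _ fun i _ => ?_
  rw [map_mul, map_pow]
  exact mul_le_one' (hf i) (pow_le_one' hx i)

theorem pow_sub_le {x y : E} (hx : u x ≤ 1) (hy : u y ≤ 1) (i : ℕ) :
    u (x ^ i - y ^ i) ≤ u (x - y) := by
  induction i with
  | zero => simp
  | succ i ih =>
    have : x ^ (i + 1) - y ^ (i + 1) = x * (x ^ i - y ^ i) + y ^ i * (x - y) := by ring
    rw [this]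
    refine Valuation.map_add_le _ ?_ ?_ <;> rw [map_mul]
    · exact (mul_le_mul' hx ih).trans (by simp)
    · rw [map_pow]
      exact (mul_le_mul' (pow_le_one' hy i) le_rfl).trans (by simp)

theorem IntP.eval_sub_le {f : E[X]} (hf : IntP u f) {x y : E} (hx : u x ≤ 1) (hy : u y ≤ 1) :
    u (f.eval x - f.eval y) ≤ u (x - y) := by
  rw [eval_eq_sum_range, eval_eq_sum_range, ← Finset.sum_sub_distrib]
  refine Valuation.map_sum_le _ fun i _ => ?_
  rw [← mul_sub, map_mul]
  exact (mul_le_mul' (hf i) (pow_sub_le hx hy i)).trans (by simp)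

theorem IntP.eval_eq_one {f : E[X]} (hf : IntP u f) {x y : E} (hx : u x ≤ 1) (hy : u y ≤ 1)
    (hxy : u (x - y) < 1) (h : u (f.eval y) = 1) : u (f.eval x) = 1 := by
  have h1 : u (f.eval x - f.eval y) < u (f.eval y) := h ▸ (hf.eval_sub_le hx hy).trans_lt hxy
  rw [← h, ← Valuation.map_add_eq_of_lt_left u h1, add_sub_cancel]

theorem unit_or {p q f g : E[X]} (h : p * f + q * g = 1) (hp : IntP u p) (hq : IntP u q)
    (hf : IntP u f) (hg : IntP u g) {x : E} (hx : u x ≤ 1) :
    u (f.eval x) = 1 ∨ u (g.eval x) = 1 := by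
  by_contra hn
  push Not at hn
  have h1 := lt_of_le_of_ne (hf.eval_le hx) hn.1
  have h2 := lt_of_le_of_ne (hg.eval_le hx) hn.2
  have h3 := congrArg (eval x) h
  rw [eval_add, eval_mul, eval_mul, eval_one] at h3
  have : u (p.eval x * f.eval x + q.eval x * g.eval x) < 1 := by
    refine Valuation.map_add_lt _ ?_ ?_ <;> rw [map_mul]
    · rw [mul_comm]; exact mul_lt_one_of_lt_of_le h1 (hp.eval_le hx)
    · rw [mul_comm]; exact mul_lt_one_of_lt_of_le h2 (hq.eval_le hx)
  rw [h3, map_one] at this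
  exact lt_irrefl _ this

/-- an integral polynomial with a unit coefficient takes a unit value on any set of more than
`deg f` integral points with unit differences -/
theorem IntP.exists_unit {f : E[X]} (hf : IntP u f) {j : ℕ} (hj : u (f.coeff j) = 1)
    (T : Finset E) (hT : ∀ x ∈ T, u x ≤ 1) (hd : ∀ x ∈ T, ∀ y ∈ T, x ≠ y → u (x - y) = 1)
    (hc : f.natDegree < T.card) : ∃ x ∈ T, u (f.eval x) = 1 := by
  classical
  by_contra hn
  push Not at hn
  have hlt : ∀ x ∈ T, u (f.eval x) < 1 := fun x hx =>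
    lt_of_le_of_ne (hf.eval_le (hT x hx)) (hn x hx)
  have hmul : ∀ p q : E[X], IntP u p → IntP u q → IntP u (p * q) := by
    intro p q hp hq i
    rw [coeff_mul]
    refine Valuation.map_sum_le _ fun c _ => ?_
    rw [map_mul]
    exact mul_le_one' (hp _) (hq _)
  have hC : ∀ c : E, u c ≤ 1 → IntP u (C c) := by
    intro c hc i
    rw [coeff_C]
    split_ifs
    · exact hc
    · simp
  have hX : ∀ c : E, u c ≤ 1 → IntP u (X - C c) := by
    intro c hc i
    rw [coeff_sub]
    refine Valuation.map_sub_le _ ?_ (hC c hc i)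
    rw [coeff_X]
    split_ifs <;> simp
  have hb : ∀ x ∈ T, IntP u (Lagrange.basis T id x) := by
    intro x hx
    rw [Lagrange.basis]
    refine Finset.prod_induction _ (IntP u) hmul (by simpa using hC 1 (by simp)) fun y hy => ?_
    have hy' := Finset.mem_erase.1 hy
    rw [Lagrange.basisDivisor]
    refine hmul _ _ (hC _ ?_) (hX _ (hT y hy'.2))
    rw [map_inv₀, id, id, hd x hx y hy'.2 hy'.1.symm, inv_one]
  have he := Lagrange.eq_interpolate (s := T) (v := id) (f := f) (Set.injOn_id _)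
    (lt_of_le_of_lt degree_le_natDegree (by exact_mod_cast hc))
  have : u (f.coeff j) < 1 := by
    rw [he, Lagrange.interpolate_apply, finsetSum_coeff]
    refine Valuation.map_sum_lt _ one_ne_zero fun x hx => ?_
    rw [coeff_C_mul, map_mul]
    exact mul_lt_one_of_lt_of_le (hlt x hx) (hb x hx j)
  exact absurd hj this.ne

end Val

variable {k : Type*} [Field k] [NumberField k] {K : Type*} [Field K] [NumberField K] [Algebra k K]

theorem finite_not_intP (f : K[X]) : {w : Pl K | ¬ IntP (w.valuation K) f}.Finite := by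
  refine (Set.Finite.biUnion f.support.finite_toSet fun i _ => finite_not_le (f.coeff i)).subset
    fun w hw => ?_
  simp only [IntP, Set.mem_ofPred_eq, not_forall] at hw
  obtain ⟨i, hi⟩ := hw
  refine Set.mem_biUnion (x := i) ?_ hi
  by_contra h
  rw [Finset.mem_coe, Polynomial.notMem_support_iff] at h
  exact hi (by simp [h])

/-- **line trick**, one variable: `Q` is the set of places of `K` to be controlled -/
theorem line1 (f g : K[X]) (hfg : IsCoprime f g) (S : Finset (Pl k)) (v₀ : Pl k) (h₀ : v₀ ∉ S)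
    (Q : Set (Pl K)) (hQ : ∀ w ∈ Q, below k w ∉ S ∧ below k w ≠ v₀ ∧
      IntP (w.valuation K) f ∧ IntP (w.valuation K) g)
    (hloc : ∀ v ∉ S, v ≠ v₀ → ∃ t : k, v.valuation k t ≤ 1 ∧ ∀ w ∈ Q, below k w = v →
      w.valuation K (f.eval (algebraMap k K t)) = 1 ∨ w.valuation K (g.eval (algebraMap k K t)) = 1)
    (a : Pl k → k) (m : ℕ) (b : mixedSpace k) {ε : ℝ} (hε : 0 < ε) :
    {t : k | (∀ v ∈ S, v.valuation k (t - a v) ≤ exp (-(m : ℤ))) ∧
      (∀ w, normAtPlace w (mixedEmbedding k t - b) < ε) ∧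
      (∀ v ∉ S, v ≠ v₀ → v.valuation k t ≤ 1) ∧
      ∀ w ∈ Q, w.valuation K (f.eval (algebraMap k K t)) = 1 ∨
        w.valuation K (g.eval (algebraMap k K t)) = 1}.Infinite := by
  classical
  obtain ⟨p, q, hpq⟩ := hfg
  choose! c hc hc' using hloc
  let T : Finset (Pl k) :=
    ((((finite_not_intP p).union (finite_not_intP q)).toFinset.image (below k)).filter
      fun v => v ∉ S ∧ v ≠ v₀)
  have hT : ∀ v ∈ T, v ∉ S ∧ v ≠ v₀ := fun v hv => (Finset.mem_filter.1 hv).2
  refine (approx_infinite (S ∪ T) v₀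
    (by simp only [Finset.mem_union, not_or]; exact ⟨h₀, fun h => (hT _ h).2 rfl⟩)
    (fun v => if v ∈ S then a v else c v) (m + 1) b hε).mono ?_
  rintro t ⟨h1, h2, h3⟩
  have hTt : ∀ v ∈ T, v.valuation k (t - c v) < 1 := by
    intro v hv
    have := h1 v (Finset.mem_union_right _ hv)
    rw [if_neg (hT v hv).1] at this
    exact this.trans_lt (exp_neg_lt_one (Nat.succ_pos m))
  have hint : ∀ v ∉ S, v ≠ v₀ → v.valuation k t ≤ 1 := by
    intro v hv hv₀
    by_cases hvT : v ∈ T
    · rw [← sub_add_cancel t (c v)]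
      exact Valuation.map_add_le _ (hTt v hvT).le (hc v hv hv₀)
    · exact h3 v (by simp [hv, hvT]) hv₀
  refine ⟨fun v hv => ?_, h2, hint, fun w hw => ?_⟩
  · have := h1 v (Finset.mem_union_left _ hv)
    rw [if_pos hv] at this
    exact this.trans (exp_neg_anti (Nat.le_succ m))
  · obtain ⟨q1, q2, q3, q4⟩ := hQ w hw
    have ht := (below_le_one w t).2 (hint _ q1 q2)
    by_cases hwT : below k w ∈ T
    · have hcw := (below_le_one w _).2 (hc _ q1 q2)
      have hd : w.valuation K (algebraMap k K t - algebraMap k K (c (below k w))) < 1 := by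
        rw [← map_sub, below_lt_one]; exact hTt _ hwT
      exact (hc' _ q1 q2 w hw rfl).imp (q3.eval_eq_one ht hcw hd) (q4.eval_eq_one ht hcw hd)
    · have : IntP (w.valuation K) p ∧ IntP (w.valuation K) q := by
        by_contra hn
        refine hwT (Finset.mem_filter.2 ⟨Finset.mem_image_of_mem _ ?_, q1, q2⟩)
        rw [Set.Finite.mem_toFinset]
        exact not_and_or.1 hn
      exact unit_or hpq this.1 this.2 q3 q4 ht

/-- the places whose residue characteristic is at most `n` -/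
theorem finite_small (n : ℕ) :
    {v : Pl k | ∃ i : ℕ, 0 < i ∧ i ≤ n ∧ v.valuation k (i : k) ≠ 1}.Finite := by
  refine (Set.Finite.biUnion (Finset.Icc 1 n).finite_toSet fun i hi =>
    finite_ne_one (k := k) (x := (i : k)) ?_).subset ?_
  · have := (Finset.mem_Icc.1 hi).1
    exact_mod_cast (by omega : i ≠ 0)
  · rintro v ⟨i, h1, h2, h3⟩
    exact Set.mem_biUnion (x := i) (Finset.mem_Icc.2 ⟨h1, h2⟩) h3

/-- a unit value among `0, …, n` when the residue characteristic exceeds `n ≥ deg f` -/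
theorem exists_nat_unit (w : Pl K) {f : K[X]} (hf : IntP (w.valuation K) f) {j : ℕ}
    (hj : w.valuation K (f.coeff j) = 1) {n : ℕ} (hn : f.natDegree ≤ n)
    (hw : ∀ i : ℕ, 0 < i → i ≤ n → w.valuation K (i : K) = 1) :
    ∃ i : ℕ, w.valuation K (f.eval (i : K)) = 1 := by
  classical
  have hnat : ∀ i : ℕ, w.valuation K (i : K) ≤ 1 := fun i => by
    simpa using val_int w (i : 𝓞 K)
  obtain ⟨x, hx, h⟩ := hf.exists_unit hj ((Finset.range (n + 1)).image Nat.cast)
    (fun x hx => by obtain ⟨i, -, rfl⟩ := Finset.mem_image.1 hx; exact hnat i)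
    (fun x hx y hy hxy => by
      obtain ⟨i, hi, rfl⟩ := Finset.mem_image.1 hx
      obtain ⟨l, hl, rfl⟩ := Finset.mem_image.1 hy
      have hil : i ≠ l := fun e => hxy (by rw [e])
      rw [Finset.mem_range] at hi hl
      rcases lt_or_gt_of_ne hil with h | h
      · rw [Valuation.map_sub_swap, ← Nat.cast_sub h.le]
        exact hw _ (by omega) (by omega)
      · rw [← Nat.cast_sub h.le]
        exact hw _ (by omega) (by omega))
    (by rw [Finset.card_image_of_injective _ Nat.cast_injective, Finset.card_range]; omega)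
  obtain ⟨i, -, rfl⟩ := Finset.mem_image.1 hx
  exact ⟨i, h⟩

/-- **line trick** with free local points: at every place of `Q` the polynomial `f` has a unit
coefficient and the residue characteristic is large -/
theorem line1_unit (f g : K[X]) (hfg : IsCoprime f g) (S : Finset (Pl k)) (v₀ : Pl k)
    (h₀ : v₀ ∉ S) (Q : Set (Pl K)) (hQ : ∀ w ∈ Q, below k w ∉ S ∧ below k w ≠ v₀ ∧
      IntP (w.valuation K) f ∧ IntP (w.valuation K) g ∧ (∃ j, w.valuation K (f.coeff j) = 1) ∧
      ∀ i : ℕ, 0 < i → i ≤ f.natDegree → w.valuation K (i : K) = 1)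
    (huniq : ∀ w ∈ Q, ∀ w' ∈ Q, below k w = below k w' → w = w')
    (a : Pl k → k) (m : ℕ) (b : mixedSpace k) {ε : ℝ} (hε : 0 < ε) :
    {t : k | (∀ v ∈ S, v.valuation k (t - a v) ≤ exp (-(m : ℤ))) ∧
      (∀ w, normAtPlace w (mixedEmbedding k t - b) < ε) ∧
      (∀ v ∉ S, v ≠ v₀ → v.valuation k t ≤ 1) ∧
      ∀ w ∈ Q, w.valuation K (f.eval (algebraMap k K t)) = 1 ∨
        w.valuation K (g.eval (algebraMap k K t)) = 1}.Infinite := by
  refine line1 f g hfg S v₀ h₀ Q
    (fun w hw => ⟨(hQ w hw).1, (hQ w hw).2.1, (hQ w hw).2.2.1, (hQ w hw).2.2.2.1⟩)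
    (fun v _ _ => ?_) a m b hε
  by_cases h : ∃ w ∈ Q, below k w = v
  · obtain ⟨w, hw, rfl⟩ := h
    obtain ⟨-, -, q3, -, ⟨j, hj⟩, q6⟩ := hQ w hw
    obtain ⟨i, hi⟩ := exists_nat_unit w q3 hj le_rfl q6
    refine ⟨i, by simpa using val_int (below k w) (i : 𝓞 k), fun w' hw' e => Or.inl ?_⟩
    rw [huniq w' hw' w hw e, map_natCast]
    exact hi
  · exact ⟨0, by simp, fun w hw e => absurd ⟨w, hw, e⟩ h⟩

open Crest.NumberTheoryR.UnitaryMP in
/-- a non-split place is the only place above the place below it -/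
theorem nonsplit_unique (hK : finrank k K = 2) {σ : K ≃ₐ[k] K} (hσ : σ ≠ AlgEquiv.refl)
    {w w' : Pl K} (hw : ¬ SplitsBelow σ w) (h : below k w = below k w') : w = w' := by
  simp only [SplitsBelow, not_exists, not_not] at hw
  refine HeightOneSpectrum.ext (w'.isMaximal.eq_of_le w.isPrime.ne_top fun z hz => ?_).symm
  obtain ⟨n, hn⟩ := fixed hK hσ (x := (z : K) * σ z) (by
    rw [map_mul, sigma_sigma hK hσ, mul_comm])
  have hsz : σ (z : K) = ((RingOfIntegers.mapRingHom (σ : K →+* K) z : 𝓞 K) : K) := rfl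
  have h1 : w'.valuation K (algebraMap k K n) < 1 := by
    rw [hn, map_mul, hsz]
    exact mul_lt_one_of_lt_of_le ((w'.valuation_lt_one_iff_mem (K := K) z).2 hz) (val_int w' _)
  rw [below_lt_one, ← h, ← below_lt_one, hn, map_mul, hw] at h1
  refine (w.valuation_lt_one_iff_mem (K := K) z).1 ?_
  by_contra h3
  have h4 : w.valuation K (z : K) = 1 := le_antisymm (val_int w z) (not_lt.1 h3)
  rw [h4, one_mul] at h1
  exact lt_irrefl _ h1

open Crest.NumberTheoryR.UnitaryMP in
/-- **line trick** for a polynomial coprime to its conjugate: `f (t)` is a unit at all non-split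
places outside `S ∪ {v₀}` -/
theorem line1_sigma (hK : finrank k K = 2) {σ : K ≃ₐ[k] K} (hσ : σ ≠ AlgEquiv.refl) (f : K[X])
    (hf : IsCoprime f (f.map (σ : K →+* K))) (S : Finset (Pl k)) (v₀ : Pl k) (h₀ : v₀ ∉ S)
    (hS : ∀ w : Pl K, ¬ SplitsBelow σ w → below k w ∉ S → below k w ≠ v₀ →
      IntP (w.valuation K) f ∧ (∃ j, w.valuation K (f.coeff j) = 1) ∧
      ∀ i : ℕ, 0 < i → i ≤ f.natDegree → w.valuation K (i : K) = 1)
    (a : Pl k → k) (m : ℕ) (b : mixedSpace k) {ε : ℝ} (hε : 0 < ε) :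
    {t : k | (∀ v ∈ S, v.valuation k (t - a v) ≤ exp (-(m : ℤ))) ∧
      (∀ w, normAtPlace w (mixedEmbedding k t - b) < ε) ∧
      (∀ v ∉ S, v ≠ v₀ → v.valuation k t ≤ 1) ∧
      ∀ w : Pl K, ¬ SplitsBelow σ w → below k w ∉ S → below k w ≠ v₀ →
        w.valuation K (f.eval (algebraMap k K t)) = 1}.Infinite := by
  refine (line1_unit f _ hf S v₀ h₀
    {w | ¬ SplitsBelow σ w ∧ below k w ∉ S ∧ below k w ≠ v₀} (fun w hw => ?_)
    (fun w hw w' _ e => nonsplit_unique hK hσ hw.1 e) a m b hε).mono ?_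
  · obtain ⟨q1, q2, q3⟩ := hS w hw.1 hw.2.1 hw.2.2
    refine ⟨hw.2.1, hw.2.2, q1, fun i => ?_, q2, q3⟩
    have h1 := hw.1
    simp only [SplitsBelow, not_exists, not_not] at h1
    rw [coeff_map]
    exact (h1 _).le.trans (q1 i)
  · rintro t ⟨h1, h2, h3, h4⟩
    refine ⟨h1, h2, h3, fun w q1 q2 q3 => (h4 w ⟨q1, q2, q3⟩).elim id fun h => ?_⟩
    simp only [SplitsBelow, not_exists, not_not] at q1
    have : (f.map (σ : K →+* K)).eval (algebraMap k K t) = σ (f.eval (algebraMap k K t)) := by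
      conv_lhs => rw [← σ.commutes t]
      exact eval_map_apply (σ : K →+* K) _
    rwa [this, q1] at h

end Crest.Agent.T24.Asa
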