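import Mathlib

/-!
# Row 24 (helper59): local fields and local division algebras, part A

* `proper_adic` : the completion of a number field at a finite place is locally compact;
* `nm F x`, `ndr F D`, `nalg F D`, `ultra F D` : the absolute value of a finite dimensional division algebra
  over a local field `F`;
* `Res π ζ M` : uniformiser and Teichmüller generator of a locally compact ultrametric division ring.
-/

set_option autoImplicit false

namespace Crest.Agent.T24.Loc

open Finset Module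

section adic
open NumberField IsDedekindDomain
open scoped Valued
variable (K : Type*) [Field K] [NumberField K] (w : HeightOneSpectrum (𝓞 K))

theorem exists_int_near (x : w.adicCompletion K) (hx : Valued.v x ≤ 1) :
    ∃ a : 𝓞 K, Valued.v (x - algebraMap K _ (a : K)) < 1 := by
  obtain ⟨y, hy⟩ := (w.denseRange_algebraMap K).exists_dist_lt x one_pos
  rw [dist_eq_norm, Valued.toNormedField.norm_lt_one_iff] at hy
  have h1 : w.valuation K y ≤ 1 := by
    rw [← w.valuedAdicCompletion_eq_valuation' y]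
    have : ((y : K) : w.adicCompletion K) = x - (x - algebraMap K _ y) := by
      rw [sub_sub_cancel]; rfl
    rw [this]
    exact Valuation.map_sub_le _ hx hy.le
  obtain ⟨a, ha⟩ := w.exists_valuation_sub_lt_of_integer h1 1
  refine ⟨a, ?_⟩
  have : x - algebraMap K _ (a : K) =
      x - algebraMap K _ y - algebraMap K (w.adicCompletion K) (algebraMap _ K a - y) := by
    rw [map_sub]; simp
  rw [this]
  refine Valuation.map_sub_lt _ hy ?_
  rw [← w.valuedAdicCompletion_eq_valuation'] at ha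
  exact ha

theorem finite_res : Finite 𝓀[w.adicCompletion K] := by
  have : Finite (𝓞 K ⧸ w.asIdeal) := w.asIdeal.finiteQuotientOfFreeOfNeBot w.ne_bot
  let f : 𝓞 K →+* 𝒪[w.adicCompletion K] := algebraMap (𝓞 K) (w.adicCompletionIntegers K)
  let g : 𝓞 K ⧸ w.asIdeal →+* 𝓀[w.adicCompletion K] :=
    Ideal.Quotient.lift _ ((IsLocalRing.residue _).comp f) fun a ha => by
      rw [RingHom.comp_apply, IsLocalRing.residue_eq_zero_iff]
      have := (w.valuation_lt_one_iff_mem (K := K) a).2 ha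
      rw [← w.valuedAdicCompletion_eq_valuation'] at this
      exact (Valuation.mem_maximalIdeal_iff (v := Valued.v)).2 this
  refine Finite.of_surjective g fun y => ?_
  obtain ⟨x, rfl⟩ := IsLocalRing.residue_surjective y
  obtain ⟨a, ha⟩ := exists_int_near K w x x.2
  refine ⟨Ideal.Quotient.mk _ a, ?_⟩
  rw [Ideal.Quotient.lift_mk, RingHom.comp_apply, eq_comm, ← sub_eq_zero, ← map_sub,
    IsLocalRing.residue_eq_zero_iff]
  exact (Valuation.mem_maximalIdeal_iff (v := Valued.v)).2 ha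

theorem proper_adic : ProperSpace (w.adicCompletion K) :=
  Valued.integer.properSpace_iff_completeSpace_and_isDiscreteValuationRing_integer_and_finite_residueField.2
    ⟨inferInstance, inferInstanceAs (IsDiscreteValuationRing (w.adicCompletionIntegers K)), finite_res K w⟩

theorem charZero_adic : CharZero (w.adicCompletion K) :=
  algebraRat.charZero _

end adic

section norm
variable (F : Type*) [NontriviallyNormedField F] {D : Type*} [DivisionRing D] [Algebra F D]

/-- the absolute value of a division algebra -/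
noncomputable def nm (x : D) : ℝ := ‖Algebra.norm F x‖ ^ (finrank F D : ℝ)⁻¹

theorem nm_nonneg (x : D) : 0 ≤ nm F x := Real.rpow_nonneg (norm_nonneg _) _

theorem nm_mul (x y : D) : nm F (x * y) = nm F x * nm F y := by
  simp only [nm, map_mul, norm_mul, Real.mul_rpow (norm_nonneg _) (norm_nonneg _)]

variable [FiniteDimensional F D]

theorem nm_pow_finrank (x : D) : nm F x ^ finrank F D = ‖Algebra.norm F x‖ :=
  Real.rpow_inv_natCast_pow (norm_nonneg _) finrank_pos.ne'

theorem nm_algebraMap (c : F) : nm F (algebraMap F D c) = ‖c‖ := by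
  rw [nm, Algebra.norm_algebraMap, norm_pow, Real.pow_rpow_inv_natCast (norm_nonneg _) finrank_pos.ne']

theorem nm_eq_zero {x : D} : nm F x = 0 ↔ x = 0 := by
  rw [← pow_eq_zero_iff (finrank_pos (R := F) (M := D)).ne', nm_pow_finrank, norm_eq_zero,
    Algebra.norm_eq_zero_iff]

theorem nm_smul (c : F) (x : D) : nm F (c • x) = ‖c‖ * nm F x := by
  rw [Algebra.smul_def, nm_mul, nm_algebraMap]

theorem nm_one : nm F (1 : D) = 1 := by simpa using nm_algebraMap F (D := D) 1

theorem nm_pow (x : D) (n : ℕ) : nm F (x ^ n) = nm F x ^ n := by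
  induction n with
  | zero => simp [nm_one]
  | succ n ih => rw [pow_succ, nm_mul, ih, pow_succ]

variable [ProperSpace F]

theorem nm_cmp {ι : Type*} [Fintype ι] (b : Basis ι F D) :
    ∃ C : ℝ, 0 < C ∧ ∀ x : D, nm F x ≤ C * ‖b.equivFun x‖ ∧ ‖b.equivFun x‖ ≤ C * nm F x := by
  classical
  have hc : Continuous fun y : ι → F => nm F (b.equivFun.symm y) := by
    simp only [nm, Algebra.norm_eq_matrix_det b]
    refine Continuous.rpow_const (Continuous.matrix_det ?_).norm fun _ => Or.inr (by positivity)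
    exact ((Algebra.leftMulMatrix b).toLinearMap ∘ₗ b.equivFun.symm.toLinearMap).continuous_on_pi
  obtain ⟨c, hc1⟩ := NormedField.exists_one_lt_norm F
  have hS : IsCompact {y : ι → F | 1 / ‖c‖ ≤ ‖y‖ ∧ ‖y‖ ≤ 1} :=
    Metric.isCompact_of_isClosed_isBounded
      ((isClosed_le continuous_const continuous_norm).inter (isClosed_le continuous_norm continuous_const))
      ((Metric.isBounded_closedBall (x := 0) (r := 1)).subset fun y hy => by simpa using hy.2)
  have hc0 : 0 < ‖c‖ := by linarith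
  obtain ⟨M, hM⟩ := hS.bddAbove_image hc.continuousOn
  obtain ⟨m, hm0, hm⟩ := hS.exists_forall_le' hc.continuousOn (a := 0) fun y hy =>
    (nm_nonneg F _).lt_of_ne fun h => by
      have h1 : y = 0 := b.equivFun.symm.map_eq_zero_iff.1 ((nm_eq_zero F).1 h.symm)
      have := hy.1
      rw [h1, norm_zero] at this
      exact absurd this (not_le.2 (by positivity))
  refine ⟨|M| * ‖c‖ + m⁻¹, by positivity, fun x => ?_⟩
  by_cases hx : x = 0
  · simp [hx, (nm_eq_zero F).2 rfl]
  obtain ⟨d, hd, h1, h2, -⟩ := rescale_to_shell hc1 one_pos (x := b.equivFun x) (by simpa using hx)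
  have h3 := hm _ ⟨h2, h1.le⟩
  have h4 := (hM ⟨_, ⟨h2, h1.le⟩, rfl⟩).trans (le_abs_self M)
  simp only [map_smul, LinearEquiv.symm_apply_apply, nm_smul] at h3 h4
  rw [norm_smul] at h1 h2
  have hd0 : 0 < ‖d‖ := norm_pos_iff.2 hd
  have := nm_nonneg F x
  have := norm_nonneg (b.equivFun x)
  rw [div_le_iff₀ hc0] at h2
  constructor
  · have h5 : nm F x ≤ |M| * ‖c‖ * ‖b.equivFun x‖ := le_of_mul_le_mul_left (by
      nlinarith [abs_nonneg M]) hd0
    rw [add_mul]; exact h5.trans (le_add_of_nonneg_right (by positivity))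
  · have h5 : ‖b.equivFun x‖ ≤ m⁻¹ * nm F x := by
      rw [le_inv_mul_iff₀ hm0]; exact le_of_mul_le_mul_left (by nlinarith) hd0
    rw [add_mul]; exact h5.trans (le_add_of_nonneg_left (by positivity))

variable [IsUltrametricDist F]

theorem nm_one_add {x : D} (hx : nm F x ≤ 1) : nm F (x + 1) ≤ 1 := by
  obtain ⟨C, hC, h⟩ := nm_cmp F (finBasis F D)
  by_contra h1
  obtain ⟨n, hn⟩ := pow_unbounded_of_one_lt (C * C) (not_le.1 h1)
  refine absurd hn (not_lt.2 ?_)
  rw [← nm_pow, (Commute.one_right x).add_pow]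
  refine (h _).1.trans (mul_le_mul_of_nonneg_left ?_ hC.le)
  rw [map_sum]
  refine IsUltrametricDist.norm_sum_le_of_forall_le_of_nonneg hC.le fun i _ => (h _).2.trans ?_
  rw [one_pow, mul_one, nm_mul, nm_pow, ← map_natCast (algebraMap F D), nm_algebraMap]
  exact mul_le_of_le_one_right hC.le (mul_le_one₀ (pow_le_one₀ (nm_nonneg F x) hx) (norm_nonneg _)
    (IsUltrametricDist.norm_natCast_le_one F _))

theorem nm_add (x y : D) : nm F (x + y) ≤ max (nm F x) (nm F y) := by
  wlog h : nm F x ≤ nm F y generalizing x y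
  · rw [add_comm, max_comm]; exact this y x (not_le.1 h).le
  rw [max_eq_right h]
  by_cases hy : y = 0
  · rw [hy, add_zero]; exact hy ▸ h
  have h0 : 0 < nm F y := (nm_nonneg F y).lt_of_ne fun h => hy ((nm_eq_zero F).1 h.symm)
  have h1 : nm F (x * y⁻¹) ≤ 1 := le_of_mul_le_mul_right (by
    rwa [← nm_mul, inv_mul_cancel_right₀ hy, one_mul]) h0
  have := mul_le_mul_of_nonneg_right (nm_one_add F h1) h0.le
  rwa [← nm_mul, add_mul, inv_mul_cancel_right₀ hy, one_mul, one_mul] at this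

variable (D)

/-- the absolute value -/
noncomputable def av : AbsoluteValue D ℝ where
  toFun := nm F
  map_mul' := nm_mul F
  nonneg' := nm_nonneg F
  eq_zero' _ := nm_eq_zero F
  add_le' x y := (nm_add F x y).trans (max_le_add_of_nonneg (nm_nonneg F x) (nm_nonneg F y))

/-- the normed division ring structure (use with `letI`) -/
noncomputable abbrev ndr : NormedDivisionRing D :=
  { toDivisionRing := inferInstance
    norm := nm F
    dist x y := nm F (-x + y)
    dist_self x := (av F D).toNormedRing.dist_self x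
    dist_comm x y := (av F D).toNormedRing.dist_comm x y
    dist_triangle x y z := (av F D).toNormedRing.dist_triangle x y z
    eq_of_dist_eq_zero h := (av F D).toNormedRing.eq_of_dist_eq_zero h
    dist_eq _ _ := rfl
    norm_mul x y := nm_mul F x y }

/-- the normed algebra structure -/
noncomputable abbrev nalg : letI := ndr F D; NormedAlgebra F D :=
  letI := ndr F D
  { toAlgebra := inferInstance, norm_smul_le := fun c x => (nm_smul F c x).le }

theorem ultra : letI := ndr F D; IsUltrametricDist D :=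
  letI := ndr F D
  IsUltrametricDist.isUltrametricDist_of_forall_norm_add_le_max_norm (nm_add F)

end norm

section res
variable {E : Type*} [NormedDivisionRing E] [IsUltrametricDist E]

theorem norm_sub_le_of {x y : E} {r : ℝ} (hx : ‖x‖ ≤ r) (hy : ‖y‖ ≤ r) : ‖x - y‖ ≤ r := by
  rw [sub_eq_add_neg]
  exact (IsUltrametricDist.norm_add_le_max _ _).trans (max_le hx (by rwa [norm_neg]))
theorem norm_add_le_of {x y : E} {r : ℝ} (hx : ‖x‖ ≤ r) (hy : ‖y‖ ≤ r) : ‖x + y‖ ≤ r :=
  (IsUltrametricDist.norm_add_le_max _ _).trans (max_le hx hy)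
theorem norm_sub_lt_of {x y : E} {r : ℝ} (hx : ‖x‖ < r) (hy : ‖y‖ < r) : ‖x - y‖ < r := by
  rw [sub_eq_add_neg]
  exact (IsUltrametricDist.norm_add_le_max _ _).trans_lt (max_lt hx (by rwa [norm_neg]))
theorem norm_add_lt_of {x y : E} {r : ℝ} (hx : ‖x‖ < r) (hy : ‖y‖ < r) : ‖x + y‖ < r :=
  (IsUltrametricDist.norm_add_le_max _ _).trans_lt (max_lt hx hy)
theorem tri_le {x y z : E} {r : ℝ} (h : ‖x - y‖ ≤ r) (h' : ‖y - z‖ ≤ r) : ‖x - z‖ ≤ r := by
  simpa using norm_add_le_of h h'
theorem tri_lt {x y z : E} {r : ℝ} (h : ‖x - y‖ < r) (h' : ‖y - z‖ < r) : ‖x - z‖ < r := by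
  simpa using norm_add_lt_of h h'
theorem norm_eq_of_lt {x y : E} (h : ‖x - y‖ < ‖y‖) : ‖x‖ = ‖y‖ := by
  have := IsUltrametricDist.norm_add_eq_max_of_norm_ne_norm h.ne
  rwa [sub_add_cancel, max_eq_right h.le] at this

theorem norm_mul_sub_mul {a b c d : E} {r : ℝ} (hb : ‖b‖ ≤ 1) (hc : ‖c‖ ≤ 1) (h : ‖a - b‖ ≤ r)
    (h' : ‖c - d‖ ≤ r) : ‖a * c - b * d‖ ≤ r := by
  rw [show a * c - b * d = (a - b) * c + b * (c - d) by noncomm_ring]
  refine norm_add_le_of ?_ ?_ <;> rw [norm_mul]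
  · exact (mul_le_of_le_one_right (norm_nonneg _) hc).trans h
  · exact (mul_le_of_le_one_left (norm_nonneg _) hb).trans h'

theorem norm_pow_sub_pow {a b : E} (ha : ‖a‖ ≤ 1) (hb : ‖b‖ ≤ 1) (n : ℕ) : ‖a ^ n - b ^ n‖ ≤ ‖a - b‖ := by
  induction n with
  | zero => simp
  | succ n ih =>
    rw [pow_succ, pow_succ]
    exact norm_mul_sub_mul (by rw [norm_pow]; exact pow_le_one₀ (norm_nonneg _) hb) ha ih le_rfl

theorem norm_sum_sub {n : ℕ} {f : ℕ → E} {x : E} {r : ℝ} (hr : 0 ≤ r) (h : ∀ i < n, ‖f i - x‖ ≤ r) :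
    ‖∑ i ∈ range n, f i - n * x‖ ≤ r := by
  rw [show (n : E) * x = ∑ _i ∈ range n, x by simp, ← sum_sub_distrib]
  exact IsUltrametricDist.norm_sum_le_of_forall_le_of_nonneg hr fun i hi => h i (mem_range.1 hi)

/-- for commuting congruent integers, `a ^ n - b ^ n = (a - b) (n b ^ (n - 1) + small)` -/
theorem geom_near {a b : E} (hb : ‖b‖ ≤ 1) (ha : ‖a‖ ≤ 1) (n : ℕ) :
    ‖∑ i ∈ range n, a ^ i * b ^ (n - 1 - i) - n * b ^ (n - 1)‖ ≤ ‖a - b‖ :=
  norm_sum_sub (norm_nonneg _) fun i hi => by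
    rw [show b ^ (n - 1) = b ^ i * b ^ (n - 1 - i) by rw [← pow_add]; congr 1; omega]
    exact norm_mul_sub_mul (by rw [norm_pow]; exact pow_le_one₀ (norm_nonneg _) hb)
      (by rw [norm_pow]; exact pow_le_one₀ (norm_nonneg _) hb) (norm_pow_sub_pow ha hb i) (by simp)

/-- commuting congruent roots of unity of order prime to the residue characteristic are equal -/
theorem eq_of_pow_eq {a b : E} {n : ℕ} (hn : ‖(n : E)‖ = 1) (hc : Commute a b) (hb : ‖b‖ = 1)
    (h : ‖a - b‖ < 1) (hp : a ^ n = b ^ n) : a = b := by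
  have ha : ‖a‖ = 1 := (norm_eq_of_lt (by rwa [hb])).trans hb
  have h1 := hc.mul_geom_sum₂ n
  rw [hp, sub_self, mul_eq_zero, sub_eq_zero] at h1
  refine h1.resolve_right fun h2 => ?_
  have h3 := (geom_near hb.le ha.le n).trans_lt h
  simp [h2, hn, hb] at h3

omit [IsUltrametricDist E] in
/-- the averaging trick -/
theorem twist {a b x : E} {M : ℕ} (ha : a ^ M = 1) (hb : b ^ M = 1) :
    a * (∑ i ∈ range M, a ^ i * x * b ^ i) * b = ∑ i ∈ range M, a ^ i * x * b ^ i := by
  have h1 := sum_range_succ (fun i => a ^ i * x * b ^ i) M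
  rw [sum_range_succ', ha, hb, pow_zero, pow_zero, add_left_inj] at h1
  rw [mul_sum, sum_mul]
  exact (sum_congr rfl fun i _ => by rw [pow_succ', pow_succ]; simp only [mul_assoc]).trans h1

theorem twist_near {a b x : E} (ha : ‖a‖ = 1) (hb : ‖b‖ = 1) (M : ℕ) :
    ‖∑ i ∈ range M, a ^ i * x * b ^ i - M * x‖ ≤ ‖a * x * b - x‖ :=
  norm_sum_sub (norm_nonneg _) fun i _ => by
    induction i with
    | zero => simp
    | succ i ih =>
      refine tri_le (le_of_eq ?_) (ih (by omega))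
      rw [show a ^ (i + 1) * x * b ^ (i + 1) - a ^ i * x * b ^ i = a ^ i * (a * x * b - x) * b ^ i by
        rw [pow_succ a, pow_succ' b]; noncomm_ring]
      simp [ha, hb]

/-- uniformiser `π`, generator `ζ` of the Teichmüller representatives, `M + 1` residue classes -/
structure Res (π ζ : E) (M : ℕ) : Prop where
  ne : π ≠ 0
  lt : ‖π‖ < 1
  le : ∀ x : E, ‖x‖ < 1 → ‖x‖ ≤ ‖π‖
  pos : 0 < M
  pow : ζ ^ M = 1
  dvd : ∀ i : ℕ, ‖ζ ^ i - 1‖ < 1 → M ∣ i
  gen : ∀ x : E, ‖x‖ = 1 → ∃ i : ℕ, ‖x - ζ ^ i‖ < 1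
  card : ‖(M + 1 : E)‖ < 1

variable (E)

/-- the valuation ring -/
def OO : Subring E where
  carrier := {x | ‖x‖ ≤ 1}
  mul_mem' ha hb := by simpa using mul_le_one₀ ha (norm_nonneg _) hb
  one_mem' := by simp
  add_mem' := norm_add_le_of
  zero_mem' := by simp
  neg_mem' ha := by simpa using ha

/-- its maximal ideal -/
def PP : Ideal (OO E) where
  carrier := {x | ‖(x : E)‖ < 1}
  add_mem' := norm_add_lt_of
  zero_mem' := by simp
  smul_mem' c x hx := by
    simpa using mul_lt_one_of_nonneg_of_lt_one_right c.2 (norm_nonneg _) hx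

instance : (PP E).IsTwoSided :=
  ⟨fun {a} b ha => by
    have := mul_lt_one_of_nonneg_of_lt_one_left (norm_nonneg _) ha b.2
    simpa [PP] using this⟩

variable {E}

theorem mk_eq_iff {x y : OO E} :
    Ideal.Quotient.mk (PP E) x = Ideal.Quotient.mk (PP E) y ↔ ‖(x : E) - y‖ < 1 := Ideal.Quotient.eq

instance : Nontrivial (OO E ⧸ PP E) := ⟨1, 0, fun h => by simpa using (mk_eq_iff (x := 1) (y := 0)).1 h⟩

instance : IsDomain (OO E ⧸ PP E) := by
  have : NoZeroDivisors (OO E ⧸ PP E) := ⟨fun {a b} h => by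
    obtain ⟨a, rfl⟩ := Ideal.Quotient.mk_surjective a
    obtain ⟨b, rfl⟩ := Ideal.Quotient.mk_surjective b
    have h1 := (mk_eq_iff (x := a * b) (y := 0)).1 h
    by_contra h2
    push Not at h2
    have h3 := mt (mk_eq_iff (x := a) (y := 0)).2 h2.1
    have h4 := mt (mk_eq_iff (x := b) (y := 0)).2 h2.2
    simp only [Subring.coe_mul, ZeroMemClass.coe_zero, sub_zero, norm_mul, not_lt] at h1 h3 h4
    nlinarith⟩
  exact NoZeroDivisors.to_isDomain _

variable [ProperSpace E]

instance : CompactSpace (OO E) := isCompact_iff_compactSpace.1 <| by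
  convert isCompact_closedBall (0 : E) 1 using 1
  ext x; simp [OO]

instance : Finite (OO E ⧸ PP E) :=
  (PP E).toAddSubgroup.quotient_finite_of_isOpen (isOpen_lt continuous_subtype_val.norm continuous_const)

theorem exists_unif (h : ∃ x : E, x ≠ 0 ∧ ‖x‖ < 1) :
    ∃ π : E, π ≠ 0 ∧ ‖π‖ < 1 ∧ ∀ x : E, ‖x‖ < 1 → ‖x‖ ≤ ‖π‖ := by
  obtain ⟨x, hx, hx1⟩ := h
  have h1 : IsCompact (Metric.ball (0 : E) 1) := Metric.isCompact_of_isClosed_isBounded
    (IsUltrametricDist.isClosed_ball _ _) Metric.isBounded_ball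
  obtain ⟨π, h2, h3⟩ := h1.exists_isMaxOn ⟨0, by simp⟩ continuous_norm.continuousOn
  refine ⟨π, fun h4 => hx ?_, by simpa using h2, fun y hy => h3 (by simpa using hy)⟩
  have := h3 (show x ∈ Metric.ball (0 : E) 1 by simpa using hx1)
  simpa [h4] using this

/-- Teichmüller lift -/
theorem exists_teich {π x : E} (h1 : ‖π‖ < 1) (h2 : ∀ x : E, ‖x‖ < 1 → ‖x‖ ≤ ‖π‖) {q : ℕ}
    (hq : ‖(q : E)‖ < 1) (hx : ‖x‖ ≤ 1) (h : ‖x ^ q - x‖ < 1) : ∃ y : E, y ^ q = y ∧ ‖y - x‖ < 1 := by
  have hn : ∀ n : ℕ, ‖x ^ n‖ ≤ 1 := fun n => by rw [norm_pow]; exact pow_le_one₀ (norm_nonneg _) hx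
  have key : ∀ n : ℕ, ‖x ^ q ^ (n + 1) - x ^ q ^ n‖ ≤ ‖π‖ * ‖π‖ ^ n := fun n => by
    induction n with
    | zero => simpa using h2 _ h
    | succ n ih =>
      have h3 : ‖π‖ * ‖π‖ ^ n < 1 :=
        mul_lt_one_of_nonneg_of_lt_one_left (norm_nonneg _) h1 (pow_le_one₀ (norm_nonneg _) h1.le)
      rw [pow_succ q (n + 1), pow_mul, pow_succ q n, pow_mul x (q ^ n) q, ← pow_mul x (q ^ n) q,
        ← pow_succ, show x ^ q ^ (n + 1) = (x ^ q ^ n) ^ q by rw [← pow_mul, pow_succ],
        ← Commute.mul_geom_sum₂ (by rw [← pow_mul]; exact (Commute.refl x).pow_pow _ _), norm_mul,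
        ← pow_mul, ← pow_succ, pow_succ ‖π‖, ← mul_assoc]
      refine mul_le_mul ih (h2 _ ?_) (norm_nonneg _) (by positivity)
      have h4 := (geom_near (hn (q ^ n)) (hn (q ^ (n + 1))) q).trans_lt (ih.trans_lt h3)
      simpa using norm_add_lt_of h4 (show ‖(q : E) * (x ^ q ^ n) ^ (q - 1)‖ < 1 by
        rw [norm_mul, ← pow_mul]
        exact mul_lt_one_of_nonneg_of_lt_one_left (norm_nonneg _) hq (hn _))
  obtain ⟨y, hy⟩ := cauchySeq_tendsto_of_complete (cauchySeq_of_le_geometric ‖π‖ ‖π‖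
    (f := fun n => x ^ q ^ n) h1 fun n => by rw [dist_comm, dist_eq_norm]; exact key n)
  refine ⟨y, tendsto_nhds_unique (hy.pow q) ?_, ?_⟩
  · simpa only [← pow_mul, ← pow_succ] using (Filter.tendsto_add_atTop_iff_nat 1).2 hy
  · refine lt_of_le_of_lt (le_of_tendsto' (hy.sub_const x).norm fun n => ?_) h1
    induction n with
    | zero => simp
    | succ n ih =>
      exact tri_le ((key n).trans (mul_le_of_le_one_right (norm_nonneg _)
        (pow_le_one₀ (norm_nonneg _) h1.le))) ih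

theorem exists_res (h : ∃ x : E, x ≠ 0 ∧ ‖x‖ < 1) :
    ∃ π ζ : E, Res π ζ (Nat.card (OO E ⧸ PP E) - 1) := by
  obtain ⟨π, h0, h1, h2⟩ := exists_unif h
  let : Field (OO E ⧸ PP E) := (Finite.isDomain_to_isField _).toField
  let : Fintype (OO E ⧸ PP E) := Fintype.ofFinite _
  set q := Nat.card (OO E ⧸ PP E) with hq
  have hq2 : 1 < q := Finite.one_lt_card
  obtain ⟨g, hg⟩ := IsCyclic.exists_generator (α := (OO E ⧸ PP E)ˣ)
  obtain ⟨x, hx⟩ := Ideal.Quotient.mk_surjective (g : OO E ⧸ PP E)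
  have hqE : ‖(q : E)‖ < 1 := by
    have : Ideal.Quotient.mk (PP E) q = Ideal.Quotient.mk (PP E) 0 := by
      rw [map_natCast, map_zero, hq, Nat.card_eq_fintype_card, FiniteField.cast_card_eq_zero]
    simpa using mk_eq_iff.1 this
  obtain ⟨ζ, h3, h4⟩ := exists_teich h1 h2 hqE x.2 (by
    have : Ideal.Quotient.mk (PP E) (x ^ q) = Ideal.Quotient.mk (PP E) x := by
      rw [map_pow, hq, Nat.card_eq_fintype_card, FiniteField.pow_card]
    simpa using mk_eq_iff.1 this)
  have hz : ‖ζ‖ ≤ 1 := by simpa using norm_add_le_of h4.le x.2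
  have hζ : Ideal.Quotient.mk (PP E) ⟨ζ, hz⟩ = g := hx ▸ mk_eq_iff.2 h4
  have hζ0 : ζ ≠ 0 := fun h5 => g.ne_zero (hζ ▸ (mk_eq_iff (y := 0)).2 (by simp [h5]))
  have ho : orderOf g = q - 1 := by
    rw [orderOf_eq_card_of_forall_mem_zpowers hg, Nat.card_units]
  refine ⟨π, ζ, h0, h1, h2, by omega, mul_right_cancel₀ hζ0 ?_, fun i hi => ?_, fun y hy => ?_, ?_⟩
  · rw [← pow_succ, Nat.sub_add_cancel hq2.le, h3, one_mul]
  · rw [← ho, orderOf_dvd_iff_pow_eq_one, ← Units.val_eq_one, Units.val_pow_eq_pow_val, ← hζ, ← map_pow]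
    exact (mk_eq_iff (y := 1)).2 (by simpa using hi)
  · have h5 : Ideal.Quotient.mk (PP E) ⟨y, hy.le⟩ ≠ 0 := fun h6 => by
      simpa [hy] using (mk_eq_iff (y := 0)).1 h6
    obtain ⟨i, hi⟩ := (mem_powers_iff_mem_zpowers.2 (hg (Units.mk0 _ h5)))
    refine ⟨i, ?_⟩
    have h6 := congrArg Units.val hi
    simp only [Units.val_pow_eq_pow_val, Units.val_mk0] at h6
    rw [← hζ, ← map_pow] at h6
    simpa using mk_eq_iff.1 h6.symm
  · rwa [← Nat.cast_succ, Nat.succ_eq_add_one, Nat.sub_add_cancel hq2.le]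

end res

end Crest.Agent.T24.Loc
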