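import Crest.Agent.T24.Def_26
import Crest.Agent.T24.LocA_59

/-!
# Row 24: the `S`-arithmetic words (base change, local groups, orders, split places).
-/

set_option autoImplicit false
set_option linter.unusedSectionVars false

noncomputable section

namespace Crest.Agent.T24

open Module NumberField IsDedekindDomain WithZero Csa Asa Topology
open scoped NumberField TensorProduct

universe u v w

/-- the archimedean completion, as a `k`-algebra -/
def Inf (k : Type*) [Field k] : Type _ := mixedEmbedding.mixedSpace k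

namespace Inf
variable (k : Type*) [Field k] [NumberField k]
open scoped Classical in
instance : NormedCommRing (Inf k) := inferInstanceAs (NormedCommRing (mixedEmbedding.mixedSpace k))
open scoped Classical in
instance : NormedAlgebra ℝ (Inf k) := inferInstanceAs (NormedAlgebra ℝ (mixedEmbedding.mixedSpace k))
instance : FiniteDimensional ℝ (Inf k) :=
  inferInstanceAs (FiniteDimensional ℝ (mixedEmbedding.mixedSpace k))
instance : ProperSpace (Inf k) := FiniteDimensional.proper ℝ _
instance : IsTopologicalRing (Inf k) := inferInstance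
instance : T2Space (Inf k) := TopologicalSpace.t2Space_of_metrizableSpace
instance : LocallyCompactSpace (Inf k) := locallyCompact_of_proper
instance : SecondCountableTopology (Inf k) := secondCountable_of_proper
instance : Algebra k (Inf k) := RingHom.toAlgebra (S := Inf k) (mixedEmbedding k)
theorem algebraMap_eq (x : k) : algebraMap k (Inf k) x = mixedEmbedding k x := rfl
end Inf

/-- the completion at a finite place -/
abbrev Kv {k : Type*} [Field k] [NumberField k] (v : Pl k) : Type _ := v.adicCompletion k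

namespace Kv
variable {k : Type*} [Field k] [NumberField k] (v : Pl k)
open scoped Valued
instance : IsTopologicalRing (Kv v) := inferInstance
instance : T2Space (Kv v) := TopologicalSpace.t2Space_of_metrizableSpace
instance : LocallyCompactSpace (Kv v) := haveI := Loc.proper_adic k v; locallyCompact_of_proper
instance : SecondCountableTopology (Kv v) := haveI := Loc.proper_adic k v; secondCountable_of_proper
end Kv

/-- base change along `k → R` (`K` is a phantom argument) -/
@[nolint unusedArguments]
def BC (k _K B R : Type*) [Field k] [Ring B] [Algebra k B] [CommRing R] [Algebra k R] : Type _ :=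
  R ⊗[k] B

section Star
variable (k K B : Type*) [Field k] [Field K] [Algebra k K] [StarRing K] [Quad k K] [Ring B]
  [StarRing B] [Algebra K B] [StarModule K B] [Algebra k B] [IsScalarTower k K B]

include K in
theorem star_ksmul (c : k) (b : B) : star (c • b) = c • star b := by
  rw [← algebraMap_smul K c b, star_smul, Quad.star_k, algebraMap_smul]

/-- `star` as a `k`-linear map -/
def starL : B →ₗ[k] B where
  toFun := star
  map_add' := star_add
  map_smul' := star_ksmul k K B

theorem finite_kK : Module.Finite k K :=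
  Module.finite_of_finrank_pos (by rw [Quad.fr (k := k) (K := K)]; norm_num)

include K in
theorem finite_kB [FiniteDimensional K B] : Module.Finite k B :=
  haveI := finite_kK k K
  Module.Finite.trans K B

end Star

namespace BC
section
variable (k K B R : Type*) [Field k] [Ring B] [Algebra k B] [CommRing R] [Algebra k R]
instance : Ring (BC k K B R) := inferInstanceAs (Ring (R ⊗[k] B))
instance : Algebra R (BC k K B R) := inferInstanceAs (Algebra R (R ⊗[k] B))
instance : Algebra k (BC k K B R) := inferInstanceAs (Algebra k (R ⊗[k] B))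
instance : IsScalarTower k R (BC k K B R) := inferInstanceAs (IsScalarTower k R (R ⊗[k] B))
instance [TopologicalSpace R] : TopologicalSpace (BC k K B R) := moduleTopology R _
instance [TopologicalSpace R] : IsModuleTopology R (BC k K B R) := ⟨rfl⟩

/-- `b ↦ 1 ⊗ b` -/
def inc : B →ₐ[k] BC k K B R := Algebra.TensorProduct.includeRight

variable {k B R} in
/-- pure tensors -/
def tm (r : R) (b : B) : BC k K B R := r ⊗ₜ[k] b

variable {k K B R} in
theorem tm_eq (r : R) (b : B) : tm K r b = r • inc k K B R b := by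
  change r ⊗ₜ[k] b = r • ((1 : R) ⊗ₜ[k] b)
  rw [TensorProduct.smul_tmul', smul_eq_mul, mul_one]

variable {k K B R} in
@[elab_as_elim] theorem ind {p : BC k K B R → Prop} (x : BC k K B R) (h0 : p 0)
    (h1 : ∀ (r : R) (b : B), p (r • inc k K B R b)) (h2 : ∀ x y, p x → p y → p (x + y)) : p x :=
  TensorProduct.induction_on (motive := p) x h0
    (fun r b => by have := h1 r b; rwa [← tm_eq] at this) h2

/-- the basis attached to a `k`-basis of `B` -/
def bas {ι : Type*} (e : Basis ι k B) : Basis ι R (BC k K B R) := Algebra.TensorProduct.basis R e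

theorem bas_apply {ι : Type*} (e : Basis ι k B) (i : ι) : bas k K B R e i = inc k K B R (e i) :=
  Algebra.TensorProduct.basis_apply e i

/-- functoriality -/
def map {R' : Type*} [CommRing R'] [Algebra k R'] (f : R →ₐ[k] R') :
    BC k K B R →ₐ[k] BC k K B R' := Algebra.TensorProduct.map f (AlgHom.id k B)

end

variable (k K B R : Type*) [Field k] [Field K] [Algebra k K] [StarRing K] [Quad k K] [Ring B]
  [StarRing B] [Algebra K B] [StarModule K B] [Algebra k B] [IsScalarTower k K B]
  [CommRing R] [Algebra k R]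

/-- `1 ⊗ star` -/
def starR : BC k K B R →ₗ[R] BC k K B R := (starL k K B).baseChange R

theorem starR_inc (b : B) : starR k K B R (inc k K B R b) = inc k K B R (star b) := rfl

instance : StarRing (BC k K B R) where
  star := starR k K B R
  star_involutive x := by
    refine ind x (by simp) (fun r b => ?_) (fun x y hx hy => ?_)
    · rw [map_smul, map_smul, starR_inc, starR_inc, star_star]
    · rw [map_add, map_add, hx, hy]
  star_mul x y := by
    change starR k K B R (x * y) = starR k K B R y * starR k K B R x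
    refine ind x (by simp) (fun r b => ?_) (fun x x' hx hx' => ?_)
    · refine ind y (by simp) (fun r' b' => ?_) (fun y y' hy hy' => ?_)
      · rw [smul_mul_smul_comm, ← map_mul, map_smul, map_smul, map_smul, starR_inc, starR_inc,
          starR_inc, star_mul, map_mul, smul_mul_smul_comm, mul_comm r]
      · rw [mul_add, map_add, hy, hy', map_add, add_mul]
    · rw [add_mul, map_add, hx, hx', map_add, mul_add]
  star_add := map_add (starR k K B R)

variable {k K B R} in
theorem star_def (x : BC k K B R) : star x = starR k K B R x := rfl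

variable {k K B R} in
@[simp] theorem star_inc (b : B) : star (inc k K B R b) = inc k K B R (star b) := rfl

variable {k K B R} in
@[simp] theorem star_rsmul (r : R) (x : BC k K B R) : star (r • x) = r • star x :=
  map_smul (starR k K B R) r x

variable [FiniteDimensional K B]

instance : Module.Finite R (BC k K B R) :=
  haveI := finite_kB k K B
  inferInstanceAs (Module.Finite R (R ⊗[k] B))

variable [TopologicalSpace R] [IsTopologicalRing R]

instance : IsTopologicalRing (BC k K B R) := IsModuleTopology.isTopologicalRing R _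

instance : ContinuousStar (BC k K B R) :=
  ⟨IsModuleTopology.continuous_of_linearMap (starR k K B R)⟩

/-- coordinates in a finite `k`-basis of `B` -/
def crd {ι : Type*} [Finite ι] (e : Basis ι k B) : BC k K B R ≃L[R] (ι → R) :=
  { (bas k K B R e).equivFun with
    continuous_toFun := IsModuleTopology.continuous_of_linearMap (bas k K B R e).equivFun.toLinearMap
    continuous_invFun :=
      IsModuleTopology.continuous_of_linearMap (bas k K B R e).equivFun.symm.toLinearMap }

/-- the standard coordinates -/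
def crd₀ : BC k K B R ≃L[R] (Fin (finrank k B) → R) :=
  haveI := finite_kB k K B
  crd k K B R (finBasis k B)

instance [T2Space R] : T2Space (BC k K B R) := (crd₀ k K B R).toHomeomorph.symm.t2Space

instance [LocallyCompactSpace R] : LocallyCompactSpace (BC k K B R) :=
  (crd₀ k K B R).toHomeomorph.isClosedEmbedding.locallyCompactSpace

instance [SecondCountableTopology R] : SecondCountableTopology (BC k K B R) :=
  (crd₀ k K B R).toHomeomorph.isInducing.secondCountableTopology

end BC

section Loc
variable (k K B : Type*) [Field k] [NumberField k] [Field K] [NumberField K] [Algebra k K]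
  [StarRing K] [Quad k K] [Ring B] [StarRing B] [Algebra K B] [StarModule K B]
  [Algebra.IsCentral K B] [IsSimpleRing B] [FiniteDimensional K B] [Algebra k B]
  [IsScalarTower k K B]

section
variable (R : Type*) [CommRing R] [Algebra k R]

/-- the standard splitting after base change -/
def spR : BC k K B R →ₐ[R]
    Matrix (Fin (deg K B)) (Fin (deg K B)) (R ⊗[k] AlgebraicClosure K) :=
  Algebra.TensorProduct.lift (Algebra.ofId R _)
    ((Algebra.TensorProduct.includeRight (R := k) (A := R)
      (B := AlgebraicClosure K)).mapMatrix.comp ((sp K B).restrictScalars k))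
    (fun r _ => Algebra.commutes r _)

theorem spR_inc (b : B) : spR k K B R (BC.inc k K B R b) =
    (sp K B b).map (fun x => (1 : R) ⊗ₜ[k] x) := by
  change Algebra.TensorProduct.lift _ _ _ ((1 : R) ⊗ₜ[k] b) = _
  rw [Algebra.TensorProduct.lift_tmul, map_one, one_mul]; rfl

/-- the reduced norm after base change -/
def nrd : BC k K B R →* R ⊗[k] AlgebraicClosure K :=
  Matrix.detMonoidHom.comp (spR k K B R).toRingHom.toMonoidHom

theorem nrd_def (x : BC k K B R) : nrd k K B R x = (spR k K B R x).det := rfl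

theorem nrd_inc (b : B) : nrd k K B R (BC.inc k K B R b) =
    (1 : R) ⊗ₜ[k] algebraMap K (AlgebraicClosure K) (Nrd K b) := by
  rw [nrd_def, spR_inc, ← det_eq (sp K B) sp_card b]
  exact ((Algebra.TensorProduct.includeRight (R := k) (A := R)
    (B := AlgebraicClosure K)).toRingHom.map_det _).symm

/-- the local unitary group -/
abbrev Uc : Type _ := unitary (BC k K B R)

/-- the local special unitary group -/
def SUc : Subgroup (Uc k K B R) where
  carrier := {u | nrd k K B R (u : BC k K B R) = 1}
  one_mem' := by simp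
  mul_mem' {a b} ha hb := by
    simp only [Set.mem_ofPred_eq, Submonoid.coe_mul, map_mul] at *; rw [ha, hb, one_mul]
  inv_mem' {a} ha := by
    simp only [Set.mem_ofPred_eq] at *
    have : nrd k K B R ((a⁻¹ * a : Uc k K B R) : BC k K B R) = 1 := by simp
    rwa [Submonoid.coe_mul, map_mul, ha, mul_one] at this

variable {k K B R} in
theorem mem_SUc {u : Uc k K B R} : u ∈ SUc k K B R ↔ nrd k K B R (u : BC k K B R) = 1 := Iff.rfl

section Top
variable [TopologicalSpace R] [IsTopologicalRing R]

theorem continuous_nrd (l : R ⊗[k] AlgebraicClosure K →ₗ[R] R) :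
    Continuous fun x : BC k K B R => l (nrd k K B R x) := by
  haveI := finite_kB k K B
  let e := BC.bas k K B R (finBasis k B)
  have hc : ∀ j, Continuous fun x : BC k K B R => e.repr x j := fun j =>
    IsModuleTopology.continuous_of_linearMap (e.coord j)
  have : (fun x : BC k K B R => l (nrd k K B R x)) = fun x =>
      ∑ σ : Equiv.Perm (Fin (deg K B)), ∑ f : Fin (deg K B) → Fin (finrank k B),
        (∏ i, e.repr x (f i)) * l (Equiv.Perm.sign σ • ∏ i, spR k K B R (e (f i)) (σ i) i) := by
    funext x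
    rw [nrd_def, Matrix.det_apply, map_sum]
    refine Finset.sum_congr rfl fun σ _ => ?_
    have h1 : ∀ i, spR k K B R x (σ i) i = ∑ j, e.repr x j • spR k K B R (e j) (σ i) i := fun i => by
      conv_lhs => rw [← e.sum_repr x, map_sum]
      simp [Matrix.sum_apply]
    simp only [h1]
    rw [Finset.prod_univ_sum, Fintype.piFinset_univ, Finset.smul_sum, map_sum]
    refine Finset.sum_congr rfl fun f _ => ?_
    rw [Finset.prod_smul, smul_comm, map_smul, smul_eq_mul]
  rw [this]
  fun_prop

instance : IsTopologicalGroup (Uc k K B R) := inferInstance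
instance : IsTopologicalGroup (SUc k K B R) := inferInstance

variable [T2Space R]

theorem isClosed_nrd (y : R ⊗[k] AlgebraicClosure K) :
    IsClosed {x : BC k K B R | nrd k K B R x = y} := by
  let e := Algebra.TensorProduct.basis R (Basis.ofVectorSpace k (AlgebraicClosure K))
  have : {x : BC k K B R | nrd k K B R x = y} =
      ⋂ j, {x | e.coord j (nrd k K B R x) = e.coord j y} := by
    ext x
    simp only [Set.mem_ofPred_eq, Set.mem_iInter]
    exact ⟨fun h j => by rw [h], fun h => e.ext_elem h⟩
  rw [this]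
  exact isClosed_iInter fun j => isClosed_eq (continuous_nrd k K B R _) continuous_const

theorem isClosed_SUc : IsClosed (SUc k K B R : Set (Uc k K B R)) :=
  (isClosed_nrd k K B R 1).preimage continuous_subtype_val

instance : T2Space (Uc k K B R) := Topology.IsEmbedding.subtypeVal.t2Space
instance : T2Space (SUc k K B R) := Topology.IsEmbedding.subtypeVal.t2Space
instance [LocallyCompactSpace R] : LocallyCompactSpace (Uc k K B R) :=
  (isClosed_unitary (R := BC k K B R)).isClosedEmbedding_subtypeVal.locallyCompactSpace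
instance [LocallyCompactSpace R] : LocallyCompactSpace (SUc k K B R) :=
  (isClosed_SUc k K B R).isClosedEmbedding_subtypeVal.locallyCompactSpace
instance [SecondCountableTopology R] : SecondCountableTopology (Uc k K B R) :=
  Topology.IsInducing.subtypeVal.secondCountableTopology
instance [SecondCountableTopology R] : SecondCountableTopology (SUc k K B R) :=
  Topology.IsInducing.subtypeVal.secondCountableTopology

end Top

/-- rational points in local points -/
def toU : unitary B →* Uc k K B R where
  toFun u := ⟨BC.inc k K B R u, by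
    rw [Unitary.mem_iff, BC.star_inc, ← map_mul, ← map_mul, u.2.1, u.2.2, map_one]; simp⟩
  map_one' := Subtype.ext (map_one _)
  map_mul' a b := Subtype.ext (map_mul _ _ _)

@[simp] theorem coe_toU (u : unitary B) : (toU k K B R u : BC k K B R) = BC.inc k K B R u := rfl

/-- rational points in local points -/
def toG : SU K B →* SUc k K B R where
  toFun g := ⟨toU k K B R g, by
    rw [mem_SUc, coe_toU, nrd_inc, mem_SU.1 g.2, map_one]; rfl⟩
  map_one' := Subtype.ext (map_one _)
  map_mul' a b := Subtype.ext (map_mul _ _ _)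

@[simp] theorem coe_toG (g : SU K B) :
    ((toG k K B R g : Uc k K B R) : BC k K B R) = BC.inc k K B R ((g : unitary B) : B) := rfl

end

/-- `U(k_∞) × ∏_{v ∈ S} U(k_v)` -/
abbrev US (S : Finset (Pl k)) : Type _ := Uc k K B (Inf k) × ((v : S) → Uc k K B (Kv v.1))

/-- `G(k_∞) × ∏_{v ∈ S} G(k_v)` -/
abbrev GS (S : Finset (Pl k)) : Type _ := SUc k K B (Inf k) × ((v : S) → SUc k K B (Kv v.1))

instance (S : Finset (Pl k)) : IsTopologicalGroup (US k K B S) := Prod.instIsTopologicalGroup
instance (S : Finset (Pl k)) : IsTopologicalGroup (GS k K B S) := Prod.instIsTopologicalGroup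
instance (S : Finset (Pl k)) : T2Space (US k K B S) := Prod.t2Space
instance (S : Finset (Pl k)) : T2Space (GS k K B S) := Prod.t2Space
instance (S : Finset (Pl k)) : LocallyCompactSpace (US k K B S) := Prod.locallyCompactSpace _ _
instance (S : Finset (Pl k)) : LocallyCompactSpace (GS k K B S) := Prod.locallyCompactSpace _ _
instance (S : Finset (Pl k)) : SecondCountableTopology (US k K B S) :=
  TopologicalSpace.instSecondCountableTopologyProd
instance (S : Finset (Pl k)) : SecondCountableTopology (GS k K B S) :=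
  TopologicalSpace.instSecondCountableTopologyProd

/-- the diagonal embedding -/
def jU (S : Finset (Pl k)) : unitary B →* US k K B S :=
  (toU k K B (Inf k)).prod (MonoidHom.pi fun v => toU k K B (Kv v.1))

/-- the diagonal embedding -/
def jS (S : Finset (Pl k)) : SU K B →* GS k K B S :=
  (toG k K B (Inf k)).prod (MonoidHom.pi fun v => toG k K B (Kv v.1))

/-- the anisotropic places of `k` -/
def Tk : Set (Pl k) := {v | ∃ w ∈ TT K B, below k w = v}

/-- a star-stable order -/
structure Ord where
  /-- the ring -/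
  O : Subring B
  star_mem : ∀ x ∈ O, star x ∈ O
  fg : O.toAddSubgroup.FG
  den : ∀ x : B, ∃ n : ℕ, n ≠ 0 ∧ (n : B) * x ∈ O
  int : ∀ c : 𝓞 K, algebraMap K B c ∈ O

variable {k K B}

/-- integrality at `v` -/
def Ord.At (Λ : Ord K B) (v : Pl k) : Subring B where
  carrier := {x | ∃ c : 𝓞 k, c ∉ v.asIdeal ∧ (c : k) • x ∈ Λ.O}
  one_mem' := ⟨1, (Ideal.ne_top_iff_one _).1 v.isPrime.ne_top, by simp⟩
  zero_mem' := ⟨1, (Ideal.ne_top_iff_one _).1 v.isPrime.ne_top, by simp⟩
  neg_mem' := fun ⟨c, h1, h2⟩ => ⟨c, h1, by simpa using Λ.O.neg_mem h2⟩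
  mul_mem' := fun ⟨c, h1, h2⟩ ⟨c', h1', h2'⟩ =>
    ⟨c * c', fun h => (v.isPrime.mem_or_mem h).elim h1 h1', by
      have := Λ.O.mul_mem h2 h2'
      rw [smul_mul_smul_comm] at this
      simpa using this⟩
  add_mem' := fun {a b} ⟨c, h1, h2⟩ ⟨c', h1', h2'⟩ =>
    ⟨c * c', fun h => (v.isPrime.mem_or_mem h).elim h1 h1', by
      have key : ∀ (d : 𝓞 k) (x : B), x ∈ Λ.O → (d : k) • x ∈ Λ.O := fun d x hx => by
        have := Λ.O.mul_mem (Λ.int (algebraMap (𝓞 k) (𝓞 K) d)) hx
        rwa [← Algebra.smul_def, show ((algebraMap (𝓞 k) (𝓞 K) d : 𝓞 K) : K) =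
          algebraMap k K (d : k) from rfl, algebraMap_smul] at this
      have := Λ.O.add_mem (key c' _ h2) (key c _ h2')
      rw [smul_smul, smul_smul, mul_comm (c' : k), ← smul_add] at this
      simpa using this⟩

theorem Ord.star_mem_At (Λ : Ord K B) (v : Pl k) {x : B} (h : x ∈ Λ.At v) : star x ∈ Λ.At v := by
  obtain ⟨c, h1, h2⟩ := h
  exact ⟨c, h1, by rw [← star_ksmul k K B]; exact Λ.star_mem _ h2⟩

/-- integrality off `S` -/
def Ord.Off (Λ : Ord K B) (S : Finset (Pl k)) : Subring B := ⨅ v ∉ S, Λ.At v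

theorem Ord.mem_Off {Λ : Ord K B} {S : Finset (Pl k)} {x : B} :
    x ∈ Λ.Off S ↔ ∀ v ∉ S, x ∈ Λ.At v := by simp [Ord.Off, Subring.mem_iInf]

/-- the `S`-arithmetic subgroup of `U` -/
def Ord.GamU (Λ : Ord K B) (S : Finset (Pl k)) : Subgroup (unitary B) where
  carrier := {u | (u : B) ∈ Λ.Off S}
  one_mem' := (Λ.Off S).one_mem
  mul_mem' ha hb := (Λ.Off S).mul_mem ha hb
  inv_mem' ha := Ord.mem_Off.2 fun v hv => Λ.star_mem_At v (Ord.mem_Off.1 ha v hv)

/-- the `S`-arithmetic subgroup of `SU` -/
def Ord.Gam (Λ : Ord K B) (S : Finset (Pl k)) : Subgroup (SU K B) :=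
  (Λ.GamU S).subgroupOf (SU K B)

variable (K B) in
/-- a splitting of `B` at a split place -/
structure Spl (v : Pl k) where
  /-- the embedding of `K` -/
  ι : K →ₐ[k] Kv v
  /-- the splitting -/
  ψ : B →+* Matrix (Fin (deg K B)) (Fin (deg K B)) (Kv v)
  compat : ∀ c : K, ψ (algebraMap K B c) = algebraMap (Kv v) _ (ι c)

theorem Spl.det_eq {v : Pl k} (s : Spl K B v) (b : B) : (s.ψ b).det = s.ι (Nrd K b) :=
  det_eq' (s.ι : K →+* Kv v) s.ψ s.compat sp_card b

/-- the component in `SL_d(k_v)` -/
def Spl.toSL {v : Pl k} (s : Spl K B v) :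
    SU K B →* Matrix.SpecialLinearGroup (Fin (deg K B)) (Kv v) where
  toFun g := ⟨s.ψ ((g : unitary B) : B), by rw [s.det_eq, mem_SU.1 g.2, map_one]⟩
  map_one' := Subtype.ext (map_one _)
  map_mul' a b := Subtype.ext (map_mul _ _ _)

/-- the splitting identifies the order with `M_d(O_v) × M_d(O_v)` -/
def Spl.Good {v : Pl k} (s : Spl K B v) (Λ : Ord K B) : Prop :=
  ∀ x : B, x ∈ Λ.At v ↔ (∀ i j, s.ψ x i j ∈ v.adicCompletionIntegers k) ∧
    ∀ i j, s.ψ (star x) i j ∈ v.adicCompletionIntegers k

variable (k K B)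

/-- orders exist, and good split places outside any finite set -/
def SplEx : Prop := Nonempty (Ord K B) ∧
  ∀ (Λ : Ord K B) (S : Finset (Pl k)), ∃ v ∉ S, ∃ s : Spl K B v, s.Good Λ

/-- the local group at a split place -/
def SplIso : Prop := ∀ (v : Pl k) (s : Spl K B v),
  ∃ e : SUc k K B (Kv v) ≃ₜ* Matrix.SpecialLinearGroup (Fin (deg K B)) (Kv v),
    ∀ g : SU K B, e (toG k K B (Kv v) g) = s.toSL g

open scoped Classical in
/-- discreteness and cocompactness -/
def Coc : Prop := ∀ (Λ : Ord K B) (S : Finset (Pl k)),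
  (∃ V ∈ 𝓝 (1 : US k K B S), ∀ γ ∈ Λ.GamU S, jU k K B S γ ∈ V → γ = 1) ∧
  (∃ C : Set (US k K B S), IsCompact C ∧ ∀ x, ∃ γ ∈ Λ.GamU S, (jU k K B S γ)⁻¹ * x ∈ C) ∧
  (∃ C : Set (GS k K B S), IsCompact C ∧ ∀ x, ∃ γ ∈ Λ.Gam S, (jS k K B S γ)⁻¹ * x ∈ C) ∧
  ∀ v ∉ S, ∀ s : Spl K B v,
    (∃ V₁ ∈ 𝓝 (1 : Matrix.SpecialLinearGroup (Fin (deg K B)) (Kv v)), ∃ V₂ ∈ 𝓝 (1 : GS k K B S),
      ∀ γ ∈ Λ.Gam (insert v S), s.toSL γ ∈ V₁ → jS k K B S γ ∈ V₂ → γ = 1) ∧
    ∃ C₁ C₂, IsCompact C₁ ∧ IsCompact C₂ ∧ ∀ x₁ x₂, ∃ γ ∈ Λ.Gam (insert v S),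
      (s.toSL γ)⁻¹ * x₁ ∈ C₁ ∧ (jS k K B S γ)⁻¹ * x₂ ∈ C₂

/-- local almost simplicity off `T` -/
def LocG : Prop :=
  (∀ H : Subgroup (SUc k K B (Inf k)), IsOpen (H : Set (SUc k K B (Inf k))) → H = ⊤) ∧
  ∀ v ∉ Tk k K B, ∀ H : Subgroup (SUc k K B (Kv v)), IsOpen (H : Set (SUc k K B (Kv v))) →
    H.Normal → H = ⊤

/-- depth at `T` is the `k_v`-topology -/
def TLink : Prop := ∀ v ∈ Tk k K B, CompactSpace (SUc k K B (Kv v)) ∧
  (∀ V ∈ 𝓝 (0 : BC k K B (Kv v)), ∃ m : ℕ, ∀ x : B,
    (∀ w ∈ TT K B, below k w = v → val w x < exp (-(m : ℤ))) → BC.inc k K B (Kv v) x ∈ V) ∧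
  ∀ m : ℕ, ∃ V ∈ 𝓝 (0 : BC k K B (Kv v)), ∀ x : B, BC.inc k K B (Kv v) x ∈ V →
    ∀ w ∈ TT K B, below k w = v → val w x < exp (-(m : ℤ))

open scoped Classical in
/-- strong approximation for a non-central normal subgroup -/
def Sa : Prop := ∀ (N : Subgroup (unitary B)), NC K N → ∀ (Λ : Ord K B) (v₀ : Pl k),
  Nonempty (Spl K B v₀) → ∃ V : (v : Pl k) → Subgroup (SUc k K B (Kv v)),
    (∀ v, IsOpen (V v : Set (SUc k K B (Kv v)))) ∧ (∀ v ∉ Tk k K B, V v = ⊤) ∧
    ∀ S : Finset (Pl k), v₀ ∉ S → ∀ g : GS k K B S, (∀ v : S, g.2 v ∈ V v) →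
      g ∈ closure (jS k K B S '' {γ | γ ∈ Λ.Gam (insert v₀ S) ∧ (γ : unitary B) ∈ N})

end Loc

def SplExStmt : Prop := ∀ D : Dat.{u, v, w}, SplEx D.k D.K D.B
def SplIsoStmt : Prop := ∀ D : Dat.{u, v, w}, SplIso D.k D.K D.B
def CocStmt : Prop := ∀ D : Dat.{u, v, w}, Aniso D.B → Coc D.k D.K D.B
def LocGStmt : Prop := ∀ D : Dat.{u, v, w}, 3 ≤ deg D.K D.B → LocG D.k D.K D.B
def TLinkStmt : Prop := ∀ D : Dat.{u, v, w}, 2 ≤ deg D.K D.B → TLink D.k D.K D.B
def SaStmt : Prop := ∀ D : Dat.{u, v, w}, 3 ≤ deg D.K D.B → Aniso D.B → Sa D.k D.K D.B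

end Crest.Agent.T24
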