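import Mathlib
import Crest.Agent.T24.AbDef_13

/-!
# Row 24 (helper53): the archimedean embedding of a central division algebra
-/

set_option autoImplicit false

noncomputable section

namespace Crest.Agent.T24.Ab

open NumberField Module
open scoped TensorProduct

universe u v

namespace Ar53

section LI

variable {F D E A : Type*} [Field F] [DivisionRing D] [Algebra F D] [Algebra.IsCentral F D]
  [Field E] [Algebra F E]

/-- a relation `∑ ψ(l k) φ(d k) = 0` with `F`-independent `l k` is trivial -/
theorem indep_aux [Ring A] [Nontrivial A] (ψ : E →+* A) (φ : D →+* A)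
    (hc : ∀ e d, ψ e * φ d = φ d * ψ e)
    (hF : ∀ c : F, φ (algebraMap F D c) = ψ (algebraMap F E c))
    {κ : Type*} (l : κ → E) (hl : LinearIndependent F l) (s : Finset κ) :
    ∀ d : κ → D, ∑ k ∈ s, ψ (l k) * φ (d k) = 0 → ∀ k ∈ s, d k = 0 := by
  classical
  induction s using Finset.strongInduction with
  | H s ih =>
    intro d hd a ha
    by_contra hne
    obtain ⟨d', hd'⟩ : ∃ d' : κ → D, d' = fun k => d k * (d a)⁻¹ := ⟨_, rfl⟩
    have h1 : d' a = 1 := by rw [hd']; exact mul_inv_cancel₀ hne
    have hs : ∑ k ∈ s, ψ (l k) * φ (d' k) = 0 := by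
      have : ∑ k ∈ s, ψ (l k) * φ (d' k) = (∑ k ∈ s, ψ (l k) * φ (d k)) * φ (d a)⁻¹ := by
        rw [Finset.sum_mul]
        refine Finset.sum_congr rfl fun k _ => ?_
        simp only [hd', map_mul, mul_assoc]
      rw [this, hd, zero_mul]
    have hcen : ∀ k ∈ s, ∃ c : F, d' k = algebraMap F D c := by
      intro k hk
      rw [← Algebra.IsCentral.mem_center_iff, Subalgebra.mem_center_iff]
      intro x
      by_cases hka : k = a
      · rw [hka, h1, mul_one, one_mul]
      have h2 : ∑ k ∈ s, ψ (l k) * φ (x * d' k - d' k * x) = 0 := by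
        have : ∑ k ∈ s, ψ (l k) * φ (x * d' k - d' k * x) =
            φ x * (∑ k ∈ s, ψ (l k) * φ (d' k)) - (∑ k ∈ s, ψ (l k) * φ (d' k)) * φ x := by
          rw [Finset.mul_sum, Finset.sum_mul, ← Finset.sum_sub_distrib]
          refine Finset.sum_congr rfl fun k _ => ?_
          rw [map_sub, map_mul, map_mul, mul_sub, ← mul_assoc, hc, mul_assoc, mul_assoc]
        rw [this, hs, mul_zero, zero_mul, sub_zero]
      rw [← Finset.add_sum_erase _ _ ha, h1, mul_one, one_mul, sub_self, map_zero, mul_zero,
        zero_add] at h2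
      have := ih (s.erase a) (Finset.erase_ssubset ha) (fun k => x * d' k - d' k * x) h2 k
        (Finset.mem_erase.2 ⟨hka, hk⟩)
      exact sub_eq_zero.1 this
    choose! c hcs using hcen
    have h3 : ψ (∑ k ∈ s, c k • l k) = 0 := by
      rw [← hs, map_sum]
      refine Finset.sum_congr rfl fun k hk => ?_
      rw [hcs k hk, hF, Algebra.smul_def, mul_comm, map_mul]
    have h4 : ∑ k ∈ s, c k • l k = 0 := (map_eq_zero ψ).1 h3
    have h5 : c a = 0 := linearIndependent_iff'.1 hl s c h4 a ha
    have := hcs a ha
    rw [h1, h5, map_zero] at this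
    exact one_ne_zero this

/-- every ring homomorphism from `E ⊗ D` to a nontrivial ring is injective -/
theorem inj [Ring A] [Nontrivial A] (f : E ⊗[F] D →+* A) : Function.Injective f := by
  classical
  rw [injective_iff_map_eq_zero]
  intro t ht
  let B := Basis.ofVectorSpace F E
  obtain ⟨c, rfl⟩ := TensorProduct.eq_repr_basis_left B t
  let ψ : E →+* A := f.comp (Algebra.TensorProduct.includeLeftRingHom)
  let φ : D →+* A := f.comp (Algebra.TensorProduct.includeRight (R := F) (A := E)).toRingHom
  have hm : ∀ e d, ψ e * φ d = f (e ⊗ₜ d) := by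
    intro e d
    simp [ψ, φ, ← map_mul]
  have hm' : ∀ e d, φ d * ψ e = f (e ⊗ₜ d) := by
    intro e d
    simp [ψ, φ, ← map_mul]
  have h0 := indep_aux (F := F) ψ φ (fun e d => by rw [hm, hm']) (fun c => by
    simp only [ψ, φ, RingHom.comp_apply]
    congr 1
    simp [Algebra.algebraMap_eq_smul_one, TensorProduct.smul_tmul]) B B.linearIndependent
    c.support c (by
      rw [← ht, Finsupp.sum, map_sum]
      exact Finset.sum_congr rfl fun k _ => hm _ _)
  rw [Finsupp.sum]
  exact Finset.sum_eq_zero fun k hk => by rw [h0 k hk, TensorProduct.tmul_zero]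

/-- base change of a central division algebra is simple -/
theorem simple : IsSimpleRing (E ⊗[F] D) := by
  refine IsSimpleRing.of_eq_bot_or_eq_top fun I => ?_
  rcases subsingleton_or_nontrivial I.ringCon.Quotient with h | h
  · exact Or.inr (le_antisymm le_top fun x _ => I.mem_iff _ |>.2 (Quotient.eq'.1 (h.elim x 0)))
  · have hi := inj (F := F) (E := E) (D := D) I.ringCon.mk'
    exact Or.inl (le_antisymm
      (fun _ hx => TwoSidedIdeal.ker_eq_bot _ |>.2 hi ▸ I.ker_ringCon_mk'.symm ▸ hx) bot_le)

/-- an algebraically closed field splits `D` -/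
theorem exists_split [IsAlgClosed E] (n : ℕ) (hn : 0 < n) (h : finrank F D = n ^ 2) :
    ∃ φ : D →+* Matrix (Fin n) (Fin n) E,
      ∀ c : F, φ (algebraMap F D c) = Matrix.scalar (Fin n) (algebraMap F E c) := by
  have : Module.Finite F D := Module.finite_of_finrank_pos (by rw [h]; positivity)
  have := simple (F := F) (D := D) (E := E)
  obtain ⟨k, -, ⟨e⟩⟩ := IsSimpleRing.exists_algEquiv_matrix_of_isAlgClosed E (E ⊗[F] D)
  have hk : k = n := by
    have h1 := e.toLinearEquiv.finrank_eq
    rw [Module.finrank_baseChange, h, Module.finrank_matrix] at h1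
    simp only [Fintype.card_fin, finrank_self, mul_one] at h1
    rw [sq] at h1
    exact (Nat.mul_self_inj.1 h1).symm
  subst hk
  refine ⟨e.toRingEquiv.toRingHom.comp
    (Algebra.TensorProduct.includeRight (R := F) (A := E)).toRingHom, fun c => ?_⟩
  have : (Algebra.TensorProduct.includeRight (R := F) (A := E) (algebraMap F D c) : E ⊗[F] D) =
      algebraMap E (E ⊗[F] D) (algebraMap F E c) := by
    rw [AlgHom.commutes, IsScalarTower.algebraMap_apply F E (E ⊗[F] D)]
  simp only [RingHom.comp_apply, AlgHom.toRingHom_eq_coe, RingHom.coe_coe, this]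
  exact e.commutes _

/-- the image of `D` spans the matrix algebra -/
theorem span_top (n : ℕ) (hn : 0 < n) (h : finrank F D = n ^ 2)
    (φ : D →+* Matrix (Fin n) (Fin n) E)
    (hφ : ∀ c : F, φ (algebraMap F D c) = Matrix.scalar (Fin n) (algebraMap F E c)) :
    Submodule.span E (Set.range φ) = ⊤ := by
  have : Module.Finite F D := Module.finite_of_finrank_pos (by rw [h]; positivity)
  have : Nonempty (Fin n) := ⟨⟨0, hn⟩⟩
  let φ' : D →ₐ[F] Matrix (Fin n) (Fin n) E :=
    { toRingHom := φ
      commutes' := fun c => by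
        change φ (algebraMap F D c) = _
        rw [hφ, IsScalarTower.algebraMap_apply F E (Matrix (Fin n) (Fin n) E)]
        rfl }
  let Φ : E ⊗[F] D →ₐ[E] Matrix (Fin n) (Fin n) E :=
    Algebra.TensorProduct.lift (Algebra.ofId E _) φ' fun e d => Algebra.commutes e _
  have hi : Function.Injective Φ.toLinearMap := inj (F := F) (E := E) (D := D) Φ.toRingHom
  have hs : Function.Surjective Φ.toLinearMap :=
    (LinearMap.injective_iff_surjective_of_finrank_eq_finrank (by
      rw [Module.finrank_baseChange, h, Module.finrank_matrix]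
      simp [sq])).1 hi
  rw [eq_top_iff]
  intro M _
  obtain ⟨t, rfl⟩ := hs M
  induction t using TensorProduct.induction_on with
  | zero => simp
  | tmul e d =>
    have : Φ.toLinearMap (e ⊗ₜ d) = e • φ d := by
      rw [Algebra.smul_def]
      exact Algebra.TensorProduct.lift_tmul (Algebra.ofId E _) φ'
        (fun e _ => Algebra.commutes e _) e d
    rw [this]
    exact Submodule.smul_mem _ _ (Submodule.subset_span ⟨d, rfl⟩)
  | add x y hx hy =>
    rw [map_add]
    exact Submodule.add_mem _ (hx trivial) (hy trivial)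

end LI

section Glue

variable {W₁ W₂ : Type*} {n : ℕ}

/-- scalar matrices at all places -/
def sc (W₁ W₂ : Type*) (n : ℕ) : ((W₁ → ℝ) × (W₂ → ℂ)) →ₗ[ℝ] AA W₁ W₂ n where
  toFun x := (fun w => Matrix.scalar (Fin n) (x.1 w), fun w => Matrix.scalar (Fin n) (x.2 w))
  map_add' x y := by
    ext w i j <;> simp [Matrix.diagonal_apply] <;> split_ifs <;> simp
  map_smul' c x := by
    ext w i j <;> simp [Matrix.diagonal_apply]

/-- a subalgebra that contains the scalars and enough elements at each place is everything -/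
theorem glue [Fintype W₁] [Fintype W₂] (S : Subalgebra ℝ (AA W₁ W₂ n))
    (hsc : ∀ x, sc W₁ W₂ n x ∈ S) {D : Type*} (j : D → AA W₁ W₂ n) (hj : ∀ d, j d ∈ S)
    (h1 : ∀ w, Submodule.span ℝ (Set.range fun d => (j d).1 w) = ⊤)
    (h2 : ∀ w, Submodule.span ℂ (Set.range fun d => (j d).2 w) = ⊤) (a : AA W₁ W₂ n) :
    a ∈ S := by
  classical
  have e1 : ∀ (w : W₁) (c : ℝ) (y : AA W₁ W₂ n),
      sc W₁ W₂ n (Pi.single w c, 0) * y = (Pi.single w (c • y.1 w), 0) := by
    intro w c y
    refine Prod.ext (funext fun v => ?_) (funext fun v => ?_)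
    · by_cases hv : v = w
      · subst hv
        simp [sc, Matrix.smul_eq_diagonal_mul]
      · simp [sc, hv]
    · simp [sc]
  have e2 : ∀ (w : W₂) (c : ℂ) (y : AA W₁ W₂ n),
      sc W₁ W₂ n (0, Pi.single w c) * y = (0, Pi.single w (c • y.2 w)) := by
    intro w c y
    refine Prod.ext (funext fun v => ?_) (funext fun v => ?_)
    · simp [sc]
    · by_cases hv : v = w
      · subst hv
        simp [sc, Matrix.smul_eq_diagonal_mul]
      · simp [sc, hv]
  have k1 : ∀ (w : W₁) (M : Matrix (Fin n) (Fin n) ℝ),
      ((Pi.single w M, 0) : AA W₁ W₂ n) ∈ S := by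
    intro w M
    have hM : M ∈ Submodule.span ℝ (Set.range fun d => (j d).1 w) := by rw [h1 w]; trivial
    induction hM using Submodule.span_induction with
    | mem x hx =>
      obtain ⟨d, rfl⟩ := hx
      have := S.mul_mem (hsc (Pi.single w 1, 0)) (hj d)
      rwa [e1, one_smul] at this
    | zero => rw [Pi.single_zero]; exact S.zero_mem
    | add x y _ _ hx hy =>
      have := S.add_mem hx hy
      rwa [Prod.mk_add_mk, add_zero, ← Pi.single_add] at this
    | smul c x _ hx =>
      have := S.mul_mem (hsc (Pi.single w c, 0)) hx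
      rw [e1] at this
      simpa only [Pi.single_eq_same] using this
  have k2 : ∀ (w : W₂) (M : Matrix (Fin n) (Fin n) ℂ),
      ((0, Pi.single w M) : AA W₁ W₂ n) ∈ S := by
    intro w M
    have hM : M ∈ Submodule.span ℂ (Set.range fun d => (j d).2 w) := by rw [h2 w]; trivial
    induction hM using Submodule.span_induction with
    | mem x hx =>
      obtain ⟨d, rfl⟩ := hx
      have := S.mul_mem (hsc (0, Pi.single w 1)) (hj d)
      rwa [e2, one_smul] at this
    | zero => rw [Pi.single_zero]; exact S.zero_mem
    | add x y _ _ hx hy =>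
      have := S.add_mem hx hy
      rwa [Prod.mk_add_mk, add_zero, ← Pi.single_add] at this
    | smul c x _ hx =>
      have := S.mul_mem (hsc (0, Pi.single w c)) hx
      rw [e2] at this
      simpa only [Pi.single_eq_same] using this
  have : a = ∑ w, ((Pi.single w (a.1 w), 0) : AA W₁ W₂ n) +
      ∑ w, ((0, Pi.single w (a.2 w)) : AA W₁ W₂ n) := by
    refine Prod.ext ?_ ?_
    · simp [Prod.fst_sum, Finset.univ_sum_single]
    · simp [Prod.snd_sum, Finset.univ_sum_single]
  rw [this]
  exact S.add_mem (S.sum_mem fun w _ => k1 w _) (S.sum_mem fun w _ => k2 w _)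

end Glue

end Ar53

open Ar53 in
/-- ARCH -/
theorem archStmt : ArchStmt.{u, v} := by
  intro F _ _ D _ _ _ _ n hn h hσ
  classical
  have hC : ∀ σ : F →+* ℂ, ∃ φ : D →+* Matrix (Fin n) (Fin n) ℂ,
      ∀ c : F, φ (algebraMap F D c) = Matrix.scalar (Fin n) (σ c) := by
    intro σ
    let := σ.toAlgebra
    exact exists_split (F := F) (D := D) (E := ℂ) n hn h
  choose φ₁ hφ₁ using hσ
  choose φ₂ hφ₂ using hC
  let j : D →+* AA {w : InfinitePlace F // w.IsReal} {w : InfinitePlace F // w.IsComplex} n :=
    RingHom.prod (RingHom.pi fun w => φ₁ (InfinitePlace.embedding_of_isReal w.prop))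
      (RingHom.pi fun w => φ₂ w.val.embedding)
  refine ⟨j, fun N b => ?_⟩
  have hfin : Module.Finite F D := Module.finite_of_finrank_pos (by rw [h]; positivity)
  -- the real span of the image is a subalgebra
  let S := Algebra.adjoin ℝ (Set.range j)
  have hS : S.toSubmodule = Submodule.span ℝ (Set.range j) := by
    rw [Algebra.adjoin_eq_span]
    congr 1
    have : (Set.range j) = (MonoidHom.mrange j : Set _) := rfl
    rw [this, Submonoid.closure_eq]
  have hj : ∀ d, j d ∈ S := fun d => Algebra.subset_adjoin ⟨d, rfl⟩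
  have hsc : ∀ x, sc _ _ n x ∈ S := by
    intro x
    have hx : x ∈ Submodule.span ℝ (Set.range (mixedEmbedding.latticeBasis F)) := by
      rw [(mixedEmbedding.latticeBasis F).span_eq]; trivial
    induction hx using Submodule.span_induction with
    | mem x hx =>
      obtain ⟨i, rfl⟩ := hx
      have : sc _ _ n (mixedEmbedding.latticeBasis F i) =
          j (algebraMap F D (integralBasis F i)) := by
        rw [mixedEmbedding.latticeBasis_apply]
        refine Prod.ext (funext fun w => ?_) (funext fun w => ?_)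
        · exact (hφ₁ (InfinitePlace.embedding_of_isReal w.prop) (integralBasis F i)).symm
        · exact (hφ₂ w.val.embedding (integralBasis F i)).symm
      rw [this]
      exact hj _
    | zero => rw [map_zero]; exact S.zero_mem
    | add x y _ _ hx hy => rw [map_add]; exact S.add_mem hx hy
    | smul c x _ hx => rw [map_smul]; exact S.smul_mem hx c
  have hall : ∀ a, a ∈ S := glue S hsc j hj
    (fun w => by
      let := (InfinitePlace.embedding_of_isReal w.prop).toAlgebra
      exact span_top (F := F) (D := D) (E := ℝ) n hn h _ (hφ₁ _))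
    (fun w => by
      let := (w.val.embedding).toAlgebra
      exact span_top (F := F) (D := D) (E := ℂ) n hn h _ (hφ₂ _))
  have hspan : ⊤ ≤ Submodule.span ℝ (Set.range fun i => j (b i)) := by
    intro a _
    have ha : a ∈ Submodule.span ℝ (Set.range j) := by rw [← hS]; exact hall a
    refine Submodule.span_le.2 ?_ ha
    rintro _ ⟨d, rfl⟩
    rw [← b.sum_repr d, map_sum]
    refine Submodule.sum_mem _ fun i _ => ?_
    rw [map_rat_smul, ← Rat.cast_smul_eq_qsmul ℝ]
    exact Submodule.smul_mem _ _ (Submodule.subset_span ⟨i, rfl⟩)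
  have hcard : Fintype.card (Fin N) = finrank ℝ
      (AA {w : InfinitePlace F // w.IsReal} {w : InfinitePlace F // w.IsComplex} n) := by
    rw [← finrank_eq_card_basis b, ← Module.finrank_mul_finrank ℚ F D, h,
      ← InfinitePlace.card_add_two_mul_card_eq_rank, finrank_prod, finrank_pi_fintype,
      finrank_pi_fintype]
    simp only [Module.finrank_matrix, Complex.finrank_real_complex, finrank_self, Fintype.card_fin,
      Finset.sum_const, Finset.card_univ, smul_eq_mul]
    ring
  exact ⟨basisOfTopLeSpanOfCardEqFinrank _ hspan hcard, fun i => by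
    rw [coe_basisOfTopLeSpanOfCardEqFinrank]⟩

end Crest.Agent.T24.Ab
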