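import Crest.Agent.T24.AbDef_13

/-!
# Row 24 (helper37): counting the superlattices of `𝓞^n`, `cntStmt`
-/

set_option autoImplicit false

noncomputable section

namespace Crest.Agent.T24.Ab

open NumberField Function
open scoped ENNReal

namespace Cnt37

variable {F : Type*} [Field F] {R : Subring F} {n : ℕ}

theorem mem_std {x : Fin n → F} : x ∈ std R n ↔ ∀ i, x i ∈ R :=
  ⟨fun h i => h i trivial, fun h i _ => h i⟩

/-- `y ↦ (0, y)` -/
def emb (F : Type*) [Field F] (n : ℕ) : (Fin n → F) →+ (Fin (n + 1) → F) :=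
  AddMonoidHom.mk' (fun y => Fin.cons 0 y) fun y z => by
    funext i; refine Fin.cases ?_ (fun i => ?_) i <;> simp

/-- the first coordinate -/
def hd (F : Type*) [Field F] (n : ℕ) : (Fin (n + 1) → F) →+ F :=
  AddMonoidHom.mk' (fun x => x 0) fun _ _ => rfl

/-- the other coordinates -/
def tl (F : Type*) [Field F] (n : ℕ) : (Fin (n + 1) → F) →+ (Fin n → F) :=
  AddMonoidHom.mk' (fun x i => x i.succ) fun _ _ => rfl

@[simp] theorem hd_apply (x : Fin (n + 1) → F) : hd F n x = x 0 := rfl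
@[simp] theorem tl_emb (y : Fin n → F) : tl F n (emb F n y) = y := rfl
@[simp] theorem emb_zero (y : Fin n → F) : emb F n y 0 = 0 := rfl
theorem tl_smul (a : F) (x : Fin (n + 1) → F) : tl F n (a • x) = a • tl F n x := rfl
theorem emb_smul (a : F) (y : Fin n → F) : emb F n (a • y) = a • emb F n y := by
  funext i; refine Fin.cases ?_ (fun i => ?_) i <;> simp [emb]

theorem dec (x : Fin (n + 1) → F) : x = Pi.single 0 (x 0) + emb F n (tl F n x) := by
  funext i; refine Fin.cases ?_ (fun i => ?_) i <;> simp [emb, tl]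

theorem single_mem {a : F} (ha : a ∈ R) : Pi.single 0 a ∈ std R (n + 1) := mem_std.2 fun i => by
  refine Fin.cases ?_ (fun i => ?_) i
  · simpa
  · simp

theorem emb_mem {y : Fin n → F} (hy : y ∈ std R n) : emb F n y ∈ std R (n + 1) :=
  mem_std.2 fun i => by
    refine Fin.cases ?_ (fun i => ?_) i
    · simp
    · exact mem_std.1 hy i

theorem tl_mem {W : AddSubgroup (Fin (n + 1) → F)} (h : std R (n + 1) ≤ W) {x : Fin (n + 1) → F}
    (hx : x ∈ W) (h0 : x 0 ∈ R) : emb F n (tl F n x) ∈ W := by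
  have := W.sub_mem hx (h (single_mem h0))
  rwa [sub_eq_of_eq_add' (dec x)] at this

/-- the index is multiplicative -/
theorem idx {W : AddSubgroup (Fin (n + 1) → F)} (h : std R (n + 1) ≤ W) :
    (std R (n + 1)).relIndex W =
      (std R n).relIndex (W.comap (emb F n)) * R.toAddSubgroup.relIndex (W.map (hd F n)) := by
  set M := R.toAddSubgroup.comap (hd F n) ⊓ W with hM
  have h1 : std R (n + 1) ≤ M := fun x hx => ⟨mem_std.1 hx 0, h hx⟩
  rw [← AddSubgroup.relIndex_mul_relIndex _ M W h1 inf_le_right, hM,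
    AddSubgroup.inf_relIndex_right, AddSubgroup.relIndex_comap, ← hM]
  congr 1
  have h2 : M.map (tl F n) = W.comap (emb F n) := by
    ext y
    refine ⟨?_, fun hy => ⟨emb F n y, ⟨R.zero_mem, hy⟩, rfl⟩⟩
    rintro ⟨x, hx, rfl⟩
    exact tl_mem h hx.2 hx.1
  rw [← h2, ← AddSubgroup.relIndex_comap, ← AddSubgroup.inf_relIndex_right,
    ← AddSubgroup.inf_relIndex_right ((std R n).comap _)]
  congr 1
  ext x
  refine ⟨fun hx => ⟨mem_std.2 fun i => mem_std.1 hx.1 _, hx.2⟩, fun hx => ⟨mem_std.2 fun i => ?_, hx.2⟩⟩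
  exact Fin.cases hx.2.1 (fun i => mem_std.1 hx.1 i) i

theorem idx_pi (J : AddSubgroup F) :
    (std R n).relIndex (AddSubgroup.pi Set.univ fun _ => J) = R.toAddSubgroup.relIndex J ^ n := by
  let f : (Fin n → J) →+ (Fin n → F) := AddMonoidHom.mk' (fun v i => v i) fun _ _ => rfl
  have h1 : (AddSubgroup.pi Set.univ fun _ => J) = (⊤ : AddSubgroup (Fin n → J)).map f := by
    ext x
    exact ⟨fun hx => ⟨fun i => ⟨x i, hx i trivial⟩, trivial, rfl⟩, by
      rintro ⟨v, -, rfl⟩ i -; exact (v i).2⟩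
  have h2 : (std R n).comap f = AddSubgroup.pi Set.univ fun _ => R.toAddSubgroup.addSubgroupOf J :=
    rfl
  rw [h1, ← AddSubgroup.relIndex_comap, AddSubgroup.relIndex_top_right, h2, AddSubgroup.index_pi]
  simp [AddSubgroup.relIndex]

/-- the projection to the pair (sublattice, fractional ideal) -/
def prj (W : SupV R (n + 1)) : SupV R n × Sup R :=
  (⟨W.1.comap (emb F n), fun _ hy => W.2.1 (emb_mem hy), fun y hy o ho => by
      rw [AddSubgroup.mem_comap, emb_smul]; exact W.2.2.1 _ hy o ho,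
      left_ne_zero_of_mul (idx W.2.1 ▸ W.2.2.2)⟩,
    ⟨W.1.map (hd F n), fun a ha => ⟨Pi.single 0 a, W.2.1 (single_mem ha), by simp⟩, by
      rintro _ ⟨x, hx, rfl⟩ o ho
      exact ⟨o • x, W.2.2.1 x hx o ho, mul_comm _ _⟩,
      right_ne_zero_of_mul (idx W.2.1 ▸ W.2.2.2)⟩)

section fibre
variable (W' : SupV R n) (J : Sup R) (β : F)

/-- admissible lifts of the generator `β` -/
def Y : AddSubgroup (Fin n → F) where
  carrier := {y | ∀ a ∈ R, a * β ∈ R → a • y ∈ W'.1}
  add_mem' := fun hy hz a ha hb => by rw [smul_add]; exact W'.1.add_mem (hy a ha hb) (hz a ha hb)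
  zero_mem' := fun a _ _ => by rw [smul_zero]; exact W'.1.zero_mem
  neg_mem' := fun hy a ha hb => by rw [smul_neg]; exact W'.1.neg_mem (hy a ha hb)

/-- the lattice generated by `W'`, `R` and `(β, y)` -/
def Wy (y : Fin n → F) : AddSubgroup (Fin (n + 1) → F) where
  carrier := {x | ∃ a ∈ R, x 0 - a * β ∈ R ∧ tl F n x - a • y ∈ W'.1}
  add_mem' := by
    rintro x z ⟨a, ha, h1, h2⟩ ⟨b, hb, h3, h4⟩
    refine ⟨a + b, R.add_mem ha hb, ?_, ?_⟩
    · convert R.add_mem h1 h3 using 1; simp only [Pi.add_apply]; ring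
    · convert W'.1.add_mem h2 h4 using 1; rw [map_add, add_smul]; abel
  zero_mem' := ⟨0, R.zero_mem, by simp, by simp⟩
  neg_mem' := by
    rintro x ⟨a, ha, h1, h2⟩
    refine ⟨-a, R.neg_mem ha, ?_, ?_⟩
    · convert R.neg_mem h1 using 1; simp only [Pi.neg_apply]; ring
    · convert W'.1.neg_mem h2 using 1; rw [map_neg, neg_smul]; abel

variable {W' J β}

theorem std_le (y : Fin n → F) : std R (n + 1) ≤ Wy W' β y := fun x hx =>
  ⟨0, R.zero_mem, by simpa using mem_std.1 hx 0, by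
    rw [zero_smul, sub_zero]; exact W'.2.1 (mem_std.2 fun i => mem_std.1 hx _)⟩

theorem comap_Wy {y : Fin n → F} (hy : y ∈ Y W' β) : (Wy W' β y).comap (emb F n) = W'.1 := by
  ext z
  refine ⟨fun ⟨a, ha, h1, h2⟩ => ?_, fun hz => ⟨0, R.zero_mem, by simp, by simpa⟩⟩
  have := W'.1.add_mem h2 (hy a ha (by simpa using R.neg_mem h1))
  simpa using this

theorem map_Wy (hβ : β ∈ J.1) (hJ : ∀ j ∈ J.1, ∃ a ∈ R, j - a * β ∈ R) (y : Fin n → F) :
    (Wy W' β y).map (hd F n) = J.1 := by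
  ext j
  constructor
  · rintro ⟨x, ⟨a, ha, h1, -⟩, rfl⟩
    have := J.1.add_mem (J.2.1 h1) (J.2.2.1 β hβ a ha)
    rwa [mul_comm β, sub_add_cancel] at this
  · intro hj
    obtain ⟨a, ha, h⟩ := hJ j hj
    refine ⟨Fin.cons j (a • y), ⟨a, ha, h, ?_⟩, rfl⟩
    rw [show tl F n (Fin.cons j (a • y)) = a • y from rfl, sub_self]
    exact W'.1.zero_mem

theorem card_fibre (hβ : β ∈ J.1) (hJ : ∀ j ∈ J.1, ∃ a ∈ R, j - a * β ∈ R) :
    Nat.card (prj ⁻¹' {(W', J)} : Set (SupV R (n + 1))) = W'.1.relIndex (Y W' β) := by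
  let Φ : Y W' β → (prj ⁻¹' {(W', J)} : Set (SupV R (n + 1))) := fun y =>
    ⟨⟨Wy W' β y, std_le _, by
        rintro x ⟨a, ha, h1, h2⟩ o ho
        refine ⟨o * a, R.mul_mem ho ha, ?_, ?_⟩
        · convert R.mul_mem ho h1 using 1; simp only [Pi.smul_apply, smul_eq_mul]; ring
        · convert W'.2.2.1 _ h2 o ho using 1; rw [tl_smul, smul_sub, mul_smul], by
        rw [idx (std_le _), comap_Wy y.2, map_Wy hβ hJ]; exact mul_ne_zero W'.2.2.2 J.2.2.2⟩,
      Prod.ext (Subtype.ext (comap_Wy y.2)) (Subtype.ext (map_Wy hβ hJ _))⟩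
  have self : ∀ y : Fin n → F, Fin.cons β y ∈ Wy W' β y := fun y =>
    ⟨1, R.one_mem, by simp, by
      rw [show tl F n (Fin.cons β y) = y from rfl, one_smul, sub_self]; exact W'.1.zero_mem⟩
  have hs : Surjective Φ := by
    rintro ⟨W, hW⟩
    have e1 : W.1.comap (emb F n) = W'.1 := congrArg (fun p => p.1.1) hW
    have e2 : W.1.map (hd F n) = J.1 := congrArg (fun p => p.2.1) hW
    obtain ⟨x, hx, hxβ⟩ : β ∈ W.1.map (hd F n) := e2 ▸ hβ
    rw [hd_apply] at hxβ
    refine ⟨⟨tl F n x, fun a ha hb => ?_⟩, Subtype.ext (Subtype.ext ?_)⟩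
    · rw [← e1, ← tl_smul]
      exact tl_mem W.2.1 (W.2.2.1 x hx a ha) (by simpa [hxβ] using hb)
    · ext z
      constructor
      · rintro ⟨a, ha, h1, h2⟩
        change tl F n z - a • tl F n x ∈ W'.1 at h2
        rw [← e1, ← tl_smul, ← map_sub] at h2
        have h3 : z - a • x ∈ W.1 := by
          rw [dec (z - a • x)]
          exact W.1.add_mem (W.2.1 (single_mem (by simpa [hxβ] using h1))) h2
        simpa using W.1.add_mem h3 (W.2.2.1 x hx a ha)
      · intro hz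
        obtain ⟨a, ha, h⟩ := hJ (z 0) (e2 ▸ ⟨z, hz, rfl⟩)
        refine ⟨a, ha, h, ?_⟩
        change tl F n z - a • tl F n x ∈ W'.1
        rw [← e1, ← tl_smul, ← map_sub]
        exact tl_mem W.2.1 (W.1.sub_mem hz (W.2.2.1 x hx a ha)) (by simpa [hxβ] using h)
  have hk : ∀ y z, Φ y = Φ z ↔ -y + z ∈ W'.1.addSubgroupOf (Y W' β) := fun y z => by
    rw [AddSubgroup.mem_addSubgroupOf]
    constructor
    · intro e
      have e' : Wy W' β y = Wy W' β z := congrArg (fun p => p.1.1) e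
      have h1 := (Wy W' β y).sub_mem (e' ▸ self z) (self y)
      rw [← comap_Wy y.2, AddSubgroup.mem_comap]
      convert h1 using 1
      funext i; refine Fin.cases ?_ (fun i => ?_) i <;> simp [emb, sub_eq_neg_add]
    · intro h
      refine Subtype.ext (Subtype.ext ?_)
      ext x
      refine exists_congr fun a => and_congr_right fun ha => and_congr_right fun _ => ?_
      have h1 := W'.2.2.1 _ h a ha
      refine ⟨fun h2 => ?_, fun h2 => ?_⟩
      · convert W'.1.sub_mem h2 h1 using 1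
        rw [AddSubgroup.coe_add, AddSubgroup.coe_neg, smul_add, smul_neg]; abel
      · convert W'.1.add_mem h2 h1 using 1
        rw [AddSubgroup.coe_add, AddSubgroup.coe_neg, smul_add, smul_neg]; abel
  rw [AddSubgroup.relIndex, AddSubgroup.index]
  refine (Nat.card_congr ((Quotient.congrRight fun y z => ?_).trans
    (Setoid.quotientKerEquivOfSurjective Φ hs))).symm
  rw [QuotientAddGroup.leftRel_apply, Setoid.ker_def, hk]

theorem idx_Y {α c r₁ r₂ : F} (hβ : β ∈ J.1) (hJ : ∀ j ∈ J.1, ∃ a ∈ R, j - a * β ∈ R)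
    (hα : ∀ j ∈ J.1, α * j ∈ R) (hc : c ∈ R) (hr : r₁ ∈ R) (h1 : r₁ * β ∈ R)
    (h2 : ∀ w ∈ W'.1, r₂ • w ∈ std R n) (e : α * β + c * (r₂ * r₁) = 1) :
    W'.1.relIndex (Y W' β) = R.toAddSubgroup.relIndex J.1 ^ n := by
  set P : AddSubgroup (Fin n → F) := AddSubgroup.pi Set.univ fun _ => J.1 with hP
  have hαR : α ∈ R := by simpa using hα 1 (J.2.1 R.one_mem)
  have a1 : W'.1 ≤ Y W' β := fun w hw a ha _ => W'.2.2.1 w hw a ha
  have a2 : P ≤ Y W' β := fun z hz a ha hb => W'.2.1 (mem_std.2 fun i => by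
    obtain ⟨b, hb', h⟩ := hJ (z i) (hz i trivial)
    convert R.add_mem (R.mul_mem ha h) (R.mul_mem hb' hb) using 1
    simp only [Pi.smul_apply, smul_eq_mul]; ring)
  have a3 : std R n ≤ P := fun z hz i _ => J.2.1 (mem_std.1 hz i)
  have smul_std : ∀ a ∈ R, ∀ z ∈ std R n, a • z ∈ std R n := fun a ha z hz =>
    mem_std.2 fun i => R.mul_mem ha (mem_std.1 hz i)
  let f : (Fin n → F) →+ (Fin n → F) := DistribSMul.toAddMonoidHom _ α
  have b1 : P = (std R n).comap f ⊓ Y W' β := by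
    ext z
    refine ⟨fun hz => ⟨mem_std.2 fun i => hα _ (hz i trivial), a2 hz⟩, fun hz i _ => ?_⟩
    have h3 := mem_std.1 (smul_std c hc _ (h2 _ (hz.2 r₁ hr h1))) i
    have h4 : α * z i ∈ R := mem_std.1 hz.1 i
    have h5 := J.1.add_mem (J.2.2.1 β hβ _ h4) (J.2.1 h3)
    show z i ∈ J.1
    convert h5 using 1
    simp only [Pi.smul_apply, smul_eq_mul]
    linear_combination -(z i) * e
  have b2 : (std R n).relIndex ((Y W' β).map f) = (std R n).relIndex W'.1 := by
    rw [← AddSubgroup.relIndex_sup_left]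
    congr 1
    refine le_antisymm (sup_le W'.2.1 ?_) fun w hw => ?_
    · rintro _ ⟨y, hy, rfl⟩
      exact hy α hαR (hα β hβ)
    · have h3 : β • w ∈ Y W' β := fun a _ hb => by rw [← mul_smul]; exact W'.2.2.1 w hw _ hb
      have h4 := smul_std c hc _ (h2 _ (W'.2.2.1 w hw r₁ hr))
      have : w = c • r₂ • r₁ • w + f (β • w) := by
        show w = c • r₂ • r₁ • w + α • β • w
        rw [← mul_smul, ← mul_smul, ← mul_smul, ← add_smul, mul_assoc, add_comm, e, one_smul]
      rw [this]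
      exact AddSubgroup.add_mem_sup h4 ⟨_, h3, rfl⟩
  have b3 : P.relIndex (Y W' β) = (std R n).relIndex W'.1 := by
    rw [b1, AddSubgroup.inf_relIndex_right, AddSubgroup.relIndex_comap, b2]
  have c1 := AddSubgroup.relIndex_mul_relIndex _ _ _ W'.2.1 a1
  rw [← AddSubgroup.relIndex_mul_relIndex _ _ _ a3 a2, b3, hP, idx_pi, mul_comm] at c1
  exact mul_right_cancel₀ W'.2.2.2 c1

end fibre

/-- a fractional ideal is principal modulo `r` -/
theorem key [NumberField F] (J : Sup (intR F)) {r : ℕ} (hr : r ≠ 0) (h : ∀ j ∈ J.1, (r : F) * j ∈ intR F) :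
    ∃ β ∈ J.1, ∃ α, (∀ j ∈ J.1, α * j ∈ intR F) ∧ ∃ c ∈ intR F, α * β + c * r = 1 := by
  have hr' : (r : F) ≠ 0 := by exact_mod_cast hr
  let I : Ideal (𝓞 F) :=
    { carrier := {x | (x : F) / r ∈ J.1}
      add_mem' := fun hx hy => by
        simp only [Set.mem_ofPred_eq, map_add, add_div] at *; exact J.1.add_mem hx hy
      zero_mem' := by simp
      smul_mem' := fun c x hx => by
        have := J.2.2.1 _ hx c ⟨c, rfl⟩
        simp only [Set.mem_ofPred_eq, smul_eq_mul, map_mul] at *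
        convert this using 1; ring }
  have hrI : (r : 𝓞 F) ∈ I := by
    show algebraMap (𝓞 F) F (r : 𝓞 F) / r ∈ J.1
    rw [map_natCast, div_self hr']; exact J.2.1 (intR F).one_mem
  have hr0 : (r : 𝓞 F) ≠ 0 := by exact_mod_cast hr
  have hI : I ≠ 0 := fun e => hr0 (by rw [e] at hrI; exact hrI)
  obtain ⟨a, ha⟩ := IsDedekindDomain.exists_sup_span_eq (I := Ideal.span {(r : 𝓞 F)} * I) (J := I)
    Ideal.mul_le_right (mul_ne_zero (by simpa using hr0) hI)
  obtain ⟨I', hI'⟩ := Ideal.dvd_iff_le.2 ((Ideal.span_singleton_le_iff_mem I).2 hrI)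
  have h1 : (r : 𝓞 F) ∈ (Ideal.span {(r : 𝓞 F)} * I ⊔ Ideal.span {a}) * I' := by
    rw [ha, ← hI']; exact Ideal.mem_span_singleton_self _
  rw [Ideal.sup_mul, mul_assoc, ← hI', Ideal.span_singleton_mul_span_singleton] at h1
  obtain ⟨u, hu, v, hv, e⟩ := Submodule.mem_sup.1 h1
  obtain ⟨c, rfl⟩ := Ideal.mem_span_singleton'.1 hu
  obtain ⟨b, hb, rfl⟩ := Ideal.mem_span_singleton_mul.1 hv
  have haI : a ∈ I := ha ▸ Ideal.mem_sup_right (Ideal.mem_span_singleton_self a)
  refine ⟨(a : F) / r, haI, b, fun j hj => ?_, c, ⟨c, rfl⟩, ?_⟩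
  · obtain ⟨x, hx⟩ := h j hj
    have hxI : x ∈ I := by
      show (x : F) / r ∈ J.1
      rw [show (x : F) = r * j from hx, mul_div_cancel_left₀ _ hr']; exact hj
    obtain ⟨y, hy⟩ := Ideal.mem_span_singleton'.1 (hI' ▸ Ideal.mul_mem_mul hxI hb)
    refine ⟨y, mul_right_cancel₀ hr' ?_⟩
    have := congrArg (algebraMap (𝓞 F) F) hy
    rw [map_mul, map_mul, map_natCast, hx] at this
    rw [this]; ring
  · have := congrArg (algebraMap (𝓞 F) F) e
    simp only [map_add, map_mul, map_natCast] at this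
    field_simp
    linear_combination this

theorem card_eq [NumberField F] (W' : SupV (intR F) n) (J : Sup (intR F)) :
    Nat.card (prj ⁻¹' {(W', J)} : Set (SupV (intR F) (n + 1))) =
      (intR F).toAddSubgroup.relIndex J.1 ^ n := by
  set r₁ := (intR F).toAddSubgroup.relIndex J.1
  set r₂ := (std (intR F) n).relIndex W'.1
  have h1 : ∀ j ∈ J.1, (r₁ : F) * j ∈ intR F := fun j hj => by
    rw [← nsmul_eq_mul]; exact (intR F).toAddSubgroup.nsmul_relIndex_mem hj
  have h2 : ∀ w ∈ W'.1, (r₂ : F) • w ∈ std (intR F) n := fun w hw => by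
    rw [Nat.cast_smul_eq_nsmul]; exact (std (intR F) n).nsmul_relIndex_mem hw
  have h3 : ∀ j ∈ J.1, ((r₂ * r₁ : ℕ) : F) * j ∈ intR F := fun j hj => by
    rw [Nat.cast_mul, mul_assoc]; exact (intR F).mul_mem (natCast_mem _ _) (h1 j hj)
  obtain ⟨β, hβ, α, hα, c, hc, e⟩ := key J (mul_ne_zero W'.2.2.2 J.2.2.2) h3
  have hJ : ∀ j ∈ J.1, ∃ a ∈ intR F, j - a * β ∈ intR F := fun j hj =>
    ⟨α * j, hα j hj, by
      convert (intR F).mul_mem hc (h3 j hj) using 1
      linear_combination -j * e⟩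
  rw [card_fibre hβ hJ]
  exact idx_Y hβ hJ hα hc (natCast_mem _ r₁) (h1 β hβ) h2 (by rw [← Nat.cast_mul]; exact e)

theorem step [NumberField F] (n : ℕ) (s : ℝ) :
    zetaV (intR F) (n + 1) s = zetaV (intR F) n s * zeta (intR F) (s - n) := by
  rw [zetaV, ← ENNReal.tsum_fiberwise _ prj, ENNReal.tsum_prod', zetaV, zeta, ← ENNReal.tsum_mul_right]
  refine tsum_congr fun W' => ?_
  rw [← ENNReal.tsum_mul_left]
  refine tsum_congr fun J => ?_
  have hc := card_eq W' J
  have hJ : (0 : ℝ) < (intR F).toAddSubgroup.relIndex J.1 := by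
    exact_mod_cast Nat.pos_of_ne_zero J.2.2.2
  have := Nat.finite_of_card_ne_zero (hc ▸ pow_ne_zero n J.2.2.2)
  rw [tsum_congr (g := fun _ => ENNReal.ofReal ((((std (intR F) n).relIndex W'.1 *
      (intR F).toAddSubgroup.relIndex J.1 : ℕ) : ℝ) ^ (-s))) fun W => ?_, ENNReal.tsum_const,
    ENat.card_eq_coe_natCard, hc, ENat.toENNReal_coe, ← ENNReal.ofReal_natCast,
    ← ENNReal.ofReal_mul (Nat.cast_nonneg _), ← ENNReal.ofReal_mul (by positivity), Nat.cast_mul,
    Real.mul_rpow (Nat.cast_nonneg _) hJ.le, neg_sub, sub_eq_add_neg, Real.rpow_add hJ,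
    Real.rpow_natCast, Nat.cast_pow]
  · congr 1; ring
  · have e1 : W.1.1.comap (emb F n) = W'.1 := congrArg (fun p => p.1.1) W.2
    have e2 : W.1.1.map (hd F n) = J.1 := congrArg (fun p => p.2.1) W.2
    rw [idx W.1.2.1, e1, e2]

end Cnt37

universe u

theorem cntStmt : CntStmt.{u} := by
  intro F _ _ n s
  induction n with
  | zero =>
    have h : ∀ W : AddSubgroup (Fin 0 → F), (std (intR F) 0).relIndex W = 1 := fun W =>
      AddSubgroup.relIndex_eq_one.2 fun x _ => Cnt37.mem_std.2 fun i => i.elim0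
    let W₀ : SupV (intR F) 0 := ⟨⊤, le_top, fun _ _ _ _ => trivial, by rw [h]; exact one_ne_zero⟩
    rw [zetaV, tsum_eq_single W₀ fun W hW => (hW (Subtype.ext (Subsingleton.elim _ _))).elim, h]
    simp
  | succ n ih => rw [Cnt37.step, ih, Finset.prod_range_succ]

end Crest.Agent.T24.Ab
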