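import Crest.Agent.T24.AbDef_13

/-!
# Row 24 (helper29): the functional equation of an averaged theta function
-/

set_option autoImplicit false
set_option linter.unusedSectionVars false

noncomputable section

namespace Crest.Agent.T24.Ab

open MeasureTheory Real Set Filter Asymptotics
open scoped ENNReal
open Crest.Agent.T49.Gau
open Crest.Agent.T49.Lat (cast)

universe u v

namespace Fe29

variable {ι : Type*} [Fintype ι] {H : Type*} [NormedAddCommGroup H] [InnerProductSpace ℝ H]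

theorem exists_ref (ι : Type*) [Fintype ι] {c : ℝ} (hc : 0 < c) :
    ∃ R : (ι → ℝ) →ₗ[ℝ] EuclideanSpace ℝ ι, Function.Injective R ∧ ∀ y, ‖R y‖ ≤ c * ‖y‖ := by
  let e : (ι → ℝ) →ₗ[ℝ] EuclideanSpace ℝ ι := (WithLp.linearEquiv 2 ℝ (ι → ℝ)).symm.toLinearMap
  have he : Function.Injective e := (WithLp.linearEquiv 2 ℝ (ι → ℝ)).symm.injective
  obtain ⟨K, hK, h⟩ := (LinearMap.toContinuousLinearMap e).bound
  refine ⟨(c / K) • e, inj_smul he (div_pos hc hK).ne', fun y => ?_⟩
  have h1 : ‖e y‖ ≤ K * ‖y‖ := h y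
  rw [LinearMap.smul_apply, norm_smul, Real.norm_of_nonneg (div_pos hc hK).le]
  calc c / K * ‖e y‖ ≤ c / K * (K * ‖y‖) := by gcongr
    _ = c * ‖y‖ := by field_simp

theorem inj_of_low {B : (ι → ℝ) →ₗ[ℝ] H} {c : ℝ} (hc : 0 < c) (h : ∀ y, c * ‖y‖ ≤ ‖B y‖) :
    Function.Injective B := by
  obtain ⟨R, hR, hR'⟩ := exists_ref ι hc
  exact inj_of_le hR fun y => (hR' y).trans (h y)

theorem one_le_norm_cast {x : ι → ℤ} (hx : x ≠ 0) : 1 ≤ ‖cast x‖ := by
  obtain ⟨i, hi⟩ := Function.ne_iff.1 hx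
  refine le_trans ?_ (norm_le_pi_norm (cast x) i)
  have : (1 : ℤ) ≤ |x i| := Int.one_le_abs hi
  show (1 : ℝ) ≤ |((x i : ℤ) : ℝ)|
  exact_mod_cast this

theorem low_smul {B : (ι → ℝ) →ₗ[ℝ] H} {c t : ℝ} (ht : 0 ≤ t) (h : ∀ y, c * ‖y‖ ≤ ‖B y‖) (y : ι → ℝ) :
    t * c * ‖y‖ ≤ ‖(t • B) y‖ := by
  rw [LinearMap.smul_apply, norm_smul, Real.norm_of_nonneg ht, mul_assoc]
  exact mul_le_mul_of_nonneg_left (h y) ht

/-- uniform bounds -/
theorem unif (ι : Type*) [Fintype ι] (H : Type*) [NormedAddCommGroup H] [InnerProductSpace ℝ H]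
    {c : ℝ} (hc : 0 < c) : ∃ T : ℝ, 0 ≤ T ∧ ∀ B : (ι → ℝ) →ₗ[ℝ] H, (∀ y, c * ‖y‖ ≤ ‖B y‖) →
      th B 0 ≤ T ∧ kap B ≤ T := by
  obtain ⟨R, hR, hR'⟩ := exists_ref ι hc
  refine ⟨th R 0, th_nonneg _ _, fun B h => ?_⟩
  have h1 : th B 0 ≤ th R 0 := th_zero_mono hR fun y => (hR' y).trans (h y)
  exact ⟨h1, (kap_le_th (inj_of_low hc h)).trans h1⟩

/-- uniform decay -/
theorem tail (ι : Type*) [Fintype ι] (H : Type*) [NormedAddCommGroup H] [InnerProductSpace ℝ H]
    {c : ℝ} (hc : 0 < c) : ∃ C : ℝ, 0 ≤ C ∧ ∀ B : (ι → ℝ) →ₗ[ℝ] H, (∀ y, c * ‖y‖ ≤ ‖B y‖) →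
      ∀ t : ℝ, 1 ≤ t → 0 ≤ th (t • B) 0 - 1 ∧ th (t • B) 0 - 1 ≤ C * exp (-c ^ 2 * t) := by
  classical
  obtain ⟨T, hT, h⟩ := unif ι H hc
  refine ⟨((1 / 2 : ℝ) ^ Fintype.card ι)⁻¹ * T, by positivity, fun B hB t ht => ?_⟩
  have ht0 : 0 < t := by linarith
  have hl := low_smul ht0.le hB
  have hi := inj_of_low (mul_pos ht0 hc) hl
  refine ⟨by linarith [one_le_th hi], ?_⟩
  have h1 : th (t • B) 0 ≤ T := (h _ fun y => le_trans (by
    have := norm_nonneg y
    have : 1 * c ≤ t * c := by gcongr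
    nlinarith) (hl y)).1
  have h2 := tail_le_gen hi 0 (R := t * c) (s := 1 / 2) (mul_pos ht0 hc).le (by norm_num) (by norm_num)
    (f := fun x => if x = 0 then 0 else 1) (fun x => by split_ifs <;> simp) (fun x hx => by
      by_cases h0 : x = 0
      · simp [h0]
      · exfalso
        have := hl (cast x)
        have h3 := one_le_norm_cast h0
        rw [add_zero] at hx
        nlinarith [mul_pos ht0 hc])
  rw [th_zero_sub_one hi]
  refine le_trans (le_of_eq ?_) (h2.trans ?_)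
  · congr
  have h3 : exp (-π * (1 - (1 / 2 : ℝ) ^ 2) * (t * c) ^ 2) ≤ exp (-c ^ 2 * t) := by
    refine exp_le_exp.2 ?_
    have h4 : c ^ 2 * t ≤ (t * c) ^ 2 := by nlinarith [sq_nonneg c, mul_nonneg (sq_nonneg c) ht0.le]
    nlinarith [Real.pi_gt_three, sq_nonneg (t * c)]
  calc _ ≤ ((1 / 2 : ℝ) ^ Fintype.card ι)⁻¹ * exp (-c ^ 2 * t) * T := by
        have := th_nonneg (t • B) (0 : H)
        gcongr
    _ = _ := by ring

theorem dual_low {A B : (ι → ℝ) →ₗ[ℝ] H} (h : IsDual A B) {b : ℝ} (hb : 0 < b)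
    (hA : ∀ y, ‖A y‖ ≤ b * ‖y‖) (y : ι → ℝ) : b⁻¹ * ‖y‖ ≤ ‖B y‖ := by
  have h0 : 0 ≤ y ⬝ᵥ y := Finset.sum_nonneg fun i _ => mul_self_nonneg _
  have h1 : ‖y‖ ≤ √(y ⬝ᵥ y) := (pi_norm_le_iff_of_nonneg (sqrt_nonneg _)).2 fun i => by
    rw [Real.norm_eq_abs]
    refine abs_le_sqrt ?_
    rw [sq]
    exact Finset.single_le_sum (f := fun i => y i * y i) (fun i _ => mul_self_nonneg _)
      (Finset.mem_univ i)
  have h2 : ‖y‖ ^ 2 ≤ y ⬝ᵥ y := by
    have := pow_le_pow_left₀ (norm_nonneg _) h1 2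
    rwa [sq_sqrt h0] at this
  have h3 : y ⬝ᵥ y ≤ ‖B y‖ * (b * ‖y‖) :=
    (le_abs_self _).trans ((h.abs_dot_le y y).trans (by gcongr; exact hA y))
  rw [inv_mul_le_iff₀ hb]
  rcases (norm_nonneg y).eq_or_lt with h4 | h4
  · rw [← h4]; positivity
  · exact le_of_mul_le_mul_right (by nlinarith) h4

/-- the pointwise functional equation -/
theorem fe_pt {A B : (ι → ℝ) →ₗ[ℝ] H} (h : IsDual A B) {t : ℝ} (ht : 0 < t) :
    (t ^ Fintype.card ι)⁻¹ * th (t⁻¹ • A) 0 - kap A = kap A * (th (t • B) 0 - 1) := by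
  have h1 := (h.smul (inv_ne_zero ht.ne')).th_zero_eq
  rw [inv_inv, kap_smul A (inv_pos.2 ht).le, inv_pow, inv_inv] at h1
  rw [h1]
  field_simp

/-- the theta function without its constant term -/
def G (t : ℝ) (ω : ι → H) : ℝ≥0∞ :=
  ∑' x : {x : ι → ℤ // x ≠ 0}, ENNReal.ofReal (rho (t • Fintype.linearCombination ℝ ω (cast x.1)))

theorem G_eq {t : ℝ} {ω : ι → H} (hi : Function.Injective (t • Fintype.linearCombination ℝ ω)) :
    G t ω = ENNReal.ofReal (th (t • Fintype.linearCombination ℝ ω) 0 - 1) := by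
  classical
  have hs := summable_rho hi 0
  simp only [add_zero, LinearMap.smul_apply] at hs
  have h1 : th (t • Fintype.linearCombination ℝ ω) 0 - 1 =
      ∑' x : {x : ι → ℤ // x ≠ 0}, rho (t • Fintype.linearCombination ℝ ω (cast x.1)) := by
    rw [th_zero_sub_one hi]
    have := tsum_subtype {x : ι → ℤ | x ≠ 0}
      fun x => rho (t • Fintype.linearCombination ℝ ω (cast x))
    refine Eq.trans (tsum_congr fun x => ?_) this.symm
    by_cases h0 : x = 0
    · simp [h0]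
    · simp [h0]
  rw [h1, ENNReal.ofReal_tsum_of_nonneg (fun _ => (rho_pos _).le) (hs.subtype _)]
  rfl

theorem G_anti (ω : ι → H) {s t : ℝ} (hs : 0 ≤ s) (hst : s ≤ t) : G t ω ≤ G s ω := by
  refine ENNReal.tsum_le_tsum fun x => ENNReal.ofReal_le_ofReal (rho_le_of_norm_le ?_)
  rw [norm_smul, norm_smul, Real.norm_of_nonneg hs, Real.norm_of_nonneg (hs.trans hst)]
  gcongr

theorem cont_lc : Continuous fun p : (ι → H) × (ι → ℝ) => Fintype.linearCombination ℝ p.1 p.2 := by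
  simp only [Fintype.linearCombination_apply]
  fun_prop

variable [FiniteDimensional ℝ H] [MeasurableSpace H] [BorelSpace H]

theorem G_meas (t : ℝ) : Measurable (G t : (ι → H) → ℝ≥0∞) := by
  have := FiniteDimensional.proper_real H
  refine Measurable.tsum fun x => ENNReal.measurable_ofReal.comp (Continuous.measurable ?_)
  exact continuous_rho.comp ((cont_lc.comp (Continuous.prodMk_left (cast x.1))).const_smul t)

theorem kap_meas : StronglyMeasurable fun ω : ι → H => kap (Fintype.linearCombination ℝ ω) := by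
  have := FiniteDimensional.proper_real H
  exact StronglyMeasurable.integral_prod_right' (ν := volume)
    (f := fun p : (ι → H) × (ι → ℝ) => rho (Fintype.linearCombination ℝ p.1 p.2))
    (continuous_rho.comp cont_lc).stronglyMeasurable

theorem locInt_of {f : ℝ → ℝ} (h : ∀ k ⊆ Ioi (0 : ℝ), IsCompact k → IntegrableOn f k) :
    LocallyIntegrableOn (fun t => (f t : ℂ)) (Ioi 0) :=
  (locallyIntegrableOn_iff isOpen_Ioi.isLocallyClosed).2 fun k hk hc => (h k hk hc).ofReal

theorem bigO_of {f : ℝ → ℂ} {C c : ℝ} (hc : 0 < c) (h : ∀ t, 1 ≤ t → ‖f t‖ ≤ C * exp (-c * t)) (r : ℝ) :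
    f =O[atTop] (· ^ r) := by
  refine IsBigO.trans (IsBigO.of_bound C ?_) (isLittleO_exp_neg_mul_rpow_atTop hc r).isBigO
  filter_upwards [eventually_ge_atTop 1] with t ht
  rw [Real.norm_of_nonneg (exp_pos _).le]
  exact h t ht

end Fe29

open Fe29 in
theorem feStmt : FeStmt.{u, v} := by
  intro ι _ _ H _ _ _ _ _ ν _ hν a b ha hab
  set N := Fintype.card ι with hN
  have hN0 : (0 : ℝ) < N := by exact_mod_cast Fintype.card_pos
  set A : (ι → H) → (ι → ℝ) →ₗ[ℝ] H := fun ω => Fintype.linearCombination ℝ ω with hA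
  set F : ℝ → ℝ≥0∞ := fun t => ∫⁻ ω, G t ω ∂ν with hF
  have hGe : ∀ t, 0 < t → ∀ᵐ ω ∂ν, G t ω = ENNReal.ofReal (th (t • A ω) 0 - 1) ∧
      0 ≤ th (t • A ω) 0 - 1 := fun t ht => by
    filter_upwards [hab] with ω hω
    have hi := inj_of_low (mul_pos ht ha) (low_smul ht.le fun y => (hω y).1)
    exact ⟨G_eq hi, by linarith [one_le_th hi]⟩
  have hFt : ∀ t, 0 < t → F t ≠ ⊤ := fun t ht => by
    obtain ⟨T, -, hT⟩ := unif ι H (mul_pos ht ha)
    refine ne_top_of_le_ne_top (b := ∫⁻ _, ENNReal.ofReal T ∂ν) ?_ (lintegral_mono_ae ?_)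
    · rw [lintegral_const]
      exact ENNReal.mul_ne_top ENNReal.ofReal_ne_top (measure_ne_top _ _)
    · filter_upwards [hab, hGe t ht] with ω hω h1
      rw [h1.1]
      exact ENNReal.ofReal_le_ofReal
        (by linarith [(hT _ (low_smul ht.le fun y => (hω y).1)).1])
  have hGr : ∀ t, 0 < t → ∀ᵐ ω ∂ν, (G t ω).toReal = th (t • A ω) 0 - 1 := fun t ht => by
    filter_upwards [hGe t ht] with ω h1
    rw [h1.1, ENNReal.toReal_ofReal h1.2]
  have hInt : ∀ t, 0 < t → Integrable (fun ω => th (t • A ω) 0 - 1) ν ∧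
      ∫ ω, (th (t • A ω) 0 - 1) ∂ν = (F t).toReal := fun t ht => by
    refine ⟨(integrable_toReal_of_lintegral_ne_top (G_meas t).aemeasurable (hFt t ht)).congr
      (hGr t ht), ?_⟩
    rw [← integral_congr_ae (hGr t ht)]
    exact integral_toReal (G_meas t).aemeasurable (ae_lt_top (G_meas t) (hFt t ht))
  have hanti : AntitoneOn (fun t => (F t).toReal) (Ioi 0) := fun s hs t _ hst =>
    ENNReal.toReal_mono (hFt s hs) (lintegral_mono fun ω => G_anti ω (le_of_lt hs) hst)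
  set f0 : ℝ := ν.real univ with hf0
  have hf00 : 0 < f0 := by
    rw [hf0, measureReal_def]
    exact ENNReal.toReal_pos (by simpa using hν) (measure_ne_top _ _)
  obtain ⟨T, hT0, hT⟩ := unif ι H ha
  have hkI : Integrable (fun ω => kap (A ω)) ν := by
    refine Integrable.of_bound kap_meas.aestronglyMeasurable T ?_
    filter_upwards [hab] with ω hω
    rw [Real.norm_of_nonneg (kap_pos (inj_of_low ha fun y => (hω y).1)).le]
    exact (hT _ fun y => (hω y).1).2
  set g0 : ℝ := ∫ ω, kap (A ω) ∂ν with hg0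
  have hg00 : 0 < g0 := by
    have hp : ∀ᵐ ω ∂ν, 0 < kap (A ω) := by
      filter_upwards [hab] with ω hω
      exact kap_pos (inj_of_low ha fun y => (hω y).1)
    rw [hg0, integral_pos_iff_support_of_nonneg_ae (hp.mono fun ω h => h.le) hkI]
    have : Function.support (fun ω => kap (A ω)) =ᵐ[ν] univ := by
      filter_upwards [hp] with ω h
      exact eq_true h.ne'
    rw [measure_congr this]
    simpa [pos_iff_ne_zero] using hν
  set f : ℝ → ℝ := fun t => f0 + (F t).toReal with hf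
  have hfa : AntitoneOn f (Ioi 0) := fun s hs t ht hst => add_le_add_right (hanti hs ht hst) _
  set g : ℝ → ℝ := fun t => (t ^ N)⁻¹ * f (1 / t) with hg
  obtain ⟨C, hC0, hC⟩ := tail ι H ha
  have hb : 0 < |b| + 1 := by positivity
  obtain ⟨C', hC0', hC'⟩ := tail ι H (inv_pos.2 hb)
  let P : WeakFEPair ℂ :=
    { f := fun t => f t
      g := fun t => g t
      k := N
      ε := 1
      f₀ := f0
      g₀ := g0
      hf_int := locInt_of fun k hk hc => (hfa.mono hk).integrableOn_isCompact hc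
      hg_int := locInt_of fun k hk hc => by
        have h1 : MonotoneOn (fun t => f (1 / t)) k := fun s hs t ht hst =>
          hfa (mem_Ioi.2 (one_div_pos.2 (hk ht))) (mem_Ioi.2 (one_div_pos.2 (hk hs)))
            (one_div_le_one_div_of_le (hk hs) hst)
        refine IntegrableOn.continuousOn_mul ?_ (h1.integrableOn_isCompact hc) hc
        exact (continuousOn_pow N).inv₀ fun t ht => (pow_pos (hk ht) N).ne'
      hk := hN0
      hε := one_ne_zero
      h_feq := fun x hx => by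
        have : x ^ N ≠ 0 := (pow_pos hx N).ne'
        rw [one_mul, smul_eq_mul, ← Complex.ofReal_mul, rpow_natCast, hg]
        congr 1
        field_simp
      hf_top := bigO_of (C := C * f0) (pow_pos ha 2) fun t ht => by
        have ht0 : 0 < t := by linarith
        rw [← Complex.ofReal_sub, Complex.norm_real, hf]
        simp only [add_sub_cancel_left]
        rw [← (hInt t ht0).2]
        refine (norm_integral_le_of_norm_le_const (C := C * exp (-a ^ 2 * t)) ?_).trans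
          (le_of_eq (by ring))
        filter_upwards [hab] with ω hω
        obtain ⟨h1, h2⟩ := hC _ (fun y => (hω y).1) t ht
        rwa [Real.norm_of_nonneg h1]
      hg_top := bigO_of (C := T * C' * f0) (pow_pos (inv_pos.2 hb) 2) fun t ht => by
        have ht0 : 0 < t := by linarith
        obtain ⟨i1, i2⟩ := hInt t⁻¹ (inv_pos.2 ht0)
        have e : g t - g0 =
            ∫ ω, ((t ^ N)⁻¹ * (1 + (th (t⁻¹ • A ω) 0 - 1)) - kap (A ω)) ∂ν := by
          have i3 : Integrable (fun ω => (t ^ N)⁻¹ * (1 + (th (t⁻¹ • A ω) 0 - 1))) ν :=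
            ((integrable_const _).add i1).const_mul _
          rw [integral_sub i3 hkI, integral_const_mul,
            integral_add (integrable_const _) i1, i2, integral_const, smul_eq_mul, mul_one, hg]
          simp only [hf, one_div]
          rfl
        rw [← Complex.ofReal_sub, Complex.norm_real, e]
        refine (norm_integral_le_of_norm_le_const
          (C := T * (C' * exp (-(|b| + 1)⁻¹ ^ 2 * t))) ?_).trans (le_of_eq (by ring))
        filter_upwards [hab] with ω hω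
        have hi := inj_of_low ha fun y => (hω y).1
        obtain ⟨B, hB⟩ := exists_dual hi
        obtain ⟨h1, h2⟩ := hC' B (dual_low hB hb fun y => (hω y).2.trans
          (mul_le_mul_of_nonneg_right (by linarith [le_abs_self b]) (norm_nonneg _))) t ht
        rw [add_sub_cancel, fe_pt hB ht0, Real.norm_of_nonneg (mul_nonneg (kap_pos hi).le h1)]
        exact mul_le_mul (hT _ fun y => (hω y).1).2 h2 h1 hT0 }
  have hNc : (N : ℂ) ≠ 0 := by exact_mod_cast hN0.ne'
  refine ⟨fun s => s * (1 - s) * P.Λ₀ (N * s) - (1 - s) * f0 / N - s * g0 / N, ?_, ?_, ?_, ?_⟩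
  · have := P.differentiable_Λ₀
    fun_prop
  · have : (f0 : ℂ) ≠ 0 := by exact_mod_cast hf00.ne'
    simp [this, hNc]
  · have : (g0 : ℂ) ≠ 0 := by exact_mod_cast hg00.ne'
    simp [this, hNc]
  intro s hs
  have hk : P.k < ((N * s : ℝ) : ℂ).re := by
    rw [Complex.ofReal_re]
    show (N : ℝ) < N * s
    nlinarith
  obtain ⟨m1, m2⟩ := P.hasMellin hk
  set φ : ℝ → ℝ := fun t => t ^ (N * s - 1) * (F t).toReal with hφ
  have hφe : EqOn (fun t : ℝ => (t : ℂ) ^ (((N * s : ℝ) : ℂ) - 1) • (P.f t - P.f₀))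
      (fun t => (φ t : ℂ)) (Ioi 0) := fun t ht => by
    show (t : ℂ) ^ (((N * s : ℝ) : ℂ) - 1) • ((f t : ℂ) - (f0 : ℂ)) = (φ t : ℂ)
    have e : ((φ t : ℝ) : ℂ) = (t : ℂ) ^ ((N * s - 1 : ℝ) : ℂ) * ((F t).toReal : ℂ) := by
      rw [← Complex.ofReal_cpow (le_of_lt ht), ← Complex.ofReal_mul]
    rw [e, smul_eq_mul]
    simp only [hf]
    push_cast
    ring
  have hφI : IntegrableOn φ (Ioi 0) := by
    have := (IntegrableOn.congr_fun m1 hφe measurableSet_Ioi).re
    exact this.congr (Eventually.of_forall fun t => by simp)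
  have hm : mel ν s = ENNReal.ofReal (∫ t in Ioi 0, φ t) := by
    rw [ofReal_integral_eq_lintegral_ofReal hφI
      ((ae_restrict_mem measurableSet_Ioi).mono fun t ht =>
        mul_nonneg (rpow_nonneg (le_of_lt ht) _) ENNReal.toReal_nonneg)]
    refine setLIntegral_congr_fun measurableSet_Ioi fun t ht => ?_
    simp only [hφ]
    rw [ENNReal.ofReal_mul (rpow_nonneg (le_of_lt ht) _), ENNReal.ofReal_toReal (hFt t ht)]
    rfl
  have hΛ : P.Λ ((N * s : ℝ) : ℂ) = ((∫ t in Ioi 0, φ t : ℝ) : ℂ) := by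
    rw [← m2, mellin, setIntegral_congr_fun measurableSet_Ioi hφe]
    exact integral_ofReal
  refine ⟨hm ▸ ENNReal.ofReal_ne_top, ?_⟩
  rw [hm, ENNReal.toReal_ofReal (setIntegral_nonneg measurableSet_Ioi fun t ht =>
    mul_nonneg (rpow_nonneg (le_of_lt ht) _) ENNReal.toReal_nonneg)]
  have e := P.Λ₀_eq ((N * s : ℝ) : ℂ)
  rw [hΛ] at e
  have e' : P.Λ₀ (N * s) = ((∫ t in Ioi 0, φ t : ℝ) : ℂ) + 1 / (N * s) * f0 + 1 / (N - N * s) * g0 := by
    simpa [P] using e
  have hs0 : (s : ℂ) ≠ 0 := by exact_mod_cast (by linarith : s ≠ 0)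
  have hs1 : (1 : ℂ) - s ≠ 0 := by exact_mod_cast (by linarith : 1 - s ≠ 0)
  have hs2 : (N : ℂ) - N * s = N * (1 - s) := by ring
  simp only
  rw [e', hs2]
  push_cast
  field_simp
  ring

end Crest.Agent.T24.Ab
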