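import Mathlib

/-! Row 24, module GAM: the Gaussian determinant integral over `ℝ` and `ℂ`,
`∫ |det g|^s exp(-π |g|²) dg = ∏_{j<n} Γ_ℝ(s + κ(j+1)) / Γ_ℝ(κ(j+1))`, `κ = [𝕜 : ℝ]`. -/

set_option autoImplicit false
set_option linter.unusedSectionVars false

open MeasureTheory Real Set
open scoped ENNReal

namespace Crest.Agent.T24.Gam83

theorem pi_wd {J : Type*} [Fintype J] {α : J → Type*} [∀ j, MeasurableSpace (α j)]
    (μ : ∀ j, Measure (α j)) [∀ j, SigmaFinite (μ j)] (f : ∀ j, α j → ℝ)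
    (h0 : ∀ j x, 0 ≤ f j x) (hi : ∀ j, Integrable (f j) (μ j))
    [∀ j, SigmaFinite ((μ j).withDensity fun x => ENNReal.ofReal (f j x))] :
    Measure.pi (fun j => (μ j).withDensity fun x => ENNReal.ofReal (f j x)) =
      (Measure.pi μ).withDensity fun y => ENNReal.ofReal (∏ j, f j (y j)) := by
  refine Measure.pi_eq fun s hs => ?_
  rw [withDensity_apply _ (MeasurableSet.univ_pi hs), ← lintegral_indicator
    (MeasurableSet.univ_pi hs)]
  have h1 : ∀ y : ∀ j, α j, (Set.pi Set.univ s).indicator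
      (fun y => ENNReal.ofReal (∏ j, f j (y j))) y =
      ENNReal.ofReal (∏ j, (s j).indicator (f j) (y j)) := by
    intro y
    by_cases hy : y ∈ Set.pi Set.univ s
    · rw [Set.indicator_of_mem hy]
      congr 1
      exact Finset.prod_congr rfl fun j _ => (Set.indicator_of_mem (hy j trivial) _).symm
    · rw [Set.indicator_of_notMem hy]
      simp only [Set.mem_pi, Set.mem_univ, forall_const, not_forall] at hy
      obtain ⟨j, hj⟩ := hy
      rw [Finset.prod_eq_zero (Finset.mem_univ j) (Set.indicator_of_notMem hj _),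
        ENNReal.ofReal_zero]
  simp_rw [h1]
  have h2 : ∀ j x, 0 ≤ (s j).indicator (f j) x := fun j x =>
    Set.indicator_nonneg (fun x _ => h0 j x) x
  rw [← ofReal_integral_eq_lintegral_ofReal
    (Integrable.fintype_prod_dep fun j => (hi j).indicator (hs j))
    (ae_of_all _ fun y => Finset.prod_nonneg fun j _ => h2 j _), integral_fintype_prod_eq_prod,
    ENNReal.ofReal_prod_of_nonneg fun j _ => integral_nonneg (h2 j)]
  refine Finset.prod_congr rfl fun j _ => ?_
  rw [withDensity_apply _ (hs j), integral_indicator (hs j),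
    ofReal_integral_eq_lintegral_ofReal (hi j).integrableOn (ae_of_all _ (h0 j))]

theorem mp_wd {α β : Type*} [MeasurableSpace α] [MeasurableSpace β]
    {μ : Measure α} {ν : Measure β} {T : α → β} (hT : MeasurePreserving T μ ν) {f : β → ℝ≥0∞}
    (hf : Measurable f) : MeasurePreserving T (μ.withDensity fun x => f (T x)) (ν.withDensity f) := by
  refine ⟨hT.measurable, ?_⟩
  ext s hs
  rw [Measure.map_apply hT.measurable hs, withDensity_apply _ (hT.measurable hs),
    withDensity_apply _ hs, hT.setLIntegral_comp_preimage hs hf]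

variable {𝕜 : Type} [RCLike 𝕜] [MeasurableSpace 𝕜] [BorelSpace 𝕜]

/-- squared Euclidean norm -/
noncomputable def nsq {ι : Type} [Fintype ι] (x : ι → 𝕜) : ℝ := ∑ i, ‖x i‖ ^ 2

theorem nsq_nonneg {ι : Type} [Fintype ι] (x : ι → 𝕜) : 0 ≤ nsq x :=
  Finset.sum_nonneg fun _ _ => by positivity

theorem continuous_nsq {ι : Type} [Fintype ι] : Continuous (nsq : (ι → 𝕜) → ℝ) := by
  unfold nsq; fun_prop

theorem sqrt_nsq {ι : Type} [Fintype ι] (x : ι → 𝕜) :
    √(nsq x) = ‖(WithLp.toLp 2 x : EuclideanSpace 𝕜 ι)‖ := by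
  rw [EuclideanSpace.norm_eq]; rfl

/-- one-dimensional Gaussian -/
noncomputable def g1 (μ : Measure 𝕜) : Measure 𝕜 :=
  μ.withDensity fun x => ENNReal.ofReal (exp (-π * ‖x‖ ^ 2))

/-- Gaussian on vectors -/
noncomputable def gv (μ : Measure 𝕜) (ι : Type) [Fintype ι] : Measure (ι → 𝕜) :=
  Measure.pi fun _ : ι => g1 μ

/-- Gaussian on square matrices (as families of rows) -/
noncomputable def gm (μ : Measure 𝕜) (n : ℕ) : Measure (Fin n → Fin n → 𝕜) :=
  Measure.pi fun _ : Fin n => gv μ (Fin n)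

/-- the normalisation hypothesis -/
def Nrm (μ : Measure 𝕜) : Prop := ∫ x, exp (-π * ‖x‖ ^ 2) ∂μ = 1

theorem Nrm.int {μ : Measure 𝕜} (h : Nrm μ) : Integrable (fun x : 𝕜 => exp (-π * ‖x‖ ^ 2)) μ :=
  Integrable.of_integral_ne_zero (by rw [h]; exact one_ne_zero)

theorem Nrm.prob {μ : Measure 𝕜} (h : Nrm μ) : IsProbabilityMeasure (g1 μ) := by
  constructor
  rw [g1, withDensity_apply _ MeasurableSet.univ, Measure.restrict_univ,
    ← ofReal_integral_eq_lintegral_ofReal h.int (ae_of_all _ fun x => (exp_pos _).le), h]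
  simp

theorem Nrm.probv {μ : Measure 𝕜} (h : Nrm μ) (ι : Type) [Fintype ι] :
    IsProbabilityMeasure (gv μ ι) := by
  have := h.prob
  unfold gv; infer_instance

theorem prod_exp {ι : Type} [Fintype ι] (x : ι → 𝕜) :
    ∏ i, exp (-π * ‖x i‖ ^ 2) = exp (-π * nsq x) := by
  rw [← Real.exp_sum, nsq, Finset.mul_sum]

variable (μ : Measure 𝕜) [μ.IsAddHaarMeasure]

theorem gv_eq (h : Nrm μ) (ι : Type) [Fintype ι] :
    gv μ ι = (Measure.pi fun _ : ι => μ).withDensity
      fun x => ENNReal.ofReal (exp (-π * nsq x)) := by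
  have := h.prob
  have h2 : ∀ _ : ι, SigmaFinite (μ.withDensity fun x => ENNReal.ofReal (exp (-π * ‖x‖ ^ 2))) :=
    fun _ => inferInstanceAs (SigmaFinite (g1 μ))
  have h3 := pi_wd (fun _ : ι => μ) (fun _ x => exp (-π * ‖x‖ ^ 2))
    (fun _ _ => (exp_pos _).le) (fun _ => h.int)
  simp only [prod_exp] at h3
  exact h3

theorem int_nsq (h : Nrm μ) (ι : Type) [Fintype ι] :
    ∫ x : ι → 𝕜, exp (-π * nsq x) ∂(Measure.pi fun _ : ι => μ) = 1 := by
  simp only [← prod_exp]
  rw [integral_fintype_prod_eq_prod (fun (_ : ι) (x : 𝕜) => exp (-π * ‖x‖ ^ 2))]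
  have : ∫ x, exp (-π * ‖x‖ ^ 2) ∂μ = 1 := h
  simp only [this, Finset.prod_const_one]

theorem gm_eq (h : Nrm μ) (n : ℕ) :
    gm μ n = (Measure.pi fun _ : Fin n => Measure.pi fun _ : Fin n => μ).withDensity
      fun g => ENNReal.ofReal (exp (-π * ∑ i, nsq (g i))) := by
  have := h.probv (Fin n)
  have hi : Integrable (fun x : Fin n → 𝕜 => exp (-π * nsq x)) (Measure.pi fun _ => μ) :=
    Integrable.of_integral_ne_zero (by rw [int_nsq μ h]; exact one_ne_zero)
  have h2 : ∀ _ : Fin n, SigmaFinite ((Measure.pi fun _ : Fin n => μ).withDensity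
      fun x => ENNReal.ofReal (exp (-π * nsq x))) := fun _ => by
    rw [← gv_eq μ h]; infer_instance
  have h3 := @pi_wd _ _ _ _ (fun _ : Fin n => Measure.pi fun _ : Fin n => μ) _
    (fun _ x => exp (-π * nsq x)) (fun _ _ => (exp_pos _).le) (fun _ => hi) h2
  simp only [← Real.exp_sum, ← Finset.mul_sum] at h3
  rw [← h3, gm, gv_eq μ h]

/-- a linear map preserving `nsq` preserves the Gaussian -/
theorem mp_lin (h : Nrm μ) {ι : Type} [Fintype ι] (T : (ι → 𝕜) →ₗ[ℝ] (ι → 𝕜))
    (hT : ∀ x, nsq (T x) = nsq x) : MeasurePreserving T (gv μ ι) (gv μ ι) := by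
  classical
  have hinj : Function.Injective T := by
    rw [injective_iff_map_eq_zero]
    intro x hx
    have h1 := hT x
    rw [hx] at h1
    have h2 : nsq x = 0 := by rw [← h1]; simp [nsq]
    funext i
    have := (Finset.sum_eq_zero_iff_of_nonneg (fun _ _ => by positivity)).1 h2 i (Finset.mem_univ i)
    simpa using this
  have hdet : LinearMap.det T ≠ 0 := by
    have : IsUnit T := (LinearMap.isUnit_iff_ker_eq_bot T).2 (LinearMap.ker_eq_bot.2 hinj)
    exact (this.map LinearMap.det).ne_zero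
  have hm : Measurable T := T.continuous_of_finiteDimensional.measurable
  have hw : Measurable fun x : ι → 𝕜 => ENNReal.ofReal (exp (-π * nsq x)) :=
    (by have := continuous_nsq (𝕜 := 𝕜) (ι := ι); fun_prop :
      Continuous fun x : ι → 𝕜 => exp (-π * nsq x)).measurable.ennreal_ofReal
  have h1 := Measure.map_linearMap_addHaar_eq_smul_addHaar (Measure.pi fun _ : ι => μ) hdet
  have h2 : ∫⁻ x, ENNReal.ofReal (exp (-π * nsq x)) ∂(Measure.pi fun _ : ι => μ) = 1 := by
    have := (h.probv ι).measure_univ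
    rwa [gv_eq μ h, withDensity_apply _ MeasurableSet.univ, Measure.restrict_univ] at this
  have h3 : ENNReal.ofReal |(LinearMap.det T)⁻¹| = 1 := by
    have h4 : ∫⁻ x, ENNReal.ofReal (exp (-π * nsq x)) ∂(Measure.map T (Measure.pi fun _ : ι => μ))
        = 1 := by
      rw [lintegral_map hw hm]; simp only [hT]; exact h2
    rw [h1, lintegral_smul_measure, h2] at h4
    simpa using h4
  have h5 : MeasurePreserving T (Measure.pi fun _ : ι => μ) (Measure.pi fun _ : ι => μ) :=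
    ⟨hm, by rw [h1, h3, one_smul]⟩
  have h6 := mp_wd h5 hw
  simp only [hT] at h6
  rw [gv_eq μ h]
  exact h6

/-- a unitary map rotating `c` to the first axis -/
theorem exists_rot {n : ℕ} (c : Fin (n + 1) → 𝕜) :
    ∃ T : (Fin (n + 1) → 𝕜) →ₗ[𝕜] (Fin (n + 1) → 𝕜), (∀ x, nsq (T x) = nsq x) ∧
      T c = Pi.single 0 ((√(nsq c) : ℝ) : 𝕜) ∧
      ∀ g : Fin (n + 1) → Fin (n + 1) → 𝕜,
        ‖(Matrix.of fun i => T (g i)).det‖ = ‖(Matrix.of g).det‖ := by
  by_cases hc : c = 0
  · refine ⟨LinearMap.id, fun _ => rfl, ?_, fun _ => rfl⟩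
    subst hc
    simp [nsq]
  set v : EuclideanSpace 𝕜 (Fin (n + 1)) := WithLp.toLp 2 c with hv
  have hv0 : ‖v‖ ≠ 0 := by
    rw [norm_ne_zero_iff]
    intro h
    apply hc
    have := congrArg WithLp.ofLp h
    simpa [hv] using this
  have hor : Orthonormal 𝕜 (({0} : Set (Fin (n + 1))).domRestrict
      (fun _ => ((‖v‖⁻¹ : ℝ) : 𝕜) • v)) := by
    constructor
    · intro i
      simp [norm_smul, hv0]
    · intro i j hij
      exact absurd (Subsingleton.elim i j) hij
  obtain ⟨b, hb⟩ := hor.exists_orthonormalBasis_extension_of_card_eq (by simp)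
  have hb0 := hb 0 rfl
  let T : (Fin (n + 1) → 𝕜) →ₗ[𝕜] (Fin (n + 1) → 𝕜) :=
    (WithLp.linearEquiv 2 𝕜 (Fin (n + 1) → 𝕜)).toLinearMap ∘ₗ b.repr.toLinearEquiv.toLinearMap ∘ₗ
      (WithLp.linearEquiv 2 𝕜 (Fin (n + 1) → 𝕜)).symm.toLinearMap
  have hT : ∀ x, T x = WithLp.ofLp (b.repr (WithLp.toLp 2 x)) := fun _ => rfl
  refine ⟨T, fun x => ?_, ?_, fun g => ?_⟩
  · have h1 : √(nsq (T x)) = √(nsq x) := by
      rw [sqrt_nsq, sqrt_nsq, hT, WithLp.toLp_ofLp, LinearIsometryEquiv.norm_map]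
    exact (Real.sqrt_inj (nsq_nonneg _) (nsq_nonneg _)).1 h1
  · have h1 : v = ((‖v‖ : ℝ) : 𝕜) • b 0 := by
      rw [hb0, smul_smul, ← RCLike.ofReal_mul, mul_inv_cancel₀ hv0]; simp
    rw [hT, ← hv, sqrt_nsq, ← hv]
    conv_lhs => rw [h1]
    rw [map_smul, b.repr_self]
    funext i
    by_cases hi : i = 0
    · subst hi; simp [RCLike.real_smul_eq_coe_mul]
    · simp [hi]
  · let a := EuclideanSpace.basisFun (Fin (n + 1)) 𝕜
    let w : Fin (n + 1) → EuclideanSpace 𝕜 (Fin (n + 1)) := fun i => WithLp.toLp 2 (g i)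
    have h1 := a.toBasis.toMatrix_mul_toMatrix b.toBasis w
    have h2 : a.toBasis.toMatrix w = (Matrix.of g).transpose := by
      ext i j; simp [Module.Basis.toMatrix_apply, a, w]
    have h3 : b.toBasis.toMatrix w = (Matrix.of fun i => T (g i)).transpose := by
      ext i j; simp [Module.Basis.toMatrix_apply, w, hT]
    have h4 := a.det_to_matrix_orthonormalBasis b
    rw [Module.Basis.det_apply] at h4
    have h5 := congrArg (fun M => ‖Matrix.det M‖) h1
    simp only [Matrix.det_mul, norm_mul, h2, h3, Matrix.det_transpose, OrthonormalBasis.coe_toBasis,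
      h4, one_mul] at h5
    exact h5

theorem measurable_det (n : ℕ) :
    Measurable fun g : Fin n → Fin n → 𝕜 => ‖(Matrix.of g).det‖ := by
  have : Continuous fun g : Fin n → Fin n → 𝕜 => (Matrix.of g).det :=
    Continuous.matrix_det (A := fun g : Fin n → Fin n → 𝕜 => Matrix.of g) continuous_id
  exact this.norm.measurable

theorem det_cons {n : ℕ} (a : 𝕜) (r : Fin n → Fin (n + 1) → 𝕜) :
    (Matrix.of (Fin.cons (Pi.single 0 a) r : Fin (n + 1) → Fin (n + 1) → 𝕜)).det =
      a * (Matrix.of fun i j => r i (Fin.succ j)).det := by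
  rw [Matrix.det_succ_row_zero, Fin.sum_univ_succ]
  have : ∀ j : Fin n, (Pi.single 0 a : Fin (n + 1) → 𝕜) (Fin.succ j) = 0 := fun j => by
    simp
  simp only [Matrix.of_apply, Fin.cons_zero, this, mul_zero, zero_mul, Finset.sum_const_zero,
    add_zero, Pi.single_eq_same]
  simp only [Fin.val_zero, pow_zero, one_mul]
  congr 2

/-- the recursion, in `lintegral` form -/
theorem lint_succ (h : Nrm μ) (n : ℕ) {F : ℝ → ℝ≥0∞} (hF : Measurable F) :
    ∫⁻ g, F ‖(Matrix.of g).det‖ ∂(gm μ (n + 1)) =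
      ∫⁻ p : (Fin (n + 1) → 𝕜) × (Fin n → Fin n → 𝕜), F (√(nsq p.1) * ‖(Matrix.of p.2).det‖)
        ∂((gv μ (Fin (n + 1))).prod (gm μ n)) := by
  have := h.prob
  have := h.probv (Fin (n + 1))
  have := h.probv (Fin n)
  have hP : IsProbabilityMeasure (gm μ n) := by unfold gm; infer_instance
  have hs : Measurable fun x : Fin (n + 1) → 𝕜 => √(nsq x) :=
    (continuous_nsq.sqrt).measurable
  have h1 := (measurePreserving_piFinSuccAbove (fun _ : Fin (n + 1) => gv μ (Fin (n + 1))) 0).symm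
  have hF' : Measurable fun g : Fin (n + 1) → Fin (n + 1) → 𝕜 => F ‖(Matrix.of g).det‖ :=
    hF.comp (measurable_det (n + 1))
  rw [gm, ← h1.lintegral_comp hF', lintegral_prod, lintegral_prod]
  · refine lintegral_congr fun c => ?_
    obtain ⟨T, hT1, hT2, hT3⟩ := exists_rot c
    have m1 := mp_lin μ h (T.restrictScalars ℝ) hT1
    have m2 : MeasurePreserving (fun x : Fin (n + 1) → 𝕜 => fun j : Fin n => x (Fin.succ j))
        (gv μ (Fin (n + 1))) (gv μ (Fin n)) :=
      measurePreserving_snd.comp (measurePreserving_piFinSuccAbove (fun _ : Fin (n + 1) => g1 μ) 0)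
    have m3 := measurePreserving_pi (fun _ : Fin n => gv μ (Fin (n + 1))) (fun _ => gv μ (Fin n))
      (fun _ => m2.comp m1)
    have hG : Measurable fun g : Fin n → Fin n → 𝕜 => F (√(nsq c) * ‖(Matrix.of g).det‖) :=
      hF.comp ((measurable_det n).const_mul _)
    rw [gm, ← m3.lintegral_comp hG]
    refine lintegral_congr fun r => ?_
    congr 1
    have e1 : (MeasurableEquiv.piFinSuccAbove (fun _ : Fin (n + 1) => Fin (n + 1) → 𝕜) 0).symm (c, r)
        = Fin.cons c r := by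
      simp [MeasurableEquiv.piFinSuccAbove_symm_apply, Fin.consEquiv]
    rw [e1, ← hT3]
    have e2 : (fun i => T ((Fin.cons c r : Fin (n + 1) → Fin (n + 1) → 𝕜) i)) =
        Fin.cons (Pi.single 0 ((√(nsq c) : ℝ) : 𝕜)) (fun i => T (r i)) := by
      funext i
      refine Fin.cases ?_ (fun i => ?_) i
      · simpa using hT2
      · simp
    rw [e2, det_cons, norm_mul, RCLike.norm_ofReal, abs_of_nonneg (Real.sqrt_nonneg _)]
    rfl
  · exact (hF.comp ((hs.comp measurable_fst).mul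
      ((measurable_det n).comp measurable_snd))).aemeasurable
  · exact (hF'.comp h1.measurable).aemeasurable

/-- the recursion, as an identity of laws -/
theorem map_succ (h : Nrm μ) (n : ℕ) :
    (gm μ (n + 1)).map (fun g => ‖(Matrix.of g).det‖) =
      ((gv μ (Fin (n + 1))).prod (gm μ n)).map
        (fun p : (Fin (n + 1) → 𝕜) × (Fin n → Fin n → 𝕜) =>
          √(nsq p.1) * ‖(Matrix.of p.2).det‖) := by
  have hs : Measurable fun x : Fin (n + 1) → 𝕜 => √(nsq x) :=
    (continuous_nsq.sqrt).measurable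
  have hm : Measurable fun p : (Fin (n + 1) → 𝕜) × (Fin n → Fin n → 𝕜) =>
      √(nsq p.1) * ‖(Matrix.of p.2).det‖ :=
    (hs.comp measurable_fst).mul ((measurable_det n).comp measurable_snd)
  ext s hs'
  rw [← lintegral_indicator_one hs', ← lintegral_indicator_one hs',
    lintegral_map (measurable_one.indicator hs') (measurable_det _),
    lintegral_map (measurable_one.indicator hs') hm]
  exact lint_succ μ h n (measurable_one.indicator hs')

theorem half_gam {a : ℂ} (ha : 0 < a.re) :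
    ∫ y in Ioi (0 : ℝ), (y : ℂ) ^ (a - 1) * Complex.exp (-π * (y : ℂ) ^ 2) = Complex.Gammaℝ a / 2 := by
  have h1 := Complex.integral_cpow_mul_exp_neg_mul_Ioi (a := a / 2) (r := π)
    (by simp; linarith) pi_pos
  have h2 := integral_comp_rpow_Ioi_of_pos
    (g := fun t : ℝ => (t : ℂ) ^ (a / 2 - 1) * Complex.exp (-(π * t))) (p := 2) two_pos
  rw [h1] at h2
  have h3 : ∫ x in Ioi (0 : ℝ), (2 * x ^ ((2 : ℝ) - 1)) •
      (((x ^ (2 : ℝ) : ℝ) : ℂ) ^ (a / 2 - 1) * Complex.exp (-(π * ((x ^ (2 : ℝ) : ℝ) : ℂ)))) =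
      ∫ y in Ioi (0 : ℝ), 2 * ((y : ℂ) ^ (a - 1) * Complex.exp (-π * (y : ℂ) ^ 2)) := by
    refine setIntegral_congr_fun measurableSet_Ioi fun x hx => ?_
    have hx' : (0 : ℝ) < x := hx
    have hx0 : (x : ℂ) ≠ 0 := by exact_mod_cast hx'.ne'
    have e1 : ((x ^ (2 : ℝ) : ℝ) : ℂ) = (x : ℂ) * x := by
      rw [Real.rpow_two]; push_cast; ring
    have e2 : (x : ℂ) ^ (a - 1) = x * ((x : ℂ) ^ (a / 2 - 1) * (x : ℂ) ^ (a / 2 - 1)) := by
      rw [← Complex.cpow_add _ _ hx0,
        show a - 1 = 1 + (a / 2 - 1 + (a / 2 - 1)) by ring, Complex.cpow_add _ _ hx0,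
        Complex.cpow_one]
    rw [e1, Complex.mul_cpow_ofReal_nonneg hx'.le hx'.le, e2]
    have : (2 : ℝ) - 1 = 1 := by norm_num
    rw [this, Real.rpow_one, Complex.real_smul]
    push_cast
    ring_nf
  rw [h3, integral_const_mul] at h2
  rw [Complex.Gammaℝ_def, eq_div_iff two_ne_zero, mul_comm, h2, one_div, Complex.inv_cpow, ← Complex.cpow_neg,
    neg_div]
  rw [Complex.arg_ofReal_of_nonneg pi_pos.le]
  exact pi_pos.ne

/-- radial moments of the Gaussian -/
theorem radial (h : Nrm μ) (m : ℕ) {s : ℂ}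
    (hs : 0 < s.re + (Module.finrank ℝ 𝕜 * (m + 1) : ℕ)) :
    ∫ x, ((√(nsq x) : ℝ) : ℂ) ^ s ∂(gv μ (Fin (m + 1))) =
      Complex.Gammaℝ (s + (Module.finrank ℝ 𝕜 * (m + 1) : ℕ)) /
        Complex.Gammaℝ ((Module.finrank ℝ 𝕜 * (m + 1) : ℕ) : ℂ) := by
  set N : ℕ := Module.finrank ℝ 𝕜 * (m + 1) with hN
  have hN0 : 0 < N := Nat.mul_pos Module.finrank_pos (Nat.succ_pos m)
  let e : (Fin (m + 1) → 𝕜) ≃L[ℝ] EuclideanSpace 𝕜 (Fin (m + 1)) :=
    (PiLp.continuousLinearEquiv 2 ℝ (fun _ : Fin (m + 1) => 𝕜)).symm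
  let ν : Measure (EuclideanSpace 𝕜 (Fin (m + 1))) := (Measure.pi fun _ => μ).map e
  have hν : ν.IsAddHaarMeasure := e.isAddHaarMeasure_map _
  have hdim : Module.finrank ℝ (EuclideanSpace 𝕜 (Fin (m + 1))) = N := by
    rw [← e.toLinearEquiv.finrank_eq, Module.finrank_pi_fintype, hN]
    simp [mul_comm]
  have hw : Measurable fun x : Fin (m + 1) → 𝕜 => exp (-π * nsq x) :=
    (by have := continuous_nsq (𝕜 := 𝕜) (ι := Fin (m + 1)); fun_prop :
      Continuous fun x : Fin (m + 1) → 𝕜 => exp (-π * nsq x)).measurable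
  have key : ∀ t : ℂ, 0 < t.re + N → ∫ x, ((√(nsq x) : ℝ) : ℂ) ^ t ∂(gv μ (Fin (m + 1))) =
      (N * ν.real (Metric.ball 0 1) : ℝ) * (Complex.Gammaℝ (t + N) / 2) := by
    intro t ht
    have h1 := integral_fun_norm_addHaar ν
      (fun y : ℝ => (y : ℂ) ^ t * Complex.exp (-π * (y : ℂ) ^ 2))
    rw [hdim] at h1
    have h2 : ∫ y in Ioi (0 : ℝ), y ^ (N - 1) • ((y : ℂ) ^ t * Complex.exp (-π * (y : ℂ) ^ 2)) =
        Complex.Gammaℝ (t + N) / 2 := by
      rw [← half_gam (by simpa using ht)]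
      refine setIntegral_congr_fun measurableSet_Ioi fun x hx => ?_
      have hx' : (0 : ℝ) < x := hx
      have hx0 : (x : ℂ) ≠ 0 := by exact_mod_cast hx'.ne'
      have e1 : t + N - 1 = ((N - 1 : ℕ) : ℂ) + t := by
        rw [Nat.cast_sub hN0]; push_cast; ring
      simp only [Complex.real_smul]
      rw [e1, Complex.cpow_add _ _ hx0, Complex.cpow_natCast]
      push_cast
      ring
    rw [h2] at h1
    have h3 : ∫ x, ((‖x‖ : ℝ) : ℂ) ^ t * Complex.exp (-π * ((‖x‖ : ℝ) : ℂ) ^ 2) ∂ν =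
        ∫ x, ((√(nsq x) : ℝ) : ℂ) ^ t ∂(gv μ (Fin (m + 1))) := by
      rw [gv_eq μ h]
      have h4 := integral_withDensity_eq_integral_toReal_smul
        (μ := Measure.pi fun _ : Fin (m + 1) => μ) hw.ennreal_ofReal
        (ae_of_all _ fun _ => ENNReal.ofReal_lt_top) (fun x => ((√(nsq x) : ℝ) : ℂ) ^ t)
      rw [h4]
      have h5 := e.toHomeomorph.measurableEmbedding.integral_map
        (μ := Measure.pi fun _ : Fin (m + 1) => μ)
        (fun x => ((‖x‖ : ℝ) : ℂ) ^ t * Complex.exp (-π * ((‖x‖ : ℝ) : ℂ) ^ 2))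
      refine h5.trans (integral_congr_ae (ae_of_all _ fun x => ?_))
      have h6 : ‖e.toHomeomorph x‖ = √(nsq x) := (sqrt_nsq x).symm
      simp only [h6, ENNReal.toReal_ofReal (exp_pos _).le, Complex.real_smul]
      rw [← Complex.ofReal_pow, Real.sq_sqrt (nsq_nonneg x)]
      push_cast
      ring
    rw [← h3, h1, nsmul_eq_mul, Complex.real_smul]
    push_cast
    ring
  have h0 := key 0 (by simpa using hN0)
  have := h.probv (Fin (m + 1))
  simp only [Complex.cpow_zero, integral_const, probReal_univ, one_smul, zero_add] at h0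
  have hG : Complex.Gammaℝ (N : ℂ) ≠ 0 := Complex.Gammaℝ_ne_zero_of_re_pos (by simpa using hN0)
  rw [key s hs, eq_div_iff hG]
  linear_combination (-Complex.Gammaℝ (s + N)) * h0

/-- moments of `|det|` under the Gaussian probability measure -/
theorem gm_cpow (h : Nrm μ) (n : ℕ) {s : ℂ} (hs : 0 < s.re + Module.finrank ℝ 𝕜) :
    ∫ g, ((‖(Matrix.of g).det‖ : ℝ) : ℂ) ^ s ∂(gm μ n) =
      ∏ j ∈ Finset.range n, Complex.Gammaℝ (s + (Module.finrank ℝ 𝕜 * (j + 1) : ℕ)) /
        Complex.Gammaℝ ((Module.finrank ℝ 𝕜 * (j + 1) : ℕ) : ℂ) := by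
  induction n with
  | zero =>
    have := h.probv (Fin 0)
    have hP : IsProbabilityMeasure (gm μ 0) := by unfold gm; infer_instance
    simp
  | succ n ih =>
    have := h.probv (Fin (n + 1))
    have := h.probv (Fin n)
    have hP : IsProbabilityMeasure (gm μ n) := by unfold gm; infer_instance
    have hs' : Measurable fun x : Fin (n + 1) → 𝕜 => √(nsq x) :=
      (continuous_nsq.sqrt).measurable
    have hm : Measurable fun p : (Fin (n + 1) → 𝕜) × (Fin n → Fin n → 𝕜) =>
        √(nsq p.1) * ‖(Matrix.of p.2).det‖ :=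
      (hs'.comp measurable_fst).mul ((measurable_det n).comp measurable_snd)
    have hφ : Measurable fun a : ℝ => (a : ℂ) ^ s := by fun_prop
    have h1 := integral_map (μ := gm μ (n + 1)) (measurable_det (n + 1)).aemeasurable
      hφ.aestronglyMeasurable
    have h2 := integral_map (μ := (gv μ (Fin (n + 1))).prod (gm μ n)) hm.aemeasurable
      hφ.aestronglyMeasurable
    rw [← h1, map_succ μ h, h2, Finset.prod_range_succ, ← ih, ← radial μ h n, mul_comm,
      ← integral_prod_mul]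
    · refine integral_congr_ae (ae_of_all _ fun p => ?_)
      simp only
      rw [Complex.ofReal_mul, Complex.mul_cpow_ofReal_nonneg (Real.sqrt_nonneg _) (norm_nonneg _)]
    · have : (Module.finrank ℝ 𝕜 : ℝ) ≤ (Module.finrank ℝ 𝕜 * (n + 1) : ℕ) := by
        exact_mod_cast Nat.le_mul_of_pos_right _ (Nat.succ_pos n)
      linarith

/-- **Gaussian determinant integral**, complex exponent. -/
theorem det_cpow (h : Nrm μ) (n : ℕ) {s : ℂ} (hs : 0 < s.re + Module.finrank ℝ 𝕜) :
    ∫ g : Fin n → Fin n → 𝕜, ((‖(Matrix.of g).det‖ : ℝ) : ℂ) ^ s *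
        (exp (-π * ∑ i, ∑ j, ‖g i j‖ ^ 2) : ℝ)
        ∂(Measure.pi fun _ : Fin n => Measure.pi fun _ : Fin n => μ) =
      ∏ j ∈ Finset.range n, Complex.Gammaℝ (s + (Module.finrank ℝ 𝕜 * (j + 1) : ℕ)) /
        Complex.Gammaℝ ((Module.finrank ℝ 𝕜 * (j + 1) : ℕ) : ℂ) := by
  rw [← gm_cpow μ h n hs, gm_eq μ h]
  have hw : Measurable fun g : Fin n → Fin n → 𝕜 => exp (-π * ∑ i, nsq (g i)) :=
    (by unfold nsq; fun_prop :
      Continuous fun g : Fin n → Fin n → 𝕜 => exp (-π * ∑ i, nsq (g i))).measurable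
  rw [integral_withDensity_eq_integral_toReal_smul hw.ennreal_ofReal
    (ae_of_all _ fun _ => ENNReal.ofReal_lt_top)]
  refine integral_congr_ae (ae_of_all _ fun g => ?_)
  simp only [ENNReal.toReal_ofReal (exp_pos _).le, Complex.real_smul, nsq]
  ring

theorem det_cpow_integrable (h : Nrm μ) (n : ℕ) {s : ℂ} (hs : 0 < s.re + Module.finrank ℝ 𝕜) :
    Integrable (fun g : Fin n → Fin n → 𝕜 => ((‖(Matrix.of g).det‖ : ℝ) : ℂ) ^ s *
        (exp (-π * ∑ i, ∑ j, ‖g i j‖ ^ 2) : ℝ))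
        (Measure.pi fun _ : Fin n => Measure.pi fun _ : Fin n => μ) := by
  refine Integrable.of_integral_ne_zero ?_
  rw [det_cpow μ h n hs]
  refine Finset.prod_ne_zero_iff.2 fun j _ => div_ne_zero
    (Complex.Gammaℝ_ne_zero_of_re_pos ?_) (Complex.Gammaℝ_ne_zero_of_re_pos ?_)
  · have : (Module.finrank ℝ 𝕜 : ℝ) ≤ (Module.finrank ℝ 𝕜 * (j + 1) : ℕ) := by
      exact_mod_cast Nat.le_mul_of_pos_right _ (Nat.succ_pos j)
    simp only [Complex.add_re, Complex.natCast_re]
    linarith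
  · simp only [Complex.natCast_re]
    exact_mod_cast Nat.mul_pos Module.finrank_pos (Nat.succ_pos j)

theorem nrm_real : Nrm (volume : Measure ℝ) := by
  have := integral_gaussian π
  rw [div_self pi_pos.ne', Real.sqrt_one] at this
  simpa [Nrm] using this

theorem nrm_complex : Nrm (volume : Measure ℂ) := by
  have := Complex.integral_exp_neg_mul_rpow (p := 2) (b := π) one_le_two pi_pos
  have e1 : (-2 / 2 : ℝ) = -1 := by norm_num
  have e2 : (2 / 2 + 1 : ℝ) = 2 := by norm_num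
  rw [e1, e2, Real.Gamma_two, Real.rpow_neg_one, mul_inv_cancel₀ pi_pos.ne', mul_one] at this
  simpa [Nrm] using this

end Crest.Agent.T24.Gam83
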