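import Crest.Agent.T24.AbDef_13
import Crest.Agent.T24.Gam_83

/-! Row 24, ABHN module: the archimedean factor `GamStmt`. -/

set_option autoImplicit false
set_option linter.unusedSectionVars false

open MeasureTheory Real Set
open scoped ENNReal

noncomputable section

namespace Crest.Agent.T24.Gam83

open Crest.Agent.T24.Ab
open Crest.Agent.T49.Gau (rho)

theorem det_mulLeft {K : Type*} [CommRing K] {n : ℕ} (a : Matrix (Fin n) (Fin n) K) :
    LinearMap.det (LinearMap.mulLeft K a) = a.det ^ n := by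
  let e : Matrix (Fin n) (Fin n) K ≃ₗ[K] (Fin n → Fin n → K) :=
    (Matrix.transposeLinearEquiv (Fin n) (Fin n) K K).trans (Matrix.ofLinearEquiv K).symm
  rw [← LinearMap.det_conj _ e]
  have h : (e : _ →ₗ[K] _) ∘ₗ LinearMap.mulLeft K a ∘ₗ (e.symm : _ →ₗ[K] _) =
      LinearMap.pi fun j : Fin n => (Matrix.toLin' a).comp (LinearMap.proj j) := by
    refine LinearMap.ext fun b => ?_
    funext j i
    simp [e, Matrix.mul_apply, Matrix.mulVec, dotProduct, mul_comm]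
  rw [h, LinearMap.det_pi]
  simp

theorem det_mulLeft_C {n : ℕ} (a : Matrix (Fin n) (Fin n) ℂ) :
    LinearMap.det (LinearMap.mulLeft ℝ a) = ‖a.det‖ ^ (2 * n) := by
  have h : LinearMap.mulLeft ℝ a = (LinearMap.mulLeft ℂ a).restrictScalars ℝ := rfl
  rw [h, LinearMap.det_restrictScalars, det_mulLeft, Algebra.norm_complex_apply, map_pow,
    Complex.normSq_eq_norm_sq, pow_mul]

theorem det_mulLeft_pi {W A : Type*} [Fintype W] [Ring A] [Algebra ℝ A] [Module.Finite ℝ A]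
    (a : W → A) :
    LinearMap.det (LinearMap.mulLeft ℝ a) = ∏ w, LinearMap.det (LinearMap.mulLeft ℝ (a w)) := by
  rw [← LinearMap.det_pi]
  rfl

theorem det_AA {W₁ W₂ : Type*} [Fintype W₁] [Fintype W₂] {n : ℕ} (g : EE W₁ W₂ n) :
    |LinearMap.det (LinearMap.mulLeft ℝ ((cE W₁ W₂ n).symm g))| =
      (∏ w, ‖(Matrix.of (g.1 w)).det‖ ^ n) * ∏ w, ‖(Matrix.of (g.2 w)).det‖ ^ (2 * n) := by
  have h : LinearMap.mulLeft ℝ ((cE W₁ W₂ n).symm g) =
      (LinearMap.mulLeft ℝ (fun w => Matrix.of (g.1 w))).prodMap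
        (LinearMap.mulLeft ℝ (fun w => Matrix.of (g.2 w))) := rfl
  rw [h, LinearMap.det_prodMap, det_mulLeft_pi, det_mulLeft_pi, abs_mul, Finset.abs_prod,
    Finset.abs_prod]
  congr 1
  · refine Finset.prod_congr rfl fun w _ => ?_
    rw [det_mulLeft, abs_pow, Real.norm_eq_abs]
  · refine Finset.prod_congr rfl fun w _ => ?_
    rw [det_mulLeft_C, abs_of_nonneg (by positivity)]

theorem rho_QE {W₁ W₂ : Type*} [Fintype W₁] [Fintype W₂] {n : ℕ} (g : EE W₁ W₂ n) :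
    rho (QE W₁ W₂ n g) = (∏ w, exp (-π * ∑ i, ∑ j, ‖g.1 w i j‖ ^ 2)) *
      ∏ w, exp (-π * ∑ i, ∑ j, ‖g.2 w i j‖ ^ 2) := by
  rw [rho, ← Real.exp_sum, ← Real.exp_sum, ← Real.exp_add, ← Finset.mul_sum, ← Finset.mul_sum,
    ← mul_add, PiLp.norm_sq_eq_of_L2, Fintype.sum_prod_type, Fintype.sum_sum_type]
  simp [QE, Fintype.sum_prod_type]

/-- the real gamma factor -/
def gR (x : ℝ) : ℝ := π ^ (-x / 2) * Real.Gamma (x / 2)

theorem gR_pos {x : ℝ} (hx : 0 < x) : 0 < gR x :=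
  mul_pos (Real.rpow_pos_of_pos pi_pos _) (Real.Gamma_pos_of_pos (by positivity))

theorem gR_coe (x : ℝ) : ((gR x : ℝ) : ℂ) = Complex.Gammaℝ x := by
  rw [gR, Complex.Gammaℝ_def, Complex.ofReal_mul, Complex.ofReal_cpow pi_pos.le,
    ← Complex.Gamma_ofReal]
  push_cast
  rfl

section
variable {𝕜 : Type} [RCLike 𝕜] [MeasurableSpace 𝕜] [BorelSpace 𝕜]
  (μ : Measure 𝕜) [μ.IsAddHaarMeasure]

/-- **Gaussian determinant integral**, real exponent. -/
theorem det_rpow (h : Nrm μ) (n : ℕ) {s : ℝ} (hs : 0 < s + Module.finrank ℝ 𝕜) :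
    ∫ g : Fin n → Fin n → 𝕜, exp (-π * ∑ i, ∑ j, ‖g i j‖ ^ 2) * ‖(Matrix.of g).det‖ ^ s
        ∂(Measure.pi fun _ : Fin n => Measure.pi fun _ : Fin n => μ) =
      ∏ j ∈ Finset.range n, gR (s + Module.finrank ℝ 𝕜 * (j + 1)) /
        gR (Module.finrank ℝ 𝕜 * (j + 1)) := by
  have h1 := det_cpow μ h n (s := s) (by simpa using hs)
  apply Complex.ofReal_injective
  rw [← integral_complex_ofReal]
  push_cast [gR_coe] at h1 ⊢
  rw [← h1]
  refine integral_congr_ae (ae_of_all _ fun g => ?_)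
  simp only
  rw [Complex.ofReal_cpow (norm_nonneg _), mul_comm]

theorem prod_pos (n : ℕ) {s : ℝ} (hs : 0 < s + Module.finrank ℝ 𝕜) :
    0 < ∏ j ∈ Finset.range n, gR (s + Module.finrank ℝ 𝕜 * (j + 1)) /
        gR (Module.finrank ℝ 𝕜 * (j + 1)) := by
  have h0 : (0 : ℝ) < Module.finrank ℝ 𝕜 := by exact_mod_cast Module.finrank_pos
  refine Finset.prod_pos fun j _ => div_pos (gR_pos ?_) (gR_pos (by positivity))
  have : (0 : ℝ) ≤ Module.finrank ℝ 𝕜 * j := by positivity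
  linarith

theorem det_rpow_integrable (h : Nrm μ) (n : ℕ) {s : ℝ} (hs : 0 < s + Module.finrank ℝ 𝕜) :
    Integrable (fun g : Fin n → Fin n → 𝕜 =>
        exp (-π * ∑ i, ∑ j, ‖g i j‖ ^ 2) * ‖(Matrix.of g).det‖ ^ s)
        (Measure.pi fun _ : Fin n => Measure.pi fun _ : Fin n => μ) := by
  refine Integrable.of_integral_ne_zero ?_
  rw [det_rpow μ h n hs]
  exact (prod_pos n hs).ne'

end

/-- closed form of the archimedean zeta integral -/
theorem GamE_eq (W₁ W₂ : Type*) [Fintype W₁] [Fintype W₂] (n : ℕ) {s : ℝ}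
    (hs : 0 < n * (s - 1) + 1) :
    GamE W₁ W₂ n s = ENNReal.ofReal
      ((∏ j ∈ Finset.range n, gR (n * (s - 1) + (j + 1)) / gR (j + 1)) ^ Fintype.card W₁ *
       (∏ j ∈ Finset.range n, gR (2 * (n * (s - 1) + (j + 1))) / gR (2 * (j + 1))) ^
        Fintype.card W₂) := by
  let f₁ : (Fin n → Fin n → ℝ) → ℝ := fun g =>
    exp (-π * ∑ i, ∑ j, ‖g i j‖ ^ 2) * ‖(Matrix.of g).det‖ ^ (n * (s - 1))
  let f₂ : (Fin n → Fin n → ℂ) → ℝ := fun g =>
    exp (-π * ∑ i, ∑ j, ‖g i j‖ ^ 2) * ‖(Matrix.of g).det‖ ^ (2 * (n * (s - 1)))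
  have hs₁ : 0 < n * (s - 1) + Module.finrank ℝ ℝ := by simpa using hs
  have hs₂ : 0 < 2 * (n * (s - 1)) + Module.finrank ℝ ℂ := by
    rw [Complex.finrank_real_complex]; push_cast; linarith
  have i₁ : Integrable f₁ volume := det_rpow_integrable volume nrm_real n hs₁
  have i₂ : Integrable f₂ volume := det_rpow_integrable volume nrm_complex n hs₂
  have e₁ : ∫ g, f₁ g = ∏ j ∈ Finset.range n, gR (n * (s - 1) + (j + 1)) / gR (j + 1) := by
    have := det_rpow volume nrm_real n hs₁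
    simp only [Module.finrank_self, Nat.cast_one, one_mul] at this
    exact this
  have e₂ : ∫ g, f₂ g =
      ∏ j ∈ Finset.range n, gR (2 * (n * (s - 1) + (j + 1))) / gR (2 * (j + 1)) := by
    have := det_rpow volume nrm_complex n hs₂
    simp only [Complex.finrank_real_complex, Nat.cast_ofNat, ← mul_add] at this
    exact this
  have hf : ∀ g : EE W₁ W₂ n, rho (QE W₁ W₂ n g) *
      |LinearMap.det (LinearMap.mulLeft ℝ ((cE W₁ W₂ n).symm g))| ^ (s - 1) =
      (∏ w, f₁ (g.1 w)) * ∏ w, f₂ (g.2 w) := by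
    intro g
    rw [rho_QE, det_AA, Real.mul_rpow (by positivity) (by positivity),
      ← Real.finsetProd_rpow _ _ (fun _ _ => by positivity),
      ← Real.finsetProd_rpow _ _ (fun _ _ => by positivity)]
    simp only [f₁, f₂, Finset.prod_mul_distrib]
    have a1 : ∀ x : ℝ, 0 ≤ x → (x ^ n) ^ (s - 1) = x ^ (n * (s - 1)) := fun x hx => by
      rw [Real.rpow_mul hx, Real.rpow_natCast]
    have a2 : ∀ x : ℝ, 0 ≤ x → (x ^ (2 * n)) ^ (s - 1) = x ^ (2 * (n * (s - 1))) := fun x hx => by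
      rw [← mul_assoc, Real.rpow_mul hx, ← Real.rpow_natCast]; push_cast; rfl
    simp only [a1 _ (norm_nonneg _), a2 _ (norm_nonneg _)]
    ring
  have I₁ : Integrable (fun g : W₁ → Fin n → Fin n → ℝ => ∏ w, f₁ (g w)) volume :=
    Integrable.fintype_prod (f := fun _ => f₁) fun _ => i₁
  have I₂ : Integrable (fun g : W₂ → Fin n → Fin n → ℂ => ∏ w, f₂ (g w)) volume :=
    Integrable.fintype_prod (f := fun _ => f₂) fun _ => i₂
  have I := I₁.mul_prod I₂
  have hn : ∀ g : EE W₁ W₂ n, 0 ≤ (∏ w, f₁ (g.1 w)) * ∏ w, f₂ (g.2 w) := fun g =>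
    mul_nonneg (Finset.prod_nonneg fun _ _ => by positivity)
      (Finset.prod_nonneg fun _ _ => by positivity)
  have s1 : SigmaFinite (volume : Measure (Fin n → Fin n → ℝ)) := inferInstance
  have s2 : SigmaFinite (volume : Measure (Fin n → Fin n → ℂ)) := inferInstance
  have s3 : SigmaFinite (volume : Measure (W₁ → Fin n → Fin n → ℝ)) := inferInstance
  have s4 : SigmaFinite (volume : Measure (W₂ → Fin n → Fin n → ℂ)) := inferInstance
  rw [GamE, Gam]
  simp only [hf]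
  rw [Measure.volume_eq_prod, ← ofReal_integral_eq_lintegral_ofReal I (ae_of_all _ hn),
    integral_prod_mul (fun g : W₁ → Fin n → Fin n → ℝ => ∏ w, f₁ (g w))
      (fun g : W₂ → Fin n → Fin n → ℂ => ∏ w, f₂ (g w)),
    integral_fintype_prod_volume_eq_pow, integral_fintype_prod_volume_eq_pow, e₁, e₂]

end Crest.Agent.T24.Gam83

namespace Crest.Agent.T24.Ab

open Gam83

universe u

theorem gamStmt : GamStmt.{u} := by
  intro W₁ W₂ _ _ n
  have p₁ : ∀ j : ℕ, 0 < gR (j + 1) := fun j => gR_pos (by positivity)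
  have p₂ : ∀ j : ℕ, 0 < gR (2 * (j + 1)) := fun j => gR_pos (by positivity)
  have q₁ : 0 < gR 1 := gR_pos one_pos
  have q₂ : 0 < gR 2 := gR_pos two_pos
  have hC : 0 < (∏ j ∈ Finset.range n, gR 1 / gR (j + 1)) ^ Fintype.card W₁ *
      (∏ j ∈ Finset.range n, gR 2 / gR (2 * (j + 1))) ^ Fintype.card W₂ :=
    mul_pos (pow_pos (Finset.prod_pos fun j _ => div_pos q₁ (p₁ j)) _)
      (pow_pos (Finset.prod_pos fun j _ => div_pos q₂ (p₂ j)) _)
  refine ⟨ENNReal.ofReal _, (ENNReal.ofReal_pos.2 hC).ne', ENNReal.ofReal_ne_top, fun s hs => ?_⟩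
  have hns : (0 : ℝ) ≤ n * (s - 1) := mul_nonneg (Nat.cast_nonneg n) (by linarith)
  have h1 : ∀ j ∈ Finset.range n, GamE W₁ W₂ 1 (n * s - ((n - 1 - j : ℕ) : ℝ)) = ENNReal.ofReal
      ((gR (n * (s - 1) + (j + 1)) / gR 1) ^ Fintype.card W₁ *
        (gR (2 * (n * (s - 1) + (j + 1))) / gR 2) ^ Fintype.card W₂) := by
    intro j hj
    have hj' := Finset.mem_range.1 hj
    have e : (n * s - ((n - 1 - j : ℕ) : ℝ)) = n * (s - 1) + (j + 1) := by
      rw [Nat.sub_sub, Nat.cast_sub (by omega)]; push_cast; ring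
    have hj0 : (0 : ℝ) ≤ j := Nat.cast_nonneg j
    rw [e, GamE_eq W₁ W₂ 1 (by push_cast; linarith)]
    simp
  rw [← Finset.prod_range_reflect (fun i : ℕ => GamE W₁ W₂ 1 (n * s - i)), Finset.prod_congr rfl h1,
    GamE_eq W₁ W₂ n (by linarith),
    ← ENNReal.ofReal_prod_of_nonneg, ← ENNReal.ofReal_mul hC.le]
  · congr 1
    rw [Finset.prod_mul_distrib, Finset.prod_pow, Finset.prod_pow, mul_mul_mul_comm, ← mul_pow,
      ← mul_pow, ← Finset.prod_mul_distrib, ← Finset.prod_mul_distrib]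
    congr 2
    · refine Finset.prod_congr rfl fun j _ => ?_
      field_simp
    · refine Finset.prod_congr rfl fun j _ => ?_
      field_simp
  · intro j _
    have hj0 : (0 : ℝ) ≤ j := Nat.cast_nonneg j
    exact mul_nonneg (pow_nonneg (div_pos (gR_pos (by linarith)) q₁).le _)
      (pow_nonneg (div_pos (gR_pos (by linarith)) q₂).le _)

end Crest.Agent.T24.Ab
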