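import Mathlib
import Crest.Agent.T24.AbDef_13

/-!
# Row 24 (helper98): MAX, an order that is a matrix ring modulo every integer

`MaxStmt` needs centrality (`D = ℚ(√13, √17)`, `n = 2`); `MaxCStmt` is the corrected form.
-/

set_option autoImplicit false

noncomputable section

namespace Crest.Agent.T24.Ab

open NumberField IsDedekindDomain Module

universe u v

/-- MAX, with centrality -/
def MaxCStmt : Prop :=
  ∀ (F : Type u) [Field F] [NumberField F] (D : Type v) [DivisionRing D] [CharZero D] [Algebra F D]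
    [Algebra.IsCentral F D] (n : ℕ), 0 < n → finrank F D = n ^ 2 →
    (∀ w : HeightOneSpectrum (𝓞 F),
      Nonempty (D →ₐ[F] Matrix (Fin n) (Fin n) (w.adicCompletion F))) →
    ∃ (O : Subring D) (N : ℕ) (b : Basis (Fin N) ℚ D),
      O.toAddSubgroup = AddSubgroup.closure (Set.range b) ∧ MatMod F O n

namespace Max98

section LI

variable {F E D A : Type*} [Field F] [Field E] [Algebra F E] [DivisionRing D] [Algebra F D]
  [Algebra.IsCentral F D] [Ring A] [Nontrivial A] [Algebra E A] [Algebra F A]
  [IsScalarTower F E A]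

theorem key (φ : D →ₐ[F] A) {κ : Type*} (lam : κ → E) (hl : LinearIndependent F lam)
    (s : Finset κ) : ∀ d : κ → D, ∑ k ∈ s, lam k • φ (d k) = 0 → ∀ k ∈ s, d k = 0 := by
  classical
  induction s using Finset.strongInduction with
  | H s ih =>
    intro d hd k₀ hk₀
    by_contra h0
    have hd' : ∑ k ∈ s, lam k • φ (d k * (d k₀)⁻¹) = 0 := by
      have := congrArg (· * φ (d k₀)⁻¹) hd
      simpa [Finset.sum_mul, map_mul] using this
    have hc : ∀ k ∈ s, ∃ c : F, d k * (d k₀)⁻¹ = algebraMap F D c := by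
      intro k hk
      rw [← Algebra.IsCentral.mem_center_iff F, Subalgebra.mem_center_iff]
      intro y
      by_cases hkk : k = k₀
      · subst hkk
        rw [mul_inv_cancel₀ h0, mul_one, one_mul]
      have h1 : ∑ k ∈ s, lam k • φ (y * (d k * (d k₀)⁻¹) - d k * (d k₀)⁻¹ * y) = 0 := by
        have e1 := congrArg (φ y * ·) hd'
        have e2 := congrArg (· * φ y) hd'
        simp only [Finset.mul_sum, Finset.sum_mul, mul_smul_comm, smul_mul_assoc, mul_zero,
          zero_mul] at e1 e2
        simp only [map_sub, smul_sub, Finset.sum_sub_distrib, map_mul φ y,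
          map_mul φ (_ * _) y, e1, e2, sub_zero]
      rw [← Finset.add_sum_erase s _ hk₀, mul_inv_cancel₀ h0, mul_one, one_mul, sub_self,
        map_zero, smul_zero, zero_add] at h1
      exact sub_eq_zero.1 (ih _ (Finset.erase_ssubset hk₀) _ h1 k (Finset.mem_erase.2 ⟨hkk, hk⟩))
    choose! c hc using hc
    have h2 : ∑ k ∈ s, c k • lam k = 0 := by
      apply (algebraMap E A).injective
      rw [map_zero, ← hd', map_sum]
      refine Finset.sum_congr rfl fun k hk => ?_
      rw [hc k hk, AlgHom.commutes, Algebra.smul_def, Algebra.smul_def, map_mul,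
        ← IsScalarTower.algebraMap_apply, IsScalarTower.algebraMap_apply F E A, ← map_mul,
        ← map_mul, mul_comm]
    have h3 := linearIndependent_iff'.1 hl s c h2 k₀ hk₀
    have h4 := hc k₀ hk₀
    rw [mul_inv_cancel₀ h0, h3, map_zero] at h4
    exact one_ne_zero h4

/-- `F`-independent families of a central division algebra stay independent over `E` -/
theorem li (φ : D →ₐ[F] A) {ι : Type*} (d : ι → D) (hd : LinearIndependent F d) :
    LinearIndependent E fun i => φ (d i) := by
  classical
  rw [linearIndependent_iff']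
  intro s g hg i hi
  let B := Basis.ofVectorSpace F E
  let t := s.biUnion fun i => (B.repr (g i)).support
  have hgt : ∀ i ∈ s, g i = ∑ k ∈ t, B.repr (g i) k • B k := by
    intro i hi
    conv_lhs => rw [← B.linearCombination_repr (g i), Finsupp.linearCombination_apply]
    exact Finsupp.sum_of_support_subset _ (Finset.subset_biUnion_of_mem
      (fun i => (B.repr (g i)).support) hi) _ fun k _ => zero_smul _ _
  have h1 : ∑ k ∈ t, B k • φ (∑ i ∈ s, B.repr (g i) k • d i) = 0 := by
    rw [← hg]
    simp only [map_sum, Finset.smul_sum, map_smul]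
    rw [Finset.sum_comm]
    refine Finset.sum_congr rfl fun i hi => ?_
    conv_rhs => rw [hgt i hi, Finset.sum_smul]
    refine Finset.sum_congr rfl fun k _ => ?_
    rw [smul_assoc, smul_comm]
  have h2 := key φ B B.linearIndependent t _ h1
  rw [hgt i hi]
  refine Finset.sum_eq_zero fun k hk => ?_
  rw [linearIndependent_iff'.1 hd s _ (h2 k hk) i hi, zero_smul]

end LI

/-- conjugation that makes the left order of a lattice integral -/
theorem conj {R K F D : Type*} [CommRing R] [IsDomain R] [IsPrincipalIdealRing R] [Field K]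
    [Algebra R K] [IsFractionRing R K] [Field F] [Algebra F K] [Ring D] [Algebra F D] {n : ℕ}
    (φ : D →ₐ[F] Matrix (Fin n) (Fin n) K) {ι : Type*} [Finite ι] (b : ι → D)
    (hb : (1 : D) ∈ Submodule.span F (Set.range b)) :
    ∃ ψ : D →ₐ[F] Matrix (Fin n) (Fin n) K, ∀ x : D,
      (∀ i, x * b i ∈ Submodule.span ℤ (Set.range b)) →
        ∀ i j, ψ x i j ∈ Set.range (algebraMap R K) := by
  classical
  let Λ : Submodule R (Fin n → K) :=
    Submodule.span R (Set.range fun p : ι × Fin n => (φ (b p.1)).mulVec (Pi.single p.2 1))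
  have hsp : Submodule.span K (Λ : Set (Fin n → K)) = ⊤ := by
    have h1 : ∀ y ∈ Submodule.span F (Set.range b), ∀ j,
        (φ y).mulVec (Pi.single j 1) ∈ Submodule.span K (Λ : Set (Fin n → K)) := by
      intro y hy j
      induction hy using Submodule.span_induction with
      | mem y hy =>
        obtain ⟨i, rfl⟩ := hy
        exact Submodule.subset_span (Submodule.subset_span ⟨(i, j), rfl⟩)
      | zero => rw [map_zero, Matrix.zero_mulVec]; exact zero_mem _
      | add y z _ _ hy hz => rw [map_add, Matrix.add_mulVec]; exact add_mem hy hz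
      | smul c y _ hy =>
        rw [map_smul, Matrix.smul_mulVec, ← algebraMap_smul K c]
        exact Submodule.smul_mem _ _ hy
    rw [eq_top_iff, ← (Pi.basisFun K (Fin n)).span_eq, Submodule.span_le]
    rintro _ ⟨j, rfl⟩
    have := h1 1 hb j
    rw [map_one, Matrix.one_mulVec] at this
    simpa using this
  have : Submodule.IsLattice K Λ := ⟨Submodule.fg_span (Set.finite_range _), hsp⟩
  let B : Basis (Fin n) R Λ := Module.finBasisOfFinrankEq R Λ
    (by rw [Submodule.IsLattice.finrank_of_pi K Λ, Fintype.card_fin])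
  let B' : Basis (Fin n) K (Fin n → K) := B.extendOfIsLattice K
  have hB : Submodule.span R (Set.range B') = Λ := by
    have : Set.range B' = Λ.subtype '' Set.range B := by
      rw [← Set.range_comp]
      congr 1
      funext k
      simp [B']
    rw [this, ← Submodule.map_span, B.span_eq, Submodule.map_subtype_top]
  refine ⟨(((LinearMap.toMatrixAlgEquiv B').restrictScalars F).toAlgHom.comp
    ((Matrix.toLinAlgEquiv' (R := K) (n := Fin n)).restrictScalars F).toAlgHom).comp φ,
    fun x hx i j => ?_⟩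
  have h1 : ∀ y ∈ Submodule.span ℤ (Set.range b), ∀ j, (φ y).mulVec (Pi.single j 1) ∈ Λ := by
    intro y hy j
    induction hy using Submodule.span_induction with
    | mem y hy =>
      obtain ⟨i, rfl⟩ := hy
      exact Submodule.subset_span ⟨(i, j), rfl⟩
    | zero => rw [map_zero, Matrix.zero_mulVec]; exact zero_mem _
    | add y z _ _ hy hz => rw [map_add, Matrix.add_mulVec]; exact add_mem hy hz
    | smul c y _ hy =>
      rw [map_zsmul, Matrix.smul_mulVec]
      exact zsmul_mem hy c
  have h2 : ∀ z ∈ Λ, (φ x).mulVec z ∈ Λ := by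
    intro z hz
    induction hz using Submodule.span_induction with
    | mem y hy =>
      obtain ⟨p, rfl⟩ := hy
      rw [Matrix.mulVec_mulVec, ← map_mul]
      exact h1 _ (hx p.1) p.2
    | zero => simp
    | add y z _ _ hy hz => rw [Matrix.mulVec_add]; exact add_mem hy hz
    | smul c y _ hy =>
      rw [Matrix.mulVec_smul]
      exact Submodule.smul_mem _ _ hy
  have h3 : (φ x).mulVec (B' j) ∈ Submodule.span R (Set.range B') := by
    rw [hB]
    exact h2 _ (hB ▸ Submodule.subset_span ⟨j, rfl⟩)
  have h4 := (B'.mem_span_iff_repr_mem R _).1 h3 i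
  simpa [LinearMap.toMatrixAlgEquiv_apply, Matrix.toLinAlgEquiv'_apply] using h4

/-- the trace of the left multiplication is integral -/
theorem trace_mem {F K D : Type*} [Field F] [Field K] [Algebra F K] [DivisionRing D] [Algebra F D]
    [Algebra.IsCentral F D] {n : ℕ} (hn : 0 < n) (hD : finrank F D = n ^ 2)
    (ψ : D →ₐ[F] Matrix (Fin n) (Fin n) K) (S : Subring K) (x : D) (hx : ∀ i j, ψ x i j ∈ S) :
    algebraMap F K (LinearMap.trace F D (LinearMap.mulLeft F x)) ∈ S := by
  classical
  have : Nonempty (Fin n) := ⟨⟨0, hn⟩⟩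
  have : FiniteDimensional F D := Module.finite_of_finrank_pos (by rw [hD]; positivity)
  let e := Module.finBasisOfFinrankEq F D hD
  let e' : Basis (Fin (n ^ 2)) K (Matrix (Fin n) (Fin n) K) :=
    basisOfLinearIndependentOfCardEqFinrank' (fun a => ψ (e a)) (li ψ e e.linearIndependent)
      (by simp [Module.finrank_matrix, sq])
  have he' : ∀ a, e' a = ψ (e a) := fun a => by simp [e']
  have hr : ∀ y a, e'.repr (ψ y) a = algebraMap F K (e.repr y a) := by
    intro y a
    have : ψ y = ∑ a, algebraMap F K (e.repr y a) • e' a := by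
      conv_lhs => rw [← e.sum_repr y, map_sum]
      refine Finset.sum_congr rfl fun a _ => ?_
      rw [map_smul, he', algebraMap_smul]
    rw [this, e'.repr_sum_self]
  have h1 : algebraMap F K (LinearMap.trace F D (LinearMap.mulLeft F x)) =
      LinearMap.trace K _ (LinearMap.mulLeft K (ψ x)) := by
    rw [LinearMap.trace_eq_matrix_trace F e, LinearMap.trace_eq_matrix_trace K e', Matrix.trace,
      Matrix.trace, map_sum]
    refine Finset.sum_congr rfl fun a _ => ?_
    simp only [Matrix.diag_apply, LinearMap.toMatrix_apply, LinearMap.mulLeft_apply]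
    rw [he', ← map_mul, hr]
  rw [h1, LinearMap.trace_eq_matrix_trace K (Matrix.stdBasis K (Fin n) (Fin n)), Matrix.trace]
  refine sum_mem fun p _ => ?_
  obtain ⟨i, j⟩ := p
  simp only [Matrix.diag_apply, LinearMap.toMatrix_apply, LinearMap.mulLeft_apply]
  have hrepr : ∀ M : Matrix (Fin n) (Fin n) K,
      (Matrix.stdBasis K (Fin n) (Fin n)).repr M (i, j) = M i j := by
    intro M
    have : M = ∑ p : Fin n × Fin n, M p.1 p.2 • Matrix.stdBasis K (Fin n) (Fin n) p := by
      conv_lhs => rw [Matrix.matrix_eq_sum_single M]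
      rw [Fintype.sum_prod_type]
      refine Finset.sum_congr rfl fun a _ => Finset.sum_congr rfl fun c _ => ?_
      rw [Matrix.stdBasis_eq_single, Matrix.smul_single, smul_eq_mul, mul_one]
    conv_lhs => rw [this, Basis.repr_sum_self]
  rw [hrepr, Matrix.stdBasis_eq_single, Matrix.mul_single_apply_same, mul_one]
  exact hx i i

section Adelic

variable (F : Type*) [Field F] [NumberField F]

/-- the profinite integers -/
abbrev Oh : Type _ := ∀ w : HeightOneSpectrum (𝓞 F), w.adicCompletionIntegers F

/-- the diagonal embedding -/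
def dg : 𝓞 F →+* Oh F := RingHom.pi fun w => algebraMap (𝓞 F) (w.adicCompletionIntegers F)

variable {F}

theorem val_dg (a : 𝓞 F) (w : HeightOneSpectrum (𝓞 F)) :
    Valued.v ((dg F a w : w.adicCompletionIntegers F) : w.adicCompletion F) =
      w.intValuation a := by
  rw [← w.valuation_of_algebraMap (K := F)]
  exact w.valuedAdicCompletion_eq_valuation' _

theorem dvd_iff (a z : Oh F) : a ∣ z ↔ ∀ w, Valued.v (z w : w.adicCompletion F) ≤
    Valued.v (a w : w.adicCompletion F) := by
  rw [pi_dvd_iff]
  exact forall_congr' fun w =>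
    (HeightOneSpectrum.adicCompletionIntegers.integers F w).dvd_iff_le

theorem dvd_of_dg {r a : 𝓞 F} (hr : r ≠ 0) (h : dg F r ∣ dg F a) : r ∣ a := by
  rw [dvd_iff] at h
  have hr' : algebraMap (𝓞 F) F r ≠ 0 := by simpa using hr
  obtain ⟨c, hc⟩ := HeightOneSpectrum.mem_integers_of_valuation_le_one (R := 𝓞 F) F
    (algebraMap (𝓞 F) F a / algebraMap (𝓞 F) F r) fun w => by
      have := h w
      rw [val_dg, val_dg] at this
      rw [map_div₀, w.valuation_of_algebraMap, w.valuation_of_algebraMap]
      exact div_le_one_of_le₀ this zero_le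
  refine ⟨c, IsFractionRing.injective (𝓞 F) F ?_⟩
  rw [map_mul, hc, mul_div_cancel₀ _ hr']

theorem approx_one (w : HeightOneSpectrum (𝓞 F)) {r : 𝓞 F} (hr : r ≠ 0)
    (y : w.adicCompletionIntegers F) : ∃ a : 𝓞 F,
      Valued.v ((y : w.adicCompletion F) - (dg F a w : w.adicCompletion F)) ≤
        w.intValuation r := by
  have hv : w.intValuation r ≠ 0 := w.intValuation_ne_zero r hr
  have hr0 : ((dg F r w : w.adicCompletionIntegers F) : w.adicCompletion F) ≠ 0 := by
    intro h
    rw [← val_dg, h, map_zero] at hv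
    exact hv rfl
  have hop : IsOpen ((fun z : w.adicCompletion F => ((y : w.adicCompletion F) - z) /
      (dg F r w : w.adicCompletion F)) ⁻¹' (w.adicCompletionIntegers F : Set _)) :=
    (Valued.isOpen_valuationSubring _).preimage (by fun_prop)
  obtain ⟨x, hx⟩ := (w.denseRange_algebraMap F).exists_mem_open hop ⟨y, by simp⟩
  have hx1 : Valued.v ((y : w.adicCompletion F) - algebraMap F _ x) ≤ w.intValuation r := by
    have : Valued.v (((y : w.adicCompletion F) - algebraMap F _ x) /
      (dg F r w : w.adicCompletion F)) ≤ 1 := hx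
    rwa [map_div₀, val_dg, div_le_one₀ (zero_lt_iff.2 hv)] at this
  have hxv : Valued.v (algebraMap F (w.adicCompletion F) x) = w.valuation F x :=
    w.valuedAdicCompletion_eq_valuation' x
  have hx2 : w.valuation F x ≤ 1 := by
    rw [← hxv, ← sub_sub_cancel (y : w.adicCompletion F) (algebraMap F _ x)]
    exact Valuation.map_sub_le _ y.2 (hx1.trans (w.intValuation_le_one r))
  obtain ⟨a, ha⟩ := w.exists_valuation_sub_lt_of_integer hx2 (Units.mk0 _ hv)
  refine ⟨a, ?_⟩
  have ha' : Valued.v ((dg F a w : w.adicCompletion F) - algebraMap F _ x) ≤ w.intValuation r := by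
    have : (dg F a w : w.adicCompletion F) - algebraMap F _ x =
        algebraMap F (w.adicCompletion F) (algebraMap (𝓞 F) F a - x) := by
      rw [map_sub]; rfl
    rw [this]
    exact (w.valuedAdicCompletion_eq_valuation' _).trans_le ha.le
  rw [← sub_sub_sub_cancel_right _ _ (algebraMap F (w.adicCompletion F) x)]
  exact Valuation.map_sub_le _ hx1 ha'

theorem approx {r : 𝓞 F} (hr : r ≠ 0) (y : Oh F) : ∃ a : 𝓞 F, dg F r ∣ y - dg F a := by
  classical
  choose a ha using fun w => approx_one w hr (y w)
  choose k hk using fun w : HeightOneSpectrum (𝓞 F) =>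
    WithZero.exists_exp_neg_natCast_lt (w.intValuation_ne_zero r hr)
  have hfin := Ideal.finite_factors (I := Ideal.span {r}) (by simpa using hr)
  obtain ⟨z, hz⟩ := IsDedekindDomain.exists_forall_sub_mem_ideal (s := hfin.toFinset)
    (fun w => w.asIdeal) k (fun w _ => w.prime)
    (fun i _ j _ hij h => hij (HeightOneSpectrum.ext h)) (fun w => a w.1)
  refine ⟨z, (dvd_iff _ _).2 fun w => ?_⟩
  rw [val_dg]
  by_cases hw : w ∈ hfin.toFinset
  · have h1 := (w.intValuation_le_pow_iff_mem _ _).2 (hz w hw)
    have h2 : Valued.v ((dg F z w : w.adicCompletion F) - (dg F (a w) w : w.adicCompletion F)) ≤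
        w.intValuation r := by
      have := val_dg (z - a w) w
      rw [map_sub] at this
      exact this.trans_le (h1.trans (hk w).le)
    have h3 : ((y - dg F z) w : w.adicCompletion F) =
        (y w - dg F (a w) w : w.adicCompletion F) - (dg F z w - dg F (a w) w) := by
      rw [sub_sub_sub_cancel_right]; rfl
    rw [h3]
    exact Valuation.map_sub_le _ (ha w) h2
  · have h1 : w.intValuation r = 1 := by
      rw [HeightOneSpectrum.intValuation_eq_one_iff]
      intro h
      exact hw (by simpa [Ideal.dvd_span_singleton] using h)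
    rw [h1]
    exact ((y - dg F z) w).2

theorem exists_red {r : 𝓞 F} (hr : r ≠ 0) :
    ∃ π : Oh F →+* 𝓞 F ⧸ Ideal.span {r}, ∀ y, π y = 0 ↔ dg F r ∣ y := by
  have hle : Ideal.span {r} ≤ (Ideal.span {dg F r}).comap (dg F) := by
    rw [Ideal.span_le, Set.singleton_subset_iff]
    exact Ideal.mem_span_singleton_self _
  have hb : Function.Bijective (Ideal.quotientMap (Ideal.span {dg F r}) (dg F) hle) := by
    refine ⟨Ideal.quotientMap_injective' fun a ha => ?_, fun y => ?_⟩
    · rw [Ideal.mem_comap, Ideal.mem_span_singleton] at ha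
      exact Ideal.mem_span_singleton.2 (dvd_of_dg hr ha)
    · obtain ⟨y, rfl⟩ := Ideal.Quotient.mk_surjective y
      obtain ⟨a, ha⟩ := approx hr y
      refine ⟨Ideal.Quotient.mk _ a, ?_⟩
      rw [Ideal.quotientMap_mk, eq_comm, Ideal.Quotient.eq]
      exact Ideal.mem_span_singleton.2 ha
  refine ⟨(RingEquiv.ofBijective _ hb).symm.toRingHom.comp (Ideal.Quotient.mk _), fun y => ?_⟩
  rw [RingHom.comp_apply, RingEquiv.toRingHom_eq_coe, RingHom.coe_coe, map_eq_zero_iff _
    (RingEquiv.injective _), Ideal.Quotient.eq_zero_iff_mem, Ideal.mem_span_singleton]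

end Adelic

theorem exists_nsmul {D ι : Type*} [Ring D] [Algebra ℚ D] [Finite ι] (b : Basis ι ℚ D) (x : D) :
    ∃ m : ℤ, m ≠ 0 ∧ ∀ i, (m • x) * b i ∈ Submodule.span ℤ (Set.range b) := by
  obtain ⟨m, hm⟩ := IsLocalization.exist_integer_multiples_of_finite (nonZeroDivisors ℤ)
    (fun p : ι × ι => b.repr (x * b p.1) p.2)
  refine ⟨m, nonZeroDivisors.coe_ne_zero m, fun i => (b.mem_span_iff_repr_mem ℤ _).2 fun j => ?_⟩
  obtain ⟨c, hc⟩ := hm (i, j)
  refine ⟨c, ?_⟩
  rw [hc, smul_mul_assoc, map_zsmul]
  rfl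

section Main

variable {F : Type*} [Field F] [NumberField F] {D : Type*} [DivisionRing D] [Algebra F D] {n : ℕ}
  (ψ : ∀ w : HeightOneSpectrum (𝓞 F), D →ₐ[F] Matrix (Fin n) (Fin n) (w.adicCompletion F))

/-- the elements that are integral matrices everywhere -/
def ord : Subring D where
  carrier := {x | ∀ w i j, ψ w x i j ∈ w.adicCompletionIntegers F}
  mul_mem' {x y} hx hy w i j := by
    rw [map_mul, Matrix.mul_apply]
    exact sum_mem fun k _ => mul_mem (hx w i k) (hy w k j)
  one_mem' w i j := by
    rw [map_one, Matrix.one_apply]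
    split_ifs
    exacts [one_mem _, zero_mem _]
  add_mem' {x y} hx hy w i j := by
    rw [map_add, Matrix.add_apply]
    exact add_mem (hx w i j) (hy w i j)
  zero_mem' w i j := by
    rw [map_zero, Matrix.zero_apply]
    exact zero_mem _
  neg_mem' {x} hx w i j := by
    rw [map_neg, Matrix.neg_apply]
    exact neg_mem (hx w i j)

/-- the adelic matrix of an element of the order -/
def Psi : ord ψ →+* Matrix (Fin n) (Fin n) (Oh F) where
  toFun x := Matrix.of fun i j w => ⟨ψ w x i j, x.2 w i j⟩
  map_one' := by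
    refine Matrix.ext fun i j => funext fun w => Subtype.ext ?_
    simp only [Matrix.of_apply, OneMemClass.coe_one, map_one, Matrix.one_apply]
    split_ifs <;> rfl
  map_mul' x y := by
    refine Matrix.ext fun i j => funext fun w => Subtype.ext ?_
    simp only [Matrix.of_apply, MulMemClass.coe_mul, map_mul, Matrix.mul_apply, Finset.sum_apply,
      Pi.mul_apply, AddSubmonoidClass.coe_finsetSum]
  map_zero' := by
    refine Matrix.ext fun i j => funext fun w => Subtype.ext ?_
    simp
  map_add' x y := by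
    refine Matrix.ext fun i j => funext fun w => Subtype.ext ?_
    simp

theorem Psi_apply (x : ord ψ) (i j : Fin n) (w : HeightOneSpectrum (𝓞 F)) :
    ((Psi ψ x i j w : w.adicCompletionIntegers F) : w.adicCompletion F) = ψ w x i j := rfl

theorem ker_iff {r : ℕ} (hr : 0 < r) (x : ord ψ) :
    (∀ i j, dg F r ∣ Psi ψ x i j) ↔ ∃ y : ord ψ, x = r • y := by
  have hrF : (r : F) ≠ 0 := by exact_mod_cast hr.ne'
  constructor
  · intro h
    refine ⟨⟨(r : F)⁻¹ • (x : D), fun w i j => ?_⟩, Subtype.ext ?_⟩
    · obtain ⟨c, hc⟩ := h i j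
      have h1 : ψ w x i j = (r : F) • (c w : w.adicCompletion F) := by
        rw [← Psi_apply, hc, map_natCast, Nat.cast_smul_eq_nsmul, nsmul_eq_mul]
        simp
      rw [map_smul, Matrix.smul_apply, h1, inv_smul_smul₀ hrF]
      exact (c w).2
    · change (x : D) = r • ((r : F)⁻¹ • (x : D))
      rw [← Nat.cast_smul_eq_nsmul F, smul_inv_smul₀ hrF]
  · rintro ⟨y, rfl⟩ i j
    rw [map_nsmul, Matrix.smul_apply, map_natCast, nsmul_eq_mul]
    exact dvd_mul_right _ _

variable [CharZero D] [Algebra.IsCentral F D]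

theorem fg_ord (hn : 0 < n) (hD : finrank F D = n ^ 2) {ι : Type*} [Finite ι] (b : Basis ι ℚ D)
    (hb : ∀ i, b i ∈ ord ψ) : (ord ψ).toAddSubgroup.toIntSubmodule.FG := by
  classical
  have : FiniteDimensional F D := Module.finite_of_finrank_pos (by rw [hD]; positivity)
  have : FiniteDimensional ℚ D := Module.Finite.of_basis b
  let t : D →ₗ[ℚ] ℚ := (Algebra.trace ℚ F) ∘ₗ
    ((LinearMap.trace F D ∘ₗ LinearMap.mul F D).restrictScalars ℚ)
  have ht : ∀ x, t x = Algebra.trace ℚ F (LinearMap.trace F D (LinearMap.mulLeft F x)) :=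
    fun x => rfl
  have ht1 : t 1 ≠ 0 := by
    rw [ht, LinearMap.mulLeft_one, LinearMap.trace_id, hD, ← map_natCast (algebraMap ℚ F),
      Algebra.trace_algebraMap, nsmul_eq_mul]
    have := Module.finrank_pos (R := ℚ) (M := F)
    positivity
  have htz : ∀ x ∈ ord ψ, t x ∈ Set.range (algebraMap ℤ ℚ) := by
    intro x hx
    obtain ⟨c, hc⟩ := HeightOneSpectrum.mem_integers_of_valuation_le_one (R := 𝓞 F) F
      (LinearMap.trace F D (LinearMap.mulLeft F x)) fun w => by
        rw [← w.valuedAdicCompletion_eq_valuation']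
        exact trace_mem hn hD (ψ w) (w.adicCompletionIntegers F).toSubring x (hx w)
    rw [ht, ← hc]
    exact IsIntegrallyClosed.isIntegral_iff.1 (Algebra.isIntegral_trace c.2)
  let B : LinearMap.BilinForm ℚ D := (LinearMap.mul ℚ D).compr₂ t
  have hB : B.Nondegenerate := by
    constructor
    · intro x hx
      by_contra h
      exact ht1 (by simpa [B, mul_inv_cancel₀ h] using hx x⁻¹)
    · intro x hx
      by_contra h
      exact ht1 (by simpa [B, inv_mul_cancel₀ h] using hx x⁻¹)
  refine Submodule.FG.of_le (Submodule.fg_span (Set.finite_range (B.dualBasis hB b))) ?_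
  intro x hx
  refine ((B.dualBasis hB b).mem_span_iff_repr_mem ℤ x).2 fun i => ?_
  rw [LinearMap.BilinForm.dualBasis_repr_apply]
  exact htz _ (mul_mem hx (hb i))

end Main

end Max98

open Max98 in
theorem maxCStmt : MaxCStmt.{u, v} := by
  intro F _ _ D _ _ _ _ n hn hD hφ
  classical
  have : FiniteDimensional F D := Module.finite_of_finrank_pos (by rw [hD]; positivity)
  have : FiniteDimensional ℚ D := Module.Finite.trans F D
  let b₀ := Module.finBasis ℚ D
  have hb₀ : (1 : D) ∈ Submodule.span F (Set.range b₀) :=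
    Submodule.span_le_restrictScalars ℚ F _ (b₀.mem_span 1)
  choose ψ hψ using fun w : HeightOneSpectrum (𝓞 F) =>
    conj (R := w.adicCompletionIntegers F) (hφ w).some b₀ hb₀
  have hfull : ∀ x : D, ∃ m : ℤ, m ≠ 0 ∧ m • x ∈ ord ψ := by
    intro x
    obtain ⟨m, hm, h⟩ := exists_nsmul b₀ x
    refine ⟨m, hm, fun w i j => ?_⟩
    obtain ⟨c, hc⟩ := hψ w _ h i j
    rw [← hc]
    exact c.2
  choose m hm hmO using hfull
  let b₁ : Basis _ ℚ D := b₀.isUnitSMul (w := fun i => (m (b₀ i) : ℚ)) fun i =>
    IsUnit.mk0 _ (by exact_mod_cast hm _)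
  have hb₁ : ∀ i, b₁ i ∈ ord ψ := fun i => by
    rw [Basis.isUnitSMul_apply, Int.cast_smul_eq_zsmul]
    exact hmO _
  let M : Submodule ℤ D := (ord ψ).toAddSubgroup.toIntSubmodule
  have hlat : Submodule.IsLattice ℚ M := ⟨fg_ord ψ hn hD b₁ hb₁, by
    rw [eq_top_iff, ← b₁.span_eq]
    refine Submodule.span_mono ?_
    rintro _ ⟨i, rfl⟩
    exact hb₁ i⟩
  let B := Module.finBasis ℤ M
  have hN : finrank ℤ M = finrank ℚ D := by
    rw [finrank, Submodule.IsLattice.rank' ℚ M]; rfl
  refine ⟨ord ψ, _, B.extendOfIsLattice ℚ, ?_, fun r hr => ?_⟩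
  · have : Set.range (B.extendOfIsLattice ℚ) = M.subtype '' Set.range B := by
      rw [← Set.range_comp]
      congr 1
      funext k
      simp
    rw [← Submodule.span_int_eq_addSubgroupClosure, this, ← Submodule.map_span, B.span_eq,
      Submodule.map_subtype_top]
    rfl
  obtain ⟨π, hπ⟩ := exists_red (F := F) (r := r) (by exact_mod_cast hr.ne')
  have hker : ∀ x : ord ψ, (π.mapMatrix.comp (Psi ψ)) x = 0 ↔ ∃ y : ord ψ, x = r • y := by
    intro x
    rw [← ker_iff ψ hr, ← Matrix.ext_iff]
    exact forall₂_congr fun i j => hπ _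
  refine ⟨π.mapMatrix.comp (Psi ψ), ?_, hker⟩
  let e : M ≃ₗ[ℤ] ord ψ := AddEquiv.toIntLinearEquiv
    { toFun := fun x => ⟨x.1, x.2⟩, invFun := fun x => ⟨x.1, x.2⟩, left_inv := fun _ => rfl,
      right_inv := fun _ => rfl, map_add' := fun _ _ => rfl }
  have : Module.Free ℤ (ord ψ) := Module.Free.of_equiv e
  have : Module.Finite ℤ (ord ψ) := Module.Finite.equiv e
  let f := (π.mapMatrix.comp (Psi ψ)).toAddMonoidHom
  have h1 : f.ker = (nsmulAddMonoidHom (α := ord ψ) r).range := by
    ext x
    rw [AddMonoidHom.mem_ker, AddMonoidHom.mem_range]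
    exact (hker x).trans (exists_congr fun y => eq_comm)
  have h2 : Nat.card f.range = r ^ finrank ℚ D := by
    rw [← AddSubgroup.index_ker, h1, AddSubgroup.index_range_nsmul, ← e.finrank_eq, hN]
  have h3 : Nat.card (Matrix (Fin n) (Fin n) (𝓞 F ⧸ Ideal.span {(r : 𝓞 F)})) =
      r ^ finrank ℚ D := by
    have h4 : Nat.card (𝓞 F ⧸ Ideal.span {(r : 𝓞 F)}) = r ^ finrank ℚ F := by
      rw [← RingOfIntegers.rank, ← Ideal.absNorm_span_natCast, Ideal.absNorm_apply,
        Submodule.cardQuot_apply]
    change Nat.card (Fin n → Fin n → _) = _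
    rw [Nat.card_fun, Nat.card_fun, h4, ← Module.finrank_mul_finrank ℚ F D, hD, ← pow_mul,
      ← pow_mul, Nat.card_eq_fintype_card, Fintype.card_fin, sq]
  have : Finite f.range := Nat.finite_of_card_ne_zero (by rw [h2]; positivity)
  exact AddMonoidHom.range_eq_top.1 (AddSubgroup.eq_top_of_card_eq _ (h2.trans h3.symm))

end Crest.Agent.T24.Ab
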