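import Crest.Agent.T24.AbDef_13

/-!
# Row 24 (helper33): Morita comparison of the two lattice counts, `morStmt`
-/

set_option autoImplicit false

noncomputable section

namespace Crest.Agent.T24.Ab

open NumberField Function
open scoped ENNReal

namespace Mor33

theorem tsum_eq_iSup {α ι : Type*} (f : α → ℝ≥0∞) {X : ι → Type*} (p : ∀ r, X r → α)
    (hp : ∀ r, Injective (p r)) (hc : ∀ T : Finset α, ∃ r, ∀ a ∈ T, a ∈ Set.range (p r)) :
    ∑' a, f a = ⨆ r, ∑' x, f (p r x) := by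
  refine le_antisymm ?_ (iSup_le fun r => ENNReal.tsum_comp_le_tsum_of_injective (hp r) f)
  rw [ENNReal.tsum_eq_iSup_sum]
  refine iSup_le fun T => ?_
  obtain ⟨r, hr⟩ := hc T
  refine le_iSup_of_le r ?_
  rw [← tsum_range f (hp r), ← Finset.tsum_subtype]
  exact ENNReal.tsum_mono_subtype f hr

section lift
variable {G M : Type*} [AddCommGroup G] [AddCommGroup M] {L : AddSubgroup G} {r : ℕ}

/-- `r⁻¹ π⁻¹ N` -/
def lift (r : ℕ) (π : L →+ M) (N : AddSubgroup M) : AddSubgroup G :=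
  ((N.comap π).map L.subtype).comap (nsmulAddMonoidHom r)

theorem mem_lift {π : L →+ M} {N : AddSubgroup M} {x : G} :
    x ∈ lift r π N ↔ ∃ h : r • x ∈ L, π ⟨r • x, h⟩ ∈ N :=
  ⟨fun ⟨y, hy, e⟩ => by
    have e' : y.1 = r • x := e
    exact ⟨e' ▸ y.2, by simp only [← e']; exact hy⟩, fun ⟨h, h'⟩ => ⟨⟨_, h⟩, h', rfl⟩⟩

/-- `π` is the reduction modulo `r` -/
structure Qt (r : ℕ) (π : L →+ M) : Prop where
  bij : Bijective fun x : G => r • x
  surj : Surjective π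
  ker : ∀ x, π x = 0 ↔ ∃ y : L, x = r • y

variable {π : L →+ M} (h : Qt r π)
include h

theorem Qt.zero_iff {x : G} (hx : r • x ∈ L) : π ⟨r • x, hx⟩ = 0 ↔ x ∈ L := by
  rw [h.ker]
  refine ⟨fun ⟨y, e⟩ => ?_, fun hx => ⟨⟨x, hx⟩, rfl⟩⟩
  rw [h.bij.1 (congrArg Subtype.val e)]; exact y.2

theorem Qt.pre (m : M) : ∃ (x : G) (hx : r • x ∈ L), π ⟨r • x, hx⟩ = m := by
  obtain ⟨y, rfl⟩ := h.surj m
  obtain ⟨x, e⟩ := h.bij.2 y
  have e' : r • x = y := e
  exact ⟨x, e' ▸ y.2, by simp only [e']⟩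

theorem Qt.le (N : AddSubgroup M) : L ≤ lift r π N := fun x hx =>
  mem_lift.2 ⟨L.nsmul_mem hx r, by rw [(h.zero_iff _).2 hx]; exact N.zero_mem⟩

theorem Qt.inj : Injective (lift r π) := fun N N' e => by
  ext m
  obtain ⟨x, hx, rfl⟩ := h.pre m
  exact ⟨fun h1 => (mem_lift.1 (e ▸ mem_lift.2 ⟨hx, h1⟩)).2,
    fun h1 => (mem_lift.1 (e.symm ▸ mem_lift.2 ⟨hx, h1⟩)).2⟩

theorem Qt.idx (N : AddSubgroup M) : L.relIndex (lift r π N) = Nat.card N := by
  let f : lift r π N →+ N := AddMonoidHom.mk'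
    (fun x => ⟨π ⟨r • x.1, (mem_lift.1 x.2).1⟩, (mem_lift.1 x.2).2⟩) fun x y =>
      Subtype.ext (by
        simp only [AddSubgroup.coe_add, ← map_add]; congr 1; exact Subtype.ext (nsmul_add _ _ _))
  have h1 : L.addSubgroupOf (lift r π N) = f.ker := by
    ext x
    rw [AddSubgroup.mem_addSubgroupOf, AddMonoidHom.mem_ker, Subtype.ext_iff]
    exact (h.zero_iff _).symm
  have h2 : Surjective f := fun m => by
    obtain ⟨x, hx, e⟩ := h.pre m
    exact ⟨⟨x, mem_lift.2 ⟨hx, e ▸ m.2⟩⟩, Subtype.ext e⟩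
  rw [AddSubgroup.relIndex, h1, AddSubgroup.index_ker, AddMonoidHom.range_eq_top.2 h2,
    AddSubgroup.card_top]

theorem Qt.exists {I : AddSubgroup G} (h1 : L ≤ I) (h2 : ∀ x ∈ I, r • x ∈ L) :
    ∃ N, lift r π N = I := by
  let f : I →+ L := AddMonoidHom.mk' (fun x => ⟨r • x.1, h2 _ x.2⟩) fun x y =>
    Subtype.ext (nsmul_add _ _ _)
  refine ⟨(π.comp f).range, le_antisymm (fun x hx => ?_) fun x hx =>
    mem_lift.2 ⟨h2 x hx, ⟨x, hx⟩, rfl⟩⟩
  obtain ⟨hx, y, e⟩ := mem_lift.1 hx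
  have h3 : r • (x - y.1) ∈ L := by rw [nsmul_sub]; exact L.sub_mem hx (h2 _ y.2)
  have h4 := (h.zero_iff h3).1 (by
    rw [← sub_eq_zero.2 e.symm, AddMonoidHom.comp_apply, ← map_sub]
    congr 1; exact Subtype.ext (nsmul_sub _ _ _))
  simpa using I.add_mem (h1 h4) y.2

end lift

theorem bij {G : Type*} [AddCommGroup G] [Module ℚ G] {r : ℕ} (hr : 0 < r) :
    Bijective fun x : G => r • x := by
  have : (r : ℚ) ≠ 0 := by exact_mod_cast hr.ne'
  simp only [← Nat.cast_smul_eq_nsmul ℚ]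
  exact (MulAction.toPerm (Units.mk0 _ this)).bijective

theorem cover {G : Type*} [AddCommGroup G] (L : AddSubgroup G) {P : Set (AddSubgroup G)}
    (hP : ∀ I ∈ P, L.relIndex I ≠ 0) (T : Finset P) :
    ∃ r : ℕ+, ∀ I ∈ T, ∀ x ∈ I.1, (r : ℕ) • x ∈ L := by
  refine ⟨⟨∏ I ∈ T, L.relIndex I.1, Finset.prod_pos fun I _ => Nat.pos_of_ne_zero (hP _ I.2)⟩,
    fun I hI x hx => ?_⟩
  obtain ⟨c, hc⟩ := Finset.dvd_prod_of_mem (fun I : P => L.relIndex I.1) hI
  rw [PNat.mk_coe, hc, mul_nsmul]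
  exact L.nsmul_mem (L.nsmul_relIndex_mem hx) c

section cols
variable {S : Type*} [CommRing S] {n : ℕ}

/-- matrices with columns in `U` -/
def cols (U : Submodule S (Fin n → S)) : AddSubgroup (Matrix (Fin n) (Fin n) S) where
  carrier := {m | ∀ j, (fun i => m i j) ∈ U}
  add_mem' := fun ha hb j => U.add_mem (ha j) (hb j)
  zero_mem' := fun _ => U.zero_mem
  neg_mem' := fun ha j => U.neg_mem (ha j)

theorem card_cols (U : Submodule S (Fin n → S)) : Nat.card (cols U) = Nat.card U ^ n := by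
  have e : cols U ≃ (Fin n → U) :=
    ⟨fun m j => ⟨_, m.2 j⟩, fun v => ⟨Matrix.of fun i j => (v j).1 i, fun j => (v j).2⟩,
      fun _ => rfl, fun _ => rfl⟩
  rw [Nat.card_congr e, Nat.card_fun, Nat.card_eq_fintype_card (α := Fin n), Fintype.card_fin]

theorem cols_inj (hn : 0 < n) : Injective (cols (S := S) (n := n)) := fun U U' e => by
  have key : ∀ (U : Submodule S (Fin n → S)) v, v ∈ U ↔ (Matrix.of fun i _ => v i) ∈ cols U :=
    fun U v => ⟨fun h _ => h, fun h => h ⟨0, hn⟩⟩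
  ext v
  rw [key, key, e]

theorem cols_mul {U : Submodule S (Fin n → S)} {m : Matrix (Fin n) (Fin n) S} (h : m ∈ cols U)
    (a : Matrix (Fin n) (Fin n) S) : m * a ∈ cols U := fun j => by
  have : (fun i => (m * a) i j) = ∑ k, a k j • fun i => m i k := by
    funext i; simp [Matrix.mul_apply, mul_comm]
  rw [this]
  exact U.sum_mem fun k _ => U.smul_mem _ (h k)

theorem exists_cols {N : AddSubgroup (Matrix (Fin n) (Fin n) S)} (h : ∀ m ∈ N, ∀ a, m * a ∈ N) :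
    ∃ U, cols U = N := by
  refine ⟨⟨⟨⟨{v | ∀ w, Matrix.vecMulVec v w ∈ N}, fun ha hb w => ?_⟩, fun w => ?_⟩,
    fun c v hv w => ?_⟩, le_antisymm (fun m hm => ?_) fun m hm j w => ?_⟩
  · rw [Matrix.add_vecMulVec]; exact N.add_mem (ha w) (hb w)
  · rw [Matrix.zero_vecMulVec]; exact N.zero_mem
  · rw [Matrix.smul_vecMulVec, ← Matrix.vecMulVec_smul]; exact hv _
  · have : m = ∑ j, Matrix.vecMulVec (fun i => m i j) (Pi.single j 1) := by
      ext i k; simp [Matrix.sum_apply, Matrix.vecMulVec_apply, Pi.single_apply]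
    rw [this]
    exact N.sum_mem fun j _ => hm j _
  · convert h m hm (Matrix.vecMulVec (Pi.single j 1) w) using 1
    ext i k; simp [Matrix.mul_apply, Matrix.vecMulVec_apply, Pi.single_apply]

end cols

variable (F : Type*) [Field F]

/-- the quotient ring -/
abbrev Sr (r : ℕ) : Type _ := 𝓞 F ⧸ Ideal.span {(r : 𝓞 F)}

def pre : 𝓞 F ≃+* intR F := RingEquiv.ofBijective (algebraMap (𝓞 F) F).rangeRestrict
  ⟨fun _ _ h => RingOfIntegers.coe_injective (congrArg (fun x : intR F => x.1) h),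
    RingHom.rangeRestrict_surjective _⟩

/-- reduction of integers -/
def red (r : ℕ) : intR F →+* Sr F r := (Ideal.Quotient.mk _).comp (pre F).symm.toRingHom

theorem red_surj (r : ℕ) : Surjective (red F r) :=
  Ideal.Quotient.mk_surjective.comp (pre F).symm.surjective

theorem red_eq_zero (r : ℕ) (x : intR F) : red F r x = 0 ↔ ∃ y, x = r • y := by
  obtain ⟨x, rfl⟩ := (pre F).surjective x
  have : red F r (pre F x) = Ideal.Quotient.mk _ x := by simp [red]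
  rw [this, Ideal.Quotient.eq_zero_iff_mem, Ideal.mem_span_singleton, (pre F).surjective.exists]
  simp only [← map_nsmul, EmbeddingLike.apply_eq_iff_eq]
  simp only [nsmul_eq_mul]
  rfl

/-- reduction of integer vectors -/
def redV (n r : ℕ) : std (intR F) n →+ (Fin n → Sr F r) :=
  AddMonoidHom.mk' (fun v i => red F r ⟨v.1 i, v.2 i trivial⟩) fun _ _ =>
    funext fun _ => map_add (red F r) ⟨_, _⟩ ⟨_, _⟩

theorem qtV [CharZero F] (n : ℕ) {r : ℕ} (hr : 0 < r) : Qt r (redV F n r) := by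
  refine ⟨bij hr, fun m => ?_, fun x => ⟨fun h => ?_, ?_⟩⟩
  · choose y hy using fun i => red_surj F r (m i)
    exact ⟨⟨fun i => y i, fun i _ => (y i).2⟩, funext hy⟩
  · choose y hy using fun i => (red_eq_zero F r _).1 (congrFun h i)
    exact ⟨⟨fun i => y i, fun i _ => (y i).2⟩,
      Subtype.ext (funext fun i => congrArg Subtype.val (hy i))⟩
  · rintro ⟨y, rfl⟩
    exact funext fun i => (red_eq_zero F r _).2 ⟨⟨y.1 i, y.2 i trivial⟩, rfl⟩

theorem redV_smul {n r : ℕ} {x : Fin n → F} (hx : r • x ∈ std (intR F) n) (o : intR F) :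
    ∃ h : r • (o.1 • x) ∈ std (intR F) n,
      redV F n r ⟨_, h⟩ = red F r o • redV F n r ⟨_, hx⟩ := by
  refine ⟨fun i _ => ?_, funext fun i => ?_⟩
  · rw [smul_comm]; exact (intR F).mul_mem o.2 (hx i trivial)
  · refine Eq.trans ?_ (map_mul (red F r) o ⟨_, hx i trivial⟩)
    exact congrArg (red F r) (Subtype.ext (congrFun (smul_comm r o.1 x) i))

end Mor33

open Mor33

universe u v

theorem morStmt : MorStmt.{u, v} := by
  intro F _ _ D _ _ O n hn hM s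
  choose ρ hρ hk using fun r : ℕ+ => hM r r.2
  have fin : ∀ r : ℕ+, Finite (Sr F r) := fun r => Ideal.finiteQuotientOfFreeOfNeBot _
    (by rw [Ne, Ideal.span_singleton_eq_bot]; exact_mod_cast r.2.ne')
  have qD : ∀ r : ℕ+, Qt (L := O.toAddSubgroup) r (ρ r).toAddMonoidHom :=
    fun r => ⟨bij r.2, hρ r, hk r⟩
  have qV : ∀ r : ℕ+, Qt r (redV F n r) := fun r => qtV F n r.2
  have mulD : ∀ (r : ℕ+) (x : D) (hx : (r : ℕ) • x ∈ O) (o : O),
      ∃ h : (r : ℕ) • (x * o) ∈ O, ρ r ⟨_, h⟩ = ρ r ⟨_, hx⟩ * ρ r o := fun r x hx o =>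
    ⟨by rw [← smul_mul_assoc]; exact O.mul_mem hx o.2, by
      rw [← map_mul]; congr 1; exact Subtype.ext (smul_mul_assoc _ _ _).symm⟩
  let p : ∀ r : ℕ+, Submodule (Sr F r) (Fin n → Sr F r) → Sup O := fun r U =>
    ⟨lift r (L := O.toAddSubgroup) (ρ r).toAddMonoidHom (cols U), (qD r).le _, fun x hx o ho => by
      obtain ⟨h1, h2⟩ := mem_lift.1 hx
      obtain ⟨h3, h4⟩ := mulD r x h1 ⟨o, ho⟩
      exact mem_lift.2 ⟨h3, (h4 ▸ cols_mul h2 _ : ρ r ⟨_, h3⟩ ∈ cols U)⟩,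
      by rw [(qD r).idx]; exact Nat.card_pos.ne'⟩
  let q : ∀ r : ℕ+, Submodule (Sr F r) (Fin n → Sr F r) → SupV (intR F) n := fun r U =>
    ⟨lift r (redV F n r) U.toAddSubgroup, (qV r).le _, fun x hx o ho => by
      obtain ⟨h1, h2⟩ := mem_lift.1 hx
      obtain ⟨h3, h4⟩ := redV_smul F h1 ⟨o, ho⟩
      exact mem_lift.2 ⟨h3, h4 ▸ U.smul_mem _ h2⟩,
      by rw [(qV r).idx]; exact Nat.card_pos.ne'⟩
  rw [zeta, zetaV, tsum_eq_iSup _ p
      (fun r U U' e => cols_inj hn ((qD r).inj (congrArg Subtype.val e))) fun T => ?_,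
    tsum_eq_iSup _ q (fun r U U' e => Submodule.toAddSubgroup_injective
      ((qV r).inj (congrArg Subtype.val e))) fun T => ?_]
  · refine iSup_congr fun r => tsum_congr fun U => ?_
    simp only [p, q, (qD r).idx, (qV r).idx, card_cols]
    rw [Nat.cast_pow, ← Real.rpow_natCast, ← Real.rpow_mul (Nat.cast_nonneg _), mul_neg]
    rfl
  · obtain ⟨r, hr⟩ := cover (std (intR F) n) (fun I hI => hI.2.2) T
    refine ⟨r, fun I hI => ?_⟩
    obtain ⟨N, hN⟩ := (qV r).exists I.2.1 (hr I hI)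
    refine ⟨⟨N.toAddSubmonoid, fun c m hm => ?_⟩, Subtype.ext hN⟩
    obtain ⟨x, hx, rfl⟩ := (qV r).pre m
    obtain ⟨o, rfl⟩ := red_surj F r c
    obtain ⟨h3, h4⟩ := redV_smul F hx o
    have := I.2.2.1 x (hN ▸ mem_lift.2 ⟨hx, hm⟩) o o.2
    rw [← hN] at this
    exact h4 ▸ (mem_lift.1 this).2
  · obtain ⟨r, hr⟩ := cover O.toAddSubgroup (fun I hI => hI.2.2) T
    refine ⟨r, fun I hI => ?_⟩
    obtain ⟨N, hN⟩ := (qD r).exists I.2.1 (hr I hI)
    obtain ⟨U, hU⟩ := exists_cols (N := N) fun m hm a => by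
      obtain ⟨x, hx, rfl⟩ := (qD r).pre m
      obtain ⟨o, rfl⟩ := hρ r a
      obtain ⟨h3, h4⟩ := mulD r x hx o
      have := I.2.2.1 x (hN ▸ mem_lift.2 ⟨hx, hm⟩) o o.2
      rw [← hN] at this
      exact (h4 ▸ (mem_lift.1 this).2 : ρ r ⟨_, hx⟩ * ρ r o ∈ N)
    exact ⟨U, Subtype.ext (by simp only [p, hU, hN])⟩

end Crest.Agent.T24.Ab
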