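import Crest.Agent.T24.AbZf_13
import Crest.Agent.T24.AbFe_29
import Crest.Agent.T24.AbGam_83
import Crest.Agent.T24.AbCnt_37
import Crest.Agent.T24.AbMor_33
import Crest.Agent.T24.AbMax_98
import Crest.Agent.T24.AbArch_53

/-!
# Row 24 (helper13): the Albert–Brauer–Hasse–Noether theorem
-/

set_option autoImplicit false

noncomputable section

namespace Crest.Agent.T24.Ab

open MeasureTheory NumberField IsDedekindDomain Module Filter Topology
open scoped ENNReal

universe u v

theorem eq_of_real {f g : ℂ → ℂ} (hf : Differentiable ℂ f) (hg : Differentiable ℂ g)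
    (h : ∀ s : ℝ, 1 < s → f s = g s) : f = g := by
  refine AnalyticOnNhd.eq_of_frequently_eq (z₀ := ((2 : ℝ) : ℂ)) (fun z _ => hf.analyticAt z)
    (fun z _ => hg.analyticAt z) ?_
  have h1 : Tendsto (fun s : ℝ => (s : ℂ)) (𝓝[>] 2) (𝓝[≠] ((2 : ℝ) : ℂ)) := by
    refine tendsto_nhdsWithin_iff.2 ⟨Complex.continuous_ofReal.continuousAt.mono_left
      nhdsWithin_le_nhds, ?_⟩
    filter_upwards [self_mem_nhdsWithin] with s hs
    exact fun h => (ne_of_gt hs) (Complex.ofReal_injective h)
  refine h1.frequently (Eventually.frequently ?_)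
  filter_upwards [self_mem_nhdsWithin] with s hs
  exact h s (lt_trans one_lt_two hs)

/-- the elementary factor -/
def fac (z : ℂ) : ℂ := (1 - z) * (1 - Complex.exp (-(z * Real.log 2)))

theorem fac_diff : Differentiable ℂ fac := by unfold fac; fun_prop

theorem fac_real (s : ℝ) : fac s = (((1 - s) * (1 - 2 ^ (-s)) : ℝ) : ℂ) := by
  rw [fac, Real.rpow_def_of_pos two_pos]
  push_cast
  congr 3
  ring

theorem intR_eq (F : Type u) [Field F] [NumberField F] :
    (intR F).toAddSubgroup = AddSubgroup.closure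
      (Set.range ((integralBasis F).reindex (Fintype.equivFin _))) := by
  rw [Basis.range_reindex, ← Submodule.span_int_eq_addSubgroupClosure]
  ext x
  rw [Submodule.mem_toAddSubgroup, mem_span_integralBasis]
  rfl

/-- **Albert–Brauer–Hasse–Noether** for division algebras -/
theorem abhnStmt : AbhnStmt.{u, v} := by
  intro F _ _ D _ _ _ n hn hD hf hr
  classical
  by_contra hn1
  have hn2 : 2 ≤ n := by omega
  have : CharZero D := charZero_of_injective_algebraMap (algebraMap F D).injective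
  obtain ⟨O, N, b, hO, hM⟩ := maxCStmt F D n hn hD hf
  obtain ⟨j, hj⟩ := archStmt F D n hn hD hr
  obtain ⟨e, he⟩ := hj N b
  obtain ⟨Z, hZ, -, -, hZs⟩ := zfStmt feStmt D N b O hO _ _ n j e he
  obtain ⟨j', hj'⟩ := archStmt F F 1 one_pos (by simp)
    fun σ => ⟨(Matrix.scalar (Fin 1)).comp σ, fun _ => rfl⟩
  obtain ⟨e', he'⟩ := hj' _ ((integralBasis F).reindex (Fintype.equivFin _))
  obtain ⟨Y, hY, hY0, hY1, hYs⟩ := zfStmt feStmt F _ _ _ (intR_eq F) _ _ 1 j' e' he'
  obtain ⟨C, hC0, hC1, hC⟩ := gamStmt {w : InfinitePlace F // w.IsReal}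
    {w : InfinitePlace F // w.IsComplex} n
  have hn' : (0 : ℝ) < n := Nat.cast_pos.2 hn
  have key : (fun z : ℂ => Z z * ∏ i ∈ Finset.range n, fac (n * z - i)) =
      fun z : ℂ => (C.toReal : ℂ) * fac z * ∏ i ∈ Finset.range n, Y (n * z - i) := by
    refine eq_of_real (hZ.mul ?_) ((fac_diff.const_mul _).mul ?_) fun s hs => ?_
    · exact Differentiable.fun_finsetProd fun i _ => fac_diff.comp (by fun_prop)
    · exact Differentiable.fun_finsetProd fun i _ => hY.comp (by fun_prop)
    have h1 : ∀ i ∈ Finset.range n, Y (n * s - i) = fac (n * s - i) *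
        ((zeta (intR F) (n * s - i) * GamE {w : InfinitePlace F // w.IsReal}
          {w : InfinitePlace F // w.IsComplex} 1 (n * s - i)).toReal : ℝ) := by
      intro i hi
      have h2 : (i : ℝ) + 1 ≤ n := by exact_mod_cast Finset.mem_range.1 hi
      have h3 : (1 : ℝ) < n * s - i := by nlinarith
      have h4 : (n : ℂ) * s - i = ((n * s - i : ℝ) : ℂ) := by push_cast; rfl
      rw [h4, (hYs _ h3).2.2, fac_real, Complex.ofReal_mul]
    rw [Finset.prod_congr rfl h1, (hZs s hs).2.2, morStmt F D O n hn hM, cntStmt, hC s hs.le,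
      Finset.prod_mul_distrib, fac_real, mul_left_comm _ C, ← Finset.prod_mul_distrib,
      ENNReal.toReal_mul, ENNReal.toReal_prod]
    push_cast
    ring
  have hnc : (n : ℂ) ≠ 0 := Nat.cast_ne_zero.2 hn.ne'
  set s : ℝ := ((n - 1 : ℕ) : ℝ) / n with hs
  have hs1 : (n : ℂ) * s = (n - 1 : ℕ) := by rw [hs]; push_cast; field_simp
  have h5 := congrFun key s
  simp only [hs1] at h5
  rw [Finset.prod_eq_zero (i := n - 1) (Finset.mem_range.2 (by omega)) (by simp [fac]),
    mul_zero] at h5
  refine mul_ne_zero (mul_ne_zero ?_ ?_) (Finset.prod_ne_zero_iff.2 fun i hi => ?_) h5.symm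
  · exact Complex.ofReal_ne_zero.2 (ENNReal.toReal_ne_zero.2 ⟨hC0, hC1⟩)
  · have h6 : 0 < s := div_pos (Nat.cast_pos.2 (by omega)) hn'
    have h7 : s < 1 := (div_lt_one hn').2 (Nat.cast_lt.2 (by omega))
    rw [fac_real]
    exact Complex.ofReal_ne_zero.2 (mul_ne_zero (by linarith) (sub_pos.2
      (Real.rpow_lt_one_of_one_lt_of_neg one_lt_two (by linarith))).ne')
  · have hi' := Finset.mem_range.1 hi
    rw [← Nat.cast_sub (by omega)]
    obtain h | h | h : n - 1 - i = 0 ∨ n - 1 - i = 1 ∨ 1 < n - 1 - i := by omega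
    · rw [h, Nat.cast_zero]; exact hY0
    · rw [h, Nat.cast_one]; exact hY1
    · have h8 : (1 : ℝ) < (n - 1 - i : ℕ) := by exact_mod_cast h
      obtain ⟨h9, h10, h11⟩ := hYs _ h8
      rw [← Complex.ofReal_natCast, h11]
      exact Complex.ofReal_ne_zero.2 (mul_ne_zero (mul_ne_zero (by linarith) (sub_pos.2
        (Real.rpow_lt_one_of_one_lt_of_neg one_lt_two (by linarith))).ne')
        (ENNReal.toReal_ne_zero.2 ⟨h10, h9⟩))

end Crest.Agent.T24.Ab
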