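import Mathlib

/-!
# Row 24: local openness toolkit, part 1 (helper6)

`F` a complete nontrivially normed field, `A` a finite-dimensional `F`-algebra with any Hausdorff vector
topology.  Hensel's lemma with parameters inside commutative subalgebras, roots near `1`, rigidity of roots of
separable polynomials, idempotents.
-/

set_option autoImplicit false

noncomputable section

namespace Crest.Agent.T24.Opn

open Filter Topology Finset Polynomial

/-! ## Norms -/

section Nrm

variable (F : Type*) [NontriviallyNormedField F]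

/-- a norm on a finite-dimensional vector space -/
abbrev nrmV (E : Type*) [AddCommGroup E] [Module F E] [FiniteDimensional F E] :
    NormedAddCommGroup E :=
  NormedAddCommGroup.induced E (Fin (Module.finrank F E) → F)
    (Module.finBasis F E).equivFun.toLinearMap (Module.finBasis F E).equivFun.injective

/-- the normed space structure of `nrmV` -/
abbrev nrmS (E : Type*) [AddCommGroup E] [Module F E] [FiniteDimensional F E] :
    @NormedSpace F E _ (nrmV F E).toSeminormedAddCommGroup :=
  NormedSpace.induced F E (Fin (Module.finrank F E) → F) (Module.finBasis F E).equivFun.toLinearMap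

attribute [local instance] Matrix.linftyOpNormedRing Matrix.linftyOpNormedAlgebra in
/-- an algebra norm on a finite-dimensional algebra -/
abbrev nrmR (A : Type*) [Ring A] [Algebra F A] [FiniteDimensional F A] : NormedRing A :=
  NormedRing.induced A (Matrix (Fin (Module.finrank F A)) (Fin (Module.finrank F A)) F)
    (Algebra.leftMulMatrix (Module.finBasis F A)) (Algebra.leftMulMatrix_injective _)

attribute [local instance] Matrix.linftyOpNormedRing Matrix.linftyOpNormedAlgebra in
/-- the normed algebra structure of `nrmR` -/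
abbrev nrmA (A : Type*) [Ring A] [Algebra F A] [FiniteDimensional F A] :
    @NormedAlgebra F A _ (nrmR F A).toSeminormedRing :=
  NormedAlgebra.induced F A (Matrix (Fin (Module.finrank F A)) (Fin (Module.finrank F A)) F)
    (Algebra.leftMulMatrix (Module.finBasis F A))

variable [CompleteSpace F]

/-- all Hausdorff vector topologies of a finite-dimensional space agree -/
theorem top_unique (E : Type*) [AddCommGroup E] [Module F E] [FiniteDimensional F E]
    (t t' : TopologicalSpace E) (h1 : @IsTopologicalAddGroup E t _) (h2 : @ContinuousSMul F E _ _ t)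
    (h3 : @T2Space E t) (h1' : @IsTopologicalAddGroup E t' _) (h2' : @ContinuousSMul F E _ _ t')
    (h3' : @T2Space E t') : t = t' := by
  have a := @isModuleTopologyOfFiniteDimensional F _ E _ _ t h1 h2 _ h3 _
  have b := @isModuleTopologyOfFiniteDimensional F _ E _ _ t' h1' h2' _ h3' _
  rw [@IsModuleTopology.eq_moduleTopology' F _ E _ _ t a,
    @IsModuleTopology.eq_moduleTopology' F _ E _ _ t' b]

theorem top_nrmV (E : Type*) [AddCommGroup E] [Module F E] [FiniteDimensional F E]
    [t : TopologicalSpace E] [h1 : IsTopologicalAddGroup E] [h2 : ContinuousSMul F E] [h3 : T2Space E] :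
    t = (nrmV F E).toPseudoMetricSpace.toUniformSpace.toTopologicalSpace := by
  refine top_unique F E _ _ h1 h2 h3 ?_ ?_ ?_ <;>
  · let _ := nrmV F E
    let _ := nrmS F E
    clear h1 h2 h3 t
    infer_instance

theorem top_nrmR (A : Type*) [Ring A] [Algebra F A] [FiniteDimensional F A]
    [t : TopologicalSpace A] [h1 : IsTopologicalAddGroup A] [h2 : ContinuousSMul F A] [h3 : T2Space A] :
    t = (nrmR F A).toPseudoMetricSpace.toUniformSpace.toTopologicalSpace := by
  refine top_unique F A _ _ h1 h2 h3 ?_ ?_ ?_ <;>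
  · let _ := nrmR F A
    let _ := nrmA F A
    clear h1 h2 h3 t
    infer_instance

omit [CompleteSpace F] in
/-- the module topology of a finite-dimensional space is Hausdorff -/
theorem t2_of_moduleTopology (E : Type*) [AddCommGroup E] [Module F E] [FiniteDimensional F E]
    [TopologicalSpace E] [IsModuleTopology F E] : T2Space E :=
  T2Space.of_injective_continuous (Module.finBasis F E).equivFun.injective
    (IsModuleTopology.continuous_of_linearMap (Module.finBasis F E).equivFun.toLinearMap)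

end Nrm

/-! ## Fixed points -/

theorem fix {G : Type*} [NormedAddCommGroup G] [CompleteSpace G] (T : G → G) {S : Set G}
    (hS : IsClosed S) {a : G}
    {r : ℝ} (hr : 0 ≤ r) (ha : a ∈ S) (hT : ∀ u ∈ S, ‖u - a‖ ≤ r → T u ∈ S)
    (hL : ∀ u ∈ S, ∀ v ∈ S, ‖u - a‖ ≤ r → ‖v - a‖ ≤ r → ‖T u - T v‖ ≤ ‖u - v‖ / 2)
    (h0 : ‖T a - a‖ ≤ r / 2) : ∃ u ∈ S, ‖u - a‖ ≤ r ∧ T u = u := by
  have hc : IsComplete (S ∩ Metric.closedBall a r) :=
    (hS.inter Metric.isClosed_closedBall).isComplete
  have hm : Set.MapsTo T (S ∩ Metric.closedBall a r) (S ∩ Metric.closedBall a r) := by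
    rintro u ⟨hu, hu'⟩
    rw [mem_closedBall_iff_norm] at hu'
    refine ⟨hT u hu hu', mem_closedBall_iff_norm.2 ?_⟩
    have := hL u hu a ha hu' (by simpa using hr)
    have h2 := norm_sub_le_norm_sub_add_norm_sub (T u) (T a) a
    linarith
  have hK : ContractingWith (1 / 2) (hm.restrict T _ _) := by
    refine ⟨by norm_num, LipschitzWith.of_dist_le_mul fun u v => ?_⟩
    have := hL u u.2.1 v v.2.1 (mem_closedBall_iff_norm.1 u.2.2) (mem_closedBall_iff_norm.1 v.2.2)
    rw [Subtype.dist_eq, Subtype.dist_eq, dist_eq_norm, dist_eq_norm]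
    simp only [Set.MapsTo.val_restrict_apply]
    push_cast
    linarith
  obtain ⟨y, hy, hy', -⟩ := hK.exists_fixedPoint' hc hm (x := a) ⟨ha, by simpa using hr⟩
    (edist_ne_top _ _)
  exact ⟨y, hy.1, mem_closedBall_iff_norm.1 hy.2, hy'⟩

section Alg

variable (F : Type*) [NontriviallyNormedField F] [CompleteSpace F]
variable {A : Type*} [Ring A] [Algebra F A] [FiniteDimensional F A]
  [t : TopologicalSpace A] [IsTopologicalAddGroup A] [ContinuousSMul F A] [T2Space A]

include F in
theorem topRing : IsTopologicalRing A := by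
  obtain rfl := top_nrmR F A
  let _ := nrmR F A
  infer_instance

include F in
theorem isOpen_isUnit : IsOpen {x : A | IsUnit x} := by
  obtain rfl := top_nrmR F A
  let _ := nrmR F A
  let _ := nrmA F A
  have := FiniteDimensional.complete F A
  exact Units.isOpen

include F in
theorem ev_isUnit {x : A} (hx : IsUnit x) : ∀ᶠ y in 𝓝 x, IsUnit y :=
  (isOpen_isUnit F).mem_nhds hx

include F in
theorem inverse_continuousAt {x : A} (hx : IsUnit x) : ContinuousAt Ring.inverse x := by
  obtain rfl := top_nrmR F A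
  let _ := nrmR F A
  let _ := nrmA F A
  have := FiniteDimensional.complete F A
  obtain ⟨x, rfl⟩ := hx
  exact NormedRing.inverse_continuousAt x

omit t [IsTopologicalAddGroup A] [ContinuousSMul F A] [T2Space A] [CompleteSpace F] in
include F in
theorem dedekind : IsDedekindFiniteMonoid A :=
  IsDedekindFiniteMonoid.of_injective (Algebra.leftMulMatrix (Module.finBasis F A))
    (Algebra.leftMulMatrix_injective _)

/-- Hensel's lemma with parameters, inside any commutative subalgebra that contains the data. -/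
theorem hensel {Λ : Type*} {l : Filter Λ} (n : ℕ) {c : ℕ → Λ → A} {c0 : ℕ → A} {y u : Λ → A}
    {a u0 : A} (hc : ∀ i, Tendsto (c i) l (𝓝 (c0 i))) (hy : Tendsto y l (𝓝 a))
    (hu : Tendsto u l (𝓝 u0)) (h0 : ∑ i ∈ range n, c0 i * a ^ i = 0)
    (h1 : u0 * ∑ i ∈ range n, c0 i * (i * a ^ (i - 1)) = 1) {V : Set A} (hV : V ∈ 𝓝 a) :
    ∀ᶠ p in l, ∀ C : Subalgebra F A, (∀ x ∈ C, ∀ x' ∈ C, Commute x x') → (∀ i, c i p ∈ C) →
      y p ∈ C → u p ∈ C → ∃ z ∈ C, z ∈ V ∧ ∑ i ∈ range n, c i p * z ^ i = 0 := by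
  have := dedekind F (A := A)
  have hU : ∀ᶠ p in l, IsUnit (u p) := hu.eventually (ev_isUnit F (IsUnit.of_mul_eq_one _ h1))
  obtain rfl := top_nrmR F A
  let _ := nrmR F A
  let _ := nrmA F A
  have := FiniteDimensional.complete F A
  set Q : Λ × A × A → A := fun q =>
    1 - u q.1 * ∑ i ∈ range n, c i q.1 * ∑ j ∈ range i, q.2.1 ^ j * q.2.2 ^ (i - 1 - j) with hQ
  have hQ0 : Tendsto Q (l ×ˢ 𝓝 a ×ˢ 𝓝 a) (𝓝 0) := by
    have e : (0 : A) = 1 - u0 * ∑ i ∈ range n, c0 i * ∑ j ∈ range i, a ^ j * a ^ (i - 1 - j) := by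
      simp only [geom_sum₂_self, h1, sub_self]
    rw [e]
    refine tendsto_const_nhds.sub ((hu.comp tendsto_fst).mul (tendsto_finsetSum _ fun i _ =>
      ((hc i).comp tendsto_fst).mul (tendsto_finsetSum _ fun j _ => ?_)))
    exact ((tendsto_fst.comp tendsto_snd).pow j).mul ((tendsto_snd.comp tendsto_snd).pow _)
  have hQ1 : ∀ᶠ q in l ×ˢ 𝓝 a ×ˢ 𝓝 a, ‖Q q‖ ≤ 1 / 2 := by
    have := hQ0.norm
    rw [norm_zero] at this
    exact this.eventually_le_const (by norm_num)
  obtain ⟨pa, hpa, pb, hpb, hab⟩ := eventually_prod_iff.1 hQ1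
  obtain ⟨W, hW, hW'⟩ := mem_prod_same_iff.1 hpb
  obtain ⟨r, hr, hrV⟩ := Metric.nhds_basis_closedBall.mem_iff.1 (inter_mem hV hW)
  have hy' : ∀ᶠ p in l, ‖y p - a‖ ≤ r / 2 := by
    have := (hy.sub_const a).norm
    rw [sub_self, norm_zero] at this
    exact this.eventually_le_const (by positivity)
  have hP : ∀ᶠ p in l, ‖u p * ∑ i ∈ range n, c i p * y p ^ i‖ ≤ r / 2 / 2 := by
    have := (hu.mul (tendsto_finsetSum (range n) fun i _ => (hc i).mul (hy.pow i))).norm
    rw [h0, mul_zero, norm_zero] at this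
    exact this.eventually_le_const (by positivity)
  filter_upwards [hU, hpa, hy', hP] with p hU hpa hy' hP C hC hcC hyC huC
  have hb : ∀ z, ‖z - y p‖ ≤ r / 2 → z ∈ V ∩ W := fun z hz => hrV (mem_closedBall_iff_norm.2 (by
    have := norm_sub_le_norm_sub_add_norm_sub z (y p) a
    linarith))
  obtain ⟨z, hz, hz1, hz2⟩ := fix (fun z => z - u p * ∑ i ∈ range n, c i p * z ^ i) (S := C)
    (Submodule.closed_of_finiteDimensional C.toSubmodule) (a := y p) (r := r / 2)
    (by positivity) hyC
    (fun z hz _ => C.sub_mem hz (C.mul_mem huC (C.sum_mem fun i _ =>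
      C.mul_mem (hcC i) (C.pow_mem hz i))))
    (fun z hz w hw hz' hw' => by
      have e : z - u p * ∑ i ∈ range n, c i p * z ^ i - (w - u p * ∑ i ∈ range n, c i p * w ^ i) =
          Q (p, z, w) * (z - w) := by
        rw [hQ]
        simp only []
        rw [sub_mul, one_mul, mul_assoc, sum_mul]
        simp only [mul_assoc, (hC z hz w hw).geom_sum₂_mul]
        simp only [mul_sub, sum_sub_distrib]
        abel
      rw [e]
      have := hab hpa (hW' (Set.mk_mem_prod (hb z hz').2 (hb w hw').2))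
      calc _ ≤ ‖Q (p, z, w)‖ * ‖z - w‖ := norm_mul_le _ _
        _ ≤ 1 / 2 * ‖z - w‖ := by gcongr
        _ = _ := by ring)
    (by simpa using hP)
  refine ⟨z, hz, (hb z hz1).1, hU.mul_right_eq_zero.1 ?_⟩
  simpa using hz2

omit t [IsTopologicalAddGroup A] [ContinuousSMul F A] [T2Space A] [CompleteSpace F]
  [FiniteDimensional F A] in
theorem adj_comm (x : A) : ∀ y ∈ Algebra.adjoin F {x}, ∀ z ∈ Algebra.adjoin F {x}, Commute y z :=
  fun _ hy _ hz => Algebra.commute_of_mem_adjoin_singleton_of_commute hz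
    (Algebra.commute_of_mem_adjoin_self hy).symm

omit t [IsTopologicalAddGroup A] [ContinuousSMul F A] [T2Space A] [CompleteSpace F] in
/-- a subalgebra of a finite-dimensional algebra is closed under inversion -/
theorem inverse_mem (C : Subalgebra F A) {x : A} (hx : x ∈ C) : Ring.inverse x ∈ C := by
  by_cases hu : IsUnit x
  · have hinj : Function.Injective (LinearMap.mulLeft F (⟨x, hx⟩ : C)) := fun a b h =>
      Subtype.ext (hu.mul_left_cancel (congrArg Subtype.val h))
    obtain ⟨y, hy⟩ := LinearMap.surjective_of_injective hinj 1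
    have h1 : x * y = 1 := congrArg Subtype.val hy
    have : Ring.inverse x = y := by
      rw [← mul_one (Ring.inverse x), ← h1, Ring.inverse_mul_cancel_left _ _ hu]
    rw [this]; exact y.2
  · rw [Ring.inverse_non_unit _ hu]; exact C.zero_mem

include F in
theorem continuous_aeval (P : F[X]) : Continuous fun x : A => aeval x P := by
  have := topRing F (A := A)
  simp only [aeval_eq_sum_range]
  fun_prop

/-- (O3) Hensel–Krasner: a simple root moves continuously with the polynomial, inside the algebra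
generated by an approximate root. -/
theorem root_near {Λ : Type*} {l : Filter Λ} (n : ℕ) {P : Λ → F[X]} {P0 : F[X]} {y : Λ → A} {a : A}
    (hP : ∀ i, Tendsto (fun p => (P p).coeff i) l (𝓝 (P0.coeff i)))
    (hd : ∀ᶠ p in l, (P p).natDegree ≤ n) (hd0 : P0.natDegree ≤ n) (hy : Tendsto y l (𝓝 a))
    (h0 : aeval a P0 = 0) (h1 : IsUnit (aeval a (derivative P0))) {V : Set A} (hV : V ∈ 𝓝 a) :
    ∀ᶠ p in l, ∃ z ∈ Algebra.adjoin F {y p}, z ∈ V ∧ aeval z (P p) = 0 := by
  have := topRing F (A := A)
  have ev : ∀ (R : F[X]) (z : A), R.natDegree ≤ n →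
      ∑ i ∈ range (n + 1), algebraMap F A (R.coeff i) * z ^ i = aeval z R := fun R z h => by
    rw [aeval_eq_sum_range' (Nat.lt_succ_of_le h)]
    simp only [Algebra.smul_def]
  have hc : Continuous (algebraMap F A) := by
    have : ⇑(algebraMap F A) = fun c : F => c • (1 : A) := by
      funext c; rw [Algebra.algebraMap_eq_smul_one]
    rw [this]; fun_prop
  have h2 : ∑ i ∈ range (n + 1), algebraMap F A (P0.coeff i) * (i * a ^ (i - 1)) =
      aeval a (derivative P0) := by
    conv_rhs => rw [P0.as_sum_range' (n + 1) (Nat.lt_succ_of_le hd0)]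
    simp only [derivative_monomial, map_sum, aeval_monomial, map_mul, map_natCast,
      mul_assoc]
  have := hensel F (n + 1) (c := fun i p => algebraMap F A ((P p).coeff i))
    (c0 := fun i => algebraMap F A (P0.coeff i)) (y := y)
    (u := fun p => Ring.inverse (aeval (y p) (derivative P0)))
    (fun i => (hc.tendsto _).comp (hP i)) hy
    ((inverse_continuousAt F h1).tendsto.comp (((continuous_aeval F _).tendsto a).comp hy))
    (by rw [ev _ _ hd0, h0]) (by rw [h2, Ring.inverse_mul_cancel _ h1]) hV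
  filter_upwards [this, hd] with p hp hd
  obtain ⟨z, hz, hz1, hz2⟩ := hp _ (adj_comm F (y p)) (fun i => Subalgebra.algebraMap_mem _ _)
    (Algebra.self_mem_adjoin_singleton F _)
    (inverse_mem F _ (aeval_mem_adjoin_singleton F _))
  exact ⟨z, hz, hz1, by rw [← ev _ _ hd, hz2]⟩

/-- the same for a fixed polynomial -/
theorem root_near' {Λ : Type*} {l : Filter Λ} {P : F[X]} {y : Λ → A} {a : A}
    (hy : Tendsto y l (𝓝 a)) (h0 : aeval a P = 0) (h1 : IsUnit (aeval a (derivative P)))
    {V : Set A} (hV : V ∈ 𝓝 a) :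
    ∀ᶠ p in l, ∃ z ∈ Algebra.adjoin F {y p}, z ∈ V ∧ aeval z P = 0 :=
  root_near F P.natDegree (P := fun _ => P) (fun _ => tendsto_const_nhds)
    (.of_forall fun _ => le_rfl) le_rfl hy h0 h1 hV

omit t [IsTopologicalAddGroup A] [ContinuousSMul F A] [T2Space A] [CompleteSpace F]
  [FiniteDimensional F A] in
theorem isUnit_derivative {P : F[X]} (hP : P.Separable) {a : A} (h0 : aeval a P = 0) :
    IsUnit (aeval a (derivative P)) := by
  obtain ⟨u, v, h⟩ := hP
  have h1 := congrArg (aeval a) h
  have h2 := congrArg (aeval a) ((by rw [mul_comm (derivative P)]; exact h) :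
    u * P + derivative P * v = 1)
  simp only [map_add, map_mul, h0, mul_zero, zero_add, map_one] at h1 h2
  exact ⟨⟨_, _, h2, h1⟩, rfl⟩

omit t [IsTopologicalAddGroup A] [ContinuousSMul F A] [T2Space A] [CompleteSpace F]
  [FiniteDimensional F A] in
theorem isUnit_natCast {n : ℕ} (hn : (n : F) ≠ 0) : IsUnit (n : A) := by
  simpa using (hn.isUnit).map (algebraMap F A)

/-- (O1) roots near `1` -/
theorem root_one {n : ℕ} (hn : (n : F) ≠ 0) {V : Set A} (hV : V ∈ 𝓝 (1 : A)) :
    ∀ᶠ x in 𝓝 (1 : A), ∃ y ∈ Algebra.adjoin F {x}, y ∈ V ∧ y ^ n = x := by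
  have := topRing F (A := A)
  have hn0 : n ≠ 0 := by rintro rfl; simp at hn
  have key : ∀ (x z : A), ∑ i ∈ range (n + 1),
      (if i = n then 1 else if i = 0 then -x else 0) * z ^ i = z ^ n - x := fun x z => by
    rw [sum_range_succ, sum_eq_single 0 (fun i hi h => by simp [(mem_range.1 hi).ne, h])
      (fun h => absurd (mem_range.2 (Nat.pos_of_ne_zero hn0)) h)]
    simp [hn0.symm, sub_eq_neg_add]
  have := hensel F (l := 𝓝 (1 : A)) (n + 1)
    (c := fun i x => if i = n then 1 else if i = 0 then -x else 0)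
    (c0 := fun i => if i = n then 1 else if i = 0 then -1 else 0) (y := fun _ => 1)
    (u := fun _ => algebraMap F A (n : F)⁻¹)
    (fun i => by
      split_ifs
      exacts [tendsto_const_nhds, tendsto_id.neg, tendsto_const_nhds])
    tendsto_const_nhds tendsto_const_nhds (by rw [key]; simp)
    (by
      rw [sum_range_succ, sum_eq_zero fun i hi => by
        rcases eq_or_ne i 0 with rfl | h
        · simp
        · simp [(mem_range.1 hi).ne, h]]
      simp only [if_true, one_pow, mul_one, one_mul, zero_add]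
      rw [← map_natCast (algebraMap F A), ← map_mul, inv_mul_cancel₀ hn, map_one]) hV
  filter_upwards [this] with x hx
  obtain ⟨z, hz, hz1, hz2⟩ := hx _ (adj_comm F x)
    (fun i => by
      split_ifs
      exacts [one_mem _, neg_mem (Algebra.self_mem_adjoin_singleton F x), zero_mem _])
    (one_mem _) (Subalgebra.algebraMap_mem _ _)
  exact ⟨z, hz, hz1, by rwa [key, sub_eq_zero] at hz2⟩

/-- commuting roots near a unit are unique -/
theorem root_unique {n : ℕ} (hn : (n : F) ≠ 0) {a : A} (ha : IsUnit a) :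
    ∃ W ∈ 𝓝 a, ∀ y ∈ W, ∀ z ∈ W, Commute y z → y ^ n = z ^ n → y = z := by
  have := topRing F (A := A)
  have h1 : Tendsto (fun q : A × A => ∑ j ∈ range n, q.1 ^ j * q.2 ^ (n - 1 - j)) (𝓝 a ×ˢ 𝓝 a)
      (𝓝 (n * a ^ (n - 1))) := by
    rw [← geom_sum₂_self]
    exact tendsto_finsetSum _ fun j _ => (tendsto_fst.pow j).mul (tendsto_snd.pow _)
  obtain ⟨W, hW, hW'⟩ := mem_prod_same_iff.1
    (h1.eventually (ev_isUnit F ((isUnit_natCast F hn).mul (ha.pow _))))
  refine ⟨W, hW, fun y hy z hz h e => ?_⟩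
  have h2 := h.geom_sum₂_mul n
  rw [e, sub_self] at h2
  exact sub_eq_zero.1 ((hW' (Set.mk_mem_prod hy hz)).mul_right_eq_zero.1 h2)

/-- no small torsion -/
theorem eq_one_of_pow {n : ℕ} (hn : (n : F) ≠ 0) : ∀ᶠ y in 𝓝 (1 : A), y ^ n = 1 → y = 1 := by
  obtain ⟨W, hW, h⟩ := root_unique F hn (isUnit_one (M := A))
  filter_upwards [hW] with y hy e
  exact h y hy 1 (mem_of_mem_nhds hW) (Commute.one_right y) (by rw [e, one_pow])

/-- (O5) idempotents of `F[x₀]` deform to idempotents of `F[x]` -/
theorem idem_near {x0 e0 : A} (he : e0 ∈ Algebra.adjoin F {x0}) (h : IsIdempotentElem e0)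
    {V : Set A} (hV : V ∈ 𝓝 e0) :
    ∀ᶠ x in 𝓝 x0, ∃ e ∈ Algebra.adjoin F {x}, e ∈ V ∧ IsIdempotentElem e := by
  rw [Algebra.adjoin_singleton_eq_range_aeval] at he
  obtain ⟨q, rfl⟩ := he
  have hsep : (X ^ 2 - X : F[X]).Separable := by
    refine ⟨-4, 2 * X - 1, ?_⟩
    simp only [derivative_sub, derivative_X_pow, derivative_X, Nat.cast_ofNat, map_ofNat]
    ring
  have h0 : aeval (aeval x0 q) (X ^ 2 - X : F[X]) = 0 := by
    simp only [map_sub, map_mul, aeval_X, pow_two]
    exact sub_eq_zero.2 h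
  filter_upwards [root_near' F (l := 𝓝 x0) (y := fun x => aeval x q)
    ((continuous_aeval F q).tendsto x0) h0 (isUnit_derivative F hsep h0) hV] with x hx
  obtain ⟨z, hz, hz1, hz2⟩ := hx
  refine ⟨z, Algebra.adjoin_le (Set.singleton_subset_iff.2 (aeval_mem_adjoin_singleton F x)) hz,
    hz1, ?_⟩
  simp only [map_sub, map_mul, aeval_X, pow_two] at hz2
  exact sub_eq_zero.1 hz2

include F in
/-- commuting idempotents that are close are equal -/
theorem idem_unique {e0 : A} (h : IsIdempotentElem e0) : ∃ W ∈ 𝓝 e0, ∀ e ∈ W, ∀ f ∈ W,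
    IsIdempotentElem e → IsIdempotentElem f → Commute e f → e = f := by
  have := topRing F (A := A)
  have hu : IsUnit (e0 + e0 - 1) := by
    have : (e0 + e0 - 1) * (e0 + e0 - 1) = 1 := by
      simp only [mul_sub, sub_mul, mul_add, add_mul, h.eq, mul_one, one_mul]; abel
    exact ⟨⟨_, _, this, this⟩, rfl⟩
  have h1 : Tendsto (fun q : A × A => q.1 + q.2 - 1) (𝓝 e0 ×ˢ 𝓝 e0) (𝓝 (e0 + e0 - 1)) :=
    (tendsto_fst.add tendsto_snd).sub_const 1
  obtain ⟨W, hW, hW'⟩ := mem_prod_same_iff.1 (h1.eventually (ev_isUnit F hu))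
  refine ⟨W, hW, fun e he f hf h1 h2 h3 => ?_⟩
  refine sub_eq_zero.1 ((hW' (Set.mk_mem_prod he hf)).mul_right_eq_zero.1 ?_)
  simp only [mul_sub, sub_mul, add_mul, h1.eq, h2.eq, one_mul, h3.eq]
  abel

/-- (O4) rigidity: simple roots of one polynomial that are close are conjugate by an element near `1` -/
theorem conj_near {P : F[X]} {x : A} (h0 : aeval x P = 0) (h1 : IsUnit (aeval x (derivative P)))
    {V : Set A} (hV : V ∈ 𝓝 (1 : A)) :
    ∀ᶠ x1 in 𝓝 x, aeval x1 P = 0 → ∃ g ∈ V, IsUnit g ∧ g * x = x1 * g := by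
  have := topRing F (A := A)
  obtain ⟨w, hw, hw1⟩ : ∃ w, Commute w x ∧ w * aeval x (derivative P) = 1 :=
    ⟨_, (Algebra.commute_of_mem_adjoin_self (R := F)
      (inverse_mem F _ (aeval_mem_adjoin_singleton F x))).symm, Ring.inverse_mul_cancel _ h1⟩
  set g : A → A := fun y => ∑ k ∈ range (P.natDegree + 1),
    P.coeff k • ∑ j ∈ range k, y ^ j * w * x ^ (k - 1 - j) with hg
  have hc : Continuous g := by fun_prop
  have hx : g x = 1 := by
    have e : ∀ k, ∑ j ∈ range k, x ^ j * w * x ^ (k - 1 - j) = w * (k * x ^ (k - 1)) := fun k => by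
      rw [← geom_sum₂_self, mul_sum]
      exact sum_congr rfl fun j _ => by rw [← (hw.pow_right j).eq, mul_assoc]
    rw [hg]
    simp only [e]
    simp only [← mul_smul_comm _ w, ← mul_sum]
    convert hw1 using 2
    conv_rhs => rw [P.as_sum_range]
    simp only [derivative_monomial, map_sum, aeval_monomial, map_mul, map_natCast,
      mul_assoc, Algebra.smul_def]
  have ht : Tendsto g (𝓝 x) (𝓝 1) := hx ▸ hc.tendsto x
  filter_upwards [ht.eventually hV, ht.eventually (ev_isUnit F isUnit_one)] with y hy hy' hP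
  refine ⟨g y, hy, hy', ?_⟩
  have e : ∀ k, y * (∑ j ∈ range k, y ^ j * w * x ^ (k - 1 - j)) -
      (∑ j ∈ range k, y ^ j * w * x ^ (k - 1 - j)) * x = y ^ k * w - w * x ^ k := fun k => by
    rw [mul_sum, sum_mul, ← sum_sub_distrib]
    have := sum_range_sub (fun j => y ^ j * w * x ^ (k - j)) k
    simp only [Nat.sub_self, pow_zero, mul_one, one_mul, Nat.sub_zero] at this
    rw [← this]
    refine sum_congr rfl fun j hj => ?_
    have hj := mem_range.1 hj
    rw [show k - j = k - 1 - j + 1 by omega, show k - (j + 1) = k - 1 - j by omega]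
    simp only [pow_succ' y, pow_succ x, mul_assoc]
  symm
  rw [← sub_eq_zero, hg]
  simp only []
  rw [mul_sum, sum_mul, ← sum_sub_distrib]
  simp only [mul_smul_comm, smul_mul_assoc, ← smul_sub, e]
  simp only [smul_sub, sum_sub_distrib, ← mul_smul_comm _ w, ← mul_sum]
  simp only [← smul_mul_assoc, ← sum_mul, ← aeval_eq_sum_range, h0, hP, zero_mul, mul_zero,
    sub_self]

end Alg

end Crest.Agent.T24.Opn
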