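import Crest.Agent.T24.HsmA_23
import Crest.Agent.T24.Abhn_13
import Crest.Agent.T24.CsaP_50
import Crest.Agent.T24.Opn_6
import Crest.Agent.T24.AsaA_53
import Crest.Agent.T24.LocA_59

/-! Row 24 (helper23): maps of completions, local splitting from a simple root, interpolation with
hypotheses at the places of the base field, openness of the local conditions. -/

set_option autoImplicit false

noncomputable section

namespace Crest.Agent.T24.Hsm

open scoped TensorProduct Topology
open Module Polynomial NumberField IsDedekindDomain Filter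
open Crest.Agent.T24.Csa Crest.Agent.T24.Asa

universe u v w

section Cmap

variable (K : Type*) [Field K] [NumberField K] {L : Type*} [Field L] [NumberField L] [Algebra K L]
  (w : Pl L)

theorem norm_lt_below {x y : K} :
    ‖algebraMap K (w.adicCompletion L) x‖ < ‖algebraMap K (w.adicCompletion L) y‖ ↔
      ‖algebraMap K ((below K w).adicCompletion K) x‖ <
        ‖algebraMap K ((below K w).adicCompletion K) y‖ := by
  obtain ⟨e, he, h⟩ := val_below (k := K) w
  have h1 : ∀ x : K, Valued.v (algebraMap K (w.adicCompletion L) x) =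
      (below K w).valuation K x ^ e := fun x => by
    rw [← h, ← w.valuedAdicCompletion_eq_valuation']; rfl
  have h2 : ∀ x : K, Valued.v (algebraMap K ((below K w).adicCompletion K) x) =
      (below K w).valuation K x := fun x => (below K w).valuedAdicCompletion_eq_valuation' x
  rw [Valued.toNormedField.norm_lt_iff, Valued.toNormedField.norm_lt_iff, h1, h1, h2, h2,
    pow_lt_pow_iff_left₀ zero_le zero_le he]

theorem exists_cmap : ∃ g : (below K w).adicCompletion K →+* w.adicCompletion L, Continuous g ∧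
    ∀ x : K, g (algebraMap K _ x) = algebraMap K _ x := by
  let _ : PseudoMetricSpace K :=
    PseudoMetricSpace.induced (algebraMap K ((below K w).adicCompletion K)) inferInstance
  have ue : IsUniformInducing (algebraMap K ((below K w).adicCompletion K)) := ⟨rfl⟩
  have dr := (below K w).denseRange_algebraMap K
  have hf : UniformContinuous (algebraMap K (w.adicCompletion L)) := by
    rw [Metric.uniformContinuous_iff]
    intro ε hε
    obtain ⟨π, hπ0, hπ⟩ := exists_deep {below K w} 1
    have h1 : ‖algebraMap K (w.adicCompletion L) π‖ < 1 := by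
      rw [← norm_one (α := w.adicCompletion L), ← map_one (algebraMap K (w.adicCompletion L)),
        norm_lt_below, map_one, norm_one, Valued.toNormedField.norm_lt_one_iff]
      exact ((below K w).valuedAdicCompletion_eq_valuation' _).trans_lt
        ((hπ _ (Finset.mem_singleton_self _)).trans_lt (exp_neg_lt_one one_pos))
    obtain ⟨m, hm⟩ := exists_pow_lt_of_lt_one hε h1
    refine ⟨‖algebraMap K ((below K w).adicCompletion K) (π ^ m)‖, 
      norm_pos_iff.2 ((_root_.map_ne_zero _).2 (pow_ne_zero _ (by simpa using hπ0))), fun {a b} hab => ?_⟩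
    change dist (algebraMap K ((below K w).adicCompletion K) a) (algebraMap K _ b) < _ at hab
    rw [dist_eq_norm, ← map_sub] at hab ⊢
    rw [← norm_lt_below, map_pow, norm_pow] at hab
    exact hab.trans hm
  exact ⟨IsDenseInducing.extendRingHom ue dr hf,
    (uniformContinuous_uniformly_extend ue dr hf).continuous,
    fun x => (ue.isDenseInducing dr).extend_eq hf.continuous x⟩

/-- the map of completions -/
def cmap : (below K w).adicCompletion K →ₐ[K] w.adicCompletion L :=
  { (exists_cmap K w).choose with commutes' := (exists_cmap K w).choose_spec.2 }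

theorem continuous_cmap : Continuous (cmap K w) := (exists_cmap K w).choose_spec.1

theorem cmap_comp : (cmap K w).toRingHom.comp (algebraMap K _) = algebraMap K _ :=
  (cmap K w).comp_algebraMap

theorem val_cmap : ∃ e : ℕ, e ≠ 0 ∧ (∀ x : K, w.valuation L (algebraMap K L x) =
    (below K w).valuation K x ^ e) ∧ ∀ x, Valued.v (cmap K w x) = Valued.v x ^ e := by
  obtain ⟨e, he, h⟩ := val_below (k := K) w
  refine ⟨e, he, h, fun x => ?_⟩
  by_cases hx : x = 0
  · simp [hx, he]
  have h1 : ∀ᶠ y in 𝓝 x, Valued.v y = Valued.v x := Valued.locally_const (by simpa using hx)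
  have h2 : ∀ᶠ y in 𝓝 x, Valued.v (cmap K w y) = Valued.v (cmap K w x) :=
    (continuous_cmap K w).continuousAt.eventually
      (Valued.locally_const (x := cmap K w x) (by simpa using hx))
  obtain ⟨_, ⟨y, rfl⟩, h3, h4⟩ := ((below K w).denseRange_algebraMap K).inter_nhds_nonempty
    (h1.and h2)
  rw [← h3, ← h4, AlgHom.commutes]
  exact (w.valuedAdicCompletion_eq_valuation' _).trans ((h y).trans
    (congrArg (· ^ e) ((below K w).valuedAdicCompletion_eq_valuation' y).symm))

end Cmap

section Simple

variable {K : Type*} [Field K] {B : Type*} [Ring B] [Algebra K B] {E : Type*} [Field E] {n : ℕ}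
  {f : K →+* E}

theorem Spl.unop (h : Spl Bᵐᵒᵖ n f) : Spl B n f := by
  obtain ⟨φ, hφ⟩ := h
  exact ⟨{ toFun := fun b => (φ (MulOpposite.op b)).transpose
           map_one' := by simp
           map_mul' := fun a b => by simp [Matrix.transpose_mul]
           map_zero' := by simp
           map_add' := fun a b => by simp }, fun c => by
    change (φ (algebraMap K Bᵐᵒᵖ c)).transpose = _
    rw [hφ]; exact Matrix.diagonal_transpose _⟩

theorem rootMultiplicity_pow' {p : E[X]} (hp : p ≠ 0) (a : E) (m : ℕ) :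
    rootMultiplicity a (p ^ m) = m * rootMultiplicity a p := by
  induction m with
  | zero => simp
  | succ m ih => rw [pow_succ, rootMultiplicity_mul (mul_ne_zero (pow_ne_zero _ hp) hp), ih]; ring

variable [CharZero K] [Algebra.IsCentral K B] [IsSimpleRing B] [FiniteDimensional K B]

/-- a simple root of the reduced characteristic polynomial splits the algebra -/
theorem spl_of_simple_root (hn : finrank K B = n ^ 2) (y : B) {a : E}
    (h : rootMultiplicity a ((rch K y).map f) = 1) : Spl B n f := by
  let _ : Algebra K E := f.toAlgebra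
  let φ : B →ₐ[K] E ⊗[K] B := Algebra.TensorProduct.includeRight
  let T : End E (E ⊗[K] B) := Algebra.lmul E _ (φ y)
  have hT : T.charpoly = (rch K y).map f ^ n := by
    rw [← Polynomial.map_pow, ← deg_eq K hn, rch_pow]
    exact lch_map f φ.toRingHom (fun c => φ.commutes c) finrank_baseChange y
  let ρ : Bᵐᵒᵖ →+* End E (E ⊗[K] B) :=
    { toFun := fun b => LinearMap.mulRight E (φ b.unop)
      map_one' := LinearMap.ext fun x => by simp
      map_mul' := fun a b => LinearMap.ext fun x => by simp [mul_assoc]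
      map_zero' := LinearMap.ext fun x => by simp
      map_add' := fun a b => LinearMap.ext fun x => by simp [mul_add] }
  refine Spl.unop (spl_of_end (V := T.maxGenEigenspace a) ?_ (restr ρ _ fun d x hx =>
    End.mapsTo_maxGenEigenspace_of_comm (g := ρ d) ?_ a hx) fun c x => Subtype.ext ?_)
  · rw [LinearMap.finrank_maxGenEigenspace_eq, hT,
      rootMultiplicity_pow' ((rch_monic K y).map f).ne_zero, h, mul_one]
  · exact LinearMap.ext fun x => (mul_assoc _ _ _).symm
  · change (x : E ⊗[K] B) * φ (algebraMap K B c) = f c • (x : E ⊗[K] B)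
    rw [φ.commutes, ← Algebra.commutes, Algebra.smul_def]; rfl

theorem spl_of_root (hn : finrank K B = n ^ 2) {y : B} (hs : (rch K y).Separable) {a : E}
    (h : ((rch K y).map f).IsRoot a) : Spl B n f :=
  spl_of_simple_root hn y (le_antisymm (rootMultiplicity_le_one_of_separable hs.map a)
    ((rootMultiplicity_pos ((rch_monic K y).map f).ne_zero).2 h))

theorem rch_smul {s : K} (hs : s ≠ 0) (y : B) :
    rch K (s • y) = C (s ^ deg K B) * (rch K y).comp (C s⁻¹ * X) := by
  refine Polynomial.funext fun t => ?_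
  rw [eval_mul, eval_comp, eval_rch, eval_rch, eval_C, ← Nrd_smul, smul_sub, Algebra.smul_def s (algebraMap _ _ _),
    ← map_mul]
  simp [hs]

theorem separable_smul {s : K} (hs : s ≠ 0) {y : B} (h : (rch K y).Separable) :
    (rch K (s • y)).Separable := by
  obtain ⟨a, b, h⟩ := h
  have h1 := congrArg (·.comp (C s⁻¹ * X)) h
  simp only [add_comp, mul_comp, one_comp] at h1
  have h2 : C (s ^ deg K B)⁻¹ * C (s ^ deg K B) = 1 := by
    rw [← C_mul, inv_mul_cancel₀ (pow_ne_zero _ hs), C_1]
  have h3 : C s * C s⁻¹ = 1 := by rw [← C_mul, mul_inv_cancel₀ hs, C_1]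
  refine ⟨C (s ^ deg K B)⁻¹ * a.comp (C s⁻¹ * X), C (s ^ deg K B)⁻¹ * C s * b.comp (C s⁻¹ * X), ?_⟩
  rw [rch_smul hs, derivative_C_mul, derivative_comp, derivative_C_mul, derivative_X]
  linear_combination h1 + (a.comp (C s⁻¹ * X) * (rch K y).comp (C s⁻¹ * X) +
    C s * C s⁻¹ * b.comp (C s⁻¹ * X) * (derivative (rch K y)).comp (C s⁻¹ * X)) * h2 +
    b.comp (C s⁻¹ * X) * (derivative (rch K y)).comp (C s⁻¹ * X) * h3

end Simple

section Loc

variable {K : Type u} [Field K] [NumberField K] {B : Type v} [Ring B] [Algebra K B]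
  [Algebra.IsCentral K B] [IsSimpleRing B] [FiniteDimensional K B] {n : ℕ}

instance charZero_adic (v : Pl K) : CharZero (v.adicCompletion K) := Loc.charZero_adic K v

instance simple_bc (F : Type*) [Field F] [Algebra K F] : IsSimpleRing (F ⊗[K] B) :=
  isSimpleRing_tensor

instance central_bc (F : Type*) [Field F] [Algebra K F] : Algebra.IsCentral F (F ⊗[K] B) :=
  isCentral_tensor

variable (B n) in
/-- the local condition at a finite place -/
def LocRt (P : K[X]) (v : Pl K) : Prop :=
  Spl B n (algebraMap K (v.adicCompletion K)) ∨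
    ∃ z : v.adicCompletion K ⊗[K] B, rch (v.adicCompletion K) z = P.map (algebraMap K _)

omit [Algebra.IsCentral K B] [IsSimpleRing B] [FiniteDimensional K B] in
theorem Spl.up {L : Type*} [Field L] [NumberField L] [Algebra K L] (w : Pl L)
    (h : Spl B n (algebraMap K ((below K w).adicCompletion K))) :
    Spl B n (algebraMap K (w.adicCompletion L)) := cmap_comp K w ▸ h.comp (cmap K w).toRingHom

theorem LocRt.spl (hn : finrank K B = n ^ 2) {P : K[X]} (hs : P.Separable) {L : Type*} [Field L]
    [NumberField L] [Algebra K L] {a : L} (ha : aeval a P = 0) (w : Pl L)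
    (h : LocRt B n P (below K w)) : Spl B n (algebraMap K (w.adicCompletion L)) := by
  rcases h with h | ⟨z, hz⟩
  · exact h.up w
  rw [← cmap_comp K w]
  refine (spl_of_root (y := z) (by rw [finrank_baseChange, hn]) (hz ▸ hs.map)
    (a := algebraMap L _ a) ?_).of_bc
  rw [hz, Polynomial.map_map, cmap_comp, IsRoot.def, eval_map, ← aeval_def, aeval_algebraMap_apply,
    ha, map_zero]

/-- **interpolation** (G2) with hypotheses at the places of `K` -/
theorem interp_loc (hn : finrank K B = n ^ 2) {P : K[X]} (hP : P.Monic) (hd : P.natDegree = n)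
    (hs : P.Separable) (hfin : ∀ v : Pl K, LocRt B n P v)
    (hreal : ∀ ρ : K →+* ℝ, Spl B n ρ ∨ ∀ x : ℝ, ¬ (P.map ρ).IsRoot x) :
    ∃ y : B, minpoly K y = P ∧ rch K y = P :=
  interp Ab.abhnStmt hn hP hd hs.squarefree
    (fun _ _ _ _ ⟨_, ha⟩ w => (hfin _).spl hn hs ha w) hreal

end Loc

section Near

variable (F : Type*) [NontriviallyNormedField F] [CompleteSpace F] [CharZero F] {C : Type*} [Ring C]
  [Algebra F C] [Algebra.IsCentral F C] [IsSimpleRing C] [FiniteDimensional F C]

/-- polynomials near a separable `rch y₀` are reduced characteristic polynomials -/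
theorem rch_near [TopologicalSpace C] [IsTopologicalAddGroup C] [ContinuousSMul F C] [T2Space C]
    {y₀ : C} (hs : (rch F y₀).Separable) {Λ : Type*} {l : Filter Λ} {P : Λ → F[X]}
    (hP : ∀ i, Tendsto (fun p => (P p).coeff i) l (𝓝 ((rch F y₀).coeff i)))
    (hm : ∀ᶠ p in l, (P p).Monic ∧ (P p).natDegree = deg F C) {V : Set C} (hV : V ∈ 𝓝 y₀) :
    ∀ᶠ p in l, (P p).Separable ∧ ∃ z ∈ Algebra.adjoin F {y₀}, z ∈ V ∧ rch F z = P p := by
  have hU := (isOpen_separable (K := F) (B := C) fun l => l.continuous_of_finiteDimensional).mem_nhds hs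
  filter_upwards [hm, Opn.root_near F (deg F C) hP (hm.mono fun p h => h.2.le) (rch_natDegree y₀).le
    (tendsto_const_nhds (x := y₀)) (aeval_rch y₀) (Opn.isUnit_derivative F hs (aeval_rch y₀))
    (inter_mem hV hU)] with p hp ⟨z, hz, ⟨h1, h2⟩, h3⟩
  have : P p = rch F z := eq_of_monic_of_dvd_of_natDegree_le (rch_monic F z) hp.1
    (minpoly_eq_rch_of_separable h2 ▸ minpoly.dvd F z h3) (by rw [hp.2, rch_natDegree])
  exact ⟨this ▸ h2, z, hz, h1, this.symm⟩

theorem rch_near' {y₀ : C} (hs : (rch F y₀).Separable) {Λ : Type*} {l : Filter Λ} {P : Λ → F[X]}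
    (hP : ∀ i, Tendsto (fun p => (P p).coeff i) l (𝓝 ((rch F y₀).coeff i)))
    (hm : ∀ᶠ p in l, (P p).Monic ∧ (P p).natDegree = deg F C) :
    ∀ᶠ p in l, (P p).Separable ∧ ∃ z ∈ Algebra.adjoin F {y₀}, rch F z = P p := by
  let _ := Opn.nrmR F C
  let _ := Opn.nrmA F C
  exact (rch_near F hs hP hm univ_mem).mono fun p ⟨h, z, h1, _, h2⟩ => ⟨h, z, h1, h2⟩

/-- a filter-free form -/
theorem exists_eps {y₀ : C} (hs : (rch F y₀).Separable) : ∃ ε > 0, ∀ P : F[X], P.Monic →
    P.natDegree = deg F C → (∀ i < deg F C, ‖P.coeff i - (rch F y₀).coeff i‖ < ε) →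
    P.Separable ∧ ∃ z ∈ Algebra.adjoin F {y₀}, rch F z = P := by
  let g : F[X] → Fin (deg F C) → F := fun P i => P.coeff i
  have h := rch_near' F hs (l := comap g (𝓝 (g (rch F y₀))) ⊓ 𝓟 {P | P.Monic ∧ P.natDegree = deg F C})
    (P := id) (fun i => ?_) (mem_inf_of_right (mem_principal_self _))
  · rw [eventually_inf_principal, eventually_comap, Metric.eventually_nhds_iff] at h
    obtain ⟨ε, hε, h⟩ := h
    exact ⟨ε, hε, fun P h1 h2 h3 => h ((dist_pi_lt_iff hε).2 fun i => by
      rw [dist_eq_norm]; exact h3 i i.2) P rfl ⟨h1, h2⟩⟩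
  by_cases hi : i < deg F C
  · exact (tendsto_pi_nhds.1 (tendsto_comap (f := g)) ⟨i, hi⟩).mono_left inf_le_left
  refine tendsto_const_nhds.congr' (mem_inf_of_right fun P ⟨h1, h2⟩ => ?_)
  rcases (not_lt.1 hi).eq_or_lt with rfl | hi
  · exact (rch_natDegree (K := F) y₀ ▸ (rch_monic F y₀).coeff_natDegree).trans
      (h2 ▸ h1.coeff_natDegree).symm
  · exact (coeff_eq_zero_of_natDegree_lt ((rch_natDegree y₀).trans_lt hi)).trans
      (coeff_eq_zero_of_natDegree_lt (h2.trans_lt hi)).symm

/-- every unit has the norm of a separable element -/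
theorem exists_separable_Nrd {x : C} (hx : Nrd F x ≠ 0) :
    ∃ y : C, Nrd F y = Nrd F x ∧ (rch F y).Separable := by
  let e := Module.finBasis F C
  let N : (Fin (finrank F C) → F) → F := fun t => Nrd F (∑ i, t i • e i)
  have hN : Continuous N := by
    simp only [N, ← eval_nrdP]; exact MvPolynomial.continuous_eval _
  have h0 : N (e.repr x) = Nrd F x := by simp [N]
  have h1 : Tendsto (fun t => Nrd F x / N t) (𝓝 (e.repr x)) (𝓝 1) := by
    rw [← div_self hx]
    exact tendsto_const_nhds.div (h0 ▸ hN.tendsto _) hx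
  obtain ⟨ε, hε, h⟩ := Metric.eventually_nhds_iff.1 ((h1.eventually (Opn.root_one F (A := F)
    (Nat.cast_ne_zero.2 (deg_pos F C).ne') univ_mem)).and (hN.continuousAt.eventually_ne (h0 ▸ hx)))
  obtain ⟨t, ht, hs⟩ := exists_separable_box e e.span_eq.ge (fun i => Metric.ball (e.repr x i) ε)
    fun i => infinite_of_mem_nhds _ (Metric.ball_mem_nhds _ hε)
  obtain ⟨⟨s, -, -, h2⟩, h3⟩ := h ((dist_pi_lt_iff hε).2 ht)
  refine ⟨s • ∑ i, t i • e i, by rw [Nrd_smul, h2, div_mul_cancel₀ _ h3], separable_smul ?_ hs⟩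
  rintro rfl
  rw [zero_pow (deg_pos F C).ne'] at h2
  exact div_ne_zero hx h3 h2.symm

end Near

/-- having no real root is an open condition -/
theorem noRoot_eps {Q : ℝ[X]} (hQ : Q.Monic) (h : ∀ x, ¬ Q.IsRoot x) : ∃ ε > 0, ∀ P : ℝ[X],
    P.Monic → P.natDegree = Q.natDegree → (∀ i < Q.natDegree, |P.coeff i - Q.coeff i| < ε) →
    ∀ x, ¬ P.IsRoot x := by
  let R : ℝ := ∑ i ∈ Finset.range Q.natDegree, |Q.coeff i| + 2
  have hR : 0 ≤ R := by positivity
  obtain ⟨a, -, ha⟩ := (isCompact_closedBall (0 : ℝ) R).exists_isMinOn (Metric.nonempty_closedBall.2 hR)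
    (Q.continuous.abs.continuousOn)
  have hδ : 0 < |Q.eval a| := abs_pos.2 (h a)
  let T : ℝ := ∑ i ∈ Finset.range Q.natDegree, R ^ i + 1
  have hT : 0 < T := by positivity
  refine ⟨min 1 (|Q.eval a| / T), by positivity, fun P hP hd hc x hx => ?_⟩
  have h1 : |x| ≤ R := by
    have h2 := hx.norm_lt_cauchyBound hP.ne_zero
    rw [cauchyBound, hP.leadingCoeff, nnnorm_one, div_one, hd] at h2
    have h3 : (Finset.range Q.natDegree).sup (‖P.coeff ·‖₊) ≤ ⟨R - 1, by
        have : 0 ≤ ∑ i ∈ Finset.range Q.natDegree, |Q.coeff i| := by positivity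
        simp only [R]; linarith⟩ := Finset.sup_le fun i hi => by
      have h4 := (hc i (Finset.mem_range.1 hi)).trans_le (min_le_left _ _)
      have h5 := Finset.single_le_sum (f := fun i => |Q.coeff i|) (fun i _ => abs_nonneg _) hi
      have h6 := abs_sub_abs_le_abs_sub (P.coeff i) (Q.coeff i)
      change |P.coeff i| ≤ R - 1
      simp only [R]; linarith
    have h4 : |x| < _ := NNReal.coe_lt_coe.2 (h2.trans_le (add_le_add_left h3 1))
    change |x| < R - 1 + 1 at h4
    linarith
  have h2 : |Q.eval a| ≤ |Q.eval x| := ha (mem_closedBall_zero_iff.2 h1)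
  have h3 : Q.eval x = -∑ i ∈ Finset.range Q.natDegree, (P.coeff i - Q.coeff i) * x ^ i := by
    have h4 := hx.eq_zero
    rw [eval_eq_sum_range, hd, Finset.sum_range_succ, ← hd, hP.coeff_natDegree, hd] at h4
    rw [eval_eq_sum_range, Finset.sum_range_succ, hQ.coeff_natDegree]
    simp only [sub_mul, Finset.sum_sub_distrib]
    linarith
  have h4 : |Q.eval x| ≤ ∑ i ∈ Finset.range Q.natDegree, |Q.eval a| / T * R ^ i := by
    rw [h3, abs_neg]
    refine (Finset.abs_sum_le_sum_abs _ _).trans (Finset.sum_le_sum fun i hi => ?_)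
    rw [abs_mul, abs_pow]
    exact mul_le_mul ((hc i (Finset.mem_range.1 hi)).le.trans (min_le_right _ _))
      (pow_le_pow_left₀ (abs_nonneg _) h1 _) (by positivity) (by positivity)
  rw [← Finset.mul_sum, show ∑ i ∈ Finset.range Q.natDegree, R ^ i = T - 1 by simp [T], mul_sub,
    div_mul_cancel₀ _ hT.ne', mul_one] at h4
  have := div_pos hδ hT
  linarith

end Crest.Agent.T24.Hsm
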