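import Crest.Agent.T24.LocG_59
import Crest.Agent.T24.DefS_26
import Crest.Agent.T24.HsmB_23
import Crest.Agent.T24.Csa4_50
import Crest.Agent.T24.AsaB_53

/-!
# Row 24 (helper59): split places of `K / k` and embeddings of `K` in `k_v`
-/

set_option autoImplicit false

namespace Crest.Agent.T24.Loc

open Finset Module Csa Asa NumberField IsDedekindDomain Filter WithZero Topology
open scoped Valued TensorProduct

theorem val_ext {K : Type*} [Field K] {u u' : Valuation K ℤᵐ⁰} (h : u.IsEquiv u') (h1 : ∃ x, u x = exp (-1))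
    (h2 : ∃ x, u' x = exp (-1)) (x : K) : u x = u' x := by
  have key : ∀ {γ : ℤᵐ⁰}, γ < 1 → γ ≤ exp (-1) := fun {γ} hγ => by
    by_cases h0 : γ = 0
    · simp [h0]
    rw [← exp_log h0, ← exp_zero, exp_lt_exp] at hγ
    rw [← exp_log h0, exp_le_exp]; omega
  have h3 : exp (-1 : ℤ) < 1 := by rw [← exp_zero, exp_lt_exp]; omega
  obtain ⟨p, hp⟩ := h1
  obtain ⟨q, hq⟩ := h2
  have h4 : u' p = exp (-1) := le_antisymm (key (h.lt_one_iff_lt_one.1 (hp ▸ h3)))
    (hq ▸ (h q p).1 (hp ▸ key (h.lt_one_iff_lt_one.2 (hq ▸ h3))))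
  by_cases hx : x = 0
  · simp [hx]
  have h5 : u x = u (p ^ (-log (u x))) := by
    rw [map_zpow₀, hp, ← exp_zsmul, smul_neg, neg_smul, neg_neg, smul_eq_mul, mul_one, exp_log (by simpa using hx)]
  rw [h.eq_iff.1 h5, map_zpow₀, h4, ← hp, ← map_zpow₀, ← h5]

/-- a valuation of a number field with value group `ℤ` is a place -/
theorem exists_place {K : Type*} [Field K] [NumberField K] (u : Valuation K ℤᵐ⁰) (h1 : ∃ x, u x = exp (-1)) :
    ∃ w : Pl K, ∀ x, w.valuation K x = u x := by
  have h2 : ∀ a : 𝓞 K, u a ≤ 1 := fun a =>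
    (Valuation.integer.integers u).mem_of_integral (a.isIntegral_coe.tower_top)
  let P : Ideal (𝓞 K) :=
    { carrier := {a | u a < 1}
      add_mem' := fun {a b} ha hb => by simpa using u.map_add_lt ha hb
      zero_mem' := by simp
      smul_mem' := fun c a ha => by simpa [mul_comm] using mul_lt_one_of_lt_of_le ha (h2 c) }
  have hP : P.IsPrime := ⟨(Ideal.ne_top_iff_one _).2 (by simp [P]), fun {a b} h => by
    by_contra h3
    have h4 : u a = 1 := (h2 a).antisymm (not_lt.1 fun h => h3 (Or.inl h))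
    have h5 : u b = 1 := (h2 b).antisymm (not_lt.1 fun h => h3 (Or.inr h))
    simp [P, h4, h5] at h⟩
  obtain ⟨p, hp⟩ := h1
  let w : Pl K := ⟨P, hP, fun h0 => by
    obtain ⟨a, b, hb, rfl⟩ := IsFractionRing.div_surjective (A := 𝓞 K) p
    have h3 : u (algebraMap (𝓞 K) K b) ≠ 0 := by simpa using nonZeroDivisors.ne_zero hb
    rw [map_div₀, div_eq_iff h3] at hp
    have h4 : a ∈ P := by
      change u (algebraMap (𝓞 K) K a) < 1
      rw [hp]
      exact mul_lt_one_of_lt_of_le (by rw [← exp_zero, exp_lt_exp]; omega) (h2 b)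
    rw [h0, Ideal.mem_bot] at h4
    rw [h4, map_zero, map_zero] at hp
    exact mul_ne_zero exp_ne_zero h3 hp.symm⟩
  have h3 : ∀ x, w.valuation K x ≤ 1 → u x ≤ 1 ∧ (w.valuation K x < 1 → u x < 1) := fun x hx => by
    obtain ⟨n, d, h⟩ := w.exists_primeCompl_mul_eq_of_integer x hx
    have h4 : u (algebraMap (𝓞 K) K d) = 1 := (h2 d).antisymm (not_lt.1 d.2)
    have h5 := congrArg u h
    rw [map_mul, h4, mul_one] at h5
    refine ⟨h5 ▸ h2 n, fun h6 => h5 ▸ (w.valuation_lt_one_iff_mem (K := K) n).1 ?_⟩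
    change w.valuation K (algebraMap (𝓞 K) K n) < 1
    rw [← h, map_mul]
    exact mul_lt_one_of_lt_of_le h6 (w.valuation_le_one _)
  refine ⟨w, val_ext (Valuation.isEquiv_iff_val_le_one.2 fun {x} => ⟨fun h => (h3 x h).1, fun h => ?_⟩)
    (w.valuation_surjective K _) ⟨p, hp⟩⟩
  by_contra h4
  have h5 : w.valuation K x⁻¹ < 1 := by rw [map_inv₀]; exact inv_lt_one_of_one_lt₀ (not_le.1 h4)
  have h6 := (h3 _ h5.le).2 h5
  have h7 : u x ≠ 0 := by simpa using fun h0 => h4 (by simp [h0])
  rw [map_inv₀, inv_lt_one₀ (zero_lt_iff.2 h7)] at h6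
  exact absurd h (not_le.2 h6)

variable {k K : Type*} [Field k] [NumberField k] [Field K] [NumberField K] [Algebra k K] [StarRing K] [Quad k K]

/-- an embedding of `K` in `k_v` defines a split place above `v` -/
theorem place_of_hom {v : Pl k} (i : K →ₐ[k] Kv v) :
    ∃ w : Pl K, below k w = v ∧ Split w ∧ ∀ x, w.valuation K x = Valued.v (i x) := by
  obtain ⟨p, hp⟩ := v.valuation_surjective k (exp (-1))
  obtain ⟨w, hw⟩ := exists_place ((Valued.v : Valuation (Kv v) ℤᵐ⁰).comap (i : K →+* Kv v))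
    ⟨algebraMap k K p, by simpa [val_alg] using hp⟩
  have hw' : ∀ x, w.valuation K x = Valued.v (i x) := hw
  refine ⟨w, HeightOneSpectrum.ext (Ideal.ext fun a => ?_), ?_, hw'⟩
  · rw [← HeightOneSpectrum.valuation_lt_one_iff_mem (K := k), ← HeightOneSpectrum.valuation_lt_one_iff_mem (K := k),
      ← below_lt_one, hw', i.commutes, val_alg]
  · obtain ⟨θ, h0, hθ⟩ := exists_skew (Quad.ne (k := k) (K := K))
    have := charZero_adic k v
    obtain ⟨a, ha⟩ := (v.denseRange_algebraMap k).exists_dist_lt (i θ) (ε := ‖2 * i θ‖) (by simpa using h0)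
    refine ⟨θ - algebraMap k K a, ?_⟩
    rw [hw', hw', star_sub, hθ, Quad.star_k, map_sub i, map_sub i, map_neg, i.commutes]
    rw [dist_eq_norm, Valued.toNormedField.norm_lt_iff] at ha
    rw [show -i θ - algebraMap k (Kv v) a = i θ - algebraMap k (Kv v) a - 2 * i θ by ring,
      Valuation.map_sub_eq_of_lt_right _ ha]
    exact ha.ne'

omit [StarRing K] [Quad k K] in
theorem isClosed_cmap (w : Pl K) : IsClosed (Set.range (Hsm.cmap k w)) := by
  let := (Hsm.cmap k w).toRingHom.toAlgebra
  have : ContinuousSMul (Kv (below k w)) (w.adicCompletion K) :=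
    ⟨((Hsm.continuous_cmap k w).comp continuous_fst).mul continuous_snd⟩
  convert (Submodule.span (Kv (below k w)) {(1 : w.adicCompletion K)}).closed_of_finiteDimensional using 1
  ext z
  simp only [Set.mem_range, SetLike.mem_coe, Submodule.mem_span_singleton, Algebra.smul_def, mul_one]
  rfl

theorem mem_range_cmap {w : Pl K} (hw : Split w) (x : K) : ∃ s, Hsm.cmap k w s = algebraMap K _ x := by
  obtain ⟨y, hy, hy1⟩ : ∃ y : K, y * star y = 1 ∧ w.valuation K y < 1 := by
    obtain ⟨x, hx⟩ := hw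
    have h0 : x ≠ 0 := fun h => hx (by simp [h])
    have h1 : star x ≠ 0 := star_ne_zero.2 h0
    rcases hx.lt_or_gt with h | h
    · exact ⟨star x / x, by rw [star_div₀, star_star]; field_simp,
        by rwa [map_div₀, div_lt_one₀ (zero_le.trans_lt h)]⟩
    · exact ⟨x / star x, by rw [star_div₀, star_star]; field_simp,
        by rwa [map_div₀, div_lt_one₀ (zero_le.trans_lt h)]⟩
  obtain ⟨θ, h0, hθ⟩ := exists_skew (Quad.ne (k := k) (K := K))
  let f := Hsm.cmap k w
  have hf : ∀ a : k, f (algebraMap k _ a) = algebraMap K _ (algebraMap k K a) := fun a =>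
    (f.commutes a).trans (IsScalarTower.algebraMap_apply _ _ _ _)
  have h2 : algebraMap K _ θ ∈ Set.range f := by
    have h3 := tendsto_pow_atTop_nhds_zero_of_norm_lt_one (x := algebraMap K (w.adicCompletion K) y)
      (by rwa [Valued.toNormedField.norm_lt_one_iff, val_alg])
    have h4 := ((h3.const_sub 1).const_mul (algebraMap K _ θ)).div (h3.const_add 1) (by simp)
    simp only [sub_zero, mul_one, add_zero, div_one] at h4
    refine (isClosed_cmap w).mem_of_tendsto h4 ((eventually_ne_atTop 0).mono fun n hn => ?_)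
    have h5 : 1 + y ^ n ≠ 0 := fun h => by
      have := (w.valuation K).map_one_add_of_lt (x := y ^ n) (by rw [map_pow]; exact pow_lt_one₀ zero_le hy1 hn)
      simp [h] at this
    have h6 : y ≠ 0 := left_ne_zero_of_mul_eq_one hy
    obtain ⟨a, ha⟩ := exists_of_star_eq (Quad.fr (k := k) (K := K)) Quad.star_k (Quad.ne (k := k))
      (c := θ * (1 - y ^ n) / (1 + y ^ n)) (by
        have h7 : y ^ n + 1 ≠ 0 := by rwa [add_comm]
        simp only [star_div₀, star_mul', star_sub, star_add, star_one, star_pow, hθ,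
          eq_inv_of_mul_eq_one_right hy, inv_pow]
        field_simp
        ring)
    exact ⟨algebraMap k _ a, by rw [hf, ha]; simp⟩
  obtain ⟨a, b, rfl⟩ := exists_coord (Quad.fr (k := k) (K := K)) Quad.star_k h0 hθ x
  obtain ⟨s, hs⟩ := h2
  exact ⟨algebraMap k _ a + algebraMap k _ b * s, by rw [map_add, map_mul, hf, hf, hs, map_add, map_mul]⟩

/-- a split place gives an embedding of `K` in `k_v` -/
theorem hom_of_split {w : Pl K} (hw : Split w) :
    ∃ i : K →ₐ[k] Kv (below k w), (∀ x, Hsm.cmap k w (i x) = algebraMap K _ x) ∧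
      ∀ x, w.valuation K x = Valued.v (i x) := by
  choose g h4 using mem_range_cmap (k := k) hw
  have hf : Function.Injective (Hsm.cmap k w) := (Hsm.cmap k w).injective
  let i : K →ₐ[k] Kv (below k w) :=
    { toFun := g
      map_one' := hf (by simp [h4])
      map_mul' := fun x y => hf (by simp [h4])
      map_zero' := hf (by simp [h4])
      map_add' := fun x y => hf (by simp [h4])
      commutes' := fun c => hf (by
        rw [h4]; exact ((Hsm.cmap k w).commutes c).symm) }
  obtain ⟨e, he, -, h5⟩ := Hsm.val_cmap k w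
  obtain ⟨p, hp⟩ := (below k w).valuation_surjective k (exp (-1))
  let u : Valuation K ℤᵐ⁰ := (Valued.v : Valuation (Kv (below k w)) ℤᵐ⁰).comap i.toRingHom
  have h6 : ∀ x, w.valuation K x = u x ^ e := fun x => by rw [← val_alg, ← h4, h5]; rfl
  refine ⟨i, h4, val_ext (u' := u) (fun x y => ?_) (w.valuation_surjective K _)
    ⟨algebraMap k K p, (congrArg Valued.v (i.commutes p)).trans ((val_alg _ p).trans hp)⟩⟩
  rw [h6, h6, pow_le_pow_iff_left₀ zero_le zero_le he]

/-- all places above a place with an embedding are split -/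
theorem split_of_hom {w : Pl K} (i : K →ₐ[k] Kv (below k w)) : Split w := by
  obtain ⟨w', h1, h2, -⟩ := place_of_hom i
  by_contra h
  exact h (nonsplit_unique (Quad.fr (k := k)) (sig_ne k K) h h1.symm ▸ h2)

theorem isEmpty_iff {w : Pl K} : IsEmpty (K →ₐ[k] Kv (below k w)) ↔ ¬ Split w :=
  ⟨fun h hw => h.elim (hom_of_split hw).choose, fun h => ⟨fun i => h (split_of_hom i)⟩⟩

end Crest.Agent.T24.Loc
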