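import Crest.Agent.T24.WallA_86
import Crest.Agent.T24.CsaN_50

/-! Wall's theory, part B: the bridge to a simple algebra `B = M_n(D)` with an involution of the
second kind. -/

set_option autoImplicit false

noncomputable section

namespace Crest.Agent.T24.Wall

open Matrix

variable {K B D n : Type*} [Field K] [StarRing K] [Ring B] [StarRing B] [Algebra K B]
  [StarModule K B] [DivisionRing D] [Algebra K D] [Fintype n] [DecidableEq n]

/-- the row matrix -/
def ro (ψ : B ≃ₐ[K] Matrix n n D) (i : n) (v : n → D) : B := ψ.symm (vecMulVec (Pi.single i 1) v)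

section Ro

variable (ψ : B ≃ₐ[K] Matrix n n D) (i : n)

omit [StarRing K] [StarRing B] [StarModule K B]

theorem ro_mul (v : n → D) (b : B) : ro ψ i v * b = ro ψ i (v ᵥ* ψ b) :=
  ψ.injective (by simp [ro, vecMulVec_mul])

theorem ro_ro (v w : n → D) : ro ψ i v * ro ψ i w = ro ψ i (v i • w) :=
  ψ.injective (by simp [ro, vecMulVec_mul_vecMulVec])

theorem ro_add (v w : n → D) : ro ψ i (v + w) = ro ψ i v + ro ψ i w := by
  simp [ro, vecMulVec_add]

theorem ro_smul (c : K) (v : n → D) : ro ψ i (c • v) = c • ro ψ i v := by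
  simp [ro, vecMulVec_smul]

theorem ro_inj {v w : n → D} (h : ro ψ i v = ro ψ i w) : v = w := funext fun j => by
  simpa [vecMulVec_apply] using congrFun (congrFun (ψ.symm.injective h) i) j

theorem ro_zero : ro ψ i 0 = 0 := by simp [ro]

theorem eq_zero_of_ro {b : B} (h : ∀ v, ro ψ i v * b = 0) : b = 0 := ψ.injective <| by
  ext j l
  have := ro_inj ψ i ((ro_mul ψ i (Pi.single j 1) b).symm.trans ((h _).trans (ro_zero ψ i).symm))
  simpa using congrFun this l

end Ro

/-- An involution of the second kind is adjoint to a hermitian form. -/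
theorem exists_HF [Nonempty n] (ψ : B ≃ₐ[K] Matrix n n D) (hθ : ∃ θ : K, θ ≠ 0 ∧ star θ = -θ) :
    ∃ (_ : StarRing D) (_ : StarModule K D) (F : HF D (n → D)),
      ∀ b x y, F.h (x ᵥ* ψ b) y = F.h x (y ᵥ* ψ (star b)) := by
  obtain ⟨θ, θ0, θ1⟩ := hθ
  obtain ⟨i⟩ := ‹Nonempty n›
  let E : D → B := fun d => ro ψ i (Pi.single i d)
  have Eρ : ∀ d v, E d * ro ψ i v = ro ψ i (d • v) := fun d v => by simp [E, ro_ro]
  have EE : ∀ d d', E d * E d' = E (d * d') := fun d d' => by
    rw [Eρ, ← Pi.single_smul', smul_eq_mul]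
  have Ea : ∀ d d', E (d + d') = E d + E d' := fun d d' => by simp only [E, Pi.single_add, ro_add]
  have Es : ∀ (c : K) d, E (c • d) = c • E d := fun c d => by
    simp only [E, ← ro_smul, Pi.single_smul']
  obtain ⟨v, v0, v1, v2⟩ : ∃ v, v ≠ 0 ∧ ro ψ i v * star (E 1) = ro ψ i v ∧
      star (ro ψ i v) = ro ψ i v := by
    obtain ⟨u, hu⟩ : ∃ u, ro ψ i u * star (E 1) ≠ 0 := not_forall.1 fun h => by
      have := ro_inj ψ i ((star_eq_zero.1 (eq_zero_of_ro ψ i h)).trans (ro_zero ψ i).symm)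
      simpa using congrFun this i
    have key : ∀ c : B, c ≠ 0 → E 1 * c = c → star c = c → ∃ v, v ≠ 0 ∧
        ro ψ i v * star (E 1) = ro ψ i v ∧ star (ro ψ i v) = ro ψ i v := fun c c0 c1 c2 => by
      have : ro ψ i (Pi.single i 1 ᵥ* ψ c) = c := (ro_mul ψ i _ c).symm.trans c1
      refine ⟨Pi.single i 1 ᵥ* ψ c, fun h => c0 ?_, ?_, ?_⟩
      · rw [← this, h, ro_zero]
      · rw [this, ← c2, ← star_mul, c1]
      · rw [this, c2]
    set c := ro ψ i u * star (E 1) with hc
    have c1 : E 1 * c = c := by rw [hc, ← mul_assoc, Eρ, one_smul]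
    have c2 : E 1 * star c = star c := by rw [hc, star_mul, star_star, ← mul_assoc, EE, one_mul]
    by_cases h : c + star c = 0
    · refine key (θ • c) (smul_ne_zero θ0 hu) (by rw [mul_smul_comm, c1]) ?_
      rw [star_smul, θ1, eq_neg_of_add_eq_zero_right h, neg_smul_neg]
    · exact key _ h (by rw [mul_add, c1, c2]) (by rw [star_add, star_star, add_comm])
  set s := ro ψ i v with hs
  have can : ∀ {d d'}, E d * s = E d' * s → d = d' := fun h => by
    rw [hs, Eρ, Eρ] at h
    exact smul_left_injective D v0 (ro_inj ψ i h)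
  obtain ⟨κ, hκ⟩ : ∃ κ : (n → D) → B → D, ∀ x b, E 1 * b = b → ro ψ i x * star b = E (κ x b) * s := by
    obtain ⟨j, hj⟩ := Function.ne_iff.1 v0
    obtain ⟨m, hm⟩ : ∃ m, s * m = E 1 := ⟨ψ.symm (vecMulVec (Pi.single j (v j)⁻¹) (Pi.single i 1)), by
      rw [hs, ro_mul, AlgEquiv.apply_symm_apply, vecMul_vecMulVec, dotProduct_single,
        mul_inv_cancel₀ hj, one_smul]⟩
    refine ⟨fun x b => (x ᵥ* ψ (star b * star m)) i, fun x b hb => ?_⟩
    have : star m * s = star (E 1) := by rw [← hm, star_mul, v2]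
    rw [hs, Eρ, ← ro_ro, ← ro_mul, ← hs, mul_assoc, mul_assoc, this, ← star_mul, hb]
  have h1 : ∀ d, s * star (E d) = E (κ v (E d)) * s := fun d => hκ v _ (by rw [EE, one_mul])
  have h2 : ∀ x y, ro ψ i x * star (ro ψ i y) = E (κ x (ro ψ i y)) * s := fun x y =>
    hκ x _ (by rw [Eρ, one_smul])
  let _ : StarRing D :=
    { star := fun d => κ v (E d)
      star_involutive := fun d => can (by
        have := congrArg star (h1 d)
        rw [star_mul, star_mul, star_star, v2, h1] at this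
        exact this.symm)
      star_mul := fun d d' => can (by
        show E (κ v (E _)) * s = E (κ v (E d') * κ v (E d)) * s
        rw [← h1, ← EE, ← EE, star_mul, ← mul_assoc, h1, mul_assoc, h1, mul_assoc])
      star_add := fun d d' => can (by
        show E (κ v (E _)) * s = E (κ v (E d) + κ v (E d')) * s
        rw [← h1, Ea, Ea, star_add, mul_add, add_mul, h1, h1]) }
  have h3 : ∀ d, s * star (E d) = E (star d) * s := h1
  have : StarModule K D := ⟨fun c d => can (by
    rw [← h3, Es, Es, star_smul, mul_smul_comm, h3, smul_mul_assoc])⟩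
  refine ⟨_, this, ⟨fun x y => κ x (ro ψ i y), fun x y z => can ?_, fun a x y => can ?_,
    fun x y => can ?_, fun x hx => ?_, θ • 1, smul_ne_zero θ0 one_ne_zero, ?_, fun a => ?_⟩,
    fun b x y => can ?_⟩
  · rw [← h2, Ea, add_mul, ← h2, ← h2, ro_add, add_mul]
  · rw [← h2, ← EE, mul_assoc, ← h2, ← Eρ, mul_assoc]
  · rw [← h3, ← h2, ← v2, ← star_mul, ← h2, star_mul, star_star]
  · refine ro_inj ψ i ((star_eq_zero.1 (eq_zero_of_ro ψ i fun y => ?_)).trans (ro_zero ψ i).symm)
    rw [← star_eq_zero, star_mul, star_star, h2, hx y]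
    simp [E, ro_zero]
  · rw [star_smul, θ1, star_one, neg_smul]
  · simp
  · show E (κ _ _) * s = E (κ _ _) * s
    rw [← h2, ← h2, ← ro_mul, ← ro_mul, star_mul, star_star, mul_assoc]

/-! ## the dictionary -/

/-- the action of the unitary group on row vectors -/
def act (ψ : B ≃ₐ[K] Matrix n n D) : unitary B →* ((n → D) ≃ₗ[D] (n → D)) where
  toFun u := LinearEquiv.ofLinearMap (ψ (star (u : B))).vecMulLinear (ψ u).vecMulLinear
    (LinearMap.ext fun x => by simp [← map_mul ψ])
    (LinearMap.ext fun x => by simp [← map_mul ψ])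
  map_one' := LinearEquiv.ext fun x => by simp
  map_mul' u v := LinearEquiv.ext fun x => by simp

section Dic

omit [StarRing K] [StarModule K B]

variable {ψ : B ≃ₐ[K] Matrix n n D}

theorem act_apply (u : unitary B) (x : n → D) : act ψ u x = x ᵥ* ψ (star (u : B)) := rfl

omit [StarRing B] in
theorem ext_vec {a b : B} (h : ∀ x, x ᵥ* ψ a = x ᵥ* ψ b) : a = b := ψ.injective <| by
  ext i j
  simpa using congrFun (h (Pi.single i 1)) j

theorem act_inj : Function.Injective (act ψ) := fun _ _ h =>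
  Subtype.ext (star_injective (ext_vec (ψ := ψ) fun x => LinearEquiv.congr_fun h x))

omit [StarRing B] in
theorem exists_lin (ψ : B ≃ₐ[K] Matrix n n D) (g : (n → D) →ₗ[D] (n → D)) :
    ∃ b, ∀ x, x ᵥ* ψ b = g x := ⟨ψ.symm g.toMatrixRight', fun x => by
  rw [AlgEquiv.apply_symm_apply]
  exact LinearMap.congr_fun (LinearMap.toMatrixRight'.symm_apply_apply g) x⟩

variable [StarRing D] {F : HF D (n → D)}

/-- `star` is the adjoint for `F` -/
def Adj (ψ : B ≃ₐ[K] Matrix n n D) (F : HF D (n → D)) : Prop :=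
  ∀ b x y, F.h (x ᵥ* ψ b) y = F.h x (y ᵥ* ψ (star b))

theorem Adj.act_mem (h : Adj ψ F) (u : unitary B) : act ψ u ∈ F.U := fun x y => by
  rw [act_apply, act_apply, h, vecMul_vecMul, ← map_mul, star_star, u.2.1, map_one, vecMul_one]

theorem Adj.act_surj (h : Adj ψ F) {g : (n → D) ≃ₗ[D] (n → D)} (hg : g ∈ F.U) :
    ∃ u, act ψ u = g := by
  obtain ⟨b, hb⟩ := exists_lin ψ g.toLinearMap
  have hb : ∀ x, x ᵥ* ψ b = g x := hb
  have h1 : ∀ y, g y ᵥ* ψ (star b) = y := fun y =>
    F.ext_right fun x => by rw [← h, hb, hg]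
  refine ⟨⟨star b, ext_vec (ψ := ψ) fun x => ?_, ext_vec (ψ := ψ) fun x => ?_⟩,
    LinearEquiv.ext fun x => by rw [act_apply, star_star, hb]⟩
  · rw [star_star, map_mul, ← vecMul_vecMul, hb, h1, map_one, vecMul_one]
  · obtain ⟨y, rfl⟩ := g.surjective x
    rw [star_star, map_mul, ← vecMul_vecMul, h1, hb, map_one, vecMul_one]

theorem Adj.exists_iso (h : Adj ψ F) {b : B} (h0 : b ≠ 0) (hb : star b * b = 0) :
    ∃ e, e ≠ 0 ∧ F.h e e = 0 := by
  obtain ⟨x, hx⟩ := not_forall.1 fun k => star_ne_zero.2 h0 (ext_vec (ψ := ψ) k)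
  exact ⟨_, by simpa using hx, by
    rw [h, vecMul_vecMul, ← map_mul, star_star, hb, map_zero, vecMul_zero, HF.zero_right]⟩

theorem Adj.iso_of (h : Adj ψ F) {e : n → D} (h0 : e ≠ 0) (he : F.h e e = 0) :
    ∃ b : B, b ≠ 0 ∧ star b * b = 0 := by
  obtain ⟨i, -⟩ := Function.ne_iff.1 h0
  have k : ∀ x, x ᵥ* ψ (ro ψ i e) = x i • e := fun x => by simp [ro, vecMul_vecMulVec]
  refine ⟨star (ro ψ i e), star_ne_zero.2 fun h' => h0 (ro_inj ψ i (h'.trans (ro_zero ψ i).symm)),
    ext_vec (ψ := ψ) fun x => F.ext_right fun y => ?_⟩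
  rw [star_star, map_mul, ← vecMul_vecMul, ← h, k, k]
  simp [he]

/-- transvections are unipotent of index two -/
theorem sq_of_tv {u : unitary B} {e : n → D} {he : F.h e e = 0} {s : D}
    (hu : act ψ u = F.tv e he s) : ((u : B) - 1) * (u - 1) = 0 := by
  have k : ∀ x, x ᵥ* ψ (star (u : B) - 1) = (F.h x e * s) • e := fun x => by
    rw [map_sub, vecMul_sub, ← act_apply, hu, HF.tv_apply, map_one, vecMul_one, add_sub_cancel_left]
  rw [← star_eq_zero, star_mul, star_sub, star_one]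
  refine ext_vec (ψ := ψ) fun x => ?_
  rw [map_mul, ← vecMul_vecMul, k, k]
  simp [he]

/-- the elementary group is inside every subgroup containing the unipotents of index two -/
theorem Adj.T_le (h : Adj ψ F) {N : Subgroup (unitary B)}
    (hN : ∀ u : unitary B, ((u : B) - 1) * (u - 1) = 0 → u ∈ N) : F.T ≤ N.map (act ψ) :=
  F.T_le fun _ he _ hs => by
    obtain ⟨u, hu⟩ := h.act_surj (F.tv_mem he hs)
    exact ⟨u, hN u (sq_of_tv hu), hu⟩

end Dic

/-! ## reduced norms -/

section Nrd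

open Csa

variable [CharZero K] [Algebra.IsCentral K B] [IsSimpleRing B] [FiniteDimensional K B]

omit [StarRing K] [StarRing B] [StarModule K B] in
theorem Nrd_one_add_comm (x y : B) : Nrd K (1 + x * y) = Nrd K (1 + y * x) := by
  have a := eval_rch (K := K) (-x * y) 1
  rw [rch_mul_comm, eval_rch] at a
  simpa using a.symm

theorem Nrd_star' (b : B) : Nrd K (star b) = star (Nrd K b) :=
  Nrd_anti (starRingEnd K) (starAddEquiv (R := B)).toAddMonoidHom (star_one B)
    (fun x y => star_mul x y) (fun c => (algebraMap_star_comm c).symm) b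

omit [StarRing K] [StarRing B] [StarModule K B] in
theorem Nrd_of_sq {u : B} (h : (u - 1) * (u - 1) = 0) : Nrd K u = 1 := by
  simpa using Nrd_one_add_of_nilpotent (K := K) (x := u - 1) ⟨2, by rw [sq, h]⟩

variable (K B) in
/-- the special unitary group -/
def su : Subgroup (unitary B) :=
  (((Nrd K : B →*₀ K) : B →* K).comp (unitary B).subtype).ker

omit [StarRing K] [StarModule K B] in
theorem mem_su {u : unitary B} : u ∈ su K B ↔ Nrd K (u : B) = 1 := Iff.rfl

variable [Algebra.IsCentral K D] [FiniteDimensional K D] [Nonempty n] {ψ : B ≃ₐ[K] Matrix n n D}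

omit [StarRing K] [StarRing B] [StarModule K B] in
theorem Nrd_rk {b : B} (l : (n → D) →ₗ[D] D) (w : n → D) (h : ∀ x, x ᵥ* ψ b = x + l x • w) :
    Nrd K b = Nrd K (1 + l w) := by
  obtain ⟨i⟩ := ‹Nonempty n›
  let c : n → D := fun j => l (Pi.single j 1)
  have hl : ∀ x, x ⬝ᵥ c = l x := fun x => by
    rw [l.pi_apply_eq_sum_univ]
    refine Finset.sum_congr rfl fun j _ => ?_
    simp only [c, smul_eq_mul]
    congr 2
    ext k
    simp [Pi.single_apply, eq_comm]
  have e1 : ψ b = 1 + vecMulVec c (Pi.single i 1) * vecMulVec (Pi.single i 1) w := by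
    rw [← ψ.apply_symm_apply (1 + _)]
    refine congrArg ψ (ext_vec (ψ := ψ) fun x => ?_)
    rw [ψ.apply_symm_apply, h, vecMul_add, vecMul_one, ← vecMul_vecMul, vecMul_vecMulVec,
      vecMul_vecMulVec, hl]
    simp
  have e2 : (1 + vecMulVec (Pi.single i 1) w * vecMulVec c (Pi.single i 1) : Matrix n n D) =
      diagonal (Function.update 1 i (1 + l w)) := by
    rw [vecMulVec_mul_vecMulVec, hl]
    ext j k
    by_cases h1 : j = i <;> by_cases h2 : j = k <;>
      simp_all [vecMulVec_apply, Pi.single_apply, eq_comm]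
  have e3 := Nrd_map (RingHom.id K) ψ.toRingEquiv.toRingHom ψ.commutes
    ψ.toLinearEquiv.finrank_eq.symm b
  rw [RingHom.id_apply] at e3
  rw [← e3]
  show Nrd K (ψ b) = _
  rw [e1, Nrd_one_add_comm, e2, Nrd_diagonal, Finset.prod_eq_single i]
  · simp
  · intro j _ hj
    simp [hj]
  · simp

variable [StarRing D] [StarModule K D] {F : HF D (n → D)}

omit [StarRing K] [StarRing B] [StarModule K B] [StarModule K D] in
theorem Nrd_rk' {b : B} (u w : n → D) (r : D) (h : ∀ x, x ᵥ* ψ b = x + (F.h x u * r) • w) :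
    Nrd K b = Nrd K (1 + F.h w u * r) :=
  Nrd_rk (ψ := ψ) ⟨⟨fun x => F.h x u * r, fun x y => by simp [add_mul]⟩, fun a x => by
    simp [mul_assoc]⟩ w h

omit [StarRing K] [StarModule K B] [StarModule K D] [Algebra.IsCentral K D] [FiniteDimensional K D]
  [Nonempty n] in
theorem Adj.su_of_T (h : Adj ψ F) {u : unitary B} (hu : act ψ u ∈ F.T) : u ∈ su K B := by
  obtain ⟨v, hv, e⟩ := h.T_le (N := su K B) (fun _ => Nrd_of_sq) hu
  exact act_inj e ▸ hv

/-- the reduced norm of a diagonal element -/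
theorem Nrd_dg [CharZero D] {e f : n → D} (p : F.Hyp e f) (a : Dˣ) {u : unitary B}
    (hu : act ψ u = p.dg a) : Nrd K (u : B) * Nrd K (a : D) = star (Nrd K (a : D)) := by
  obtain ⟨b1, h1⟩ := exists_lin ψ (F.dl e f a 1)
  obtain ⟨b2, h2⟩ := exists_lin ψ (F.dl e f 1 (star ↑a⁻¹))
  have e0 : star (u : B) = b1 * b2 := ext_vec (ψ := ψ) fun x => by
    rw [← act_apply, hu, map_mul, ← vecMul_vecMul, h1, h2, HF.dl_dl p, mul_one, one_mul]
    rfl
  have e1 := Nrd_rk' (F := F) (ψ := ψ) (b := b1) f e ((a : D) - 1) fun x => by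
    simp [h1, HF.dl_apply]
  have e2 := Nrd_rk' (F := F) (ψ := ψ) (b := b2) e f (star (↑a⁻¹ : D) - 1) fun x => by
    simp [h2, HF.dl_apply]
  rw [p.ef, one_mul, add_sub_cancel] at e1
  rw [p.fe, one_mul, add_sub_cancel, Nrd_star'] at e2
  rw [← star_star (u : B), Nrd_star', e0, map_mul, e1, e2, star_mul', star_star, mul_assoc,
    ← map_mul, a.inv_mul, map_one, mul_one]

variable (K D) in
/-- the reduced unitary Whitehead group of `D` is trivial -/
def Suk : Prop := ∀ a : Dˣ, star (Nrd K (a : D)) = Nrd K (a : D) → a ∈ HF.Sg D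

/-- **Wall**: `SU = T` when `SUK₁(D) = 1` -/
theorem Adj.T_of_su (h : Adj ψ F) (hS : Suk K D) {e : n → D} (h0 : e ≠ 0) (he : F.h e e = 0)
    {u : unitary B} (hu : u ∈ su K B) : act ψ u ∈ F.T := by
  have : CharZero D := charZero_of_injective_algebraMap (algebraMap K D).injective
  obtain ⟨f, p⟩ := HF.exists_hyp he h0
  obtain ⟨t, ht, a, e⟩ := p.decomp (h.act_mem u)
  obtain ⟨v, rfl⟩ := h.act_surj (F.T_le_U ht)
  have k := Nrd_dg (ψ := ψ) p a (u := v⁻¹ * u) (by rw [map_mul, e, map_inv, inv_mul_cancel_left])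
  rw [mem_su.1 ((su K B).mul_mem ((su K B).inv_mem (h.su_of_T ht)) hu), one_mul] at k
  exact e ▸ F.T.mul_mem ht (p.dg_T' (hS a k.symm))

end Nrd

/-! ## the main statements, in the words of `B` -/

section Main

open Csa

universe w in
/-- Wedderburn -/
theorem exists_setup (K : Type*) [Field K] (B : Type w) [Ring B] [Algebra K B]
    [Algebra.IsCentral K B] [IsSimpleRing B] [FiniteDimensional K B] :
    ∃ (r : ℕ) (_ : NeZero r) (D : Type w) (_ : DivisionRing D) (_ : Algebra K D)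
      (_ : Algebra.IsCentral K D) (_ : FiniteDimensional K D),
      Nonempty (B ≃ₐ[K] Matrix (Fin r) (Fin r) D) := by
  have := IsArtinianRing.of_finite K B
  obtain ⟨r, hr, D, _, _, _, ⟨q⟩⟩ := IsSimpleRing.exists_algEquiv_matrix_divisionRing_finite K B
  have := Algebra.IsCentral.of_algEquiv K _ _ q
  refine ⟨r, hr, D, _, _, ⟨fun z hz => ?_⟩, ‹_›, ⟨q⟩⟩
  have : Matrix.scalar (Fin r) z ∈ Subalgebra.center K (Matrix (Fin r) (Fin r) D) := by
    rw [Subalgebra.mem_center_iff] at hz ⊢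
    intro m
    ext i j
    simp [Matrix.mul_diagonal, Matrix.diagonal_mul, hz]
  obtain ⟨c, hc⟩ := (Algebra.IsCentral.mem_center_iff K).1 this
  exact ⟨c, by simpa [Matrix.algebraMap_matrix_apply] using (congrFun (congrFun hc 0) 0).symm⟩

/-- an isotropic involution of the second kind has a skew element of square zero -/
theorem exists_skew_nil (K : Type*) [Field K] [StarRing K] [Algebra K B] [StarModule K B]
    [IsSimpleRing B] (hθ : ∃ θ : K, θ ≠ 0 ∧ star θ = -θ)
    (iso : ∃ b : B, b ≠ 0 ∧ star b * b = 0) : ∃ x : B, x ≠ 0 ∧ star x = -x ∧ x * x = 0 := by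
  obtain ⟨θ, θ0, θ1⟩ := hθ
  obtain ⟨b, b0, hb⟩ := iso
  obtain ⟨c, hc⟩ : ∃ c, b * c * star b ≠ 0 := not_forall.1 fun h => by
    let I : TwoSidedIdeal B := TwoSidedIdeal.mk' {x | ∀ c, x * c * star b = 0} (by simp)
      (fun {x y} hx hy c => by simp [add_mul, hx c, hy c]) (fun {x} hx c => by simp [hx c])
      (fun {x y} hy c => by rw [mul_assoc x, mul_assoc x, hy c, mul_zero])
      (fun {x y} hx c => by rw [mul_assoc x]; exact hx _)
    have := IsSimpleRing.one_mem_of_ne_zero_mem I b0 ((TwoSidedIdeal.mem_mk' _ _ _ _ _ _ _).2 h)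
    exact b0 (by simpa using (TwoSidedIdeal.mem_mk' _ _ _ _ _ _ _).1 this 1)
  have sq : ∀ c, b * c * star b * (b * c * star b) = 0 := fun c => by
    rw [mul_assoc, mul_assoc b c (star b), ← mul_assoc (star b), hb, zero_mul, mul_zero]
  by_cases h : b * (c - star c) * star b = 0
  · rw [mul_sub, sub_mul, sub_eq_zero] at h
    refine ⟨θ • (b * c * star b), smul_ne_zero θ0 hc, ?_, ?_⟩
    · rw [star_smul, θ1, star_mul, star_mul, star_star, ← mul_assoc, ← h, neg_smul]
    · rw [smul_mul_smul_comm, sq, smul_zero]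
  · exact ⟨_, h, by simp only [star_mul, star_sub, star_star]; noncomm_ring, sq _⟩

variable [CharZero K] [Algebra.IsCentral K B] [IsSimpleRing B] [FiniteDimensional K B]
  [Algebra.IsCentral K D] [FiniteDimensional K D]

theorem suk_of_surj [StarRing D] [StarModule K D] (h : Function.Surjective (algebraMap K D)) :
    Suk K D := fun a ha => Subgroup.subset_closure <| by
  obtain ⟨c, hc⟩ := h a
  have : deg K D = 1 := deg_eq K
    (Algebra.finrank_eq_one_iff_bijective_algebraMap.2 ⟨(algebraMap K D).injective, h⟩)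
  rw [← hc, Nrd_algebraMap, this, pow_one] at ha
  show star (a : D) = a
  rw [← hc, ← algebraMap_star_comm, ha]

variable (K D) in
/-- `SUK₁(D) = 1` for all involutions extending that of `K` -/
structure SukAll : Prop where
  out : ∀ [StarRing D] [StarModule K D], Suk K D

theorem sukAll_of_surj (h : Function.Surjective (algebraMap K D)) : SukAll K D :=
  ⟨suk_of_surj h⟩

variable (K) in
/-- the split case -/
theorem sukAll_self : SukAll K K := sukAll_of_surj fun a => ⟨a, rfl⟩

variable [Nonempty n] (ψ : B ≃ₐ[K] Matrix n n D)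
  (hθ : ∃ θ : K, θ ≠ 0 ∧ star θ = -θ) (hS : SukAll K D)
  (iso : ∃ b : B, b ≠ 0 ∧ star b * b = 0)

include ψ hθ hS iso

/-- `SU` is generated by the unipotents of index two -/
theorem su_le_of_unip {N : Subgroup (unitary B)}
    (hN : ∀ u : unitary B, ((u : B) - 1) * (u - 1) = 0 → u ∈ N) : su K B ≤ N := fun u hu => by
  obtain ⟨_, _, F, h⟩ := exists_HF ψ hθ
  obtain ⟨b, b0, hb⟩ := iso
  obtain ⟨e, e0, he⟩ := Adj.exists_iso h b0 hb
  obtain ⟨v, hv, k⟩ := Adj.T_le h hN (Adj.T_of_su h hS.out e0 he hu)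
  exact act_inj k ▸ hv

/-- no proper non-central subgroup of `U` is normalised by `SU` without containing it -/
theorem su_le_of_normal {N : Subgroup (unitary B)}
    (hN : ∀ g ∈ su K B, ∀ x ∈ N, g * x * g⁻¹ ∈ N) {x : unitary B} (hx : x ∈ N) {b : B}
    (hb : x * b ≠ b * x) : su K B ≤ N := fun u hu => by
  have : CharZero D := charZero_of_injective_algebraMap (algebraMap K D).injective
  obtain ⟨_, _, F, h⟩ := exists_HF ψ hθ
  obtain ⟨c, c0, hc⟩ := iso
  obtain ⟨e, e0, he⟩ := Adj.exists_iso h c0 hc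
  have : F.T ≤ N.map (act ψ) := by
    refine HF.T_le_of_normal he e0 ?_ ?_ (n := act ψ x) ⟨x, hx, rfl⟩ ?_
    · rintro _ ⟨v, -, rfl⟩
      exact Adj.act_mem h v
    · rintro t ht _ ⟨v, hv, rfl⟩
      obtain ⟨g, rfl⟩ := Adj.act_surj h (F.T_le_U ht)
      exact ⟨_, hN g (Adj.su_of_T h ht) v hv, by simp⟩
    · rintro ⟨a, -, ha⟩
      refine hb (star_injective (ext_vec (ψ := ψ) fun y => ?_))
      rw [star_mul, star_mul, map_mul, map_mul, ← vecMul_vecMul, ← vecMul_vecMul, ← act_apply,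
        ← act_apply, ha, ha, smul_vecMul]
  obtain ⟨v, hv, k⟩ := this (Adj.T_of_su h hS.out e0 he hu)
  exact act_inj k ▸ hv

theorem su_le_of_pow {N : Subgroup (unitary B)} {m : ℕ} (hm : m ≠ 0)
    (hN : ∀ g ∈ su K B, g ^ m ∈ N) : su K B ≤ N := fun u hu => by
  have : CharZero D := charZero_of_injective_algebraMap (algebraMap K D).injective
  obtain ⟨_, _, F, h⟩ := exists_HF ψ hθ
  obtain ⟨c, c0, hc⟩ := iso
  obtain ⟨e, e0, he⟩ := Adj.exists_iso h c0 hc
  have : F.T ≤ N.map (act ψ) := HF.T_le_of_pow hm fun t ht => by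
    obtain ⟨g, rfl⟩ := Adj.act_surj h (F.T_le_U ht)
    exact ⟨_, hN g (Adj.su_of_T h ht), map_pow _ _ _⟩
  obtain ⟨v, hv, k⟩ := this (Adj.T_of_su h hS.out e0 he hu)
  exact act_inj k ▸ hv

/-- `SU` has no proper subgroup of finite index -/
theorem su_le_of_relIndex {N : Subgroup (unitary B)} (hN : N.relIndex (su K B) ≠ 0) :
    su K B ≤ N :=
  su_le_of_pow ψ hθ hS iso (Nat.factorial_ne_zero (N.relIndex (su K B))) fun _ hg =>
    (Subgroup.pow_mem_of_relIndex_ne_zero_of_dvd hN hg fun _ => Nat.dvd_factorial).1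

end Main

end Crest.Agent.T24.Wall
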