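import Crest.Agent.T24.LocS_59
import Crest.Agent.T24.LocM_59
import Crest.Agent.T24.LocI_53
import Crest.Agent.T24.BcB_98
import Crest.Agent.T24.HilC_56
import Crest.Agent.T24.WallB_86
import Crest.Agent.T24.Csa6_50

/-!
# Row 24 (helper59): local almost simplicity at the finite places outside `T`
-/

set_option autoImplicit false

namespace Crest.Agent.T24.Loc

open Finset Module Csa Asa NumberField IsDedekindDomain Filter WithZero Topology
open scoped Valued TensorProduct Matrix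

section herm
variable {k : Type*} [Field k] [NumberField k] (v : Pl k) (δ : k)

/-- local norms (and zero) -/
def Nm (c : Kv v) : Prop := ∃ x y : Kv v, c = x ^ 2 - algebraMap k _ δ * y ^ 2

variable {v δ}

theorem Nm.mul {a b : Kv v} (ha : Nm v δ a) (hb : Nm v δ b) : Nm v δ (a * b) := by
  obtain ⟨x, y, rfl⟩ := ha
  obtain ⟨z, t, rfl⟩ := hb
  exact ⟨x * z + algebraMap k _ δ * y * t, x * t + y * z, by ring⟩

theorem nm_sq (a : Kv v) : Nm v δ (a ^ 2) := ⟨a, 0, by simp⟩

theorem Nm.of_mul_sq {a s : Kv v} (hs : s ≠ 0) (h : Nm v δ (a * s ^ 2)) : Nm v δ a := by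
  simpa [hs] using h.mul (nm_sq s⁻¹)

/-- the local norm group has index at most two -/
theorem nm_mul_of_not (hδ : δ ≠ 0) {a b : Kv v} (ha : ¬ Nm v δ a) (hb : ¬ Nm v δ b) : Nm v δ (a * b) := by
  have key : ∀ {a : Kv v}, ¬ Nm v δ a → ∃ (c : kˣ) (s : Kv v), s ≠ 0 ∧ algebraMap k _ (c : k) = a * s ^ 2 ∧
      c ∉ Hn.LN δ v := fun {a} ha => by
    have h0 : a ≠ 0 := fun h => ha ⟨0, 0, by simp [h]⟩
    obtain ⟨c, s, hs⟩ := (Hil.lc_inl v).exists_sq (v.denseRange_algebraMap k) h0
    rw [div_eq_iff h0, ← sq, mul_comm] at hs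
    have h1 : s ≠ 0 := fun h => by simp [h] at hs
    exact ⟨c, s, h1, hs, fun h => ha (.of_mul_sq h1 (hs ▸ (Hn.Loc.mem_LN_iff v δ c).1 h))⟩
  obtain ⟨c, s, h1, h2, h3⟩ := key ha
  obtain ⟨c', s', h1', h2', h3'⟩ := key hb
  have h4 := Hn.index_LN v (Units.mk0 δ hδ) fun h => h3 (by
    have := Hn.LN_eq_top v _ h
    rw [Units.val_mk0] at this
    exact this ▸ trivial)
  have h5 := (Hn.Loc.mem_LN_iff v δ _).1 ((Subgroup.mul_mem_iff_of_index_two h4).2 (iff_of_false h3 h3'))
  rw [Units.val_mul, map_mul, h2, h2', mul_mul_mul_comm, ← mul_pow] at h5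
  exact .of_mul_sq (mul_ne_zero h1 h1') h5

theorem neg_one_nm (h : ∀ a b, Nm v δ a → Nm v δ b → Nm v δ (a + b)) : Nm v δ (-1) := by
  have h1 : ∀ n : ℕ, Nm v δ n := fun n => by
    induction n with
    | zero => exact ⟨0, 0, by simp⟩
    | succ n ih => rw [Nat.cast_succ]; exact h _ _ ih ⟨1, 0, by simp⟩
  let p := Ideal.absNorm v.asIdeal
  have hp : ‖(p : Kv v)‖ < 1 := by
    rw [Valued.toNormedField.norm_lt_one_iff, ← map_natCast (algebraMap k (Kv v)), val_alg]
    simpa using (v.valuation_lt_one_iff_mem (K := k) p).2 (Ideal.absNorm_mem _)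
  have h2 := (tendsto_pow_atTop_nhds_zero_of_norm_lt_one hp).const_sub 1
  rw [sub_zero] at h2
  obtain ⟨n, ⟨s, hs⟩, hn⟩ := ((h2.eventually (Hil.lc_inl v).op).and (eventually_ge_atTop 1)).exists
  have h3 : 2 ≤ p ^ n := (HeightOneSpectrum.one_lt_absNorm v).trans_le (Nat.le_self_pow (by omega) p)
  convert h _ _ (nm_sq s) (h1 (p ^ n - 2)) using 1
  rw [sq, ← hs, Nat.cast_sub h3]
  push_cast
  ring

/-- hermitian forms in three variables over a local field are isotropic -/
theorem herm_iso (hδ : δ ≠ 0) (a : Fin 3 → Kv v) :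
    ∃ n : Fin 3 → Kv v, n ≠ 0 ∧ (∀ i, Nm v δ (n i)) ∧ ∑ i, a i * n i = 0 := by
  have z : Nm v δ 0 := ⟨0, 0, by simp⟩
  by_cases h0 : ∀ i, a i ≠ 0
  swap
  · push Not at h0
    obtain ⟨i, hi⟩ := h0
    refine ⟨Pi.single i 1, by simp, fun j => ?_, by simp [Pi.single_apply, hi]⟩
    rw [Pi.single_apply]
    split_ifs
    exacts [⟨1, 0, by simp⟩, z]
  have k2 : ∀ i, a i ^ 2 ≠ 0 := fun i => pow_ne_zero 2 (h0 i)
  by_cases h1 : Nm v δ (-(a 0 * a 1))
  · exact ⟨![_, a 0 ^ 2, 0], fun h => k2 0 (congrFun h 1), fun i => by fin_cases i; exacts [h1, nm_sq _, z],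
      by simp [Fin.sum_univ_three]; ring⟩
  by_cases h2 : Nm v δ (-(a 0 * a 2))
  · exact ⟨![_, 0, a 0 ^ 2], fun h => k2 0 (congrFun h 2), fun i => by fin_cases i; exacts [h2, z, nm_sq _],
      by simp [Fin.sum_univ_three]; ring⟩
  by_cases h3 : Nm v δ (-(a 1 * a 2))
  · exact ⟨![0, _, a 1 ^ 2], fun h => k2 1 (congrFun h 2), fun i => by fin_cases i; exacts [z, h3, nm_sq _],
      by simp [Fin.sum_univ_three]; ring⟩
  have h4 : Nm v δ (a 1 * a 2) := .of_mul_sq (h0 0) (by convert nm_mul_of_not hδ h1 h2 using 1; ring)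
  have h5 : Nm v δ (a 0 * a 2) := .of_mul_sq (h0 1) (by convert nm_mul_of_not hδ h1 h3 using 1; ring)
  have h6 : Nm v δ (a 0 * a 1) := .of_mul_sq (h0 2) (by convert nm_mul_of_not hδ h2 h3 using 1; ring)
  have h7 : ¬ Nm v δ (-1) := fun h => h1 (by simpa using h.mul h6)
  have h8 := mt neg_one_nm h7
  push Not at h8
  obtain ⟨x, y, hx, hy, h9⟩ := h8
  refine ⟨![x * (a 1 * a 2), y * (a 0 * a 2), -1 * (x + y) * (a 0 * a 1)], fun h => ?_, fun i => ?_, ?_⟩
  · exact mul_ne_zero (mul_ne_zero (by simp) fun h' : x + y = 0 => h9 (h' ▸ z)) (mul_ne_zero (h0 0) (h0 1))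
      (congrFun h 2)
  · fin_cases i
    exacts [hx.mul h4, hy.mul h5, (nm_mul_of_not hδ h7 h9).mul h6]
  · simp [Fin.sum_univ_three]; ring

end herm

section quad
variable (F : Type*) {E A : Type*} [Field E] [StarRing E] [Ring A] [StarRing A] [Algebra E A] [StarModule E A]
  [Algebra.IsCentral E A] [IsSimpleRing A] [FiniteDimensional E A]

/-- a central simple algebra with an involution of the second kind over a local field is split -/
theorem split_of_quad [NontriviallyNormedField F] [ProperSpace F] [IsUltrametricDist F] [CharZero E] [Algebra F E]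
    [Quad F E] : Nonempty (A ≃ₐ[E] Matrix (Fin (deg E A)) (Fin (deg E A)) E) := by
  have := finite_kK F E
  let := ndr F E
  let := nalg F E
  have := ultra F E
  let : NontriviallyNormedField E :=
    { ‹Field E›, ndr F E with
      non_trivial := by
        obtain ⟨c, hc⟩ := NontriviallyNormedField.non_trivial (α := F)
        exact ⟨algebraMap F E c, by rwa [norm_algebraMap']⟩ }
  have := FiniteDimensional.proper F E
  exact Inv2.split (s := starRingEnd E) (τ := (starAddEquiv (R := A)).toAddMonoidHom) (finrank_eq_deg_sq E A)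
    ⟨star_mul, star_star, fun c => (algebraMap_star_comm c).symm⟩
    (sig F E).toLinearMap.continuous_of_finiteDimensional (Quad.ne (k := F))

omit [Algebra.IsCentral E A] [IsSimpleRing A] [FiniteDimensional E A] in
theorem iso_of_quad [Field F] [CharZero E] [Algebra F E] [Quad F E] {D : Type*} [DivisionRing D] [Algebra E D]
    [FiniteDimensional E D] (hD : Function.Surjective (algebraMap E D)) {n : ℕ}
    (ψ : A ≃ₐ[E] Matrix (Fin (n + 3)) (Fin (n + 3)) D)
    (h : ∀ r : Fin 3 → F, ∃ z : Fin 3 → E, z ≠ 0 ∧ ∑ i, algebraMap F E (r i) * (star (z i) * z i) = 0) :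
    ∃ b : A, b ≠ 0 ∧ star b * b = 0 := by
  obtain ⟨_, _, e, a, h1, h2⟩ := exists_star_of_equiv (Quad.ne (k := F)) ψ
  have h3 : ∀ i, ∃ r : F, algebraMap E D (algebraMap F E r) = a i := fun i => by
    obtain ⟨c, hc⟩ := hD (a i)
    obtain ⟨r, hr⟩ := exists_of_star_eq (Quad.fr (k := F) (K := E)) Quad.star_k (Quad.ne (k := F)) (c := c)
      ((algebraMap E D).injective (by rw [algebraMap_star_comm, hc, (h1 i).2]))
    exact ⟨r, hr ▸ hc⟩
  choose r hr using h3
  obtain ⟨z, h4, h5⟩ := h ![r 0, r (.succ 0), r (.succ (.succ 0))]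
  by_contra h6
  push Not at h6
  have hu : IsUnit (Matrix.diagonal a) := 
    (Pi.isUnit_iff.2 fun i => (h1 i).1.isUnit).map (Matrix.diagonalRingHom _ D)
  have h7 := (aniso_iff hu h2).1 (fun x hx => by_contra fun h0 => h6 x h0 hx)
    (Fin.cons (algebraMap E D (z 0)) (Fin.cons (algebraMap E D (z 1)) (Fin.cons (algebraMap E D (z 2)) 0))) (by
      rw [Fin.sum_univ_three] at h5
      rw [dotProduct, Fin.sum_univ_succ, Fin.sum_univ_succ, Fin.sum_univ_succ]
      simp only [Matrix.mulVec_diagonal, Pi.star_apply, Fin.cons_zero, Fin.cons_succ, Pi.zero_apply, mul_zero,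
        sum_const_zero, add_zero]
      rw [← hr, ← hr, ← hr]
      simp only [← algebraMap_star_comm, ← map_mul, ← map_add]
      rw [← map_zero (algebraMap E D), ← h5]
      congr 1
      simp only [Matrix.cons_val_zero, Matrix.cons_val_one, Matrix.cons_val]
      ring)
  refine h4 (funext fun i => (map_eq_zero (algebraMap E D)).1 ?_)
  fin_cases i
  exacts [congrFun h7 0, congrFun h7 (.succ 0), congrFun h7 (.succ (.succ 0))]

end quad

variable {k K B : Type*} [Field k] [NumberField k] [Field K] [NumberField K] [Algebra k K]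
  [StarRing K] [Quad k K] [Ring B] [StarRing B] [Algebra K B] [StarModule K B]
  [Algebra.IsCentral K B] [IsSimpleRing B] [FiniteDimensional K B] [Algebra k B] [IsScalarTower k K B]
  {v : Pl k}

section nonsplit
variable (K B v) [IsEmpty (K →ₐ[k] Kv v)]

/-- at a non-split place the algebra is a matrix algebra -/
theorem bc_mat : Nonempty (BC k K B (Kv v) ≃ₐ[BC k K K (Kv v)]
    Matrix (Fin (deg K B)) (Fin (deg K B)) (BC k K K (Kv v))) := by
  have := proper_adic k v
  exact BC.deg_E k K (Kv v) B ▸ split_of_quad (Kv v)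

/-- at a non-split place the involution is isotropic -/
theorem bc_iso (hd : 3 ≤ deg K B) : ∃ b : BC k K B (Kv v), b ≠ 0 ∧ star b * b = 0 := by
  obtain ⟨ψ⟩ := bc_mat K B v
  obtain ⟨n, hn⟩ := Nat.exists_eq_add_of_le' hd
  rw [hn] at ψ
  refine iso_of_quad (Kv v) (fun c => ⟨c, rfl⟩) ψ fun r => ?_
  obtain ⟨θ, δ, h0, hθ, hδ⟩ := BC.exists_delta k K
  obtain ⟨m, h1, h2, h3⟩ := herm_iso (δ := δ) (fun h => by simp [h, h0] at hδ) r
  choose x y h2 using h2
  have h4 : ∀ i, star (algebraMap (Kv v) _ (x i) + y i • BC.inc k K K (Kv v) θ) *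
      (algebraMap (Kv v) _ (x i) + y i • BC.inc k K K (Kv v) θ) = algebraMap (Kv v) _ (m i) := fun i => by
    have : BC.inc k K K (Kv v) θ * BC.inc k K K (Kv v) θ = algebraMap (Kv v) _ (algebraMap k (Kv v) δ) := by
      rw [← map_mul, ← hδ, AlgHom.commutes, IsScalarTower.algebraMap_apply k (Kv v) (BC k K K (Kv v))]
    rw [star_add, BC.star_algebraMap, BC.star_rsmul, BC.star_inc, hθ, map_neg, h2, map_sub, map_mul, ← this]
    simp only [Algebra.smul_def, map_pow]
    ring
  refine ⟨fun i => algebraMap (Kv v) _ (x i) + y i • BC.inc k K K (Kv v) θ, fun h => h1 (funext fun i => ?_),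
    by simp only [h4, ← map_mul, ← map_sum, h3, map_zero]⟩
  have := h4 i
  rw [show algebraMap (Kv v) _ (x i) + y i • BC.inc k K K (Kv v) θ = 0 from congrFun h i, mul_zero] at this
  exact (map_eq_zero _).1 this.symm

end nonsplit

omit [StarRing K] [Quad k K] [StarRing B] [StarModule K B] [IsScalarTower k K B] in
/-- a split model which is a division algebra gives a place of `T` -/
theorem ultra_of_div {C : Type*} [Ring C] [Algebra k C] [Algebra (Kv v) C] [Algebra.IsCentral (Kv v) C]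
    [FiniteDimensional (Kv v) C] [Nontrivial C] (s : SM k K B (Kv v) C) (h : ∀ x : C, x ≠ 0 → IsUnit x) {w : Pl K}
    (hw : ∀ x, w.valuation K x = Valued.v (s.ι x)) : Ultra B w := fun x y => by
  have := proper_adic k v
  have := charZero_adic k v
  let : DivisionRing C := DivisionRing.ofIsUnitOrEqZero fun z => or_iff_not_imp_right.2 (h z)
  have h1 : ∀ x, ‖s.ι (Nrd K x)‖ = nm (Kv v) (s.ψ x) ^ deg (Kv v) C := fun x => by
    rw [nm_pow_deg]; exact congrArg _ (Nrd_map (s.ι : K →+* Kv v) s.ψ.toRingHom s.compat s.fr x).symm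
  simp only [val, hw, le_max_iff, ← Valued.toNormedField.norm_le_iff, h1,
    pow_le_pow_iff_left₀ (nm_nonneg _ _) (nm_nonneg _ _) (deg_pos (Kv v) C).ne', map_add]
  exact le_max_iff.1 (nm_add _ _ _)

theorem exists_mem_open {H : Subgroup (SUc k K B (Kv v))} (hH : IsOpen (H : Set (SUc k K B (Kv v))))
    {y : BC k K B (Kv v)} (h1 : star y = -y) (h2 : y * y = 0)
    (h3 : ∀ t : Kv v, BC.nrdK k K B (Kv v) (1 + t • y) = 1) :
    ∃ a : Kv v, a ≠ 0 ∧ ∃ g ∈ H, ((g : Uc k K B (Kv v)) : BC k K B (Kv v)) = 1 + a ^ 2 • y := by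
  let g : Kv v → SUc k K B (Kv v) := fun t => ⟨⟨1 + t ^ 2 • y, by
    simp [Unitary.mem_iff, h1, mul_add, add_mul, h2]⟩, (BC.mem_SUc_iff _).2 (h3 _)⟩
  have hg : Continuous g := Continuous.subtype_mk (Continuous.subtype_mk (by fun_prop) _) _
  have h4 : g 0 = 1 := Subtype.ext (Subtype.ext (by simp [g]))
  obtain ⟨a, ha, h5⟩ := (((hg.continuousAt (x := 0)).eventually (hH.mem_nhds (h4 ▸ H.one_mem))).filter_mono
    (nhdsWithin_le_nhds (s := {0}ᶜ))).and self_mem_nhdsWithin |>.exists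
  exact ⟨a, h5, g a, ha, rfl⟩

/-- **local almost simplicity** at the finite places outside `T` -/
theorem locG_fin (hd : 3 ≤ deg K B) (hv : v ∉ Tk k K B) (H : Subgroup (SUc k K B (Kv v)))
    (hH : IsOpen (H : Set (SUc k K B (Kv v)))) (hn : H.Normal) : H = ⊤ := by
  have := proper_adic k v
  have := charZero_adic k v
  refine eq_top_iff.2 fun u _ => ?_
  rcases isEmpty_or_nonempty (K →ₐ[k] Kv v) with h | ⟨⟨i⟩⟩
  · obtain ⟨ψ⟩ := bc_mat K B v
    have : Nonempty (Fin (deg K B)) := ⟨⟨0, by omega⟩⟩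
    have hθ := exists_skew (Quad.ne (k := Kv v) (K := BC k K K (Kv v)))
    obtain ⟨y, h0, h1, h2⟩ := Wall.exists_skew_nil _ hθ (bc_iso K B v hd)
    obtain ⟨a, ha, g, hg, h3⟩ := exists_mem_open hH h1 h2 fun t => by
      rw [← BC.Nrd_E]; exact Wall.Nrd_of_sq (by simp [h2])
    obtain ⟨b, hb⟩ : ∃ b, y * b ≠ b * y := not_forall.1 fun h4 => by
      obtain ⟨c, rfl⟩ := (Algebra.IsCentral.mem_center_iff (BC k K K (Kv v))).1
        (Subalgebra.mem_center_iff.2 fun b => (h4 b).symm)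
      rw [← map_mul, map_eq_zero, mul_self_eq_zero] at h2
      exact h0 (by rw [h2, map_zero])
    obtain ⟨u', h4, h5⟩ := Wall.su_le_of_normal ψ hθ (Wall.sukAll_self _) (bc_iso K B v hd)
      (N := H.map (SUc k K B (Kv v)).subtype) (x := g) (b := b) (by
        rintro g hg _ ⟨x, hx, rfl⟩
        exact ⟨_, hn.conj_mem x hx ⟨g, (BC.mem_SUc_E g).2 hg⟩, rfl⟩) ⟨g, hg, rfl⟩ (by
        rw [h3, add_mul, mul_add, one_mul, mul_one, smul_mul_assoc, mul_smul_comm, Ne, add_right_inj]
        exact fun h => hb (smul_right_injective _ (pow_ne_zero 2 ha) h)) ((BC.mem_SUc_E u).1 u.2)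
    exact (Subtype.ext h5 : u' = u) ▸ h4
  · let := i.toRingHom.toAlgebra
    have : IsScalarTower k K (Kv v) := .of_algebraMap_eq fun c => (i.commutes c).symm
    have := isSimpleRing_tensor (K := K) (A := Kv v) (B := B)
    have := isCentral_tensor (K := K) (F := Kv v) (A := Kv v) (B := B)
    let s := SM.taut k K B (Kv v)
    obtain ⟨w, h1, h2, h3⟩ := place_of_hom i
    obtain ⟨u', h4, h5⟩ := sl_le_of_normal (F := Kv v) (A := Kv v ⊗[K] B)
      (by
        by_contra h4
        push Not at h4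
        exact hv ⟨w, ⟨h2, ultra_of_div s h4 h3⟩, h1⟩) (sk_local _ _)
      (N := H.map (s.uEquiv.toMonoidHom.comp (SUc k K B (Kv v)).subtype)) (u := s.uEquiv u) (by
        rintro g hg _ ⟨x, hx, rfl⟩
        obtain ⟨g, rfl⟩ := s.uEquiv.surjective g
        exact ⟨_, hn.conj_mem x hx ⟨g, (s.mem_SUc_iff g).2 hg⟩, by simp⟩) (fun x hx => by
        have h4 : star (s.mk' x (-x)) = -s.mk' x (-x) := s.ext' (by simp) (by simp)
        have h5 : s.mk' x (-x) * s.mk' x (-x) = 0 := s.ext' (by simp [hx]) (by simp [-SM.hat_star_mk', h4, hx])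
        obtain ⟨a, ha, g, hg, h6⟩ := exists_mem_open hH h4 h5 fun t => (BC.mem_SUc_iff ⟨_, by
          simp [Unitary.mem_iff, h4, mul_add, add_mul, h5]⟩).1 ((s.mem_SUc_iff _).2
            (Wall.Nrd_of_sq (by simp [hx])))
        exact ⟨a, ha, fun u hu => ⟨g, hg, Units.ext (by
          change s.hat _ = _
          rw [hu, Subgroup.subtype_apply, h6]; simp)⟩⟩) ((s.mem_SUc_iff _).1 u.2)
    exact (Subtype.ext (s.uEquiv.injective h5) : u' = u) ▸ h4

universe u v' w

/-- the archimedean half of `LocGStmt` -/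
def LocInfStmt : Prop := ∀ D : Dat.{u, v', w}, 3 ≤ deg D.K D.B →
  ∀ H : Subgroup (SUc D.k D.K D.B (Inf D.k)), IsOpen (H : Set (SUc D.k D.K D.B (Inf D.k))) → H = ⊤

theorem locGStmt_of (h : LocInfStmt.{u, v', w}) : LocGStmt.{u, v', w} :=
  fun D hd => ⟨h D hd, fun _ hv => locG_fin hd hv⟩

end Crest.Agent.T24.Loc
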