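import Crest.Agent.T24.LanF_73
import Crest.Agent.T24.LocL_59

/-!
# Row 24 (helper73): hermitian units are classified by the discriminant and the signatures
-/

set_option autoImplicit false
set_option linter.unusedSectionVars false

noncomputable section

open NumberField IsDedekindDomain Module
open Crest.Agent.T24.Asa Crest.Agent.T24.Csa

namespace Crest.Agent.T24.Lan

variable {k K B : Type*} [Field k] [NumberField k] [Field K] [NumberField K]
  [Algebra k K] [StarRing K] [Quad k K] [Ring B] [StarRing B] [Algebra K B] [StarModule K B]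
  [Algebra k B] [IsScalarTower k K B] [FiniteDimensional K B] [Algebra.IsCentral K B]
  [IsSimpleRing B]

/-- local classification at a non-split place -/
theorem cong_nonsplit (v : Pl k) [IsEmpty (K →ₐ[k] Kv v)] {h h' : BC k K B (Kv v)}
    (hh : star h = h) (hh' : star h' = h') (hu : IsUnit h) {z : BC k K K (Kv v)} (hz : z ≠ 0)
    (hN : BC.nrdK k K B _ h' = BC.nrdK k K B _ h * (star z * z)) :
    ∃ Z : (BC k K B (Kv v))ˣ, h' = star (Z : BC k K B (Kv v)) * h * Z :=
  (Loc.bc_mat K B v).elim fun e => cong_nonsplit_of v e hh hh' hu hz hN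

/-- local classification at any finite place: the ratio of the norms is `s² - δ t²` -/
theorem cong_loc (v : Pl k) {θ : K} {δ : k} (hθ : star θ = -θ)
    (hδ : algebraMap k K δ = θ * θ) {h h' : BC k K B (Kv v)} (hh : star h = h)
    (hh' : star h' = h') (hu : IsUnit h) {c : Kv v} (hc0 : c ≠ 0)
    (hc : Nm (algebraMap k (Kv v) δ) c)
    (hN : BC.nrdK k K B _ h' = BC.nrdK k K B _ h * algebraMap _ _ c) :
    ∃ Z : BC k K B (Kv v), h' = star Z * h * Z := by
  rcases isEmpty_or_nonempty (K →ₐ[k] Kv v) with he | ⟨⟨ι⟩⟩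
  · obtain ⟨z, hz⟩ := nm_norm (E := BC k K K (Kv v)) (θ := BC.inc k K K _ θ)
      (by rw [BC.star_inc, hθ, map_neg]) (by
        rw [← map_mul, ← hδ, AlgHom.commutes, ← IsScalarTower.algebraMap_apply]) hc
    obtain ⟨Z, hZ⟩ := cong_nonsplit v hh hh' hu (z := z)
      (by rintro rfl; exact hc0 (by simpa using hz.symm)) (by rw [hN, hz])
    exact ⟨Z, hZ⟩
  · exact cong_split ι hh hh' hu

/-- global hermitian units whose norms differ by a local norm are locally congruent -/
theorem loc₂ (v : Pl k) {θ : K} {δ : k} (hθ : star θ = -θ)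
    (hδ : algebraMap k K δ = θ * θ) {g h : B} (hg : star g = g) (hh : star h = h) (hu : IsUnit g)
    {c : kˣ} (hc : c ∈ Hn.LN δ v) (hN : Nrd K h = Nrd K g * algebraMap k K c) :
    ∃ Z : BC k K B (Kv v), BC.inc k K B _ h = star Z * BC.inc k K B _ g * Z :=
  cong_loc v hθ hδ (by rw [BC.star_inc, hg]) (by rw [BC.star_inc, hh]) (hu.map _)
    (c := algebraMap k _ (c : k)) (by simp) ((Hn.Loc.mem_LN_iff v δ c).mp hc) (by
      rw [BC.nrdK_inc, BC.nrdK_inc, hN, map_mul, AlgHom.commutes, ← IsScalarTower.algebraMap_apply])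

/-- **LOC**: a hermitian unit whose norm is a local norm is locally `star Z * Z` -/
theorem loc (v : Pl k) {θ : K} {δ : k} (hθ : star θ = -θ)
    (hδ : algebraMap k K δ = θ * θ) {h : B} (hh : star h = h) {c : kˣ} (hc : c ∈ Hn.LN δ v)
    (hN : Nrd K h = algebraMap k K c) :
    ∃ Z : BC k K B (Kv v), BC.inc k K B _ h = star Z * Z := by
  simpa using loc₂ v hθ hδ (star_one B) hh isUnit_one hc (by rw [hN, map_one, one_mul])

/-- **Landherr**: discriminant and signatures classify the hermitian units -/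
theorem landherr_nrd₂ {θ : K} {δ : k} (hθ : star θ = -θ)
    (hδ : algebraMap k K δ = θ * θ) {g h : B} (hg : star g = g) (hh : star h = h) (hgu : IsUnit g)
    (hu : IsUnit h) {c : kˣ} (hc : ∀ v : Pl k, c ∈ Hn.LN δ v)
    (hN : Nrd K h = Nrd K g * algebraMap k K c) (hreal : ∀ φ : k →+* ℝ,
      ∃ Z : BC k K B (Emb.Rp φ), BC.inc k K B _ h = star Z * BC.inc k K B _ g * Z) :
    ∃ z : B, h = star z * g * z :=
  landherr₂ K hg hh hgu hu (fun v => loc₂ v hθ hδ hg hh hgu (hc v) hN) hreal

theorem landherr_nrd {θ : K} {δ : k} (hθ : star θ = -θ)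
    (hδ : algebraMap k K δ = θ * θ) {h : B} (hh : star h = h) (hu : IsUnit h) {c : kˣ}
    (hc : ∀ v : Pl k, c ∈ Hn.LN δ v) (hN : Nrd K h = algebraMap k K c) (hreal : ∀ φ : k →+* ℝ,
      ∃ Z : BC k K B (Emb.Rp φ), BC.inc k K B _ h = star Z * Z) : ∃ z : B, h = star z * z :=
  landherr K hh hu (fun v => loc v hθ hδ hh (hc v) hN) hreal

/-- the norm is a global norm: no finite condition is left -/
theorem landherr_norm {g h : B} (hg : star g = g) (hh : star h = h) (hgu : IsUnit g)
    (hu : IsUnit h) {a : K} (ha : a ≠ 0) (hN : Nrd K h = Nrd K g * (star a * a))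
    (hreal : ∀ φ : k →+* ℝ,
      ∃ Z : BC k K B (Emb.Rp φ), BC.inc k K B _ h = star Z * BC.inc k K B _ g * Z) :
    ∃ z : B, h = star z * g * z := by
  refine landherr₂ K hg hh hgu hu (fun v => ?_) hreal
  have h1 : star (BC.inc k K B (Kv v) g) = BC.inc k K B _ g := by rw [BC.star_inc, hg]
  have h2 : star (BC.inc k K B (Kv v) h) = BC.inc k K B _ h := by rw [BC.star_inc, hh]
  rcases isEmpty_or_nonempty (K →ₐ[k] Kv v) with he | ⟨⟨ι⟩⟩
  · obtain ⟨Z, hZ⟩ := cong_nonsplit v h1 h2 (hgu.map _) (z := BC.inc k K K _ a)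
      ((map_ne_zero_iff _ (BC.inc_injective k K K _)).mpr ha)
      (by rw [BC.nrdK_inc, BC.nrdK_inc, hN, map_mul, map_mul, BC.star_inc])
    exact ⟨Z, hZ⟩
  · exact cong_split ι h1 h2 (hgu.map _)

end Crest.Agent.T24.Lan
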