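import Crest.Agent.T24.EvDef_47
import Crest.Agent.T24.Emb_13
import Crest.Agent.T24.LanG_73
import Crest.Agent.T24.InNear_23
import Crest.Agent.T24.EvA_20

/-! Row 24, even degree (helper13): twisting an embedding by a locally trivial class. -/

set_option autoImplicit false
set_option linter.unusedSectionVars false

noncomputable section

namespace Crest.Agent.T24.Evn

open Module NumberField WithZero Csa Asa Topology Filter Polynomial
open scoped TensorProduct Valued

universe u v w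

namespace Tw13

variable {k : Type u} {K B : Type*} [Field k] [NumberField k] [Field K] [NumberField K]
  [Algebra k K] [StarRing K] [Quad k K] [Ring B] [StarRing B] [Algebra K B] [StarModule K B]
  [Algebra.IsCentral K B] [IsSimpleRing B] [FiniteDimensional K B] [Algebra k B]
  [IsScalarTower k K B]

variable (k K) in
/-- an `M`-adic neighbourhood contains a box of local neighbourhoods -/
theorem nr_box [Algebra ℚ B] {M : ℕ} (hM : M ≠ 0) {a : B} {V : Set B} (hV : V ∈ In.nr M a) :
    ∃ W : ∀ v : Pl k, Set (BC k K B (Kv v)), (∀ v, W v ∈ 𝓝 (BC.inc k K B _ a)) ∧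
      ∀ x, (∀ v : Pl k, (M : 𝓞 k) ∈ v.asIdeal → BC.inc k K B _ x ∈ W v) → x ∈ V := by
  obtain ⟨m, -, hm⟩ := (In.N23.basis_val (Ev.eb k K B) hM a).mem_iff.1 hV
  refine ⟨fun v => {X | ∀ i, Valued.v (BC.crd k K B _ (Ev.eb k K B) (X - BC.inc k K B _ a) i) ≤
    exp (-(m : ℤ))}, fun v => eventually_all.2 fun i => ?_, fun x hx => hm fun v hv i => ?_⟩
  · have hc : Continuous fun X : BC k K B (Kv v) =>
        BC.crd k K B _ (Ev.eb k K B) (X - BC.inc k K B _ a) i := by fun_prop
    exact hc.continuousAt.preimage_mem_nhds ((Ev.isOpen_val v m).mem_nhds (by simp))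
  · have := hx v hv i
    rw [← map_sub] at this
    exact (Hn.Loc.valued_algebraMap v _).symm.trans_le
      ((congrArg Valued.v (BC.repr_inc k K B _ (Ev.eb k K B) (x - a) i)).symm.trans_le this)

/-- a hermitian element has a reduced polynomial over `k` -/
theorem exists_hg {y : B} (hy : star y = y) : ∃ P : k[X], Emb.HG K P y := by
  obtain ⟨P, hP⟩ : rch K y ∈ lifts (algebraMap k K) := (lifts_iff_coeff_lifts _).2 fun n =>
    exists_of_star_eq Quad.fr Quad.star_k (Quad.ne (k := k)) (by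
      have := congrArg (fun p => p.coeff n) (T24.rch_star K y)
      simp only [hy, coeff_map] at this
      exact this.symm)
  exact ⟨P, hy, hP.symm⟩

variable {L : Type*} [Field L] [Algebra k L]

theorem hg_gen (j : L →ₐ[k] B) (hj : ∀ x, star (j x) = j x) {a : L}
    (ha : (minpoly k a).natDegree = deg K B) : Emb.HG K (minpoly k a) (j a) := by
  obtain ⟨P, hP⟩ := exists_hg (k := k) (K := K) (hj a)
  have h0 : aeval a P = 0 := j.toRingHom.injective (by
    change j _ = j 0
    rw [← aeval_algHom_apply, ← aeval_map_algebraMap K, ← hP.2, aeval_rch, map_zero])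
  have hi : IsIntegral k a := ⟨P, Emb.HG.monic hP.2, h0⟩
  rwa [eq_of_monic_of_dvd_of_natDegree_le (minpoly.monic hi) (Emb.HG.monic hP.2)
    (minpoly.dvd _ _ h0) (by rw [ha, Emb.HG.natDegree hP.2])] at hP

/-- the reduced norm on a hermitian maximal subfield -/
theorem nrd_j [FiniteDimensional k L] (j : L →ₐ[k] B) (hj : ∀ x, star (j x) = j x)
    (hd : finrank k L = deg K B) (s : L) : Nrd K (j s) = algebraMap k K (Algebra.norm k s) := by
  let pb := Field.powerBasisOfFiniteOfSeparable k L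
  have h := hg_gen (K := K) j hj (a := pb.gen) (by rw [pb.natDegree_minpoly, ← pb.finrank, hd])
  have := Fact.mk (minpoly.irreducible pb.isIntegral_gen)
  obtain ⟨f, rfl⟩ := pb.exists_eq_aeval' s
  rw [← aeval_algHom_apply, Emb.nrd_aeval h.2, ← Algebra.norm_eq_of_algEquiv
    (AdjoinRoot.equiv' (minpoly k pb.gen) pb (by simp) (minpoly.aeval _ _))]
  congr 2

variable {R : Type*} [Field R] [Algebra k R]

theorem loc_sq (j : L →ₐ[k] B) (hj : ∀ x, star (j x) = j x) {s : L}
    (hs : IsSquare ((1 : R) ⊗ₜ[k] s)) : ∃ y : BC k K B R, star y = y ∧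
      BC.inc k K B R (j s) = y * y ∧ ∀ x, y * BC.inc k K B R (j x) = BC.inc k K B R (j x) * y := by
  obtain ⟨y, hy⟩ := hs
  let J : R ⊗[k] L →ₐ[R] BC k K B R := Algebra.TensorProduct.map (AlgHom.id R R) j
  have h1 : ∀ l, J (1 ⊗ₜ l) = BC.inc k K B R (j l) := fun _ => rfl
  refine ⟨J y, ?_, by rw [← h1, hy, map_mul], fun x => by rw [← h1, ← map_mul, mul_comm, map_mul]⟩
  clear hy
  induction y with
  | zero => simp
  | tmul r l => rw [show J (r ⊗ₜ l) = r • BC.inc k K B R (j l) from BC.tm_eq r _, BC.star_rsmul,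
      BC.star_inc, hj]
  | add x y hx hy => rw [map_add, star_add, hx, hy]

end Tw13

open Tw13 in
theorem tw (k : Type u) (K B : Type*) [Field k] [NumberField k] [Field K] [NumberField K]
    [Algebra k K] [StarRing K] [Quad k K] [Ring B] [StarRing B] [Algebra K B] [StarModule K B]
    [Algebra.IsCentral K B] [IsSimpleRing B] [FiniteDimensional K B] [Algebra k B]
    [IsScalarTower k K B] [Algebra ℚ B] : Tw k K B := by
  classical
  intro θ δ hθ hδ L _ _ _ j hj hd M hM s h1 h2 h3 x V hV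
  have h0 : M ≠ 0 := by omega
  have hu : IsUnit (j s) := s.isUnit.map j
  obtain ⟨z, hz⟩ := Lan.landherr_nrd (k := k) hθ (hδ.symm.trans (sq θ)) (hj s) hu h1
    (nrd_j j hj hd s) fun φ => by
      obtain ⟨y, e1, e2, -⟩ := loc_sq (K := K) j hj ((Emb.up_rp φ).sq (s := s) (by
        rintro (Q | ψ) hQ
        exacts [absurd hQ Sum.inl_ne_inr, h2 ψ]))
      exact ⟨y, by rw [e1, e2]⟩
  have := Opn.dedekind' K (A := B)
  obtain ⟨z, rfl⟩ : IsUnit z := isUnit_of_mul_isUnit_right (hz ▸ hu)
  obtain ⟨W, hW, hb⟩ := nr_box k K h0 hV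
  have h4 : ∀ v : Pl k, ∃ g : Uc k K B (Kv v), (M : 𝓞 k) ∈ v.asIdeal →
      (g : BC k K B (Kv v)) * BC.inc k K B _ (z * j x * ↑z⁻¹) =
        BC.inc k K B (Kv v) (j x) * (g : BC k K B (Kv v)) := by
    intro v
    by_cases hv : (M : 𝓞 k) ∈ v.asIdeal
    swap
    · exact ⟨1, fun h => absurd h hv⟩
    obtain ⟨y, e1, e2, e3⟩ := loc_sq (K := K) j hj ((Emb.up_inl v).sq (s := s) (by
      rintro (Q | ψ) hQ
      · obtain rfl := Sum.inl_injective hQ
        exact h3 Q (by simpa using (Ideal.mem_comap.1 hv : algebraMap (𝓞 k) (𝓞 L) M ∈ Q.asIdeal))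
      · exact absurd hQ Sum.inr_ne_inl))
    have := Opn.dedekind' (Kv v) (A := BC k K B (Kv v))
    have e4 : star (y * BC.inc k K B _ ↑z⁻¹) * (y * BC.inc k K B _ ↑z⁻¹) = 1 := by
      rw [star_mul, e1, mul_assoc, ← mul_assoc y, ← e2, BC.star_inc, ← map_mul, ← map_mul, hz,
        mul_assoc, z.mul_inv, mul_one, ← star_mul, z.mul_inv, star_one, map_one]
    refine ⟨⟨_, e4, mul_eq_one_comm.1 e4⟩, fun _ => ?_⟩
    change y * _ * _ = _ * (y * _)
    rw [mul_assoc, ← map_mul, ← mul_assoc, ← mul_assoc, z.inv_mul, one_mul, map_mul, ← mul_assoc,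
      e3, mul_assoc]
  choose g hg using h4
  obtain ⟨u, hu, -⟩ := Emb.waU k K B (In.N23.finite_N (K := k) h0).toFinset g _ (fun _ => 1)
    (fun _ => Set.univ) (fun v hv => Emb.UC.nhds (hg v (by simpa using hv)) (hW v))
    fun _ => univ_mem
  refine ⟨Unitary.toUnits u * z, ?_, hb _ fun v hv => ?_⟩
  · change star ((u : B) * z) * ((u : B) * z) = _
    rw [hz, star_mul, mul_assoc, ← mul_assoc (star (u : B)), u.2.1, one_mul]
  · have e : ((Unitary.toUnits u)⁻¹ : Bˣ) = star (u : B) := rfl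
    have e' : (Unitary.toUnits u : Bˣ) = (u : B) := rfl
    simpa only [mul_assoc, Set.mem_ofPred_eq, coe_toU, BC.star_inc, ← map_mul, mul_inv_rev,
      Units.val_mul, e, e'] using hu v (by simpa using hv)

theorem twStmt : TwStmt.{u, v, w} := fun D _ => tw D.k D.K D.B

end Crest.Agent.T24.Evn
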