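import Crest.Agent.T24.EvInd_15
import Crest.Agent.T24.EvnApi_57
import Crest.Agent.T24.EvnTw_13
import Crest.Agent.T24.EmbL_22

/-!
# Row 24, even step (helper42): the step LAM
-/

set_option autoImplicit false
set_option linter.unusedSectionVars false

noncomputable section

namespace Crest.Agent.T24.Evn

open Module NumberField WithZero Csa Asa Topology Filter Polynomial In

universe u v w

namespace L42

section Top
variable {V : Type*} [AddCommGroup V] [Module ℚ V] [FiniteDimensional ℚ V] {M : ℕ}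

theorem ev_ev {a : V} {p : V → Prop} (h : ∀ᶠ x in nr M a, p x) :
    ∀ᶠ y in nr M a, ∀ᶠ x in nr M y, p x := by
  obtain ⟨Λ, hΛ⟩ := exists_lat M V
  obtain ⟨m, hm⟩ := exists_of_nr h hΛ.fg
  filter_upwards [hΛ.ev_nr a m] with y hy
  filter_upwards [hΛ.ev_nr y m] with x hx
  exact hm x (by simpa using add_mem hx hy)

variable {B : Type*} [Ring B] [Algebra ℚ B] [FiniteDimensional ℚ B]

theorem nr_iv (hM : 2 ≤ M) {a : B} (ha : IsUnit a) :
    Tendsto Ring.inverse (nr M a) (nr M (Ring.inverse a)) := by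
  obtain ⟨u, rfl⟩ := ha
  have h1 : Tendsto (fun x : B => ↑u⁻¹ * x) (nr M (u : B)) (nr M 1) := by
    simpa using nr_mul (nr_const (↑u⁻¹ : B)) (tendsto_id (x := nr M (u : B)))
  have h3 := nr_mul ((nr_inverse hM).comp h1) (nr_const (↑u⁻¹ : B))
  rw [one_mul] at h3
  rw [Ring.inverse_unit]
  refine h3.congr' ((h1.eventually (ev_isUnit hM)).mono fun x h => ?_)
  obtain ⟨y, rfl⟩ : IsUnit x := by simpa using u.isUnit.mul h
  simp only [Function.comp]
  rw [← Units.val_mul, Ring.inverse_unit, Ring.inverse_unit, ← Units.val_mul]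
  simp

theorem nr_dvd (K : Type*) [Field K] [NumberField K] [Algebra K B] [FiniteDimensional K B]
    {M M' : ℕ} (hM : M' ≠ 0) (h : M ∣ M') (a : B) : nr M' a ≤ nr M a :=
  ((N23.basis_val (finBasis K B) hM a).le_basis_iff (N23.basis_val (finBasis K B)
    (by rintro rfl; exact hM (zero_dvd_iff.1 h)) a)).2 fun m _ =>
      ⟨m, trivial, fun _ hx v hv => hx v (I15.mem_dvd h hv)⟩

/-- the Cayley transform at infinity -/
def mu (i t : B) : B := Ring.inverse (1 + t * i) * (1 - t * i)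

theorem tendsto_mu (hM : 2 ≤ M) (i : B) : (∀ᶠ t in nr M (0 : B), IsUnit (1 + t * i)) ∧
    Tendsto (mu i) (nr M 0) (nr M 1) := by
  have h0 := nr_mul (tendsto_id (x := nr M (0 : B))) (nr_const i)
  have h1 := nr_add (nr_const (1 : B)) h0
  have h2 := nr_sub (nr_const (1 : B)) h0
  rw [zero_mul, add_zero] at h1
  rw [zero_mul, sub_zero] at h2
  exact ⟨h1.eventually (ev_isUnit hM), nr_mul_one ((nr_inverse hM).comp h1) h2⟩

end Top

variable {D : Dat.{u, v, w}} (T : Tow D)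

theorem σ_aeval (P : D.k[X]) : T.σ (aeval T.η P) = aeval (-T.η) P := by
  rw [← T.σ_η]
  exact (aeval_algHom_apply (T.σ.toAlgHom.restrictScalars D.k) T.η P).symm

theorem star_aev (P : D.k[X]) : star (aeval T.η P) = aeval (-T.η) P := by
  rw [← T.star_η]
  induction P using Polynomial.induction_on' with
  | add p q hp hq => rw [map_add, map_add, star_add, hp, hq]
  | monomial n a => rw [aeval_monomial, aeval_monomial, star_mul', star_pow, T.star_k]

variable {T}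

theorem unit_th {v : Pl D.k} {P : D.k[X]} {th : T.C} (hP : Eis v P) (h : T.HC P th) :
    IsUnit th := by
  rw [isUnit_iff_Nrd (K := T.E), Nrd_def, (T.HC_iff.1 h).2, coeff_map]
  refine mul_ne_zero (by simp) ((_root_.map_ne_zero _).2 fun h0 => ?_)
  have := hP.2.2
  rw [h0, map_zero] at this
  exact exp_ne_zero this.symm

theorem deg_P {P : D.k[X]} {th : T.C} (h : T.HC P th) : P.natDegree = deg T.E T.C := by
  rw [← natDegree_map (algebraMap D.k T.E), ← (T.HC_iff.1 h).2, rch_natDegree]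

/-- the unitary element attached to `th` -/
theorem exists_mu [Algebra ℚ D.B] {P : D.k[X]} {th : T.C} (h : T.HC P th) (hu : IsUnit th)
    (h1 : IsUnit (1 + Ring.inverse (th : D.B) * T.i₀)) : ∃ μ : unitary T.C,
      ((μ : T.C) : D.B) = mu T.i₀ (Ring.inverse (th : D.B)) ∧ IsUnit ((th : D.B) + T.i₀) ∧
      ((th : D.B) + T.i₀) * (μ : T.C) = th - T.i₀ ∧
      Nrd T.E (μ : T.C) * aeval (-T.η) P = aeval T.η P ∧ aeval (-T.η) P ≠ 0 := by
  have hu' : IsUnit (th : D.B) := hu.map (Cz T.i).val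
  have e1 : (th : D.B) + T.i₀ = th * (1 + Ring.inverse (th : D.B) * T.i₀) := by
    rw [mul_add, mul_one, ← mul_assoc, Ring.mul_inverse_cancel _ hu', one_mul]
  have e2 : (th : D.B) - T.i₀ = th * (1 - Ring.inverse (th : D.B) * T.i₀) := by
    rw [mul_sub, mul_one, ← mul_assoc, Ring.mul_inverse_cancel _ hu', one_mul]
  have h2 : IsUnit ((th : D.B) + T.i₀) := e1 ▸ hu'.mul h1
  have h3 : IsUnit (th + algebraMap T.E T.C T.η) :=
    isUnit_of_map (K := D.K) (Cz T.i).val.toRingHom Subtype.val_injective h2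
  have h4 : star (th + algebraMap T.E T.C T.η) = th - algebraMap T.E T.C T.η := by
    rw [star_add, h.1, T24.star_algebraMap, T.star_η, map_neg, sub_eq_add_neg]
  obtain ⟨b, hb⟩ := h3
  have h5 : (star b : T.Cˣ).val * star (star b : T.Cˣ).val =
      star (star b : T.Cˣ).val * (star b : T.Cˣ).val := by
    rw [Units.coe_star, star_star, hb, h4, mul_add, add_mul, mul_sub, sub_mul, sub_mul, mul_sub,
      Algebra.commutes T.η th]
  have h6 : (th + algebraMap T.E T.C T.η) * (star (((star b)⁻¹ : T.Cˣ) : T.C) * (star b : T.Cˣ)) =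
      th - algebraMap T.E T.C T.η := by
    rw [← star_inv, Units.coe_star, star_star, Units.coe_star, ← hb, Units.mul_inv_cancel_left, hb, h4]
  have h7 : ∀ t : T.E, Nrd T.E (th - algebraMap T.E T.C t) = (-1) ^ deg T.E T.C * aeval t P :=
    fun t => by
    rw [← neg_sub, Nrd_neg, ← eval_rch, (T.HC_iff.1 h).2, eval_map_algebraMap]
  have h8 := h7 (-T.η)
  rw [map_neg, sub_neg_eq_add] at h8
  have h9 := congrArg (Nrd T.E) h6
  rw [map_mul, h7, h8, mul_assoc, mul_right_inj' (by simp), mul_comm] at h9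
  have h10 : ((th : D.B) + T.i₀) * _ = th - T.i₀ := congrArg Subtype.val h6
  refine ⟨⟨_, unitary_of_normal _ h5⟩, h2.mul_left_cancel (h10.trans ?_), h2, h10, h9, fun h0 => ?_⟩
  · rw [mu, e1, e2, mul_assoc, ← mul_assoc _ (Ring.inverse _), Ring.mul_inverse_cancel _ h1, one_mul]
  · rw [h0, mul_zero, ← hb] at h8
    exact (isUnit_iff_Nrd (K := T.E) _).1 b.isUnit h8

/-- the quaternion algebra which contains the Cayley element -/
theorem exists_quat {P : D.k[X]} [Fact (Irreducible P)] {th : T.C} {κ : D.B} {β : D.k[X]}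
    (h : T.HC P th) (hκ : T.Kp th κ β) {x : D.B} (hu : IsUnit ((th : D.B) + T.i₀))
    (hx : ((th : D.B) + T.i₀) * x = th - T.i₀) : ∃ q : Ct2.Quat (AdjoinRoot P) D.B,
      (∀ y, q.i (algebraMap D.k _ y) = algebraMap D.k D.B y) ∧
      (q.a : AdjoinRoot P) = algebraMap D.k _ T.ε ∧
      (q.c : AdjoinRoot P) = aeval (AdjoinRoot.root P) β ∧
      ∃ x₀ x₁ x₂ x₃, x = q.el x₀ x₁ x₂ x₃ := by
  have hth : star (th : D.B) = th := congrArg Subtype.val h.1
  let j : AdjoinRoot P →ₐ[D.k] D.B := Ideal.Quotient.liftₐ _ (aeval (th : D.B)) fun q hq => by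
    obtain ⟨c, rfl⟩ := Ideal.mem_span_singleton.1 hq
    rw [map_mul, ← T.coe_aeval_E th P, ← (T.HC_iff.1 h).2, aeval_rch]
    exact zero_mul _
  have hj : ∀ f, j (AdjoinRoot.mk P f) = aeval (th : D.B) f := fun _ => rfl
  have hl : j (AdjoinRoot.root P) = th := (hj X).trans (aeval_X _)
  have hc : ∀ z : D.B, (th : D.B) * z = z * th → ∀ f, j f * z = z * j f := fun z hz f => by
    obtain ⟨f, rfl⟩ := AdjoinRoot.mk_surjective f
    rw [hj]
    exact (Algebra.commute_of_mem_adjoin_singleton_of_commute (aeval_mem_adjoin_singleton D.k _)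
      (show Commute z th from hz.symm)).symm
  have hi : (th : D.B) * T.i₀ = T.i₀ * th := (Cz.mem_iff.1 th.2 _).symm
  have hβ : j (aeval (AdjoinRoot.root P) β) = κ * κ := by rw [← aeval_algHom_apply, hl, hκ.sq]
  have hβ0 : aeval (AdjoinRoot.root P) β ≠ 0 := fun h0 =>
    (hκ.unit.mul hκ.unit).ne_zero (by rw [← hβ, h0, map_zero])
  set l := AdjoinRoot.root P
  set ε := algebraMap D.k (AdjoinRoot P) T.ε
  have hε : j ε = T.i₀ * T.i₀ := by rw [T.i₀_sq, j.commutes]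
  have h0 : l * l - ε ≠ 0 := fun h0 => (hu.mul hu.star).ne_zero (by
    rw [star_add, hth, T.star_i₀, ← map_zero j, ← h0, map_sub, map_mul, hl, hε, add_mul, mul_add,
      mul_add, mul_neg, mul_neg, hi]
    abel)
  refine ⟨⟨j, T.i₀, κ, Hn.io D.k _ T.ε, Units.mk0 _ hβ0, fun f => ?_, T.star_i₀, hκ.skew, hε.symm,
    hβ.symm, by rw [hκ.anti, neg_neg], hc _ hi, hc _ hκ.comm.symm⟩, j.commutes, rfl, rfl,
    (l * l + ε) / (l * l - ε), -2 * l / (l * l - ε), 0, 0, hu.mul_left_cancel (hx.trans ?_)⟩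
  · obtain ⟨f, rfl⟩ := AdjoinRoot.mk_surjective f
    change star (aeval _ f) = aeval _ f
    simpa using Emb.adj_aeval (K := D.K) (y := (th : D.B)) (h := 1) (by simpa using hth) f
  · have e1 : l * ((l * l + ε) / (l * l - ε)) + -2 * l / (l * l - ε) * ε = l := by
      linear_combination l * mul_inv_cancel₀ h0
    have e2 : (l * l + ε) / (l * l - ε) + l * (-2 * l / (l * l - ε)) = -1 := by
      linear_combination -mul_inv_cancel₀ h0
    generalize (l * l + ε) / (l * l - ε) = a at e1 e2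
    generalize -2 * l / (l * l - ε) = b at e1 e2
    have e3 := congrArg j e1
    have e4 := congrArg (fun z => j z * T.i₀) e2
    simp only [map_add, map_mul, map_neg, map_one, hl, hε] at e3 e4
    change _ = _ * (j a + j b * T.i₀ + j 0 * κ + j 0 * (T.i₀ * κ))
    rw [map_zero, zero_mul, zero_mul, add_zero, add_zero, add_mul, mul_add, mul_add, ← hc _ hi a,
      ← mul_assoc T.i₀, ← hc _ hi b]
    linear_combination (norm := noncomm_ring) -e3 - e4

end L42

set_option maxHeartbeats 1600000 in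
open L42 I15 in
theorem lamStmt42 (hC : Ct2.Ct2Stmt.{u, v, w, u}) (h0 : Th0Stmt.{u, v, w}) (hE : EisStmt.{u, u})
    (hG : GdStmt.{u, v, w}) : LamStmt.{u, v, w} := by
  intro D _ T hd ha N hN M₁ a1 W hW
  classical
  let _ := qAlg T.E T.C
  have := fdQ D.K D.B
  have := fdQ T.E T.C
  have := hN.nrm
  have hm2 : 2 ≤ deg T.E T.C := by have := T.two_mul_deg; omega
  obtain ⟨m, hm⟩ := hN.cen
  obtain ⟨M₀, a0, b0⟩ := hG D T
  obtain ⟨S₀, hS⟩ := Emb.embNear T.k₁ T.E T.C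
  obtain ⟨M₂, a2, b2⟩ := HolZ.exists_N (Loc.valStmt D (by omega)).1
  obtain ⟨M₃, a3, b3⟩ := HolZ.exists_N (finite_ne_one (k := D.k) T.δ.ne_zero)
  obtain ⟨M₄, a4, b4⟩ := HolZ.exists_N S₀.finite_toSet
  obtain ⟨M, hM, d2, d0, d1, d2', d3, d4⟩ : ∃ M : ℕ, 2 ≤ M ∧ 2 ∣ M ∧ M₀ ∣ M ∧ M₁ ∣ M ∧ M₂ ∣ M ∧
      M₃ ∣ M ∧ M₄ ∣ M := by
    have : 0 < M₀ * M₁ * M₂ * M₃ * M₄ := by positivity
    exact ⟨2 * (M₀ * M₁ * M₂ * M₃ * M₄), by omega, dvd_mul_right _ _,
      ⟨2 * M₁ * M₂ * M₃ * M₄, by ring⟩, ⟨2 * M₀ * M₂ * M₃ * M₄, by ring⟩,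
      ⟨2 * M₀ * M₁ * M₃ * M₄, by ring⟩, ⟨2 * M₀ * M₁ * M₂ * M₄, by ring⟩,
      ⟨2 * M₀ * M₁ * M₂ * M₃, by ring⟩⟩
  have e0 : M ≠ 0 := by omega
  obtain ⟨U, hU, hU'⟩ := (hC D ha M T.θ T.δ d2 e0 (fun w hw => mem_dvd d2' (b2 w hw)) T.star_θ
    T.θ_ne T.θθ (fun v hv => not_not.1 fun h => hv (mem_dvd d3 (b3 v h))) m N hN.idx hm).exists_mem
  have t1 : Tendsto (fun p : D.B × D.B × D.B => p.1 * p.2.1 * star p.2.2)
      (nr M 1 ×ˢ nr M 1 ×ˢ nr M 1) (nr M 1) :=
    nr_mul_one (nr_mul_one tendsto_fst (tendsto_fst.comp tendsto_snd)) (by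
      simpa using nr_lin (a := 1) (starAddEquiv (R := D.B)).toAddMonoidHom
        (tendsto_snd.comp tendsto_snd))
  obtain ⟨p₁, hp₁, p₂, hp₂, hp⟩ := eventually_prod_iff.1 (t1.eventually (nr_dvd D.K e0 d1 1 hW))
  obtain ⟨U₁, hU₁, hU₁'⟩ := (eventually_prod_self_iff (r := fun a b => p₂ (a, b))).1 hp₂
  obtain ⟨t2, t3⟩ := tendsto_mu hM T.i₀
  let Q : D.B → Prop := fun t => IsUnit (1 + t * T.i₀) ∧ mu T.i₀ t ∈ U ∩ U₁
  have t4 : ∀ᶠ t in nr M (0 : D.B), Q t := t2.and (t3.eventually (inter_mem hU hU₁))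
  obtain ⟨v, hv, ⟨ι⟩, P₀, th₀, hP₀, hth₀, h1⟩ := h0 D T M hM _ (ev_ev t4)
  have irr : ∀ {P th}, Eis v P → T.HC P th ∨ P.natDegree = deg T.E T.C →
      Irreducible (P.map (algebraMap D.k T.k₁)) := fun {P th} hP h =>
    hE D.k v P hP (by rw [h.elim deg_P id]; omega) T.k₁
      ⟨ι.comp (IsScalarTower.toAlgHom D.k T.k₁ T.E)⟩
  have t5 : ∀ᶠ x in nr M (th₀ : D.B), Q (Ring.inverse x) :=
    (nr_iv hM ((unit_th hP₀ hth₀).map (Cz T.i).val)).eventually h1
  have good : ∀ P th, Eis v P → T.HC P th → (∀ᶠ x in nr M (th : D.B), Q (Ring.inverse x)) →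
      ∃ μ : unitary T.C, Cz.uni T.i μ ∈ N ∧
      ((μ : T.C) : D.B) ∈ U₁ ∧ Nrd T.E (μ : T.C) * aeval (-T.η) P = aeval T.η P ∧
      aeval (-T.η) P ≠ 0 := fun P th hP h hV => by
    obtain ⟨th', κ, β, c1, c2, c3, c4⟩ := b0 M hM d0 P th (irr hP (.inl h)) h _ hV
    obtain ⟨μ, c5, c6, c7, c8⟩ := exists_mu c2 (unit_th hP c2) c1.1
    have := Fact.mk (hP.1.irreducible_of_irreducible_map _ _ (irr hP (.inl h)))
    have := Emb.numberField_root P
    obtain ⟨q, q1, q2, q3, q4⟩ := exists_quat c2 c3 c6 c7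
    replace c1 := c5 ▸ c1.2
    exact ⟨μ, hU' _ c1.1 (AdjoinRoot P) q q1 (fun w hw => q2 ▸ c4 _ _ (AdjoinRoot.aeval_eq P |>.trans
      AdjoinRoot.mk_self) _ q3 w hw) q4 (Cz.uni T.i μ).2, c1.2, c8⟩
  obtain ⟨μ₀, g1, g2, g3, g4⟩ := good P₀ th₀ hP₀ hth₀ t5
  obtain ⟨Wv, hWv, hWv'⟩ := Tw13.nr_box T.k₁ T.E e0
    ((nr_map (N := M) (Cz T.i).val.toAddMonoidHom th₀).eventually (ev_ev t5))
  obtain ⟨m₁, ε, hε, hn⟩ := hS _ th₀ hth₀ (irr hP₀ (.inl hth₀)).separable
    (N23.finite_N (K := T.k₁) e0).toFinset Wv (fun _ => Set.univ)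
    (fun t ht => by simpa using mem_dvd d4 (b4 t ht)) (fun t _ => hWv t) fun _ => univ_mem
  obtain ⟨M₅, a5, b5⟩ := HolZ.exists_N (Set.finite_singleton v)
  have e1 : M * M₅ ≠ 0 := by positivity
  let Sm : D.k → Prop := fun x => (∀ t : Pl T.k₁, (M : 𝓞 T.k₁) ∈ t.asIdeal →
    t.valuation T.k₁ (algebraMap D.k T.k₁ x) ≤ exp (-(m₁ : ℤ))) ∧
    (∀ φ : T.k₁ →+* ℝ, |φ (algebraMap D.k T.k₁ x)| < ε) ∧ v.valuation D.k x < exp (-1)
  have s1 : ∀ᶠ x in ng (M * M₅) (0 : D.k), Sm x := by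
    have r1 := (N23.basis_val (Basis.singleton Unit D.k) e1 (0 : D.k)).mem_of_mem (i := m₁ + 2) trivial
    have r2 : ∀ᶠ x in na (0 : D.k), ∀ φ : T.k₁ →+* ℝ, |φ (algebraMap D.k T.k₁ x)| < ε :=
      eventually_all.2 fun φ => by
        have := (tendsto_na.1 (tendsto_id (x := na (0 : D.k)))
          (φ.comp (algebraMap D.k T.k₁)).toAddMonoidHom).abs
        exact this.eventually_lt_const (by simpa using hε)
    filter_upwards [ng_le_nr _ r1, ng_le_na _ r2] with x r1 r2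
    simp only [sub_zero, Basis.singleton_repr, forall_const] at r1
    refine ⟨fun t ht => below_le_exp t x m₁ ((r1 _ (mem_dvd (dvd_mul_right _ _) ?_)).trans
      (exp_neg_anti (by omega))), r2,
      (r1 v (mem_dvd (dvd_mul_left _ _) (b5 v rfl))).trans_lt (by rw [exp_lt_exp]; omega)⟩
    change algebraMap (𝓞 D.k) (𝓞 T.k₁) M ∈ t.asIdeal
    rwa [map_natCast]
  let g : D.k × D.k →+ T.E := (algebraMap D.k T.E).toAddMonoidHom.coprod
    ((AddMonoidHom.mulRight T.η).comp (algebraMap D.k T.E).toAddMonoidHom)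
  have hg : ∀ x y, g (x, y) = algebraMap D.k T.E x + algebraMap D.k T.E y * T.η := fun _ _ => rfl
  have hg' : Function.Injective g := (injective_iff_map_eq_zero g).2 fun ⟨x, y⟩ h => by
    rw [hg] at h
    have h' := congrArg T.σ h
    rw [map_add, map_mul, T.σ_k, T.σ_k, T.σ_η, map_zero] at h'
    have hx : algebraMap D.k T.E x = 0 := by linear_combination (h + h') / 2
    rw [hx, zero_add, mul_eq_zero_iff_right T.η_ne] at h
    exact Prod.ext ((_root_.map_eq_zero _).1 hx) ((_root_.map_eq_zero _).1 h)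
  have s2 := ng_of_inj (N := M * M₅) g hg' (f := id) (a := 0) tendsto_comap
  have s3 := ((ng_lin (AddMonoidHom.fst _ _) s2).eventually s1).and
    ((ng_lin (AddMonoidHom.snd _ _) s2).eventually s1)
  rw [eventually_comap, map_zero] at s3
  have s4 : Tendsto (fun c : T.C => (Nrd T.E c - 1) * (aeval T.η P₀ / 2)) (ng (M * M₅) 1)
      (ng (M * M₅) 0) := by
    simpa using ng_mul (ng_sub (ng_Nrd_one (N := M * M₅) (B := T.C) T.E) (ng_const 1))
      (ng_const (aeval T.η P₀ / 2))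
  have s5 := (ng_of_inj (N := M * M₅) (Cz T.i).val.toAddMonoidHom Subtype.val_injective
    (f := id) (a := (1 : T.C)) tendsto_comap).eventually (s4.eventually s3)
  rw [eventually_comap] at s5
  refine ⟨M * M₅, by nlinarith, ?_⟩
  filter_upwards [s5, ng_le_nr _ (nr_dvd D.K e1 (dvd_mul_right _ _) 1 hp₁)] with x s5 s6
  rintro y hy rfl hx
  obtain ⟨y, rfl⟩ := (Cz.mem_range_uni T.i).2 hx
  have z1 := T.alg_Nrd (y : T.C)
  rw [show Nrd D.K ((y : T.C) : D.B) = 1 from hy, map_one] at z1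
  have z2 := Nrd_unitary (K := T.E) y.2
  replace s5 := s5 y rfl
  rw [id] at s5
  generalize hz : Nrd T.E (y : T.C) = z at z1 z2 s5
  have z3 : star z = T.σ z := by linear_combination star z * z1 + T.σ z * z2
  obtain ⟨x₀, x₁, hx⟩ := T.k2 (c := (z - 1) * (aeval T.η P₀ / 2)) (by
    rw [star_mul', star_sub, star_div₀, star_aev, z3, map_mul, map_sub, map_div₀, σ_aeval]
    simp [map_ofNat])
  obtain ⟨s7, s8⟩ : Sm x₀ ∧ Sm x₁ := s5 (x₀, x₁) hx.symm
  have s9 : ∀ i, Sm ((C x₁ * X + C x₀).coeff i) := fun i => by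
    rcases i with _ | _ | i
    · simpa using s7
    · simpa using s8
    · simp [Sm, hε, zero_lt_iff]
  have n0 := deg_P hth₀
  have n1 : (C x₁ * X + C x₀).degree < P₀.degree := degree_linear_le.trans_lt (by
    rw [degree_eq_natDegree hP₀.1.ne_zero, n0]; exact_mod_cast hm2)
  have n2 : (P₀ + (C x₁ * X + C x₀)).natDegree = deg T.E T.C := by
    rw [natDegree_add_eq_left_of_degree_lt n1, n0]
  have n3 : aeval T.η (P₀ + (C x₁ * X + C x₀)) = (z + 1) / 2 * aeval T.η P₀ := by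
    simp only [map_add, map_mul, aeval_C, aeval_X]
    linear_combination -hx
  have hP : Eis v (P₀ + (C x₁ * X + C x₀)) := by
    refine ⟨hP₀.1.add_of_left n1, fun i hi => ?_, ?_⟩
    · rw [coeff_add]
      exact Valuation.map_add_lt _ (hP₀.2.1 i (by rwa [n0, ← n2]))
        ((s9 i).2.2.trans (exp_neg_lt_one one_pos))
    · rw [coeff_add, Valuation.map_add_eq_of_lt_left _ (hP₀.2.2 ▸ (s9 0).2.2), hP₀.2.2]
  have n4 : ∀ i, ((P₀ + (C x₁ * X + C x₀)).map (algebraMap D.k T.k₁)).coeff i -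
      (P₀.map (algebraMap D.k T.k₁)).coeff i = algebraMap _ _ ((C x₁ * X + C x₀).coeff i) :=
    fun i => by rw [coeff_map, coeff_map, ← map_sub, coeff_add, add_sub_cancel_left]
  generalize P₀ + (C x₁ * X + C x₀) = P at n2 n3 n4 hP
  obtain ⟨th, f1, f2, -⟩ := hn _ (hP.1.map _) (irr (th := 0) hP (.inr n2)) (by rwa [natDegree_map])
    (fun t ht i => n4 i ▸ (s9 i).1 t (by simpa using ht)) fun φ i => n4 i ▸ (s9 i).2.1 φ
  obtain ⟨μ, k1, k2, k3, k4⟩ := good P th hP f1 (hWv' th fun t ht => f2 t (by simpa using ht))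
  have n5 := congrArg T.σ n3
  rw [σ_aeval, map_mul, σ_aeval, map_div₀, map_add, map_one, map_ofNat] at n5
  refine ⟨y * μ₀ * μ⁻¹, ?_, hp s6 (hU₁' _ g2 _ k2), ?_⟩
  · have n6 := Nrd_inv_mul T.E μ
    rw [mem_SU, Submonoid.coe_mul, Submonoid.coe_mul, map_mul, map_mul, hz]
    have n7 : Nrd T.E (μ : T.C) = z * Nrd T.E (μ₀ : T.C) := mul_right_cancel₀ k4 (by
      rw [k3, n3, n5, ← g3]
      linear_combination (Nrd T.E (μ₀ : T.C) * aeval (-T.η) P₀ / 2) * z1)
    rw [← n7, mul_comm, n6]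
  · have := hN.nrm.conj_mem _ (N.mul_mem k1 (N.inv_mem g1)) (Cz.uni T.i y)
    simpa only [map_mul, map_inv, mul_inv_rev, inv_inv, mul_assoc] using this

end Crest.Agent.T24.Evn
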