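import Crest.Agent.T24.EvDef_47
import Crest.Agent.T24.SplEx_33
import Crest.Agent.T24.BcB_98
import Crest.Agent.T24.HsmB_23

/-! Row 24, even degree (helper22): the quaternion algebra is split where `δ` is a square. -/

set_option autoImplicit false
set_option linter.unusedSectionVars false
set_option linter.style.haveILetI false

noncomputable section

namespace Crest.Agent.T24.Evn

open Module NumberField Csa Asa Polynomial
open scoped TensorProduct Valued

universe u v w

namespace Q22

/-- a quaternion algebra acting on a plane is split -/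
theorem quat {Ω V : Type*} [Field Ω] [CharZero Ω] [AddCommGroup V] [Module Ω V]
    [FiniteDimensional Ω V] {t i κ : End Ω V} {l ε : Ω} {β : Polynomial Ω} (h0 : t.charpoly.IsRoot l)
    (h1 : t.charpoly.rootMultiplicity l ≤ 2) (ti : i * t = t * i) (tk : κ * t = t * κ)
    (ii : ∀ x, i (i x) = ε • x) (an : κ * i = -(i * κ)) (kk : κ * κ = aeval t β) (hε : ε ≠ 0) :
    ∃ x y, β.eval l = x ^ 2 - ε * y ^ 2 := by
  obtain ⟨x, hx⟩ := ((End.hasEigenvalue_iff_isRoot_charpoly t l).2 h0).exists_hasEigenvector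
  have hW : ∀ {g : End Ω V}, g * t = t * g → g x ∈ t.eigenspace l := fun {g} hg => by
    rw [End.mem_eigenspace_iff, ← End.mul_apply, ← hg, End.mul_apply, hx.apply_eq_smul, map_smul]
  by_cases hl : LinearIndependent Ω ![x, i x]
  · have h2 : Submodule.span Ω (Set.range ![x, i x]) = t.eigenspace l :=
      Submodule.eq_of_le_of_finrank_le (Submodule.span_le.2 (by
        rintro _ ⟨j, rfl⟩
        fin_cases j
        · exact hx.1
        · exact hW ti)) (by
        rw [finrank_span_eq_card hl]
        exact (LinearMap.finrank_eigenspace_le t l).trans h1)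
    obtain ⟨c, hc⟩ := (Submodule.mem_span_range_iff_exists_fun Ω).1 (h2 ▸ hW tk)
    simp only [Fin.sum_univ_two, Matrix.cons_val_zero, Matrix.cons_val_one] at hc
    refine ⟨c 0, c 1, smul_left_injective Ω hx.2 ?_⟩
    have h3 : κ (i x) = -i (κ x) := LinearMap.congr_fun an x
    have h4 : κ (κ x) = β.eval l • x := by
      rw [← End.mul_apply, kk, End.aeval_apply_of_hasEigenvector hx]
    change _ • x = _ • x
    rw [← h4]
    conv_lhs => rw [← hc, map_add, map_smul, map_smul, h3, ← hc, map_add, map_smul, map_smul, ii]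
    module
  · rw [LinearIndependent.pair_iff' hx.2, not_forall] at hl
    obtain ⟨a, ha⟩ := hl
    rw [not_not] at ha
    refine Hil.nm_of_sq hε ⟨a, smul_left_injective Ω hx.2 ?_⟩
    change _ • x = _ • x
    rw [← ii, ← ha, map_smul, ← ha, smul_smul]

/-- `B` splits over every local field prime to `M₀` -/
theorem exists_spl (K B : Type*) [Field K] [NumberField K] [Ring B] [Algebra K B]
    [Algebra.IsCentral K B] [IsSimpleRing B] [FiniteDimensional K B] :
    ∃ M₀ : ℕ, 2 ≤ M₀ ∧ ∀ (F : Type*) [NontriviallyNormedField F] [IsUltrametricDist F]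
      [ProperSpace F] [CharZero F] [Algebra K F], ‖(M₀ : F)‖ = 1 →
      Nonempty (B →ₐ[K] Matrix (Fin (deg K B)) (Fin (deg K B)) F) := by
  let e := finBasis K B
  obtain ⟨g, hg⟩ := Loc.exists_dual e
  choose n hn hn' using SplE.exists_nat (K := K)
  let J := Fin (finrank K B)
  let c : (J × J × J) ⊕ (J × J) → K :=
    Sum.elim (fun p => e.repr (e p.1 * e p.2.1) p.2.2) fun p => e.repr (g p.1) p.2
  have hp : ∏ j, n (c j) ≠ 0 := Finset.prod_ne_zero_iff.2 fun j _ => hn _
  refine ⟨2 * ∏ j, n (c j), by omega, fun F _ _ _ _ _ hM => ?_⟩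
  have hc : ∀ j, ‖algebraMap K F (c j)‖ ≤ 1 := fun j => by
    obtain ⟨m, hm⟩ := (Finset.dvd_prod_of_mem (fun j => n (c j)) (Finset.mem_univ j)).mul_left 2
    have h1 : IsIntegral (NormedField.valuation (K := F)).integer
        (algebraMap K F ((m : K) * ((n (c j) : K) * c j))) :=
      ((((isIntegral_natCast m).mul (hn' (c j)))).map (algebraMap K F).toIntAlgHom).tower_top
    have h2 : ‖algebraMap K F ((m : K) * ((n (c j) : K) * c j))‖ ≤ 1 := by
      exact_mod_cast (Valuation.integer.integers (NormedField.valuation (K := F))).mem_of_integral h1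
    rwa [← mul_assoc, ← Nat.cast_mul, mul_comm m, ← hm, map_mul, norm_mul, map_natCast, hM,
      one_mul] at h2
  let φ : B →ₐ[K] F ⊗[K] B := Algebra.TensorProduct.includeRight
  have hφ : ∀ c, φ (algebraMap K B c) = algebraMap F _ (algebraMap K F c) := fun c =>
    (φ.commutes c).trans (IsScalarTower.algebraMap_apply _ _ _ _)
  have hr : finrank F (F ⊗[K] B) = finrank K B := Module.finrank_baseChange
  let e' := mapBasis e φ.toRingHom hr
  have he : ∀ i, e' i = φ (e i) := mapBasis_apply _ _ _
  have he' : ∀ x i, e'.repr (φ x) i = algebraMap K F (e.repr x i) :=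
    mapBasis_repr e φ.toRingHom hr _ hφ
  have hU : Loc.Unim e' := ⟨fun i j l => by
      rw [he, he, ← map_mul, he']; exact hc (.inl (i, j, l)),
    fun i => φ (g i), fun i l => by rw [he']; exact hc (.inr (i, l)), fun x => by
      have : LinearMap.id = ∑ i, (Trd F ∘ₗ LinearMap.mulRight F (e' i)).smulRight (φ (g i)) :=
        e'.ext fun l => by
          rw [LinearMap.id_apply, he, LinearMap.sum_apply]
          conv_lhs => rw [hg (e l), map_sum]
          refine Finset.sum_congr rfl fun i _ => ?_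
          rw [map_smul, ← algebraMap_smul F, ← Trd_map _ φ.toRingHom hφ hr]
          simp [he]
      simpa using LinearMap.congr_fun this x⟩
  obtain ⟨ψ⟩ := hU.split0 (hr.trans (finrank_eq_deg_sq K B))
  exact ⟨(ψ.restrictScalars K).comp φ⟩

variable {D : Dat.{u, v, w}} (T : Tow D)

theorem i_alg (c : D.k) : T.i (algebraMap D.k T.E c) = algebraMap D.k D.B c := by
  rw [IsScalarTower.algebraMap_apply D.k D.K T.E, AlgHom.commutes, ← IsScalarTower.algebraMap_apply]

theorem i0_sq : T.i₀ * T.i₀ = algebraMap D.k D.B T.ε := by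
  rw [Tow.i₀, ← map_mul, ← i_alg, Tow.η, mul_mul_mul_comm, ← map_mul, ← map_mul, ← sq, T.θθ, T.ee,
    ← IsScalarTower.algebraMap_apply, ← IsScalarTower.algebraMap_apply, ← map_mul]
  rfl

variable {T} in
theorem rch_th {P : D.k[X]} {th : T.C} (h : T.HC P th) :
    rch D.K (th : D.B) = (P ^ 2).map (algebraMap D.k D.K) := by
  haveI := Cz.finite_field T.i
  let L := AlgebraicClosure D.K
  refine map_injective _ (algebraMap D.K L).injective ?_
  rw [Cz.rch_coe, h.2, Finset.prod_congr rfl (g := fun _ => P.map (algebraMap D.k L)) fun σ _ => ?_,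
    Finset.prod_const, Finset.card_univ, AlgHom.card, T.fr, Polynomial.map_map,
    ← IsScalarTower.algebraMap_eq, Polynomial.map_pow]
  rw [Polynomial.map_map, Polynomial.map_map]
  congr 1
  ext c
  simp only [RingHom.comp_apply, ← IsScalarTower.algebraMap_apply, RingHom.coe_coe]
  rw [IsScalarTower.algebraMap_apply D.k D.K T.E, AlgHom.commutes, ← IsScalarTower.algebraMap_apply]

end Q22

open Q22

theorem spqStmt : SpqStmt.{u, v, w} := fun D T => by
  obtain ⟨M₀, hM, h⟩ := exists_spl D.K D.B
  refine ⟨M₀, hM, fun P th κ β hP hth hκ F _ _ _ l hl b hb w hw hδ => ?_⟩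
  haveI := Loc.proper_adic F w
  haveI := Loc.charZero_adic F w
  let Ω := w.adicCompletion F
  have h0 : T.θ ≠ 0 := fun h => by
    have := T.θθ
    rw [h, zero_pow two_ne_zero, eq_comm, _root_.map_eq_zero] at this
    exact T.δ.ne_zero this
  obtain ⟨ι⟩ := (BC.nonempty_emb_iff D.k D.K Ω h0 T.star_θ (T.θθ.symm.trans (sq _))).2 (by
    rw [IsScalarTower.algebraMap_apply D.k F Ω]
    exact (Hn.Loc.mem_Sq_iff w _).1 hδ)
  letI : Algebra D.K Ω := ι.toRingHom.toAlgebra
  haveI : IsScalarTower D.k D.K Ω := .of_algebraMap_eq fun c => (ι.commutes c).symm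
  obtain ⟨ψ⟩ := h Ω (by
    have := (Loc.val_alg w (M₀ : F)).trans (by simpa using SplE.val_eq_one hw)
    rw [map_natCast] at this
    exact le_antisymm (Valued.toNormedField.norm_le_one_iff.2 this.le)
      (Valued.toNormedField.one_le_norm_iff.2 this.ge))
  let ρ : D.B →ₐ[D.k] End Ω (Fin (deg D.K D.B) → Ω) :=
    (Matrix.toLinAlgEquiv'.toAlgHom.restrictScalars D.k).comp (ψ.restrictScalars D.k)
  haveI : Nonempty (Fin (deg D.K D.B)) := ⟨⟨0, deg_pos _ _⟩⟩
  have hc : (ρ th).charpoly = P.map (algebraMap D.k Ω) ^ 2 := by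
    refine (Matrix.charpoly_toLin' (ψ th)).trans ?_
    rw [← rch_mat, ← Polynomial.map_pow, IsScalarTower.algebraMap_eq D.k D.K Ω,
      ← Polynomial.map_map, ← rch_th hth]
    exact rch_map (algebraMap D.K Ω) ψ.toRingHom (fun c => (ψ.commutes c).trans
      (IsScalarTower.algebraMap_apply _ _ _ _))
      (by rw [finrank_mat, Fintype.card_fin, finrank_eq_deg_sq]) _
  have hr : (P.map (algebraMap D.k Ω)).IsRoot (algebraMap F Ω l) := by
    rw [IsRoot.def, eval_map_algebraMap, aeval_algebraMap_apply, hl, map_zero]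
  obtain ⟨x, y, hxy⟩ := quat (t := ρ th) (i := ρ T.i₀) (κ := ρ κ) (l := algebraMap F Ω l)
    (ε := algebraMap D.k Ω T.ε) (β := β.map (algebraMap D.k Ω))
    (by rw [hc, IsRoot.def, eval_pow, hr.eq_zero, zero_pow two_ne_zero])
    (by
      rw [hc, Hsm.rootMultiplicity_pow' hP.map.ne_zero]
      exact Nat.mul_le_mul_left 2 (rootMultiplicity_le_one_of_separable hP.map _))
    (by rw [← map_mul, ← map_mul, Tow.i₀, Cz.mem_iff.1 th.2]) (by rw [← map_mul, ← map_mul, hκ.comm])
    (fun x => by rw [← End.mul_apply, ← map_mul, i0_sq, AlgHom.commutes, algebraMap_smul]; rfl)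
    (by rw [← map_mul, ← map_mul, hκ.anti, map_neg])
    (by rw [← map_mul, hκ.sq, aeval_map_algebraMap, aeval_algHom_apply])
    ((_root_.map_ne_zero _).2 T.ε.ne_zero)
  refine (Hn.Loc.mem_LN_iff w _ b).2 ⟨x, y, ?_⟩
  rw [← IsScalarTower.algebraMap_apply, ← hxy, hb, eval_map_algebraMap, aeval_algebraMap_apply]

end Crest.Agent.T24.Evn
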