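import Crest.Agent.T24.HgtDef_88
import Crest.Agent.R018.DegOne_796

/-!
# Row 24, heights: many primes have an idempotent of degree one (helper12)

A primitive idempotent of `ℚ̄ ⊗ B` is specialised at the primes of degree one of its field of definition.
-/

set_option autoImplicit false
set_option linter.unusedSectionVars false

noncomputable section

namespace Crest.Agent.T24.Hgt

open Filter Topology Module NumberField TensorProduct Crest.Agent.R018.DegOnex796

universe u

namespace Spl12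

/-- the reciprocal sum over `S` diverges -/
def Dv (S : Set ℕ) : Prop := ¬ Summable (S.indicator fun p : ℕ => (1 : ℝ) / p)

theorem Dv.mono {S T : Set ℕ} (h : Dv S) (F : Finset ℕ) (hT : ∀ p ∈ S, p ∉ F → p ∈ T) : Dv T := by
  intro hs
  have hF : Summable ((F : Set ℕ).indicator fun p : ℕ => (1 : ℝ) / p) :=
    summable_of_ne_finset_zero (s := F) fun p hp => Set.indicator_of_notMem hp _
  refine h ((hs.add hF).of_nonneg_of_le (fun p => Set.indicator_nonneg (fun _ _ => by positivity) p)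
    fun p => ?_)
  have h1 : 0 ≤ T.indicator (fun p : ℕ => (1 : ℝ) / p) p :=
    Set.indicator_nonneg (fun _ _ => by positivity) p
  have h2 : 0 ≤ (F : Set ℕ).indicator (fun p : ℕ => (1 : ℝ) / p) p :=
    Set.indicator_nonneg (fun _ _ => by positivity) p
  by_cases hp : p ∈ S
  · rw [Set.indicator_of_mem hp]
    by_cases hf : p ∈ F
    · rw [Set.indicator_of_mem (s := (F : Set ℕ)) hf]; linarith
    · rw [Set.indicator_of_mem (hT p hp hf)]; linarith
  · rw [Set.indicator_of_notMem hp]; linarith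

/-- primes of degree one -/
theorem dv_one (K : Type*) [Field K] [NumberField K] :
    Dv {p | p.Prime ∧ Nonempty (𝓞 K →+* ZMod p)} := by
  intro hs
  obtain ⟨C, hC⟩ := bdd K
  set f := {p : ℕ | p.Prime ∧ Nonempty (𝓞 K →+* ZMod p)}.indicator fun p : ℕ => (1 : ℝ) / p
  have f0 : ∀ p, 0 ≤ f p := Set.indicator_nonneg fun _ _ => by positivity
  set D : ℝ := 2 ^ finrank ℤ (𝓞 K)
  have hs' : Summable fun p : Nat.Primes => D * f p :=
    (hs.comp_injective Nat.Primes.coe_nat_injective).mul_left D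
  set T := |∑' p : Nat.Primes, D * f p| + |C| + 1
  have hT : 0 ≤ T := by positivity
  have e1 : 1 < 1 + Real.exp (-T) := by linarith [Real.exp_pos (-T)]
  have e2 : 1 + Real.exp (-T) ≤ 2 := by linarith [Real.exp_le_one_iff.2 (neg_nonpos.2 hT)]
  have h1 := hC _ e1 e2
  rw [add_sub_cancel_left, one_div, Real.log_inv, Real.log_exp, neg_neg] at h1
  have h2 := (summable_prime K e1).tsum_le_tsum (fun p => ?_) hs'
  · linarith [(abs_le.1 h1).1, le_abs_self C, le_abs_self (∑' p : Nat.Primes, D * f p)]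
  by_cases h0 : Nonempty {I : Ideal (𝓞 K) // Ideal.absNorm I = (p : ℕ)}
  · obtain ⟨I, hI⟩ := h0
    have : Finite (𝓞 K ⧸ I) := Nat.finite_of_card_ne_zero (by
      rw [← Submodule.cardQuot_apply, ← Ideal.absNorm_apply, hI]; exact p.2.ne_zero)
    have := Fintype.ofFinite (𝓞 K ⧸ I)
    have hc : Fintype.card (𝓞 K ⧸ I) = p := by
      rw [← Nat.card_eq_fintype_card, ← Submodule.cardQuot_apply, ← Ideal.absNorm_apply, hI]
    have hm : f p = 1 / ((p : ℕ) : ℝ) := by
      apply Set.indicator_of_mem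
      exact ⟨p.2, ⟨(ZMod.ringEquivOfPrime _ p.2 hc).symm.toRingHom.comp (Ideal.Quotient.mk I)⟩⟩
    have h3 : (aK K (p ^ 1) : ℝ) ≤ D := by
      simp only [D]; exact_mod_cast aK_pow_le K p p.2 1
    rw [pow_one] at h3
    have h4 : (1 : ℝ) ≤ (p : ℕ) := by exact_mod_cast p.2.one_le
    rw [hm, one_div, ← Real.rpow_neg_one]
    exact mul_le_mul h3 (Real.rpow_le_rpow_of_exponent_le h4 (by linarith))
      (by positivity) (by positivity)
  · rw [not_nonempty_iff] at h0
    rw [Nat.card_of_isEmpty, Nat.cast_zero, zero_mul]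
    exact mul_nonneg (by positivity) (f0 _)

/-- finitely many algebraic numbers specialise modulo many primes -/
theorem dv_spec {F : Type*} [Field F] [CharZero F] [Algebra.IsAlgebraic ℤ F] (S : Finset F) :
    Dv {p | p.Prime ∧ ∃ R : Subring F, (∀ z ∈ S, z ∈ R) ∧ Nonempty (R →+* ZMod p)} := by
  let L := IntermediateField.adjoin ℚ (S : Set F)
  have : FiniteDimensional ℚ L :=
    IntermediateField.finiteDimensional_adjoin fun x _ =>
      ((IsFractionRing.isAlgebraic_iff ℤ ℚ F).1 (Algebra.IsAlgebraic.isAlgebraic x)).isIntegral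
  have : NumberField L := ⟨⟩
  obtain ⟨y, hy, hS⟩ := Algebra.IsAlgebraic.exists_integral_multiples ℤ S
  refine (dv_one L).mono y.natAbs.divisors fun p ⟨hp, ⟨φ⟩⟩ hy' => ⟨hp, ?_⟩
  have := Fact.mk hp
  let h : 𝓞 L →+* F := (algebraMap L F).comp (algebraMap (𝓞 L) L)
  have hi : Function.Injective h :=
    (algebraMap L F).injective.comp (RingOfIntegers.coe_injective (K := L))
  have u1 : IsUnit (h (y : 𝓞 L)) := by rw [map_intCast]; exact (Int.cast_ne_zero.2 hy).isUnit
  have u2 : IsUnit (φ (y : 𝓞 L)) := by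
    rw [map_intCast, isUnit_iff_ne_zero, Ne, ZMod.intCast_zmod_eq_zero_iff_dvd]
    exact fun hd => hy' (Nat.mem_divisors.2 ⟨Int.natCast_dvd.1 hd, Int.natAbs_ne_zero.2 hy⟩)
  let g : Localization.Away (y : 𝓞 L) →+* F := IsLocalization.Away.lift _ u1
  have hg : Function.Injective g :=
    IsLocalization.injective_of_map_algebraMap_zero (M := Submonoid.powers (y : 𝓞 L)) _ g fun x hx => by
      rw [IsLocalization.Away.lift_eq, ← map_zero h] at hx
      rw [hi hx, map_zero]
  refine ⟨g.range, fun z hz => ?_, ⟨(IsLocalization.Away.lift _ u2).comp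
    (RingEquiv.ofBijective g.rangeRestrict ⟨fun a b hab => hg (congrArg Subtype.val hab),
      g.rangeRestrict_surjective⟩).symm.toRingHom⟩⟩
  have hz' : IsIntegral ℤ (y • (⟨z, IntermediateField.subset_adjoin _ _ hz⟩ : L)) :=
    (isIntegral_algHom_iff (IsScalarTower.toAlgHom ℤ L F) (algebraMap L F).injective).1 (by
      rw [map_zsmul]; exact hS z hz)
  refine ⟨algebraMap (𝓞 L) _ ⟨_, hz'⟩ * IsLocalization.Away.invSelf (y : 𝓞 L), ?_⟩
  have h1 := congrArg g (IsLocalization.Away.mul_invSelf (S := Localization.Away (y : 𝓞 L)) (y : 𝓞 L))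
  rw [map_mul, map_one, IsLocalization.Away.lift_eq, map_intCast] at h1
  have h2 : h ⟨_, hz'⟩ = y * z := by rw [← zsmul_eq_mul]; rfl
  refine (map_mul g _ _).trans ((congrArg (· * _)
    ((IsLocalization.Away.lift_eq _ u1 _).trans h2)).trans ?_)
  rw [mul_comm (y : F), mul_assoc, h1, mul_one]

variable {B : Type*} [Ring B] [Algebra ℚ B] [FiniteDimensional ℚ B]

theorem tr_comm (x y : B) : tr B (x * y) = tr B (y * x) := by
  simp only [tr, LinearMap.comp_apply, AlgHom.toLinearMap_apply, map_mul]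
  exact LinearMap.trace_mul_comm ..

theorem tr_nd [IsSimpleRing B] {x : B} (h : ∀ w, tr B (w * x) = 0) : x = 0 := by
  by_contra hx
  let I : TwoSidedIdeal B := .mk' {x | ∀ w, tr B (w * x) = 0} (fun w => by simp)
    (fun ha hb w => by rw [mul_add, map_add, ha, hb, add_zero])
    (fun ha w => by rw [mul_neg, map_neg, ha, neg_zero])
    (fun ha w => by rw [← mul_assoc, ha]) (fun ha w => by rw [← mul_assoc, tr_comm, ← mul_assoc, ha])
  have h1 := IsSimpleRing.one_mem_of_ne_zero_mem I hx (by rw [TwoSidedIdeal.mem_mk']; exact h)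
  rw [TwoSidedIdeal.mem_mk'] at h1
  have h2 := h1 1
  simp only [tr, mul_one, LinearMap.comp_apply, AlgHom.toLinearMap_apply, map_one,
    LinearMap.trace_one, Nat.cast_eq_zero] at h2
  exact finrank_pos.ne' h2

/-- a finite dimensional simple `ℚ`-algebra is absolutely semisimple -/
theorem semisimple [IsSimpleRing B] (F : Type*) [Field F] [Algebra ℚ F] :
    IsSemisimpleRing (F ⊗[ℚ] B) := by
  classical
  have := IsArtinianRing.of_finite F (F ⊗[ℚ] B)
  rw [IsArtinianRing.isSemisimpleRing_iff_jacobson, eq_bot_iff]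
  intro x hx
  let T : F ⊗[ℚ] B →ₗ[F] F := (LinearMap.trace F _).comp (Algebra.lmul F _).toLinearMap
  have hT : ∀ y : B, T (1 ⊗ₜ y) = algebraMap ℚ F (tr B y) := fun y => by
    have : Algebra.lmul F (F ⊗[ℚ] B) (1 ⊗ₜ y) = (Algebra.lmul ℚ B y).baseChange F := by
      ext z; simp
    simp only [T, tr, LinearMap.comp_apply, AlgHom.toLinearMap_apply, this, LinearMap.trace_baseChange]
  have h0 : ∀ w, T (w * x) = 0 := fun w => by
    obtain ⟨n, hn⟩ := IsSemiprimaryRing.isNilpotent (R := F ⊗[ℚ] B)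
    have h1 : IsNilpotent (w * x) :=
      ⟨n, by simpa [hn] using Ideal.pow_mem_pow (Ideal.mul_mem_left _ w hx) n⟩
    exact (LinearMap.isNilpotent_trace_of_isNilpotent (h1.map (Algebra.lmul F _))).eq_zero
  let Q : LinearMap.BilinForm ℚ B := (LinearMap.mul ℚ B).compr₂ (tr B)
  have hQ : Q.Nondegenerate := ⟨fun x h => tr_nd fun w => (tr_comm w x).trans (h w), fun x h => tr_nd h⟩
  let b := finBasis ℚ B
  let β := Algebra.TensorProduct.basis F b
  refine β.repr.map_eq_zero_iff.1 (Finsupp.ext fun j => ?_)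
  have h2 := h0 (1 ⊗ₜ Q.dualBasis hQ b j)
  rw [← β.sum_repr x, Finset.mul_sum, map_sum, Finset.sum_eq_single j] at h2
  · rwa [mul_smul_comm, map_smul, Algebra.TensorProduct.basis_apply,
      Algebra.TensorProduct.tmul_mul_tmul, one_mul, hT,
      show tr B (Q.dualBasis hQ b j * b j) = 1 from
        (Q.apply_dualBasis_left hQ b j j).trans (if_pos rfl), map_one, smul_eq_mul, mul_one] at h2
  · intro i _ hi
    rw [mul_smul_comm, map_smul, Algebra.TensorProduct.basis_apply,
      Algebra.TensorProduct.tmul_mul_tmul, one_mul, hT,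
      show tr B (Q.dualBasis hQ b j * b i) = 0 from
        (Q.apply_dualBasis_left hQ b j i).trans (if_neg hi), map_zero, smul_zero]
  · simp

/-- a primitive idempotent over an algebraically closed field -/
theorem exists_idem (F A : Type*) [Field F] [IsAlgClosed F] [Ring A] [Algebra F A]
    [FiniteDimensional F A] [IsSemisimpleRing A] [Nontrivial A] :
    ∃ ε : A, ε ≠ 0 ∧ ε * ε = ε ∧ ∀ x, ∃ c : F, ε * x * ε = c • ε := by
  classical
  obtain ⟨n, d, hd, ⟨e⟩⟩ := IsSemisimpleRing.exists_algEquiv_pi_matrix_of_isAlgClosed F A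
  obtain ⟨i⟩ : Nonempty (Fin n) := by
    by_contra h
    rw [not_nonempty_iff] at h
    exact not_subsingleton A e.toEquiv.subsingleton
  have key : ∀ x : ∀ i, Matrix (Fin (d i)) (Fin (d i)) F,
      Pi.single i (Matrix.single 0 0 1) * x * Pi.single i (Matrix.single 0 0 1) =
        x i 0 0 • Pi.single i (Matrix.single 0 0 1) := fun x => funext fun k => by
    by_cases hk : k = i
    · subst hk; simp [Matrix.single_mul_mul_single, Matrix.smul_single]
    · simp [Pi.single_eq_of_ne hk]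
  refine ⟨e.symm (Pi.single i (Matrix.single 0 0 1)), fun h => ?_, ?_, fun x => ⟨e x i 0 0, ?_⟩⟩
  · have := congrFun (congrFun (congrFun (e.symm.injective (h.trans (map_zero _).symm)) i) 0) 0
    simp at this
  · exact (map_mul _ _ _).symm.trans (congrArg e.symm (by simpa using key 1))
  · rw [← map_smul, ← key, map_mul, map_mul, e.symm_apply_apply]

/-- a `ℤ`-basis of the order -/
theorem exists_basis {O : Subring B} (hf : O.toAddSubgroup.FG)
    (full : ∀ x : B, ∃ m : ℕ, m ≠ 0 ∧ (m : B) * x ∈ O) : ∃ (n : ℕ) (b : Basis (Fin n) ℚ B),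
      (∀ i, b i ∈ O) ∧ ∀ x ∈ O, ∀ i, ∃ m : ℤ, b.repr x i = m := by
  let M := O.toAddSubgroup.toIntSubmodule
  have : Module.Finite ℤ M := Module.Finite.iff_fg.2 ((Submodule.fg_iff_addSubgroup_fg _).2 hf)
  have : IsAddTorsionFree B := .of_isTorsionFree ℚ B
  let a := Module.finBasis ℤ M
  have h1 : LinearIndependent ℚ fun i => (a i : B) :=
    (LinearIndependent.iff_fractionRing ℤ ℚ).1 (a.linearIndependent.map' M.subtype M.ker_subtype)
  have h2 : ∀ x (hx : x ∈ O), x = ∑ i, (a.repr ⟨x, hx⟩ i : ℚ) • (a i : B) := fun x hx => by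
    have := congrArg M.subtype (a.sum_repr ⟨x, hx⟩).symm
    rw [map_sum] at this
    exact this.trans (Finset.sum_congr rfl fun i _ => (Int.cast_smul_eq_zsmul ℚ _ _).symm)
  have h3 : ⊤ ≤ Submodule.span ℚ (Set.range fun i => (a i : B)) := fun x _ => by
    obtain ⟨m, hm, hx⟩ := full x
    have : x = (m : ℚ)⁻¹ • ((m : B) * x) := by
      rw [← nsmul_eq_mul, ← Nat.cast_smul_eq_nsmul ℚ, inv_smul_smul₀ (Nat.cast_ne_zero.2 hm)]
    rw [this, h2 _ hx]
    exact Submodule.smul_mem _ _ (Submodule.sum_mem _ fun i _ =>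
      Submodule.smul_mem _ _ (Submodule.subset_span ⟨i, rfl⟩))
  refine ⟨_, .mk h1 h3, fun i => by rw [Basis.mk_apply]; exact (a i).2, fun x hx i =>
    ⟨a.repr ⟨x, hx⟩ i, ?_⟩⟩
  have := (Basis.mk h1 h3).repr_sum_self fun i => (a.repr ⟨x, hx⟩ i : ℚ)
  simp only [Basis.mk_apply, ← h2 x hx] at this
  exact congrFun this i

end Spl12

open Spl12

theorem splStmt : SplStmt.{u} := by
  intro B _ _ _ _ _ O θ hO
  classical
  let F := AlgebraicClosure ℚ
  have := semisimple (B := B) F
  have hA : Algebra.IsAlgebraic ℤ F := ⟨fun x => (IsFractionRing.isAlgebraic_iff ℤ ℚ _).2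
    ((AlgebraicClosure.isAlgebraic ℚ).isAlgebraic x)⟩
  have : @Algebra.IsAlgebraic ℤ F _ _ (Ring.toIntAlgebra F) := by
    convert hA; exact Subsingleton.elim _ _
  obtain ⟨ε, h0, h1, h2⟩ := exists_idem F (F ⊗[ℚ] B)
  obtain ⟨n, b, hb, hb'⟩ := exists_basis hO.fg hO.full
  let β := Algebra.TensorProduct.basis F b
  obtain ⟨k₀, hk⟩ : ∃ k, β.repr ε k ≠ 0 := by
    by_contra h
    push Not at h
    exact h0 (β.repr.map_eq_zero_iff.1 (Finsupp.ext h))
  refine (dv_spec (insert (β.repr ε k₀)⁻¹ (Finset.univ.image (β.repr ε)))).mono ∅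
    fun p ⟨hp, R, hR, ⟨ψ⟩⟩ _ => ⟨hp, ?_⟩
  have := Fact.mk hp
  let z : Fin n → R := fun i => ⟨β.repr ε i, hR _ (by simp)⟩
  let z' : R := ⟨(β.repr ε k₀)⁻¹, hR _ (by simp)⟩
  have hz : z' * z k₀ = 1 := Subtype.ext (inv_mul_cancel₀ hk)
  choose t ht using fun i => ZMod.intCast_surjective (ψ (z i))
  have mem : ∀ m : Fin n → ℤ, ∑ i, (m i : ℚ) • b i ∈ O := fun m => O.sum_mem fun i _ => by
    rw [Int.cast_smul_eq_zsmul]; exact O.zsmul_mem (hb i) _
  have co : ∀ x ∈ O, ∃ δ : Fin n → Fin n → Fin n → ℤ, (∀ i l k, b.repr (b i * x * b l) k = δ i l k) ∧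
      ∀ k, β.repr (ε * 1 ⊗ₜ x * ε) k = (∑ i, ∑ l, z i * z l * δ i l k : R) := fun x hx => by
    choose δ hδ using fun i l => hb' _ (O.mul_mem (O.mul_mem (hb i) hx) (hb l))
    refine ⟨δ, hδ, fun k => ?_⟩
    conv_lhs => rw [← β.sum_repr ε]
    simp only [Finset.sum_mul, Finset.mul_sum, smul_mul_assoc, mul_smul_comm, map_sum, map_smul, β,
      Algebra.TensorProduct.basis_apply, Algebra.TensorProduct.tmul_mul_tmul, mul_one,
      Algebra.TensorProduct.basis_repr_tmul, one_smul, Finsupp.coe_finsetSum, Finset.sum_apply,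
      Finsupp.smul_apply, Finsupp.mapRange_apply, hδ, map_intCast, smul_eq_mul]
    push_cast
    rw [Finset.sum_comm]
    exact Finset.sum_congr rfl fun i _ => Finset.sum_congr rfl fun l _ => by simp only [z, β]; ring
  have key : ∀ x ∈ O, ∀ (c : R) (c' : ℤ), ε * 1 ⊗ₜ x * ε = (c : F) • ε → (c' : ZMod p) = ψ c →
      ∃ y ∈ O, (∑ i, (t i : ℚ) • b i) * x * (∑ i, (t i : ℚ) • b i) - c' * ∑ i, (t i : ℚ) • b i =
        p * y := fun x hx c c' hc hc' => by
    obtain ⟨δ, hδ, h⟩ := co x hx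
    have e : ∀ k, (p : ℤ) ∣ ∑ i, ∑ l, t i * t l * δ i l k - c' * t k := fun k => by
      have e1 : (∑ i, ∑ l, z i * z l * δ i l k : R) = c * z k :=
        Subtype.ext ((h k).symm.trans (by rw [hc, map_smul]; rfl))
      have e2 := congrArg ψ e1
      simp only [map_sum, map_mul, map_intCast, ← ht, ← hc'] at e2
      rw [← ZMod.intCast_zmod_eq_zero_iff_dvd]
      push_cast
      rw [e2, sub_self]
    choose m hm using e
    refine ⟨_, mem m, b.ext_elem fun k => ?_⟩
    have e3 := congrArg (Int.cast (R := ℚ)) (hm k)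
    push_cast at e3
    rw [map_sub, ← zsmul_eq_mul, ← nsmul_eq_mul, map_zsmul, map_nsmul, Finsupp.sub_apply,
      Finsupp.smul_apply, Finsupp.smul_apply, b.repr_sum_self, b.repr_sum_self, zsmul_eq_mul,
      nsmul_eq_mul, ← e3]
    simp only [Finset.sum_mul, Finset.mul_sum, smul_mul_assoc, mul_smul_comm, map_sum, map_smul,
      Finsupp.coe_finsetSum, Finset.sum_apply, Finsupp.smul_apply, hδ, smul_eq_mul]
    rw [Finset.sum_comm]
    exact congrArg (· - _)
      (Finset.sum_congr rfl fun i _ => Finset.sum_congr rfl fun l _ => by ring)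
  refine ⟨_, mem t, ?_, ?_, fun x hx => ?_⟩
  · rintro ⟨y, hy, h⟩
    obtain ⟨m, hm⟩ := hb' y hy k₀
    have e1 := congrArg (b.repr · k₀) h
    simp only [b.repr_sum_self, ← nsmul_eq_mul, map_nsmul, Finsupp.smul_apply, hm] at e1
    have e2 : t k₀ = p * m := by rw [nsmul_eq_mul] at e1; exact_mod_cast e1
    have e3 := congrArg ψ hz
    rw [map_mul, map_one, ← ht, e2] at e3
    simp at e3
  · simpa using key 1 O.one_mem 1 1
      (by simpa [← Algebra.TensorProduct.one_def] using h1) (by simp)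
  · obtain ⟨c, hc⟩ := h2 (1 ⊗ₜ x)
    obtain ⟨δ, -, h⟩ := co x hx
    obtain ⟨c', hc'⟩ := ZMod.intCast_surjective (ψ (z' * ∑ i, ∑ l, z i * z l * δ i l k₀))
    refine ⟨c', key x hx _ c' (hc.trans ?_) hc'⟩
    rw [Subring.coe_mul, ← h, hc, map_smul, Finsupp.smul_apply, smul_eq_mul, mul_left_comm,
      inv_mul_cancel₀ hk, mul_one]

end Crest.Agent.T24.Hgt
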