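import Crest.Agent.T24.EvDef_47
import Crest.Agent.T24.HgtSpl_12
import Crest.Agent.T24.InCtr_50
import Crest.Agent.T24.SplEx_33
import Crest.Agent.T24.HsmB_23
import Crest.Agent.T24.HnLocD_73
import Crest.Agent.T24.OpnB_6

/-!
# Row 24, central step for even degree (helper62): Eisenstein base points
-/

set_option autoImplicit false
set_option linter.unusedSectionVars false

noncomputable section

namespace Crest.Agent.T24.Evn

open Module NumberField WithZero Csa Asa Topology Filter Polynomial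
open scoped Valued TensorProduct

universe u v w

namespace Th62

theorem le_exp_of_lt_one {γ : ℤᵐ⁰} (h : γ < 1) : γ ≤ exp (-1) := by
  by_cases h0 : γ = 0
  · simp [h0]
  rw [← exp_log h0, ← exp_zero, exp_lt_exp] at h
  rw [← exp_log h0, exp_le_exp]; omega

/-- Eisenstein's criterion for a valuation with values in `ℤ` -/
theorem irred {L : Type*} [Field L] (v : Valuation L ℤᵐ⁰) {P : L[X]} (hP : P.Monic)
    (hd : 0 < P.natDegree) (h1 : ∀ j < P.natDegree, v (P.coeff j) < 1)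
    (h0 : v (P.coeff 0) = exp (-1)) : Irreducible P := by
  let O := v.valuationSubring
  have hl : P ∈ lifts (algebraMap O L) := (lifts_iff_coeff_lifts _).2 fun j => by
    refine ⟨⟨P.coeff j, ?_⟩, rfl⟩
    change v _ ≤ 1
    rcases lt_trichotomy j P.natDegree with h | rfl | h
    · exact (h1 j h).le
    · rw [hP.coeff_natDegree, map_one]
    · simp [coeff_eq_zero_of_natDegree_lt h]
  obtain ⟨Q, rfl, hQd, hQ⟩ := lifts_and_natDegree_eq_and_monic hl hP
  have hm : ∀ x : O, x ∈ IsLocalRing.maximalIdeal O ↔ v x < 1 := fun x =>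
    Valuation.mem_maximalIdeal_iff (v := v)
  refine (hQ.irreducible_iff_irreducible_map_fraction_map (K := L)).1 ?_
  refine (show Q.IsEisensteinAt (IsLocalRing.maximalIdeal O) from
    ⟨?_, fun {n} hn => ?_, ?_⟩).irreducible inferInstance hQ.isPrimitive (hQd ▸ hd)
  · rw [hQ.leadingCoeff, hm]; simp
  · have := h1 n (hQd ▸ hn)
    rw [coeff_map] at this
    exact (hm _).2 this
  · intro h2
    have h3 : v (Q.coeff 0) ≤ exp (-2) := by
      rw [pow_two] at h2
      refine Submodule.mul_induction_on (C := fun x : O => v x ≤ exp (-2)) h2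
        (fun a ha b hb => ?_) fun a b ha hb => ?_
      · rw [Subring.coe_mul, map_mul, show (-2 : ℤ) = -1 + -1 by norm_num, exp_add]
        exact mul_le_mul' (le_exp_of_lt_one ((hm _).1 ha)) (le_exp_of_lt_one ((hm _).1 hb))
      · exact v.map_add_le ha hb
    rw [coeff_map] at h0
    change v (Q.coeff 0) = _ at h0
    rw [h0, exp_le_exp] at h3
    omega

section Place
variable {k : Type*} [Field k] [NumberField k] (E : Type*) [Field E] [NumberField E] [Algebra k E]

theorem exists_place {N : ℕ} (hN : N ≠ 0) : ∃ v : Pl k, (N : 𝓞 k) ∉ v.asIdeal ∧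
    ∀ (d : 𝓞 k) (x : E), x ^ 2 = algebraMap k E d → ∃ y : 𝓞 k, y ^ 2 - d ∈ v.asIdeal := by
  obtain ⟨p, ⟨hp, ⟨φ⟩⟩, hN'⟩ : ∃ p ∈ {p : ℕ | p.Prime ∧ Nonempty (𝓞 E →+* ZMod p)}, N < p := by
    by_contra hn
    push Not at hn
    refine (Hgt.Spl12.dv_one E).mono (T := ∅) (Finset.range (N + 1))
      (fun p hp h => h (Finset.mem_range.2 (Nat.lt_succ_of_le (hn p hp)))) ?_
    simp [summable_zero]
  have := Fact.mk hp
  let f := φ.comp (algebraMap (𝓞 k) (𝓞 E))
  have hp0 : (p : 𝓞 k) ∈ RingHom.ker f := by simp [RingHom.mem_ker]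
  refine ⟨⟨RingHom.ker f, RingHom.ker_isPrime f, fun h => hp.ne_zero ?_⟩, fun h => ?_,
    fun d x hx => ?_⟩
  · rw [h, Ideal.mem_bot] at hp0; exact_mod_cast hp0
  · have h1 : ((N : ℕ) : ZMod p) = 0 := by simpa using RingHom.mem_ker.1 h
    exact absurd (Nat.le_of_dvd (Nat.pos_of_ne_zero hN) ((ZMod.natCast_eq_zero_iff _ _).1 h1))
      (not_le.2 hN')
  · have hi : IsIntegral ℤ x := by
      refine IsIntegral.of_pow two_pos ?_
      rw [hx]
      exact (algebraMap (𝓞 k) (𝓞 E) d).isIntegral_coe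
    obtain ⟨y, h2⟩ : ∃ y : 𝓞 E, y ^ 2 = algebraMap (𝓞 k) (𝓞 E) d := ⟨⟨x, hi⟩, by ext; exact hx⟩
    refine ⟨((φ y).val : ℕ), RingHom.mem_ker.2 ?_⟩
    rw [map_sub, map_pow, map_natCast, ZMod.natCast_zmod_val, ← map_pow, h2]
    exact sub_self _

theorem freq : ∃ᶠ v : Pl k in cofinite,
    ∀ (d : 𝓞 k) (x : E), x ^ 2 = algebraMap k E d → ∃ y : 𝓞 k, y ^ 2 - d ∈ v.asIdeal := by
  rw [frequently_cofinite_iff_infinite]
  intro h
  obtain ⟨N, hN, h1⟩ := In.exists_nat_mem h.toFinset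
  obtain ⟨v, hv, h2⟩ := exists_place (k := k) E (N := N) (by omega)
  exact hv (h1 v (by simpa using h2))

theorem sq_ae (δ : kˣ) {x : E} (hx : x ^ 2 = algebraMap k E δ) : ∀ᶠ v : Pl k in cofinite,
    (∀ (d : 𝓞 k) (x : E), x ^ 2 = algebraMap k E d → ∃ y : 𝓞 k, y ^ 2 - d ∈ v.asIdeal) →
      ((minpoly k x).map (algebraMap k (Kv v))).Splits := by
  obtain ⟨c, a, ha⟩ := Hn.Loc.exists_mul_sq_int δ
  have ha0 : a ≠ 0 := by
    rintro rfl
    exact (δ * c ^ 2).ne_zero ha
  have h1 : ∀ᶠ v : Pl k in cofinite, a ∉ v.asIdeal :=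
    (Ideal.finite_factors (I := Ideal.span {a}) (by simpa using ha0)).subset fun v hv => by
      simpa [Ideal.dvd_span_singleton] using hv
  filter_upwards [h1, SplE.nat_ae (k := k) two_ne_zero] with v h1 h2 h3
  have h4 := (Hn.Loc.mem_Sq_iff_int v (Hn.Loc.val_two_eq_one v (by simpa using h2)) ha h1).2
    (h3 a (x * algebraMap k E c) (by rw [← ha, mul_pow, hx]; simp))
  obtain ⟨b, hb⟩ := Hn.Loc.isSquare_of_mem_Sq v ((Hn.Loc.mul_sq_mem_Sq v c).1 h4)
  refine ((Splits.X_sub_C b).mul (Splits.X_add_C b)).of_dvd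
    ((monic_X_sub_C b).mul (monic_X_add_C b)).ne_zero ?_
  have : (X - C b) * (X + C b) = (X ^ 2 - C (δ : k)).map (algebraMap k (Kv v)) := by
    simp only [Polynomial.map_sub, Polynomial.map_pow, map_X, map_C, hb, map_mul]; ring
  rw [this]
  exact Polynomial.map_dvd _ (minpoly.dvd k x (by simp [hx]))

end Place

theorem span_top {E F C n : Type*} [Field E] [Field F] [Ring C] [Algebra E C]
    [Algebra.IsCentral E C] [IsSimpleRing C] [FiniteDimensional E C] [Fintype n] [DecidableEq n]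
    [Nonempty n] (f : E →+* F) (φ : C →+* Matrix n n F)
    (hf : ∀ c, φ (algebraMap E C c) = Matrix.scalar n (f c))
    (h : finrank E C = Fintype.card n ^ 2) : Submodule.span F (Set.range φ) = ⊤ := by
  let _ : Algebra E F := f.toAlgebra
  let φ' : C →ₐ[E] Matrix n n F := { φ with commutes' := hf }
  let q := bcEquiv (L := F) φ' (by rw [finrank_mat, h])
  rw [eq_top_iff]
  rintro x -
  obtain ⟨z, rfl⟩ := q.surjective x
  induction z using TensorProduct.induction_on with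
  | zero => simp
  | tmul l b =>
    rw [bcEquiv_tmul]
    exact Submodule.smul_mem _ _ (Submodule.subset_span ⟨b, rfl⟩)
  | add a b ha hb => rw [map_add]; exact add_mem ha hb

theorem dense_fix {k F C M : Type*} [Field k] [CharZero k] [Field F] [CharZero F] [Algebra k F]
    [TopologicalSpace F] [Ring C] [Algebra k C] [Ring M] [Algebra F M] [Algebra k M]
    [IsScalarTower k F M] [TopologicalSpace M] [IsTopologicalAddGroup M] [ContinuousSMul F M]
    (hd : DenseRange (algebraMap k F)) (ψ : C →ₐ[k] M)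
    (hψ : Submodule.span F (Set.range ψ) = ⊤) (γ : C →ₐ[k] C) (hγ : Function.Surjective γ)
    (ρ : C →ₗ[k] C) (hρ : ∀ c, ρ (ρ c) = c) {θ θ' e : C} {a b : F} (hθ : θ * θ' = 1)
    (hρθ : ∀ c, ρ (θ' * c) = -(θ' * ρ c)) (hγθ : γ θ = θ) (hψθ : ψ θ = algebraMap F M a)
    (hγe : γ e = -e) (hψe : ψ e = algebraMap F M b) (hb : b ≠ 0) :
    Dense ((fun c => (ψ c, ψ (γ c))) '' {c | ρ c = c}) := by
  set S := (fun c => (ψ c, ψ (γ c))) '' {c | ρ c = c} with hS
  let Z : Submodule F (M × M) :=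
    { carrier := closure S
      add_mem' := fun hx hy => map_mem_closure₂ continuous_add hx hy (by
        rintro _ ⟨x, hx, rfl⟩ _ ⟨y, hy, rfl⟩
        exact ⟨x + y, by simp [show ρ x = x from hx, show ρ y = y from hy], by simp⟩)
      zero_mem' := subset_closure ⟨0, by simp, by simp⟩
      smul_mem' := fun r z hz => hd.induction_on (p := fun r => r • z ∈ closure S) r
        (isClosed_closure.preimage (by fun_prop)) fun c =>
          map_mem_closure (continuous_const_smul _) hz (by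
            rintro _ ⟨x, hx, rfl⟩
            exact ⟨c • x, by simp [show ρ x = x from hx], by simp⟩) }
  have h1 : ∀ c, (ψ c, ψ (γ c)) ∈ Z := fun c => by
    have m1 : (ψ (c + ρ c), ψ (γ (c + ρ c))) ∈ Z :=
      subset_closure ⟨_, by simp [hρ, add_comm], rfl⟩
    have m2 : (ψ (θ' * (c - ρ c)), ψ (γ (θ' * (c - ρ c)))) ∈ Z :=
      subset_closure ⟨_, by simp [hρθ, hρ, mul_sub, neg_add_eq_sub], rfl⟩
    have e1 : ∀ x, a • (ψ x, ψ (γ x)) = (ψ (θ * x), ψ (γ (θ * x))) := fun x => by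
      simp only [map_mul, hγθ, hψθ, Prod.smul_mk, ← Algebra.smul_def]
    convert Z.smul_mem (2⁻¹ : F) (add_mem m1 (Z.smul_mem a m2)) using 1
    rw [e1, ← mul_assoc, hθ, one_mul]
    simp only [map_add, map_sub, Prod.mk_add_mk, add_add_sub_cancel, ← two_smul F, Prod.smul_mk,
      smul_smul, inv_mul_cancel₀ (two_ne_zero (α := F)), one_smul]
  have e2 : ∀ c, b⁻¹ • (ψ (e * c), ψ (γ (e * c))) = (ψ c, -ψ (γ c)) := fun c => by
    simp only [map_mul, hγe, map_neg, hψe, neg_mul, ← Algebra.smul_def, Prod.smul_mk, smul_neg,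
      smul_smul, inv_mul_cancel₀ hb, one_smul]
  have h2 : ∀ x, (x, 0) ∈ Z := fun x => by
    refine (Submodule.span_le (p := Z.comap (LinearMap.inl F M M))).2 ?_ (hψ ▸ Submodule.mem_top)
    rintro _ ⟨c, rfl⟩
    have := Z.smul_mem (2⁻¹ : F) (add_mem (h1 c) (e2 c ▸ Z.smul_mem b⁻¹ (h1 (e * c))))
    simpa [← two_smul F, smul_smul] using this
  have h3 : ∀ x, (0, x) ∈ Z := fun x => by
    refine (Submodule.span_le (p := Z.comap (LinearMap.inr F M M))).2 ?_ (hψ ▸ Submodule.mem_top)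
    rintro _ ⟨c, rfl⟩
    obtain ⟨c, rfl⟩ := hγ c
    simpa using sub_mem (h1 c) (h2 (ψ c))
  rintro ⟨x, y⟩
  have : (x, y) ∈ Z := by simpa using add_mem (h2 x) (h3 y)
  exact this

theorem continuous_coeff {F n : Type*} [CommRing F] [TopologicalSpace F] [IsTopologicalRing F]
    [Fintype n] [DecidableEq n] (i : ℕ) : Continuous fun Y : Matrix n n F => Y.charpoly.coeff i := by
  have : (fun Y : Matrix n n F => Y.charpoly.coeff i) = fun Y =>
      MvPolynomial.eval (fun p : n × n => Y p.1 p.2) ((Matrix.charpoly.univ F n).coeff i) :=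
    funext fun Y => (Matrix.charpoly.univ_coeff_eval₂Hom n (RingHom.id F)
      (fun p : n × n => Y p.1 p.2) i).symm
  rw [this]
  exact (MvPolynomial.continuous_eval _).comp (by fun_prop)

theorem exists_mat {F : Type*} [Field F] {m : ℕ} {P : F[X]} (hP : P.Monic) (hm : P.natDegree = m) :
    ∃ Y : Matrix (Fin m) (Fin m) F, Y.charpoly = P := by
  subst hm
  exact ⟨_, (charpoly_leftMulMatrix (AdjoinRoot.powerBasis hP.ne_zero)).trans
    (AdjoinRoot.minpoly_powerBasis_gen_of_monic hP)⟩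

theorem exists_eis {k : Type*} [Field k] [NumberField k] (v : Pl k) {m : ℕ} (hm : 0 < m) :
    ∃ Y₀ : Matrix (Fin m) (Fin m) (Kv v), ∀ᶠ Y in 𝓝 Y₀,
      (∀ i < m, Valued.v (Y.charpoly.coeff i) < 1) ∧ Valued.v (Y.charpoly.coeff 0) = exp (-1) := by
  obtain ⟨p, hp⟩ := v.valuedAdicCompletion_surjective k (exp (-1))
  obtain ⟨Y₀, hY⟩ := exists_mat (monic_X_pow_add_C p hm.ne') natDegree_X_pow_add_C
  have h0 : Valued.v (Y₀.charpoly.coeff 0) = exp (-1) := by
    rw [hY, coeff_add, coeff_X_pow, if_neg hm.ne, coeff_C_zero, zero_add, hp]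
  refine ⟨Y₀, ((eventually_all_finite (Set.finite_lt_nat m)).2 fun i hi => ?_).and ?_⟩
  · have h1 : Valued.v (Y₀.charpoly.coeff i) < 1 := by
      rcases eq_or_ne i 0 with rfl | h
      · rw [h0, ← exp_zero, exp_lt_exp]; norm_num
      · rw [hY, coeff_add, coeff_X_pow, if_neg (ne_of_lt hi), coeff_C_of_ne_zero h]; simp
    simp only [← Valued.toNormedField.norm_lt_one_iff] at h1 ⊢
    exact (continuous_coeff i).norm.continuousAt.eventually_lt continuousAt_const h1
  · rw [← h0]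
    exact (continuous_coeff 0).continuousAt.eventually
      (Valued.locally_const (by rw [h0]; exact exp_ne_zero))

section Tow
variable {D : Dat.{u, v, w}} (T : Tow D)

/-- `e` in `E` -/
abbrev e' : T.E := algebraMap T.k₁ T.E T.e
/-- `θ` in `E` -/
abbrev θ' : T.E := algebraMap D.K T.E T.θ

theorem star_e : star (e' T) = e' T := Quad.star_k _

theorem star_θ : star (θ' T) = -θ' T := T.i.injective (by
  change T.i _ = T.i _
  rw [StarHom.map_star, map_neg, AlgHom.commutes, star_algebraMap, T.star_θ, map_neg])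

theorem star_a (a : D.k) : star (algebraMap D.k T.E a) = algebraMap D.k T.E a := by
  rw [IsScalarTower.algebraMap_apply D.k T.k₁ T.E, Quad.star_k]

theorem σ_a (a : D.k) : T.σ (algebraMap D.k T.E a) = algebraMap D.k T.E a := by
  rw [IsScalarTower.algebraMap_apply D.k D.K T.E, AlgEquiv.commutes]

theorem σσ (c : T.E) : T.σ (T.σ c) = c := by
  obtain ⟨a₀, a₁, a₂, a₃, rfl⟩ := T.crd c
  simp only [map_add, map_mul, σ_a, T.σ_e, AlgEquiv.commutes, map_neg, neg_neg]

theorem fixE {c : T.E} (h1 : star c = c) (h2 : T.σ c = c) : ∃ a, algebraMap D.k T.E a = c := by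
  have h3 : T.σ (star c) = c := by rw [h1, h2]
  obtain ⟨a₀, a₁, a₂, a₃, rfl⟩ := T.crd c
  refine ⟨a₀, ?_⟩
  simp only [star_add, star_mul', star_a, star_e, star_θ, map_add, map_mul, σ_a, T.σ_e,
    AlgEquiv.commutes, map_neg] at h1 h2 h3
  linear_combination (1 / 4 : T.E) * (h1 + h2 + h3)

theorem θ_sq : θ' T ^ 2 = algebraMap D.k T.E T.δ := by
  rw [← map_pow, T.θθ, ← IsScalarTower.algebraMap_apply]

theorem e_sq : e' T ^ 2 = algebraMap D.k T.E T.r := by
  rw [← map_pow, sq, T.ee, ← IsScalarTower.algebraMap_apply]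

theorem freq_hom : ∃ᶠ v : Pl D.k in cofinite, Nonempty (T.E →ₐ[D.k] Kv v) := by
  refine ((freq T.E).and_eventually ((sq_ae T.E T.δ (θ_sq T)).and (sq_ae T.E T.r (e_sq T)))).mono ?_
  rintro v ⟨h, h1, h2⟩
  refine IntermediateField.nonempty_algHom_of_adjoin_splits (S := {θ' T, e' T}) ?_ ?_
  · rintro s (rfl | rfl)
    · exact ⟨Algebra.IsIntegral.isIntegral _, h1 h⟩
    · exact ⟨Algebra.IsIntegral.isIntegral _, h2 h⟩
  · rw [eq_top_iff]
    rintro c -
    obtain ⟨a₀, a₁, a₂, a₃, rfl⟩ := T.crd c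
    have m1 := IntermediateField.subset_adjoin D.k ({θ' T, e' T} : Set T.E) (a := θ' T) (by simp)
    have m2 := IntermediateField.subset_adjoin D.k ({θ' T, e' T} : Set T.E) (a := e' T) (by simp)
    have m0 := (IntermediateField.adjoin D.k ({θ' T, e' T} : Set T.E)).algebraMap_mem
    exact add_mem (add_mem (add_mem (m0 _) (mul_mem (m0 _) m1)) (mul_mem (m0 _) m2))
      (mul_mem (m0 _) (mul_mem m1 m2))

/-- `u` induces `σ` -/
def Sg (u : D.Bˣ) : Prop := ∀ c, (u : D.B) * T.i c = T.i (T.σ c) * u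

variable {T} in
theorem Sg.inv {u : D.Bˣ} (h : Sg T u) : Sg T u⁻¹ := fun c => by
  have := h (T.σ c)
  rw [σσ] at this
  rw [Units.inv_mul_eq_iff_eq_mul, ← mul_assoc, this, Units.mul_inv_cancel_right]

variable {T} in
theorem Sg.mem {u : D.Bˣ} (h : Sg T u) (x : T.C) : (u : D.B) * x * (u⁻¹ : D.Bˣ) ∈ Cz T.i :=
  Cz.mem_iff.2 fun c => by
    have h1 := h (T.σ c)
    rw [σσ] at h1
    rw [← mul_assoc, ← mul_assoc, ← h1, mul_assoc (u : D.B) _ x, Cz.mem_iff.1 x.2, mul_assoc _ _ (T.i c),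
      h.inv c]
    simp only [mul_assoc]

variable {T} in
/-- conjugation -/
def Sg.cj {u : D.Bˣ} (h : Sg T u) : T.C →ₐ[D.k] T.C where
  toFun x := ⟨_, h.mem x⟩
  map_one' := Subtype.ext (by simp)
  map_mul' x y := Subtype.ext (by simp [mul_assoc])
  map_zero' := Subtype.ext (by simp)
  map_add' x y := Subtype.ext (by simp [mul_add, add_mul])
  commutes' c := Subtype.ext (by
    change (u : D.B) * algebraMap D.k D.B c * _ = algebraMap D.k D.B c
    rw [← Algebra.commutes, Units.mul_inv_cancel_right])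

variable {T} in
theorem Sg.coe_cj {u : D.Bˣ} (h : Sg T u) (x : T.C) :
    (h.cj x : D.B) = (u : D.B) * x * (u⁻¹ : D.Bˣ) := rfl

variable {T} in
theorem Sg.cj_alg {u : D.Bˣ} (h : Sg T u) (c : T.E) :
    h.cj (algebraMap T.E T.C c) = algebraMap T.E T.C (T.σ c) := Subtype.ext (by
  rw [h.coe_cj, Cz.coe_algebraMap, Cz.coe_algebraMap, h c, Units.mul_inv_cancel_right])

instance : IsScalarTower D.k T.E T.C := IsScalarTower.of_algebraMap_eq fun c => Subtype.ext (by
  rw [Cz.coe_algebraMap, IsScalarTower.algebraMap_apply D.k D.K T.E, AlgHom.commutes,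
    ← IsScalarTower.algebraMap_apply]; rfl)

/-- descent of the reduced polynomial -/
theorem desc {u : D.Bˣ} (h : Sg T u) {th : T.C} (h1 : star th = th)
    (h2 : rch T.E (h.cj th) = rch T.E th) : ∃ P, T.HC P th := by
  have e1 := rch_star T.E th
  have e2 := rch_map (T.σ : T.E →+* T.E) (h.cj : T.C →+* T.C) h.cj_alg rfl th
  rw [h1] at e1
  have hl : rch T.E th ∈ lifts (algebraMap D.k T.E) := (lifts_iff_coeff_lifts _).2 fun j =>
    fixE T (by
      conv_rhs => rw [e1, coeff_map]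
      rfl) (by
      conv_rhs => rw [← h2.symm.trans e2 |>.symm, coeff_map]
      rfl)
  obtain ⟨P, hP⟩ := hl
  exact ⟨P, h1, by rw [Polynomial.map_map, ← IsScalarTower.algebraMap_eq]; exact hP.symm⟩

theorem main (v : Pl D.k) (ι : T.E →ₐ[D.k] Kv v) (hs : Hsm.Spl T.C (deg T.E T.C) (ι : T.E →+* Kv v)) :
    ∃ (u : D.Bˣ) (h : Sg T u) (th : T.C), star th = th ∧ rch T.E (h.cj th) = rch T.E th ∧
      (∀ i < deg T.E T.C, Valued.v (ι ((rch T.E th).coeff i)) < 1) ∧
      Valued.v (ι ((rch T.E th).coeff 0)) = exp (-1) := by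
  obtain ⟨φ, hφ⟩ := hs
  have hm := deg_pos T.E T.C
  have : Nonempty (Fin (deg T.E T.C)) := ⟨⟨0, hm⟩⟩
  have : CharZero (Kv v) := algebraRat.charZero _
  obtain ⟨u, hu⟩ := T.unit_n
  have h : Sg T u := fun c => by rw [hu]; exact T.n_i c
  have su : star (u : D.B) = -u := by rw [hu]; exact T.star_n
  have su' : star ((u⁻¹ : D.Bˣ) : D.B) = -(u⁻¹ : D.Bˣ) := by
    have := congrArg star u.mul_inv
    rw [star_mul, su, star_one, mul_neg, neg_eq_iff_eq_neg] at this
    rw [← Units.mul_inv_cancel_right (star _) u, this, neg_one_mul]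
  let ψ : T.C →ₐ[D.k] Matrix (Fin (deg T.E T.C)) (Fin (deg T.E T.C)) (Kv v) :=
    { φ with
      commutes' := fun c => by
        change φ _ = _
        rw [IsScalarTower.algebraMap_apply D.k T.E T.C, hφ]
        exact congrArg (Matrix.scalar _) (ι.commutes c) }
  let ρ : T.C →ₗ[D.k] T.C := h.inv.cj.toLinearMap ∘ₗ
    { toFun := star, map_add' := star_add
      map_smul' := fun c x => Subtype.ext (star_ksmul D.k D.K D.B c x) }
  have hρ : ∀ c, (ρ c : D.B) = (u⁻¹ : D.Bˣ) * star (c : D.B) * u := fun c => rfl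
  have hθ0 : θ' T ≠ 0 := fun h0 => T.δ.ne_zero (by
    have := θ_sq T
    rwa [h0, zero_pow two_ne_zero, eq_comm, map_eq_zero] at this)
  have he0 : e' T ≠ 0 := fun h0 => T.r.ne_zero (by
    have := e_sq T
    rwa [h0, zero_pow two_ne_zero, eq_comm, map_eq_zero] at this)
  have hd := dense_fix (v.denseRange_algebraMap D.k) ψ (span_top _ φ hφ sp_card) h.cj
    (fun x => ⟨h.inv.cj x, Subtype.ext (by simp [Sg.coe_cj, mul_assoc])⟩) ρ
    (fun c => Subtype.ext (by simp [hρ, su, su', mul_assoc]))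
    (θ := algebraMap T.E T.C (θ' T)) (θ' := algebraMap T.E T.C (θ' T)⁻¹)
    (e := algebraMap T.E T.C (e' T)) (a := ι (θ' T)) (b := ι (e' T))
    (by rw [← map_mul, mul_inv_cancel₀ hθ0, map_one])
    (fun c => by
      change h.inv.cj (star _) = -(_ * h.inv.cj (star _))
      rw [← Algebra.smul_def, star_smul, Algebra.smul_def, map_mul, Sg.cj_alg, star_inv₀, star_θ,
        map_inv₀, map_neg, AlgEquiv.commutes, inv_neg, map_neg, neg_mul])
    (by rw [Sg.cj_alg, AlgEquiv.commutes]) (hφ _) (by rw [Sg.cj_alg, T.σ_e, map_neg]) (hφ _)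
    ((_root_.map_ne_zero ι).2 he0)
  have m1 : ∀ {u : D.Bˣ}, Sg T u → (u : D.B) * u ∈ Cz T.i := fun {u} h => Cz.mem_iff.2 fun c => by
    rw [mul_assoc, h, ← mul_assoc, ← mul_assoc, h, σσ]
  let ν : T.C := ⟨_, m1 h⟩
  let ν' : T.C := ⟨_, m1 h.inv⟩
  have hν : ν' * ν = 1 := Subtype.ext (by simp [ν, ν', mul_assoc])
  obtain ⟨Y₀, hY⟩ := exists_eis v hm
  let g : Matrix _ _ (Kv v) × Matrix _ _ (Kv v) → Matrix _ _ (Kv v) := fun p => p.2 * ψ ν * p.1
  have hg : Continuous g := (continuous_snd.mul continuous_const).mul continuous_fst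
  have e0 : g (1, Y₀ * ψ ν') = Y₀ := by
    simp only [g]; rw [mul_one, mul_assoc, ← map_mul, hν, map_one, mul_one]
  rw [← e0] at hY
  obtain ⟨_, ⟨c, hc, rfl⟩, h1, h2⟩ := hd.inter_nhds_nonempty (hg.continuousAt.eventually hY)
  have hc' : star (c : D.B) = u * c * (u⁻¹ : D.Bˣ) := by
    conv_rhs => rw [← show ρ c = c from hc, hρ]
    simp [mul_assoc]
  have e1 : (g (ψ c, ψ (h.cj c))).charpoly = (rch T.E (h.cj c * ν * c)).map (ι : T.E →+* Kv v) := by
    rw [← charpoly_eq' _ φ hφ sp_card, map_mul, map_mul]; rfl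
  simp only [e1, coeff_map] at h1 h2
  refine ⟨u, h, h.cj c * ν * c, Subtype.ext ?_, ?_, h1, h2⟩
  · simp [ν, Sg.coe_cj, hc', su, su', mul_assoc]
  · rw [mul_assoc, rch_mul_comm (h.cj c)]
    congr 1
    exact Subtype.ext (by simp [ν, Sg.coe_cj, mul_assoc])

theorem th0 [Algebra ℚ D.B] : T.Th0 := by
  intro M hM W hW
  have := finite_kK D.k D.K
  obtain ⟨v, ⟨ι⟩, hv, hs⟩ := ((freq_hom T).and_eventually ((SplE.nat_ae (k := D.k) (n := M)
    (by omega)).and (SplE.spl_ae D.k (finBasis D.K D.B)))).exists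
  obtain ⟨s, hs, -⟩ := hs (ι.comp (IsScalarTower.toAlgHom D.k D.K T.E))
  obtain ⟨u, h, th, h1, h2, h3, h4⟩ := main T v ι
    (In.spl_Cz T.i _ ⟨s.ψ, fun c => by rw [s.compat, hs]; rfl⟩)
  rw [In.nr_zero] at hW
  obtain ⟨j, hj⟩ := ((In.tendsto_pow_smul (N := M) (Ring.inverse (th : D.B))).eventually hW).exists
  have hM0 : ((M : T.E) ^ j)⁻¹ ≠ 0 := by
    have : (M : T.E) ≠ 0 := Nat.cast_ne_zero.2 (by omega)
    positivity
  have hv1 : Valued.v (ι (M : T.E)) = 1 := by
    rw [map_natCast, ← map_natCast (algebraMap D.k (Kv v)), Hn.Loc.valued_algebraMap]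
    simpa using SplE.val_eq_one hv
  have hc : ∀ i, Valued.v (ι ((rch T.E (((M : T.E) ^ j)⁻¹ • th)).coeff i)) =
      Valued.v (ι ((rch T.E th).coeff i)) := fun i => by
    rw [Hsm.rch_smul hM0, coeff_C_mul, comp_C_mul_X_coeff]
    simp only [map_mul, map_pow, map_inv₀, hv1, one_pow, inv_one, one_mul, mul_one]
  obtain ⟨P, hP⟩ := desc T h (th := ((M : T.E) ^ j)⁻¹ • th) (by simp [h1]) (by
    rw [Algebra.smul_def, map_mul, Sg.cj_alg, ← Algebra.smul_def, ← Algebra.smul_def, map_inv₀,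
      map_pow, map_natCast, Hsm.rch_smul hM0, Hsm.rch_smul hM0, h2])
  have e1 : rch T.E (((M : T.E) ^ j)⁻¹ • th) = P.map (algebraMap D.k T.E) := by
    rw [hP.2, Polynomial.map_map, ← IsScalarTower.algebraMap_eq]
  have e2 : ∀ i, v.valuation D.k (P.coeff i) = Valued.v (ι ((rch T.E th).coeff i)) := fun i => by
    rw [← hc, e1, coeff_map, SplE.val_iota_alg]
  refine ⟨v, hv, ⟨ι⟩, P, _, ⟨?_, fun i hi => ?_, (e2 0).trans h4⟩, hP, ?_⟩
  · exact (algebraMap D.k T.E).injective.monic_map_iff.2 (e1 ▸ rch_monic _ _)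
  · rw [e2]
    refine h3 i ?_
    rwa [← rch_natDegree (((M : T.E) ^ j)⁻¹ • th), e1, natDegree_map]
  · have e3 : Ring.inverse (T.i ((M : T.E) ^ j)⁻¹) = T.i ((M : T.E) ^ j) :=
      Opn.inverse_eq (hM0.isUnit.map T.i) (by
        rw [← map_mul, mul_inv_cancel₀ (by simpa using hM0), map_one])
    rw [Algebra.smul_def, map_pow, map_natCast] at hj
    rw [Cz.coe_smul, Cz.mem_iff.1 th.2, Ring.mul_inverse_rev' (Cz.mem_iff.1 th.2 _).symm, e3,
      map_pow, map_natCast]
    exact hj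

end Tow

end Th62

theorem eisStmt62 : EisStmt.{u, v} := by
  rintro k _ _ v P ⟨h1, h2, h3⟩ hd L _ _ ⟨ι⟩
  have hv : ∀ a : k, (Valued.v.comap (ι : L →+* Kv v)) (algebraMap k L a) = v.valuation k a :=
    fun a => (congrArg Valued.v (ι.commutes a)).trans (Hn.Loc.valued_algebraMap v a)
  refine Th62.irred (Valued.v.comap (ι : L →+* Kv v)) (h1.map _) (by rwa [natDegree_map]) ?_ ?_
  · intro j hj
    rw [coeff_map, hv]
    exact h2 j (by rwa [natDegree_map] at hj)
  · rw [coeff_map, hv, h3]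

theorem th0Stmt : Th0Stmt.{u, v, w} := fun _ _ T => Th62.th0 T

end Crest.Agent.T24.Evn
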