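import Crest.Agent.T24.InG_71
import Crest.Agent.T24.InNear_23
import Crest.Agent.T24.HsmE_23

/-! Row 24 (helper23): the germ filter in valuation words; interpolation with approximation of
the element at `N` and at infinity. -/

set_option autoImplicit false

noncomputable section

open scoped Topology
open Module Polynomial NumberField Filter
open Crest.Agent.T24.Csa Crest.Agent.T24.Asa Crest.Agent.T24.Hsm

namespace Crest.Agent.T24.In

universe u v w

theorem basis_na {K : Type u} [Field K] [NumberField K] {B : Type v} [AddCommGroup B]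
    [Module K B] {ι : Type w} [Finite ι] (e : Basis ι K B) (a : B) :
    (na a).HasBasis (fun ε : ℝ => 0 < ε) fun ε =>
      {x | ∀ (φ : K →+* ℂ) i, ‖φ (e.repr (x - a) i)‖ < ε} := by
  have := Fintype.ofFinite ι
  let g : B →+ ι → (K →+* ℂ) → ℂ := AddMonoidHom.pi fun i =>
    (canonicalEmbedding K).toAddMonoidHom.comp (e.coord i).toAddMonoidHom
  have h : na a = comap g (𝓝 (g a)) := by
    refine le_antisymm (na_real g a).le_comap (tendsto_id'.1 (tendsto_na.2 fun ψ => ?_))
    let L (y : ι → (K →+* ℂ) → ℂ) : ℝ := ∑ i, ∑ j,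
      ((canonicalEmbedding.latticeBasis K).coord j (y i)).re * ψ (integralBasis K j • e i)
    have hL : Continuous L := continuous_finsetSum _ fun i _ => continuous_finsetSum _ fun j _ =>
      (Complex.continuous_re.comp ((LinearMap.continuous_of_finiteDimensional _).comp
        (continuous_apply i))).mul continuous_const
    have h1 (x : B) : ψ x = L (g x) := by
      conv_lhs => rw [← e.sum_repr x, map_sum]
      refine Finset.sum_congr rfl fun i _ => ?_
      let χ : K →+ ℝ := ψ.comp (LinearMap.toSpanSingleton K B (e i)).toAddMonoidHom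
      change χ (e.repr x i) = _
      conv_lhs => rw [← (integralBasis K).sum_repr (e.repr x i), map_sum]
      refine Finset.sum_congr rfl fun j _ => ?_
      rw [map_rat_smul, Rat.smul_def]
      congr 1
      exact ((congrArg Complex.re (canonicalEmbedding.integralBasis_repr_apply K
        (e.repr x i) j)).trans (Complex.ratCast_re _)).symm
    rw [h1 a]
    exact ((hL.tendsto _).comp tendsto_comap).congr fun x => (h1 x).symm
  rw [h]
  refine (Metric.nhds_basis_ball.comap g).congr (fun _ => Iff.rfl) fun ε hε => Set.ext fun x => ?_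
  simp only [Set.mem_preimage, Metric.mem_ball, dist_eq_norm, ← map_sub, pi_norm_lt_iff hε]
  exact forall_comm

theorem valG : ValG.{u, v, w} := fun _ hN _ _ _ _ _ _ _ _ _ e a =>
  ((N23.basis_val e (by omega) a).inf (basis_na e a)).congr (fun _ => (true_and _).to_iff)
    fun _ _ => rfl

theorem nearG : NearG.{u, v} := by
  intro N hN K _ _ B _ _ _ _ _ _ hS y₀ hy U hU
  have h0 : N ≠ 0 := by omega
  obtain ⟨⟨m, δ⟩, hδ, hm⟩ := (valG N hN K B _ (Module.finBasis K B) y₀).mem_iff.1 hU
  obtain ⟨m', ε, hε, h⟩ := near_inf (finrank_eq_deg_sq K B) (N23.finite_N h0).toFinset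
    (fun v hv => hS v (by simpa using hv)) hy (Module.finBasis K B) m hδ
  refine ⟨_, (valG N hN K K _ (Basis.singleton Unit K) 0).mem_of_mem (i := (m', ε)) hε,
    fun P h1 h2 h3 => ?_⟩
  obtain ⟨-, z, h5, h6, h7⟩ := h P h1 h2
    (fun v hv i _ => by simpa using (h3 i).1 v (by simpa using hv) ())
    (fun w i _ => by
      rw [← w.norm_embedding_eq]; simpa [-map_sub] using (h3 i).2 w.embedding ())
  exact ⟨z, hm ⟨fun v hv => h6 v (by simpa using hv), fun φ => h7 (InfinitePlace.mk φ)⟩, h5⟩

end Crest.Agent.T24.In
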