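import Crest.Agent.T24.Pow_53

/-!
# Row 24 (helper53): `ContU`, the version of `Cont` for the unitary group
-/

set_option autoImplicit false
set_option linter.unusedSectionVars false

noncomputable section

namespace Crest.Agent.T24

open Module NumberField IsDedekindDomain WithZero Csa Asa Polynomial
open scoped commutatorElement IntermediateField

universe u v w

/-- conjugation acts trivially on deep unitary elements modulo `[Um m, Um m]` -/
def ContU (K : Type*) [Field K] [NumberField K] [StarRing K] (B : Type*) [Ring B] [StarRing B]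
    [Algebra K B] [StarModule K B] [Algebra.IsCentral K B] [IsSimpleRing B]
    [FiniteDimensional K B] : Prop :=
  ∀ m : ℕ, ∃ m' : ℕ, ∀ u : unitary B, ∀ g ∈ Um K B m', u * g * u⁻¹ * g⁻¹ ∈ ⁅Um K B m, Um K B m⁆

def ContUStmt : Prop := ∀ D : Dat.{u, v, w}, 2 ≤ deg D.K D.B → ContU D.K D.B

namespace P53

section Val
variable {K : Type*} [Field K] [NumberField K] [StarRing K] {B : Type*} [Ring B] [StarRing B]
  [Algebra K B] [StarModule K B] [Algebra.IsCentral K B] [IsSimpleRing B] [FiniteDimensional K B]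

/-- one element -/
theorem contU_one (hT : (TT K B).Finite) (hC : Cof K B) {w₀ : Pl K} (hw₀ : w₀ ∈ TT K B) (m : ℕ)
    (u : unitary B) : ∃ m', ∀ g ∈ Um K B m', u * g * u⁻¹ * g⁻¹ ∈ ⁅Um K B m, Um K B m⁆ := by
  have hB : ∀ x : B, x ≠ 0 → IsUnit x := fun x hx => isUnit_of_ultra hw₀.2 hx
  by_cases hu : (u : B) + 1 = 0
  · refine ⟨0, fun g _ => ?_⟩
    have : u * g = g * u := Subtype.ext (by
      rw [Submonoid.coe_mul, Submonoid.coe_mul, eq_neg_of_add_eq_zero_left hu]; simp)
    rw [this]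
    simp
  obtain ⟨y₀, ⟨-, hy₀⟩, q, hq, hc⟩ := exists_gen hB (relIndex_SUm hT hC m) u hu
  have hx₀ := hB _ hu
  have hs₀ : IsUnit (star ((u : B) + 1)) := hx₀.star
  obtain ⟨m₁, h₁⟩ := aeval_cont' hT q hx₀ m
  obtain ⟨m₂, h₂⟩ := aeval_cont' hT (q.map (starRingEnd K)) hs₀ m
  refine ⟨max m (max m₁ m₂), fun g hg => ?_⟩
  have hgm : g ∈ Um K B m := Um_anti (le_max_left _ _) hg
  set y := y₀ * g with hy
  have hym : y ∈ Um K B m := mul_mem hy₀ hgm
  have v1 : ∀ z ∈ Um K B m, ∀ w ∈ TT K B, val w (z : B) = 1 :=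
    fun z hz _ hw => Deep.val_eq_one hz hw
  have d1 : ∀ w ∈ TT K B, val w ((y : B) - y₀) < exp (-((max m (max m₁ m₂) : ℕ) : ℤ)) := by
    intro w hw
    have : (y : B) - y₀ = y₀ * ((g : B) - 1) := by rw [hy, mul_sub, mul_one]; rfl
    rw [this, val_mul, v1 _ hy₀ w hw, one_mul]
    exact hg w hw
  have d2 : ∀ w ∈ TT K B,
      val w (star (y : B) - star (y₀ : B)) < exp (-((max m (max m₁ m₂) : ℕ) : ℤ)) := by
    intro w hw
    have : star (y : B) - star (y₀ : B) = (((g⁻¹ : unitary B) : B) - 1) * (y₀⁻¹ : unitary B) := by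
      rw [hy, sub_mul, one_mul, Submonoid.coe_mul, star_mul]; rfl
    rw [this, val_mul, v1 _ (inv_mem hy₀) w hw, mul_one]
    exact inv_mem hg w hw
  set x := aeval (y : B) q with hx
  have e1 : Ring.inverse ((u : B) + 1) * x ∈ Deep K B m := deep_of_near hx₀ fun w hw => by
    rw [← hq] at h₁ ⊢
    exact h₁ w hw _ _ (v1 _ hym w hw).le (v1 _ hy₀ w hw).le
      ((d1 w hw).trans_le (exp_neg_anti ((le_max_left _ _).trans (le_max_right _ _))))
  have e2 : Ring.inverse (star ((u : B) + 1)) * star x ∈ Deep K B m :=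
    deep_of_near hs₀ fun w hw => by
      have := h₂ w hw (star (y : B)) (star (y₀ : B)) (v1 _ (inv_mem hym) w hw).le
        (v1 _ (inv_mem hy₀) w hw).le
        ((d2 w hw).trans_le (exp_neg_anti ((le_max_right _ _).trans (le_max_right _ _))))
      rwa [← star_aeval, ← star_aeval, hq] at this
  have hxu : IsUnit x := by
    refine hB _ fun h => ?_
    have := Deep.val_eq_one e1 hw₀
    rw [h, mul_zero, val_zero] at this
    exact zero_ne_one this
  have cy : Commute (y : B) (star (y : B)) := y.2.2.trans y.2.1.symm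
  have ca : ∀ (z : B) (p : K[X]) (b : B), Commute b z → Commute b (aeval z p) := fun z p b h =>
    Algebra.commute_of_mem_adjoin_singleton_of_commute (aeval_mem_adjoin_singleton K z) h
  have c1 : Commute (y : B) x := ca _ _ _ (Commute.refl _)
  have c2 : Commute (y : B) (star x) := by rw [hx, star_aeval]; exact ca _ _ _ cy
  have c3 : Commute x (star x) := by
    rw [hx, star_aeval]; exact ca _ _ _ (ca _ _ _ cy.symm).symm
  obtain ⟨v, hv⟩ := hxu
  let u' : unitary B := ⟨_, unitary_of_normal v (by rw [hv]; exact c3.eq)⟩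
  have hu' : star x * (u' : B) = x := by
    change star x * (star ((v⁻¹ : Bˣ) : B) * v) = x
    rw [← mul_assoc, ← star_mul, ← hv, v.inv_mul, star_one, one_mul]
  have hsx : IsUnit (star x) := (hv ▸ v.isUnit : IsUnit x).star
  have c4 : Commute u' y := Subtype.ext (hsx.mul_left_cancel (by
    change star x * ((u' : B) * y) = star x * ((y : B) * u')
    rw [← mul_assoc, hu', ← mul_assoc, ← c2.eq, mul_assoc, hu', c1.eq]))
  have hsu : star ((u : B) + 1) * u = u + 1 := by
    rw [star_add, star_one, add_mul, u.2.1, one_mul, add_comm]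
  have hd : u⁻¹ * u' ∈ Um K B m := by
    -- `u⁻¹ u' = (u⁻¹ A⁻¹ u) (x₀⁻¹ x)` with `A = (star x₀)⁻¹ star x`
    have f1 : Ring.inverse (star x) * star ((u : B) + 1) ∈ Deep K B m := Deep.inv e2 (by
      rw [mul_assoc, Ring.mul_inverse_cancel_left _ _ hs₀, Ring.inverse_mul_cancel _ hsx])
    have f2 := (Deep K B m).mul_mem (Deep.conj f1 (g := star (u : B)) (g' := (u : B)) u.2.1) e1
    have f3 : Ring.inverse (star x) * x = u' := by
      rw [← Ring.inverse_mul_cancel_left (star x) (u' : B) hsx, hu']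
    rw [mul_assoc _ _ (u : B), mul_assoc _ _ (u : B), hsu, mul_assoc, mul_assoc,
      Ring.mul_inverse_cancel_left _ _ hx₀, f3] at f2
    exact f2
  have hn : (⁅Um K B m, Um K B m⁆ : Subgroup (unitary B)).Normal := inferInstance
  have k1 := hn.conj_mem _ (Subgroup.commutator_mem_commutator (inv_mem hd) hym) u'
  have k2 := hn.conj_mem _ k1 y₀⁻¹
  have k3 : u' * ⁅(u⁻¹ * u')⁻¹, y⁆ * u'⁻¹ = u * y * u⁻¹ * (u' * y⁻¹ * u'⁻¹) := by
    rw [commutatorElement_def]; group
  have k4 : u' * y⁻¹ * u'⁻¹ = y⁻¹ := by rw [c4.inv_right.eq, mul_inv_cancel_right]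
  rw [k3, k4, hy, ← mul_assoc u, hc.eq] at k2
  convert k2 using 1
  group

theorem contU (hT : (TT K B).Finite) (hC : Cof K B) : ContU K B := by
  intro m
  by_cases hw : ∃ w, w ∈ TT K B
  swap
  · exact ⟨m, fun u g hg => Subgroup.commutator_mem_commutator
      (show u ∈ Um K B m from fun w h => absurd ⟨w, h⟩ hw) hg⟩
  obtain ⟨w₀, hw₀⟩ := hw
  have hn : (⁅Um K B m, Um K B m⁆ : Subgroup (unitary B)).Normal := inferInstance
  let H : ℕ → Subgroup (unitary B) := fun n =>
    { carrier := {u | ∀ g ∈ Um K B n, u * g * u⁻¹ * g⁻¹ ∈ ⁅Um K B m, Um K B m⁆}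
      one_mem' := fun g _ => by simp
      mul_mem' := fun {a b} ha hb g hg => by
        convert mul_mem (hn.conj_mem _ (hb g hg) a) (ha g hg) using 1
        group
      inv_mem' := fun {a} ha g hg => by
        convert hn.conj_mem _ (inv_mem (ha g hg)) a⁻¹ using 1
        group }
  have hmono : Monotone H := fun i j hij u hu g hg => hu g (Um_anti hij hg)
  have hall : ∀ u, ∃ n, u ∈ H n := contU_one hT hC hw₀ m
  have hUm : Um K B m ≤ H m := fun u hu g hg => Subgroup.commutator_mem_commutator hu hg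
  obtain ⟨m₁, h₁⟩ : ∃ m₁, U0 K B ≤ H m₁ := by
    obtain ⟨A, _, f, hf⟩ := fin_cls hT hC m
    have : ∀ a : A, ∃ n, ∀ x ∈ U0 K B, f x = a → x ∈ H n := fun a => by
      by_cases h : ∃ x ∈ U0 K B, f x = a
      · obtain ⟨x, hx, rfl⟩ := h
        obtain ⟨n, hn⟩ := hall x
        refine ⟨max n m, fun y hy e => ?_⟩
        have := mul_mem (hmono (le_max_left n m) hn)
          (hmono (le_max_right n m) (hUm (hf x hx y hy e.symm)))
        rwa [mul_inv_cancel_left] at this
      · exact ⟨0, fun x hx e => absurd ⟨x, hx, e⟩ h⟩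
    choose n hn using this
    obtain ⟨M, hM⟩ := (Set.finite_range n).bddAbove
    exact ⟨M, fun x hx => hmono (hM ⟨_, rfl⟩) (hn _ x hx rfl)⟩
  have := hT.to_subtype
  let ν : unitary B → TT K B → ℤ := fun u w => log (val w.1 (u : B))
  have ν_mul : ∀ a b, ν (a * b) = ν a + ν b := fun a b => funext fun w => by
    simp only [ν, Submonoid.coe_mul, val_mul, Pi.add_apply]
    exact log_mul (val_unitary _ a) (val_unitary _ b)
  have ν_one : ν 1 = 0 := funext fun w => by simp [ν]
  have ν_inv : ∀ a, ν a⁻¹ = -ν a := fun a =>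
    eq_neg_of_add_eq_zero_left (by rw [← ν_mul, inv_mul_cancel, ν_one])
  let Λ : ℕ → AddSubgroup (TT K B → ℤ) := fun n =>
    { carrier := ν '' H n
      zero_mem' := ⟨1, one_mem _, ν_one⟩
      add_mem' := by
        rintro _ _ ⟨a, ha, rfl⟩ ⟨b, hb, rfl⟩
        exact ⟨a * b, mul_mem ha hb, ν_mul a b⟩
      neg_mem' := by
        rintro _ ⟨a, ha, rfl⟩
        exact ⟨a⁻¹, inv_mem ha, ν_inv a⟩ }
  obtain ⟨n, hn'⟩ := monotone_stabilizes_iff_noetherian.2
    (inferInstance : IsNoetherian ℤ (TT K B → ℤ))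
    ⟨fun n => (Λ n).toIntSubmodule, fun i j hij _ ⟨a, ha, e⟩ => ⟨a, hmono hij ha, e⟩⟩
  refine ⟨max n m₁, fun u => ?_⟩
  obtain ⟨j, hj⟩ := hall u
  have h2 : ν u ∈ (Λ (max n j)).toIntSubmodule := ⟨u, hmono (le_max_right n j) hj, rfl⟩
  have h3 : (Λ n).toIntSubmodule = (Λ (max n j)).toIntSubmodule := hn' _ (le_max_left n j)
  rw [← h3] at h2
  obtain ⟨a, ha, e⟩ := h2
  have h4 : a⁻¹ * u ∈ U0 K B := fun w hw => by
    have h5 := congrFun (ν_mul a⁻¹ u) ⟨w, hw⟩
    rw [ν_inv, e, neg_add_cancel] at h5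
    rw [← exp_log (val_unitary w (a⁻¹ * u))]
    exact (congrArg exp h5).trans exp_zero
  have := mul_mem (hmono (le_max_left n m₁) ha) (hmono (le_max_right n m₁) (h₁ h4))
  rwa [mul_inv_cancel_left] at this

end Val

end P53

theorem contUStmt (hV : ValStmt.{u, v, w}) (hC : CofStmt.{u, v, w}) : ContUStmt.{u, v, w} :=
  fun D hd => P53.contU (hV D hd).1 (hC D)

end Crest.Agent.T24
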