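import Mathlib

/-!
# Row 24 (helper43): stability, the algebra (tetrahedron identity, two tetrahedra)
-/

set_option autoImplicit false

namespace Crest.Agent.T24.Stab

open Ring

variable {B : Type*} [Ring B] [StarRing B]

/-- the quasi-reflection attached to `x + x* = z* z` -/
noncomputable def rho (x z : B) : B := 1 - z * inverse x * star z

omit [StarRing B] in
theorem inv_eq {x y : B} (hx : IsUnit x) (h : x * y = 1) : inverse x = y := by
  rw [← mul_one (inverse x), ← h, ← mul_assoc, inverse_mul_cancel x hx, one_mul]

omit [StarRing B] in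
theorem comm_inv {x y : B} (hx : IsUnit x) (h : Commute x y) : Commute (inverse x) y := by
  obtain ⟨u, rfl⟩ := hx
  rw [inverse_unit]; exact h.units_inv_left

theorem star_rho (x z : B) : star (rho x z) = 1 - z * inverse (star x) * star z := by
  simp only [rho, star_sub, star_one, star_mul, star_star, Ring.inverse_star, mul_assoc]

theorem rho_mem {x z : B} (hx : IsUnit x) (h : x + star x = star z * z) : rho x z ∈ unitary B := by
  have h1 := mul_inverse_cancel x hx
  have h2 := inverse_mul_cancel x hx
  have h3 := mul_inverse_cancel _ hx.star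
  have h4 := inverse_mul_cancel _ hx.star
  rw [Unitary.mem_iff, star_rho, rho]
  set a := inverse x
  set b := inverse (star x)
  constructor
  · linear_combination (norm := noncomm_ring)
      z * (h4 * a) * star z + z * (b * h1) * star z - z * b * h * a * star z
  · linear_combination (norm := noncomm_ring)
      z * (h2 * b) * star z + z * (a * h3) * star z - z * a * h * b * star z

theorem rho_conj {u : B} (hu : u ∈ unitary B) (x z : B) :
    rho x (u * z) = u * rho x z * star u := by
  have h := (Unitary.mem_iff.1 hu).2
  rw [rho, rho, star_mul]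
  linear_combination (norm := noncomm_ring) -h

theorem rho_mul {x z : B} (hx : IsUnit x) (h : x + star x = star z * z) :
    rho x z * z = -(z * (inverse x * star x)) := by
  have h2 := inverse_mul_cancel x hx
  rw [rho]
  linear_combination (norm := noncomm_ring) z * inverse x * h - z * h2

/-- the third face -/
def xx (x g z p : B) : B := x + g + star z * p
/-- the fourth face -/
noncomputable def yy (x g z p : B) : B := x * inverse (star g) * star (xx x g z p)
/-- its vector -/
noncomputable def ze (x g z p : B) : B := z + p * inverse g * star x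

theorem h_xx {x g z p : B} (hx : x + star x = star z * z) (hg : g + star g = star p * p) :
    xx x g z p + star (xx x g z p) = star (z + p) * (z + p) := by
  simp only [xx, star_add, star_mul, star_star]
  linear_combination (norm := noncomm_ring) hx + hg

theorem h_yy {x g z p : B} (ug : IsUnit g) (hx : x + star x = star z * z)
    (hg : g + star g = star p * p) :
    yy x g z p + star (yy x g z p) = star (ze x g z p) * ze x g z p := by
  have h1 := mul_inverse_cancel g ug
  have h4 := inverse_mul_cancel _ ug.star
  rw [Ring.inverse_star] at h4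
  simp only [yy, ze, xx, star_mul, star_star, Ring.inverse_star, star_add]
  set a := inverse g
  linear_combination (norm := noncomm_ring)
    hx + x * star a * hg * a * star x + x * h4 + h1 * star x - x * star a * h1 * star x
      - x * h4 * a * star x

theorem isUnit_yy {x g z p : B} (ux : IsUnit x) (ug : IsUnit g) (uX : IsUnit (xx x g z p)) :
    IsUnit (yy x g z p) := (ux.mul ug.star.ringInverse).mul uX.star

/-- the tetrahedron identity -/
theorem tet {x g z p : B} (ux : IsUnit x) (ug : IsUnit g) (uX : IsUnit (xx x g z p))
    (hx : x + star x = star z * z) (hg : g + star g = star p * p) :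
    rho x z = rho (xx x g z p) (z + p) * star (rho g p) * rho (yy x g z p) (ze x g z p) := by
  have hX := h_xx hx hg
  have e : star z * p = xx x g z p - x - g := by rw [xx]; abel
  have e' : star p * z = star (xx x g z p) - star x - star g := by
    simp only [xx, star_add, star_mul, star_star]; abel
  have g1 := mul_inverse_cancel g ug
  have g2 := inverse_mul_cancel g ug
  have g3 := mul_inverse_cancel _ ug.star
  have g4 := inverse_mul_cancel _ ug.star
  have x1 := mul_inverse_cancel x ux
  have x2 := inverse_mul_cancel x ux
  have X2 := inverse_mul_cancel _ uX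
  have X3 := mul_inverse_cancel _ uX.star
  have X4 := inverse_mul_cancel _ uX.star
  have hY : inverse (yy x g z p) = inverse (star (xx x g z p)) * star g * inverse x := by
    refine inv_eq (isUnit_yy ux ug uX) ?_
    rw [yy]
    linear_combination (norm := noncomm_ring)
      x * inverse (star g) * X3 * star g * inverse x + x * g4 * inverse x + x1
  have hz : star (ze x g z p) = star z + x * inverse (star g) * star p := by
    simp only [ze, star_add, star_mul, star_star, Ring.inverse_star, mul_assoc]
  rw [star_rho, rho, rho, rho, hY, hz, ze, star_add]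
  rw [star_add] at hX
  set X := xx x g z p
  set a := inverse g
  set b := inverse (star g)
  set c := inverse x
  set A := inverse X
  set A' := inverse (star X)
  have s1 : (1 - p * b * star p) * (z + p * a * star x) = z + p - p * b * star X := by
    linear_combination (norm := noncomm_ring)
      -(p * b * e') + p * b * hg * a * star x + p * g4 - p * b * g1 * star x - p * g4 * a * star x
  have s2 : (1 - (z + p) * A * (star z + star p)) * p =
      -(z - (z + p) * A * x) - (z + p) * A * star g := by
    linear_combination (norm := noncomm_ring) -((z + p) * A * e) + (z + p) * A * hg - (z + p) * X2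
  have s3 : (1 - (z + p) * A * (star z + star p)) * (z + p - p * b * star X) =
      (z - (z + p) * A * x) * b * star X := by
    linear_combination (norm := noncomm_ring)
      (z + p) * A * hX - (z + p) * X2 - s2 * b * star X + (z + p) * A * g3 * star X
  have s4 : (z - (z + p) * A * x) * b * star X * (A' * star g * c) = z * c - (z + p) * A := by
    linear_combination (norm := noncomm_ring)
      (z - (z + p) * A * x) * b * X3 * star g * c + (z - (z + p) * A * x) * g4 * c - (z + p) * A * x1
  linear_combination (norm := noncomm_ring)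
    (1 - (z + p) * A * (star z + star p)) * s1 * (A' * star g * c) * (star z + x * b * star p)
      + s3 * (A' * star g * c) * (star z + x * b * star p) + s4 * (star z + x * b * star p)
      + s2 * b * star p - (z + p) * A * g3 * star p + z * x2 * b * star p

/-- a conjugation invariant character `f` on a normal subgroup `D` of the unitary group -/
structure Ch {A : Type*} [CommGroup A] (D : B → Prop) (f : B → A) : Prop where
  un : ∀ x, D x → x ∈ unitary B
  mul : ∀ x y, D x → D y → D (x * y)
  inv : ∀ x, D x → D (star x)
  conj : ∀ u x, u ∈ unitary B → D x → D (u * x * star u)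
  f_mul : ∀ x y, D x → D y → f (x * y) = f x * f y
  f_conj : ∀ u x, u ∈ unitary B → D x → f (u * x * star u) = f x

variable {A : Type*} [CommGroup A] {D : B → Prop} {f : B → A}

theorem Ch.f_star (h : Ch D f) {x : B} (hx : D x) : f (star x) = (f x)⁻¹ := by
  have h1 := (Unitary.mem_iff.1 (h.un x hx)).1
  have h2 := h.f_mul _ _ (h.inv x hx) hx
  have h3 := h.mul _ _ (h.inv x hx) hx
  rw [h1] at h2 h3
  have h4 := h.f_mul 1 1 h3 h3
  rw [mul_one, left_eq_mul] at h4
  rw [eq_inv_iff_mul_eq_one, ← h2, h4]

/-- one tetrahedron -/
theorem Ch.tet (h : Ch D f) {x g z p : B} (ux : IsUnit x) (ug : IsUnit g)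
    (uX : IsUnit (xx x g z p)) (hx : x + star x = star z * z) (hg : g + star g = star p * p)
    (d1 : D (rho x z)) (d2 : D (rho (xx x g z p) (z + p))) (d3 : D (rho g p)) :
    D (rho (yy x g z p) (ze x g z p)) ∧
      f (rho (yy x g z p) (ze x g z p)) * f (rho (xx x g z p) (z + p)) = f (rho x z) * f (rho g p) := by
  have e := Stab.tet ux ug uX hx hg
  have u2 := (Unitary.mem_iff.1 (h.un _ d2)).1
  have u3 := (Unitary.mem_iff.1 (h.un _ d3)).2
  have e' : rho (yy x g z p) (ze x g z p) = rho g p * (star (rho (xx x g z p) (z + p)) * rho x z) := by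
    rw [e]
    linear_combination (norm := noncomm_ring) -(u3 * rho (yy x g z p) (ze x g z p)) -
      rho g p * u2 * star (rho g p) * rho (yy x g z p) (ze x g z p)
  have d4 := h.mul _ _ (h.inv _ d2) d1
  rw [e']
  refine ⟨h.mul _ _ d3 d4, ?_⟩
  rw [h.f_mul _ _ d3 d4, h.f_mul _ _ (h.inv _ d2) d1, h.f_star d2, mul_assoc, mul_right_comm,
    inv_mul_cancel, one_mul, mul_comm]

theorem mem_of_eq {p q : B} (up : IsUnit p) (uq : IsUnit q) (h : star p * p = star q * q) :
    q * inverse p ∈ unitary B := by
  have h1 := mul_inverse_cancel p up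
  have h4 := inverse_mul_cancel _ up.star
  have e : star (q * inverse p) * (q * inverse p) = 1 := by
    rw [star_mul, ← Ring.inverse_star]
    linear_combination (norm := noncomm_ring)
      -(inverse (star p) * h * inverse p) + h4 * p * inverse p + h1
  exact (uq.mul up.ringInverse).mem_unitary_of_star_mul_self e

variable {K : Type*} [Field K] [StarRing K] [Algebra K B] [StarModule K B]

omit [StarRing B] [StarRing K] [StarModule K B] in
theorem isUnit_smul {c : K} (hc : c ≠ 0) {y : B} (uy : IsUnit y) : IsUnit (c • y) := by
  rw [Algebra.smul_def]; exact ((IsUnit.mk0 c hc).map _).mul uy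

omit [StarRing B] [StarRing K] [StarModule K B] in
theorem inv_smul {c : K} (hc : c ≠ 0) {y : B} (uy : IsUnit y) :
    inverse (c • y) = c⁻¹ • inverse y :=
  inv_eq (isUnit_smul hc uy) (by
    rw [smul_mul_smul_comm, mul_inv_cancel₀ hc, mul_inverse_cancel y uy, one_smul])

/-- scaling: `rho (c y) (κ ζ) = (c*/c) κ (rho y ζ) κ⁻¹` -/
theorem rho_smul {c : K} (hc : c ≠ 0) {y ζ κ : B} (uy : IsUnit y) (uζ : IsUnit ζ)
    (hy : y + star y = star ζ * ζ) (hc' : c • y + star (c • y) = star (κ * ζ) * (κ * ζ)) :
    rho (c • y) (κ * ζ) * κ = (star c / c) • (κ * rho y ζ) := by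
  refine uζ.mul_right_cancel ?_
  rw [mul_assoc, rho_mul (isUnit_smul hc uy) hc', smul_mul_assoc, mul_assoc κ (rho y ζ),
    rho_mul uy hy, inv_smul hc uy, star_smul, smul_mul_smul_comm, mul_smul_comm, mul_neg, smul_neg,
    mul_assoc, div_eq_inv_mul]

theorem yy_smul {c : K} (hc : c ≠ 0) {x g z p q : B} (ug : IsUnit g)
    (hz : g + star z * p = c • g + star z * q) :
    xx x (c • g) z q = xx x g z p ∧ yy x (c • g) z q = (star c)⁻¹ • yy x g z p := by
  have e : xx x (c • g) z q = xx x g z p := by rw [xx, xx, add_assoc, add_assoc, hz]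
  refine ⟨e, ?_⟩
  rw [yy, yy, e, star_smul, inv_smul (star_ne_zero.2 hc) ug.star, mul_smul_comm, smul_mul_assoc]

/-- the comparison element `κ = ζ' ζ⁻¹` -/
noncomputable def ka (c : K) (x g z p q : B) : B := ze x (c • g) z q * inverse (ze x g z p)

/-- the hermitian element that has to be a norm -/
noncomputable def el (c : K) (x g z p q : B) : B := star (ka c x g z p q) * ka c x g z p q

/-- `el` is a rational function of the holonomy `t = rho y ζ`: `el (1 - t) = c*⁻¹ - c⁻¹ t` -/
theorem el_mul {c : K} (hc : c ≠ 0) {x g z p q : B} (ux : IsUnit x) (ug : IsUnit g)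
    (uX : IsUnit (xx x g z p)) (hx : x + star x = star z * z) (hg : g + star g = star p * p)
    (hq : c • g + star (c • g) = star q * q) (hz : g + star z * p = c • g + star z * q)
    (uζ : IsUnit (ze x g z p)) : Commute (el c x g z p q) (rho (yy x g z p) (ze x g z p)) := by
  have hy := h_yy ug hx hg
  have hy' := h_yy (isUnit_smul hc ug) hx hq
  have uy := isUnit_yy ux ug uX
  rw [(yy_smul hc ug hz).2, star_smul, star_inv₀, star_star] at hy'
  have h1 := mul_inverse_cancel _ uζ
  have h2 := inverse_mul_cancel _ uζ
  have h3 := mul_inverse_cancel _ uζ.star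
  have h4 := inverse_mul_cancel _ uζ.star
  have y1 := mul_inverse_cancel _ uy
  have y2 := inverse_mul_cancel _ uy
  have hr := rho_mul uy hy
  have e : el c x g z p q = inverse (star (ze x g z p)) *
      ((star c)⁻¹ • yy x g z p + c⁻¹ • star (yy x g z p)) * inverse (ze x g z p) := by
    rw [el, ka, star_mul, ← Ring.inverse_star, hy']; noncomm_ring
  set y := yy x g z p
  set ζ := ze x g z p
  set t := rho y ζ
  set a := inverse ζ
  set b := inverse (star ζ)
  set i := inverse y
  have ht : 1 - t = ζ * i * star ζ := by simp only [t, rho, i, sub_sub_cancel]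
  -- `b y a` is the inverse of `1 - t`, and `b y* a = 1 - b y a`
  have k1 : b * star y * a = 1 - b * y * a := by
    linear_combination (norm := noncomm_ring) b * hy * a + h4 * ζ * a + h1
  have k2 : Commute (b * y * a) (1 - t) := by
    rw [Commute, SemiconjBy, ht]
    linear_combination (norm := noncomm_ring) b * y * h2 * i * star ζ + b * y1 * star ζ + h4 -
      ζ * i * h3 * y * a - ζ * y2 * a - h1
  have k3 : Commute (b * y * a) t := by simpa using (Commute.one_right (b * y * a)).sub_right k2
  rw [e, mul_add, add_mul, mul_smul_comm, mul_smul_comm, smul_mul_assoc, smul_mul_assoc, k1]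
  exact (k3.smul_left _).add_left (((Commute.one_left t).sub_left k3).smul_left _)

/-- two tetrahedra -/
theorem Ch.two (h : Ch D f) {c : K} (hc : c ≠ 0) {x g z p q μ : B} (ux : IsUnit x) (ug : IsUnit g)
    (uX : IsUnit (xx x g z p)) (hx : x + star x = star z * z) (hg : g + star g = star p * p)
    (hq : c • g + star (c • g) = star q * q) (hz : g + star z * p = c • g + star z * q)
    (up : IsUnit (z + p)) (uq : IsUnit (z + q)) (uζ : IsUnit (ze x g z p))
    (uζ' : IsUnit (ze x (c • g) z q)) (uμ : IsUnit μ) (hμ : star μ * μ = el c x g z p q)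
    (cμ : Commute μ (rho (yy x g z p) (ze x g z p))) (d1 : D (rho x z))
    (d2 : D (rho (xx x g z p) (z + p))) (d3 : D (rho g p)) (dc : D (algebraMap K B (star c / c))) :
    D (rho (c • g) q) ∧ f (rho (c • g) q) = f (algebraMap K B (star c / c)) * f (rho g p) := by
  obtain ⟨e1, e2⟩ := yy_smul (x := x) hc ug hz
  have ug' := isUnit_smul hc ug
  have uX' : IsUnit (xx x (c • g) z q) := e1 ▸ uX
  obtain ⟨d4, t1⟩ := h.tet ux ug uX hx hg d1 d2 d3
  have hu := mem_of_eq up uq (by rw [← h_xx hx hg, ← h_xx hx hq, e1])
  have r2 : rho (xx x (c • g) z q) (z + q) = (z + q) * inverse (z + p) *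
      rho (xx x g z p) (z + p) * star ((z + q) * inverse (z + p)) := by
    rw [← rho_conj hu, e1, mul_assoc, inverse_mul_cancel _ up, mul_one]
  have uκ : IsUnit (ka c x g z p q) := uζ'.mul uζ.ringInverse
  have kz : ka c x g z p q * ze x g z p = ze x (c • g) z q := by
    rw [ka, mul_assoc, inverse_mul_cancel _ uζ, mul_one]
  have hv := mem_of_eq uμ uκ hμ
  have r4 : rho (yy x (c • g) z q) (ze x (c • g) z q) = algebraMap K B (star c / c) *
      (ka c x g z p q * inverse μ * rho (yy x g z p) (ze x g z p) *
        star (ka c x g z p q * inverse μ)) := by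
    have := rho_smul (inv_ne_zero (star_ne_zero.2 hc)) (κ := ka c x g z p q) (isUnit_yy ux ug uX) uζ
      (h_yy ug hx hg) (by rw [kz, ← e2]; exact h_yy ug' hx hq)
    rw [kz, ← e2, star_inv₀, star_star, inv_div_inv] at this
    refine (uκ.mul uμ.ringInverse).mul_right_cancel ?_
    rw [← mul_assoc, this, ← Algebra.smul_def, smul_mul_assoc, smul_mul_assoc, mul_assoc _ (star _),
      (Unitary.mem_iff.1 hv).1, mul_one, mul_assoc, mul_assoc, (comm_inv uμ cμ).eq]
  have d2' : D (rho (xx x (c • g) z q) (z + q)) := r2 ▸ h.conj _ _ hu d2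
  have d4' : D (rho (yy x (c • g) z q) (ze x (c • g) z q)) := r4 ▸ h.mul _ _ dc (h.conj _ _ hv d4)
  have d3' : D (rho (c • g) q) := by
    have e := Stab.tet ux ug' uX' hx hq
    have u1 := (Unitary.mem_iff.1 (h.un _ d1)).1
    have u3 := (Unitary.mem_iff.1 (rho_mem ug' hq)).1
    have u4 := (Unitary.mem_iff.1 (h.un _ d4')).2
    have : rho (c • g) q = rho (yy x (c • g) z q) (ze x (c • g) z q) * (star (rho x z) *
        rho (xx x (c • g) z q) (z + q)) := by
      have u2 := (Unitary.mem_iff.1 (h.un _ d2')).1
      have e' := congrArg star e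
      rw [star_mul, star_mul, star_star] at e'
      rw [e']
      linear_combination (norm := noncomm_ring) -(u4 * rho (c • g) q *
        star (rho (xx x (c • g) z q) (z + q)) * rho (xx x (c • g) z q) (z + q)) - rho (c • g) q * u2
    rw [this]; exact h.mul _ _ d4' (h.mul _ _ (h.inv _ d1) d2')
  obtain ⟨-, t2⟩ := h.tet ux ug' uX' hx hq d1 d2' d3'
  rw [r4, r2, h.f_mul _ _ dc (h.conj _ _ hv d4), h.f_conj _ _ hv d4, h.f_conj _ _ hu d2, mul_assoc,
    t1, mul_left_comm] at t2
  exact ⟨d3', (mul_left_cancel t2).symm⟩

end Crest.Agent.T24.Stab
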