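import Crest.Agent.T24.EvA_20
import Crest.Agent.T24.InNearG_23
import Crest.Agent.T24.PowU_53
import Crest.Agent.T24.LocG_59
import Crest.Agent.T24.StabA_43

/-! Row 24, HOL step H8: from the germ statement to the central step in odd degree (helper56). -/

set_option autoImplicit false
set_option linter.unusedSectionVars false

noncomputable section

namespace Crest.Agent.T24.HolZ

open Module NumberField IsDedekindDomain WithZero Csa Asa Filter In Ev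
open scoped NumberField commutatorElement

universe u v w

theorem exists_chr {G : Type*} [Group G] [Countable G] (N : Subgroup G)
    (hc : ∀ x y, x * y * x⁻¹ * y⁻¹ ∈ N) (M : ℕ) : ∃ (A : Type) (_ : CommGroup A) (χ : G →* A),
      (∀ a : A, a ^ M = 1) ∧ ∀ x, χ x = 1 ↔ ∃ y, (y ^ M)⁻¹ * x ∈ N := by
  have : N.Normal := ⟨fun n hn g => by simpa using N.mul_mem (hc g n) hn⟩
  let _ : CommGroup (G ⧸ N) :=
    { QuotientGroup.Quotient.group N with
      mul_comm := fun a b => by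
        obtain ⟨a, rfl⟩ := QuotientGroup.mk_surjective a
        obtain ⟨b, rfl⟩ := QuotientGroup.mk_surjective b
        exact QuotientGroup.eq.2 (by simpa [mul_assoc] using hc b⁻¹ a⁻¹) }
  let P := (powMonoidHom M : G ⧸ N →* G ⧸ N).range
  have : Countable ((G ⧸ N) ⧸ P) := ((QuotientGroup.mk'_surjective P).comp
    (QuotientGroup.mk'_surjective N)).countable
  let e : Shrink.{0} ((G ⧸ N) ⧸ P) ≃* (G ⧸ N) ⧸ P := Shrink.mulEquiv
  refine ⟨_, inferInstance, e.symm.toMonoidHom.comp ((QuotientGroup.mk' P).comp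
    (QuotientGroup.mk' N)), fun a => e.injective ?_, fun x => ?_⟩
  · obtain ⟨b, hb⟩ := QuotientGroup.mk'_surjective P (e a)
    rw [map_pow, map_one, ← hb, ← map_pow]
    exact (QuotientGroup.eq_one_iff _).2 ⟨b, rfl⟩
  refine (map_eq_one_iff e.symm e.symm.injective).trans ((QuotientGroup.eq_one_iff _).trans
    ⟨fun ⟨y, hy⟩ => ?_, fun ⟨y, hy⟩ => ⟨y, QuotientGroup.eq.2 hy⟩⟩)
  obtain ⟨y, rfl⟩ := QuotientGroup.mk_surjective y
  exact ⟨y, QuotientGroup.eq.1 hy⟩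

theorem exists_tors (K : Type*) [Field K] [NumberField K] :
    ∃ r : ℕ, r ≠ 0 ∧ ∀ (c : K) (n : ℕ), n ≠ 0 → c ^ n = 1 → c ^ r = 1 := by
  have h : {c : K | IsOfFinOrder c}.Finite := (Embeddings.finite_of_norm_le K ℂ 1).subset
    fun c hc => by
      obtain ⟨n, h0, hn⟩ := isOfFinOrder_iff_pow_eq_one.1 hc
      refine ⟨IsIntegral.of_pow h0 (hn ▸ isIntegral_one), fun φ => ?_⟩
      exact (pow_le_one_iff_of_nonneg (norm_nonneg _) h0.ne').1 (by rw [← norm_pow, ← map_pow, hn]; simp)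
  refine ⟨∏ c ∈ h.toFinset, orderOf c, Finset.prod_ne_zero_iff.2 fun c hc =>
    (h.mem_toFinset.1 hc).orderOf_pos.ne', fun c n h0 hn => orderOf_dvd_iff_pow_eq_one.1 ?_⟩
  exact Finset.dvd_prod_of_mem _ (h.mem_toFinset.2
    (isOfFinOrder_iff_pow_eq_one.2 ⟨n, Nat.pos_of_ne_zero h0, hn⟩))

theorem exists_N {K : Type*} [Field K] [NumberField K] {T : Set (Pl K)} (h : T.Finite) :
    ∃ N : ℕ, 2 ≤ N ∧ ∀ v ∈ T, (N : 𝓞 K) ∈ v.asIdeal := by
  refine ⟨2 * ∏ v ∈ h.toFinset, Ideal.absNorm v.asIdeal, ?_, fun v hv => ?_⟩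
  · have : 0 < ∏ v ∈ h.toFinset, Ideal.absNorm v.asIdeal := Finset.prod_pos fun v _ =>
      Nat.pos_of_ne_zero (Ideal.absNorm_eq_zero_iff.not.2 v.ne_bot)
    omega
  · obtain ⟨c, hc⟩ := Finset.dvd_prod_of_mem (fun v : Pl K => Ideal.absNorm v.asIdeal)
      (h.mem_toFinset.2 hv)
    rw [hc, Nat.cast_mul, Nat.cast_mul]
    exact Ideal.mul_mem_left _ _ (Ideal.mul_mem_right _ _ (Ideal.absNorm_mem _))

section Words
variable (K : Type*) [Field K] [NumberField K] [StarRing K] (B : Type*) [Ring B] [StarRing B]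
  [Algebra K B] [StarModule K B] [Algebra.IsCentral K B] [IsSimpleRing B] [FiniteDimensional K B]

/-- the output of the holonomy step -/
def Hol : Prop := ∀ [Algebra ℚ B] (A : Type) [CommGroup A] (n : ℕ), n ≠ 0 → (∀ a : A, a ^ n = 1) →
  ∀ (m : ℕ) (f : B → A), Stab.Ch (fun x => x ∈ unitary B ∧ x ∈ Deep K B m) f →
    ∃ N : ℕ, 2 ≤ N ∧ ∀ᶠ x in ng N (1 : B), x ∈ unitary B → Nrd K x = 1 → f x = 1

/-- the Heisenberg step -/
def Heis : Prop := ∀ (m : ℕ) (N : Subgroup (unitary B)), N ≤ SU K B → N.relIndex (SU K B) ≠ 0 →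
  (∀ u : unitary B, ∀ g ∈ SUm K B m, u * g * u⁻¹ * g⁻¹ ∈ N) →
  ∃ m₁, ∀ x ∈ Um K B m₁, ∀ y ∈ Um K B m₁, x * y * x⁻¹ * y⁻¹ ∈ N

variable {K B}

/-- near `1` means deep -/
theorem deep_nr [Algebra ℚ B] (hC : Cof K B) {N : ℕ} (hN : N ≠ 0)
    (hT : ∀ w ∈ TT K B, (N : 𝓞 K) ∈ w.asIdeal) (m : ℕ) : ∀ᶠ x in nr N (1 : B), x ∈ Deep K B m := by
  have h := (N23.finite_N hN).subset hT
  refine ((eventually_all_finite h).2 fun w hw => ?_).mono fun x hx => hx
  obtain ⟨m', hm⟩ := (hC w hw.2 (finBasis K B) m).1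
  filter_upwards [(N23.basis_val (finBasis K B) hN (1 : B)).mem_of_mem (i := m') trivial] with x hx
  exact hm _ (hx w (hT w hw))

theorem normal_of (N : Subgroup (unitary B)) (h : GUInv K N) : N.Normal :=
  ⟨fun n hn g => h (Unitary.toUnits g) 1 (by simp) n hn _ (by simp)⟩

theorem nc_of (hP : Pow K B) {N : Subgroup (unitary B)} [hn : N.Normal] (h1 : N ≤ SU K B)
    (h2 : N.relIndex (SU K B) ≠ 0) : NC K N := by
  obtain ⟨-, x, hx, g, hg, h⟩ := hP 0 _ h2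
  exact ⟨h1, fun g _ x hx => hn.conj_mem x hx g, _, N.pow_relIndex_mem hx.1, g, hg, h⟩

/-- the invariant character -/
theorem exists_ch {N : Subgroup (unitary B)} [N.Normal] (h1 : N ≤ SU K B)
    (h2 : N.relIndex (SU K B) ≠ 0) {m : ℕ} (h : ∀ u, ∀ g ∈ Um K B m, u * g * u⁻¹ * g⁻¹ ∈ N) :
    ∃ (A : Type) (_ : CommGroup A) (n : ℕ) (f : B → A), n ≠ 0 ∧ (∀ a : A, a ^ n = 1) ∧
      Stab.Ch (fun x => x ∈ unitary B ∧ x ∈ Deep K B m) f ∧
      ∀ g ∈ SUm K B m, f (g : B) = 1 → g ∈ N := by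
  classical
  have : Countable K := Finsupp.Countable.of_moduleFinite (R := ℚ)
  have : Countable B := Finsupp.Countable.of_moduleFinite (R := K)
  obtain ⟨r, h0, hr⟩ := exists_tors K
  have hM := mul_ne_zero h0 h2
  obtain ⟨A, _, χ, h3, h4⟩ := exists_chr (N.subgroupOf (Um K B m)) (fun x y => h x y y.2)
    (r * N.relIndex (SU K B))
  let f : B → A := fun x => if h : x ∈ unitary B ∧ x ∈ Deep K B m then χ ⟨⟨x, h.1⟩, h.2⟩ else 1
  have hf : ∀ g : Um K B m, f ((g : unitary B) : B) = χ g := fun g => dif_pos ⟨g.1.2, g.2⟩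
  refine ⟨A, _, _, f, hM, h3, ⟨fun _ h => h.1, fun x y hx hy => ⟨mul_mem hx.1 hy.1, mul_mem hx.2 hy.2⟩,
    fun x hx => ⟨Unitary.star_mem hx.1, Deep.inv hx.2 hx.1.1⟩, fun u x hu hx => ⟨mul_mem
      (mul_mem hu hx.1) (Unitary.star_mem hu), Deep.conj hx.2 hu.2⟩, fun x y hx hy => ?_,
    fun u x hu hx => ?_⟩, fun g hg h5 => ?_⟩
  · exact (hf (⟨⟨x, hx.1⟩, hx.2⟩ * ⟨⟨y, hy.1⟩, hy.2⟩)).trans (by
      rw [map_mul, ← hf, ← hf])
  · let U : unitary B := ⟨u, hu⟩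
    let X : Um K B m := ⟨⟨x, hx.1⟩, hx.2⟩
    let Y : Um K B m := ⟨U * X * U⁻¹, (inferInstance : (Um K B m).Normal).conj_mem _ X.2 U⟩
    refine (hf Y).trans (Eq.trans ?_ (hf X).symm)
    rw [← mul_inv_eq_one, ← map_inv, ← map_mul, h4]
    exact ⟨1, by simpa [Subgroup.mem_subgroupOf] using h U X X.2⟩
  · obtain ⟨y, hy⟩ := (h4 ⟨g, hg.2⟩).1 ((hf _).symm.trans h5)
    replace hy : ((y : unitary B) ^ (r * N.relIndex (SU K B)))⁻¹ * g ∈ N := hy
    have h6 := (SU K B).inv_mem ((SU K B).mul_mem (h1 hy) ((SU K B).inv_mem hg.1))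
    rw [mul_inv_cancel_right, inv_inv, mem_SU, SubmonoidClass.coe_pow, map_pow] at h6
    have h7 : (y : unitary B) ^ r ∈ SU K B := by
      rw [mem_SU, SubmonoidClass.coe_pow, map_pow]; exact hr _ _ hM h6
    simpa [← pow_mul] using N.mul_mem (N.pow_relIndex_mem h7) hy

end Words

section Glob
variable (k K B : Type*) [Field k] [NumberField k] [Field K] [NumberField K] [Algebra k K]
  [StarRing K] [Quad k K] [Ring B] [StarRing B] [Algebra K B] [StarModule K B]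
  [Algebra.IsCentral K B] [IsSimpleRing B] [FiniteDimensional K B] [Algebra k B]
  [IsScalarTower k K B]

theorem ng_basis [Algebra ℚ B] {N : ℕ} (hN : N ≠ 0) (a : B) :
    (ng N a).HasBasis (fun p : ℕ × ℝ => True ∧ 0 < p.2) fun p => {x | ∀ v : Pl k,
      (N : 𝓞 k) ∈ v.asIdeal → ∀ i, v.valuation k ((eb k K B).repr (x - a) i) ≤ exp (-(p.1 : ℤ))} ∩
      {x | ∀ (φ : k →+* ℂ) i, ‖φ ((eb k K B).repr (x - a) i)‖ < p.2} :=
  (N23.basis_val (eb k K B) hN a).inf (basis_na (eb k K B) a)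

/-- the bridge between the two filters -/
theorem nb_le_ng [Algebra ℚ B] {N : ℕ} (hN : N ≠ 0) {S : Finset (Pl k)}
    (hS : ∀ v : Pl k, (N : 𝓞 k) ∈ v.asIdeal → v ∈ S) (a : B) : nb k K B S a ≤ ng N a := by
  refine (ng_basis k K B hN a).ge_iff.2 fun p hp => inter_mem ?_ ?_
  · refine ((eventually_all_finite (N23.finite_N hN)).2 fun v hv => eventually_all.2 fun i =>
      ?_).mono fun x hx => hx
    simpa using ev_val (nb_lin (tendsto_id (x := nb k K B S a)) ((eb k K B).coord i)) (hS v hv) p.1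
  · refine eventually_all.2 fun φ => eventually_all.2 fun i => ?_
    simpa [InfinitePlace.apply, -map_sub, ← Finsupp.sub_apply, ← map_sub] using
      ev_inf (nb_lin (tendsto_id (x := nb k K B S a)) ((eb k K B).coord i)) (InfinitePlace.mk φ) hp.2

theorem ng_le_nb [Algebra ℚ B] {N : ℕ} (hN : N ≠ 0) {S : Finset (Pl k)}
    (hS : ∀ v ∈ S, (N : 𝓞 k) ∈ v.asIdeal) (a : B) : ng N a ≤ nb k K B S a := by
  refine tendsto_id'.1 (nb_of_repr (eb k K B) fun i =>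
    nbk_of_val (fun w ε hε => ?_) fun v hv m => ?_)
  · filter_upwards [(ng_basis k K B hN a).mem_of_mem (i := (0, ε)) ⟨trivial, hε⟩] with x hx
    simpa [← InfinitePlace.norm_embedding_eq, -map_sub, ← Finsupp.sub_apply, ← map_sub] using
      hx.2 w.embedding i
  · filter_upwards [(ng_basis k K B hN a).mem_of_mem (i := (m, 1)) ⟨trivial, one_pos⟩] with x hx
    simpa using hx.1 v (hS v hv) i

variable {k K B}

/-- a non-central normal subgroup containing the elements of `SU` near `1` is congruence -/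
theorem le_of_near (hW : WaN k K B) {N : Subgroup (unitary B)} (hN : NC K N) {S : Finset (Pl k)}
    (h : ∀ᶠ x in nb k K B S 1, ∀ g ∈ SU K B, (g : B) = x → g ∈ N) : ∃ m, SUm K B m ≤ N := by
  obtain ⟨m, hm⟩ := hW N hN
  refine ⟨m, fun g hg => ?_⟩
  have h1 := nb_mul (nb_const (star (g : B))) (tendsto_id (x := nb k K B S (g : B)))
  rw [g.2.1] at h1
  obtain ⟨U, hU, h2⟩ := mem_nb.1 (h1 h)
  obtain ⟨n, hn, h3⟩ := hm S g (fun _ => g) hg.1 (fun _ => hg.1) (fun _ _ _ => hg) U hU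
  have h4 := h2 _ h3 (g⁻¹ * n) (mul_mem (inv_mem hg.1) (hN.le hn)) rfl
  simpa using mul_mem hn (inv_mem h4)

theorem cenU_of (hd : 2 ≤ deg K B) (hV : Val K B) (hC : Cof K B) (hH : Heis K B) (hW : WaN k K B)
    (hZ : Hol K B) : CenU K B := by
  classical
  intro m N h1 h2 h3 h4
  let _ : Algebra ℚ B := ((algebraMap K B).comp (algebraMap ℚ K)).toAlgebra'
    fun c x => Algebra.commutes _ x
  have := normal_of N h3
  obtain ⟨m₁, h5⟩ := hH m N h1 h2 h4
  obtain ⟨m₂, h6⟩ := P53.contU hV.1 hC m₁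
  obtain ⟨A, _, n, f, h7, h8, h9, h10⟩ := exists_ch h1 h2 (m := m₂) fun u g hg =>
    Subgroup.commutator_le.2 h5 (h6 u g hg)
  obtain ⟨N₁, hN₁, h11⟩ := hZ A n h7 h8 m₂ f h9
  obtain ⟨N₀, hN₀, h12⟩ := exists_N hV.1
  have e₀ : N₀ ≠ 0 := by omega
  have e₁ : N₁ ≠ 0 := by omega
  let S := (N23.finite_N (K := k) e₀).toFinset ∪ (N23.finite_N (K := k) e₁).toFinset
  refine le_of_near hW (nc_of (P53.pow (Quad.ne (k := k)) hd hV.1 hC) h1 h2) (S := S) ?_
  filter_upwards [nb_le_ng k K B e₁ (S := S) (fun v hv => by simp [S, hv]) 1 h11,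
    nb_le_ng k K B e₀ (S := S) (fun v hv => by simp [S, hv]) 1
      (ng_le_nr 1 (deep_nr hC e₀ h12 m₂))] with x h13 h14
  rintro g hg rfl
  exact h10 g ⟨hg, h14⟩ (h13 g.2 hg)

end Glob

def HolStmt : Prop := ∀ D : Dat.{u, v, w}, 3 ≤ deg D.K D.B → Odd (deg D.K D.B) → Hol D.K D.B
def HeisStmt : Prop := ∀ D : Dat.{u, v, w}, 3 ≤ deg D.K D.B → Aniso D.B → Heis D.K D.B

theorem cenOdd_of (hH : HeisStmt.{u, v, w}) (hW : WaNStmt.{u, v, w}) (hZ : HolStmt.{u, v, w}) :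
    CenOddStmt.{u, v, w} := fun D hd ha ho =>
  cenU_of (by omega) (Loc.valStmt D (by omega)) (Loc.cofStmt D) (hH D hd ha) (hW D hd ha) (hZ D hd ho)

end Crest.Agent.T24.HolZ
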