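import Crest.Agent.T24.HeisD_83
import Crest.Agent.T24.EmbL_22
import Crest.Agent.T24.HolZ_56

/-! Row 24, HEIS: deep unitary elements commute modulo `N` (odd degree). -/

set_option autoImplicit false
set_option linter.unusedSectionVars false

noncomputable section

namespace Crest.Agent.T24.Heis

open Module NumberField IsDedekindDomain WithZero Csa Asa Filter Topology Polynomial
open scoped NumberField Valued

universe u v w

section
variable (k K B : Type*) [Field k] [NumberField k] [Field K] [NumberField K] [Algebra k K]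
  [StarRing K] [Quad k K] [Ring B] [StarRing B] [Algebra K B] [StarModule K B]
  [Algebra.IsCentral K B] [IsSimpleRing B] [FiniteDimensional K B] [Algebra k B]
  [IsScalarTower k K B]

include k in
theorem embN : EmbN K B := by
  intro a ha hs
  have hfix : ∀ c : K, star c = c → ∃ x : k, algebraMap k K x = c := fun c hc =>
    exists_of_star_eq Quad.fr Quad.star_k (Quad.ne (k := k)) hc
  obtain ⟨P₀, -, -, h₀⟩ := exists_rch_herm (K := K) hfix ha
  obtain ⟨S, h⟩ := Emb.embNear k K B
  obtain ⟨m, ε, hε, h⟩ := h P₀ a ⟨ha, h₀.symm⟩ ((separable_map (algebraMap k K)).1 (h₀ ▸ hs)) S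
    (fun _ => Set.univ) (fun _ => Set.univ) subset_rfl (fun _ _ => univ_mem) fun _ => univ_mem
  have hV : ∀ᶠ c in nb (0 : K), (∀ v ∈ S, ∀ x : k, algebraMap k K x = c →
      v.valuation k x ≤ exp (-(m : ℤ))) ∧ ∀ ψ : K →+* ℂ, ab (.inr ψ) (c - 0) < ε := by
    refine .and ((eventually_all_finset S).2 fun v _ => ?_) (eventually_all.2 fun ψ =>
      (cv_nb 0 _ trivial).eventually (gt_mem_nhds hε))
    obtain ⟨w, rfl⟩ := exists_over (K := K) k v
    obtain ⟨e, -, he⟩ := val_below (k := k) w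
    filter_upwards [(cv_nb (0 : K)).ev_val (w := w) trivial
      (pow_ne_zero e (exp_ne_zero (a := -(m : ℤ))))] with c hc
    rintro x rfl
    rw [sub_zero, he] at hc
    exact (lt_of_pow_lt_pow_left₀ e zero_le hc).le
  refine ⟨_, hV, fun P h1 h2 h3 h4 h5 => ?_⟩
  obtain ⟨Q, rfl⟩ := exists_map_of_star hfix h3
  have hQ : Q.Monic := monic_of_injective (algebraMap k K).injective h1
  have h6 : ∀ j, algebraMap k K (Q.coeff j - P₀.coeff j) ∈ {c | (∀ v ∈ S, ∀ x : k,
      algebraMap k K x = c → v.valuation k x ≤ exp (-(m : ℤ))) ∧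
      ∀ ψ : K →+* ℂ, ab (.inr ψ) (c - 0) < ε} := fun j => by
    rw [map_sub, ← coeff_map, ← coeff_map, h₀]
    rcases lt_trichotomy j (deg K B) with hj | rfl | hj
    · exact h5 j hj
    · convert mem_of_nb hV
      rw [sub_eq_zero]
      exact (h2 ▸ h1.coeff_natDegree).trans
        (rch_natDegree (K := K) a ▸ (rch_monic K a).coeff_natDegree).symm
    · rw [coeff_eq_zero_of_natDegree_lt (h2 ▸ hj),
        coeff_eq_zero_of_natDegree_lt ((rch_natDegree (K := K) a).symm ▸ hj), sub_zero]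
      exact mem_of_nb hV
  obtain ⟨th, h7, -⟩ := h Q hQ (hQ.irreducible_of_irreducible_map _ _ h4)
    ((natDegree_map (algebraMap k K)).symm.trans h2) (fun v hv i => (h6 i).1 v hv _ rfl)
    fun φ i => by
      have := (h6 i).2 (ComplexEmbedding.lift K (Complex.ofRealHom.comp φ))
      rwa [sub_zero, ab_inr, ComplexEmbedding.lift_algebraMap_apply, RingHom.comp_apply,
        Complex.ofRealHom_eq_coe, Complex.norm_real, Real.norm_eq_abs] at this
  exact ⟨th, h7⟩

include k in
/-- **HEIS** -/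
theorem heis' (hd : 3 ≤ deg K B) (ho : Odd (deg K B)) (m : ℕ) : ∃ m₁ : ℕ,
    ∀ N : Subgroup (unitary B), (∀ u : unitary B, ∀ g ∈ SUm K B m, u * g * u⁻¹ * g⁻¹ ∈ N) →
      ∀ x ∈ Um K B m₁, ∀ y ∈ Um K B m₁, x * y * x⁻¹ * y⁻¹ ∈ N := by
  obtain ⟨m₁, h1, h2⟩ := ((lp_all (K := K) (B := B) k (by omega) ho m).and
    (eventually_ge_atTop m)).exists
  refine ⟨m₁, fun N H x hx y hy => Hy.heis k H (Loc.finite_TT (by omega)) (embN k K B) (eisEx k) hd
    (Um_anti h2 hx) (Um_anti h2 hy) fun p => ?_⟩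
  convert h1 ![x, y] (Fin.forall_fin_two.2 ⟨hx, hy⟩) p using 1
  exact funext (Fin.forall_fin_two.2 ⟨rfl, rfl⟩)

include k in
theorem heis (hd : 3 ≤ deg K B) (ho : Odd (deg K B)) : HolZ.Heis K B := fun m N _ _ H =>
  (heis' k K B hd ho m).imp fun _ h => h N H

end

/-- the central step in odd degree from weak approximation and holonomy -/
theorem cenOddStmt_of (hW : Ev.WaNStmt.{u, v, w}) (hZ : HolZ.HolStmt.{u, v, w}) :
    CenOddStmt.{u, v, w} := fun D hd ha ho =>
  HolZ.cenU_of (by omega) (Loc.valStmt D (by omega)) (Loc.cofStmt D) (heis D.k D.K D.B hd ho)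
    (hW D hd ha) (hZ D hd ho)

end Crest.Agent.T24.Heis
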