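import Crest.Agent.T24.InG_71
import Crest.Agent.T24.Def_26

/-!
# Row 24, HOL, leaf H4 (helper80): words
-/

set_option autoImplicit false

namespace Crest.Agent.T24.H80

open Filter NumberField Asa In Csa WithZero Finset

universe u v

section

variable (K : Type*) {B : Type*} [Field K] [NumberField K] [StarRing K] [Ring B] [StarRing B]
  [Algebra K B] [FiniteDimensional K B]

/-- good interpolation nodes for `b` at the non-split places over `p` -/
def Nod (p : ℕ) (V : Set K) (b : B) : Prop := ∀ (c : K) (m : ℕ), ∃ κ : Fin (deg K B) → K,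
  Function.Injective κ ∧ ∀ j, κ j ∈ V ∧ star (κ j) * κ j = 1 ∧ κ j ≠ 1 ∧
    IsUnit (algebraMap K B (κ j) - b) ∧ ∀ w : Pl K, (p : 𝓞 K) ∈ w.asIdeal → ¬ Split w →
      w.valuation K (c * ((rch K b).eval (κ j) / ∏ i ∈ univ.erase j, (κ j - κ i)) / (1 - κ j)) ≤
        exp (-(m : ℤ))

/-- an edge -/
def Ed (N p : ℕ) (g h : B) : Prop :=
  ∀ V ∈ ng N (1 : K), Nod K p V (star h * g) ∧ Nod K p V (star g * h)

end

/-- chains of edges between any two unitary elements -/
def ChainStmt : Prop := ∀ (K : Type u) [Field K] [NumberField K] [StarRing K] (B : Type v) [Ring B]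
  [StarRing B] [Algebra K B] [StarModule K B] [Algebra ℚ B] [Algebra.IsCentral K B] [IsSimpleRing B]
  [FiniteDimensional K B], (∃ c : K, star c ≠ c) → 3 ≤ deg K B → ∀ N p : ℕ, 2 ≤ N → p.Prime →
  ¬ p ∣ N → ∀ g g' : unitary B, ∃ M₀ : ℕ, ∀ M, M₀ ≤ M → ∀ (a a' : ℕ → unitary B) (W W' : ℕ → Set B),
    (∀ t, W t ∈ ng N (a t : B) ∧ W' t ∈ ng N (a' t : B)) → ∃ z : ℕ → unitary B, z 0 = g ∧
      z (M + 1) = g' ∧ (∀ t, 0 < t → t ≤ M → (z t : B) ∈ W t) ∧ ∀ t ≤ M, Submodule.span K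
        {h | h ∈ unitary B ∧ h ∈ W' t ∧ Ed K N p (z t : B) h ∧ Ed K N p (z (t + 1) : B) h} = ⊤

/-- unitary elements near a unitary element span -/
def Span0Stmt : Prop := ∀ (K : Type u) [Field K] [NumberField K] [StarRing K] (B : Type v) [Ring B]
  [StarRing B] [Algebra K B] [StarModule K B] [Algebra ℚ B] [FiniteDimensional K B],
  (∃ c : K, star c ≠ c) → ∀ N : ℕ, 2 ≤ N → ∀ (a : unitary B), ∀ W ∈ ng N (a : B),
    Submodule.span K {h | h ∈ unitary B ∧ h ∈ W} = ⊤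

/-- infinitely many elements of norm one near `1` -/
def Nodes0Stmt : Prop := ∀ (K : Type u) [Field K] [NumberField K] [StarRing K],
  (∃ c : K, star c ≠ c) → ∀ N : ℕ, 2 ≤ N → ∀ V ∈ ng N (1 : K),
    {κ | κ ∈ V ∧ star κ * κ = 1}.Infinite

end Crest.Agent.T24.H80
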