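import Crest.Agent.T24.HolCB_25
import Crest.Agent.T24.HolPDef_80

/-!
# Row 24, HOL, leaf H5 (helper25): CONST
-/

set_option autoImplicit false

namespace Crest.Agent.T24.HolC

open Filter NumberField Asa In

universe u v w

theorem nd_of_nod {K B : Type*} [Field K] [NumberField K] [StarRing K] [Ring B] [Algebra K B]
    [Algebra.IsCentral K B] [IsSimpleRing B] [FiniteDimensional K B] {q : ℕ} {V : Set K} {b : B}
    (h : H80.Nod K q V b) : Nd K q (V ∩ {w | star w * w = 1}) b := fun c => by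
  obtain ⟨κ, h1, h2⟩ := h c 0
  exact ⟨κ, h1, fun j => ⟨⟨(h2 j).1, (h2 j).2.1⟩, (h2 j).2.2.1, fun w a b => by
    simpa [be] using (h2 j).2.2.2.2 w a b⟩⟩

theorem constStmt (hI : IdealStmt.{u}) (hc : H80.ChainStmt.{u, v}) (hs : H80.Span0Stmt.{u, v})
    (hn : H80.Nodes0Stmt.{u}) : ConstStmt.{u, v, w} := by
  intro K _ _ _ B _ _ _ _ _ _ _ _ hne hd N hN A _ o y₀ R H
  refine H.const hN (hn K hne N hN) (hI K hne N hN) (fun a W hW => ?_) fun q hq hqN V hV g g' => ?_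
  · rw [← hs K B hne N hN a W hW]; congr 1; ext x; exact and_comm
  obtain ⟨M₀, h⟩ := hc K B hne hd N q hN hq hqN g g'
  refine ⟨M₀, fun M hM a a' W W' hW => ?_⟩
  obtain ⟨z, h1, h2, h3, h4⟩ := h M hM a a' W W' hW
  refine ⟨z, h1, h2, h3, fun t ht => eq_top_iff.2 ((h4 t ht).ge.trans (Submodule.span_mono ?_))⟩
  exact fun x hx => ⟨⟨hx.2.1, hx.1⟩, nd_of_nod (hx.2.2.1 V hV).2, nd_of_nod (hx.2.2.2 V hV).2⟩

end Crest.Agent.T24.HolC
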