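import Mathlib

/-!
# Row 24, inner step: germs of bimultiplicative pairings (helper54), abstract part
-/

set_option autoImplicit false

namespace Crest.Agent.T24.In.G54

open Filter

variable {B M A : Type*} [MonoidWithZero B] [CommMonoid M] [CommGroup A]

/-- a filter of "neighbourhoods of `1`" -/
structure Nb (l : Filter B) : Prop where
  one : ∀ U ∈ l, (1 : B) ∈ U
  mul : Tendsto (fun p : B × B => p.1 * p.2) (l ×ˢ l) l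
  inv : Tendsto (Ring.inverse : B → B) l l
  unit : ∀ᶠ x in l, IsUnit x

theorem ex2 {α : Type*} {l : Filter α} {p : α × α → Prop} (h : ∀ᶠ x in l ×ˢ l, p x) :
    ∃ U ∈ l, ∀ x ∈ U, ∀ y ∈ U, p (x, y) := by
  obtain ⟨U, hU, V, hV, h⟩ := mem_prod_iff.1 h
  exact ⟨U ∩ V, inter_mem hU hV, fun x hx y hy => h (Set.mk_mem_prod hx.1 hy.2)⟩

theorem ex3 {α : Type*} {l : Filter α} {p : α × α × α → Prop} (h : ∀ᶠ x in l ×ˢ l ×ˢ l, p x) :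
    ∃ U ∈ l, ∀ x ∈ U, ∀ y ∈ U, ∀ z ∈ U, p (x, y, z) := by
  obtain ⟨U, hU, V, hV, h⟩ := mem_prod_iff.1 h
  obtain ⟨T, hT, h'⟩ := ex2 (p := (· ∈ V)) hV
  exact ⟨U ∩ T, inter_mem hU hT, fun x hx y hy z hz =>
    h (Set.mk_mem_prod hx.1 (h' y hy.2 z hz.2))⟩

/-- the pairing depends only on the norms; a shifted pairing can be unshifted -/
theorem core {l : Filter B} (hl : Nb l) (ν : B →* M) (be : B → B → A)
    (h1 : ∀ᶠ p : B × B × B in l ×ˢ l ×ˢ l,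
      be (p.1 * p.2.1) p.2.2 = be p.1 p.2.2 * be p.2.1 p.2.2 ∧
      be p.2.2 (p.1 * p.2.1) = be p.2.2 p.1 * be p.2.2 p.2.1)
    (h2 : ∀ᶠ p : B × B in l ×ˢ l, Commute p.1 p.2 ∨ ν p.1 = 1 ∨ ν p.2 = 1 → be p.1 p.2 = 1) :
    ∃ U ∈ l, ∀ x₀ ∈ U, ∀ z₀ ∈ U, ∀ S : Set B, S ⊆ U → (1 : B) ∈ S →
      (∀ x ∈ S, ∀ z ∈ S, ∃ X ∈ U, ∃ Z ∈ U, Commute X Z ∧ ν X = ν x * ν x₀ ∧ ν Z = ν z * ν z₀) →
      ∀ x ∈ S, ∀ z ∈ S, be x z = 1 := by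
  obtain ⟨U₁, hU₁, r1⟩ := ex3 h1
  obtain ⟨U₂, hU₂, r2⟩ := ex2 h2
  have hU : U₁ ∩ U₂ ∈ l := inter_mem hU₁ hU₂
  -- quotients
  have hq : Tendsto (fun p : B × B => Ring.inverse p.1 * p.2) (l ×ˢ l) l :=
    hl.mul.comp ((hl.inv.comp tendsto_fst).prodMk tendsto_snd)
  obtain ⟨V₀, hV₀, r3⟩ := ex2 (hq.eventually hU)
  set V : Set B := V₀ ∩ (U₁ ∩ U₂) ∩ {x | IsUnit x} with hVd
  have hV : V ∈ l := inter_mem (inter_mem hV₀ hU) hl.unit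
  have quo : ∀ x ∈ V, ∀ x' ∈ V, ν x = ν x' → ∃ g ∈ U₁ ∩ U₂, x = x' * g ∧ ν g = 1 := by
    intro x hx x' hx' e
    refine ⟨_, r3 x' hx'.1.1 x hx.1.1, ?_, ?_⟩
    · rw [← mul_assoc, Ring.mul_inverse_cancel _ hx'.2, one_mul]
    · rw [map_mul, e, ← map_mul, Ring.inverse_mul_cancel _ hx'.2, map_one]
  have cg : ∀ x ∈ V, ∀ x' ∈ V, ∀ y ∈ V, ∀ y' ∈ V, ν x = ν x' → ν y = ν y' → be x y = be x' y' := by
    intro x hx x' hx' y hy y' hy' e1 e2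
    obtain ⟨g, hg, rfl, g1⟩ := quo x hx x' hx' e1
    obtain ⟨h, hh, e, g2⟩ := quo y hy y' hy' e2
    rw [(r1 x' hx'.1.2.1 g hg.1 y hy.1.2.1).1, r2 g hg.2 y hy.1.2.2 (Or.inr (Or.inl g1)), mul_one, e,
      (r1 y' hy'.1.2.1 h hh.1 x' hx'.1.2.1).2, r2 x' hx'.1.2.2 h hh.2 (Or.inr (Or.inr g2)), mul_one]
  obtain ⟨T, hT, r4⟩ := ex2 (hl.mul.eventually hV)
  refine ⟨T ∩ V, inter_mem hT hV, fun x₀ hx₀ z₀ hz₀ S hS hS1 H => ?_⟩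
  have H1 : ∀ x ∈ S, ∀ z ∈ S, be (x * x₀) (z * z₀) = 1 := by
    intro x hx z hz
    obtain ⟨X, hX, Z, hZ, hc, e1, e2⟩ := H x hx z hz
    rw [cg _ (r4 x (hS hx).1 x₀ hx₀.1) X hX.2 _ (r4 z (hS hz).1 z₀ hz₀.1) Z hZ.2
      (by rw [map_mul, e1]) (by rw [map_mul, e2])]
    exact r2 X hX.2.1.2.2 Z hZ.2.1.2.2 (Or.inl hc)
  have H2 : ∀ x ∈ S, ∀ z ∈ S, be (x * x₀) z = 1 := by
    intro x hx z hz
    have a := H1 x hx z hz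
    have b := H1 x hx 1 hS1
    rw [one_mul] at b
    rwa [(r1 z (hS hz).2.1.2.1 z₀ hz₀.2.1.2.1 _ (r4 x (hS hx).1 x₀ hx₀.1).1.2.1).2, b, mul_one] at a
  intro x hx z hz
  have a := H2 x hx z hz
  have b := H2 1 hS1 z hz
  rw [one_mul] at b
  rwa [(r1 x (hS hx).2.1.2.1 x₀ hx₀.2.1.2.1 z (hS hz).2.1.2.1).1, b, mul_one] at a

end Crest.Agent.T24.In.G54
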