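import Crest.Agent.T24.InDef_71

/-!
# Row 24, inner step: the commutator pairing and the inner step in `N`-adic words (helper54)
-/

set_option autoImplicit false

namespace Crest.Agent.T24.In

open Filter Module Polynomial NumberField
open Crest.Agent.T24.Csa Crest.Agent.T24.Hsm Crest.Agent.T24.Asa

universe u v w

namespace P54

/-- a map which is multiplicative on the norm one part of `E` and invariant under `E` -/
structure Inv {G M A : Type*} [Group G] [CommMonoid M] [CommGroup A] (E : Subgroup G) (ν : G →* M)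
    (Ψ : G → A) : Prop where
  mul : ∀ g ∈ E, ∀ h ∈ E, ν g = 1 → ν h = 1 → Ψ (g * h) = Ψ g * Ψ h
  cj : ∀ x ∈ E, ∀ g ∈ E, ν g = 1 → Ψ (x * g * x⁻¹) = Ψ g

section Grp

variable {G M A : Type*} [Group G] [CommMonoid M] [CommGroup A] {E : Subgroup G} {ν : G →* M}
  {Ψ : G → A}

theorem nu_inv_mul (ν : G →* M) (x : G) : ν x⁻¹ * ν x = 1 := by
  rw [← map_mul, inv_mul_cancel, map_one]

theorem nu_inv {g : G} (h : ν g = 1) : ν g⁻¹ = 1 := by
  have := nu_inv_mul ν g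
  rwa [h, mul_one] at this

theorem nu_cj (x : G) {g : G} (h : ν g = 1) : ν (x * g * x⁻¹) = 1 := by
  rw [map_mul, map_mul, h, mul_one, mul_comm, nu_inv_mul]

theorem nu_com (ν : G →* M) (x y : G) : ν (x * y * x⁻¹ * y⁻¹) = 1 := by
  simp only [map_mul]
  calc ν x * ν y * ν x⁻¹ * ν y⁻¹ = (ν x⁻¹ * ν x) * (ν y⁻¹ * ν y) := by ac_rfl
    _ = 1 := by rw [nu_inv_mul, nu_inv_mul, mul_one]

theorem com_mem {x y : G} (hx : x ∈ E) (hy : y ∈ E) : x * y * x⁻¹ * y⁻¹ ∈ E :=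
  mul_mem (mul_mem (mul_mem hx hy) (inv_mem hx)) (inv_mem hy)

namespace Inv

theorem one (h : Inv E ν Ψ) : Ψ 1 = 1 := by
  have := h.mul 1 (one_mem _) 1 (one_mem _) (map_one _) (map_one _)
  rw [mul_one] at this
  exact left_eq_mul.1 this

theorem mul_inv (h : Inv E ν Ψ) {g : G} (hg : g ∈ E) (h1 : ν g = 1) : Ψ g * Ψ g⁻¹ = 1 := by
  rw [← h.mul g hg _ (inv_mem hg) h1 (nu_inv h1), mul_inv_cancel, h.one]

theorem pow (h : Inv E ν Ψ) {g : G} (hg : g ∈ E) (h1 : ν g = 1) (n : ℕ) :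
    Ψ (g ^ n) = Ψ g ^ n := by
  induction n with
  | zero => simp [h.one]
  | succ n ih =>
    rw [pow_succ, h.mul _ (pow_mem hg n) _ hg (by rw [map_pow, h1, one_pow]) h1, ih, pow_succ]

theorem right (h : Inv E ν Ψ) {x y z : G} (hx : x ∈ E) (hy : y ∈ E) (hz : z ∈ E) :
    Ψ (x * (y * z) * x⁻¹ * (y * z)⁻¹) = Ψ (x * y * x⁻¹ * y⁻¹) * Ψ (x * z * x⁻¹ * z⁻¹) := by
  have e : x * (y * z) * x⁻¹ * (y * z)⁻¹ =
      (x * y * x⁻¹ * y⁻¹) * (y * (x * z * x⁻¹ * z⁻¹) * y⁻¹) := by group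
  rw [e, h.mul _ (com_mem hx hy) _ (mul_mem (mul_mem hy (com_mem hx hz)) (inv_mem hy))
    (nu_com ν _ _) (nu_cj _ (nu_com ν _ _)), h.cj _ hy _ (com_mem hx hz) (nu_com ν _ _)]

theorem left (h : Inv E ν Ψ) {x y z : G} (hx : x ∈ E) (hy : y ∈ E) (hz : z ∈ E) :
    Ψ (x * y * z * (x * y)⁻¹ * z⁻¹) = Ψ (y * z * y⁻¹ * z⁻¹) * Ψ (x * z * x⁻¹ * z⁻¹) := by
  have e : x * y * z * (x * y)⁻¹ * z⁻¹ =
      (x * (y * z * y⁻¹ * z⁻¹) * x⁻¹) * (x * z * x⁻¹ * z⁻¹) := by group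
  rw [e, h.mul _ (mul_mem (mul_mem hx (com_mem hy hz)) (inv_mem hx)) _ (com_mem hx hz)
    (nu_cj _ (nu_com ν _ _)) (nu_com ν _ _), h.cj _ hx _ (com_mem hy hz) (nu_com ν _ _)]

theorem right_one (h : Inv E ν Ψ) {x g : G} (hx : x ∈ E) (hg : g ∈ E) (h1 : ν g = 1) :
    Ψ (x * g * x⁻¹ * g⁻¹) = 1 := by
  rw [h.mul _ (mul_mem (mul_mem hx hg) (inv_mem hx)) _ (inv_mem hg) (nu_cj _ h1) (nu_inv h1),
    h.cj _ hx _ hg h1, h.mul_inv hg h1]

theorem left_one (h : Inv E ν Ψ) {g y : G} (hg : g ∈ E) (hy : y ∈ E) (h1 : ν g = 1) :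
    Ψ (g * y * g⁻¹ * y⁻¹) = 1 := by
  have e : g * y * g⁻¹ * y⁻¹ = g * (y * g⁻¹ * y⁻¹) := by group
  rw [e, h.mul _ hg _ (mul_mem (mul_mem hy (inv_mem hg)) (inv_mem hy)) h1 (nu_cj _ (nu_inv h1)),
    h.cj _ hy _ (inv_mem hg) (nu_inv h1), h.mul_inv hg h1]

/-- the pairing depends only on the norms -/
theorem congr (h : Inv E ν Ψ) {x x' y y' : G} (hx : x ∈ E) (hx' : x' ∈ E) (hy : y ∈ E)
    (hy' : y' ∈ E) (e1 : ν x = ν x') (e2 : ν y = ν y') :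
    Ψ (x * y * x⁻¹ * y⁻¹) = Ψ (x' * y' * x'⁻¹ * y'⁻¹) := by
  have a1 : ν (x'⁻¹ * x) = 1 := by rw [map_mul, e1, nu_inv_mul]
  have a2 : ν (y'⁻¹ * y) = 1 := by rw [map_mul, e2, nu_inv_mul]
  have m1 : x'⁻¹ * x ∈ E := mul_mem (inv_mem hx') hx
  have m2 : y'⁻¹ * y ∈ E := mul_mem (inv_mem hy') hy
  have b1 := h.left hx' m1 hy
  have b2 := h.right hx' hy' m2
  rw [mul_inv_cancel_left, h.left_one m1 hy a1, one_mul] at b1
  rw [mul_inv_cancel_left, h.right_one hx' m2 a2, mul_one] at b2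
  rw [b1, b2]

theorem of_comm (h : Inv E ν Ψ) {x y : G} (hc : x * y = y * x) : Ψ (x * y * x⁻¹ * y⁻¹) = 1 := by
  have e : x * y * x⁻¹ * y⁻¹ = 1 := by rw [hc]; group
  rw [e, h.one]

/-- from the shifted pairing to the pairing -/
theorem unshift (h : Inv E ν Ψ) {S : Set G} (h1 : (1 : G) ∈ S) (hS : ∀ x ∈ S, x ∈ E) {x₀ z₀ : G}
    (hx : x₀ ∈ E) (hz : z₀ ∈ E)
    (H : ∀ x ∈ S, ∀ z ∈ S, Ψ (x * x₀ * (z * z₀) * (x * x₀)⁻¹ * (z * z₀)⁻¹) = 1) :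
    ∀ x ∈ S, ∀ z ∈ S, Ψ (x * z * x⁻¹ * z⁻¹) = 1 := by
  have H2 : ∀ x ∈ S, ∀ z ∈ S, Ψ (x * x₀ * z * (x * x₀)⁻¹ * z⁻¹) = 1 := by
    intro x hx' z hz'
    have a := H x hx' z hz'
    have b := H x hx' 1 h1
    rw [one_mul] at b
    rwa [h.right (mul_mem (hS x hx') hx) (hS z hz') hz, b, mul_one] at a
  intro x hx' z hz'
  have a := H2 x hx' z hz'
  have b := H2 1 h1 z hz'
  rw [one_mul] at b
  rwa [h.left (hS x hx') hx (hS z hz'), b, one_mul] at a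

end Inv

end Grp

section Alg

variable (K : Type*) [Field K] [CharZero K] {B : Type*} [Ring B] [Algebra K B]
  [Algebra.IsCentral K B] [IsSimpleRing B] [FiniteDimensional K B]

/-- the reduced norm on units -/
noncomputable def nu : Bˣ →* K := (Nrd K : B →*₀ K).toMonoidHom.comp (Units.coeHom B)

theorem nu_apply (g : Bˣ) : nu K g = Nrd K (g : B) := rfl

theorem Nrd_one_sub {τ : K} (hτ : τ ≠ 0) (y : B) :
    Nrd K (1 - τ • y) = τ ^ deg K B * (rch K y).eval τ⁻¹ := by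
  rw [eval_rch, ← Nrd_smul, smul_sub, Algebra.smul_def τ (algebraMap K B τ⁻¹), ← map_mul,
    mul_inv_cancel₀ hτ, map_one]

omit [CharZero K] in
theorem comm_of_deg (h : deg K B = 1) (x y : B) : x * y = y * x := by
  have h1 : finrank K B = 1 := by rw [finrank_eq_deg_sq K B, h, one_pow]
  obtain ⟨c, rfl⟩ := (finrank_eq_one_iff_of_nonzero' (1 : B) one_ne_zero).1 h1 x
  simp

end Alg

end P54

open P54

theorem pairStmt (hC : CtStmt.{u, v}) (hP : PosStmt.{u, v}) : PairStmt.{u, v, w} := by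
  intro N hN K _ _ B _ _ _ _ _ _ hS E hE A _ Ψ hmul hcj
  have hI : Inv E (nu K) Ψ := ⟨hmul, hcj⟩
  have := fdQ K B
  rcases Nat.lt_or_ge (deg K B) 2 with hd | hd
  · have hd1 : deg K B = 1 := by have := deg_pos K B; omega
    exact ⟨Set.univ, univ_mem, fun x y _ _ =>
      hI.of_comm (Units.ext (comm_of_deg K hd1 (x : B) (y : B)))⟩
  obtain ⟨y₀, hy₀⟩ := exists_separable (K := K) (B := B)
  obtain ⟨Λ₀, hΛ₀⟩ := exists_lat N B
  set Λ : Submodule (ZN N) B := Λ₀ ⊔ Submodule.span (ZN N) {y₀} with hΛd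
  have hΛ : Lat N Λ := hΛ₀.of_le (hΛ₀.fg.sup (Submodule.fg_span_singleton _)) le_sup_left
  have hy₀Λ : y₀ ∈ Λ := Submodule.mem_sup_right (Submodule.mem_span_singleton_self _)
  have hS1 : ∀ᶠ x in nr N (1 : B), ∃ g ∈ E, (g : B) = x := by
    filter_upwards [hE, ev_isUnit hN] with x h1 h2
    obtain ⟨g, rfl⟩ := h2
    exact ⟨g, h1 g rfl, rfl⟩
  obtain ⟨k, hk⟩ := exists_of_nr hS1 hΛ.fg
  have hN0 : (N : K) ≠ 0 := by exact_mod_cast (by omega : N ≠ 0)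
  have hun : ∀ j, k ≤ j → ∀ y ∈ Λ, ∃ g ∈ E, (g : B) = 1 - ((N : K) ^ j) • y := by
    intro j hj y hy
    refine hk _ ?_
    have e : 1 - ((N : K) ^ j) • y - 1 = -(((N : ℚ) ^ j) • y) := by
      rw [← Nat.cast_pow, ← Nat.cast_pow, Nat.cast_smul_eq_nsmul, Nat.cast_smul_eq_nsmul]; abel
    rw [e]
    exact neg_mem (dp_anti _ hj (smul_mem_dp j hy))
  have ht : ((N : K) ^ k)⁻¹ ≠ ((N : K) ^ (k + 1))⁻¹ := by
    intro h
    have h1 : (N : K) ^ k = (N : K) ^ (k + 1) := inv_injective h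
    have h2 : N ^ k = N ^ (k + 1) := by exact_mod_cast h1
    have := Nat.pow_right_injective hN h2
    omega
  have hU : {y : B | y - y₀ ∈ dp Λ 0} ∈ nr N y₀ := hΛ.ev_nr y₀ 0
  have hV : {l : K | ∃ g ∈ E, (g : B) = algebraMap K B l} ∈ nr N (1 : K) := by
    have h1 := nr_map (N := N) (algebraMap K B).toAddMonoidHom (1 : K)
    have h2 : (algebraMap K B).toAddMonoidHom 1 = 1 := map_one (algebraMap K B)
    rw [h2] at h1
    exact h1.eventually hS1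
  obtain ⟨V', hV', hct⟩ := hC N hN K B hS hd y₀ hy₀ _ _ ht _ hU _ hV
  obtain ⟨x₀, hx₀, ex₀⟩ := hun k le_rfl y₀ hy₀Λ
  obtain ⟨z₀, hz₀, ez₀⟩ := hun (k + 1) (by omega) y₀ hy₀Λ
  have hW : ∀ᶠ x in nr N (1 : B), (∀ g : Bˣ, (g : B) = x → g ∈ E) ∧ Nrd K x ∈ V' :=
    hE.and ((nr_Nrd_one K).eventually hV')
  refine ⟨_, hW, fun x z hx hz => ?_⟩
  refine hI.unshift (S := {g : Bˣ | (∀ g' : Bˣ, (g' : B) = g → g' ∈ E) ∧ Nrd K (g : B) ∈ V'})
    (by simpa using self_of_nr hW) (fun g hg => hg.1 g rfl) hx₀ hz₀ ?_ x hx z hz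
  intro x hx z hz
  obtain ⟨y, hy, l₁, ⟨g₁, hg₁, e₁⟩, l₂, ⟨g₂, hg₂, e₂⟩, f₁, f₂⟩ :=
    hct _ hx.2 _ hz.2 (hP K B _ x.isUnit) (hP K B _ z.isUnit)
  have hyΛ : y ∈ Λ := by
    have := add_mem (dp_le _ _ hy) hy₀Λ
    rwa [sub_add_cancel] at this
  obtain ⟨x₁, hx₁, ex₁⟩ := hun k le_rfl y hyΛ
  obtain ⟨z₁, hz₁, ez₁⟩ := hun (k + 1) (by omega) y hyΛ
  rw [hI.congr (x' := g₁ * x₁) (y' := g₂ * z₁) (mul_mem (hx.1 x rfl) hx₀) (mul_mem hg₁ hx₁)
    (mul_mem (hz.1 z rfl) hz₀) (mul_mem hg₂ hz₁)]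
  · refine hI.of_comm (Units.ext ?_)
    simp only [Units.val_mul, e₁, e₂, ex₁, ez₁, ← Algebra.smul_def, smul_mul_smul_comm]
    rw [mul_comm l₁ l₂]
    congr 1
    simp only [mul_sub, sub_mul, one_mul, mul_one, smul_mul_smul_comm]
    rw [mul_comm ((N : K) ^ k)]
    abel
  · simp only [map_mul, nu_apply, e₁, ex₀, ex₁, Nrd_algebraMap,
      Nrd_one_sub K (pow_ne_zero _ hN0)]
    linear_combination (-((N : K) ^ k) ^ deg K B) * f₁
  · simp only [map_mul, nu_apply, e₂, ez₀, ez₁, Nrd_algebraMap,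
      Nrd_one_sub K (pow_ne_zero _ hN0)]
    linear_combination (-((N : K) ^ (k + 1)) ^ deg K B) * f₂

namespace P54

/-- the units congruent to `1` modulo `N ^ m O` -/
def cong {N : ℕ} (hN : 2 ≤ N) {B : Type*} [Ring B] [Algebra ℚ B] [FiniteDimensional ℚ B]
    {O : Subalgebra (ZN N) B} (h : O.toSubmodule.FG) {m : ℕ} (hm : 1 ≤ m) : Subgroup Bˣ where
  carrier := {g | (g : B) - 1 ∈ dp O.toSubmodule m}
  one_mem' := by simp
  mul_mem' {a b} ha hb := by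
    have e : ((a * b : Bˣ) : B) - 1 =
        ((a : B) - 1) * ((b : B) - 1) + (((a : B) - 1) + ((b : B) - 1)) := by
      rw [Units.val_mul]; noncomm_ring
    change ((a * b : Bˣ) : B) - 1 ∈ dp O.toSubmodule m
    rw [e]
    exact add_mem (dp_anti _ (Nat.le_add_right m m) (mul_mem_dp O ha hb)) (add_mem ha hb)
  inv_mem' {a} ha := by
    obtain ⟨y, hy, h1, -⟩ := exists_qinv hN h hm ha
    rw [add_sub_cancel] at h1
    change ((a⁻¹ : Bˣ) : B) - 1 ∈ dp O.toSubmodule m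
    rw [Units.inv_eq_of_mul_eq_one_right h1, add_sub_cancel_left]
    exact hy

/-- the kernel of `Ψ` on the norm one part of `G` -/
def ker {G M A : Type*} [Group G] [CommMonoid M] [CommGroup A] {E : Subgroup G} {ν : G →* M}
    {Ψ : G → A} (h : Inv E ν Ψ) {D : Subgroup G} (hD : D ≤ E) : Subgroup D where
  carrier := {g | ν g = 1 ∧ Ψ g = 1}
  one_mem' := ⟨map_one _, h.one⟩
  mul_mem' {a b} ha hb := ⟨by rw [Subgroup.coe_mul, map_mul, ha.1, hb.1, one_mul], by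
    rw [Subgroup.coe_mul, h.mul _ (hD a.2) _ (hD b.2) ha.1 hb.1, ha.2, hb.2, one_mul]⟩
  inv_mem' {a} ha := ⟨nu_inv ha.1, by
    have := h.mul_inv (hD a.2) ha.1
    rwa [ha.2, one_mul] at this⟩

theorem ker_normal {G M A : Type*} [Group G] [CommMonoid M] [CommGroup A] {E : Subgroup G}
    {ν : G →* M} {Ψ : G → A} (h : Inv E ν Ψ) {D : Subgroup G} (hD : D ≤ E) : (ker h hD).Normal :=
  ⟨fun a ha x => ⟨nu_cj _ ha.1, (h.cj _ (hD x.2) _ (hD a.2) ha.1).trans ha.2⟩⟩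

end P54

theorem innerN (hP : PairStmt.{u, v, w}) (hW : WStmt.{u, v, v}) : InnerN.{u, v, w} := by
  intro N hN K _ _ B _ _ _ _ _ _ hS E hE A _ n hn Ψ hpow hmul hcj
  classical
  have hI : Inv E (nu K) Ψ := ⟨hmul, hcj⟩
  have := fdQ K B
  obtain ⟨U, hU, hcom⟩ := hP N hN K B hS E hE A Ψ hmul hcj
  obtain ⟨O, hO⟩ := exists_od N B
  obtain ⟨m, hm⟩ := exists_of_nr (hE.and hU) hO.fg
  set D : Subgroup Bˣ := cong hN hO.fg (Nat.le_add_left 1 m) with hDd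
  have hD' : ∀ g ∈ D, g ∈ E ∧ (g : B) ∈ U := fun g hg => by
    have := hm g (dp_anti _ (Nat.le_succ m) hg)
    exact ⟨this.1 g rfl, this.2⟩
  have hD : D ≤ E := fun g hg => (hD' g hg).1
  set H : Subgroup D := ker hI hD with hHd
  have hH : H.Normal := ker_normal hI hD
  let inst : CommGroup (D ⧸ H) :=
    { (inferInstance : Group (D ⧸ H)) with
      mul_comm := fun a b => by
        induction a using QuotientGroup.induction_on with | H a => ?_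
        induction b using QuotientGroup.induction_on with | H b => ?_
        rw [← QuotientGroup.mk_mul, ← QuotientGroup.mk_mul, QuotientGroup.eq]
        have e : (((a * b)⁻¹ * (b * a) : D) : Bˣ) =
            (b : Bˣ)⁻¹ * (a : Bˣ)⁻¹ * (b : Bˣ)⁻¹⁻¹ * (a : Bˣ)⁻¹⁻¹ := by
          push_cast; group
        change nu K _ = 1 ∧ Ψ _ = 1
        rw [e]
        exact ⟨nu_com _ _ _, hcom _ _ (hD' _ (inv_mem b.2)).2 (hD' _ (inv_mem a.2)).2⟩ }
  let θ : B → D ⧸ H := fun x => if h : ∃ g : D, ((g : Bˣ) : B) = x then (h.choose : D ⧸ H) else 1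
  have hθ : ∀ g : D, θ ((g : Bˣ) : B) = (g : D ⧸ H) := fun g => by
    have h : ∃ g' : D, ((g' : Bˣ) : B) = ((g : Bˣ) : B) := ⟨g, rfl⟩
    simp only [θ, dif_pos h]
    rw [Subtype.ext (Units.ext h.choose_spec)]
  have hev : ∀ᶠ x in nr N (1 : B), ∃ g : D, ((g : Bˣ) : B) = x := by
    filter_upwards [hO.ev_nr 1 (m + 1), ev_isUnit hN] with x h1 h2
    obtain ⟨g, rfl⟩ := h2
    exact ⟨⟨g, h1⟩, rfl⟩
  have hLH : LH N θ := by
    filter_upwards [hev.prod_mk hev] with p hp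
    obtain ⟨⟨a, ha⟩, ⟨b, hb⟩⟩ := hp
    rw [← ha, ← hb, hθ, hθ, ← Units.val_mul, ← Subgroup.coe_mul, hθ]
    rfl
  have h1 : ∀ᶠ x in nr N (1 : B), Nrd K x = 1 → θ x ^ n = 1 := by
    filter_upwards [hev] with x hx hx1
    obtain ⟨g, rfl⟩ := hx
    rw [hθ]
    change ((g ^ n : D) : D ⧸ H) = 1
    rw [QuotientGroup.eq_one_iff]
    change nu K _ = 1 ∧ Ψ _ = 1
    rw [Subgroup.coe_pow, map_pow, hI.pow (hD g.2) hx1, nu_apply, hx1, one_pow]
    exact ⟨rfl, hpow _ (hD g.2) hx1⟩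
  filter_upwards [hW N hN K B hS (D ⧸ H) θ n hn hLH h1, hev] with x h2 hx g hg hx1
  obtain ⟨g', rfl⟩ := hx
  have h3 := h2 hx1
  rw [hθ, QuotientGroup.eq_one_iff] at h3
  rw [Units.ext hg]
  exact h3.2

end Crest.Agent.T24.In
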