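import Crest.Agent.T24.InG_71
import Crest.Agent.T24.InGa_54
import Crest.Agent.T24.InPair_54

/-!
# Row 24, inner step: germs of bimultiplicative pairings are trivial (helper54)
-/

set_option autoImplicit false

namespace Crest.Agent.T24.In

open Filter Module Polynomial NumberField
open Crest.Agent.T24.Csa Crest.Agent.T24.Hsm Crest.Agent.T24.Asa

universe u v w

section Mono

variable {N N' : ℕ} {V : Type*} [AddCommGroup V] [Module ℚ V]

theorem ZN_le_of_dvd (h : N ∣ N') : ZN N' ≤ ZN N := fun _ hq => Nat.Coprime.coprime_dvd_right h hq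

theorem sm_le_of_dvd (h : N ∣ N') : sm N' V ≤ sm N V := by
  intro U hU Λ hΛ
  obtain ⟨s, rfl⟩ := hΛ
  obtain ⟨m, hm⟩ := hU (Submodule.span (ZN N) (s : Set V)) ⟨s, rfl⟩
  obtain ⟨c, rfl⟩ := h
  refine ⟨m, fun x hx => ?_⟩
  have h1 : x ∈ Submodule.span (ZN N) (s : Set V) := by
    induction hx using Submodule.span_induction with
    | mem x hx => exact Submodule.subset_span hx
    | zero => exact zero_mem _
    | add x y _ _ hx hy => exact add_mem hx hy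
    | smul a x _ hx => exact zsmul_mem (ZN_le_of_dvd ⟨c, rfl⟩ a.2) hx
  rw [Nat.cast_mul, mul_pow, mul_smul]
  exact hm _ (zsmul_mem (pow_mem (natCast_mem _ c) m) h1)

theorem nr_le_of_dvd (h : N ∣ N') (a : V) : nr N' a ≤ nr N a := comap_mono (sm_le_of_dvd h)

theorem ng_le_of_dvd (h : N ∣ N') (a : V) : ng N' a ≤ ng N a :=
  inf_le_inf_right _ (nr_le_of_dvd h a)

theorem SplN.of_dvd {K : Type*} [Field K] [NumberField K] {B : Type*} [Ring B] [Algebra K B]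
    (hS : SplN N K B) (h : N ∣ N') : SplN N' K B := fun v hv => hS v fun hN => hv <| by
  obtain ⟨c, rfl⟩ := h
  rw [Nat.cast_mul]
  exact v.asIdeal.mul_mem_right _ hN

/-- every level has a multiple outside which `B` is split -/
theorem exists_splN (hS : SplStmt.{u, v}) (hN : 2 ≤ N) (K : Type u) [Field K] [NumberField K]
    (B : Type v) [Ring B] [Algebra K B] [Algebra.IsCentral K B] [IsSimpleRing B]
    [FiniteDimensional K B] : ∃ N', 2 ≤ N' ∧ N ∣ N' ∧ SplN N' K B := by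
  obtain ⟨M, hM, h, -⟩ := hS K B ∅
  exact ⟨N * M, by nlinarith, Dvd.intro _ rfl, h.of_dvd (Dvd.intro_left _ rfl)⟩

end Mono

theorem nb_ng {N : ℕ} (hN : 2 ≤ N) (B : Type*) [Ring B] [Algebra ℚ B] [FiniteDimensional ℚ B] :
    G54.Nb (ng N (1 : B)) :=
  ⟨fun _ hU => self_of_ng (p := (· ∈ _)) hU, ng_mul_one tendsto_fst tendsto_snd, ng_inverse hN,
    ng_isUnit hN⟩

/-- common torus, germ form: commuting lifts near `1` with prescribed norms -/
theorem ct_germ (hG : NearG.{u, v}) {N : ℕ} (hN : 2 ≤ N) (K : Type u) [Field K] [NumberField K]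
    (B : Type v) [Ring B] [Algebra K B] [Algebra ℚ B] [Algebra.IsCentral K B] [IsSimpleRing B]
    [FiniteDimensional K B] (hS : SplN N K B) (hd : 2 ≤ deg K B) {U : Set B} (hU : U ∈ ng N (1 : B)) :
    ∃ x₀ ∈ U, ∃ z₀ ∈ U, ∃ V ∈ ng N (1 : K), ∀ a₁ ∈ V, ∀ a₂ ∈ V, ∃ X ∈ U, ∃ Z ∈ U, Commute X Z ∧
      Nrd K X = a₁ * Nrd K x₀ ∧ Nrd K Z = a₂ * Nrd K z₀ := by
  have := fdQ K B
  obtain ⟨y₀, hy₀⟩ := exists_separable (K := K) (B := B)
  have t1 : Tendsto (fun p : K × B => 1 - p.1 • p.2) (ng N 0 ×ˢ ng N y₀) (ng N 1) := by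
    simpa using ng_sub (ng_const (1 : B)) (ng_smul K (tendsto_fst (f := ng N (0 : K)) (g := ng N y₀))
      tendsto_snd)
  obtain ⟨T, hT, Y, hY, h⟩ := mem_prod_iff.1 (t1.eventually hU)
  have hT' : ∀ᶠ c in ng N (0 : K), -c ∈ T := by
    have := ng_neg (tendsto_id (x := ng N (0 : K)))
    rw [neg_zero] at this
    exact this.eventually hT
  obtain ⟨k, hk1, hk2⟩ := ((tendsto_small (N := N) (1 : K)).eventually (hT'.and hT)).exists
  set τ : K := ((N : ℚ) / (N + 1)) ^ k • (1 : K) with hτd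
  have hτ : τ ≠ 0 := smul_ne_zero (pow_ne_zero _ (div_ne_zero (by
    exact_mod_cast (by omega : N ≠ 0)) (by positivity))) one_ne_zero
  have hτ' : -τ ≠ 0 := neg_ne_zero.2 hτ
  obtain ⟨V₀, hV₀, hP⟩ := hG N hN K B hS y₀ hy₀ Y hY
  set f := rch K y₀ with hf
  -- the linear interpolation
  let c₀ : K × K → K := fun a => ((a.1 - 1) * f.eval τ⁻¹ + (a.2 - 1) * f.eval (-τ)⁻¹) / 2
  let c₁ : K × K → K := fun a => ((a.1 - 1) * f.eval τ⁻¹ - (a.2 - 1) * f.eval (-τ)⁻¹) * τ / 2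
  have a1 : Tendsto (fun a : K × K => (a.1 - 1) * f.eval τ⁻¹) (ng N 1 ×ˢ ng N 1) (ng N 0) := by
    simpa using ng_mul (ng_sub (tendsto_fst (f := ng N (1 : K)) (g := ng N (1 : K))) (ng_const 1))
      (ng_const (f.eval τ⁻¹))
  have a2 : Tendsto (fun a : K × K => (a.2 - 1) * f.eval (-τ)⁻¹) (ng N 1 ×ˢ ng N 1) (ng N 0) := by
    simpa only [sub_self, zero_mul] using
      ng_mul (ng_sub (tendsto_snd (f := ng N (1 : K)) (g := ng N (1 : K))) (ng_const 1))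
      (ng_const (f.eval (-τ)⁻¹))
  have b0 : Tendsto c₀ (ng N 1 ×ˢ ng N 1) (ng N 0) := by
    simpa only [add_zero, zero_div, ← div_eq_mul_inv] using ng_mul (ng_add a1 a2) (ng_const (2 : K)⁻¹)
  have b1 : Tendsto c₁ (ng N 1 ×ˢ ng N 1) (ng N 0) := by
    simpa only [sub_zero, zero_mul, zero_div, ← div_eq_mul_inv] using
      ng_mul (ng_mul (ng_sub a1 a2) (ng_const τ)) (ng_const (2 : K)⁻¹)
  obtain ⟨V, hV, hc⟩ := G54.ex2 ((b0.eventually hV₀).and (b1.eventually hV₀))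
  have hy₀Y : y₀ ∈ Y := self_of_ng (p := (· ∈ Y)) hY
  refine ⟨_, h (Set.mk_mem_prod hk2 hy₀Y), _, h (Set.mk_mem_prod hk1 hy₀Y), V, hV,
    fun a₁ h₁ a₂ h₂ => ?_⟩
  have e0 : c₀ (a₁, a₂) ∈ V₀ := (hc a₁ h₁ a₂ h₂).1
  have e1 : c₁ (a₁, a₂) ∈ V₀ := (hc a₁ h₁ a₂ h₂).2
  have hdeg : (C (c₁ (a₁, a₂)) * X + C (c₀ (a₁, a₂))).degree < f.degree := by
    refine degree_linear_le.trans_lt ?_
    rw [degree_eq_natDegree (rch_monic K y₀).ne_zero, rch_natDegree]
    exact_mod_cast hd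
  obtain ⟨y, hy, e⟩ := hP (f + (C (c₁ (a₁, a₂)) * X + C (c₀ (a₁, a₂))))
    ((rch_monic K y₀).add_of_left hdeg)
    (by rw [natDegree_add_eq_left_of_degree_lt hdeg, rch_natDegree]) fun i => by
      rw [coeff_add, add_sub_cancel_left]
      rcases i with _ | _ | i
      · simpa using e0
      · simpa using e1
      · simpa [coeff_X, coeff_C] using self_of_ng (p := (· ∈ V₀)) hV₀
  refine ⟨_, h (Set.mk_mem_prod hk2 hy), _, h (Set.mk_mem_prod hk1 hy), ?_, ?_, ?_⟩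
  · exact (Commute.one_left _).sub_left (((Commute.one_right _).sub_right
      ((Commute.refl y).smul_right _)).smul_left _)
  · simp only [P54.Nrd_one_sub K hτ, e, ← hf, eval_add, eval_mul, eval_C, eval_X, c₀, c₁]
    field_simp
    ring
  · simp only [P54.Nrd_one_sub K hτ', e, ← hf, eval_add, eval_mul, eval_C, eval_X, c₀, c₁]
    field_simp
    ring

/-- germs of bimultiplicative pairings that vanish on commuting pairs and on `SL₁` are trivial -/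
def GermCT : Prop := ∀ N : ℕ, 2 ≤ N → ∀ (K : Type u) [Field K] [NumberField K] (B : Type v)
  [Ring B] [Algebra K B] [Algebra ℚ B] [Algebra.IsCentral K B] [IsSimpleRing B]
  [FiniteDimensional K B], SplN N K B → ∀ (A : Type w) [CommGroup A] (be : B → B → A),
  (∀ᶠ p : B × B × B in ng N 1 ×ˢ ng N 1 ×ˢ ng N 1,
    be (p.1 * p.2.1) p.2.2 = be p.1 p.2.2 * be p.2.1 p.2.2 ∧
    be p.2.2 (p.1 * p.2.1) = be p.2.2 p.1 * be p.2.2 p.2.1) →
  (∀ᶠ p : B × B in ng N 1 ×ˢ ng N 1,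
    Commute p.1 p.2 ∨ Nrd K p.1 = 1 ∨ Nrd K p.2 = 1 → be p.1 p.2 = 1) →
  ∀ᶠ p : B × B in ng N 1 ×ˢ ng N 1, be p.1 p.2 = 1

theorem germCT (hG : NearG.{u, v}) : GermCT.{u, v, w} := by
  intro N hN K _ _ B _ _ _ _ _ _ hS A _ be h1 h2
  have := fdQ K B
  rcases Nat.lt_or_ge (deg K B) 2 with hd | hd
  · have hd1 : deg K B = 1 := by have := deg_pos K B; omega
    exact h2.mono fun p hp => hp (Or.inl (P54.comm_of_deg K hd1 _ _))
  obtain ⟨U, hU, H⟩ := G54.core (nb_ng hN B) (Nrd K : B →*₀ K).toMonoidHom be h1 h2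
  obtain ⟨x₀, hx₀, z₀, hz₀, V, hV, hct⟩ := ct_germ hG hN K B hS hd hU
  have hW : ∀ᶠ x in ng N (1 : B), x ∈ U ∧ Nrd K x ∈ V :=
    Eventually.and hU ((ng_Nrd_one K).eventually hV)
  have H' := H x₀ hx₀ z₀ hz₀ {x | x ∈ U ∧ Nrd K x ∈ V} (fun _ h => h.1) (self_of_ng hW)
    fun x hx z hz => hct _ hx.2 _ hz.2
  exact (hW.prod_mk hW).mono fun p hp => H' _ hp.1 _ hp.2

end Crest.Agent.T24.In
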