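import Crest.Agent.T24.InSn_3
import Crest.Agent.T24.InG_71

/-!
# Row 24, inner step: approximate roots for the germ filter (helper3)
-/

set_option autoImplicit false

namespace Crest.Agent.T24.In

open Filter Topology R3

universe v

/-- ROOT, germ form -/
theorem rootG : RootG.{v} := by
  intro N _ B _ _ _ r hr V hV
  obtain ⟨r, rfl⟩ := Nat.exists_eq_succ_of_ne_zero hr
  obtain ⟨O, hO⟩ := exists_od N B
  obtain ⟨p, hp, hφ, hl⟩ := exists_sn B
  have back : ∀ {α : Type v} (l : Filter α) (f : α → B) (a : B),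
      Tendsto (fun i => p (f i - a)) l (𝓝 0) → Tendsto f l (na a) := fun l f a h =>
    tendsto_na.2 fun φ => by
      obtain ⟨C, -, hC⟩ := hφ φ
      rw [tendsto_iff_norm_sub_tendsto_zero]
      refine squeeze_zero (fun _ => norm_nonneg _) (fun i => ?_) (by simpa using h.const_mul C)
      rw [← map_sub]; exact hC _
  obtain ⟨V₁, h₁, V₂, h₂, rfl⟩ := mem_inf_iff.1 hV
  obtain ⟨a, ha⟩ := exists_of_nr (p := (· ∈ V₁)) h₁ hO.fg
  obtain ⟨T, hT, hT'⟩ := mem_comap.1
    (back (comap (fun x => p (x - 1)) (𝓝 0)) id 1 tendsto_comap h₂)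
  obtain ⟨ε, ε0, hε⟩ := Metric.mem_nhds_iff.1 hT
  obtain ⟨k, hk⟩ := nw_adic (B := B) N r
  obtain ⟨η, η0, hη⟩ := nw_arch p hp r
  have ev := (hl (na (1 : B)) id 1 (tendsto_na.1 tendsto_id)).eventually
    (gt_mem_nhds (lt_min η0 (half_pos ε0)))
  filter_upwards [(hO.ev_nr 1 (a + k)).filter_mono (ng_le_nr _), ev.filter_mono (ng_le_na _)]
    with g g1 g2
  rw [id, lt_min_iff] at g2
  refine ⟨nw r g, fun j => ⟨⟨ha _ (hk O a g g1 j).1, hT' (hε ?_)⟩, fun y hy => nw_comm r hy j⟩,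
    tendsto_ng.2 ⟨?_, ?_⟩⟩
  · rw [mem_ball_zero_iff, Real.norm_of_nonneg (apply_nonneg p _)]
    linarith [(hη g g2.1.le j).1]
  · rw [hO.tendsto_nr]
    intro m
    filter_upwards [eventually_ge_atTop m] with j hj
    rw [← neg_sub]
    exact neg_mem (dp_anti _ hj (hk O a g g1 j).2)
  · refine tendsto_na.2 fun φ => ?_
    obtain ⟨C, C0, hC⟩ := hφ φ
    rw [tendsto_iff_norm_sub_tendsto_zero]
    refine squeeze_zero (fun _ => norm_nonneg _) (fun j => ?_) (by
      simpa only [mul_zero] using (tendsto_pow_atTop_nhds_zero_of_lt_one (r := (1 / 2 : ℝ))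
        (by norm_num) (by norm_num)).const_mul (C * p (g - 1)))
    rw [← map_sub, mul_assoc]
    exact (hC _).trans (mul_le_mul_of_nonneg_left
      ((map_sub_rev p _ _).trans_le (hη g g2.1.le j).2) C0)

end Crest.Agent.T24.In
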