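import Crest.Agent.T24.WgNrd_25

/-!
# Row 24 (helper25): Wang's theorem `SK₁ B = 1` over number fields
-/

set_option autoImplicit false

noncomputable section

namespace Crest.Agent.T24.Wg

open scoped TensorProduct IntermediateField
open Module Polynomial Csa

universe u v

section gal
variable {L N : Type*} [Field L] [Field N] [Algebra L N] [FiniteDimensional L N] [IsGalois L N]

/-- a cyclic step below a given element of a `p`-extension -/
theorem exists_cyclic {p : ℕ} [Fact p.Prime] (hp : IsPGroup p (N ≃ₐ[L] N)) {θ : N}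
    (hθ : θ ∉ (⊥ : IntermediateField L N)) : ∃ M : IntermediateField L N, M ≤ L⟮θ⟯ ∧
      IsGalois L M ∧ IsCyclic (M ≃ₐ[L] M) ∧ finrank L M ≠ 1 := by
  have hnil := hp.isNilpotent
  have hne : L⟮θ⟯.fixingSubgroup ≠ ⊤ := fun h => hθ (by
    rw [← IsGalois.fixedField_top, ← h, IsGalois.fixedField_fixingSubgroup]
    exact IntermediateField.mem_adjoin_simple_self L θ)
  obtain ⟨H, hH, hle⟩ := (eq_top_or_exists_le_coatom L⟮θ⟯.fixingSubgroup).resolve_left hne
  have hn : H.Normal := Subgroup.NormalizerCondition.normal_of_coatom H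
    Group.normalizerCondition_of_isNilpotent hH
  refine ⟨IntermediateField.fixedField H, ?_, inferInstance, ?_, fun h => hH.1 ?_⟩
  · rw [← IsGalois.fixedField_fixingSubgroup L⟮θ⟯]
    exact IntermediateField.fixedField_antitone hle
  · obtain ⟨g, hg⟩ : ∃ g, g ∉ H := by
      by_contra h
      push Not at h
      exact hH.1 (eq_top_iff.2 fun g _ => h g)
    have : IsCyclic ((N ≃ₐ[L] N) ⧸ H) := by
      refine ⟨(g : (N ≃ₐ[L] N) ⧸ H), fun x => ?_⟩
      have h1 : (Subgroup.zpowers (g : (N ≃ₐ[L] N) ⧸ H)).comap (QuotientGroup.mk' H) = ⊤ := by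
        refine hH.2 _ (lt_of_le_of_ne (fun y hy => ?_) fun e => hg ?_)
        · rw [Subgroup.mem_comap, QuotientGroup.mk'_apply, (QuotientGroup.eq_one_iff y).2 hy]
          exact one_mem _
        · rw [e]; exact Subgroup.mem_zpowers _
      obtain ⟨y, rfl⟩ := QuotientGroup.mk_surjective x
      have : y ∈ (Subgroup.zpowers (g : (N ≃ₐ[L] N) ⧸ H)).comap (QuotientGroup.mk' H) := by
        rw [h1]; trivial
      exact this
    exact isCyclic_of_surjective _ (IsGalois.normalAutEquivQuotient H).surjective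
  · rw [IntermediateField.finrank_eq_one_iff] at h
    rw [← IntermediateField.fixingSubgroup_fixedField H, h, IntermediateField.fixingSubgroup_bot]

/-- Hilbert 90 with signs -/
theorem h90_pos {σ : N ≃ₐ[L] N} (hσ : ∀ x, x ∈ Subgroup.zpowers σ) {u : N}
    (hu : Algebra.norm L u = 1) (R : (N →+* ℝ) → Prop)
    (hR : ∀ ρ, R ρ → ∀ i : ℕ, 0 < ρ ((σ ^ i) u)) :
    ∃ e : N, e ≠ 0 ∧ u * σ e = e ∧ ∀ ρ, R ρ → 0 < ρ e := by
  classical
  let a : ℕ → N := fun i => ∏ j ∈ Finset.range i, (σ ^ j) u
  let E : N → N := fun θ => ∑ i ∈ Finset.range (orderOf σ), a i * (σ ^ i) θ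
  have hn : 0 < orderOf σ := orderOf_pos σ
  have han : a (orderOf σ) = 1 := by
    rw [← map_one (algebraMap L N), ← hu, Algebra.norm_eq_prod_automorphisms,
      ← IsCyclic.image_range_orderOf hσ, Finset.prod_image]
    intro i hi j hj h
    exact pow_injOn_Iio_orderOf (by simpa using hi) (by simpa using hj) h
  have hE : ∀ θ, u * σ (E θ) = E θ := fun θ => by
    have h1 : ∀ i, u * σ (a i * (σ ^ i) θ) = a (i + 1) * (σ ^ (i + 1)) θ := fun i => by
      simp only [a, Finset.prod_range_succ', map_mul, map_prod, pow_succ', AlgEquiv.mul_apply,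
        pow_zero, AlgEquiv.one_apply]
      ring
    have h2 := (Finset.sum_range_succ (fun i => a i * (σ ^ i) θ) (orderOf σ)).symm.trans
      (Finset.sum_range_succ' _ _)
    rw [han, pow_orderOf_eq_one, pow_zero, show a 0 = 1 from Finset.prod_range_zero _,
      add_left_inj] at h2
    simp only [E, map_sum, Finset.mul_sum, h1]
    exact h2.symm
  by_cases hex : ∃ ρ, R ρ
  · have pos : ∀ ρ, R ρ → 0 < ρ (E 1) := by
      intro ρ hρ
      rw [map_sum]
      refine Finset.sum_pos (fun i _ => ?_) (Finset.nonempty_range_iff.2 hn.ne')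
      rw [map_one, mul_one, map_prod]
      exact Finset.prod_pos fun j _ => hR ρ hρ j
    obtain ⟨ρ, hρ⟩ := hex
    refine ⟨_, fun h => ?_, hE 1, pos⟩
    have := pos ρ hρ
    rw [h, map_zero] at this
    exact lt_irrefl _ this
  · have hli := (linearIndependent_monoidHom N N).comp
      (fun i : Fin (orderOf σ) => ((σ ^ (i : ℕ) : N ≃ₐ[L] N) : N →* N)) fun i j h =>
        Fin.ext (pow_injOn_Iio_orderOf i.2 j.2 (AlgEquiv.ext fun z => DFunLike.congr_fun h z))
    by_contra hne
    have h0 : ∀ θ, E θ = 0 := fun θ => by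
      by_contra h
      exact hne ⟨_, h, hE θ, fun ρ h => (hex ⟨ρ, h⟩).elim⟩
    have := Fintype.linearIndependent_iff.1 hli (fun i => a i) (funext fun θ => by
      rw [Finset.sum_apply]
      exact (Fin.sum_univ_eq_sum_range (fun i => a i * (σ ^ i) θ) _).trans (h0 θ)) ⟨0, hn⟩
    simp [a] at this

end gal

/-- `SK₁ = 1` below dimension `n` -/
def SKlt (n : ℕ) : Prop :=
  ∀ (F : Type u) (B : Type v) [Field F] [NumberField F] [Ring B] [Algebra F B]
    [Algebra.IsCentral F B] [IsSimpleRing B] [FiniteDimensional F B], finrank F B < n → SK F B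

section cyc
variable {F M : Type u} {B : Type v} [Field F] [NumberField F] [Ring B] [Algebra F B]
  [Algebra.IsCentral F B] [IsSimpleRing B] [FiniteDimensional F B] [Field M] [Algebra F M] [FiniteDimensional F M]
  [IsGalois F M] [IsCyclic (M ≃ₐ[F] M)]

theorem cyc_step (hH : HsmStmt.{u, v}) (ih : SKlt.{u, v} (finrank F B)) (hM : finrank F M ≠ 1)
    (j : M →ₐ[F] B) (x : Bˣ) (hc : ∀ a, j a * x = x * j a) (hx : Nrd F (x : B) = 1) :
    Abelianization.of x = 1 := by
  have := NumberField.of_module_finite F M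
  let C := Subalgebra.centralizer F (Set.range j)
  have mem : ∀ z : B, z ∈ C ↔ ∀ a, j a * z = z * j a := fun z =>
    ⟨fun h a => h _ ⟨a, rfl⟩, fun h _ ⟨a, e⟩ => e ▸ h a⟩
  let jC : M →ₐ[F] C := j.codRestrict C fun a => (mem _).2 fun b => by
    rw [← map_mul, mul_comm, map_mul]
  let _ : Algebra M C := jC.toRingHom.toAlgebra' fun a c => Subtype.ext ((mem _).1 c.2 a)
  have alg : ∀ a : M, ((algebraMap M C a : C) : B) = j a := fun _ => rfl
  have : IsScalarTower F M C := IsScalarTower.of_algebraMap_eq fun c => (jC.commutes c).symm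
  have : IsSimpleRing C := isSimpleRing_centralizer_range j
  have : FiniteDimensional M C := Module.Finite.of_restrictScalars_finite F M C
  have : Algebra.IsCentral M C := by
    refine ⟨fun z hz => ?_⟩
    have : IsSimpleRing j.range := .of_ringEquiv (AlgEquiv.ofInjectiveField j).toRingEquiv
      inferInstance
    have h1 : (z : B) ∈ Subalgebra.centralizer F
        (Subalgebra.centralizer F (j.range : Set B) : Set B) := fun y hy =>
      congrArg Subtype.val (Subalgebra.mem_center_iff.1 hz ⟨y, hy⟩)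
    rw [centralizer_centralizer] at h1
    obtain ⟨a, ha⟩ := h1
    exact ⟨a, Subtype.ext ha⟩
  have hdim : finrank F B = finrank F M * finrank F C := (finrank_centralizer_range j).symm
  have hlt : finrank M C < finrank F B := by
    have h1 : 1 < finrank F M := lt_of_le_of_ne finrank_pos hM.symm
    have h2 : 0 < finrank M C := finrank_pos
    rw [hdim, ← finrank_mul_finrank F M C]
    nlinarith [Nat.mul_pos (zero_lt_one.trans h1) h2]
  obtain ⟨σ, hσ⟩ := IsCyclic.exists_generator (α := M ≃ₐ[F] M)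
  obtain ⟨g, hg⟩ := skolemNoether j (j.comp (σ : M →ₐ[F] M))
  have hg' : ∀ a, j (σ a) = g * j a * ↑g⁻¹ := hg
  let γ : C →+* C :=
    { toFun := fun y => ⟨g * y * ↑g⁻¹, (mem _).2 fun a => by
        rw [← σ.apply_symm_apply a, hg']
        simp only [mul_assoc, Units.inv_mul_cancel_left]
        rw [← mul_assoc (j _), (mem _).1 y.2, mul_assoc]⟩
      map_one' := Subtype.ext (by simp)
      map_mul' := fun a b => Subtype.ext (by simp [mul_assoc])
      map_zero' := Subtype.ext (by simp)
      map_add' := fun a b => Subtype.ext (by simp [mul_add, add_mul]) }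
  have hγ : ∀ y : C, Nrd M (γ y) = σ (Nrd M y) :=
    Nrd_map (σ : M →+* M) γ (fun c => Subtype.ext (hg' c).symm) rfl
  let xC : Cˣ := ⟨⟨x, (mem _).2 hc⟩, ⟨↑x⁻¹, (mem _).2 fun a => by
    rw [Units.mul_inv_eq_iff_eq_mul, mul_assoc, hc, Units.inv_mul_cancel_left]⟩,
    Subtype.ext x.mul_inv, Subtype.ext x.inv_mul⟩
  have hu : Algebra.norm F (Nrd M (xC : C)) = 1 := by
    rw [← Nrd_tower C.val hdim]; exact hx
  obtain ⟨e, he0, he, hpos⟩ := h90_pos hσ hu (Dfn M C) fun ρ hρ i => by
    have : ∀ i : ℕ, ∃ z : Cˣ, Nrd M (z : C) = (σ ^ i) (Nrd M (xC : C)) := by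
      intro i
      induction i with
      | zero => exact ⟨xC, rfl⟩
      | succ i ih =>
        obtain ⟨z, hz⟩ := ih
        exact ⟨Units.map γ.toMonoidHom z, by
          rw [pow_succ', AlgEquiv.mul_apply, ← hz, ← hγ]; rfl⟩
    obtain ⟨z, hz⟩ := this i
    exact hz ▸ hρ z
  obtain ⟨y, hy⟩ := hsm hH he0 hpos
  have h1 := ih M C hlt (xC * Units.map γ.toMonoidHom y * y⁻¹) (by
    have : Nrd M ((Units.map γ.toMonoidHom y : Cˣ) : C) = σ e := by rw [← hy, ← hγ]; rfl
    rw [Units.val_mul, Units.val_mul, map_mul, map_mul, this, he, ← hy, ← map_mul, Units.mul_inv,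
      map_one])
  let ι : Cˣ →* Bˣ := Units.map (C.val : C →* B)
  have h2 := of_map ι (h1.trans (map_one _).symm)
  have e1 : ι xC = x := Units.ext rfl
  have e2 : ι (Units.map γ.toMonoidHom y) = g * ι y * g⁻¹ := Units.ext rfl
  simp only [map_mul, map_inv, map_one, e1, e2] at h2
  rwa [mul_inv_cancel_comm, mul_inv_cancel_right] at h2

end cyc

theorem commute_aeval {R A : Type*} [CommRing R] [Ring A] [Algebra R A] {a b : A}
    (h : Commute a b) (q : R[X]) : Commute (aeval a q) b := by
  rw [aeval_eq_sum_range]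
  exact Commute.sum_left _ _ _ fun i _ => (h.pow_left i).smul_left _

section main
variable {F : Type u} [Field F] [NumberField F]

theorem SK_of_not_div {B : Type v} [Ring B] [Algebra F B] [Algebra.IsCentral F B] [IsSimpleRing B]
    [FiniteDimensional F B] (ih : SKlt.{u, v} (finrank F B)) (h : ¬ IsDomain B) : SK F B := by
  obtain ⟨r, e, D, _, _, _, _, hr, he, hre, hD, ⟨φ⟩⟩ :=
    Hsm.exists_wedderburn F B (finrank_eq_deg_sq F B)
  have : NeZero r := ⟨hr.ne'⟩
  refine SK.of_matrix φ (ih F D ?_)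
  have h1 : r ≠ 1 := by
    rintro rfl
    let ψ : Matrix (Fin 1) (Fin 1) D →+* D :=
      { toFun := fun A => A 0 0
        map_one' := rfl
        map_mul' := fun A B => by simp [Matrix.mul_apply]
        map_zero' := rfl
        map_add' := fun _ _ => rfl }
    exact h ((ψ.comp (φ : B →+* _)).injective.isDomain _)
  rw [hD, finrank_eq_deg_sq F B, hre]
  exact Nat.pow_lt_pow_left (by nlinarith [lt_of_le_of_ne hr h1.symm]) two_ne_zero

theorem p_step (hH : HsmStmt.{u, v}) {B : Type v} [Ring B] [Algebra F B] [Algebra.IsCentral F B]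
    [IsSimpleRing B] [FiniteDimensional F B] [IsDomain B] (ih : SKlt.{u, v} (finrank F B))
    {N : Type u} [Field N] [Algebra F N] [FiniteDimensional F N] [IsGalois F N] {p : ℕ}
    [Fact p.Prime] (hp : IsPGroup p (N ≃ₐ[F] N)) {θ : B} (hθ : ∀ c, algebraMap F B c ≠ θ)
    (hspl : ((minpoly F θ).map (algebraMap F N)).Splits) (x : Bˣ) (hc : Commute θ x)
    (hx : Nrd F (x : B) = 1) : Abelianization.of x = 1 := by
  have hint : IsIntegral F θ := Algebra.IsIntegral.isIntegral _
  obtain ⟨θ', hθ'⟩ := hspl.exists_eval_eq_zero (by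
    rw [degree_map]; exact (minpoly.degree_pos hint).ne')
  rw [eval_map_algebraMap] at hθ'
  have hmin : minpoly F θ = minpoly F θ' :=
    minpoly.eq_of_irreducible_of_monic (minpoly.irreducible hint) hθ' (minpoly.monic hint)
  have hbot : θ' ∉ (⊥ : IntermediateField F N) := by
    rintro ⟨c, rfl⟩
    have h2 := minpoly.aeval F θ
    rw [hmin, show (Algebra.ofId F N).toRingHom c = algebraMap F N c from rfl,
      minpoly.eq_X_sub_C, map_sub, aeval_X, aeval_C, sub_eq_zero] at h2
    exact hθ c h2.symm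
  obtain ⟨M, hle, _, _, hM⟩ := exists_cyclic hp hbot
  have hi : IsIntegral F θ' := Algebra.IsIntegral.isIntegral _
  let pb := IntermediateField.adjoin.powerBasis hi
  have hpb : aeval θ (minpoly F pb.gen) = 0 := by
    rw [IntermediateField.adjoin.powerBasis_gen, IntermediateField.minpoly_gen, ← hmin]
    exact minpoly.aeval F _
  refine cyc_step hH ih hM ((pb.lift θ hpb).comp (IntermediateField.inclusion hle)) x
    (fun a => ?_) hx
  obtain ⟨q, hq⟩ := pb.exists_eq_aeval' (IntermediateField.inclusion hle a)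
  rw [AlgHom.comp_apply, hq, PowerBasis.lift_aeval]
  exact (commute_aeval hc q).eq

theorem SK_div (hH : HsmStmt.{u, max u v}) {D : Type (max u v)} [DivisionRing D] [Algebra F D]
    [Algebra.IsCentral F D] [FiniteDimensional F D] (ih : SKlt.{u, max u v} (finrank F D)) :
    SK F D := by
  intro x hx
  by_cases h1 : finrank F D = 1
  · obtain ⟨c, hc⟩ := (Algebra.finrank_eq_one_iff_bijective_algebraMap.1 h1).2 x
    rw [← hc, Nrd_algebraMap, deg_eq F (d := 1) h1, pow_one] at hx
    rw [show x = 1 from Units.ext (by rw [← hc, hx, map_one]; rfl), map_one]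
  obtain ⟨θ, hθ, hxθ⟩ : ∃ θ : D, (∀ c, algebraMap F D c ≠ θ) ∧ Commute θ x := by
    by_cases hxF : ∀ c, algebraMap F D c ≠ x
    · exact ⟨x, hxF, Commute.refl _⟩
    · push Not at hxF
      obtain ⟨c, hc⟩ := hxF
      by_contra hn
      push Not at hn
      refine h1 (Algebra.finrank_eq_one_iff_bijective_algebraMap.2
        ⟨(algebraMap F D).injective, fun z => ?_⟩)
      by_contra hz
      exact hn z (fun c e => hz ⟨c, e⟩) (hc ▸ (Algebra.commutes c z).symm)
  have key : ∀ p : ℕ, p.Prime → ∃ m : ℕ, ¬ p ∣ m ∧ Abelianization.of x ^ m = 1 := by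
    intro p hp
    have := Fact.mk hp
    have hint : IsIntegral F θ := Algebra.IsIntegral.isIntegral θ
    let N := (minpoly F θ).SplittingField
    have : IsGalois F N := IsGalois.of_separable_splitting_field
      (minpoly.irreducible hint).separable
    obtain ⟨P⟩ : Nonempty (Sylow p (N ≃ₐ[F] N)) := inferInstance
    let L := IntermediateField.fixedField (P : Subgroup (N ≃ₐ[F] N))
    have := NumberField.of_module_finite F L
    have hm : finrank F L = (P : Subgroup (N ≃ₐ[F] N)).index := by
      have a1 := finrank_mul_finrank F L N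
      rw [IntermediateField.finrank_fixedField_eq_card, ← IsGalois.card_aut_eq_finrank F N,
        ← (P : Subgroup (N ≃ₐ[F] N)).index_mul_card] at a1
      exact Nat.eq_of_mul_eq_mul_right Nat.card_pos a1
    refine ⟨finrank F L, hm ▸ P.not_dvd_index, transfer L ?_⟩
    have := isSimpleRing_tensor (K := F) (A := L) (B := D)
    have := isCentral_tensor (K := F) (F := L) (A := L) (B := D)
    have hdim : finrank L (L ⊗[F] D) = finrank F D := finrank_baseChange
    have hx' : Nrd L (inc F L x : L ⊗[F] D) = 1 := by rw [inc_val, Nrd_bc, hx, map_one]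
    by_cases hdom : IsDomain (L ⊗[F] D)
    swap
    · exact SK_of_not_div (by rw [hdim]; exact ih) hdom _ hx'
    let ι : D →ₐ[F] L ⊗[F] D := Algebra.TensorProduct.includeRight
    have hdvd : minpoly L (ι θ) ∣ (minpoly F θ).map (algebraMap F L) :=
      minpoly.dvd L _ (by rw [aeval_map_algebraMap, aeval_algHom_apply, minpoly.aeval, map_zero])
    refine p_step hH (by rw [hdim]; exact ih)
      (P.isPGroup'.of_equiv (IntermediateField.subgroupEquivAlgEquiv _)) (θ := ι θ) (fun c h2 => ?_)
      ?_ _ (hxθ.map ι) hx'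
    · have : θ ∈ Subalgebra.center F D := Subalgebra.mem_center_iff.2 fun z =>
        ι.toRingHom.injective (by
          change ι (z * θ) = ι (θ * z)
          rw [map_mul, map_mul, ← h2, Algebra.commutes])
      obtain ⟨a, ha⟩ := (Algebra.IsCentral.mem_center_iff F).1 this
      exact hθ a ha.symm
    · refine (SplittingField.splits (minpoly F θ)).of_dvd
        (map_ne_zero (minpoly.ne_zero hint)) ?_
      rw [IsScalarTower.algebraMap_eq F L N, ← Polynomial.map_map]
      exact Polynomial.map_dvd _ hdvd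
  obtain ⟨m, hm2, hm⟩ := key 2 Nat.prime_two
  have hfin : orderOf (Abelianization.of x) ≠ 0 := fun h => by
    have := orderOf_dvd_of_pow_eq_one hm
    rw [h, zero_dvd_iff] at this
    exact hm2 (this ▸ dvd_zero 2)
  rw [← orderOf_eq_one_iff]
  by_contra hne
  obtain ⟨p, hp, hdvd⟩ := Nat.exists_prime_and_dvd hne
  obtain ⟨m, h1, h2⟩ := key p hp
  exact h1 (hdvd.trans (orderOf_dvd_of_pow_eq_one h2))

theorem skLt (hH : HsmStmt.{u, max u v}) (n : ℕ) : SKlt.{u, max u v} n := by
  induction n with
  | zero => intro F B _ _ _ _ _ _ _ h; exact absurd h (Nat.not_lt_zero _)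
  | succ n ih =>
    intro F B _ _ _ _ _ _ _ h
    have mono : ∀ m ≤ n, SKlt.{u, max u v} m := fun m hm F B _ _ _ _ _ _ _ h => ih F B (h.trans_le hm)
    obtain ⟨r, e, D, _, _, _, _, hr, he, hre, hD, ⟨φ⟩⟩ :=
      Hsm.exists_wedderburn F B (finrank_eq_deg_sq F B)
    have : NeZero r := ⟨hr.ne'⟩
    refine SK.of_matrix φ (SK_div.{u, v} hH (mono _ (le_trans ?_ (Nat.lt_succ_iff.1 h))))
    rw [hD, finrank_eq_deg_sq F B, hre]
    exact Nat.pow_le_pow_left (Nat.le_mul_of_pos_left _ hr) 2

theorem sk (hH : HsmStmt.{u, max u v}) {B : Type v} [Ring B] [Algebra F B] [Algebra.IsCentral F B]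
    [IsSimpleRing B] [FiniteDimensional F B] : SK F B := by
  intro x hx
  have := isSimpleRing_tensor (K := F) (A := F) (B := B)
  have := isCentral_tensor (K := F) (F := F) (A := F) (B := B)
  have h := skLt.{u, v} hH _ F (F ⊗[F] B) (Nat.lt_succ_self _) (inc F F x)
    (by rw [inc_val, Nrd_bc, hx, map_one])
  let e := Algebra.TensorProduct.lid F B
  have h2 := of_map (Units.map (e : F ⊗[F] B →* B)) (h.trans (map_one _).symm)
  rwa [map_one, map_one, show Units.map (e : F ⊗[F] B →* B) (inc F F x) = x from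
    Units.ext (by simp [e, inc_val])] at h2

/-- **Wang's theorem** -/
theorem wang (hH : HsmStmt.{u, max u v}) {B : Type v} [Ring B] [Algebra F B]
    [Algebra.IsCentral F B] [IsSimpleRing B] [FiniteDimensional F B] (x : Bˣ)
    (hx : Nrd F (x : B) = 1) : x ∈ commutator Bˣ := by
  rw [← Abelianization.ker_of]
  exact sk hH x hx

end main

end Crest.Agent.T24.Wg
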