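import Crest.Agent.T24.InGd_71
import Crest.Agent.T24.InCtr_50
import Crest.Agent.T24.InNearG_23
import Crest.Agent.T24.InRootG_3
import Crest.Agent.T24.WgWang_25

/-!
# Row 24, inner step (helper71): the relative theorem of Wang for germs of characters
-/

set_option autoImplicit false
set_option linter.unusedSectionVars false

namespace Crest.Agent.T24.In

open Filter Module Polynomial NumberField
open scoped TensorProduct IntermediateField
open Crest.Agent.T24.Csa Crest.Agent.T24.Hsm Crest.Agent.T24.Asa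

universe u v w

section Basic

variable (N : ℕ) (K : Type*) [Field K] [NumberField K] (B : Type*) [Ring B] [Algebra K B]
  [Algebra ℚ B] [Algebra.IsCentral K B] [IsSimpleRing B] [FiniteDimensional K B]
  (X : Type*) [CommGroup X]

/-- germs of characters are trivial on `SL₁` -/
def GW : Prop := ∀ θ : B → X, LG N θ → ∀ᶠ x in ng N (1 : B), Nrd K x = 1 → θ x = 1

variable {N K B X}

theorem GW.of_equiv {C : Type*} [Ring C] [Algebra K C] [Algebra ℚ C] [Algebra.IsCentral K C]
    [IsSimpleRing C] [FiniteDimensional K C] (e : B ≃ₐ[K] C) (h : GW N K C X) : GW N K B X := by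
  intro θ hθ
  have := fdQ K B
  have := fdQ K C
  filter_upwards [(ng_hom (e : B →+* C)).eventually (h _ (hθ.comp_hom (e.symm : C →+* B)))]
    with x hx h1
  simpa using hx ((Wg.Nrd_equiv e x).trans h1)

theorem GW.matrix (hN : 2 ≤ N) {ι : Type*} [Fintype ι] [DecidableEq ι] [Nonempty ι]
    (h : GW N K B X) : GW N K (Matrix ι ι B) X := by
  classical
  intro θ hθ
  have := fdQ K B
  obtain ⟨i₀⟩ : Nonempty ι := inferInstance
  let ν : Matrix ι ι B → Kˣ := fun A => if h : Nrd K A = 0 then 1 else Units.mk0 _ h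
  have hν : ∀ A, Nrd K A ≠ 0 → (ν A : K) = Nrd K A := fun A hA => by simp [ν, hA]
  have hu : ∀ᶠ A in ng N (1 : Matrix ι ι B), Nrd K A ≠ 0 :=
    (ng_isUnit hN).mono fun A hA => (isUnit_iff_Nrd A).1 hA
  have hΦ : LG N fun A => (θ A, ν A) := by
    filter_upwards [hθ, hu.prod_mk hu] with p h1 h2
    refine Prod.ext h1 (Units.ext ?_)
    rw [hν _ (by rw [map_mul]; exact mul_ne_zero h2.1 h2.2), map_mul, ← hν _ h2.1, ← hν _ h2.2]
    rfl
  filter_upwards [gRed hN ι _ hΦ i₀ _ ((h _ (hθ.comp (ng_En i₀) (En_mul i₀))).and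
    ((ng_En i₀).eventually hu)), hu] with A ⟨d, ⟨h1, h2⟩, h3⟩ h4 h5
  obtain ⟨h6, h7⟩ := Prod.ext_iff.1 h3
  have h8 : (ν A : K) = ν (En i₀ d) := congrArg _ h7
  rw [hν _ h4, hν _ h2, h5, En, Nrd_diagonal, Finset.prod_eq_single i₀ (fun j _ hj => by simp [hj])
    (by simp), Function.update_self] at h8
  exact h6.trans (h1 h8.symm)

omit [Algebra ℚ B] in
theorem SplN.bc (h : SplN N K B) (L : Type*) [Field L] [NumberField L] [Algebra K L] :
    SplN N L (L ⊗[K] B) := fun w hw => by
  rw [deg_eq L (B := L ⊗[K] B) (finrank_baseChange.trans (finrank_eq_deg_sq K B))]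
  exact (Spl.up w (h (below K w) fun hh => hw (by simpa using Ideal.mem_comap.1 hh))).bc

omit [Algebra ℚ B] in
theorem SplN.cz (h : SplN N K B) {E : Type*} [Field E] [NumberField E] [Algebra K E]
    (i : E →ₐ[K] B) : SplN N E (Cz i) := fun w hw =>
  spl_Cz i _ (Spl.up w (h (below K w) fun hh => hw (by simpa using Ideal.mem_comap.1 hh)))

end Basic

section Main

variable {N : ℕ} {X : Type w} [CommGroup X] {F : Type u} [Field F] [NumberField F]

/-- Hasse–Schilling–Maass near `1` -/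
theorem hsG (hN : 2 ≤ N) {B : Type v} [Ring B] [Algebra F B] [Algebra ℚ B] [Algebra.IsCentral F B]
    [IsSimpleRing B] [FiniteDimensional F B] (hS : SplN N F B) {U : Set B} (hU : U ∈ ng N (1 : B)) :
    ∀ᶠ e in ng N (1 : F), ∃ c ∈ U, Nrd F c = e := by
  have := fdQ F B
  obtain ⟨y₀, hy₀⟩ := exists_separable F B
  obtain ⟨t, ht⟩ : ∃ t, (rch F y₀).eval t ≠ 0 := by
    by_contra h
    push Not at h
    exact (rch_monic F y₀).ne_zero (Polynomial.funext fun t => by simp [h t])
  obtain ⟨z, hz⟩ := (isUnit_iff_Nrd (K := F) (algebraMap F B t - y₀)).2 (by rwa [← eval_rch])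
  have h1 : Tendsto (fun y => (algebraMap F B t - y) * (z⁻¹ : Bˣ)) (ng N y₀) (ng N 1) := by
    have := ng_mul (ng_sub (ng_const (algebraMap F B t)) (tendsto_id (x := ng N y₀)))
      (ng_const ((z⁻¹ : Bˣ) : B))
    rwa [← hz, Units.mul_inv] at this
  obtain ⟨V, hV, H⟩ := nearG N hN F B hS y₀ hy₀ _ (h1 hU)
  have h2 : Tendsto (fun e : F => (e - 1) * (rch F y₀).eval t) (ng N 1) (ng N 0) := by
    simpa using ng_mul (ng_sub (tendsto_id (x := ng N (1 : F))) (ng_const 1))
      (ng_const ((rch F y₀).eval t))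
  filter_upwards [h2 hV] with e he
  obtain ⟨y, hy, e1⟩ := H (rch F y₀ + C ((e - 1) * (rch F y₀).eval t))
    ((rch_monic F y₀).add_of_left (degree_C_le.trans_lt
      (natDegree_pos_iff_degree_pos.1 (by rw [rch_natDegree]; exact deg_pos F B))))
    (by rw [natDegree_add_C, rch_natDegree]) fun i => by
      rw [coeff_add, add_sub_cancel_left, coeff_C]
      split_ifs
      exacts [he, self_of_ng hV]
  refine ⟨_, hy, mul_right_cancel₀ ht ?_⟩
  rw [eval_rch, ← map_mul, ← hz, Units.inv_mul_cancel_right, ← eval_rch, e1, hz, ← eval_rch]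
  simp [sub_mul]

theorem h90 {L E : Type*} [Field L] [Field E] [Algebra L E] [FiniteDimensional L E] [IsGalois L E]
    {σ : E ≃ₐ[L] E} (hσ : ∀ x, x ∈ Subgroup.zpowers σ) {u : E} (hu : Algebra.norm L u = 1) :
    u * σ (∑ i ∈ Finset.range (orderOf σ), ∏ j ∈ Finset.range i, (σ ^ j) u) =
      ∑ i ∈ Finset.range (orderOf σ), ∏ j ∈ Finset.range i, (σ ^ j) u := by
  classical
  let a : ℕ → E := fun i => ∏ j ∈ Finset.range i, (σ ^ j) u
  have han : a (orderOf σ) = 1 := by
    rw [← map_one (algebraMap L E), ← hu, Algebra.norm_eq_prod_automorphisms,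
      ← IsCyclic.image_range_orderOf hσ, Finset.prod_image]
    intro i hi j hj h
    exact pow_injOn_Iio_orderOf (by simpa using hi) (by simpa using hj) h
  have h1 : ∀ i, u * σ (a i) = a (i + 1) := fun i => by
    simp only [a, Finset.prod_range_succ', map_prod, pow_succ', AlgEquiv.mul_apply,
      pow_zero, AlgEquiv.one_apply]
    ring
  have h2 := (Finset.sum_range_succ a (orderOf σ)).symm.trans (Finset.sum_range_succ' _ _)
  rw [han, show a 0 = 1 from Finset.prod_range_zero _, add_left_inj] at h2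
  rw [map_sum, Finset.mul_sum]
  exact (Finset.sum_congr rfl fun i _ => h1 i).trans h2.symm

variable (N X) in
/-- the theorem below dimension `d` -/
def WLt (d : ℕ) : Prop :=
  ∀ (F : Type u) (B : Type v) [Field F] [NumberField F] [Ring B] [Algebra F B] [Algebra ℚ B]
    [Algebra.IsCentral F B] [IsSimpleRing B] [FiniteDimensional F B], SplN N F B →
    finrank F B < d → GW N F B X

section
variable {B : Type v} [Ring B] [Algebra F B] [Algebra ℚ B] [Algebra.IsCentral F B]
  [IsSimpleRing B] [FiniteDimensional F B]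

theorem cycG (hN : 2 ≤ N) (hS : SplN N F B) (ih : WLt.{u, v} N X (finrank F B)) {M : Type u}
    [Field M] [Algebra F M] [FiniteDimensional F M] [IsGalois F M] [IsCyclic (M ≃ₐ[F] M)]
    (hM : finrank F M ≠ 1) (j : M →ₐ[F] B) {θ : B → X} (hθ : LG N θ) :
    ∀ᶠ x in ng N (1 : B), x ∈ Cz j → Nrd F x = 1 → θ x = 1 := by
  have := NumberField.of_module_finite F M
  have := fdQ F B
  have := fdQ M (Cz j)
  have hlt : finrank M (Cz j) < finrank F B := by
    have h1 : 1 < finrank F M := lt_of_le_of_ne finrank_pos hM.symm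
    have h2 : 0 < finrank M (Cz j) := finrank_pos
    rw [← Cz.finrank_mul j, ← finrank_mul_finrank F M (Cz j)]
    nlinarith [Nat.mul_pos (zero_lt_one.trans h1) h2]
  obtain ⟨σ, hσ⟩ := IsCyclic.exists_generator (α := M ≃ₐ[F] M)
  obtain ⟨s, hs⟩ := skolemNoether j (j.comp (σ : M →ₐ[F] M))
  have hs' : ∀ a, j (σ a) = s * j a * ↑s⁻¹ := hs
  let γ : Cz j →+* Cz j :=
    { toFun := fun y => ⟨s * y * ↑s⁻¹, Cz.mem_iff.2 fun a => by
        rw [← σ.apply_symm_apply a, hs']
        simp only [mul_assoc, Units.inv_mul_cancel_left]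
        rw [← mul_assoc (j _), Cz.mem_iff.1 y.2, mul_assoc]⟩
      map_one' := Subtype.ext (by simp)
      map_mul' := fun a b => Subtype.ext (by simp [mul_assoc])
      map_zero' := Subtype.ext (by simp)
      map_add' := fun a b => Subtype.ext (by simp [mul_add, add_mul]) }
  have hγ : ∀ y : Cz j, Nrd M (γ y) = σ (Nrd M y) :=
    Nrd_map (σ : M →+* M) γ (fun c => Subtype.ext (hs' c).symm) rfl
  let ι : Cz j →+* B := (Cz j).val
  have hθ' := hθ.comp_hom ι
  have t1 := tendsto_fst (f := ng N (1 : Cz j)) (g := ng N (1 : Cz j))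
  have t2 := tendsto_snd (f := ng N (1 : Cz j)) (g := ng N (1 : Cz j))
  have t3 := (ng_hom γ).comp t2
  have t4 := ng_mul_one (ng_mul_one t1 t3) (ng_inv hN t2)
  obtain ⟨W, hW, U, hU, H⟩ := eventually_prod_iff.1
    ((t4.eventually (ih M (Cz j) (hS.cz j) hlt _ hθ')).and <| (hθ'.mul t4 t2).and <|
      (hθ'.mul t1 t3).and <| (((ng_hom ι).comp t2).eventually (hθ.inv hN s.inv_mul)).and
        (t2.eventually (ng_isUnit hN)))
  have hq : (orderOf σ : M) ≠ 0 := by exact_mod_cast (orderOf_pos σ).ne'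
  have t5 : Tendsto (fun u : M => (orderOf σ : M)⁻¹ *
      ∑ i ∈ Finset.range (orderOf σ), ∏ j ∈ Finset.range i, (σ ^ j) u) (ng N 1) (ng N 1) := by
    have := ng_mul (ng_const (orderOf σ : M)⁻¹) (ng_sum (Finset.range (orderOf σ)) fun i _ =>
      ng_prod (Finset.range i) fun j _ => ng_hom (N := N) ((σ ^ j : M ≃ₐ[F] M) : M →+* M))
    simpa [hq] using this
  have key : ∀ᶠ g : Cz j in ng N (1 : Cz j), Nrd F (g : B) = 1 → θ g = 1 := by
    filter_upwards [hW, (t5.comp (ng_Nrd_one M)).eventually (hsG hN (hS.cz j) hU)]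
      with g hg ⟨c, hc, e⟩ h1
    obtain ⟨k1, k2, k3, k4, k5⟩ := H hg hc
    simp only [Function.comp] at k1 k2 k3 k4 k5 e
    have e2 : Nrd M g * σ (Nrd M c) = Nrd M c := by
      rw [e, map_mul, mul_left_comm, h90 hσ (by rw [← Cz.Nrd_coe, h1]), map_inv₀, map_natCast]
    rw [k1 (by rw [map_mul, map_mul, hγ, e2, ← map_mul, Ring.mul_inverse_cancel _ k5, map_one]),
      one_mul, Ring.inverse_mul_cancel_right _ _ k5, k3] at k2
    exact mul_eq_right.1 (k2.trans k4.symm)
  have := (ng_of_inj ι.toAddMonoidHom Subtype.val_injective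
    (tendsto_comap (f := fun x => ι.toAddMonoidHom (id x)))).eventually key
  filter_upwards [eventually_comap.1 this] with x hx h1
  exact hx ⟨x, h1⟩ rfl

theorem pG [IsDomain B] (hN : 2 ≤ N) (hS : SplN N F B) (ih : WLt.{u, v} N X (finrank F B))
    {M : Type u} [Field M] [Algebra F M] [FiniteDimensional F M] [IsGalois F M] {p : ℕ}
    [Fact p.Prime] (hp : IsPGroup p (M ≃ₐ[F] M)) {y : B} (hy : ∀ c, algebraMap F B c ≠ y)
    (hspl : ((minpoly F y).map (algebraMap F M)).Splits) {θ : B → X} (hθ : LG N θ) :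
    ∀ᶠ x in ng N (1 : B), Commute y x → Nrd F x = 1 → θ x = 1 := by
  have hint : IsIntegral F y := Algebra.IsIntegral.isIntegral _
  obtain ⟨y', hy'⟩ := hspl.exists_eval_eq_zero (by
    rw [degree_map]; exact (minpoly.degree_pos hint).ne')
  rw [eval_map_algebraMap] at hy'
  have hmin : minpoly F y = minpoly F y' :=
    minpoly.eq_of_irreducible_of_monic (minpoly.irreducible hint) hy' (minpoly.monic hint)
  have hbot : y' ∉ (⊥ : IntermediateField F M) := by
    rintro ⟨c, rfl⟩
    have h2 := minpoly.aeval F y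
    rw [hmin, show (Algebra.ofId F M).toRingHom c = algebraMap F M c from rfl,
      minpoly.eq_X_sub_C, map_sub, aeval_X, aeval_C, sub_eq_zero] at h2
    exact hy c h2.symm
  obtain ⟨E, hle, _, _, hE⟩ := Wg.exists_cyclic hp hbot
  have hi : IsIntegral F y' := Algebra.IsIntegral.isIntegral _
  let pb := IntermediateField.adjoin.powerBasis hi
  have hpb : aeval y (minpoly F pb.gen) = 0 := by
    rw [IntermediateField.adjoin.powerBasis_gen, IntermediateField.minpoly_gen, ← hmin]
    exact minpoly.aeval F _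
  filter_upwards [cycG hN hS ih hE ((pb.lift y hpb).comp (IntermediateField.inclusion hle)) hθ]
    with x hx hc
  refine hx (Cz.mem_iff.2 fun a => ?_)
  obtain ⟨q, hq⟩ := pb.exists_eq_aeval' (IntermediateField.inclusion hle a)
  rw [AlgHom.comp_apply, hq, PowerBasis.lift_aeval]
  exact (Wg.commute_aeval hc q).eq

theorem gw_wedd (hN : 2 ≤ N) (hS : SplN N F B)
    (h : ∀ (D : Type v) [DivisionRing D] [Algebra F D] [Algebra ℚ D] [Algebra.IsCentral F D]
      [FiniteDimensional F D], SplN N F D → finrank F D ≤ finrank F B →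
      (finrank F D = finrank F B → IsDomain B) → GW N F D X) : GW N F B X := by
  obtain ⟨r, e, D, _, _, _, _, hr, he, hre, hD, ⟨φ⟩⟩ :=
    exists_wedderburn F B (finrank_eq_deg_sq F B)
  have : NeZero r := ⟨hr.ne'⟩
  let _ : Algebra ℚ D := Algebra.compHom D (algebraMap ℚ F)
  refine GW.of_equiv φ (GW.matrix hN (h D (fun v hv => ?_) ?_ fun h1 => ?_))
  · rw [deg_eq F hD]
    exact Spl.corner hr (hre ▸ (hS v hv).of_hom φ.symm.toAlgHom)
  · rw [hD, finrank_eq_deg_sq F B, hre]
    exact Nat.pow_le_pow_left (Nat.le_mul_of_pos_left _ hr) 2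
  · rw [hD, finrank_eq_deg_sq F B, hre, Nat.pow_left_inj two_ne_zero] at h1
    obtain rfl : r = 1 := Nat.eq_of_mul_eq_mul_right he (by rw [← h1, one_mul])
    let ψ : Matrix (Fin 1) (Fin 1) D →+* D :=
      { toFun := fun A => A 0 0
        map_one' := rfl
        map_mul' := fun A B => by simp [Matrix.mul_apply]
        map_zero' := rfl
        map_add' := fun _ _ => rfl }
    exact (ψ.comp (φ : B →+* _)).injective.isDomain _

end

theorem exists_reg (K L D : Type*) [Field K] [Field L] [Algebra K L] [FiniteDimensional K L]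
    [Ring D] [Algebra K D] :
    ∃ φ : L ⊗[K] D →ₐ[K] Matrix (Fin (finrank K L)) (Fin (finrank K L)) D,
      ∀ x : D, φ (1 ⊗ₜ x) = Matrix.diagonal fun _ => x :=
  ⟨Algebra.TensorProduct.lift
    ((Algebra.ofId K D).mapMatrix.comp (Algebra.leftMulMatrix (Module.finBasis K L)))
    (Matrix.scalarAlgHom _ K) fun a x => by
      change _ * Matrix.diagonal (fun _ => x) = Matrix.diagonal (fun _ => x) * _
      ext i j
      simp [Algebra.commutes], fun x => by simp⟩

theorem transG (hN : 2 ≤ N) {D C : Type*} [Ring D] [Algebra F D] [Algebra ℚ D]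
    [Algebra.IsCentral F D] [IsSimpleRing D] [FiniteDimensional F D] (L : Type*) [Field L]
    [NumberField L] [Ring C] [Algebra L C] [Algebra ℚ C] [Algebra.IsCentral L C] [IsSimpleRing C]
    [FiniteDimensional L C] {k : ℕ} (φ : C →+* Matrix (Fin k) (Fin k) D) (ι : D →+* C)
    (hφ : ∀ x, φ (ι x) = Matrix.diagonal fun _ => x) (hι : ∀ x, Nrd F x = 1 → Nrd L (ι x) = 1)
    (y : D) (H : ∀ θ : C → X, LG N θ →
      ∀ᶠ x in ng N (1 : C), Commute (ι y) x → Nrd L x = 1 → θ x = 1) {θ : D → X} (hθ : LG N θ) :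
    ∀ᶠ x in ng N (1 : D), Commute y x → Nrd F x = 1 → θ x ^ k = 1 := by
  have := fdQ F D
  have := fdQ L C
  obtain ⟨Θ, hΘ, hΘ'⟩ := gDet hN hθ (Fin k)
  filter_upwards [(ng_hom ι).eventually (H _ (hΘ.comp_hom φ)),
    (ng_pi (a := 1) fun _ => tendsto_id (x := ng N (1 : D))).eventually hΘ'] with x h1 h2 h3 h4
  have h5 := h1 (h3.map ι) (hι x h4)
  rw [hφ] at h5
  simpa using h2.symm.trans h5

section
variable {D : Type (max u v)} [DivisionRing D] [Algebra F D] [Algebra ℚ D]
  [Algebra.IsCentral F D] [FiniteDimensional F D]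

/-- one torus -/
theorem torusG (hN : 2 ≤ N) (hS : SplN N F D) (ih : WLt.{u, max u v} N X (finrank F D)) {n : ℕ}
    (hn : n ≠ 0) (hX : ∀ a : X, a ^ n = 1) {y : D} (hy : ∀ c, algebraMap F D c ≠ y) {θ : D → X}
    (hθ : LG N θ) : ∀ᶠ x in ng N (1 : D), Commute y x → Nrd F x = 1 → θ x = 1 := by
  have := fdQ F D
  have key : ∀ p : ℕ, p.Prime → ∃ m : ℕ, ¬ p ∣ m ∧
      ∀ᶠ x in ng N (1 : D), Commute y x → Nrd F x = 1 → θ x ^ m = 1 := by
    intro p hp
    have := Fact.mk hp
    have hint : IsIntegral F y := Algebra.IsIntegral.isIntegral y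
    let M := (minpoly F y).SplittingField
    have : IsGalois F M := IsGalois.of_separable_splitting_field
      (minpoly.irreducible hint).separable
    obtain ⟨P⟩ : Nonempty (Sylow p (M ≃ₐ[F] M)) := inferInstance
    let L := IntermediateField.fixedField (P : Subgroup (M ≃ₐ[F] M))
    have := NumberField.of_module_finite F L
    have hm : finrank F L = (P : Subgroup (M ≃ₐ[F] M)).index := by
      have a1 := finrank_mul_finrank F L M
      rw [IntermediateField.finrank_fixedField_eq_card, ← IsGalois.card_aut_eq_finrank F M,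
        ← (P : Subgroup (M ≃ₐ[F] M)).index_mul_card] at a1
      exact Nat.eq_of_mul_eq_mul_right Nat.card_pos a1
    refine ⟨finrank F L, hm ▸ P.not_dvd_index, ?_⟩
    have hdim : finrank L (L ⊗[F] D) = finrank F D := finrank_baseChange
    obtain ⟨φ, hφ⟩ := exists_reg F L D
    let ι : D →ₐ[F] L ⊗[F] D := Algebra.TensorProduct.includeRight
    refine transG hN L φ.toRingHom ι.toRingHom hφ
      (fun x hx => (Wg.Nrd_bc L x).trans (by rw [hx, map_one])) y (fun θ' hθ' => ?_) hθ
    by_cases hdom : IsDomain (L ⊗[F] D)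
    swap
    · refine (gw_wedd hN (hS.bc L) (fun E _ _ _ _ _ h1 h2 h3 => ih L E h1 ?_) _ hθ').mono
        fun _ h _ => h
      exact hdim ▸ lt_of_le_of_ne h2 fun h => hdom (h3 h)
    have hdvd : minpoly L (ι y) ∣ (minpoly F y).map (algebraMap F L) :=
      minpoly.dvd L _ (by rw [aeval_map_algebraMap, aeval_algHom_apply, minpoly.aeval, map_zero])
    refine pG hN (hS.bc L) (by rw [hdim]; exact ih)
      (P.isPGroup'.of_equiv (IntermediateField.subgroupEquivAlgEquiv _)) (y := ι y)
      (fun c h2 => ?_) ?_ hθ'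
    · have : y ∈ Subalgebra.center F D := Subalgebra.mem_center_iff.2 fun z =>
        ι.toRingHom.injective (by
          change ι (z * y) = ι (y * z)
          rw [map_mul, map_mul, ← h2, Algebra.commutes])
      obtain ⟨a, ha⟩ := (Algebra.IsCentral.mem_center_iff F).1 this
      exact hy a ha.symm
    · refine (SplittingField.splits (minpoly F y)).of_dvd
        (map_ne_zero (minpoly.ne_zero hint)) ?_
      rw [IsScalarTower.algebraMap_eq F L M, ← Polynomial.map_map]
      exact Polynomial.map_dvd _ hdvd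
  choose! m hm1 hm2 using key
  filter_upwards [(eventually_all_finset n.primeFactors).2 fun p hp =>
    hm2 p (Nat.prime_of_mem_primeFactors hp)] with x hx h1 h2
  rw [← orderOf_eq_one_iff]
  by_contra hne
  obtain ⟨p, hp, hdvd⟩ := Nat.exists_prime_and_dvd hne
  exact hm1 p hp (hdvd.trans (orderOf_dvd_of_pow_eq_one (hx p (Nat.mem_primeFactors.2
    ⟨hp, hdvd.trans (orderOf_dvd_of_pow_eq_one (hX _)), hn⟩) h1 h2)))

theorem divG (hN : 2 ≤ N) (hS : SplN N F D) (ih : WLt.{u, max u v} N X (finrank F D)) {n : ℕ}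
    (hn : n ≠ 0) (hX : ∀ a : X, a ^ n = 1) : GW N F D X := by
  intro θ hθ
  have := fdQ F D
  by_cases h1 : finrank F D = 1
  · refine .of_forall fun x hx => ?_
    obtain ⟨c, rfl⟩ := (Algebra.finrank_eq_one_iff_bijective_algebraMap.1 h1).2 x
    rw [Nrd_algebraMap, deg_eq F (d := 1) h1, pow_one] at hx
    rw [hx, map_one, hθ.one]
  have hd := (deg_pos F D).ne'
  obtain ⟨W, hW, H⟩ := ng_root hN F hd
  obtain ⟨U₁, hU₁, U₂, hU₂, hU⟩ := eventually_prod_iff.1 hθ
  have t1 : Tendsto (fun h : D => (Nrd F h)⁻¹ • h ^ deg F D) (ng N 1) (ng N 1) := by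
    simpa using ng_smul F (ng_inv hN (ng_Nrd_one (N := N) F (B := D)))
      (ng_pow (tendsto_id (x := ng N (1 : D))) (deg F D))
  have t2 : Tendsto (fun h : D => Nrd F h ^ n) (ng N 1) (ng N 1) := by
    simpa using ng_pow (ng_Nrd_one (N := N) F (B := D)) n
  filter_upwards [rootG N hN D (deg F D * n) (mul_ne_zero hd hn) _
    ((hθ.pow t1 n).and ((t2.eventually hW).and (ng_isUnit hN))), hU₁] with g ⟨h, hh, hl⟩ hg h2
  have hg0 : g ≠ 0 := by rintro rfl; simp at h2
  obtain ⟨y, hy, hc⟩ : ∃ y : D, (∀ c, algebraMap F D c ≠ y) ∧ Commute g y := by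
    by_cases hxF : ∀ c, algebraMap F D c ≠ g
    · exact ⟨g, hxF, Commute.refl _⟩
    · push Not at hxF
      obtain ⟨c, hc⟩ := hxF
      by_contra hn
      push Not at hn
      refine h1 (Algebra.finrank_eq_one_iff_bijective_algebraMap.2
        ⟨(algebraMap F D).injective, fun z => ?_⟩)
      by_contra hz
      exact hn z (fun c e => hz ⟨c, e⟩) (hc ▸ Algebra.commutes c z)
  have t3 : Tendsto (fun j => Nrd F (h j) ^ n) atTop (ng N 1) := by
    refine H _ _ (.of_forall fun j => (hh j).1.2.1) ?_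
    have := (ng_Nrd F g).comp hl
    rw [h2] at this
    exact this.congr fun j => by simp [← pow_mul, mul_comm]
  have t4 : Tendsto (fun j => g⁻¹ * ((Nrd F (h j))⁻¹ • h j ^ deg F D) ^ n) atTop (ng N 1) := by
    have := ng_mul (ng_const g⁻¹) (ng_smul F (ng_inv hN t3) hl)
    rw [one_smul, inv_mul_cancel₀ hg0] at this
    exact this.congr fun j => by simp [_root_.smul_pow, pow_mul]
  obtain ⟨j, k1, k2⟩ := ((t4.eventually (torusG hN hS ih hn hX hy hθ)).and
    (t4.eventually hU₂)).exists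
  have k3 := hU hg k2
  have k4 : Nrd F (h j) ≠ 0 := (isUnit_iff_Nrd _).1 (hh j).1.2.2
  rw [mul_inv_cancel_left₀ hg0, (hh j).1.1, hX, k1, mul_one] at k3
  · exact k3.symm
  · exact hc.symm.inv_right₀.mul_right
      (((((hh j).2 y hc).symm.pow_right _).smul_right _).pow_right _)
  · rw [map_mul, map_pow, Nrd_smul, map_pow, ← mul_pow, inv_mul_cancel₀ k4, one_pow, one_pow,
      mul_one, map_inv₀, h2, inv_one]

end

theorem wLt (hN : 2 ≤ N) {n : ℕ} (hn : n ≠ 0) (hX : ∀ a : X, a ^ n = 1) (d : ℕ) :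
    WLt.{u, max u v} N X d := by
  induction d with
  | zero => intro F B _ _ _ _ _ _ _ _ _ h; exact absurd h (Nat.not_lt_zero _)
  | succ d ih =>
    intro F B _ _ _ _ _ _ _ _ hS h
    refine gw_wedd hN hS fun D _ _ _ _ _ h1 h2 _ => divG.{u, v} hN h1 ?_ hn hX
    intro F' B' _ _ _ _ _ _ _ _ h3 h4
    exact ih F' B' h3 (by omega)

end Main

/-- **the relative theorem of Wang, germ form** -/
theorem germW : GermW.{u, v, w} := by
  intro N hN K _ _ B _ _ _ _ _ _ hS X _ n hn hX
  exact GW.of_equiv (Algebra.TensorProduct.lid K B).symm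
    (wLt.{u, v} hN hn hX _ K (K ⊗[K] B) (hS.bc K) (Nat.lt_succ_self _))

/-- **the inner step, valuation words** -/
theorem germStmt₀ : GermStmt.{u, v, w} := by
  intro K _ _ B _ _ _ _ _ e S m ε hε A _ n hn hA θ h
  let _ : Algebra ℚ B := Algebra.compHom B (algebraMap ℚ K)
  obtain ⟨N, hN, hs, hS⟩ := splStmt K B S
  have hb := valG N hN K B _ e 1
  have h1 : ∀ᶠ x in ng N (1 : B), Cl e S m ε x := hb.eventually_iff.2 ⟨(m, ε), hε, fun x hx =>
    ⟨fun v hv i => hx.1 v (hS v hv) i, hx.2⟩⟩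
  obtain ⟨p, hp, hp'⟩ := hb.eventually_iff.1
    (germW N hN K B hs A n hn hA θ ((h1.prod_mk h1).mono fun p hp => h _ _ hp.1 hp.2))
  have hfin : {v : Pl K | (N : 𝓞 K) ∈ v.asIdeal}.Finite := by
    have h0 : Ideal.span {(N : 𝓞 K)} ≠ 0 := by
      rw [Ne, Ideal.zero_eq_bot, Ideal.span_singleton_eq_bot, Nat.cast_eq_zero]; omega
    exact (Ideal.finite_factors h0).subset fun v hv => Ideal.dvd_span_singleton.2 hv
  exact ⟨hfin.toFinset, p.1, p.2, hp, fun x hx => hp'
    ⟨fun v hv i => hx.1 v (hfin.mem_toFinset.2 hv) i, hx.2⟩⟩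

end Crest.Agent.T24.In
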