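import Crest.Agent.T24.HolEA_65
import Crest.Agent.T24.InGct_54
import Crest.Agent.T24.InRootG_3
import Crest.Agent.T24.InW_71
import Crest.Agent.T24.InNearG_23
import Crest.Agent.T24.InCtr_50
import Crest.Agent.T24.Def_26

/-!
# Row 24, end of the holonomy step: `φ` is the germ of a homomorphism which kills the elements
whose reduced norm is fixed by the involution
-/

set_option autoImplicit false
set_option linter.unusedSectionVars false

noncomputable section

namespace Crest.Agent.T24.HolE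

open Filter Crest.Agent.T24.In Crest.Agent.T24.Csa

universe u v w

section Units

variable {N : ℕ} {B : Type v} [Ring B] [Algebra ℚ B] {α : Type*} {l : Filter α}

/-- the neighbourhoods of `1` in the unit group -/
def fu (N : ℕ) (B : Type v) [Ring B] [Algebra ℚ B] : Filter Bˣ := comap Units.val (ng N (1 : B))

theorem tendsto_fu {f : α → Bˣ} : Tendsto f l (fu N B) ↔ Tendsto (fun i => (f i : B)) l (ng N 1) :=
  tendsto_comap_iff

theorem tval : Tendsto Units.val (fu N B) (ng N (1 : B)) := tendsto_comap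

variable [FiniteDimensional ℚ B]

theorem gf (hN : 2 ≤ N) : GF (fu N B) where
  one U hU := by
    obtain ⟨V, hV, h⟩ := mem_comap.1 hU
    exact h (self_of_ng (p := (· ∈ V)) hV)
  mul := tendsto_fu.2 (ng_mul_one (tval.comp tendsto_fst) (tval.comp tendsto_snd))
  inv := tendsto_fu.2 ((ng_inv hN tval).congr fun u => Ring.inverse_unit u)

open Classical in
/-- the unit underlying an invertible element -/
def un (x : B) : Bˣ := if h : IsUnit x then h.unit else 1

omit [FiniteDimensional ℚ B] in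
theorem un_val {x : B} (h : IsUnit x) : (un x : B) = x := by rw [un, dif_pos h, IsUnit.unit_spec]

omit [FiniteDimensional ℚ B] in
theorem un_coe (u : Bˣ) : un (u : B) = u := Units.ext (un_val u.isUnit)

omit [FiniteDimensional ℚ B] in
theorem un_mul {x y : B} (hx : IsUnit x) (hy : IsUnit y) : un (x * y) = un x * un y :=
  Units.ext (by rw [Units.val_mul, un_val hx, un_val hy, un_val (hx.mul hy)])

theorem tun (hN : 2 ≤ N) : Tendsto un (ng N (1 : B)) (fu N B) :=
  tendsto_fu.2 (tendsto_id.congr' ((ng_isUnit hN).mono fun _ h => (un_val h).symm))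

theorem rt (hN : 2 ≤ N) : Rt (fu N B) := by
  intro U hU
  have hV : {x : B | un x ∈ U ∧ IsUnit x} ∈ ng N (1 : B) := inter_mem (tun hN hU) (ng_isUnit hN)
  refine ⟨_, tval (rootG N hN B 2 two_ne_zero _ hV), ?_⟩
  rintro x ⟨h, h1, h2⟩ W hW
  have h3 : Tendsto (fun j => x⁻¹ * un (h j) ^ 2) atTop (fu N B) := by
    rw [tendsto_fu]
    have := ng_mul (ng_const (l := atTop) ((x⁻¹ : Bˣ) : B)) h2
    rw [Units.inv_mul] at this
    exact this.congr fun j => by rw [Units.val_mul, Units.val_pow_eq_pow_val, un_val (h1 j).1.2]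
  obtain ⟨j, hj⟩ := (((gf hN).tinv h3).eventually hW).exists
  exact ⟨un (h j), (h1 j).1.1, _, hj, by group⟩

end Units

section Csa

variable {N : ℕ} (K : Type u) [Field K] [NumberField K] {B : Type v} [Ring B] [Algebra K B]
  [Algebra ℚ B] [Algebra.IsCentral K B] [IsSimpleRing B] [FiniteDimensional K B]

/-- the theorem of Wang for germs on the unit group -/
theorem gw (hW : GermW.{u, v, w}) (hN : 2 ≤ N) (hS : SplN N K B) {X : Type w} [CommGroup X] {n : ℕ}
    (hn : n ≠ 0) {θ : Bˣ → X} (h1 : E2 (fu N B) fun x y => θ (x * y) = θ x * θ y)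
    (h2 : ∀ᶠ x in fu N B, θ x ^ n = 1) : ∀ᶠ x : Bˣ in fu N B, Nrd K (x : B) = 1 → θ x = 1 := by
  classical
  have := fdQ K B
  let θ' : B → (powMonoidHom n : X →* X).ker := fun x =>
    if h : θ (un x) ^ n = 1 then ⟨θ (un x), h⟩ else 1
  have e : ∀ᶠ x in ng N (1 : B), (θ' x : X) = θ (un x) :=
    ((tun hN).eventually h2).mono fun x hx => by simp only [θ', dif_pos hx]
  have h3 := hW N hN K B hS _ n hn (fun a => Subtype.ext a.2) θ' (by
    filter_upwards [h1.ev ((tun hN).comp tendsto_fst) ((tun hN).comp tendsto_snd),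
      tendsto_fst.eventually e, tendsto_snd.eventually e,
      (ng_mul_one tendsto_fst tendsto_snd).eventually e, tendsto_fst.eventually (ng_isUnit hN),
      tendsto_snd.eventually (ng_isUnit hN)] with p a1 a2 a3 a4 a5 a6
    apply Subtype.ext
    rw [Subgroup.coe_mul, a2, a3, a4, un_mul a5 a6]
    exact a1)
  filter_upwards [tval.eventually h3, tval.eventually e] with x a1 a2 hx
  rw [un_coe] at a2
  rw [← a2, a1 hx]
  rfl

theorem gct (hC : GermCT.{u, v, w}) (hN : 2 ≤ N) (hS : SplN N K B) {A : Type w} [CommGroup A]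
    {β : Bˣ → Bˣ → A} (h1 : E3 (fu N B) fun x x' y => β (x * x') y = β x y * β x' y)
    (h2 : E3 (fu N B) fun x x' y => β y (x * x') = β y x * β y x')
    (h3 : E2 (fu N B) fun x y => x * y = y * x ∨ Nrd K (x : B) = 1 ∨ Nrd K (y : B) = 1 → β x y = 1) :
    E2 (fu N B) fun x y => β x y = 1 := by
  have := fdQ K B
  have h4 := hC N hN K B hS A (fun x y => β (un x) (un y)) (by
    filter_upwards [h1.ev ((tun hN).comp t31) ((tun hN).comp t32) ((tun hN).comp t33),
      h2.ev ((tun hN).comp t31) ((tun hN).comp t32) ((tun hN).comp t33),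
      t31.eventually (ng_isUnit hN), t32.eventually (ng_isUnit hN)] with p a1 a2 a3 a4
    rw [un_mul a3 a4]
    exact ⟨a1, a2⟩) (by
    filter_upwards [h3.ev ((tun hN).comp tendsto_fst) ((tun hN).comp tendsto_snd),
      tendsto_fst.eventually (ng_isUnit hN), tendsto_snd.eventually (ng_isUnit hN)] with p a1 a2 a3 h
    refine a1 ?_
    simp only [Function.comp_apply, un_val a2, un_val a3]
    refine h.imp (fun h => ?_) id
    rw [← un_mul a2 a3, ← un_mul a3 a2, h.eq])
  filter_upwards [((tval.comp tendsto_fst).prodMk (tval.comp tendsto_snd)).eventually h4] with p a1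
  simpa only [Function.comp_apply, un_coe] using a1

end Csa

variable {A : Type w} [CommGroup A]

/-- the rules for `φ` -/
structure Phi (N : ℕ) (K : Type u) [Field K] [NumberField K] [StarRing K] {B : Type v} [Ring B]
    [StarRing B] [Algebra K B] [Algebra ℚ B] (φ : B → A) : Prop where
  one : φ 1 = 1
  inv : ∀ᶠ x in ng N (1 : B), ∀ y, x * y = 1 → φ y = (φ x)⁻¹
  st : ∀ᶠ x in ng N (1 : B), φ (star x) = (φ x)⁻¹
  cg : ∀ᶠ p : B × B in ng N 1 ×ˢ ng N 1, φ (star p.1 * p.2 * p.1) = φ p.2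
  sc : ∀ᶠ p : K × B in ng N 1 ×ˢ ng N 1, φ (p.1 • p.2) = φ (p.1 • (1 : B)) * φ p.2
  re : ∀ᶠ c : K in ng N 1, star c = c → φ (c • (1 : B)) = 1
  dd : ∀ᶠ p : B × B in ng N 1 ×ˢ ng N 1, φ (p.1 * p.2 * p.1) = φ (p.1 ^ 2) * φ p.2

variable {N : ℕ} {K : Type u} [Field K] [NumberField K] [StarRing K] {B : Type v} [Ring B]
  [StarRing B] [Algebra K B] [StarModule K B] [Algebra ℚ B] [Algebra.IsCentral K B] [IsSimpleRing B]
  [FiniteDimensional K B] {φ : B → A}

theorem Phi.mono (h : Phi N K φ) {N' : ℕ} (hN : N ∣ N') : Phi N' K φ :=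
  have a := ng_le_of_dvd hN (1 : B)
  have b := ng_le_of_dvd hN (1 : K)
  ⟨h.one, h.inv.filter_mono a, h.st.filter_mono a, h.cg.filter_mono (prod_mono a a),
    h.sc.filter_mono (prod_mono b a), h.re.filter_mono b, h.dd.filter_mono (prod_mono a a)⟩

theorem tstar : Tendsto (star : B → B) (ng N 1) (ng N 1) := by
  have := ng_map (N := N) (starAddEquiv (R := B)).toAddMonoidHom (1 : B)
  rwa [show (starAddEquiv (R := B)).toAddMonoidHom 1 = 1 from star_one B] at this

theorem tstarU : Tendsto (star : Bˣ → Bˣ) (fu N B) (fu N B) := tendsto_fu.2 (tstar.comp tval)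

theorem Phi.ru (h : Phi N K φ) (hN : 2 ≤ N) : Ru (fu N B) star fun x : Bˣ => φ x := by
  have := fdQ K B
  refine ⟨gf hN, tstarU, h.one, (tval.eventually h.inv).mono fun x hx => hx _ x.mul_inv, ?_,
    fun q => star_inv q, ?_⟩
  · filter_upwards [((tstar.comp (tval.comp tendsto_fst)).prodMk
      (tval.comp tendsto_snd)).eventually h.cg] with p hp
    simpa using hp
  · filter_upwards [((tval.comp tendsto_fst).prodMk (tval.comp tendsto_snd)).eventually h.dd] with p hp
    simpa using hp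

theorem nrd_cm (x y : Bˣ) : Nrd K ((cm x y : Bˣ) : B) = 1 := by
  have e : ∀ z : Bˣ, Nrd K (z : B) * Nrd K ((z⁻¹ : Bˣ) : B) = 1 := fun z => by
    rw [← map_mul, Units.mul_inv, map_one]
  simp only [cm, Units.val_mul, map_mul]
  linear_combination (Nrd K (y : B) * Nrd K ((y⁻¹ : Bˣ) : B)) * e x + e y

/-- (a) the commutator pairing is trivial -/
theorem Phi.pair (h : Phi N K φ) (hW : GermW.{u, v, max v w}) (hC : GermCT.{u, v, w}) (hN : 2 ≤ N)
    (hS : SplN N K B) {n : ℕ} (hn : n ≠ 0) (hA : ∀ a : A, a ^ n = 1) :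
    E2 (fu N B) fun x y => φ (cm x y : Bˣ) = 1 := by
  have r := h.ru hN
  obtain ⟨V, hV, hm⟩ := r.be_mul.set
  have h1 := gw K hW hN hS (X := V → A) hn (θ := fun x y => φ (cm x y.1 : Bˣ))
    (E2.of_set hV fun x hx x' hx' => funext fun y => hm x hx x' hx' y.1 y.2)
    (Eventually.of_forall fun _ => funext fun _ => hA _)
  have h2 : E2 (fu N B) fun x y => Nrd K (x : B) = 1 → φ (cm x y : Bˣ) = 1 := by
    filter_upwards [tendsto_fst.eventually h1, tendsto_snd.eventually_mem hV] with p a1 a2 hp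
    exact congrFun (a1 hp) ⟨p.2, a2⟩
  refine gct K hC hN hS (β := fun x y => φ (cm x y : Bˣ)) r.be_mul r.be_mul' ?_
  filter_upwards [h2, h2.ev tendsto_snd tendsto_fst, r.be_swap.ev tendsto_snd tendsto_fst]
    with p a1 a2 a3 hp
  rcases hp with hp | hp | hp
  · have : cm p.1 p.2 = 1 := by rw [cm, hp]; group
    rw [this]; exact h.one
  · exact a1 hp
  · rw [a3, a2 hp, inv_one]

/-- the reduced norm as a scalar unit -/
def sn (K : Type u) [Field K] [NumberField K] {B : Type v} [Ring B] [Algebra K B]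
    [Algebra.IsCentral K B] [IsSimpleRing B] [FiniteDimensional K B] (x : Bˣ) : Bˣ :=
  Units.map (algebraMap K B).toMonoidHom (Units.map (Nrd K (B := B)).toMonoidHom x)

theorem sn_val (x : Bˣ) : (sn K x : B) = Nrd K (x : B) • (1 : B) := by
  rw [← Algebra.algebraMap_eq_smul_one]; rfl

theorem tsn : Tendsto (sn K) (fu N B) (fu N B) := by
  rw [tendsto_fu]
  simp only [sn_val]
  simpa using ng_smul K ((ng_Nrd_one K).comp tval) (ng_const (1 : B))

theorem nrd_sn (x : Bˣ) : Nrd K (((sn K x)⁻¹ * x ^ deg K B : Bˣ) : B) = 1 := by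
  have e : Nrd K (sn K x : B) = Nrd K (x : B) ^ deg K B := by rw [sn_val, Nrd_smul, map_one, mul_one]
  rw [Units.val_mul, map_mul, Units.val_pow_eq_pow_val, map_pow, ← e, ← map_mul, Units.inv_mul,
    map_one]

/-- the end of the holonomy step, fixed level -/
theorem Phi.fin (h : Phi N K φ) (hW : GermW.{u, v, max v w}) (hC : GermCT.{u, v, w}) (hN : 2 ≤ N)
    (hS : SplN N K B) (hd : Odd (deg K B)) {n : ℕ} (hn : n ≠ 0) (hA : ∀ a : A, a ^ n = 1) :
    LG N φ ∧ ∀ᶠ x in ng N (1 : B), star (Nrd K x) = Nrd K x → φ x = 1 := by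
  have := fdQ K B
  have r := h.ru hN
  have g := r.gf
  have hb := h.pair hW hC hN hS hn hA
  have hsq := r.sq hb
  obtain ⟨X, _, θ, t1, t2, t3⟩ := exists_hom (φ := fun x : Bˣ => φ x) g (r.swap hb) hsq (rt hN)
  have t4 := gw K hW hN hS (mul_ne_zero two_ne_zero hn) t1 (t2.mono fun x hx => hx n (hA _))
  have hsl : E2 (fu N B) fun x z => Nrd K (x : B) = 1 → φ (x * z : Bˣ) = φ z := by
    filter_upwards [t3, tendsto_fst.eventually t4] with p a1 a2 hp using a1 (a2 hp)
  have hpw : E2 (fu N B) fun x z => φ (x ^ deg K B * z : Bˣ) = φ (sn K x) * φ z := by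
    have a := g.tmul (g.tinv (tsn (K := K) |>.comp tendsto_fst))
      (g.tpow (tendsto_fst (f := fu N B) (g := fu N B)) (deg K B))
    filter_upwards [hsl.ev a tendsto_snd, ((((ng_Nrd_one K).comp tval).comp tendsto_fst).prodMk
      (tval.comp (g.tmul a tendsto_snd))).eventually h.sc] with p a1 a2
    simp only [Function.comp_apply] at a1 a2
    rw [a1 (nrd_sn _), ← sn_val, ← one_mul (((sn K p.1)⁻¹ * p.1 ^ deg K B * p.2 : Bˣ) : B),
      ← smul_mul_assoc, ← sn_val, ← Units.val_mul] at a2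
    rw [← a2]
    congr 2
    group
  obtain ⟨e, he⟩ := hd
  have hk : E2 (fu N B) fun x z => φ (x * z : Bˣ) = φ ((x⁻¹ ^ e) ^ 2 : Bˣ) * φ (sn K x) * φ z := by
    filter_upwards [hpw, hsq.ev (g.tpow (g.tinv tendsto_fst) e)
      (g.tmul (g.tpow tendsto_fst (deg K B)) tendsto_snd)] with p a1 a2
    rw [mul_assoc, ← a1, ← a2, he]
    congr 2
    group
  have hm : E2 (fu N B) fun x z => φ (x * z : Bˣ) = φ x * φ z := by
    filter_upwards [hk, hk.ev tendsto_fst g.tone] with p a1 a2
    rw [mul_one, Units.val_one, h.one, mul_one] at a2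
    rw [a1, a2]
  have hp : ∀ j : ℕ, ∀ᶠ x : Bˣ in fu N B, φ (x ^ j : Bˣ) = φ x ^ j := by
    intro j
    induction j with
    | zero => exact Eventually.of_forall fun x => by simpa using h.one
    | succ j ih =>
      filter_upwards [ih, hm.ev (g.tpow tendsto_id j) tendsto_id] with x a1 a2
      simp only [id] at a2
      rw [pow_succ, a2, a1, pow_succ]
  have hz : ∀ᶠ x : Bˣ in fu N B, star (Nrd K (x : B)) = Nrd K (x : B) → φ x = 1 := by
    filter_upwards [hp (deg K B), hpw.ev tendsto_id g.tone, ((ng_Nrd_one K).comp tval).eventually h.re,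
      tval.eventually h.st, hsl.ev (g.tmul tstarU g.inv) tendsto_id] with x a1 a2 a3 a4 a5 hx
    simp only [id, Function.comp_apply, mul_one, Units.val_one, h.one] at a2 a3 a5
    have b1 : φ x ^ (2 * e + 1) = 1 := by rw [← he, ← a1, a2, sn_val, a3 hx]
    have b2 : φ x = (φ x)⁻¹ := by
      rw [← a4, ← a5, inv_mul_cancel_right, Units.coe_star]
      rw [Units.val_mul, map_mul, Units.coe_star, Nrd_star, hx, ← map_mul, Units.mul_inv, map_one]
    have b3 : φ x ^ 2 = 1 := by rw [pow_two]; exact mul_eq_one_iff_eq_inv.2 b2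
    rwa [pow_succ, pow_mul, b3, one_pow, one_mul] at b1
  constructor
  · filter_upwards [hm.ev ((tun hN).comp tendsto_fst) ((tun hN).comp tendsto_snd),
      tendsto_fst.eventually (ng_isUnit hN), tendsto_snd.eventually (ng_isUnit hN)] with p a1 a2 a3
    simpa only [Function.comp_apply, Units.val_mul, un_val a2, un_val a3] using a1
  · filter_upwards [(tun hN).eventually hz, ng_isUnit hN] with x a1 a2
    rwa [un_val a2] at a1

/-- H7 -/
theorem endStmt (hW : GermW.{u, v, max v w}) (hC : GermCT.{u, v, w}) (hS : SplStmt.{u, v})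
    (hN : 2 ≤ N) (hd : Odd (deg K B)) {n : ℕ} (hn : n ≠ 0) (hA : ∀ a : A, a ^ n = 1) (h : Phi N K φ) :
    ∃ N', 2 ≤ N' ∧ N ∣ N' ∧ LG N' φ ∧
      ∀ᶠ x in ng N' (1 : B), star (Nrd K x) = Nrd K x → φ x = 1 := by
  obtain ⟨N', h1, h2, h3⟩ := exists_splN hS hN K B
  exact ⟨N', h1, h2, (h.mono h2).fin hW hC h1 h3 hd hn hA⟩

/-- H7, unconditional -/
theorem endAll (hN : 2 ≤ N) (hd : Odd (deg K B)) {n : ℕ} (hn : n ≠ 0) (hA : ∀ a : A, a ^ n = 1)
    (h : Phi N K φ) : ∃ N', 2 ≤ N' ∧ N ∣ N' ∧ LG N' φ ∧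
      ∀ᶠ x in ng N' (1 : B), star (Nrd K x) = Nrd K x → φ x = 1 :=
  endStmt germW (germCT nearG) splStmt hN hd hn hA h

end Crest.Agent.T24.HolE
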