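import Crest.Agent.T24.HolCDef_25

/-!
# Row 24, holonomy step: the additive group generated by the `1 - w`, `w` of norm one near `1`
-/

set_option autoImplicit false
set_option linter.unusedSectionVars false

namespace Crest.Agent.T24.HolI

open Filter Module NumberField IsDedekindDomain WithZero
open scoped Topology NumberField
open Crest.Agent.T24.In Crest.Agent.T24.Asa

universe u

variable {K : Type*} [Field K] [NumberField K] [StarRing K] {N : ℕ}

/-- the generators -/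
def Gen (V : Set K) : Set K := {x | ∃ w ∈ V, star w * w = 1 ∧ x = 1 - w}

theorem Gen.mono {V W : Set K} (h : V ⊆ W) : Gen V ⊆ Gen W :=
  fun _ ⟨w, h1, h2⟩ => ⟨w, h h1, h2⟩

theorem ng_star {α : Type*} {l : Filter α} {f : α → K} {a : K} (h : Tendsto f l (ng N a)) :
    Tendsto (fun i => star (f i)) l (ng N (star a)) :=
  ng_lin (starAddEquiv (R := K)).toAddMonoidHom h

theorem exists_half {V : Set K} (hV : V ∈ ng N (1 : K)) :
    ∃ W ∈ ng N (1 : K), W ⊆ V ∧ ∀ x ∈ W, ∀ y ∈ W, x * y ∈ V := by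
  have h := ng_mul_one (N := N) (l := ng N (1 : K) ×ˢ ng N (1 : K)) tendsto_fst tendsto_snd hV
  obtain ⟨W₁, h₁, W₂, h₂, h⟩ := mem_prod_iff.1 h
  exact ⟨V ∩ (W₁ ∩ W₂), inter_mem hV (inter_mem h₁ h₂), Set.inter_subset_left,
    fun x hx y hy => h (Set.mk_mem_prod hx.2.1 hy.2.2)⟩

theorem gen_mul {V W : Set K} (h1 : W ⊆ V) (h2 : ∀ x ∈ W, ∀ y ∈ W, x * y ∈ V) {S : Type*}
    [SetLike S K] [AddSubgroupClass S K] {M : S} (hM : Gen V ⊆ M) {x y : K} (hx : x ∈ Gen W)
    (hy : y ∈ Gen W) : x * y ∈ M := by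
  obtain ⟨a, ha, ha1, rfl⟩ := hx
  obtain ⟨b, hb, hb1, rfl⟩ := hy
  have : (1 - a) * (1 - b) = (1 - a) + (1 - b) - (1 - a * b) := by ring
  rw [this]
  refine sub_mem (add_mem (hM ⟨a, h1 ha, ha1, rfl⟩) (hM ⟨b, h1 hb, hb1, rfl⟩))
    (hM ⟨a * b, h2 a ha b hb, ?_, rfl⟩)
  rw [star_mul]
  linear_combination (star b * b) * ha1 + hb1

/-- quotients `x / star x` along a sequence tending to `1` -/
theorem ev_quot (hN : 2 ≤ N) {V : Set K} (hV : V ∈ ng N (1 : K)) {x : ℕ → K}
    (hx : Tendsto x atTop (ng N 1)) :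
    ∀ᶠ j in atTop, x j ≠ 0 ∧ 1 - x j / star (x j) ∈ Gen V := by
  have h1 : Tendsto (fun j => star (x j)) atTop (ng N 1) := by simpa using ng_star hx
  have h2 := ng_mul_one hx (ng_inv hN h1)
  filter_upwards [h2 hV, hx (ng_isUnit hN)] with j hj hu
  have h0 : x j ≠ 0 := IsUnit.ne_zero hu
  have h3 : star (x j) ≠ 0 := star_ne_zero.2 h0
  refine ⟨h0, x j / star (x j), ?_, ?_, rfl⟩
  · simpa [div_eq_mul_inv] using hj
  · rw [star_div₀, star_star]; field_simp

theorem span_top (hN : 2 ≤ N) (hK : ∃ c : K, star c ≠ c) {V : Set K} (hV : V ∈ ng N (1 : K)) :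
    Submodule.span ℚ (Gen V) = ⊤ := by
  classical
  have hex : ∃ n, ∃ U ∈ ng N (1 : K), U ⊆ V ∧ finrank ℚ (Submodule.span ℚ (Gen U)) = n :=
    ⟨_, V, hV, subset_rfl, rfl⟩
  obtain ⟨U, hU, hUV, hn⟩ := Nat.find_spec hex
  set D := Submodule.span ℚ (Gen U) with hD
  obtain ⟨W, hW, hWU, hWW⟩ := exists_half hU
  have hDW : Submodule.span ℚ (Gen W) = D := by
    refine Submodule.eq_of_le_of_finrank_le (Submodule.span_mono (Gen.mono hWU)) ?_
    rw [hn]
    exact Nat.find_min' hex ⟨W, hW, hWU.trans hUV, rfl⟩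
  have hmul : ∀ x ∈ D, ∀ y ∈ D, x * y ∈ D := by
    intro x hx y hy
    rw [← hDW] at hx hy
    have := Submodule.mul_mem_mul hx hy
    rw [Submodule.span_mul_span] at this
    refine Submodule.span_le.2 ?_ this
    rintro _ ⟨a, ha, b, hb, rfl⟩
    exact gen_mul hWU hWW (M := D) Submodule.subset_span ha hb
  have hdiv : ∀ x ∈ D, x ≠ 0 → ∀ y ∈ D, y / x ∈ D := by
    intro x hx h0 y hy
    let f : D →ₗ[ℚ] D := (LinearMap.mulLeft ℚ x).restrict fun z hz => hmul x hx z hz
    have hf : Function.Injective f := fun a b hab =>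
      Subtype.ext (mul_left_cancel₀ h0 (congrArg Subtype.val hab))
    obtain ⟨z, hz⟩ := LinearMap.injective_iff_surjective.1 hf ⟨y, hy⟩
    have : x * z = y := congrArg Subtype.val hz
    rw [← this, mul_div_cancel_left₀ _ h0]
    exact z.2
  have hskew : ∀ s : K, star s = -s → s ∈ D := by
    intro s hs
    rcases eq_or_ne s 0 with rfl | hs0
    · exact zero_mem _
    have h1 : Tendsto (fun j : ℕ => 1 + ((N : ℚ) / (N + 1)) ^ j • s) atTop (ng N 1) := by
      simpa using ng_add (ng_const 1) (tendsto_small (N := N) s)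
    obtain ⟨j, h0, hj⟩ := (ev_quot hN hU h1).exists
    set q : ℚ := ((N : ℚ) / (N + 1)) ^ j with hq
    have hq0 : q ≠ 0 := by positivity
    have hq1 : (q : K) ≠ 0 := by exact_mod_cast hq0
    have hst : star (1 + q • s) = 1 - q • s := by
      rw [star_add, star_one, star_rat_smul, hs, smul_neg, sub_eq_add_neg]
    have h3 : 1 - q • s ≠ 0 := hst ▸ star_ne_zero.2 h0
    rw [hst] at hj
    have hx : 1 - (1 + q • s) / (1 - q • s) ∈ D := Submodule.subset_span hj
    rw [Rat.smul_def] at h0 h3 hx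
    have hxe : 1 - (1 + q * s) / (1 - q * s) = -2 * q * s / (1 - q * s) := by field_simp; ring
    have hx0 : 1 - (1 + q * s) / (1 - q * s) ≠ 0 := by
      rw [hxe]
      exact div_ne_zero (mul_ne_zero (mul_ne_zero (by norm_num) hq1) hs0) h3
    have hone : (1 : K) ∈ D := by simpa [hx0] using hdiv _ hx hx0 _ hx
    have h2 : 1 + 1 - (1 - (1 + q * s) / (1 - q * s)) = 2 / (1 - q * s) := by field_simp; ring
    have h4 := hdiv _ (sub_mem (add_mem hone hone) hx)
      (by rw [h2]; exact div_ne_zero two_ne_zero h3) _ hx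
    have h5 := D.smul_mem (-q⁻¹) h4
    rw [h2, Rat.smul_def, hxe, div_div_div_cancel_right₀ h3] at h5
    convert h5 using 1
    push_cast
    field_simp
  refine top_unique (le_trans (fun x _ => ?_) (Submodule.span_mono (Gen.mono hUV)))
  obtain ⟨c, hc⟩ := hK
  have hθ : c - star c ≠ 0 := sub_ne_zero.2 hc.symm
  have hθ' : star c - c ≠ 0 := sub_ne_zero.2 hc
  have : x = (x - star x) / 2 + (c - star c) * ((x + star x) / 2 / (c - star c)) := by
    field_simp; ring
  rw [this]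
  refine add_mem (hskew _ ?_) (hmul _ (hskew _ (by simp)) _ (hskew _ ?_))
  · simp only [star_div₀, star_sub, star_star, star_ofNat]; ring
  · simp only [star_div₀, star_sub, star_add, star_star, star_ofNat]; field_simp; ring

theorem exists_den {S : Set K} {x : K} (hx : x ∈ Submodule.span ℚ S) :
    ∃ n : ℕ, n ≠ 0 ∧ (n : K) * x ∈ AddSubgroup.closure S := by
  induction hx using Submodule.span_induction with
  | mem x hx => exact ⟨1, one_ne_zero, by simpa using AddSubgroup.subset_closure hx⟩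
  | zero => exact ⟨1, one_ne_zero, by simp⟩
  | add x y _ _ hx hy =>
    obtain ⟨n, hn, h1⟩ := hx
    obtain ⟨m, hm, h2⟩ := hy
    refine ⟨n * m, mul_ne_zero hn hm, ?_⟩
    have := add_mem (nsmul_mem h1 m) (nsmul_mem h2 n)
    convert this using 1
    simp only [nsmul_eq_mul]; push_cast; ring
  | smul q x _ hx =>
    obtain ⟨n, hn, h1⟩ := hx
    refine ⟨n * q.den, mul_ne_zero hn q.den_nz, ?_⟩
    have := zsmul_mem h1 q.num
    convert this using 1
    have h2 : (q.num : K) = q * q.den := by exact_mod_cast (Rat.mul_den_eq_num q).symm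
    rw [zsmul_eq_mul, Rat.smul_def, h2]; push_cast; ring

theorem exists_lat {S : Set K} (h : Submodule.span ℚ S = ⊤) :
    ∃ n : ℕ, n ≠ 0 ∧ ∀ a : 𝓞 K, (n : K) * a ∈ AddSubgroup.closure S := by
  classical
  obtain ⟨s, hs⟩ := (Module.Finite.fg_top : (⊤ : Submodule ℤ (𝓞 K)).FG)
  choose f hf using fun x : K => exists_den (S := S) (x := x) (h ▸ Submodule.mem_top)
  refine ⟨∏ a ∈ s, f a, Finset.prod_ne_zero_iff.2 fun a _ => (hf a).1, fun a => ?_⟩
  have ha : a ∈ Submodule.span ℤ (s : Set (𝓞 K)) := hs ▸ Submodule.mem_top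
  induction ha using Submodule.span_induction with
  | mem x hx =>
    obtain ⟨c, hc⟩ := Finset.dvd_prod_of_mem (fun a : 𝓞 K => f a) hx
    rw [hc]
    convert nsmul_mem (hf x).2 c using 1
    simp only [nsmul_eq_mul]; push_cast; ring
  | zero => simp
  | add x y _ _ hx hy => simpa [mul_add] using add_mem hx hy
  | smul z x _ hx =>
    convert zsmul_mem hx z using 1
    simp only [zsmul_eq_mul, map_mul, map_intCast]; ring

/-- a natural number bigger than `N`, prime to `N`, in a given prime not containing `N` -/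
theorem exists_nat (w : Pl K) (hN : (N : 𝓞 K) ∉ w.asIdeal) :
    ∃ P : ℕ, N < P ∧ P.Coprime N ∧ (P : 𝓞 K) ∈ w.asIdeal := by
  have := w.isMaximal
  have : Finite (𝓞 K ⧸ w.asIdeal) := Ideal.finiteQuotientOfFreeOfNeBot _ w.ne_bot
  let _ := Ideal.Quotient.field w.asIdeal
  obtain ⟨p, hp⟩ := CharP.exists (𝓞 K ⧸ w.asIdeal)
  have hpp : p.Prime := CharP.char_is_prime (𝓞 K ⧸ w.asIdeal) p
  have hm : (p : 𝓞 K) ∈ w.asIdeal := by
    rw [← Ideal.Quotient.eq_zero_iff_mem, map_natCast]; exact CharP.cast_eq_zero _ p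
  have hc : p.Coprime N := (Nat.Prime.coprime_iff_not_dvd hpp).2 fun ⟨c, hc⟩ =>
    hN (by rw [hc]; push_cast; exact Ideal.mul_mem_right _ _ hm)
  refine ⟨p ^ (N + 1), (Nat.lt_succ_self N).trans (Nat.lt_pow_self hpp.one_lt),
    hc.pow_left _, ?_⟩
  push_cast
  exact Ideal.pow_mem_of_mem _ hm _ N.succ_pos

theorem tendsto_q (hN : 2 ≤ N) {P : ℕ} (h1 : N < P) (h2 : P.Coprime N) (x : K) :
    Tendsto (fun j : ℕ => ((N : ℚ) ^ j / ((N : ℚ) ^ j + (P : ℚ) ^ j)) • x) atTop (ng N 0) := by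
  refine tendsto_ng.2 ⟨?_, tendsto_na.2 fun φ => ?_⟩
  · rw [nr_zero]
    intro U hU
    obtain ⟨m, hm⟩ := exists_dp_subset hU (Submodule.fg_span_singleton (R := ZN N) x)
    refine mem_map.2 (eventually_atTop.2 ⟨m + 1, fun j hj => hm _ (dp_anti _
      ((Nat.le_succ m).trans hj) ?_)⟩)
    have h3 : ((N ^ j + P ^ j : ℕ) : ℚ)⁻¹ ∈ ZN N := inv_mem_ZN (by
      obtain ⟨i, rfl⟩ := Nat.exists_eq_add_of_le' ((Nat.le_add_left 1 m).trans hj)
      rw [add_comm, pow_succ N, Nat.coprime_add_mul_right_left]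
      exact h2.pow_left _)
    simp only [div_eq_mul_inv, mul_smul]
    push_cast at h3
    exact smul_mem_dp _ (zsmul_mem h3 (Submodule.mem_span_singleton_self x))
  · have hP : (0 : ℝ) < P := by exact_mod_cast (Nat.zero_le N).trans_lt h1
    have h3 : Tendsto (fun j : ℕ => ((N : ℝ) / P) ^ j) atTop (𝓝 0) :=
      tendsto_pow_atTop_nhds_zero_of_lt_one (by positivity)
        ((div_lt_one hP).2 (by exact_mod_cast h1))
    have h4 : Tendsto (fun j : ℕ => (N : ℝ) ^ j / ((N : ℝ) ^ j + (P : ℝ) ^ j)) atTop (𝓝 0) := by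
      refine squeeze_zero (fun j => by positivity) (fun j => ?_) h3
      rw [div_pow]
      gcongr
      exact le_add_of_nonneg_left (by positivity)
    simp only [map_rat_smul, map_zero]
    simpa [Rat.smul_def] using h4.mul_const (φ x)

theorem ev_lt (w : Pl K) {a : K} (ha : w.valuation K a < 1) (y : K) {g : ℤᵐ⁰} (hg : g ≠ 0) :
    ∀ᶠ j : ℕ in atTop, w.valuation K (a ^ j * y) < g := by
  rcases eq_or_ne a 0 with rfl | ha0
  · filter_upwards [eventually_gt_atTop 0] with j hj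
    simpa [hj.ne'] using zero_lt_iff.2 hg
  rcases eq_or_ne y 0 with rfl | hy0
  · exact Eventually.of_forall fun j => by simpa using zero_lt_iff.2 hg
  have h1 := val_ne_zero w ha0
  have h2 := val_ne_zero w hy0
  rw [← exp_log h1, ← exp_zero, exp_lt_exp] at ha
  filter_upwards [eventually_gt_atTop (log (w.valuation K y) - log g).toNat] with j hj
  rw [map_mul, map_pow, ← exp_log h1, ← exp_log h2, ← exp_log hg, ← exp_nsmul, ← exp_add,
    exp_lt_exp, nsmul_eq_mul]
  have : (log (w.valuation K y) - log g) < j := by omega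
  nlinarith

/-- generators with a pole of arbitrary order at a split place away from `N` -/
theorem exists_pole (hN : 2 ≤ N) {V : Set K} (hV : V ∈ ng N (1 : K)) (w : Pl K) (hs : Split w)
    (hw : (N : 𝓞 K) ∉ w.asIdeal) (x : K) :
    ∃ m ∈ Gen V, m ≠ 0 ∧ w.valuation K x ≤ w.valuation K m := by
  obtain ⟨x₀, h₀⟩ : ∃ x₀ : K, w.valuation K (star x₀) < w.valuation K x₀ := by
    obtain ⟨y, hy⟩ := hs
    rcases lt_or_gt_of_ne hy with h | h
    · exact ⟨y, h⟩
    · exact ⟨star y, by simpa using h⟩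
  have hx0 : x₀ ≠ 0 := by rintro rfl; simp at h₀
  have hs0 : star x₀ ≠ 0 := star_ne_zero.2 hx0
  have ha : w.valuation K (star x₀ / x₀) < 1 := by
    rw [map_div₀]; exact (div_lt_one₀ (zero_lt_iff.2 (val_ne_zero w hx0))).2 h₀
  obtain ⟨m, hm1, hm2⟩ := ((ev_lt w ha x one_ne_zero).and (ev_lt w ha 1 one_ne_zero)).exists
  set y := x₀ ^ m with hy
  have hy0 : y ≠ 0 := pow_ne_zero _ hx0
  have hy1 : star y ≠ 0 := star_ne_zero.2 hy0
  have hq : (star x₀ / x₀) ^ m = star y / y := by rw [hy, star_pow, div_pow]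
  rw [hq] at hm1 hm2
  obtain ⟨P, hP1, hP2, hP3⟩ := exists_nat w hw
  have hPv : w.valuation K (P : K) < 1 := by
    simpa using (w.valuation_lt_one_iff_mem (K := K) (P : 𝓞 K)).2 hP3
  have hNv : w.valuation K (N : K) = 1 := by
    have h1 : ¬ w.valuation K (N : K) < 1 := fun h =>
      hw ((w.valuation_lt_one_iff_mem (K := K) (N : 𝓞 K)).1 (by simpa using h))
    exact le_antisymm (by simpa using val_int w (N : 𝓞 K)) (not_lt.1 h1)
  have h1 : Tendsto (fun j : ℕ => 1 + ((N : ℚ) ^ j / ((N : ℚ) ^ j + (P : ℚ) ^ j)) • (y - 1)) atTop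
      (ng N 1) := by simpa using ng_add (ng_const 1) (tendsto_q hN hP1 hP2 (y - 1))
  obtain ⟨j, ⟨⟨h0, hj⟩, hj1, hj2⟩, hj3⟩ := (((ev_quot hN hV h1).and
    ((ev_lt w hPv (y - 1) (val_ne_zero w hy0)).and
      (ev_lt w hPv (star y - 1) (val_ne_zero w hy1)))).and (ev_lt w hPv 1 one_ne_zero)).exists
  have hd : w.valuation K ((N : K) ^ j + (P : K) ^ j) = 1 := by
    rw [mul_one] at hj3
    have : w.valuation K ((N : K) ^ j) = 1 := by rw [map_pow, hNv, one_pow]
    rw [Valuation.map_add_eq_of_lt_left _ (this ▸ hj3), this]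
  have hd0 : (N : K) ^ j + (P : K) ^ j ≠ 0 := fun h => by simp [h] at hd
  have key : ∀ z : K, w.valuation K ((P : K) ^ j * (z - 1)) < w.valuation K z →
      w.valuation K (1 + ((N : ℚ) ^ j / ((N : ℚ) ^ j + (P : ℚ) ^ j)) • (z - 1)) =
        w.valuation K z := by
    intro z hz
    have : 1 + ((N : ℚ) ^ j / ((N : ℚ) ^ j + (P : ℚ) ^ j)) • (z - 1) =
        z - (P : K) ^ j * (z - 1) / ((N : K) ^ j + (P : K) ^ j) := by
      rw [Rat.smul_def]; push_cast; field_simp; ring
    rw [this, Valuation.map_sub_eq_of_lt_left]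
    rwa [map_div₀, hd, div_one]
  set X := 1 + ((N : ℚ) ^ j / ((N : ℚ) ^ j + (P : ℚ) ^ j)) • (y - 1) with hX
  have hX1 : w.valuation K X = w.valuation K y := key y hj1
  have hX2 : w.valuation K (star X) = w.valuation K (star y) := by
    rw [hX, star_add, star_one, star_rat_smul, star_sub, star_one]; exact key _ hj2
  have hv : 0 < w.valuation K (star y / y) := zero_lt_iff.2 (val_ne_zero w (div_ne_zero hy1 hy0))
  have hX3 : w.valuation K (X / star X) = (w.valuation K (star y / y))⁻¹ := by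
    rw [map_div₀, hX1, hX2, map_div₀, inv_div]
  rw [mul_one] at hm2
  have hX4 : w.valuation K (1 : K) < w.valuation K (X / star X) := by
    rw [hX3, map_one]; exact (one_lt_inv₀ hv).2 hm2
  have hX5 := Valuation.map_sub_eq_of_lt_right _ hX4
  refine ⟨_, hj, fun h => ?_, ?_⟩
  · rw [h, map_zero] at hX5
    exact not_lt_zero (hX5 ▸ hX4)
  · rw [hX5, hX3]
    rw [map_mul] at hm1
    exact ((lt_inv_mul_iff₀ hv).2 hm1).le.trans (mul_one _).le

/-- THE IDEAL LEMMA -/
theorem ideal (hK : ∃ c : K, star c ≠ c) (hN : 2 ≤ N) {V : Set K} (hV : V ∈ ng N (1 : K)) :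
    ∃ M : ℕ, M ≠ 0 ∧ ∀ c : K,
      (∀ w : Pl K, (¬ Split w ∨ (N : 𝓞 K) ∈ w.asIdeal) → w.valuation K c ≤ 1) →
      (M : K) * c ∈ AddSubgroup.closure (Gen V) := by
  obtain ⟨W, hW, hWV, hWW⟩ := exists_half hV
  obtain ⟨n, hn, hl⟩ := exists_lat (span_top hN hK hW)
  have hn' : (n : K) ≠ 0 := by exact_mod_cast hn
  set M := Submodule.span (𝓞 K) (Gen W) with hM
  have h1 : ∀ x ∈ M, (n : K) * x ∈ AddSubgroup.closure (Gen V) := by
    have h2 : ∀ x ∈ AddSubgroup.closure (Gen W), ∀ y ∈ Gen W,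
        x * y ∈ AddSubgroup.closure (Gen V) := by
      intro x hx y hy
      induction hx using AddSubgroup.closure_induction with
      | mem x hx => exact gen_mul hWV hWW AddSubgroup.subset_closure hx hy
      | zero => simp
      | add a b _ _ ha hb => rw [add_mul]; exact add_mem ha hb
      | neg a _ ha => rw [neg_mul]; exact neg_mem ha
    have h3 : ∀ x ∈ M, ∀ a : 𝓞 K, (n : K) * (a * x) ∈ AddSubgroup.closure (Gen V) := by
      intro x hx
      induction hx using Submodule.span_induction with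
      | mem x hx => intro a; rw [← mul_assoc]; exact h2 _ (hl a) x hx
      | zero => simp
      | add x y _ _ hx hy => intro a; rw [mul_add, mul_add]; exact add_mem (hx a) (hy a)
      | smul b x _ hx =>
        intro a
        have := hx (a * b)
        rwa [Algebra.smul_def, ← mul_assoc (a : K)]
    intro x hx
    simpa using h3 x hx 1
  have hnM : (n : K) ∈ M := by
    have : AddSubgroup.closure (Gen W) ≤ M.toAddSubgroup :=
      (AddSubgroup.closure_le _).2 Submodule.subset_span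
    simpa using this (hl 1)
  refine ⟨n * n, mul_ne_zero hn hn, fun c hc => ?_⟩
  rw [Nat.cast_mul, mul_assoc]
  refine h1 _ ?_
  let J : Ideal (𝓞 K) := M.comap (LinearMap.toSpanSingleton (𝓞 K) K ((n : K) * c))
  by_contra hJ
  have hJ1 : J ≠ ⊤ := fun h => hJ (by simpa [J] using (Ideal.eq_top_iff_one J).1 h)
  obtain ⟨𝔪, h𝔪, hle⟩ := Ideal.exists_le_maximal J hJ1
  let w : Pl K := ⟨𝔪, h𝔪.isPrime, Ring.ne_bot_of_isMaximal_of_not_isField h𝔪
    (RingOfIntegers.not_isField K)⟩
  obtain ⟨m, hm, hm0, hv⟩ : ∃ m ∈ M, m ≠ 0 ∧ w.valuation K ((n : K) * c) ≤ w.valuation K m := by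
    by_cases hw : ¬ Split w ∨ (N : 𝓞 K) ∈ w.asIdeal
    · refine ⟨n, hnM, hn', ?_⟩
      rw [map_mul]
      exact mul_le_of_le_one_right' (hc w hw)
    · rw [not_or, not_not] at hw
      obtain ⟨m, h2, h3⟩ := exists_pole hN hW w hw.1 hw.2 ((n : K) * c)
      exact ⟨m, Submodule.subset_span h2, h3⟩
  obtain ⟨a, s, hs⟩ := w.exists_primeCompl_mul_eq_of_integer (K := K) ((n : K) * c / m) (by
    rw [map_div₀]; exact div_le_one_of_le₀ hv zero_le)
  refine s.2 (hle ?_)
  have := M.smul_mem a hm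
  change (s : 𝓞 K) • ((n : K) * c) ∈ M
  convert this using 1
  rw [Algebra.smul_def, Algebra.smul_def, ← hs]
  field_simp

theorem idealStmt : HolC.IdealStmt.{u} := fun _ _ _ _ hK _ hN _ hV => ideal hK hN hV

end Crest.Agent.T24.HolI
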