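import Crest.Agent.T24.Def_26
import Crest.Agent.T24.StabA_43
import Crest.Agent.T24.HnDef_7

/-!
# Row 24 (helper43): stability, words and statements
-/

set_option autoImplicit false
set_option linter.unusedSectionVars false

noncomputable section

namespace Crest.Agent.T24.Stab

open Ring Module WithZero Csa Asa Polynomial

universe u v w

section Alg
variable {K B : Type*} [Field K] [StarRing K] [Ring B] [StarRing B] [Algebra K B]

/-- Cayley transform of a skew element -/
def cv (a : B) : B := inverse (1 - a) * (1 + a)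
/-- `z* (v q - 1) = (1 - c) g` -/
def zz (c : K) (g q a : B) : B := star ((1 - c) • (g * inverse (cv a * q - 1)))
/-- `x + x* = z* z` -/
def x1 (c : K) (g q a s : B) : B := (2⁻¹ : K) • (star (zz c g q a) * zz c g q a) + s
/-- the element that has to be a norm -/
def EL (c : K) (g q a s : B) : B := el c (x1 c g q a s) g (zz c g q a) 1 (cv a * q)

/-- the data of the stability step, normalised by `p = 1` -/
structure Dt (c : K) (g q : B) : Prop where
  hc : star c ≠ c
  ug : IsUnit g
  uq : IsUnit q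
  hg : g + star g = 1
  hq : c • g + star (c • g) = star q * q

end Alg

section Words
variable (k : Type u) [Field k] [NumberField k] {B : Type*} [Ring B] [Algebra k B] [Module.Finite k B]

/-- the matrix of the left multiplication in a fixed `k`-basis -/
def mat : B →ₐ[k] Matrix (Fin (finrank k B)) (Fin (finrank k B)) k :=
  Algebra.leftMulMatrix (Module.finBasis k B)

variable {k}
/-- small (`m = 0`: integral) at a finite place -/
def Cl (v : Pl k) (m : ℕ) (x : B) : Prop := ∀ i j, v.valuation k (mat k x i j) ≤ exp (-(m : ℤ))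
/-- small at a real place -/
def Ci (φ : k →+* ℝ) (ε : ℝ) (x : B) : Prop := ∀ i j, |φ (mat k x i j)| < ε
/-- the eigenvalues of `l` are local norms from `√δ` at the places over `v` -/
def LNf (v : Pl k) (δ : k) (l : B) : Prop :=
  ∀ (F : Type u) [Field F] [NumberField F] [Algebra k F] (x : Fˣ), aeval (x : F) (minpoly k l) = 0 →
    ∀ p : Pl F, below k p = v → x ∈ Hn.LN (algebraMap k F δ) p
/-- the real eigenvalues of `l` at `φ` are positive -/
def LNr (φ : k →+* ℝ) (l : B) : Prop := ∀ x : ℝ, (minpoly k l).eval₂ φ x = 0 → 0 < x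

end Words

section Glob
variable (k : Type u) (K : Type v) (B : Type w) [Field k] [NumberField k] [Field K] [NumberField K]
  [Algebra k K] [StarRing K] [Quad k K] [Ring B] [StarRing B] [Algebra K B] [StarModule K B]
  [Algebra.IsCentral K B] [IsSimpleRing B] [FiniteDimensional K B] [Algebra k B] [IsScalarTower k K B]

include K in
theorem fin_kB : Module.Finite k B :=
  have : Module.Finite k K := Module.finite_of_finrank_eq_succ (Quad.fr (k := k) (K := K))
  Module.Finite.trans K B

variable {k K} in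
/-- `K = k(θ)`, `θ² = δ` -/
structure Th (θ : K) (δ : kˣ) : Prop where
  sk : star θ = -θ
  sq : algebraMap k K δ = θ * θ

/-- OUTPUT: `Φ(c g) = χ(c*/c) Φ(g)` -/
def Stb : Prop := ∀ (A : Type) [CommGroup A] (m : ℕ) (f : B → A),
  Ch (fun x => x ∈ unitary B ∧ x ∈ Deep K B m) f → ∀ (c : K) (g p q : B), c ≠ 0 → IsUnit g →
    IsUnit p → IsUnit q → g + star g = star p * p → c • g + star (c • g) = star q * q →
    rho g p ∈ Deep K B m → algebraMap K B (star c / c) ∈ Deep K B m →
    f (rho (c • g) q) = f (algebraMap K B (star c / c)) * f (rho g p)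

variable [Module.Finite k B]

/-- Hasse norm theorem in `k[l]` -/
def Nrm : Prop := ∀ (θ : K) (δ : kˣ), Th θ δ → ∀ l : B, star l = l → IsUnit l →
  (∀ v : Pl k, LNf v (δ : k) l) → (∀ φ : k →+* ℝ, φ δ < 0 → LNr φ l) →
  ∃ μ : B, IsUnit μ ∧ star μ * μ = l ∧ ∀ y, Commute l y → Commute μ y

/-- an open set of good parameters at a non-split finite place -/
def NearF : Prop := ∀ (θ : K) (δ : kˣ), Th θ δ → ∀ (c : K) (g q : B), Dt c g q →
  ∀ v : Pl k, δ ∉ Hn.Sq v → ∃ a s : B, star a = -a ∧ star s = -s ∧ ∃ m, ∀ a' s' : B,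
    star a' = -a' → star s' = -s' → Cl v m (a' - a) → Cl v m (s' - s) → LNf v (δ : k) (EL c g q a' s')

/-- an open set of good parameters at a non-split real place -/
def NearR : Prop := ∀ (θ : K) (δ : kˣ), Th θ δ → ∀ (c : K) (g q : B), Dt c g q →
  ∀ φ : k →+* ℝ, φ δ < 0 → ∃ a s : B, star a = -a ∧ star s = -s ∧ ∃ ε > 0, ∀ a' s' : B,
    star a' = -a' → star s' = -s' → Ci φ ε (a' - a) → Ci φ ε (s' - s) → LNr φ (EL c g q a' s')

/-- an open set of deep parameters at a place of `T` -/
def NearT : Prop := ∀ (n : ℕ) (c : K) (g q : B), Dt c g q → ∀ v : Pl k,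
  ∃ a s : B, star a = -a ∧ star s = -s ∧ ∃ m, ∀ a' s' : B,
    star a' = -a' → star s' = -s' → Cl v m (a' - a) → Cl v m (s' - s) →
    ∀ w ∈ TT K B, below k w = v →
      val w (rho (x1 c g q a' s') (zz c g q a') - 1) < exp (-(n : ℤ)) ∧
      val w (rho (xx (x1 c g q a' s') g (zz c g q a') 1) (zz c g q a' + 1) - 1) < exp (-(n : ℤ))

end Glob

instance (D : Dat.{u, v, w}) : Module.Finite D.k D.B := fin_kB D.k D.K D.B

def StabStmt : Prop := ∀ D : Dat.{u, v, w}, 3 ≤ deg D.K D.B → Odd (deg D.K D.B) → Stb D.K D.B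
def NrmStmt : Prop := ∀ D : Dat.{u, v, w}, Nrm D.k D.K D.B
def NearFStmt : Prop := ∀ D : Dat.{u, v, w}, Odd (deg D.K D.B) → NearF D.k D.K D.B
def NearRStmt : Prop := ∀ D : Dat.{u, v, w}, NearR D.k D.K D.B
def NearTStmt : Prop := ∀ D : Dat.{u, v, w}, NearT D.k D.K D.B

end Crest.Agent.T24.Stab
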