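import Crest.Agent.T24.InG_71
import Crest.Agent.T24.StabDef_43
import Crest.Agent.T24.HolId_32

/-!
# Row 24, holonomy step (helper95): the function `F`, its rules, and the leaves
-/

set_option autoImplicit false
set_option linter.unusedSectionVars false

noncomputable section

namespace Crest.Agent.T24.Hol

open Ring Filter Csa Asa In Stab

universe u v w

section Words
variable (N : ℕ) {K B A : Type*} [Field K] [NumberField K] [StarRing K] [Ring B] [StarRing B]
  [Algebra K B] [Algebra ℚ B] [CommGroup A]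

/-- the rules of `F` (input of H1) -/
structure Sys (F : B → A) (Adm : B → Prop) (ψ : K → A) : Prop where
  unit : ∀ x, Adm x → IsUnit x
  C : ∀ x q, Adm x → IsUnit q → Adm (star q * x * q) ∧ F (star q * x * q) = F x
  I : ∀ x, Adm x → Adm (inverse x) ∧ F (inverse x) = (F x)⁻¹
  H : ∀ y s, Adm y → Adm (y + s) → star s = -s → IsUnit s →
    Adm (inverse y + inverse s) ∧ F (inverse y + inverse s) * F y = F (y + s)
  S : ∀ᶠ c in ng N (1 : K), ∀ x, Adm x → Adm (c • x) → F (c • x) = ψ c * F x
  O : ∃ Z ∈ ng N (1 : K), ∃ V ∈ ng N (1 : B), ∀ (x : B) (c r : K), c ≠ 0 → -star c / c ∈ Z →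
    c⁻¹ • x ∈ V → star r = r → r ≠ 0 → r⁻¹ • (x + star x) ∈ V → Adm x
  re : ∀ (x : B) (r : K), Adm x → star r = r → r ≠ 0 → Adm (r • x) ∧ F (r • x) = F x

variable (K B) [Algebra.IsCentral K B] [IsSimpleRing B] [FiniteDimensional K B]

/-- hermitian elements near `1` are norms up to a real scalar -/
def LH : Prop := ∀ᶠ h in ng N (1 : B), star h = h →
  ∃ p : B, IsUnit p ∧ star p * p = Nrd K h • h

/-- the same with `p` near `1` -/
def LH1 : Prop := ∀ V ∈ ng N (1 : B), ∀ᶠ h in ng N (1 : B), star h = h →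
  ∃ p ∈ V, IsUnit p ∧ star p * p = Nrd K h • h

variable {N K B} in
theorem LH1.lh (h : LH1 N K B) : LH N K B :=
  (h _ univ_mem).mono fun _ hx hs => let ⟨p, _, hp⟩ := hx hs; ⟨p, hp⟩

end Words

section Zero
variable {K B A : Type*} [Field K] [NumberField K] [StarRing K] [Ring B] [StarRing B]
  [Algebra K B] [StarModule K B] [CommGroup A]

/-- `-x⁻¹ x*` -/
def aa (x : B) : B := -(inverse x * star x)

variable (K) in
/-- `p* p = r (x + x*)` -/
def Tr (x : B) (r : K) (p : B) : Prop :=
  r ≠ 0 ∧ star r = r ∧ IsUnit p ∧ star p * p = r • (x + star x)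

variable (K) in
/-- admissible elements -/
def Ad (D : Submonoid B) (x : B) : Prop := IsUnit x ∧ (∃ r p, Tr K x r p) ∧ aa x ∈ D

variable (K) in
open Classical in
/-- the function `F` -/
def FF (f : B → A) (x : B) : A :=
  if h : ∃ q : K × B, Tr K x q.1 q.2 then f (h.choose.2 * aa x * inverse h.choose.2) else 1

theorem Tr.h {x p : B} {r : K} (h : Tr K x r p) : r • x + star (r • x) = star p * p := by
  rw [h.2.2.2, star_smul, h.2.1, smul_add]

theorem aa_smul {x : B} (hx : IsUnit x) {c : K} (hc : c ≠ 0) :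
    aa (c • x) = (star c / c) • aa x := by
  rw [aa, aa, Stab.inv_smul hc hx, star_smul, smul_mul_smul_comm, smul_neg, div_eq_inv_mul]

theorem Tr.rho {x p : B} {r : K} (h : Tr K x r p) (hx : IsUnit x) :
    rho (r • x) p = p * aa x * inverse p := by
  have h1 := rho_mul (Stab.isUnit_smul h.1 hx) h.h
  have h2 : inverse (r • x) * star (r • x) = -aa x := by
    have := aa_smul hx h.1
    rw [h.2.1, div_self h.1, one_smul] at this
    rw [← this, aa, neg_neg]
  rw [h2, mul_neg, neg_neg] at h1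
  rw [← h1, mul_assoc, mul_inverse_cancel p h.2.2.1, mul_one]

theorem Tr.mem {x p : B} {r : K} (h : Tr K x r p) (hx : IsUnit x) :
    p * aa x * inverse p ∈ unitary B := h.rho hx ▸ rho_mem (Stab.isUnit_smul h.1 hx) h.h

theorem aa_cong {x q : B} (hx : IsUnit x) (hq : IsUnit q) :
    aa (star q * x * q) = inverse q * aa x * q := by
  have e : inverse (star q * x * q) = inverse q * inverse x * inverse (star q) :=
    Stab.inv_eq ((hq.star.mul hx).mul hq) (by
      have h1 := mul_inverse_cancel q hq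
      have h2 := mul_inverse_cancel x hx
      have h3 := mul_inverse_cancel _ hq.star
      linear_combination (norm := noncomm_ring)
        star q * x * h1 * inverse x * inverse (star q) + star q * h2 * inverse (star q) + h3)
  have h3 := inverse_mul_cancel _ hq.star
  rw [aa, aa, e, star_mul, star_mul, star_star]
  linear_combination (norm := noncomm_ring) -(inverse q * inverse x * h3 * star x * q)

theorem aa_star {x : B} (hx : IsUnit x) : aa (star x) * aa x = 1 ∧ aa x * aa (star x) = 1 := by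
  have h1 := mul_inverse_cancel x hx
  have h2 := inverse_mul_cancel x hx
  have h3 := mul_inverse_cancel _ hx.star
  have h4 := inverse_mul_cancel _ hx.star
  rw [aa, aa, star_star]
  constructor
  · linear_combination (norm := noncomm_ring) inverse (star x) * h1 * star x + h4
  · linear_combination (norm := noncomm_ring) inverse x * h3 * x + h2

theorem Tr.cong {x p q : B} {r : K} (h : Tr K x r p) (hq : IsUnit q) :
    Tr K (star q * x * q) r (p * q) := by
  refine ⟨h.1, h.2.1, h.2.2.1.mul hq, ?_⟩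
  have : star (p * q) * (p * q) = star q * (star p * p) * q := by rw [star_mul]; noncomm_ring
  rw [this, h.2.2.2, star_mul, star_mul, star_star, mul_smul_comm, smul_mul_assoc]
  congr 1; noncomm_ring

end Zero

section Glob
variable {K : Type v} {B : Type w} [Field K] [NumberField K] [StarRing K] [Ring B] [StarRing B]
  [Algebra K B] [StarModule K B] [Algebra.IsCentral K B] [IsSimpleRing B] [FiniteDimensional K B]
  {A : Type} [CommGroup A] {m : ℕ} {f : B → A}

theorem conj_deep {x p : B} (hp : IsUnit p) (hx : x ∈ Deep K B m) :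
    p * x * inverse p ∈ Deep K B m := Deep.conj hx (mul_inverse_cancel p hp)

theorem f_one (hf : Ch (fun x => x ∈ unitary B ∧ x ∈ Deep K B m) f) : f 1 = 1 := by
  have := hf.f_mul 1 1 ⟨one_mem _, one_mem _⟩ ⟨one_mem _, one_mem _⟩
  rwa [mul_one, left_eq_mul] at this

theorem stb' (hs : Stb K B) (hf : Ch (fun x => x ∈ unitary B ∧ x ∈ Deep K B m) f) {x p q : B}
    {c r r' : K} (hc : c ≠ 0) (hx : IsUnit x) (h : Tr K x r p) (h' : Tr K (c • x) r' q)
    (hd : aa x ∈ Deep K B m) (hcd : algebraMap K B (star c / c) ∈ Deep K B m) :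
    f (q * aa (c • x) * inverse q) = f (algebraMap K B (star c / c)) * f (p * aa x * inverse p) := by
  have e : (r' * c / r) • r • x = r' • c • x := by
    rw [smul_smul, smul_smul, div_mul_cancel₀ _ h.1]
  have e2 : star (r' * c / r) / (r' * c / r) = star c / c := by
    have := h.1; have := h'.1
    rw [star_div₀, star_mul', h.2.1, h'.2.1]; field_simp
  have := hs A m f hf (r' * c / r) (r • x) p q (div_ne_zero (mul_ne_zero h'.1 hc) h.1)
    (Stab.isUnit_smul h.1 hx) h.2.2.1 h'.2.2.1 h.h (e ▸ h'.h)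
    (h.rho hx ▸ conj_deep h.2.2.1 hd) (e2 ▸ hcd)
  rwa [e, e2, h.rho hx, h'.rho (Stab.isUnit_smul hc hx)] at this

theorem FF_eq (hs : Stb K B) (hf : Ch (fun x => x ∈ unitary B ∧ x ∈ Deep K B m) f) {x p : B}
    {r : K} (hx : IsUnit x) (h : Tr K x r p) (hd : aa x ∈ Deep K B m) :
    FF K f x = f (p * aa x * inverse p) := by
  have h0 : ∃ q : K × B, Tr K x q.1 q.2 := ⟨(r, p), h⟩
  have := stb' hs hf one_ne_zero hx h (by rw [one_smul]; exact h0.choose_spec) hd
    (by simp)
  rw [FF, dif_pos h0]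
  simpa [f_one hf] using this

theorem ad_cong (hs : Stb K B) (hf : Ch (fun x => x ∈ unitary B ∧ x ∈ Deep K B m) f) {x q : B}
    (hx : Ad K (Deep K B m) x) (hq : IsUnit q) :
    Ad K (Deep K B m) (star q * x * q) ∧ FF K f (star q * x * q) = FF K f x := by
  obtain ⟨ux, ⟨r, p, h⟩, hd⟩ := hx
  have u' := (hq.star.mul ux).mul hq
  have hd' : aa (star q * x * q) ∈ Deep K B m := by
    rw [aa_cong ux hq]; exact Deep.conj hd (inverse_mul_cancel q hq)
  refine ⟨⟨u', ⟨r, _, h.cong hq⟩, hd'⟩, ?_⟩
  rw [FF_eq hs hf u' (h.cong hq) hd', FF_eq hs hf ux h hd, aa_cong ux hq,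
    Id32.inv_mul h.2.2.1 hq]
  congr 1
  have h1 := mul_inverse_cancel q hq
  linear_combination (norm := noncomm_ring)
    p * h1 * aa x * q * inverse q * inverse p + p * aa x * h1 * inverse p

theorem ad_star (hs : Stb K B) (hf : Ch (fun x => x ∈ unitary B ∧ x ∈ Deep K B m) f) {x : B}
    (hx : Ad K (Deep K B m) x) :
    Ad K (Deep K B m) (star x) ∧ FF K f (star x) = (FF K f x)⁻¹ := by
  obtain ⟨ux, ⟨r, p, h⟩, hd⟩ := hx
  have h' : Tr K (star x) r p := ⟨h.1, h.2.1, h.2.2.1, by rw [h.2.2.2, star_star, add_comm]⟩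
  have hd' : aa (star x) ∈ Deep K B m := Deep.inv hd (aa_star ux).1
  refine ⟨⟨ux.star, ⟨r, p, h'⟩, hd'⟩, ?_⟩
  rw [FF_eq hs hf ux.star h' hd', FF_eq hs hf ux h hd, eq_inv_iff_mul_eq_one,
    ← hf.f_mul _ _ ⟨h'.mem ux.star, conj_deep h.2.2.1 hd'⟩ ⟨h.mem ux, conj_deep h.2.2.1 hd⟩,
    ← f_one hf]
  congr 1
  have h1 := inverse_mul_cancel p h.2.2.1
  have h2 := mul_inverse_cancel p h.2.2.1
  linear_combination (norm := noncomm_ring)
    p * aa (star x) * h1 * aa x * inverse p + p * (aa_star ux).1 * inverse p + h2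

theorem ad_hua (hs : Stb K B) (hf : Ch (fun x => x ∈ unitary B ∧ x ∈ Deep K B m) f) {y s : B}
    (hy : Ad K (Deep K B m) y) (hys : Ad K (Deep K B m) (y + s)) (sk : star s = -s)
    (us : IsUnit s) : Ad K (Deep K B m) (inverse y + inverse s) ∧
      FF K f (inverse y + inverse s) * FF K f y = FF K f (y + s) := by
  obtain ⟨uy, ⟨r, p, h⟩, hd⟩ := hy
  obtain ⟨uz, -, hd'⟩ := hys
  have up := h.2.2.1
  have h' : Tr K (y + s) r p := ⟨h.1, h.2.1, up, by rw [h.2.2.2, star_add, sk]; congr 1; abel⟩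
  have uw : IsUnit (inverse y + inverse s) := by
    rw [(Id32.hua uy us).1]; exact (uy.ringInverse.mul uz).mul us.ringInverse
  have hw : Tr K (inverse y + inverse s) r (p * inverse y) := by
    refine ⟨h.1, h.2.1, up.mul uy.ringInverse, ?_⟩
    have : star (p * inverse y) * (p * inverse y) = star (inverse y) * (star p * p) * inverse y := by
      rw [star_mul]; noncomm_ring
    rw [Id32.h_hua uy us sk, this, h.2.2.2, mul_smul_comm, smul_mul_assoc]
  have h1 := mul_inverse_cancel y uy
  have h2 := inverse_mul_cancel y uy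
  have e : aa (inverse y + inverse s) = y * (aa (y + s) * aa (star y)) * inverse y := by
    rw [aa, Id32.b_hua uy us sk uz, aa, aa, star_star]
    linear_combination (norm := noncomm_ring)
      -(y * inverse (y + s) * star (y + s) * inverse (star y) * h1)
  have dw : aa (inverse y + inverse s) ∈ Deep K B m :=
    e ▸ conj_deep uy (mul_mem hd' (Deep.inv hd (aa_star uy).1))
  refine ⟨⟨uw, ⟨r, _, hw⟩, dw⟩, ?_⟩
  rw [FF_eq hs hf uw hw dw, FF_eq hs hf uy h hd, FF_eq hs hf uz h' hd',
    ← hf.f_mul _ _ ⟨hw.mem uw, conj_deep hw.2.2.1 dw⟩ ⟨h.mem uy, conj_deep up hd⟩, e,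
    Id32.inv_mul up uy.ringInverse, inverse_inverse uy]
  congr 1
  have h3 := inverse_mul_cancel p up
  linear_combination (norm := noncomm_ring)
    p * h2 * aa (y + s) * aa (star y) * inverse y * y * inverse p * p * aa y * inverse p
      + p * aa (y + s) * aa (star y) * h2 * inverse p * p * aa y * inverse p
      + p * aa (y + s) * aa (star y) * h3 * aa y * inverse p
      + p * aa (y + s) * (aa_star uy).1 * inverse p

variable [Algebra ℚ B]

/-- H0: the rules hold for the real `F` -/
theorem sys {N : ℕ} (hN : 2 ≤ N) (hs : Stb K B) (hL : LH N K B)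
    (hD : ∀ᶠ u in ng N (1 : B), u ∈ Deep K B m)
    (hf : Ch (fun x => x ∈ unitary B ∧ x ∈ Deep K B m) f) :
    Sys N (FF K f) (Ad K (Deep K B m)) (fun c : K => f (algebraMap K B (star c / c))) := by
  have := fdQ K B
  have alg : Tendsto (algebraMap K B) (ng N 1) (ng N 1) := by
    simpa using ng_map (N := N) (algebraMap K B).toAddMonoidHom 1
  have stK : Tendsto (star : K → K) (ng N 1) (ng N 1) := by
    have := ng_map (N := N) (starAddEquiv (R := K)).toAddMonoidHom 1
    rw [show (starAddEquiv (R := K)).toAddMonoidHom 1 = 1 from star_one K] at this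
    exact this
  have stB : Tendsto (star : B → B) (ng N 1) (ng N 1) := by
    have := ng_map (N := N) (starAddEquiv (R := B)).toAddMonoidHom 1
    rw [show (starAddEquiv (R := B)).toAddMonoidHom 1 = 1 from star_one B] at this
    exact this
  refine ⟨fun _ h => h.1, fun _ _ h hq => ad_cong hs hf h hq, fun x h => ?_,
    fun _ _ h h' sk us => ad_hua hs hf h h' sk us, ?_, ?_, fun x r h hr r0 => ?_⟩
  · have h1 := ad_star hs hf h
    have h2 := ad_cong hs hf h1.1 h.1.ringInverse
    have e : star (inverse x) * star x * inverse x = inverse x := by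
      rw [← star_mul, mul_inverse_cancel x h.1, star_one, one_mul]
    rw [e, h1.2] at h2
    exact h2
  · have h1 : Tendsto (fun c : K => algebraMap K B (star c / c)) (ng N 1) (ng N 1) := by
      refine alg.comp ?_
      simpa [div_eq_mul_inv] using ng_mul_one stK (ng_inverse (B := K) hN)
    filter_upwards [h1.eventually hD, ng_isUnit (B := K) hN] with c hc c0 x hx hx'
    obtain ⟨ux, ⟨r, p, h⟩, hd⟩ := hx
    obtain ⟨ux', ⟨r', q, h'⟩, hd'⟩ := hx'
    rw [FF_eq hs hf ux h hd, FF_eq hs hf ux' h' hd', stb' hs hf c0.ne_zero ux h h' hd hc]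
  · have h1 : Tendsto (fun v : B => inverse v * star v) (ng N 1) (ng N 1) :=
      ng_mul_one (ng_inverse hN) stB
    refine ⟨_, alg.eventually hD, _,
      ((h1.eventually hD).and (ng_isUnit hN)).and hL, fun x c r c0 hZ hV hr r0 hV' => ?_⟩
    have e : x = c • c⁻¹ • x := by rw [smul_smul, mul_inv_cancel₀ c0, one_smul]
    have ux : IsUnit x := e ▸ Stab.isUnit_smul c0 hV.1.2
    obtain ⟨p, up, hp⟩ := hV'.2 (by
      rw [star_smul, star_add, star_star, star_inv₀, hr, add_comm])
    have hn : star (Nrd K (r⁻¹ • (x + star x))) = Nrd K (r⁻¹ • (x + star x)) := by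
      rw [← Nrd_star, star_smul, star_add, star_star, star_inv₀, hr, add_comm]
    refine ⟨ux, ⟨Nrd K (r⁻¹ • (x + star x)) * r⁻¹, p, mul_ne_zero
      (hV'.1.2.map (Nrd K)).ne_zero (inv_ne_zero r0), by rw [star_mul', hn, star_inv₀, hr], up,
      by rw [hp, smul_smul]⟩, ?_⟩
    have e2 : aa x = algebraMap K B (-star c / c) * (inverse (c⁻¹ • x) * star (c⁻¹ • x)) := by
      conv_lhs => rw [e, aa_smul hV.1.2 c0, aa]
      rw [← Algebra.smul_def, neg_div, neg_smul, smul_neg]
    rw [e2]
    exact mul_mem hZ hV.1.1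
  · obtain ⟨ux, ⟨r', p, h⟩, hd⟩ := h
    have e : aa (r • x) = aa x := by rw [aa_smul ux r0, hr, div_self r0, one_smul]
    have h' : Tr K (r • x) (r' / r) p := ⟨div_ne_zero h.1 r0, by rw [star_div₀, h.2.1, hr], h.2.2.1,
      by rw [h.2.2.2, star_smul, hr, ← smul_add, smul_smul, div_mul_cancel₀ _ r0]⟩
    have ur := Stab.isUnit_smul r0 ux
    exact ⟨⟨ur, ⟨_, p, h'⟩, e ▸ hd⟩, by rw [FF_eq hs hf ur h' (e ▸ hd), FF_eq hs hf ux h hd, e]⟩

omit [Algebra ℚ B] in
/-- the value of `F` at `(1 - u)⁻¹` -/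
theorem FF_val (hs : Stb K B) (hf : Ch (fun x => x ∈ unitary B ∧ x ∈ Deep K B m) f) {u : B}
    (hu : u ∈ unitary B) (hd : u ∈ Deep K B m) (h1 : IsUnit (1 - u)) :
    Ad K (Deep K B m) (inverse (1 - u)) ∧ FF K f (inverse (1 - u)) = f u := by
  have e1 := (Unitary.mem_iff.1 hu).2
  have e3 := mul_inverse_cancel _ h1.star
  have e4 := inverse_mul_cancel _ h1
  rw [star_sub, star_one] at e3
  have e : aa (inverse (1 - u)) = u := by
    rw [aa, inverse_inverse h1, ← Ring.inverse_star, star_sub, star_one]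
    linear_combination (norm := noncomm_ring) u * e3 + e1 * inverse (1 - star u)
  have h : Tr K (inverse (1 - u)) 1 1 := by
    refine ⟨one_ne_zero, star_one _, isUnit_one, ?_⟩
    rw [one_smul, ← Ring.inverse_star, star_sub, star_one, one_mul]
    linear_combination (norm := noncomm_ring) -e4 + inverse (1 - u) * u * e3
      + inverse (1 - u) * e1 * inverse (1 - star u) + e4 * inverse (1 - star u)
  refine ⟨⟨h1.ringInverse, ⟨1, 1, h⟩, e.symm ▸ hd⟩, ?_⟩
  rw [FF_eq hs hf h1.ringInverse h (e.symm ▸ hd), e]; simp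

end Glob

end Crest.Agent.T24.Hol
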