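import Crest.Agent.T24.HolLH_28
import Crest.Agent.T24.HolDef_95

/-! Row 24, holonomy step (helper28): (LH1) in the words of `HolDef_95`. -/

set_option autoImplicit false

namespace Crest.Agent.T24.Hol

open Csa

universe u v w

theorem lh1Stmt (D : Dat.{u, v, w}) (hd : Odd (deg D.K D.B)) [Algebra ℚ D.B] (N : ℕ) (hN : 2 ≤ N) :
    LH1 N D.K D.B := fun V hV => by
  filter_upwards [Hol28.lh1 D.k hd (by omega) hV] with h h1 hh
  obtain ⟨r, p, h2, -, h3, h4, h5⟩ := h1 hh
  exact ⟨p, h3, h4, by rw [h5, ← h2, algebraMap_smul]⟩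

end Crest.Agent.T24.Hol
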