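import Crest.Agent.T24.HolPDef_80
import Crest.Agent.T24.OpnB_6
import Crest.Agent.T24.Csa4_50

/-!
# Row 24, HOL, leaf H4 (helper80), part B: unitary elements near a unitary element
-/

set_option autoImplicit false
set_option linter.unusedSectionVars false

noncomputable section

namespace Crest.Agent.T24.H80

open Filter Topology Module Csa In Opn

universe u v

variable {N : ℕ}

section Vec
variable {V : Type*} [AddCommGroup V] [Module ℚ V]

theorem ev_notMem (T : Submodule ℚ V) {a : V} (h : a ∉ T) : ∀ᶠ x in ng N a, x ∉ T := by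
  obtain ⟨φ, h1, h2⟩ := T.exists_dual_map_eq_bot_of_notMem h inferInstance
  have h3 := tendsto_na.1 (tendsto_id.mono_right (ng_le_na (N := N) a))
    ((Rat.castHom ℝ).toAddMonoidHom.comp φ.toAddMonoidHom)
  filter_upwards [h3.eventually_ne (b₂ := 0) (by simpa using h1)] with x hx hT
  have : φ x = 0 := (Submodule.eq_bot_iff _).1 h2 _ ⟨x, hT, rfl⟩
  simp [this] at hx

/-- subspaces are closed -/
theorem mem_of_ng {α : Type*} {l : Filter α} [l.NeBot] (T : Submodule ℚ V) {f : α → V} {a : V}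
    (hf : Tendsto f l (ng N a)) (h : ∀ᶠ i in l, f i ∈ T) : a ∈ T := by
  by_contra ha
  obtain ⟨i, h1, h2⟩ := ((hf.eventually (ev_notMem T ha)).and h).exists
  exact h1 h2

theorem ev_ne [FiniteDimensional ℚ V] {a c : V} (h : c ≠ a) : ∀ᶠ x in ng N a, x ≠ c := by
  filter_upwards [(ng_sub tendsto_id (ng_const c)).eventually
    (ev_notMem (N := N) ⊥ (a := a - c) (by simpa [sub_eq_zero] using h.symm))] with x hx
  simpa [sub_eq_zero] using hx

end Vec

theorem tendsto_rat {q : ℕ} (hq : q.Coprime N) (h : N < q) :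
    Tendsto (fun k : ℕ => ((N : ℚ) / q) ^ k) atTop (ng N 0) := by
  refine tendsto_ng.2 ⟨?_, tendsto_na.2 fun φ => ?_⟩
  · rw [nr_zero]
    intro U hU
    obtain ⟨m, hm⟩ := exists_dp_subset hU (Submodule.fg_span_singleton (R := ZN N) (1 : ℚ))
    refine mem_map.2 (eventually_atTop.2 ⟨m, fun k hk => hm _ (dp_anti _ hk ⟨_, zsmul_mem
      (pow_mem (inv_mem_ZN hq) k) (Submodule.mem_span_singleton_self 1), ?_⟩)⟩)
    simp [div_eq_mul_inv, mul_pow]
  · have h0 : (0 : ℝ) < q := by exact_mod_cast h.pos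
    have h1 : Tendsto (fun k : ℕ => ((N : ℝ) / q) ^ k) atTop (𝓝 0) :=
      tendsto_pow_atTop_nhds_zero_of_lt_one (by positivity)
        ((div_lt_one h0).2 (by exact_mod_cast h))
    have h2 : ∀ x : ℚ, φ x = x * φ 1 := fun x => by
      simpa [Rat.smul_def] using map_rat_smul φ x 1
    simpa [h2 (_ ^ _)] using h1.mul_const (φ 1)

theorem tendsto_rat' (hN : 2 ≤ N) {q : ℕ} (hq : q.Coprime N) (h : N < q) :
    Tendsto (fun k : ℕ => (1 + ((q : ℚ) / N) ^ k)⁻¹) atTop (ng N 0) := by
  have h1 := tendsto_rat hq h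
  have h2 := ng_mul h1 (ng_inv hN (by simpa using ng_add (ng_const (1 : ℚ)) h1))
  rw [zero_mul] at h2
  refine h2.congr fun k => ?_
  have : (0 : ℚ) < N := by positivity
  have : (0 : ℚ) < q := by exact_mod_cast h.pos
  simp only [Ring.inverse_eq_inv', div_pow]
  field_simp
  ring

section Alg
variable {B : Type*} [Ring B] [StarRing B] [Algebra ℚ B] [FiniteDimensional ℚ B]

theorem core (hN : 2 ≤ N) (a : unitary B) {W : Set B} (hW : W ∈ ng N (a : B)) {r : ℕ → ℚ}
    (h0 : ∀ k, r k ≠ 0) (hr : Tendsto r atTop (ng N 0)) {X : B} (hX : star X = -X)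
    (T : Submodule ℚ B) (h : ∀ᶠ k in atTop, IsUnit (1 - r k • X) → a * cay (r k • X) ∈ unitary B →
      a * cay (r k • X) ∈ W → a * cay (r k • X) ∈ T) : a * X ∈ T := by
  have hA : Anti (starAddEquiv (R := B)).toAddMonoidHom := ⟨star_mul, star_star⟩
  have := dedekind (B := B)
  have h1 : Tendsto (fun k => r k • X) atTop (ng N 0) := by
    simpa using ng_lin (LinearMap.toSpanSingleton ℚ B X).toAddMonoidHom hr
  have h2 : Tendsto (fun k => 1 - r k • X) atTop (ng N 1) := by simpa using ng_sub (ng_const 1) h1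
  have h3 := ng_inv hN h2
  have h4 : Tendsto (fun k => a * cay (r k • X)) atTop (ng N (a : B)) := by
    simpa [cay] using ng_mul (ng_const (a : B)) (ng_mul (ng_add (ng_const 1) h1) h3)
  have h5 : ∀ᶠ k in atTop, IsUnit (1 - r k • X) ∧ a * cay (r k • X) ∈ T := by
    filter_upwards [h, h2.eventually (ng_isUnit hN), h4.eventually hW] with k a1 a2 a3
    have a4 : star (cay (r k • X)) * cay (r k • X) = 1 := hA.cay_unitary
      (show star (r k • X) = _ by rw [star_rat_smul, hX, smul_neg]) a2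
    exact ⟨a2, a1 a2 (mul_mem a.2 ⟨a4, mul_eq_one_comm.1 a4⟩) a3⟩
  have h6 : (a : B) ∈ T := mem_of_ng T h4 (h5.mono fun _ h => h.2)
  refine mem_of_ng T (by simpa using ng_mul (ng_const (a * X : B)) h3) (h5.mono fun k hk => ?_)
  have a1 : (2 * r k) • (a * X * Ring.inverse (1 - r k • X)) = a * cay (r k • X) - a := by
    have : cay (r k • X) - 1 = (2 * r k) • (X * Ring.inverse (1 - r k • X)) := by
      nth_rewrite 1 [← Ring.mul_inverse_cancel _ hk.1]
      rw [cay, ← sub_mul, ← smul_mul_assoc, mul_smul, two_smul]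
      congr 1
      abel
    rw [mul_assoc, ← mul_smul_comm, ← this, mul_sub, mul_one]
  exact (T.smul_mem_iff (mul_ne_zero two_ne_zero (h0 k))).1 (a1 ▸ T.sub_mem hk.2 h6)

theorem sub0 (hN : 2 ≤ N) (a : unitary B) {W : Set B} (hW : W ∈ ng N (a : B)) (T : Submodule ℚ B)
    (h : ∀ x ∈ unitary B, x ∈ W → x ∈ T) {X : B} (hX : star X = -X) : a * X ∈ T :=
  core hN a hW (fun _ => by positivity) (tendsto_rat (q := N + 1) (by simp) (by simp)) hX T
    (.of_forall fun _ _ => h _)

end Alg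

variable {K : Type*} [Field K] [NumberField K] [StarRing K]

theorem eq_top_of_skew (hne : ∃ c : K, star c ≠ c) {B : Type*} [Ring B] [StarRing B] [Algebra K B]
    [StarModule K B] (a : unitary B) {T : Submodule K B} (h : ∀ X : B, star X = -X → a * X ∈ T) :
    T = ⊤ := by
  obtain ⟨θ, h0, hθ⟩ := exists_skew hne
  refine eq_top_iff.2 fun x _ => ?_
  obtain ⟨y, rfl⟩ : ∃ y, x = a * y := ⟨star (a : B) * x, by rw [← mul_assoc, a.2.2, one_mul]⟩
  have h1 := h (y - star y) (by rw [star_sub, star_star, neg_sub])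
  have h2 := h (θ • (y + star y)) (by rw [star_smul, hθ, star_add, star_star, add_comm, neg_smul])
  rw [mul_smul_comm, T.smul_mem_iff h0] at h2
  refine (T.smul_mem_iff (two_ne_zero (α := K))).1 ?_
  convert T.add_mem h1 h2 using 1
  rw [two_smul, ← mul_add, ← mul_add]
  congr 1
  abel

theorem infinite_of (hne : ∃ c : K, star c ≠ c) {P : K → Prop}
    (H : ∀ W ∈ ng N (1 : K), ∀ T : Submodule ℚ K, (∀ x ∈ unitary K, x ∈ W → P x → x ∈ T) →
      ∀ X, star X = -X → X ∈ T) {V : Set K} (hV : V ∈ ng N (1 : K)) :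
    {κ | κ ∈ V ∧ star κ * κ = 1 ∧ P κ}.Infinite := fun hf => by
  obtain ⟨θ, h0, hθ⟩ := exists_skew hne
  have h1 : ∀ᶠ x in ng N (1 : K), ∀ c ∈ {κ | κ ∈ V ∧ star κ * κ = 1 ∧ P κ} \ {1}, x ≠ c :=
    (eventually_all_finite (hf.subset Set.sdiff_subset)).2 fun c hc => ev_ne hc.2
  obtain ⟨q, hq⟩ := Submodule.mem_span_singleton.1 (H _ (inter_mem hV h1) (Submodule.span ℚ {1})
    (fun x a1 a2 a3 => by
      obtain rfl : x = 1 := by_contra fun h => a2.2 x ⟨⟨a2.1, a1.1, a3⟩, h⟩ rfl
      exact Submodule.mem_span_singleton_self _) θ hθ)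
  have h2 := congrArg star hq
  rw [star_rat_smul, star_one, hq, hθ] at h2
  exact h0 (by linear_combination (1 / 2 : K) * h2)

theorem span0Stmt : Span0Stmt.{u, v} := fun K _ _ _ B _ _ _ _ _ _ hne _ hN a _ hW =>
  have := fdQ K B
  eq_top_of_skew hne a fun _ hX => sub0 hN a hW (Submodule.restrictScalars ℚ (Submodule.span K _))
    (fun _ h1 h2 => Submodule.subset_span (R := K) (by exact ⟨h1, h2⟩)) hX

theorem nodes0Stmt : Nodes0Stmt.{u} := fun K _ _ _ hne _ hN _ hV =>
  (infinite_of hne (P := fun _ => True) (fun _ hW T h _ hX => by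
    simpa using sub0 hN (1 : unitary K) hW T (fun x a1 a2 => h x a1 a2 trivial) hX) hV).mono
      fun _ h => ⟨h.1, h.2.1⟩

/-- the fixed field of the involution -/
theorem exists_quad (hne : ∃ c : K, star c ≠ c) : ∃ k : IntermediateField ℚ K, Quad k K := by
  let σ : K ≃ₐ[ℚ] K := (starRingAut (R := K)).toRatAlgEquiv
  refine ⟨IntermediateField.fixedField (Subgroup.zpowers σ), ?_, fun c => c.2 ⟨σ, Subgroup.mem_zpowers σ⟩,
    hne⟩
  rw [IntermediateField.finrank_fixedField_eq_card, Nat.card_zpowers]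
  refine orderOf_eq_prime (AlgEquiv.ext fun x => star_star x) fun h => ?_
  obtain ⟨c, hc⟩ := hne
  exact hc (congrArg (fun f : K ≃ₐ[ℚ] K => f c) h)

end Crest.Agent.T24.H80
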