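import Crest.Agent.T24.HolPA_80
import Crest.Agent.T24.HolPB_80
import Crest.Agent.T24.EmbW_56
import Crest.Agent.T24.LocL_59
import Crest.Agent.T24.TLink_31

/-!
# Row 24, HOL, leaf H4 (helper80): chains of edges
-/

set_option autoImplicit false
set_option linter.unusedSectionVars false

noncomputable section

namespace Crest.Agent.T24.H80

open Filter Topology Module Csa In Opn Asa NumberField WithZero Finset Polynomial Emb
open scoped Valued

universe u v

theorem norm_lt {F : Type*} [NormedField F] [IsUltrametricDist F] {N p : ℕ} (hN : 2 ≤ N)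
    (hc : p.Coprime N) (hp : ‖(p : F)‖ < 1) : ‖((p ^ N : ℕ) : F) / N‖ < 1 := by
  have h1 : ‖(N : F)‖ = 1 := by
    refine le_antisymm (IsUltrametricDist.norm_natCast_le_one F N) (not_lt.1 fun h => ?_)
    obtain ⟨a, b, hab⟩ := Nat.isCoprime_iff_coprime.2 hc
    have h2 : (a : F) * p + b * N = 1 := by exact_mod_cast congrArg (Int.cast (R := F)) hab
    have h3 := IsUltrametricDist.norm_add_le_max ((a : F) * p) (b * N)
    rw [h2, norm_one, norm_mul, norm_mul] at h3
    exact absurd h3 (not_le.2 (max_lt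
      (mul_lt_one_of_nonneg_of_lt_one_right (IsUltrametricDist.norm_intCast_le_one F a)
        (norm_nonneg _) hp)
      (mul_lt_one_of_nonneg_of_lt_one_right (IsUltrametricDist.norm_intCast_le_one F b)
        (norm_nonneg _) h)))
  rw [norm_div, h1, div_one, Nat.cast_pow, norm_pow]
  exact pow_lt_one₀ (norm_nonneg _) hp (by omega)

theorem box {E : Type*} [Field E] [TopologicalSpace E] [IsTopologicalRing E] [ContinuousInv₀ E]
    {d : ℕ} {l : Fin d → E} (h1 : Function.Injective l) (h2 : ∀ j, l j ≠ 1) {f : E[X]}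
    (hf : ∀ j, f.eval (l j) = 0) (c : E) {U : Set E} (hU : U ∈ 𝓝 0) : ∃ O : Fin d → Set E,
      (∀ j, O j ∈ 𝓝 (l j)) ∧ ∀ y : Fin d → E, (∀ j, y j ∈ O j) → ∀ j,
        c * (f.eval (y j) / ∏ i ∈ univ.erase j, (y j - y i)) / (1 - y j) ∈ U := by
  have h4 : ∀ᶠ y in 𝓝 l, ∀ j, c * (f.eval (y j) / ∏ i ∈ univ.erase j, (y j - y i)) / (1 - y j) ∈ U :=
    eventually_all.2 fun j => by
    have a1 : ContinuousAt (fun y : Fin d → E => c *
        (f.eval (y j) / ∏ i ∈ univ.erase j, (y j - y i)) / (1 - y j)) l :=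
      (continuousAt_const.mul (ContinuousAt.div (g := fun y : Fin d → E => ∏ i ∈ univ.erase j,
        (y j - y i)) (f.continuous.comp (continuous_apply j)).continuousAt (by fun_prop)
        (prod_ne_zero_iff.2 fun i hi => sub_ne_zero.2 (h1.ne (ne_of_mem_erase hi).symm)))).div
        (continuous_const.sub (continuous_apply j)).continuousAt (sub_ne_zero.2 (h2 j).symm)
    exact a1 (by simpa [hf] using hU)
  rw [nhds_pi, Filter.Eventually, mem_pi'] at h4
  obtain ⟨I, O, hO, h4⟩ := h4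
  exact ⟨O, hO, fun y hy => h4 (show y ∈ Set.pi I O from fun j _ => hy j)⟩

variable (k K B : Type*) [Field k] [NumberField k] [Field K] [NumberField K] [Algebra k K]
  [StarRing K] [Quad k K] [Ring B] [StarRing B] [Algebra K B] [StarModule K B]
  [Algebra.IsCentral K B] [IsSimpleRing B] [FiniteDimensional K B] [Algebra k B]
  [IsScalarTower k K B]

variable {k K B} in
theorem loc_D {F : Type*} [NontriviallyNormedField F] [CompleteSpace F] [Algebra k F]
    {a g : BC k K B F} (ha : a ∈ unitary _) (hg : g ∈ unitary _) {O : Set (BC k K B F)}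
    (hO : O ∈ 𝓝 g) : ∃ (D : Set (BC k K B F)) (X : BC k K B F), IsOpen D ∧
      (fun x => (2⁻¹ : F) • (x - star x)) ⁻¹' D ∈ 𝓝 X ∧ ∀ x ∈ D, IsUnit (1 - x) ∧ a * cay x ∈ O := by
  have : CharZero F := charZero_of_injective_algebraMap (algebraMap k F).injective
  obtain ⟨θ, h0, hθ⟩ := exists_skew (Quad.ne (k := k) (K := K))
  have h1 : (a * ·) ⁻¹' O ∈ 𝓝 (star a * g) := (continuous_const_mul a).continuousAt.preimage_mem_nhds
    (by rwa [← mul_assoc, ha.2, one_mul])
  obtain ⟨X, hX, h2, h3⟩ := (W56.antiL k K B F).cay_dense two_ne_zero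
    (((Ne.isUnit h0).map (algebraMap K B)).map (BC.inc k K B F)) (W56.commute_inc k K B F θ)
    (by
      change star (BC.inc k K B F (algebraMap K B θ)) = _
      rw [BC.star_inc, T24.star_algebraMap, hθ, map_neg, map_neg])
    (mul_mem (Unitary.star_mem ha) hg).1 (interior_mem_nhds.2 h1)
  have h4 : {x | IsUnit (1 - x) ∧ a * cay x ∈ O} ∈ 𝓝 X :=
    ((tendsto_id.const_sub 1).eventually (Opn.ev_isUnit F h2)).and
      ((cay_continuousAt F h2) (mem_interior_iff_mem_nhds.1 h3))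
  have h5 : star X = -X := hX
  have h6 : Continuous fun x : BC k K B F => (2⁻¹ : F) • (x - star x) := by fun_prop
  have h7 : (2⁻¹ : F) • (X - star X) = X := by simp [h5, ← two_smul F X, smul_smul]
  exact ⟨interior {x | IsUnit (1 - x) ∧ a * cay x ∈ O}, X, isOpen_interior,
    h6.continuousAt.preimage_mem_nhds (by rwa [h7, interior_mem_nhds]),
    fun x hx => (interior_subset hx :)⟩

variable {k B} {N p : ℕ}

/-- weak approximation at `p` inside a neighbourhood for `ng N` -/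
theorem wa_sub [Algebra ℚ B] (hN : 2 ≤ N) (hp : p.Prime) (hpN : ¬ p ∣ N) {S : Finset (Pl k)}
    (hS : ∀ v ∈ S, v.valuation k (p : k) < 1) (a : unitary B) {W : Set B} (hW : W ∈ ng N (a : B))
    (g : ∀ v : Pl k, BC k K B (Kv v)) (O : ∀ v : Pl k, Set (BC k K B (Kv v)))
    (hg : ∀ v ∈ S, g v ∈ unitary _ ∧ O v ∈ 𝓝 (g v)) (T : Submodule ℚ B)
    (hT : ∀ x ∈ unitary B, x ∈ W → (∀ v ∈ S, BC.inc k K B _ x ∈ O v) → x ∈ T) {Y : B}
    (hY : star Y = -Y) : a * Y ∈ T := by
  have := fdQ K B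
  have := fun v : Pl k => Loc.charZero_adic k v
  have hc := (Nat.Prime.coprime_iff_not_dvd hp).2 hpN
  choose! D X h1 h2 h4 using fun v (hv : v ∈ S) =>
    loc_D (toU k K B (Kv v) a).2 (hg v hv).1 (hg v hv).2
  have hq : ∀ (v : Pl k) (r : ℚ) (x : B),
      BC.inc k K B (Kv v) (r • x) = (r : Kv v) • BC.inc k K B (Kv v) x := fun v r x => by
    rw [← Rat.cast_smul_eq_qsmul k, map_smul, ← algebraMap_smul (Kv v), map_ratCast]
  have ht : ∀ v ∈ S, Tendsto (fun n : ℕ => (((p ^ N : ℕ) : Kv v) / N) ^ n) atTop (𝓝 0) :=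
    fun v hv => tendsto_pow_atTop_nhds_zero_of_norm_lt_one (norm_lt hN hc (by
      rw [← map_natCast (algebraMap k (Kv v)), Valued.toNormedField.norm_lt_one_iff, Loc.val_alg]
      exact hS v hv))
  have key : ∀ Z : B, star Z = -Z → (∀ v ∈ S, BC.inc k K B _ Z ∈ D v) → a * Z ∈ T := by
    intro Z a1 a2
    refine core hN a hW (fun _ => by have := hp.pos; positivity)
      (tendsto_rat' hN (hc.pow_left N) (Nat.lt_pow_self hp.one_lt)) a1 T ?_
    have a3 : ∀ v ∈ S, ∀ᶠ n : ℕ in atTop,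
        BC.inc k K B _ ((1 + (((p ^ N : ℕ) : ℚ) / N) ^ n)⁻¹ • Z) ∈ D v := fun v hv => by
      have := ((((ht v hv).const_add 1).inv₀ (by simp)).smul_const (BC.inc k K B _ Z)).eventually_mem
        ((h1 v hv).mem_nhds (by simpa using a2 v hv))
      simpa only [hq, Rat.cast_inv, Rat.cast_add, Rat.cast_pow, Rat.cast_div, Rat.cast_natCast,
        Rat.cast_one] using this
    filter_upwards [(eventually_all_finset S).2 a3] with n a4 a5 a6 a7
    refine hT _ a6 a7 fun v hv => ?_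
    rw [map_mul]
    exact (map_cay (BC.inc k K B (Kv v)).toRingHom a5).symm ▸ (h4 v hv _ (a4 v hv)).2
  obtain ⟨b, hb, -⟩ := waB k K B S X _ (fun _ => 0) (fun _ => Set.univ) h2 fun _ => univ_mem
  set Z : B := (2⁻¹ : ℚ) • (b - star b) with hZ
  have a1 : star Z = -Z := by rw [hZ, star_rat_smul, star_sub, star_star, ← smul_neg, neg_sub]
  have a2 : ∀ v ∈ S, BC.inc k K B _ Z ∈ D v := fun v hv => by
    simpa [hZ, hq] using hb v hv
  have a3 : ∀ v ∈ S, ∀ᶠ n : ℕ in atTop,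
      BC.inc k K B _ (Z + (((p ^ N : ℕ) : ℚ) / N) ^ n • Y) ∈ D v := fun v hv => by
    have := (((ht v hv).smul_const (BC.inc k K B _ Y)).const_add (BC.inc k K B _ Z)).eventually_mem
      ((h1 v hv).mem_nhds (by simpa using a2 v hv))
    simpa only [map_add, hq, Rat.cast_pow, Rat.cast_div, Rat.cast_natCast] using this
  obtain ⟨n, hn⟩ := ((eventually_all_finset S).2 a3).exists
  have a4 := T.sub_mem (key _ (by rw [star_add, a1, star_rat_smul, hY, smul_neg, neg_add]) hn)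
    (key Z a1 a2)
  rwa [mul_add, add_sub_cancel_left, mul_smul_comm,
    T.smul_mem_iff (by have := hp.pos; positivity)] at a4

theorem exists_nhds (v : Pl k) (m : ℕ) : ∃ U ∈ 𝓝 (0 : BC k K K (Kv v)), ∀ x : K,
    BC.inc k K K _ x ∈ U → ∀ w : Pl K, below k w = v → w.valuation K x ≤ exp (-(m : ℤ)) := by
  obtain ⟨δ, b, -, -, hi, hb⟩ := TL31.exists_basis k K
  refine ⟨_, (TL31.nhds_box k K K v b).mem_of_mem (i := m) trivial, fun x hx w hw => ?_⟩
  subst hw
  have h1 : ∀ i, w.valuation K (algebraMap k K (b.repr x i)) ≤ exp (-(m : ℤ)) := fun i => by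
    have := hx i
    rw [TL31.crd_inc, Loc.val_alg] at this
    exact below_le_exp w _ _ this
  rw [hb x]
  refine Valuation.map_add_le _ (h1 0) ?_
  rw [map_mul]
  exact (mul_le_of_le_one_right' (hi w)).trans (h1 1)

/-- `Om` at the place `v` (no condition at a split place) -/
def OmV {v : Pl k} (x : BC k K B (Kv v)) : Prop :=
  ∀ _ : IsEmpty (K →ₐ[k] Kv v), Om (BC k K K (Kv v)) (deg K B) x

variable {K}

theorem OmV.adj {v : Pl k} {x : BC k K B (Kv v)} (h : OmV K x) : OmV K (star x) :=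
  fun i => (h i).adj

theorem OmV.ev {v : Pl k} {u : BC k K B (Kv v)} (h : OmV K u) :
    ∀ᶠ x in 𝓝 u, x ∈ unitary _ → OmV K x := by
  by_cases i : IsEmpty (K →ₐ[k] Kv v)
  · filter_upwards [(h i).ev (Kv v) (BC.deg_E k K (Kv v) B)] with x hx hu _ using hx hu
  · exact .of_forall fun _ _ j => absurd j i

theorem chain_loc (hd : 3 ≤ deg K B) (v : Pl k) (g g' : Uc k K B (Kv v)) :
    ∃ M₀, ∀ M, M₀ ≤ M → Ch (fun u : Uc k K B (Kv v) => OmV K (u : BC k K B (Kv v))) g M g' := by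
  by_cases i : IsEmpty (K →ₐ[k] Kv v)
  · obtain ⟨ψ⟩ := Loc.bc_mat K B v
    obtain ⟨M₀, h⟩ := local_chain (Quad.ne (k := Kv v)) (by omega) ψ (Loc.bc_iso K B v hd) g g'
    refine ⟨M₀, fun M hM => ?_⟩
    obtain ⟨z, y, h0, h1, h2⟩ := h M hM
    exact ⟨z, y, h0, h1, fun t ht => ⟨fun _ => (h2 t ht).1, fun _ => (h2 t ht).2⟩⟩
  · exact ch_of (a := 1) (fun j => absurd j i) (fun u => Subgroup.subset_closure
      ⟨u, 1, fun j => absurd j i, fun j => absurd j i, by simp⟩) g g'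

theorem loc_nod {v : Pl k} {b : B} (h : OmV K (BC.inc k K B (Kv v) b)) (c : K) (m : ℕ) :
    ∃ (g : Fin (deg K B) → BC k K K (Kv v)) (O : Fin (deg K B) → Set (BC k K K (Kv v))),
      (∀ j, g j ∈ unitary _ ∧ O j ∈ 𝓝 (g j)) ∧ ∀ κ : Fin (deg K B) → K,
        (∀ j, BC.inc k K K _ (κ j) ∈ O j) → ∀ j, ∀ w : Pl K, below k w = v → ¬ Split w →
          w.valuation K (c * ((rch K b).eval (κ j) / ∏ i ∈ univ.erase j, (κ j - κ i)) / (1 - κ j)) ≤
            exp (-(m : ℤ)) := by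
  by_cases i : IsEmpty (K →ₐ[k] Kv v)
  swap
  · exact ⟨1, fun _ => Set.univ, fun j => ⟨one_mem _, univ_mem⟩, fun κ _ j w hw hs =>
      absurd (hw ▸ Loc.isEmpty_iff.2 hs) i⟩
  obtain ⟨l, h1, h2⟩ := h i
  obtain ⟨U, hU, h3⟩ := exists_nhds K v m
  have : ContinuousInv₀ (BC k K K (Kv v)) := ⟨fun x hx => by
    simpa only [Ring.inverse_eq_inv'] using inverse_continuousAt (Kv v) hx.isUnit⟩
  obtain ⟨O, hO, h4⟩ := box h1 (fun j => (h2 j).2.1) (f := rch _ (BC.inc k K B (Kv v) b))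
    (fun j => by rw [eval_rch, (h2 j).2.2]) (BC.inc k K K (Kv v) c) hU
  refine ⟨l, O, fun j => ⟨⟨(h2 j).1, (mul_comm _ _).trans (h2 j).1⟩, hO j⟩,
    fun κ hκ j w hw _ => h3 _ ?_ w hw⟩
  have := h4 _ hκ j
  have e := eval_map_apply (p := rch K b) (BC.inc k K K (Kv v)).toRingHom (κ j)
  rw [BC.rch_inc] at this
  convert this using 1
  simp only [map_mul, map_div₀, map_sub, map_one, map_prod]
  exact congrArg (fun t => _ * (t / _) / _) e.symm

theorem nod_of (hN : 2 ≤ N) (hp : p.Prime) (hpN : ¬ p ∣ N) {S : Finset (Pl k)}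
    (hS : ∀ v, v ∈ S ↔ v.valuation k (p : k) < 1) {b : B}
    (h : ∀ v ∈ S, OmV K (BC.inc k K B (Kv v) b)) {V : Set K} (hV : V ∈ ng N (1 : K)) :
    Nod K p V b := fun c m => by
  choose! g O h1 h2 using fun v (hv : v ∈ S) => loc_nod (h v hv) c m
  obtain ⟨κ, h3, h4, -⟩ := greedy (fun j => {κ | κ ∈ V ∧ star κ * κ = 1 ∧
      ∀ v ∈ S, BC.inc k K K _ κ ∈ O v j} \ ({1} ∪ {x | IsRoot (rch K b) x}))
    (fun j => (infinite_of (Quad.ne (k := k)) (fun W hW T hT X hX => by
      simpa using wa_sub K hN hp hpN (fun v => (hS v).1) (1 : unitary K) hW (fun v => g v j)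
        (fun v => O v j) (fun v hv => h1 v hv j) T hT hX) hV).sdiff
      ((Set.finite_singleton _).union (finite_setOfPred_isRoot (rch_monic K b).ne_zero)))
    (fun _ => id) (fun _ => id) (fun _ => Function.injective_id) fun _ => Function.injective_id
  refine ⟨κ, h4, fun j => ⟨(h3 j).1.1, (h3 j).1.2.1, fun e => (h3 j).2 (.inl e),
    (isUnit_iff_Nrd _).2 fun e => (h3 j).2 (.inr ((eval_rch b _).trans e)), fun w a1 a2 => ?_⟩⟩
  have hv : below k w ∈ S := by
    rw [hS, ← below_lt_one, map_natCast]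
    simpa using (w.valuation_lt_one_iff_mem (K := K) _).2 a1
  exact h2 _ hv κ (fun j => (h3 j).1.2.2 _ hv) j w rfl a2

theorem ed_of (hN : 2 ≤ N) (hp : p.Prime) (hpN : ¬ p ∣ N) {S : Finset (Pl k)}
    (hS : ∀ v, v ∈ S ↔ v.valuation k (p : k) < 1) {g h : B}
    (H : ∀ v ∈ S, OmV K (star (BC.inc k K B (Kv v) g) * BC.inc k K B (Kv v) h)) :
    Ed K N p g h := fun _ hV =>
  ⟨nod_of hN hp hpN hS (fun v hv => by simpa using (H v hv).adj) hV,
    nod_of hN hp hpN hS (fun v hv => by simpa using H v hv) hV⟩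

include k in
theorem chain [Algebra ℚ B] (hd : 3 ≤ deg K B) (hN : 2 ≤ N) (hp : p.Prime) (hpN : ¬ p ∣ N)
    (g g' : unitary B) : ∃ M₀ : ℕ, ∀ M, M₀ ≤ M → ∀ (a a' : ℕ → unitary B) (W W' : ℕ → Set B),
    (∀ t, W t ∈ ng N (a t : B) ∧ W' t ∈ ng N (a' t : B)) → ∃ z : ℕ → unitary B, z 0 = g ∧
      z (M + 1) = g' ∧ (∀ t, 0 < t → t ≤ M → (z t : B) ∈ W t) ∧ ∀ t ≤ M, Submodule.span K
        {h | h ∈ unitary B ∧ h ∈ W' t ∧ Ed K N p (z t : B) h ∧ Ed K N p (z (t + 1) : B) h} = ⊤ := by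
  obtain ⟨S, hS⟩ : ∃ S : Finset (Pl k), ∀ v, v ∈ S ↔ v.valuation k (p : k) < 1 :=
    ⟨(show {v : Pl k | v.valuation k (p : k) < 1}.Finite from (finite_ne_one (x := (p : k))
      (by exact_mod_cast hp.ne_zero)).subset fun v hv => ne_of_lt hv).toFinset, by simp⟩
  have sp : ∀ (a : unitary B), ∀ W ∈ ng N (a : B), ∀ (y : ∀ v : Pl k, Uc k K B (Kv v))
      (O : ∀ v : Pl k, BC k K B (Kv v) → Prop), (∀ v ∈ S, ∀ᶠ x in 𝓝 (y v : BC k K B (Kv v)),
        x ∈ unitary _ → O v x) → Submodule.span K {h | h ∈ unitary B ∧ h ∈ W ∧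
          ∀ v ∈ S, O v (BC.inc k K B _ h)} = ⊤ := fun a W hW y O h =>
    eq_top_of_skew (Quad.ne (k := k)) a fun _ hX => wa_sub K hN hp hpN (fun v => (hS v).1) a hW
      (fun v => y v) _ (fun v hv => ⟨(y v).2, h v hv⟩)
      (Submodule.restrictScalars ℚ (Submodule.span K _)) (fun x h1 h2 h3 => Submodule.subset_span
        (R := K) (by exact ⟨h1, h2, fun v hv => h3 v hv (toU k K B _ ⟨x, h1⟩).2⟩)) hX
  choose M₀ hM using fun v : Pl k => chain_loc hd v (toU k K B _ g) (toU k K B _ g')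
  refine ⟨S.sup M₀, fun M hM' a a' W W' hW => ?_⟩
  choose! z y h0 h1 h2 using fun v (hv : v ∈ S) =>
    hM v (M + 1) (((le_sup hv).trans hM').trans M.le_succ)
  have h3 : ∀ t, ∃ Z : unitary B, (t = 0 → Z = g) ∧ (t = M + 1 → Z = g') ∧
      (0 < t → t ≤ M → (Z : B) ∈ W t) ∧ ∀ v ∈ S, ∀ s ≤ M, t = s ∨ t = s + 1 →
        OmV K (star (BC.inc k K B (Kv v) Z) * (y v s : BC k K B (Kv v))) := fun t => by
    have a0 : ∀ v ∈ S, ∀ s ≤ M, t = s ∨ t = s + 1 →
        OmV K (star (z v t : BC k K B (Kv v)) * (y v s : BC k K B (Kv v))) := by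
      rintro v hv s hs (rfl | rfl)
      exacts [(h2 v hv _ (by omega)).1, (h2 v hv _ (by omega)).2]
    rcases eq_or_ne t 0 with rfl | a1
    · exact ⟨g, fun _ => rfl, by omega, by omega, fun v hv => by simpa [h0 v hv] using a0 v hv⟩
    rcases eq_or_ne t (M + 1) with rfl | a2
    · exact ⟨g', by omega, fun _ => rfl, by omega, fun v hv => by simpa [h1 v hv] using a0 v hv⟩
    have a3 := sp _ _ (hW t).1 (fun v => z v t) (fun v x => ∀ s ∈ range (M + 1), t = s ∨ t = s + 1 →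
      OmV K (star x * (y v s : BC k K B (Kv v)))) fun v hv => by
        have : ∀ s ∈ range (M + 1), ∀ᶠ x in 𝓝 (z v t : BC k K B (Kv v)), x ∈ unitary _ →
            t = s ∨ t = s + 1 → OmV K (star x * (y v s : BC k K B (Kv v))) := fun s hs => by
          by_cases a4 : t = s ∨ t = s + 1
          · filter_upwards [((continuous_star.mul continuous_const).tendsto _).eventually (a0 v hv s (by simpa [Nat.lt_succ_iff] using hs) a4).ev]
              with x hx hu _ using hx (mul_mem (Unitary.star_mem hu) (y v s).2)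
          · exact .of_forall fun _ _ h => absurd h a4
        filter_upwards [(eventually_all_finset _).2 this] with x hx hu s hs using hx s hs hu
    obtain ⟨Z, ⟨b1, b2, b3⟩, -⟩ := Set.not_subset.1 fun h =>
      top_ne_bot (a3.symm.trans (Submodule.span_eq_bot.2 h))
    exact ⟨⟨Z, b1⟩, by omega, by omega, fun _ _ => b2, fun v hv s hs =>
      b3 v hv s (mem_range.2 (by omega))⟩
  choose Z a1 a2 a3 a4 using h3
  refine ⟨Z, a1 0 rfl, a2 _ rfl, a3, fun t ht => eq_top_iff.2 (le_trans (sp _ _ (hW t).2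
    (fun v => y v t) (fun v x => OmV K (star (BC.inc k K B (Kv v) (Z t)) * x) ∧
      OmV K (star (BC.inc k K B (Kv v) (Z (t + 1))) * x)) fun v hv => ?_).ge
    (Submodule.span_mono fun h ⟨b1, b2, b3⟩ => ⟨b1, b2, ed_of hN hp hpN hS fun v hv => (b3 v hv).1,
      ed_of hN hp hpN hS fun v hv => (b3 v hv).2⟩))⟩
  filter_upwards [(continuous_const_mul _).continuousAt.eventually (a4 t v hv t ht (.inl rfl)).ev,
    (continuous_const_mul _).continuousAt.eventually (a4 (t + 1) v hv t ht (.inr rfl)).ev]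
    with x b1 b2 hu
  exact ⟨b1 (mul_mem (Unitary.star_mem (toU k K B _ (Z t)).2) hu),
    b2 (mul_mem (Unitary.star_mem (toU k K B _ (Z (t + 1))).2) hu)⟩

theorem chainStmt : ChainStmt.{u, v} := fun K _ _ _ B _ _ _ _ _ _ _ _ hne hd _ _ hN hp hpN g g' => by
  obtain ⟨k, _⟩ := exists_quad hne
  exact chain (k := k) hd hN hp hpN g g'

end Crest.Agent.T24.H80
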