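import Crest.Agent.T24.HolCDef_25

/-!
# Row 24, holonomy (helper38): the three-step function, cocycle rule and rotations
-/

set_option autoImplicit false
set_option linter.unusedSectionVars false

namespace Crest.Agent.T24.HolR

open Filter Crest.Agent.T24.In

local notation "iv" => Ring.inverse

section Id
variable {B : Type*} [Ring B]

theorem iv_eq {a b : B} (h1 : a * b = 1) (h2 : b * a = 1) : iv a = b :=
  Ring.inverse_unit (⟨a, b, h1, h2⟩ : Bˣ)

theorem unit_of {a b : B} (h1 : a * b = 1) (h2 : b * a = 1) : IsUnit a := ⟨⟨a, b, h1, h2⟩, rfl⟩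

theorem iv_unit {a : B} (h : IsUnit a) : IsUnit (iv a) := isUnit_ringInverse.2 h

theorem comm_iv {a b : B} (h : Commute a b) : Commute a (iv b) := by
  by_cases hb : IsUnit b
  · obtain ⟨u, rfl⟩ := hb
    rw [Ring.inverse_unit]; exact h.units_inv_right
  · rw [Ring.inverse_non_unit _ hb]; exact Commute.zero_right _

/-- `ξ y = (1 - y)⁻¹` -/
noncomputable def xi (y : B) : B := iv (1 - y)

theorem mul_xi {a : B} (h : IsUnit (1 - a)) : (1 - a) * xi a = 1 := Ring.mul_inverse_cancel _ h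

theorem xi_mul {a : B} (h : IsUnit (1 - a)) : xi a * (1 - a) = 1 := Ring.inverse_mul_cancel _ h

theorem xi_sub {a b : B} (ha : IsUnit (1 - a)) (hb : IsUnit (1 - b)) :
    xi a - xi b = xi b * (a - b) * xi a := by
  have h1 := mul_xi ha
  have h2 := xi_mul hb
  linear_combination (norm := noncomm_ring) xi b * h1 - h2 * xi a

theorem add_iv {y s w : B} (hy : IsUnit y) (hs : IsUnit s) (h : s * w * y = y + s) :
    iv y + iv s = w := by
  have h1 := Ring.mul_inverse_cancel y hy
  have h2 := Ring.inverse_mul_cancel s hs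
  linear_combination (norm := noncomm_ring) -(iv s * h * iv y) - iv s * h1 - h2 * iv y
    + h2 * w * y * iv y + w * h1

variable [StarRing B]

theorem skew_xi {j g : B} (hj : star j = j) (hg : star g * j * g = j) (h : IsUnit (1 - g)) :
    j * xi g + star (j * xi g) = j := by
  have h1 := mul_xi h
  have h2 : star (xi g) * (1 - star g) = 1 := by
    have := congrArg star h1
    rwa [star_mul, star_sub, star_one] at this
  rw [star_mul, hj]
  linear_combination (norm := noncomm_ring) -(h2 * j * xi g) - star (xi g) * j * h1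
    - star (xi g) * hg * xi g + h2 * j * (1 - g) * xi g + j * h1

end Id

variable {K : Type*} [Field K] [NumberField K] [StarRing K] {B : Type*} [Ring B] [StarRing B]
  [Algebra K B] [StarModule K B] [Algebra ℚ B] [FiniteDimensional K B]
  {A : Type*} [CommGroup A]

/-- the rules of the invariant `F` -/
structure Sys (N : ℕ) (F : B → A) (Adm : B → Prop) (ψ : K → A) : Prop where
  unit : ∀ x, Adm x → IsUnit x
  C : ∀ x q, Adm x → IsUnit q → Adm (star q * x * q) ∧ F (star q * x * q) = F x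
  I : ∀ x, Adm x → Adm (iv x) ∧ F (iv x) = (F x)⁻¹
  H : ∀ y s, Adm y → Adm (y + s) → star s = -s → IsUnit s →
    Adm (iv y + iv s) ∧ F (iv y + iv s) * F y = F (y + s)
  S : ∀ᶠ c in ng N (1 : K), ∀ x, Adm x → Adm (c • x) → F (c • x) = ψ c * F x
  O : ∃ Z ∈ ng N (1 : K), ∃ V ∈ ng N (1 : B), ∀ (x : B) (c r : K), c ≠ 0 → -star c / c ∈ Z →
    c⁻¹ • x ∈ V → star r = r → r ≠ 0 → r⁻¹ • (x + star x) ∈ V → Adm x

namespace Sys
variable {N : ℕ} {F : B → A} {Adm : B → Prop} {ψ : K → A}

theorem C' (s : Sys N F Adm ψ) {x q : B} (hq : IsUnit q) (h : Adm (star q * x * q)) :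
    Adm x ∧ F (star q * x * q) = F x := by
  have h1 := Ring.mul_inverse_cancel q hq
  have h2 : star (iv q) * star q = 1 := by rw [← star_mul, h1, star_one]
  have h3 : star (iv q) * (star q * x * q) * iv q = x := by
    linear_combination (norm := noncomm_ring) h2 * x * q * iv q + x * h1
  obtain ⟨h4, h5⟩ := s.C _ (iv q) h (iv_unit hq)
  rw [h3] at h4 h5
  exact ⟨h4, h5.symm⟩

/-- the cocycle rule (for the involution twisted by `j`) -/
theorem coc (s : Sys N F Adm ψ) {j j' g₁ g₁' g₂ y : B} (hj : star j = j) (hj1 : j * j' = 1)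
    (hj2 : j' * j = 1) (hg₁ : star g₁ * j * g₁ = j) (hg₂ : star g₂ * j * g₂ = j)
    (h1 : g₁ * g₁' = 1) (h2 : g₁' * g₁ = 1) (uy : IsUnit (1 - y)) (u1 : IsUnit (1 - g₁))
    (u2 : IsUnit (1 - g₂)) (u12 : IsUnit (1 - g₁ * g₂)) (uy' : IsUnit (1 - g₁' * y))
    (a1 : Adm (j * (xi y - xi g₁))) (a2 : Adm (j * (xi y - xi (g₁ * g₂)))) :
    Adm (j * (xi (g₁' * y) - xi g₂)) ∧
      F (j * (xi y - xi (g₁ * g₂))) = F (j * (xi y - xi g₁)) * F (j * (xi (g₁' * y) - xi g₂)) := by
  have hg : star (g₁ * g₂) * j * (g₁ * g₂) = j := by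
    rw [star_mul]
    linear_combination (norm := noncomm_ring) star g₂ * hg₁ * g₂ + hg₂
  have uj : IsUnit j := unit_of hj1 hj2
  have ug : IsUnit g₁ := unit_of h1 h2
  have e1 := xi_sub u1 u12
  have hs : star (j * (xi g₁ - xi (g₁ * g₂))) = -(j * (xi g₁ - xi (g₁ * g₂))) := by
    have k1 := skew_xi hj hg₁ u1
    have k2 := skew_xi hj hg u12
    rw [mul_sub, star_sub]
    linear_combination (norm := noncomm_ring) k1 - k2
  have us : IsUnit (j * (xi g₁ - xi (g₁ * g₂))) := by
    rw [e1, show g₁ - g₁ * g₂ = g₁ * (1 - g₂) by noncomm_ring]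
    exact uj.mul (((iv_unit u12).mul (ug.mul u2)).mul (iv_unit u1))
  have e2 : j * (xi y - xi g₁) + j * (xi g₁ - xi (g₁ * g₂)) = j * (xi y - xi (g₁ * g₂)) := by
    noncomm_ring
  obtain ⟨a3, h3⟩ := s.H _ _ a1 (e2 ▸ a2) hs us
  have hj' : star j' = j' := by
    have := congrArg star hj1
    rw [star_mul, hj, star_one] at this
    linear_combination (norm := noncomm_ring) this * j' - star j' * hj1
  have e3 : star ((g₁' - 1) * j') * j = g₁ - 1 := by
    have k : star g₁' * star g₁ = 1 := by rw [← star_mul, h1, star_one]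
    rw [star_mul, star_sub, star_one, hj']
    linear_combination (norm := noncomm_ring) -(j' * star g₁' * hg₁) + j' * k * j * g₁
      + hj2 * g₁ - hj2
  have uq : IsUnit ((g₁' - 1) * j') := by
    rw [show g₁' - 1 = g₁' * (1 - g₁) by linear_combination (norm := noncomm_ring) h2]
    exact ((unit_of h2 h1).mul u1).mul (unit_of hj2 hj1)
  have e4 : iv (j * (xi y - xi g₁)) + iv (j * (xi g₁ - xi (g₁ * g₂))) =
      star ((g₁' - 1) * j') * (j * (xi (g₁' * y) - xi g₂)) * ((g₁' - 1) * j') := by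
    refine add_iv (s.unit _ a1) us ?_
    rw [e2, ← mul_assoc (star _), e3]
    have f1 : (xi g₁ - xi (g₁ * g₂)) * (g₁ - 1) = -(xi (g₁ * g₂) * g₁ * (1 - g₂)) := by
      rw [e1]
      linear_combination (norm := noncomm_ring) -(xi (g₁ * g₂) * (g₁ - g₁ * g₂) * xi_mul u1)
    have f2 : (g₁' - 1) * (xi y - xi g₁) = -((1 - g₁' * y) * xi y) := by
      rw [xi_sub uy u1]
      linear_combination (norm := noncomm_ring) g₁' * mul_xi u1 * (y - g₁) * xi y
        + h2 * xi g₁ * (y - g₁) * xi y - h2 * xi y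
    have f3 : (1 - g₂) * (xi (g₁' * y) - xi g₂) * (1 - g₁' * y) = g₁' * y - g₂ := by
      rw [xi_sub uy' u2]
      linear_combination (norm := noncomm_ring) mul_xi u2 * (g₁' * y - g₂) * xi (g₁' * y) *
        (1 - g₁' * y) + (g₁' * y - g₂) * xi_mul uy'
    rw [xi_sub uy u12]
    linear_combination (norm := noncomm_ring)
      j * (xi g₁ - xi (g₁ * g₂)) * (g₁ - 1) * (xi (g₁' * y) - xi g₂) * (g₁' - 1) * hj2 *
        (xi y - xi g₁)
      + j * f1 * (xi (g₁' * y) - xi g₂) * (g₁' - 1) * (xi y - xi g₁)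
      - j * xi (g₁ * g₂) * g₁ * (1 - g₂) * (xi (g₁' * y) - xi g₂) * f2
      + j * xi (g₁ * g₂) * g₁ * f3 * xi y + j * xi (g₁ * g₂) * h1 * y * xi y
  rw [e4] at a3 h3
  obtain ⟨a4, h4⟩ := s.C' uq a3
  exact ⟨a4, by rw [← e2, ← h3, h4, mul_comm]⟩

/-- inversion -/
theorem anti (s : Sys N F Adm ψ) {g y : B} (h1 : g * star g = 1) (h2 : star g * g = 1)
    (uy : IsUnit (1 - y)) (u1 : IsUnit (1 - g)) (uy' : IsUnit (1 - star g * y))
    (a1 : Adm (xi y - xi g)) :
    F (xi y - xi g) * F (xi (star g * y) - xi (star g)) = 1 := by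
  have u2 : IsUnit (1 - star g) := by simpa using u1.star
  have uq : IsUnit (star g - 1) := by simpa using u2.neg
  have e : iv (xi y - xi g) =
      star (star g - 1) * (xi (star g * y) - xi (star g)) * (star g - 1) := by
    have f2 : (star g - 1) * (xi y - xi g) = -((1 - star g * y) * xi y) := by
      rw [xi_sub uy u1]
      linear_combination (norm := noncomm_ring) star g * mul_xi u1 * (y - g) * xi y
        + h2 * xi g * (y - g) * xi y - h2 * xi y
    have f3 : (xi (star g * y) - xi (star g)) * (1 - star g * y) =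
        xi (star g) * (star g * y - star g) := by
      rw [xi_sub uy' u2]
      linear_combination (norm := noncomm_ring) xi (star g) * (star g * y - star g) * xi_mul uy'
    have f4 : (g - 1) * xi (star g) = g := by
      linear_combination (norm := noncomm_ring) g * mul_xi u2 + h1 * xi (star g)
    have e0 : star (star g - 1) * (xi (star g * y) - xi (star g)) * (star g - 1) *
        (xi y - xi g) = 1 := by
      rw [star_sub, star_star, star_one]
      linear_combination (norm := noncomm_ring) (g - 1) * (xi (star g * y) - xi (star g)) * f2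
        - (g - 1) * f3 * xi y - f4 * (star g * y - star g) * xi y - h1 * (y - 1) * xi y
        + mul_xi uy
    have := Ring.mul_inverse_cancel _ (s.unit _ a1)
    linear_combination (norm := noncomm_ring) -(e0 * iv (xi y - xi g)) +
      star (star g - 1) * (xi (star g * y) - xi (star g)) * (star g - 1) * this
  obtain ⟨a2, h3⟩ := s.I _ a1
  rw [e] at a2 h3
  rw [← (s.C' uq a2).2, h3, mul_inv_cancel]

theorem xi_alg {w : K} (hw : w ≠ 1) : xi (algebraMap K B w) = algebraMap K B (1 - w)⁻¹ := by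
  have h : (1 : K) - w ≠ 0 := sub_ne_zero.2 hw.symm
  refine iv_eq ?_ ?_
  · rw [← map_one (algebraMap K B), ← map_sub, ← map_mul, mul_inv_cancel₀ h]
  · rw [← map_one (algebraMap K B), ← map_sub, ← map_mul, inv_mul_cancel₀ h]

theorem unit_alg {w : K} (hw : w ≠ 1) : IsUnit (1 - algebraMap K B w) := by
  rw [← map_one (algebraMap K B), ← map_sub]
  exact (sub_ne_zero.2 hw.symm).isUnit.map _

/-- scalars have constant three-step function -/
theorem scal (s : Sys N F Adm ψ) {j j' y : B} {w c : K} (hj : star j = j) (hj1 : j * j' = 1)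
    (hj2 : j' * j = 1) (hw : star w * w = 1) (hw1 : w ≠ 1) (hc : c = (1 + star w) / 2)
    (hc0 : c ≠ 0) (uy : IsUnit (1 - y))
    (s1 : ∀ x, Adm x → Adm (c • x) → F (c • x) = ψ c * F x)
    (s2 : ∀ x, Adm x → Adm (c⁻¹ • x) → F (c⁻¹ • x) = ψ c⁻¹ * F x)
    (s3 : ∀ x, Adm x → Adm ((c * w) • x) → F ((c * w) • x) = ψ (c * w) * F x)
    (a1 : Adm (j * (1 - y))) (a2 : Adm (c • (j * (1 - y)))) (a3 : Adm (j * (1 - star w • y)))
    (a4 : Adm ((c * w) • (j * (1 - star w • y)))) (a5 : Adm (j * (xi y - xi (algebraMap K B w)))) :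
    F (j * (1 - y)) * F (j * (xi y - xi (algebraMap K B w))) * (ψ c⁻¹ * ψ c) =
      ψ (c * w) * F (j * (1 - star w • y)) := by
  have h1w : (1 : K) - w ≠ 0 := sub_ne_zero.2 hw1.symm
  have hj' : star j' = j' := by
    have := congrArg star hj1
    rw [star_mul, hj, star_one] at this
    linear_combination (norm := noncomm_ring) this * j' - star j' * hj1
  have hsk : star (c * (1 - w)) = -(c * (1 - w)) := by
    rw [hc]
    simp only [star_mul, star_div₀, star_add, star_one, star_star, star_sub, star_ofNat]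
    linear_combination (-1 : K) * hw
  have hs : star (-(c * (1 - w)) • j) = -(-(c * (1 - w)) • j) := by
    rw [star_smul, star_neg, hsk, hj, neg_smul]
  have us : IsUnit (-(c * (1 - w)) • j) := by
    rw [Algebra.smul_def]
    exact ((neg_ne_zero.2 (mul_ne_zero hc0 h1w)).isUnit.map _).mul (unit_of hj1 hj2)
  have e2 : c • (j * (1 - y)) + -(c * (1 - w)) • j = (c * w) • (j * (1 - star w • y)) := by
    simp only [mul_sub, mul_one, mul_smul_comm, smul_sub, smul_smul]
    rw [show c * w * star w = c by linear_combination c * hw]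
    module
  obtain ⟨a6, h3⟩ := s.H _ _ a2 (e2 ▸ a4) hs us
  have e4 : iv (c • (j * (1 - y))) + iv (-(c * (1 - w)) • j) =
      star j' * (c⁻¹ • (j * (xi y - xi (algebraMap K B w)))) * j' := by
    refine add_iv (s.unit _ a2) us ?_
    have f1 : j * (j' * (j * (xi y - (1 - w)⁻¹ • (1 : B))) * j') * (j * (1 - y)) =
        j - (1 - w)⁻¹ • (j * (1 - y)) := by
      have g1 : j * (j' * (j * (xi y - (1 - w)⁻¹ • (1 : B))) * j') * (j * (1 - y)) =
          j * (xi y - (1 - w)⁻¹ • (1 : B)) * (1 - y) := by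
        linear_combination (norm := noncomm_ring)
          hj1 * j * (xi y - (1 - w)⁻¹ • (1 : B)) * j' * j * (1 - y) +
            j * (xi y - (1 - w)⁻¹ • (1 : B)) * hj2 * (1 - y)
      rw [g1, mul_assoc, sub_mul, xi_mul uy, smul_mul_assoc, one_mul, mul_sub, mul_one,
        mul_smul_comm]
    rw [hj', xi_alg hw1, Algebra.algebraMap_eq_smul_one]
    simp only [smul_mul_assoc, mul_smul_comm, smul_smul]
    rw [f1]
    match_scalars <;> field_simp
  rw [e4] at a6 h3
  obtain ⟨a7, h4⟩ := s.C' (unit_of hj2 hj1) a6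
  rw [h4, e2, s2 _ a5 a7, s1 _ a1 a2, s3 _ a3 a4] at h3
  rw [← h3]
  ac_rfl

end Sys

/-! ### Limits at scalars -/

section Kit
variable {N : ℕ} {α : Type*} {l : Filter α}

/-- `f` tends to the scalar `c` -/
def T (N : ℕ) (l : Filter α) (f : α → B) (c : K) : Prop := Tendsto f l (ng N (algebraMap K B c))

theorem k_star {f : α → K} {c : K} (h : Tendsto f l (ng N c)) :
    Tendsto (fun i => star (f i)) l (ng N (star c)) :=
  ng_lin (starAddEquiv (R := K)).toAddMonoidHom h

theorem k_inv (hN : 2 ≤ N) {f : α → K} {c : K} (h : Tendsto f l (ng N c)) (hc : c ≠ 0) :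
    Tendsto (fun i => (f i)⁻¹) l (ng N c⁻¹) := by
  have h1 := ng_mul (ng_const c⁻¹) h
  rw [inv_mul_cancel₀ hc] at h1
  have h2 := ng_mul (ng_inv hN h1) (ng_const c⁻¹)
  rw [one_mul] at h2
  refine h2.congr fun i => ?_
  rw [Ring.inverse_eq_inv', mul_inv, inv_inv, mul_right_comm, mul_inv_cancel₀ hc, one_mul]

theorem k_ne (hN : 2 ≤ N) {f : α → K} {c : K} (h : Tendsto f l (ng N c)) (hc : c ≠ 0) :
    ∀ᶠ i in l, f i ≠ 0 := by
  have h1 := ng_mul (ng_const c⁻¹) h
  rw [inv_mul_cancel₀ hc] at h1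
  exact (h1.eventually (ng_isUnit hN)).mono fun i hi h0 => by simp [h0] at hi

namespace T
variable {f g : α → B} {a b : K}

theorem const (c : K) : T N l (fun _ => algebraMap K B c) c := ng_const _

theorem one : T N l (fun _ => (1 : B)) (1 : K) := by
  unfold T; rw [map_one]; exact ng_const _

theorem of_one (h : Tendsto f l (ng N 1)) : T N l f (1 : K) := by
  unfold T; rwa [map_one]

theorem to_one (h : T N l f (1 : K)) : Tendsto f l (ng N 1) := by
  unfold T at h; rwa [map_one] at h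

theorem alg {c : α → K} (h : Tendsto c l (ng N a)) : T N l (fun i => algebraMap K B (c i)) a :=
  ng_lin (algebraMap K B).toAddMonoidHom h

theorem eq (h : T N l f a) (e : a = b) : T N l f b := e ▸ h

theorem add (hf : T N l f a) (hg : T N l g b) : T N l (fun i => f i + g i) (a + b) := by
  have := fdQ K B
  unfold T; rw [map_add]; exact ng_add hf hg

theorem sub (hf : T N l f a) (hg : T N l g b) : T N l (fun i => f i - g i) (a - b) := by
  have := fdQ K B
  unfold T; rw [map_sub]; exact ng_sub hf hg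

theorem mul (hf : T N l f a) (hg : T N l g b) : T N l (fun i => f i * g i) (a * b) := by
  have := fdQ K B
  unfold T; rw [map_mul]; exact ng_mul hf hg

theorem smul {c : α → K} (hc : Tendsto c l (ng N a)) (hg : T N l g b) :
    T N l (fun i => c i • g i) (a * b) := by
  simpa only [Algebra.smul_def] using (alg hc).mul hg

theorem st (hf : T N l f a) : T N l (fun i => star (f i)) (star a) := by
  have := ng_lin (starAddEquiv (R := B)).toAddMonoidHom hf
  unfold T
  rw [Algebra.algebraMap_eq_smul_one] at this ⊢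
  simpa using this

theorem unit (hN : 2 ≤ N) (hf : T N l f a) (ha : a ≠ 0) : ∀ᶠ i in l, IsUnit (f i) := by
  have := fdQ K B
  have h1 := ((smul (ng_const a⁻¹) hf).eq (inv_mul_cancel₀ ha)).to_one
  refine (h1.eventually (ng_isUnit hN)).mono fun i hi => ?_
  have := (ha.isUnit.map (algebraMap K B)).mul hi
  rwa [← Algebra.smul_def, smul_smul, mul_inv_cancel₀ ha, one_smul] at this

theorem inv (hN : 2 ≤ N) (hf : T N l f a) (ha : a ≠ 0) : T N l (fun i => iv (f i)) a⁻¹ := by
  have := fdQ K B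
  have h1 := ((smul (ng_const a⁻¹) hf).eq (inv_mul_cancel₀ ha)).to_one
  have h2 := (smul (ng_const a⁻¹) (of_one (K := K) (ng_inv hN h1))).eq (mul_one _)
  refine Tendsto.congr' ?_ h2
  refine (h1.eventually (ng_isUnit hN)).mono fun i hi => (iv_eq ?_ ?_).symm
  · rw [mul_smul_comm, ← smul_mul_assoc, Ring.mul_inverse_cancel _ hi]
  · rw [smul_mul_assoc, ← mul_smul_comm, Ring.inverse_mul_cancel _ hi]

theorem xi (hN : 2 ≤ N) (hf : T N l f a) (ha : 1 - a ≠ 0) :
    T N l (fun i => xi (f i)) (1 - a)⁻¹ := (one.sub hf).inv hN ha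

end T

end Kit

/-- admissible scalars -/
def As (Z : Set K) (c : K) : Prop := c ≠ 0 ∧ -star c / c ∈ Z ∧ c + star c ≠ 0

/-- the openness rule with explicit neighbourhoods -/
def Op (N : ℕ) (Adm : B → Prop) (Z : Set K) : Prop :=
  ∃ V ∈ ng N (1 : B), ∀ (x : B) (c r : K), c ≠ 0 → -star c / c ∈ Z →
    c⁻¹ • x ∈ V → star r = r → r ≠ 0 → r⁻¹ • (x + star x) ∈ V → Adm x

section Ev
variable {N : ℕ} {α : Type*} {l : Filter α} {Adm : B → Prop} {Z : Set K}

theorem Op.ev' (h : Op N Adm Z) {f : α → B} {c : α → K} {r : K}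
    (hc : ∀ᶠ i in l, c i ≠ 0 ∧ -star (c i) / c i ∈ Z) (h1 : T N l (fun i => (c i)⁻¹ • f i) (1 : K))
    (hr : star r = r) (hr0 : r ≠ 0) (h2 : T N l (fun i => f i + star (f i)) r) :
    ∀ᶠ i in l, Adm (f i) := by
  obtain ⟨V, hV, H⟩ := h
  have h3 := ((T.smul (ng_const r⁻¹) h2).eq (inv_mul_cancel₀ hr0)).to_one
  filter_upwards [hc, h1.to_one.eventually hV, h3.eventually hV] with i h4 h5 h6
  exact H _ _ _ h4.1 h4.2 h5 hr hr0 h6

theorem Op.ev (h : Op N Adm Z) {f : α → B} {c : K} (hc : As Z c) (hf : T N l f c) :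
    ∀ᶠ i in l, Adm (f i) :=
  h.ev' (c := fun _ => c) (Eventually.of_forall fun _ => ⟨hc.1, hc.2.1⟩)
    ((T.smul (ng_const c⁻¹) hf).eq (inv_mul_cancel₀ hc.1)) (by rw [star_add, star_star, add_comm])
    hc.2.2 (hf.add hf.st)

/-- the degenerate point `j (ξ y - ξ w)`, `w → 1` -/
theorem Op.deg (h : Op N Adm Z) (hZ : Z ∈ ng N (1 : K)) (hN : 2 ≤ N) {j y : α → B} {w : α → K}
    {y₀ : K} (hj : T N l j (1 : K)) (hjs : ∀ᶠ i in l, star (j i) = j i) (hy : T N l y y₀)
    (hy0 : 1 - y₀ ≠ 0) (hw : Tendsto w l (ng N 1))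
    (hw1 : ∀ᶠ i in l, star (w i) * w i = 1 ∧ w i ≠ 1)
    (hr : (1 - y₀)⁻¹ + star (1 - y₀)⁻¹ - 1 ≠ 0) :
    ∀ᶠ i in l, Adm (j i * (xi (y i) - xi (algebraMap K B (w i)))) := by
  have t1 := hj.mul (hy.xi hN hy0)
  rw [one_mul] at t1
  refine h.ev' (c := fun i => -(1 - w i)⁻¹) ?_ ?_ ?_ hr ?_
  · filter_upwards [hw1, hw.eventually hZ] with i h1 h2
    have h3 : 1 - w i ≠ 0 := sub_ne_zero.2 h1.2.symm
    have h4 : w i ≠ 0 := fun h0 => by simp [h0] at h1
    have h5 : star (w i) = (w i)⁻¹ := eq_inv_of_mul_eq_one_left h1.1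
    refine ⟨neg_ne_zero.2 (inv_ne_zero h3), ?_⟩
    have h6 : w i - 1 ≠ 0 := sub_ne_zero.2 h1.2
    have h7 : -star (-(1 - w i)⁻¹) / -(1 - w i)⁻¹ = w i := by
      rw [star_neg, star_inv₀, star_sub, star_one, h5]
      field_simp
      ring
    rw [h7]
    exact h2
  · have t2 := hj.sub (T.smul (ng_sub (ng_const 1) hw) t1)
    rw [sub_self, zero_mul, sub_zero] at t2
    refine Tendsto.congr' ?_ t2
    filter_upwards [hw1] with i h1
    have h3 : 1 - w i ≠ 0 := sub_ne_zero.2 h1.2.symm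
    rw [Sys.xi_alg h1.2, Algebra.algebraMap_eq_smul_one, inv_neg, inv_inv]
    simp only [mul_sub, mul_smul_comm, mul_one]
    match_scalars <;> field_simp
  · rw [star_sub, star_add, star_star, star_one, add_comm]
  · refine Tendsto.congr' ?_ ((t1.add t1.st).sub hj)
    filter_upwards [hw1, hjs] with i h1 h2
    have := skew_xi (g := algebraMap K B (w i)) h2 ?_ (Sys.unit_alg h1.2)
    · rw [mul_sub, star_sub]
      linear_combination (norm := noncomm_ring) this
    · rw [Algebra.algebraMap_eq_smul_one]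
      simp [smul_smul, mul_comm (w i), h1.1]

end Ev

/-- admissible base point of the three-step function -/
structure Bs (Z : Set K) (a y : K) : Prop where
  uni : star a * a = 1
  ne : 1 - a ≠ 0
  h1 : As Z (1 - y)
  h2 : As Z ((1 - y)⁻¹ - (1 - a)⁻¹)
  h3 : As Z (1 - star a * y)

theorem tr_xi {a : K} (h : star a * a = 1) (h1 : 1 - a ≠ 0) : (1 - a)⁻¹ + star (1 - a)⁻¹ = 1 := by
  have h4 : a ≠ 0 := fun h0 => by simp [h0] at h
  have h5 : star a = a⁻¹ := eq_inv_of_mul_eq_one_left h
  have h6 : a - 1 ≠ 0 := fun h0 => h1 (by linear_combination -h0)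
  rw [star_inv₀, star_sub, star_one, h5]
  field_simp
  ring

theorem Bs.tr {Z : Set K} {a y : K} (h : Bs Z a y) : (1 - y)⁻¹ + star (1 - y)⁻¹ - 1 ≠ 0 := by
  have h1 := h.h2.2.2
  rw [star_sub] at h1
  exact fun h0 => h1 (by linear_combination h0 - tr_xi h.uni h.ne)

theorem Bs.tr' {Z : Set K} {a y : K} (h : Bs Z a y) :
    (1 - star a * y)⁻¹ + star (1 - star a * y)⁻¹ - 1 ≠ 0 := by
  have h1 := h.tr
  have h2 := h.h1.1
  have h3 := h.h3.1
  have h2' := star_ne_zero.2 h2
  have h3' := star_ne_zero.2 h3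
  have h4 := h.uni
  simp only [star_inv₀, star_sub, star_one, star_mul, star_star] at *
  intro h0
  apply h1
  field_simp at h0 ⊢
  linear_combination h0 + (y * star y) * h4

/-- the three-step function for the twisted involution -/
noncomputable def rj (F : B → A) (j g g' y : B) : A :=
  F (j * (1 - y)) * F (j * (xi y - xi g)) / F (j * (1 - g' * y))

/-- the three-step function -/
noncomputable def rr (F : B → A) (g y : B) : A :=
  F (1 - y) * F (iv (1 - y) - iv (1 - g)) / F (1 - star g * y)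

theorem rr_eq (F : B → A) (g y : B) : rr F g y = rj F 1 g (star g) y := by
  simp only [rr, rj, xi, one_mul]

theorem add_inj {a b : A} : a = b ↔ Additive.ofMul a = Additive.ofMul b := Iff.rfl

namespace Sys
variable {N : ℕ} {F : B → A} {Adm : B → Prop} {ψ : K → A} {α : Type*} {l : Filter α} {Z : Set K}

/-- invariance under rotations about `0` -/
theorem rot0 (s : Sys N F Adm ψ) (hN : 2 ≤ N) (hZ : Z ∈ ng N (1 : K)) (h : Op N Adm Z)
    {a₀ y₀ : K} (b : Bs Z a₀ y₀) {j g g' y : α → B} {w : α → K} (hj : T N l j (1 : K))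
    (hg : T N l g a₀) (hg' : T N l g' (star a₀)) (hy : T N l y y₀) (hw : Tendsto w l (ng N 1))
    (e : ∀ᶠ i in l, star (j i) = j i ∧ star (g i) * j i * g i = j i ∧ g i * g' i = 1 ∧
      g' i * g i = 1 ∧ star (w i) * w i = 1 ∧ w i ≠ 1) :
    ∀ᶠ i in l, rj F (j i) (g i) (g' i) (star (w i) • y i) = rj F (j i) (g i) (g' i) (y i) := by
  have hws : Tendsto (fun i => star (w i)) l (ng N 1) := by simpa using k_star hw
  have hc : Tendsto (fun i => (1 + star (w i)) / 2) l (ng N 1) := by
    have := ng_mul (ng_add (ng_const (1 : K)) hws) (ng_const (2 : K)⁻¹)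
    rw [show ((1 : K) + 1) * 2⁻¹ = 1 by norm_num] at this
    simpa only [div_eq_mul_inv] using this
  have hci : Tendsto (fun i => ((1 + star (w i)) / 2)⁻¹) l (ng N 1) := by
    simpa using k_inv hN hc one_ne_zero
  have hcw : Tendsto (fun i => (1 + star (w i)) / 2 * w i) l (ng N 1) := by
    simpa using ng_mul hc hw
  have hy' := hg'.mul hy
  have hwy := (T.smul hws hy).eq (one_mul _)
  have hwy' := (T.smul hws hy').eq (one_mul _)
  have hgw := (hg.mul (T.alg hw)).eq (mul_one _)
  have t1 := (hj.mul (T.one.sub hy)).eq (one_mul _)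
  have t2 := (hj.mul (T.one.sub hy')).eq (one_mul _)
  have t3 := (hj.mul (T.one.sub hwy)).eq (one_mul _)
  have t4 := (hj.mul (T.one.sub hwy')).eq (one_mul _)
  have e1 := e.mono fun i h => h.1
  have e2 := e.mono fun i h => h.2.2.2.2
  filter_upwards [e, hj.unit hN one_ne_zero, k_ne hN hc one_ne_zero, hc.eventually s.S,
    hci.eventually s.S, hcw.eventually s.S, (T.one.sub hy).unit hN b.h1.1,
    (T.one.sub hy').unit hN b.h3.1, (T.one.sub hwy).unit hN b.h1.1, (T.one.sub hg).unit hN b.ne,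
    (T.one.sub hgw).unit hN b.ne, h.ev b.h1 t1, h.ev b.h3 t2, h.ev b.h1 t3, h.ev b.h3 t4,
    h.ev b.h1 ((T.smul hc t1).eq (one_mul _)), h.ev b.h3 ((T.smul hc t2).eq (one_mul _)),
    h.ev b.h1 ((T.smul hcw t3).eq (one_mul _)), h.ev b.h3 ((T.smul hcw t4).eq (one_mul _)),
    h.ev b.h2 ((hj.mul ((hy.xi hN b.h1.1).sub (hg.xi hN b.ne))).eq (one_mul _)),
    h.ev b.h2 ((hj.mul ((hy.xi hN b.h1.1).sub (hgw.xi hN b.ne))).eq (one_mul _)),
    h.deg hZ hN hj e1 hy b.h1.1 hw e2 b.tr, h.deg hZ hN hj e1 hy' b.h3.1 hw e2 b.tr']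
    with i ⟨q1, q2, q3, q4, q5, q6⟩ uj c0 s1 s2 s3 u1 u2 u3 u4 u5 a1 a2 a3 a4 a5 a6 a7 a8 a9 a10
      a11 a12
  have hj1 := Ring.mul_inverse_cancel _ uj
  have hj2 := Ring.inverse_mul_cancel _ uj
  have hW : star (algebraMap K B (w i)) * j i * algebraMap K B (w i) = j i := by
    rw [Algebra.algebraMap_eq_smul_one]
    simp [smul_smul, mul_comm (w i), q5]
  have k1 := (s.coc q1 hj1 hj2 q2 hW q3 q4 u1 u4 (unit_alg q6) u5 u2 a9 a10).2
  have cm : g i * algebraMap K B (w i) = algebraMap K B (w i) * g i := (Algebra.commutes _ _).symm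
  rw [cm] at u5 a10 k1
  have k2 := (s.coc (g₁' := algebraMap K B (star (w i))) q1 hj1 hj2 hW q2
    (by rw [← map_mul, mul_comm, q5, map_one]) (by rw [← map_mul, q5, map_one]) u1 (unit_alg q6) u4
    u5 (by rwa [← Algebra.smul_def]) a11 a10).2
  rw [← Algebra.smul_def (star (w i))] at k2
  have k3 := s.scal q1 hj1 hj2 q5 q6 rfl c0 u1 s1 s2 s3 a1 a5 a3 a7 a11
  have k4 := s.scal q1 hj1 hj2 q5 q6 rfl c0 u2 s1 s2 s3 a2 a6 a4 a8 a12
  simp only [rj, mul_smul_comm]
  simp only [add_inj, ofMul_mul, ofMul_div] at k1 k2 k3 k4 ⊢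
  linear_combination (norm := abel) k1 - k2 - k3 + k4

/-- transport to the twisted system -/
theorem trans (s : Sys N F Adm ψ) {a f j y y' : B} {κ c : K} (h2 : star a * a = 1)
    (hκ : star κ * κ = 1) (hc0 : c ≠ 0) (u1 : IsUnit (1 - a)) (u2 : IsUnit (1 - κ • a))
    (uy : IsUnit (1 - y)) (hf : f = (1 - a) * xi (κ • a)) (hj : j = c⁻¹ • f) (hjs : star j = j)
    (hy : f * (1 - y') = 1 - y)
    (s1 : ∀ x, Adm x → Adm (c • x) → F (c • x) = ψ c * F x)
    (s2 : ∀ x, Adm x → Adm (c⁻¹ • x) → F (c⁻¹ • x) = ψ c⁻¹ * F x)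
    (s3 : ∀ x, Adm x → Adm ((κ * c)⁻¹ • x) → F ((κ * c)⁻¹ • x) = ψ (κ * c)⁻¹ * F x)
    (a1 : Adm (1 - y)) (a2 : Adm (c⁻¹ • (1 - y))) (a3 : Adm (xi y - xi a))
    (a4 : Adm (c • (xi y - xi a))) (a5 : Adm (1 - star a * y))
    (a6 : Adm ((κ * c)⁻¹ • (1 - star a * y))) :
    rj F j (κ • a) (star κ • star a) y' = ψ c⁻¹ * ψ c / ψ (κ * c)⁻¹ * rr F a y := by
  have hκ0 : κ ≠ 0 := fun h0 => by simp [h0] at hκ
  have uf : IsUnit f := hf ▸ u1.mul (iv_unit u2)
  have uj : IsUnit j := by
    rw [hj, Algebra.smul_def]; exact ((inv_ne_zero hc0).isUnit.map _).mul uf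
  have e1 : j * (1 - y') = c⁻¹ • (1 - y) := by rw [hj, smul_mul_assoc, hy]
  have f1 : xi y' = xi y * f := by
    have k1 := Ring.inverse_mul_cancel f uf
    have k2 := Ring.mul_inverse_cancel f uf
    have k3 : 1 - y' = iv f * (1 - y) := by rw [← hy, ← mul_assoc, k1, one_mul]
    refine iv_eq ?_ ?_
    · rw [k3]
      linear_combination (norm := noncomm_ring) iv f * mul_xi uy * f + k1
    · rw [mul_assoc, hy, xi_mul uy]
  have f2 : xi (κ • a) = xi a * f := by rw [hf, ← mul_assoc, xi_mul u1, one_mul]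
  have e2 : j * (xi y' - xi (κ • a)) = star j * (c • (xi y - xi a)) * j := by
    rw [hjs, f1, f2, ← sub_mul, mul_assoc, smul_mul_assoc, ← mul_smul_comm]
    congr 2
    rw [hj, smul_smul, mul_inv_cancel₀ hc0, one_smul]
  have e3 : j * (1 - (star κ • star a) * y') = (κ * c)⁻¹ • (1 - star a * y) := by
    have c1 : Commute (star a) a := by
      have := fdQ K B
      have := dedekind (B := B)
      exact h2.trans (mul_eq_one_comm.1 h2).symm
    have c2 : Commute (star a) f := by
      rw [hf]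
      exact ((Commute.one_right _).sub_right c1).mul_right
        (comm_iv ((Commute.one_right _).sub_right (c1.smul_right κ)))
    have c3 : f * (1 - κ • a) = 1 - a := by rw [hf, mul_assoc, xi_mul u2, mul_one]
    have c4 : f * (κ • a - y') = a - y := by
      linear_combination (norm := noncomm_ring) hy - c3
    have c5 : 1 - (star κ • star a) * y' = star κ • (star a * (κ • a - y')) := by
      rw [mul_sub, mul_smul_comm, h2, smul_sub, smul_smul, hκ, one_smul, smul_mul_assoc]
    rw [c5, hj, smul_mul_assoc, mul_smul_comm, ← mul_assoc, ← c2.eq, mul_assoc, c4, mul_sub, h2,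
      smul_smul, eq_inv_of_mul_eq_one_left hκ, mul_inv, mul_comm]
  rw [rj, rr, e1, e2, e3, (s.C _ j a4 uj).2, s1 _ a3 a4, s2 _ a1 a2, s3 _ a5 a6]
  simp only [add_inj, ofMul_mul, ofMul_div, xi]
  abel

/-- the steps -/
theorem step (s : Sys N F Adm ψ) (hN : 2 ≤ N) (hZ : Z ∈ ng N (1 : K)) (h : Op N Adm Z)
    {a₀ y₀ : K} (b : Bs Z a₀ y₀) {a y : α → B} {w κ : α → K} (ha : T N l a a₀) (hy : T N l y y₀)
    (hw : Tendsto w l (ng N 1)) (hκ : Tendsto κ l (ng N 1))
    (e : ∀ᶠ i in l, star (a i) * a i = 1 ∧ a i * star (a i) = 1 ∧ star (κ i) * κ i = 1 ∧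
      star (w i) * w i = 1 ∧ w i ≠ 1) :
    ∀ᶠ i in l, rr F (a i) (y i + ((w i - 1) * (1 - κ i)) • iv (star (a i) - algebraMap K B (κ i))) =
      rr F (a i) (y i) := by
  have hws : Tendsto (fun i => star (w i)) l (ng N 1) := by simpa using k_star hw
  have hκs : Tendsto (fun i => star (κ i)) l (ng N 1) := by simpa using k_star hκ
  set c : α → K := fun i => (1 + star (κ i)) / 2 with hcd
  have hc : Tendsto c l (ng N 1) := by
    have := ng_mul (ng_add (ng_const (1 : K)) hκs) (ng_const (2 : K)⁻¹)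
    rw [show ((1 : K) + 1) * 2⁻¹ = 1 by norm_num] at this
    simpa only [hcd, div_eq_mul_inv] using this
  have hci : Tendsto (fun i => (c i)⁻¹) l (ng N 1) := by simpa using k_inv hN hc one_ne_zero
  have hkc : Tendsto (fun i => (κ i * c i)⁻¹) l (ng N 1) := by
    simpa using k_inv hN (ng_mul hκ hc) (by simp)
  have hg := (T.smul hκ ha).eq (one_mul _)
  have hg' := (T.smul hκs ha.st).eq (one_mul _)
  set f : α → B := fun i => (1 - a i) * xi (κ i • a i) with hfd
  have hf : T N l f (1 : K) := ((T.one.sub ha).mul (hg.xi hN b.ne)).eq (mul_inv_cancel₀ b.ne)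
  have hj := (T.smul hci hf).eq (one_mul _)
  set y' : α → B := fun i => 1 - iv (f i) * (1 - y i) with hy'd
  have hy' : T N l y' y₀ :=
    (T.one.sub ((hf.inv hN one_ne_zero).mul (T.one.sub hy))).eq (by simp)
  set y₂ : α → B := fun i => 1 - f i * (1 - star (w i) • y' i) with hy2d
  have hy2 : T N l y₂ y₀ := (T.one.sub (hf.mul (T.one.sub (T.smul hws hy')))).eq (by simp)
  have E : ∀ᶠ i in l, star ((c i)⁻¹ • f i) = (c i)⁻¹ • f i ∧
      star (κ i • a i) * ((c i)⁻¹ • f i) * (κ i • a i) = (c i)⁻¹ • f i := by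
    filter_upwards [e, (T.one.sub hg).unit hN b.ne, k_ne hN hc one_ne_zero]
      with i ⟨q1, q2, q3, _⟩ u2 c0
    have c2 : Commute (a i) (f i) := ((Commute.one_right _).sub_right (Commute.refl _)).mul_right
        (comm_iv ((Commute.one_right _).sub_right ((Commute.refl _).smul_right (κ i))))
    have c3 : f i * (1 - κ i • a i) = 1 - a i := by
      simp only [hfd]; rw [mul_assoc, xi_mul u2, mul_one]
    constructor
    · have k1 : star (f i) = κ i • f i := by
        have k2 : (1 - star (κ i) • star (a i)) * star (f i) = 1 - star (a i) := by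
          have := congrArg star c3
          simpa only [star_mul, star_sub, star_one, star_smul] using this
        have k3 : (1 - star (κ i) • star (a i)) * (κ i • f i) = 1 - star (a i) := by
          have k4 : (1 - star (κ i) • star (a i)) * (κ i • f i) =
              -(star (a i) * ((1 - κ i • a i) * f i)) := by
            simp only [sub_mul, mul_sub, mul_smul_comm, smul_mul_assoc, smul_smul, one_mul,
              ← mul_assoc, q1, smul_sub, mul_comm (κ i), q3, one_smul, neg_sub]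
          rw [k4, ((Commute.one_left _).sub_left (c2.smul_left (κ i))).eq, c3, mul_sub, q1, mul_one,
            neg_sub]
        have u3 : IsUnit (1 - star (κ i) • star (a i)) := by simpa using u2.star
        exact u3.mul_left_cancel (k2.trans k3.symm)
      have k5 : star (c i) = κ i * c i := by
        simp only [hcd, star_div₀, star_add, star_one, star_star, star_ofNat]
        linear_combination (-1 / 2 : K) * q3
      have hκ0 : κ i ≠ 0 := fun h0 => by simp [h0] at q3
      rw [star_smul, k1, smul_smul, star_inv₀, k5]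
      congr 1
      field_simp
    · simp only [star_smul, smul_mul_assoc, mul_smul_comm, smul_smul]
      rw [mul_assoc (star (a i)), ← c2.eq, ← mul_assoc (star (a i)), q1, one_mul]
      congr 1
      linear_combination (c i)⁻¹ * q3
  have R1 := s.rot0 hN hZ h b hj hg hg' hy' hw (by
    filter_upwards [e, E] with i ⟨q1, q2, q3, q4⟩ q5
    refine ⟨q5.1, q5.2, ?_, ?_, q4⟩
    · simp only [smul_mul_assoc, mul_smul_comm, smul_smul, q2, q3, one_smul]
    · simp only [smul_mul_assoc, mul_smul_comm, smul_smul, q1, mul_comm (κ i), q3, one_smul])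
  have R2 := s.rot0 hN hZ h b T.one ha ha.st hy2 hws (by
    filter_upwards [e] with i ⟨q1, q2, _, q4, q5⟩
    refine ⟨star_one _, by rw [mul_one, q1], q2, q1, by rw [star_star, mul_comm, q4], ?_⟩
    intro h0
    exact q5 (by rw [← star_star (w i), h0, star_one]))
  have t1 := T.one.sub hy
  have t2 := T.one.sub hy2
  have t3 := (hy.xi hN b.h1.1).sub (ha.xi hN b.ne)
  have t4 := (hy2.xi hN b.h1.1).sub (ha.xi hN b.ne)
  have t5 := T.one.sub (ha.st.mul hy)
  have t6 := T.one.sub (ha.st.mul hy2)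
  filter_upwards [e, E, R1, R2, k_ne hN hc one_ne_zero, hc.eventually s.S, hci.eventually s.S,
    hkc.eventually s.S, (T.one.sub ha).unit hN b.ne, (T.one.sub hg).unit hN b.ne,
    t1.unit hN b.h1.1, t2.unit hN b.h1.1, hf.unit hN one_ne_zero, h.ev b.h1 t1, h.ev b.h1 t2,
    h.ev b.h1 ((T.smul hci t1).eq (one_mul _)), h.ev b.h1 ((T.smul hci t2).eq (one_mul _)),
    h.ev b.h2 t3, h.ev b.h2 t4,
    h.ev b.h2 ((T.smul hc t3).eq (one_mul _)), h.ev b.h2 ((T.smul hc t4).eq (one_mul _)),
    h.ev b.h3 t5, h.ev b.h3 t6,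
    h.ev b.h3 ((T.smul hkc t5).eq (one_mul _)), h.ev b.h3 ((T.smul hkc t6).eq (one_mul _))]
    with i ⟨q1, q2, q3, q4, q5⟩ ⟨p1, _⟩ r1 r2 c0 s1 s2 s3 u1 u2 u3 u4 uf a1 a2 a3 a4 a5 a6 a7 a8
      a9 a10 a11 a12
  have g1 : f i * (1 - y' i) = 1 - y i := by
    simp only [hy'd]
    rw [sub_sub_cancel, ← mul_assoc, Ring.mul_inverse_cancel _ uf, one_mul]
  have k1 := s.trans q1 q3 c0 u1 u2 u3 rfl rfl p1 g1 s1 s2 s3 a1 a3 a5 a7 a9 a11
  have k2 := s.trans (y' := star (w i) • y' i) (y := y₂ i) q1 q3 c0 u1 u2 u4 rfl rfl p1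
    (by simp only [hy2d]; rw [sub_sub_cancel]) s1 s2 s3 a2 a4 a6 a8 a10 a12
  have k3 : rr F (a i) (y₂ i) = rr F (a i) (y i) := mul_left_cancel (k2.symm.trans (r1.trans k1))
  rw [← k3, rr_eq, rr_eq, ← r2, star_star]
  congr 1
  have g2 : iv (star (a i) - algebraMap K B (κ i)) = a i * xi (κ i • a i) := by
    have c2 : Commute (a i) (xi (κ i • a i)) :=
      comm_iv ((Commute.one_right _).sub_right ((Commute.refl _).smul_right (κ i)))
    refine iv_eq ?_ ?_
    · rw [← mul_assoc, sub_mul, q1, ← Algebra.smul_def, mul_xi u2]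
    · rw [c2.eq, mul_assoc, mul_sub, q2, ← Algebra.commutes, ← Algebra.smul_def, xi_mul u2]
  have g3 : (1 - κ i) • (a i * xi (κ i • a i)) = 1 - f i := by
    simp only [hfd]
    rw [← smul_mul_assoc, sub_smul, one_smul]
    linear_combination (norm := noncomm_ring) mul_xi u2
  have g4 : f i * y' i = f i - (1 - y i) := by rw [← g1]; noncomm_ring
  rw [g2, mul_smul, g3]
  simp only [hy2d, mul_sub, mul_one, mul_smul_comm, smul_sub, smul_smul, mul_comm (w i), q4,
    one_smul, g4]
  module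

end Sys

/-! ### The base points -/

section Base
variable {Z : Set K} {om : K}

/-- the values `- star c / c` of the scalars `c = 1 - om⁻ⁱ (2 - om)` -/
noncomputable def zz (om : K) : Fin 3 → K := ![om⁻¹, om, (1 + 2 * om) * om ^ 2 / (om + 2)]

theorem cc_as (h : star om * om = 1) (h1 : om ≠ 1) (h2 : om + 2 ≠ 0)
    (h3 : 2 * om ^ 2 + 3 * om + 2 ≠ 0) (i : Fin 3) :
    1 - star (om ^ (i : ℕ)) * (2 - om) ≠ 0 ∧
      -star (1 - star (om ^ (i : ℕ)) * (2 - om)) / (1 - star (om ^ (i : ℕ)) * (2 - om)) = zz om i ∧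
      1 - star (om ^ (i : ℕ)) * (2 - om) + star (1 - star (om ^ (i : ℕ)) * (2 - om)) ≠ 0 := by
  have h0 : om ≠ 0 := fun h0 => by simp [h0] at h
  have h5 : star om = om⁻¹ := eq_inv_of_mul_eq_one_left h
  have h6 : om - 1 ≠ 0 := sub_ne_zero.2 h1
  simp only [star_sub, star_mul, star_one, star_ofNat, star_pow, h5, star_inv₀, inv_inv]
  fin_cases i
  · have e1 : 1 - om⁻¹ ^ 0 * (2 - om) = om - 1 := by ring
    have e2 : 1 - (2 - om⁻¹) * om ^ 0 = -(om - 1) / om := by field_simp; ring
    refine ⟨?_, ?_, ?_⟩ <;> simp only [e1, e2]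
    · exact h6
    · simp only [zz]; simp; field_simp; ring
    · rw [show om - 1 + -(om - 1) / om = (om - 1) ^ 2 / om by field_simp; ring]
      exact div_ne_zero (pow_ne_zero _ h6) h0
  · have e1 : 1 - om⁻¹ ^ 1 * (2 - om) = 2 * (om - 1) / om := by field_simp; ring
    have e2 : 1 - (2 - om⁻¹) * om ^ 1 = -(2 * (om - 1)) := by field_simp; ring
    refine ⟨?_, ?_, ?_⟩ <;> simp only [e1, e2]
    · exact div_ne_zero (mul_ne_zero two_ne_zero h6) h0
    · simp only [zz]; simp; field_simp
    · rw [show 2 * (om - 1) / om + -(2 * (om - 1)) = -(2 * (om - 1) ^ 2) / om by field_simp; ring]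
      exact div_ne_zero (neg_ne_zero.2 (mul_ne_zero two_ne_zero (pow_ne_zero _ h6))) h0
  · have e1 : 1 - om⁻¹ ^ 2 * (2 - om) = (om - 1) * (om + 2) / om ^ 2 := by field_simp; ring
    have e2 : 1 - (2 - om⁻¹) * om ^ 2 = -((om - 1) * (1 + 2 * om)) := by field_simp; ring
    refine ⟨?_, ?_, ?_⟩ <;> simp only [e1, e2]
    · exact div_ne_zero (mul_ne_zero h6 h2) (pow_ne_zero _ h0)
    · simp only [zz]; simp; field_simp
    · rw [show (om - 1) * (om + 2) / om ^ 2 + -((om - 1) * (1 + 2 * om)) =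
        -((om - 1) ^ 2 * (2 * om ^ 2 + 3 * om + 2)) / om ^ 2 by field_simp; ring]
      exact div_ne_zero (neg_ne_zero.2 (mul_ne_zero (pow_ne_zero _ h6) h3)) (pow_ne_zero _ h0)

theorem pow_ne (h0 : om ≠ 0) (h1 : om ≠ 1) (h4 : om + 1 ≠ 0) {i l : Fin 3} (hil : i ≠ l) :
    om ^ (i : ℕ) ≠ om ^ (l : ℕ) := by
  have h6 : om - 1 ≠ 0 := sub_ne_zero.2 h1
  have a1 : om ^ 0 ≠ om ^ 1 := by simpa using h1.symm
  have a2 : om ^ 0 ≠ om ^ 2 := fun e => mul_ne_zero h6 h4 (by linear_combination -e)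
  have a3 : om ^ 1 ≠ om ^ 2 := fun e => mul_ne_zero h6 h0 (by linear_combination -e)
  fin_cases i <;> fin_cases l <;>
    first | exact absurd rfl hil | exact a1 | exact a2 | exact a3 | exact a1.symm | exact a2.symm
          | exact a3.symm

theorem base (h : star om * om = 1) (h1 : om ≠ 1) (h2 : om + 2 ≠ 0)
    (h3 : 2 * om ^ 2 + 3 * om + 2 ≠ 0) (h4 : om + 1 ≠ 0) (hz : ∀ i, zz om i ∈ Z)
    (hm : ∀ i l : Fin 3, om ^ (i : ℕ) * (om ^ (l : ℕ))⁻¹ * zz om l * (zz om i)⁻¹ ∈ Z)
    {i l : Fin 3} (hil : i ≠ l) :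
    Bs Z (star (om ^ (i : ℕ)) * om ^ (l : ℕ)) (star (om ^ (i : ℕ)) * (2 - om)) := by
  have h0 : om ≠ 0 := fun h0 => by simp [h0] at h
  have u (n : ℕ) : star (om ^ n) * om ^ n = 1 := by rw [star_pow, ← mul_pow, h, one_pow]
  obtain ⟨p1, p2, p3⟩ := cc_as h h1 h2 h3 i
  obtain ⟨q1, q2, q3⟩ := cc_as h h1 h2 h3 l
  have hne := pow_ne h0 h1 h4 hil
  have hi := pow_ne_zero (i : ℕ) h0
  have hl := pow_ne_zero (l : ℕ) h0
  have ui := u i
  have ul := u l
  have hz1 := hz i
  have hz2 := hz l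
  have hm1 := hm i l
  have hy : star (2 - om) * (2 - om) ≠ 1 := fun e => by
    rw [star_sub, star_ofNat] at e
    refine pow_ne_zero 2 (sub_ne_zero.2 h1) ?_
    linear_combination (-om / 2) * e - (1 - om / 2) * h
  rw [← p2] at hz1 hm1
  rw [← q2] at hz2 hm1
  generalize om ^ (i : ℕ) = a at *
  generalize om ^ (l : ℕ) = b at *
  generalize 2 - om = y at *
  have sa : star a = a⁻¹ := eq_inv_of_mul_eq_one_left ui
  have sb : star b = b⁻¹ := eq_inv_of_mul_eq_one_left ul
  have e0 : star (star a * b) * (star a * y) = star b * y := by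
    rw [star_mul, star_star]; linear_combination (star b * y) * ui
  have n1 : 1 - star a * b ≠ 0 := fun e => hne (by linear_combination a * e + b * ui)
  have u0 : star (star a * b) * (star a * b) = 1 := by
    rw [star_mul, star_star]; linear_combination (star b * b) * ui + ul
  have p1' := star_ne_zero.2 p1
  have q1' := star_ne_zero.2 q1
  have n1' := star_ne_zero.2 n1
  have e1 : (1 - star a * y)⁻¹ - (1 - star a * b)⁻¹ =
      -(star a * b) * (1 - star b * y) / ((1 - star a * y) * (1 - star a * b)) := by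
    field_simp
    linear_combination (-y * star a) * ul
  refine ⟨u0, n1, ⟨p1, hz1, p3⟩, ⟨?_, ?_, ?_⟩, by rw [e0]; exact ⟨q1, hz2, q3⟩⟩
  · rw [e1]
    exact div_ne_zero (mul_ne_zero (neg_ne_zero.2 (mul_ne_zero (star_ne_zero.2 hi) hl)) q1)
      (mul_ne_zero p1 n1)
  · convert hm1 using 1
    have e2 : star (1 - star a * b) = -(star b * a) * (1 - star a * b) := by
      rw [star_sub, star_one, star_mul, star_star]
      linear_combination (-(star b * b)) * ui - ul
    rw [e1, star_div₀, star_mul, star_mul, star_neg, star_mul, star_star, e2]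
    generalize star (1 - star a * y) = c' at *
    generalize star (1 - star b * y) = d' at *
    generalize 1 - star a * y = c at *
    generalize 1 - star b * y = d at *
    generalize 1 - star a * b = n at *
    rw [sa, sb]
    field_simp
  · rw [star_sub]
    intro e
    have e3 := tr_xi u0 n1
    have e4 : (1 - star a * y)⁻¹ + star (1 - star a * y)⁻¹ = 1 := by linear_combination e + e3
    rw [star_inv₀] at e4
    field_simp at e4
    rw [star_sub, star_one, star_mul, star_star] at e4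
    exact hy (by linear_combination -e4 - (star y * y) * ui)

theorem base_ev {N : ℕ} (hN : 2 ≤ N) (hZ : Z ∈ ng N (1 : K)) : ∀ᶠ om in ng N (1 : K),
    star om * om = 1 → om ≠ 1 → ∀ i l : Fin 3, i ≠ l →
      Bs Z (star (om ^ (i : ℕ)) * om ^ (l : ℕ)) (star (om ^ (i : ℕ)) * (2 - om)) := by
  have t : Tendsto (fun x : K => x) (ng N 1) (ng N 1) := tendsto_id
  have t2 := ng_add t (ng_const (2 : K))
  have t3 := ng_add (ng_add (ng_mul (ng_const (2 : K)) (ng_pow t 2)) (ng_mul (ng_const (3 : K)) t))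
    (ng_const (2 : K))
  have t4 := ng_add t (ng_const (1 : K))
  have tz (i : Fin 3) : Tendsto (fun x : K => zz x i) (ng N 1) (ng N 1) := by
    fin_cases i
    · simpa [zz] using k_inv hN t one_ne_zero
    · simpa [zz] using t
    · have := ng_mul (ng_mul (ng_add (ng_const (1 : K)) (ng_mul (ng_const (2 : K)) t)) (ng_pow t 2))
        (k_inv hN t2 (by norm_num))
      rw [show ((1 : K) + 2 * 1) * 1 ^ 2 * (1 + 2)⁻¹ = 1 by norm_num] at this
      simpa [zz, div_eq_mul_inv] using this
  have tm (i l : Fin 3) : Tendsto (fun x : K => x ^ (i : ℕ) * (x ^ (l : ℕ))⁻¹ * zz x l * (zz x i)⁻¹)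
      (ng N 1) (ng N 1) := by
    simpa using ng_mul (ng_mul (ng_mul (ng_pow t i) (k_inv hN (ng_pow t l) (by simp))) (tz l))
      (k_inv hN (tz i) one_ne_zero)
  filter_upwards [k_ne hN t2 (by norm_num), k_ne hN t3 (by norm_num), k_ne hN t4 (by norm_num),
    eventually_all.2 fun i => (tz i).eventually hZ,
    eventually_all.2 fun i => eventually_all.2 fun l => (tm i l).eventually hZ]
    with om h2 h3 h4 hz hm h h1 i l hil
  exact base h h1 h2 h3 h4 hz hm hil

end Base

/-! ### The hypotheses of the constancy theorem -/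

section Main
variable {N : ℕ} {F : B → A} {Adm : B → Prop} {ψ : K → A} {Z : Set K}

theorem st_alg (c : K) : star (algebraMap K B c) = algebraMap K B (star c) := by
  rw [Algebra.algebraMap_eq_smul_one, Algebra.algebraMap_eq_smul_one, star_smul, star_one]

theorem hyp_of (s : Sys N F Adm ψ) (hN : 2 ≤ N) (hZ : Z ∈ ng N (1 : K)) (h : Op N Adm Z)
    (o : Fin 3 → K) (y₀ : K) (ho : ∀ i, star (o i) * o i = 1)
    (b : ∀ i l, i ≠ l → Bs Z (star (o i) * o l) (star (o i) * y₀)) :
    HolC.Hyp K N (fun i => algebraMap K B (o i)) (algebraMap K B y₀)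
      (fun g g' y => rr F (star g * g') (star g * y)) := by
  refine ⟨fun i => ?_, fun i l hil => ?_, fun i l m h1 h2 h3 => ?_, fun i l h1 => ?_,
    fun i l h1 => ?_⟩
  · rw [Unitary.mem_iff, st_alg, ← map_mul, ← map_mul, mul_comm (o i), ho, map_one]
    exact ⟨rfl, rfl⟩
  · rw [st_alg, ← map_mul, ← map_one (algebraMap K B), ← map_sub]
    exact (IsUnit.mk0 _ fun e => (b l i hil.symm).ne (by linear_combination -e)).map _
  · set L := ng N (algebraMap K B (o i)) ×ˢ ng N (algebraMap K B (o l)) ×ˢ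
      ng N (algebraMap K B (o m)) ×ˢ ng N (algebraMap K B y₀)
    have t1 : T N L (fun q => q.1) (o i) := tendsto_fst
    have t2 : T N L (fun q => q.2.1) (o l) := tendsto_fst.comp tendsto_snd
    have t3 : T N L (fun q => q.2.2.1) (o m) := (tendsto_fst.comp tendsto_snd).comp tendsto_snd
    have t4 : T N L (fun q => q.2.2.2) y₀ := (tendsto_snd.comp tendsto_snd).comp tendsto_snd
    have x1 := (t1.st.mul t4).xi hN (b i l h1).h1.1
    filter_upwards [(T.one.sub (t1.st.mul t4)).unit hN (b i l h1).h1.1,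
      (T.one.sub (t2.st.mul t4)).unit hN (b l m h2).h1.1,
      (T.one.sub (t1.st.mul t2)).unit hN (b i l h1).ne,
      (T.one.sub (t2.st.mul t3)).unit hN (b l m h2).ne,
      (T.one.sub (t1.st.mul t3)).unit hN (b i m h3).ne,
      h.ev (b i l h1).h2 (x1.sub ((t1.st.mul t2).xi hN (b i l h1).ne)),
      h.ev (b i m h3).h2 (x1.sub ((t1.st.mul t3).xi hN (b i m h3).ne))]
      with ⟨g, g', g'', y⟩ u1 u2 u3 u4 u5 a1 a2 ⟨p1, p2⟩ ⟨p3, p4⟩ ⟨p5, p6⟩
    dsimp only at *
    have e1 : star g * g' * (star g' * g'') = star g * g'' := by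
      linear_combination (norm := noncomm_ring) star g * p4 * g''
    have e2 (z : B) : star z * g * (star g * y) = star z * y := by
      linear_combination (norm := noncomm_ring) star z * p2 * y
    have e3 : star g'' * g' * (star g' * y) = star g'' * y := by
      linear_combination (norm := noncomm_ring) star g'' * p4 * y
    have k := (s.coc (j := 1) (j' := 1) (g₁ := star g * g') (g₁' := star g' * g)
      (g₂ := star g' * g'') (y := star g * y) (star_one B) (mul_one 1) (mul_one 1)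
      (by rw [star_mul, star_star]
          linear_combination (norm := noncomm_ring) star g' * p2 * g' + p3)
      (by rw [star_mul, star_star]
          linear_combination (norm := noncomm_ring) star g'' * p4 * g'' + p5)
      (by linear_combination (norm := noncomm_ring) star g * p4 * g + p1)
      (by linear_combination (norm := noncomm_ring) star g' * p2 * g' + p3)
      u1 u3 u4 (by rwa [e1]) (by rwa [e2]) (by rwa [one_mul]) (by rwa [one_mul, e1])).2
    simp only [e1, e2, one_mul, xi] at k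
    simp only [rr, star_mul, star_star, e2, e3, k]
    simp only [add_inj, ofMul_mul, ofMul_div]
    abel
  · set L := ng N (algebraMap K B (o i)) ×ˢ ng N (algebraMap K B (o l)) ×ˢ ng N (algebraMap K B y₀)
    have t1 : T N L (fun q => q.1) (o i) := tendsto_fst
    have t2 : T N L (fun q => q.2.1) (o l) := tendsto_fst.comp tendsto_snd
    have t4 : T N L (fun q => q.2.2) y₀ := tendsto_snd.comp tendsto_snd
    have x1 := (t1.st.mul t4).xi hN (b i l h1).h1.1
    filter_upwards [(T.one.sub (t1.st.mul t4)).unit hN (b i l h1).h1.1,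
      (T.one.sub (t2.st.mul t4)).unit hN (b l i h1.symm).h1.1,
      (T.one.sub (t1.st.mul t2)).unit hN (b i l h1).ne,
      h.ev (b i l h1).h2 (x1.sub ((t1.st.mul t2).xi hN (b i l h1).ne))]
      with ⟨g, g', y⟩ u1 u2 u3 a1 ⟨p1, p2⟩ ⟨p3, p4⟩
    dsimp only at *
    have e2 : star g' * g * (star g * y) = star g' * y := by
      linear_combination (norm := noncomm_ring) star g' * p2 * y
    have e3 : star g * g' * (star g' * y) = star g * y := by
      linear_combination (norm := noncomm_ring) star g * p4 * y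
    have k := s.anti (g := star g * g') (y := star g * y)
      (by rw [star_mul, star_star]
          linear_combination (norm := noncomm_ring) star g * p4 * g + p1)
      (by rw [star_mul, star_star]
          linear_combination (norm := noncomm_ring) star g' * p2 * g' + p3)
      u1 u3 (by rwa [star_mul, star_star, e2]) a1
    simp only [star_mul, star_star, e2, xi] at k
    simp only [rr, star_mul, star_star, e2, e3]
    simp only [add_inj, ofMul_mul, ofMul_div, ofMul_one] at k ⊢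
    linear_combination (norm := abel) k
  · set L := ng N (algebraMap K B (o i)) ×ˢ ng N (algebraMap K B (o l)) ×ˢ
      ng N (algebraMap K B y₀) ×ˢ ng N (1 : K) ×ˢ ng N (1 : K)
    let P : B × B × B × K × K → Prop := fun q => q.1 ∈ unitary B ∧ q.2.1 ∈ unitary B ∧
      star q.2.2.2.1 * q.2.2.2.1 = 1 ∧ star q.2.2.2.2 * q.2.2.2.2 = 1 ∧ q.2.2.2.1 ≠ 1
    have le : L ⊓ 𝓟 {q | P q} ≤ L := inf_le_left
    have t1 : T N (L ⊓ 𝓟 {q | P q}) (fun q => q.1) (o i) := tendsto_fst.mono_left le
    have t2 : T N (L ⊓ 𝓟 {q | P q}) (fun q => q.2.1) (o l) :=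
      (tendsto_fst.comp tendsto_snd).mono_left le
    have t3 : T N (L ⊓ 𝓟 {q | P q}) (fun q => q.2.2.1) y₀ :=
      ((tendsto_fst.comp tendsto_snd).comp tendsto_snd).mono_left le
    have t4 : Tendsto (fun q : B × B × B × K × K => q.2.2.2.1) (L ⊓ 𝓟 {q | P q}) (ng N 1) :=
      (((tendsto_fst.comp tendsto_snd).comp tendsto_snd).comp tendsto_snd).mono_left le
    have t5 : Tendsto (fun q : B × B × B × K × K => q.2.2.2.2) (L ⊓ 𝓟 {q | P q}) (ng N 1) :=
      (((tendsto_snd.comp tendsto_snd).comp tendsto_snd).comp tendsto_snd).mono_left le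
    have t6 := k_inv hN t4 one_ne_zero
    rw [inv_one] at t6
    have k := s.step hN hZ h (b i l h1) (t1.st.mul t2) (t1.st.mul t3) t6 t5
      (eventually_inf_principal.2 (Eventually.of_forall fun q ⟨⟨p1, p2⟩, ⟨p3, p4⟩, p5, p6, p7⟩ => by
        refine ⟨?_, ?_, p6, by rw [star_inv₀, ← mul_inv, p5, inv_one], inv_ne_one.2 p7⟩
        · rw [star_mul, star_star]
          linear_combination (norm := noncomm_ring) star q.2.1 * p2 * q.2.1 + p3
        · rw [star_mul, star_star]
          linear_combination (norm := noncomm_ring) star q.1 * p4 * q.1 + p1))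
    filter_upwards [eventually_inf_principal.1 k] with ⟨g, g', y, w, κ⟩ hq p1 p2 p3 p4
    dsimp only at *
    by_cases hw : w = 1
    · rw [hw, inv_one, sub_self, zero_mul, zero_smul, add_zero]
    · have := hq ⟨p1, p2, p3, p4, hw⟩
      rwa [mul_add, mul_smul_comm, ← mul_assoc, p1.1, one_mul, ← star_star g, ← star_mul,
        star_star]

/-- **H1** -/
theorem hyp (s : Sys N F Adm ψ) (hN : 2 ≤ N) : ∀ᶠ om in ng N (1 : K), star om * om = 1 → om ≠ 1 →
    HolC.Hyp K N (fun i => algebraMap K B (om ^ (i : ℕ))) (algebraMap K B (2 - om))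
      (fun g g' y => rr F (star g * g') (star g * y)) := by
  obtain ⟨Z, hZ, h⟩ := s.O
  filter_upwards [base_ev hN hZ] with om hb h1 h2
  exact hyp_of s hN hZ h _ _ (fun i => by rw [star_pow, ← mul_pow, h1, one_pow]) (hb h1 h2)

end Main

end Crest.Agent.T24.HolR
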