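import Crest.Agent.T24.StabZ_6

/-!
# Row 24, stability (helper6): the toolkit, and the unconditional stability statement
-/

set_option autoImplicit false
set_option linter.unusedSectionVars false

noncomputable section

namespace Crest.Agent.T24.Stab.O6

open Module WithZero Csa Asa Filter NumberField Polynomial IsDedekindDomain

universe u v w

section Glob
variable {k : Type u} {K : Type v} {B : Type w} [Field k] [NumberField k] [Field K] [NumberField K]
  [Algebra k K] [StarRing K] [Quad k K] [Ring B] [StarRing B] [Algebra K B] [StarModule K B]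
  [Algebra.IsCentral K B] [IsSimpleRing B] [FiniteDimensional K B] [Algebra k B] [IsScalarTower k K B]
  [Module.Finite k B]

theorem repr_eq (y : B) (i) :
    (finBasis k B).repr y i = ∑ j, mat k y i j * (finBasis k B).repr 1 j := by
  conv_lhs => rw [← mul_one y]
  exact (congrFun (Algebra.leftMulMatrix_mulVec_repr (finBasis k B) y 1) i).symm

theorem val_det_le {ι : Type*} [Fintype ι] [DecidableEq ι] (w : Pl K) {M : Matrix ι ι K} {γ : ℤᵐ⁰}
    (h : ∀ i j, w.valuation K (M i j) ≤ γ) : w.valuation K M.det ≤ γ ^ Fintype.card ι := by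
  rw [Matrix.det_apply']
  refine Valuation.map_sum_le _ fun σ _ => ?_
  rw [map_mul, map_prod]
  refine (mul_le_mul' ?_ (Finset.prod_le_pow_card _ _ _ fun i _ => h _ _)).trans_eq (one_mul _)
  rcases Int.units_eq_one_or (Equiv.Perm.sign σ) with h | h <;> simp [h]

theorem val_le_one (w : Pl K) (y : B) (hy : Cl (below k w) 0 y) : val w y ≤ 1 := by
  classical
  set e := finBasis k B
  set f := finBasis K B
  obtain ⟨γ, hγ⟩ := (Set.finite_range fun p : _ × _ × _ × _ => w.valuation K
    (Algebra.leftMulMatrix f (e.repr 1 p.1 • e p.2.1) p.2.2.1 p.2.2.2)).bddAbove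
  have key : ∀ y : B, Cl (below k w) 0 y → val w y ^ deg K B ≤ γ ^ finrank K B := fun y hy => by
    rw [val, ← map_pow, Nrd_pow, ← LinearMap.det_toMatrix f]
    refine (val_det_le w fun a b => ?_).trans_eq (by rw [Fintype.card_fin])
    change w.valuation K (Algebra.leftMulMatrix f y a b) ≤ γ
    rw [← e.sum_repr y]
    simp only [e, repr_eq y, Finset.sum_smul, mul_smul, map_sum, Matrix.sum_apply,
      smul_k (K := K) (mat k y _ _), map_smul, Matrix.smul_apply, smul_eq_mul]
    refine Valuation.map_sum_le _ fun i _ => Valuation.map_sum_le _ fun j _ => ?_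
    rw [map_mul]
    exact (mul_le_mul' ((below_le_one w _).2 (by simpa using hy i j))
      (hγ ⟨(j, i, a, b), rfl⟩)).trans_eq (one_mul _)
  by_contra! h
  have hd : deg K B ≠ 0 := fun h0 => by
    have := finrank_eq_deg_sq K B
    rw [h0] at this
    exact finrank_pos.ne' this
  have hp : ∀ n : ℕ, Cl (below k w) 0 (y ^ (n + 1)) := fun n => by
    induction n with
    | zero => simpa using hy
    | succ n ih => rw [pow_succ]; exact cl_mul ih hy
  have h1 := one_lt_pow₀ h hd
  obtain ⟨n, hn⟩ := MulArchimedean.arch (γ ^ finrank K B) h1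
  have h2 := key _ (hp n)
  rw [val, map_pow, map_pow, ← pow_mul, mul_comm, pow_mul] at h2
  exact (pow_lt_pow_right₀ h1 (Nat.lt_succ_self n)).not_ge (h2.trans hn)

theorem val_norm {v : Pl k} {c : K} (h : ∀ w : Pl K, below k w = v → w.valuation K c = 1) :
    v.valuation k (Algebra.norm k c) = 1 := by
  have : Module.Finite k K := Module.finite_of_finrank_eq_succ (Quad.fr (k := k) (K := K))
  have : Algebra.IsQuadraticExtension k K := { finrank_eq_two' := Quad.fr }
  obtain ⟨w, rfl⟩ : ∃ w : Pl K, below k w = v := Hn.exists_un K v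
  rw [← below_eq_one, Algebra.norm_eq_prod_automorphisms, map_prod]
  refine Finset.prod_eq_one fun σ _ => ?_
  obtain ⟨w', hw⟩ := Loc.exists_conj_place σ.toRingEquiv w
  refine (hw c).symm.trans (h w' ?_)
  ext a
  have h1 := below_lt_one (k := k) w' (a : k)
  have h2 := below_lt_one (k := k) w (a : k)
  rw [hw, show σ.toRingEquiv (algebraMap k K a) = _ from σ.commutes _, h2] at h1
  rw [← HeightOneSpectrum.valuation_lt_one_iff_mem (K := k),
    ← HeightOneSpectrum.valuation_lt_one_iff_mem (K := k)]
  exact h1.symm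

theorem cl_inv (v : Pl k) (y : B) (hy : Cl v 0 y) (h : ∀ w : Pl K, below k w = v → val w y = 1) :
    Cl v 0 (Ring.inverse y) := by
  have : Module.Finite k K := Module.finite_of_finrank_eq_succ (Quad.fr (k := k) (K := K))
  have hd : (mat k y).det = Algebra.norm k (Nrd K y ^ deg K B) := by
    rw [Nrd_pow, ← LinearMap.det_restrictScalars, ← LinearMap.det_toMatrix (finBasis k B)]
    rfl
  have h1 : v.valuation k (mat k y).det = 1 :=
    hd ▸ val_norm fun w hw => by rw [map_pow, show w.valuation K _ = 1 from h w hw, one_pow]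
  by_cases hu : IsUnit y
  · intro i j
    rw [show mat k (Ring.inverse y) = _ from Opn.map_inverse (mat k).toRingHom hu,
      ← Matrix.nonsing_inv_eq_ringInverse, Matrix.inv_def, Ring.inverse_eq_inv']
    simpa [h1] using Lan.val_adjugate (v.valuation k) (M := mat k y) (by simpa [Cl] using hy) i j
  · intro i j
    simp [Ring.inverse_non_unit _ hu]

variable (k K B) in
theorem tool : Tool k K B where
  uni δ := by
    filter_upwards [(finite_ne_one (two_ne_zero (α := k))).compl_mem_cofinite,
      (finite_ne_one δ.ne_zero).compl_mem_cofinite] with v h2 hδ l hl h1 h3 F _ _ _ x hx p hp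
    subst hp
    have hc : aeval (x : F) (mat k l).charpoly = 0 := by
      refine aeval_eq_zero_of_dvd_aeval_eq_zero ?_ hx
      rw [← minpoly.algHom_eq (mat k) (Algebra.leftMulMatrix_injective _)]
      exact Matrix.minpoly_dvd_charpoly _
    obtain ⟨V, hV, he⟩ := Lan.exists_eigvec _ hc
    obtain ⟨h0, he'⟩ := Lan.eig_inv (N' := (mat k (Ring.inverse l)).map (algebraMap k F))
      (by rw [← Matrix.map_mul, ← map_mul, Ring.inverse_mul_cancel _ hl, map_one,
        Matrix.map_one _ (map_zero _) (map_one _)]) hV he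
    obtain ⟨i, j, H⟩ := Lan.val_eig (p.valuation F) hV he
    obtain ⟨i', j', H'⟩ := Lan.val_eig (p.valuation F) hV he'
    have H1 := H.trans ((below_le_one p _).2 (by simpa using h1 i j))
    have H2 := H'.trans ((below_le_one p _).2 (by simpa using h3 i' j'))
    refine Hn.Loc.mem_LN_of_odd p ?_ ((below_eq_one p _).2 (not_not.1 hδ)) (le_antisymm H1 ?_)
    · simpa [map_ofNat] using (below_eq_one p (2 : k)).2 (not_not.1 h2)
    · rwa [map_inv₀, inv_le_one₀ (zero_lt_iff.2 (val_ne_zero p h0))] at H2
  inv := .of_forall cl_inv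
  str := by
    set e := finBasis k B
    let τ : B →ₗ[k] B := ⟨(starAddEquiv (R := B)).toAddMonoidHom.toAddHom, star_ksmul K⟩
    filter_upwards [Lan.ev_in e 1, eventually_all.2 fun i => eventually_all.2 fun j =>
      Lan.ev_in e (e i * e j), eventually_all.2 fun i => Lan.ev_in e (τ (e i))] with v h1 h2 h3 y hy i j
    refine (Lan.In.mat h2 (Lan.In.lin τ h3 fun i => ?_) i j).trans_eq (by simp)
    rw [repr_eq]
    refine Valuation.map_sum_le _ fun j _ => ?_
    simpa using mul_le_mul' (hy i j) (h1 j)
  nrd := val_le_one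
  spl δ v hv l F _ _ _ x _ p hp := by
    subst hp
    rw [show algebraMap k F δ = (Units.map (algebraMap k F : k →* F) δ : Fˣ) from rfl,
      Hn.LN_eq_top p _ (Lan.map_mem_Sq p hv)]
    trivial

end Glob

theorem toolStmt : ToolStmt.{u, v, w} := fun D => tool D.k D.K D.B

/-- **stability**, unconditional -/
theorem stabStmt : StabStmt.{u, v, w} := stabStmt_of_tool toolStmt

end Crest.Agent.T24.Stab.O6
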