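import Crest.Agent.T24.HolCore_95
import Crest.Agent.T24.HolLs_28
import Crest.Agent.T24.HolZ_56
import Crest.Agent.T24.HolR_38
import Crest.Agent.T24.HolE_65
import Crest.Agent.T24.HolC_25
import Crest.Agent.T24.HolI_7
import Crest.Agent.T24.HolP_80
import Crest.Agent.T24.StabTl_6

/-!
# Row 24, holonomy step (helper95): assembly
-/

set_option autoImplicit false

namespace Crest.Agent.T24.Hol

open In

universe u v w

theorem holStmt : HolZ.HolStmt.{u, v, w} := by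
  intro D hd ho _ A _ n hn hA m f hf
  obtain ⟨N, hN, hT⟩ := HolZ.exists_N (Loc.valStmt D (by omega)).1
  refine hol_of (Quad.ne (k := D.k)) hd hN hn hA (Stab.O6.stabStmt D hd ho) (lh1Stmt D ho N hN)
    ((HolZ.deep_nr (Loc.cofStmt D) (by omega) hT m).filter_mono (ng_le_nr _))
    (fun F Adm ψ S => HolR.hyp ⟨S.unit, S.C, S.I, S.H, S.S, S.O⟩ hN)
    (HolC.constStmt HolI.idealStmt H80.chainStmt H80.span0Stmt H80.nodes0Stmt)
    (fun n hn hA φ h => ?_) hf
  obtain ⟨N', h1, h2, -, h3⟩ :=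
    HolE.endAll hN ho hn hA ⟨h.one, h.inv, h.st, h.cg, h.sc, h.re, h.dd⟩
  exact ⟨N', h1, ng_le_of_dvd h2 _, h3⟩

end Crest.Agent.T24.Hol
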