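import Crest.Agent.T24.NaOneA_37

/-! Row 24, module NA + TW: the analytic step in the abstract system (helper56). -/

set_option autoImplicit false
set_option linter.unusedSectionVars false

noncomputable section

namespace Crest.Agent.T24.Na

open Topology Filter MeasureTheory

universe u v w

namespace A56

theorem exists_mean {ι X B : Type*} (l : Filter ι) [l.NeBot] (j : X → B) (W : ι → X → ℝ)
    (h0 : ∀ i a, 0 ≤ W i a) (hs : ∀ᶠ i in l, Summable (W i))
    (h1 : Tendsto (fun i => ∑' a, W i a) l (𝓝 1)) : ∃ P : (B → ℝ) →ₗ[ℝ] ℝ, P 1 = 1 ∧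
      ∀ f : B → ℝ, (∃ C, ∀ x, |f x| ≤ C) → (0 ≤ f → 0 ≤ P f) ∧
        (Tendsto (fun i => ∑' a, W i a * f (j a)) l (𝓝 0) → P f = 0) := by
  have hle := Ultrafilter.of_le l
  let Bd : Submodule ℝ (B → ℝ) :=
    { carrier := {f | ∃ C, ∀ x, |f x| ≤ C}
      add_mem' := fun ⟨C, h⟩ ⟨C', h'⟩ =>
        ⟨C + C', fun x => (abs_add_le _ _).trans (add_le_add (h x) (h' x))⟩
      zero_mem' := ⟨0, fun x => by simp⟩
      smul_mem' := fun c f ⟨C, h⟩ => ⟨|c| * C, fun x => by
        rw [Pi.smul_apply, smul_eq_mul, abs_mul]; exact mul_le_mul_of_nonneg_left (h x) (abs_nonneg c)⟩ }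
  have bd : ∀ (f : B → ℝ) C, (∀ x, |f x| ≤ C) → ∀ i a, ‖W i a * f (j a)‖ ≤ W i a * |C| :=
    fun f C h i a => by
      rw [norm_mul, Real.norm_of_nonneg (h0 i a)]
      exact mul_le_mul_of_nonneg_left ((h _).trans (le_abs_self C)) (h0 i a)
  have sm : ∀ f : Bd, ∀ i, Summable (W i) → Summable fun a => W i a * f.1 (j a) :=
    fun ⟨f, C, h⟩ i hi => (hi.mul_right _).of_norm_bounded (bd f C h i)
  have ex : ∀ f : Bd, ∃ y, Tendsto (fun i => ∑' a, W i a * f.1 (j a)) (Ultrafilter.of l) (𝓝 y) := by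
    rintro ⟨f, C, h⟩
    obtain ⟨y, -, hy⟩ := (isCompact_closedBall (0 : ℝ) (2 * |C|)).ultrafilter_le_nhds
      ((Ultrafilter.of l).map fun i => ∑' a, W i a * f (j a)) (le_principal_iff.2 (hle
        ((hs.and (h1.eventually (gt_mem_nhds one_lt_two))).mono fun i hi =>
          mem_closedBall_zero_iff.2 ((tsum_of_norm_bounded (hi.1.hasSum.mul_right _) (bd f C h i)).trans
            (mul_le_mul_of_nonneg_right hi.2.le (abs_nonneg C))))))
    exact ⟨y, hy⟩
  choose L hL using ex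
  let P₀ : Bd →ₗ[ℝ] ℝ :=
    { toFun := L
      map_add' := fun f g => tendsto_nhds_unique (hL (f + g)) (((hL f).add (hL g)).congr'
        ((hs.filter_mono hle).mono fun i hi => by
          simp only [Submodule.coe_add, Pi.add_apply, mul_add, (sm f i hi).tsum_add (sm g i hi)]))
      map_smul' := fun c f => tendsto_nhds_unique (hL (c • f)) (((hL f).const_mul c).congr fun i => by
        simp only [← tsum_mul_left, Submodule.coe_smul, Pi.smul_apply, smul_eq_mul, mul_left_comm c]) }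
  obtain ⟨P, hP⟩ := P₀.exists_extend
  have hP' : ∀ f (hf : f ∈ Bd), Tendsto (fun i => ∑' a, W i a * f (j a)) (Ultrafilter.of l)
      (𝓝 (P f)) := fun f hf => (LinearMap.congr_fun hP ⟨f, hf⟩ : P f = L ⟨f, hf⟩) ▸ hL ⟨f, hf⟩
  refine ⟨P, tendsto_nhds_unique (hP' 1 ⟨1, by simp⟩) (by simpa using h1.mono_left hle),
    fun f hf => ⟨fun h => ge_of_tendsto' (hP' f hf) fun i =>
      tsum_nonneg fun a => mul_nonneg (h0 i a) (h _), fun h =>
      tendsto_nhds_unique (hP' f hf) (h.mono_left hle)⟩⟩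

instance {α β : Type*} (l : Filter α) (m : Filter β) [l.NeBot] [m.NeBot] : (l.curry m).NeBot :=
  ⟨fun h => by
    have := eventually_curry_iff.1 (eventually_false_iff_eq_bot.2 h)
    simp [NeBot.ne'] at this⟩

theorem tendsto_curry {α β γ : Type*} {l : Filter α} {m : Filter β} {n : Filter γ} {f : α × β → γ}
    (h : ∀ᶠ a in l, Tendsto (fun b => f (a, b)) m n) : Tendsto f (l.curry m) n :=
  fun _ hU => eventually_curry_iff.2 (h.mono fun _ ha => ha hU)

/-- an affine bijection of a ring -/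
def afE {R : Type*} [Ring R] (a s t : Rˣ) (b : R) : R ≃ R where
  toFun y := a * (s * y * t) + b
  invFun y := (s⁻¹ : Rˣ) * ((a⁻¹ : Rˣ) * (y - b)) * (t⁻¹ : Rˣ)
  left_inv y := by simp [mul_assoc]
  right_inv y := by simp [mul_assoc]

/-- an affine homeomorphism of a ring -/
def afH {R : Type*} [Ring R] [TopologicalSpace R] [IsTopologicalRing R] (a s t : Rˣ) (b : R) :
    R ≃ₜ R :=
  { afE a s t b with
    continuous_toFun := by simp only [afE]; fun_prop
    continuous_invFun := by simp only [afE]; fun_prop }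

theorem af_iff {R : Type*} [Ring R] [StarRing R] {a s t : Rˣ} {b : R} (h1 : star (a : R) = a)
    (h2 : ∀ y, (a : R) * y = y * a) (h3 : star (t : R) = s) (h4 : star b = b) (y : R) :
    y ∈ selfAdjoint R ↔ afE a s t b y ∈ selfAdjoint R := by
  have : star (afE a s t b y) = afE a s t b (star y) := by
    change star ((a : R) * (s * y * t) + b) = a * (s * star y * t) + b
    rw [star_add, star_mul, star_mul, star_mul, h1, h4, ← h2, h3, ← h3, star_star, mul_assoc]
  rw [selfAdjoint.mem_iff, selfAdjoint.mem_iff, this, Equiv.apply_eq_iff_eq]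

theorem dom_open {F : Type*} [Field F] [TopologicalSpace F] [IsTopologicalRing F] {O : Subring F}
    {π : F} (h : Lf O π) (d : ℕ) : IsOpen {y : Mt d F | Dom O π y} := by
  simp only [Dom, Set.ofPred_exists]
  exact isOpen_iUnion fun i => isOpen_iUnion fun g => isOpen_iUnion fun l =>
    (One37.isOpen_cell h 1).preimage (by fun_prop)

theorem exists_ap {S : Sys.{u, v, w}} (h : S.Ok) (g : Aff S.k S.B) :
    ∃ (e : S.X ≃ S.X) (E : S.Z ≃ₜ S.Z), (∀ a, (e a : S.B) = g.ap a) ∧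
      (∀ z, ((E z).1 : S.A) = S.ap₂ g z.1 ∧ (E z).2 = S.ap₀ g z.2) ∧ ∀ a, S.iJ (e a) = E (S.iJ a) := by
  let a : S.Bˣ := Units.map (algebraMap S.k S.B).toMonoidHom g.κ
  have h1 : star (a : S.B) = a := by
    change star (algebraMap S.k S.B g.κ) = algebraMap S.k S.B g.κ
    rw [Algebra.algebraMap_eq_smul_one, h.star_k, star_one]
  let e : S.X ≃ S.X := (afE a (star g.p) g.p g.b).subtypeEquiv
    (af_iff h1 (Algebra.commutes _) rfl g.hb)
  let i := Units.map S.inc.toMonoidHom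
  let p := Units.map S.ψ.toMonoidHom
  let E : S.Z ≃ₜ S.Z := ((afH (i a) (i (star g.p)) (i g.p) (S.inc g.b)).subtype
    (af_iff ((h.inc_star _).symm.trans (congrArg _ h1)) (h.k_comm _) (h.inc_star _).symm
      ((h.inc_star _).symm.trans (congrArg _ g.hb)))).prodCongr
    (afH (p a) (p (star g.p)) (p g.p) (S.ψ g.b))
  have he : ∀ a, (e a : S.B) = g.ap a := fun y => by
    rw [Aff.ap, Aff.lin, Algebra.smul_def]; rfl
  have hE : ∀ z, ((E z).1 : S.A) = S.ap₂ g z.1 ∧ (E z).2 = S.ap₀ g z.2 := fun z => ⟨rfl, rfl⟩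
  refine ⟨e, E, he, hE, fun y => Prod.ext (Subtype.ext ?_) ?_⟩
  · simp [(hE _).1, h.iJ_fst, he, Aff.ap, Aff.lin, Algebra.smul_def, Sys.ap₂]
  · simp [(hE _).2, h.iJ_snd, he, Aff.ap, Aff.lin, Algebra.smul_def, Sys.ap₀]

theorem mem_of_ch {S : Sys.{u, v, w}} (h : S.Ok) (a : S.X) (ha : S.Ch (S.iJ a)) :
    ∃ u : S.U₀, ((u : unitary S.B) : S.B) = cy S.θ a := by
  obtain ⟨-, ⟨g, hg⟩, -⟩ := ha
  refine ⟨⟨⟨_, One37.cy_mem (fun y => h.inc_inj (by rw [map_mul, map_mul, h.th_comm])) h.th_star a.2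
    (h.aniso a)⟩, h.mem_U _ ⟨g, ?_⟩⟩, rfl⟩
  rw [hg, h.iJ_fst]
  exact (One37.map_cy S.inc (h.aniso a)).symm

theorem bd_ind {B : Type*} (T : Set B) (x : B) : |T.indicator (1 : B → ℝ) x| ≤ 1 := by
  by_cases h : x ∈ T <;> simp [h]

end A56

open A56

theorem absStmt (h1 : OneStmt.{u, v, w}) (h2 : OrthStmt.{u, v, w}) : AbsStmt.{u, v, w} := by
  classical
  intro S h T _ _ At hL I _ g z₀ hA hC
  have := h.haar
  have : LocallyCompactSpace (Mt S.d S.F) :=
    inferInstanceAs (LocallyCompactSpace (Fin S.d → Fin S.d → S.F))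
  choose e E he hE hi using fun j => exists_ap h (g j)
  choose U hU hch using fun j => (hC j).ch
  have hV : (⋂ j, U j ∩ {z | Dom S.O S.π (S.ap₀ (g j) z.2)}) ∈ 𝓝 z₀ := iInter_mem.2 fun j =>
    inter_mem (hU j) (((dom_open h.lf S.d).preimage (f := fun z : S.Z => S.ap₀ (g j) z.2)
      (by simp only [Sys.ap₀]; fun_prop)).mem_nhds (hC j).dom)
  obtain ⟨β, b1, b2, b3, b4⟩ := exists_continuousMap_one_of_isCompact_subset_isOpen
    isCompact_singleton isOpen_interior (Set.singleton_subset_iff.2 (mem_interior_iff_mem_nhds.2 hV))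
  replace b3 := fun z (hz : z ∈ tsupport β) j => Set.mem_iInter.1 (interior_subset (b3 hz)) j
  have b0 : β z₀ ≠ 0 := by rw [b1 rfl]; exact one_ne_zero
  have cβ : Cc β := ⟨β.continuous, b2⟩
  have cc : ∀ H : S.Z ≃ₜ S.Z, Cc fun z => β (H z) := fun H =>
    ⟨β.continuous.comp H.continuous, cβ.2.comp_homeomorph H⟩
  let Dn : ℕ → ℝ := fun R => ∫ z, β (S.sc R z) ∂S.lam
  have hD : ∀ R, 0 < Dn R := fun R =>
    (cc (S.sc R).toHomeomorph).1.integral_pos_of_hasCompactSupport_nonneg_nonzero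
      (cc (S.sc R).toHomeomorph).2 (fun z => (b4 _).1) (x := (S.sc R).symm z₀) (by simpa using b0)
  let W : ℕ × ℝ → S.X → ℝ := fun p a => S.w p.2 a * β (S.pos p.1 a) / Dn p.1
  have hW : ∀ p (f : S.X → ℝ), ∑' a, W p a * f a =
      (∑' a : S.X, S.w p.2 a * β (S.pos p.1 a) * f a) / Dn p.1 := fun p f => by
    simp only [W, ← tsum_div_const, div_mul_eq_mul_div]
  obtain ⟨P, p1, hP⟩ := exists_mean (atTop.curry (𝓝[>] (1 : ℝ))) (fun a : S.X => (a : S.B)) W
    (fun p a => div_nonneg (mul_nonneg (h.w_nonneg _ _) (b4 _).1) (hD _).le)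
    (eventually_curry_iff.2 (.of_forall fun R => eventually_mem_nhdsWithin.mono fun s hs =>
      (h.w_sum _ (cc (S.sc R).toHomeomorph) s hs).div_const _))
    (tendsto_curry (.of_forall fun R => by
      have := (h.w_eq _ (cc (S.sc R).toHomeomorph)).div_const (Dn R)
      rw [show (∫ z, β ((S.sc R).toHomeomorph z) ∂S.lam) / Dn R = 1 from div_self (hD R).ne'] at this
      simp only [W, tsum_div_const]
      exact this))
  refine ⟨P, fun T => (hP _ ⟨1, bd_ind T⟩).1 (Set.indicator_nonneg fun _ _ => zero_le_one), p1,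
    (hP _ ⟨1, bd_ind _⟩).2 (tendsto_curry ?_), fun j q f hf => ?_, fun i j hd φ χ hφ => ?_⟩
  · filter_upwards [eventually_all.2 hch] with R hR
    refine tendsto_const_nhds.congr fun s => (tsum_zero.symm.trans (tsum_congr fun a => ?_))
    by_cases h0 : β (S.pos R a) = 0
    · simp [W, h0]
    rw [Set.indicator_of_notMem, mul_zero]
    refine not_not.2 ⟨a.2, fun j => ?_⟩
    rw [← he]
    exact mem_of_ch h _ (hi j a ▸ hR j _ _ (b3 _ (subset_tsupport _ h0) j).1 (hE j _).1 (hE j _).2)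
  · rw [← sub_eq_zero, ← map_sub]
    refine (hP _ ⟨1 + 1, fun x => (abs_sub _ _).trans (add_le_add (bd_ind _ x) (bd_ind _ x))⟩).2
      (tendsto_curry ?_)
    filter_upwards [hch j] with R hR
    have := (h1 S h _ (cc ((E j).symm.trans (S.sc R).toHomeomorph)) (fun z hz => ?_) q f hf).div_const
      (Dn R)
    · rw [zero_div] at this
      refine this.congr fun s => ?_
      rw [hW, ← (e j).tsum_eq]
      simp only [hi, he, (hA j).w_ap, Homeomorph.trans_apply, Homeomorph.symm_apply_apply,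
        Set.indicator_apply, Set.mem_ofPred_eq, Pi.one_apply]
      rfl
    · have h3 := tsupport_comp_subset_preimage β
        ((E j).symm.trans (S.sc R).toHomeomorph).continuous hz
      exact (E j).apply_symm_apply z ▸ hR _ _ (b3 _ h3 j).1 (hE j _).1 (hE j _).2
  · obtain ⟨C, hC⟩ := (Set.finite_range fun p : T × T => |φ p.1 * χ p.2|).bddAbove
    refine (hP _ ⟨C, fun x => hC ⟨(_, _), rfl⟩⟩).2 (Metric.tendsto_nhds.2 fun ε hε => ?_)
    refine eventually_curry_iff.2 ((h2 S h T At hL _ _ (hA i) (hA j) hd φ χ hφ β cβ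
      (fun z hz => (b3 z hz i).2) β cβ (fun z => (b4 z).1) (fun h0 => b0 (congrFun h0 z₀)) (ε / 2)
      (half_pos hε)).mono fun R hR => hR.mono fun s hs => ?_)
    rw [dist_zero_right, hW, Real.norm_eq_abs, abs_div, abs_of_pos (hD R), div_lt_iff₀ (hD R)]
    exact hs.trans_lt (mul_lt_mul_of_pos_right (half_lt_self hε) (hD R))

end Crest.Agent.T24.Na
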