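import Crest.Agent.T24.NaInstDef_3
import Crest.Agent.T24.LocM_59
import Crest.Agent.T24.TLink_31

/-!
# Row 24, module NA: central `S`-units of infinite order, and the Cayley chart.
-/

set_option autoImplicit false
set_option linter.unusedSectionVars false

noncomputable section

namespace Crest.Agent.T24.Na

namespace C86

open Module NumberField IsDedekindDomain WithZero Csa Asa
open scoped NumberField nonZeroDivisors

/-- in an Artinian ring, `h - z i` is a unit for almost all members of a separated central family -/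
theorem fin_nonunit {C ι : Type*} [Ring C] [IsArtinianRing C] (h : C) (z : ι → C)
    (hc : ∀ i x, z i * x = x * z i) (hu : ∀ i j, i ≠ j → IsUnit (z i - z j)) :
    {i | ¬ IsUnit (h - z i)}.Finite := by
  classical
  let N : ι → Submodule C C := fun i => LinearMap.ker (LinearMap.toSpanSingleton C C (h - z i))
  have hN : ∀ i x, x ∈ N i ↔ x * h = x * z i := fun i x => by
    simp [N, mul_sub, sub_eq_zero]
  have st : ∀ i a, ∀ x ∈ N i, LinearMap.toSpanSingleton C C (h - z a) x = (z i - z a) • x :=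
    fun i a x hx => by
      rw [LinearMap.toSpanSingleton_apply, smul_eq_mul, smul_eq_mul, mul_sub, (hN _ _).1 hx,
        sub_mul, hc, hc]
  have key : ∀ (i : ι) (s : Finset ι), i ∉ s → ∀ x ∈ N i, x ∈ ⨆ j ∈ s, N j → x = 0 := by
    intro i s
    induction s using Finset.induction_on with
    | empty => intro _ x _ hx; simpa using hx
    | insert a s ha ih =>
      intro hi x hx hx'
      rw [Finset.iSup_insert, Submodule.mem_sup] at hx'
      obtain ⟨y, hy, y', hy', e⟩ := hx'
      rw [Finset.mem_insert, not_or] at hi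
      have h1 : (⨆ j ∈ s, N j) ≤ (⨆ j ∈ s, N j).comap (LinearMap.toSpanSingleton C C (h - z a)) :=
        iSup₂_le fun j hj t ht => (le_iSup₂_of_le j hj le_rfl : N j ≤ ⨆ j ∈ s, N j)
          (by rw [st j a t ht]; exact (N j).smul_mem _ ht)
      have h2 := ih hi.2 ((z i - z a) • x) ((N i).smul_mem _ hx) (by
        rw [← st i a x hx, ← e, map_add, show LinearMap.toSpanSingleton C C (h - z a) y = 0 from hy,
          zero_add]
        exact h1 hy')
      exact (hu i a hi.1).mul_right_eq_zero.1 h2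
  have ind : iSupIndep N := by
    intro i
    rw [Submodule.disjoint_def]
    intro x hx hx'
    obtain ⟨s, hs⟩ := Submodule.mem_iSup_iff_exists_finset.1 hx'
    refine key i (s.erase i) (Finset.notMem_erase i s) x hx ?_
    refine (iSup₂_le fun j hj => iSup_le fun hji => ?_ : _ ≤ ⨆ j ∈ s.erase i, N j) hs
    exact le_iSup₂_of_le j (Finset.mem_erase.2 ⟨hji, hj⟩) le_rfl
  refine (WellFoundedLT.finite_ne_bot_of_iSupIndep ind).subset fun i hi h0 => hi ?_
  rw [IsArtinianRing.isUnit_iff_isRightRegular]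
  exact LinearMap.ker_eq_bot.1 h0

section
variable {K : Type*} [Field K] [NumberField K]

/-- a generator of a power of a prime -/
theorem exists_gen (w₀ : Pl K) : ∃ p : 𝓞 K, p ≠ 0 ∧ w₀.valuation K (p : K) < 1 ∧
    ∀ w : Pl K, w ≠ w₀ → w.valuation K (p : K) = 1 := by
  have h0 : w₀.asIdeal ∈ (Ideal (𝓞 K))⁰ := mem_nonZeroDivisors_of_ne_zero w₀.ne_bot
  have h1 := (ClassGroup.mk0_eq_one_iff (pow_mem h0 (Fintype.card (ClassGroup (𝓞 K))))).1 (by
    rw [← SubmonoidClass.mk_pow _ h0, map_pow, pow_card_eq_one])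
  obtain ⟨p, hp⟩ := h1
  have hp' : w₀.asIdeal ^ Fintype.card (ClassGroup (𝓞 K)) = Ideal.span {p} := hp
  have hm : ∀ w : Pl K, p ∈ w.asIdeal ↔ w = w₀ := fun w => by
    rw [← Ideal.span_singleton_le_iff_mem, ← hp',
      w.isPrime.pow_le_iff Fintype.card_ne_zero]
    exact ⟨fun h => (HeightOneSpectrum.ext (w₀.isMaximal.eq_of_le w.isPrime.ne_top h)).symm,
      fun h => h ▸ le_rfl⟩
  refine ⟨p, fun h => pow_ne_zero _ w₀.ne_bot (hp'.trans (by simp [h])),
    (w₀.valuation_lt_one_iff_mem p).2 ((hm _).2 rfl),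
    fun w hw => (w.valuation_eq_one_iff_notMem (K := K)).2 (mt (hm w).1 hw)⟩

/-- a power of two units at `S` is near `1` at `S` -/
theorem exists_pow (S : Finset (Pl K)) (m : ℕ) (p q : 𝓞 K)
    (hp : ∀ w ∈ S, w.valuation K (p : K) = 1) (hq : ∀ w ∈ S, w.valuation K (q : K) = 1) :
    ∃ e : ℕ, e ≠ 0 ∧ ∀ w ∈ S, w.valuation K (((p : K) / q) ^ e - 1) ≤ exp (-(m : ℤ)) := by
  obtain ⟨c, hc0, hc⟩ := exists_deep S m
  have : Finite (𝓞 K ⧸ Ideal.span {c}) := Ideal.finiteQuotientOfFreeOfNeBot _ (by simpa using hc0)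
  let f : ℕ → (𝓞 K ⧸ Ideal.span {c}) × (𝓞 K ⧸ Ideal.span {c}) :=
    fun n => (Ideal.Quotient.mk _ (p ^ n), Ideal.Quotient.mk _ (q ^ n))
  obtain ⟨i, j, hij, e⟩ := Set.Finite.exists_lt_map_eq_of_forall_mem (f := f)
    (fun _ => Set.mem_univ _) Set.finite_univ
  obtain ⟨n, rfl⟩ := Nat.exists_eq_add_of_lt hij
  refine ⟨n + 1, n.succ_ne_zero, fun w hw => ?_⟩
  have key : ∀ x : 𝓞 K, w.valuation K (x : K) = 1 →
      Ideal.Quotient.mk (Ideal.span {c}) (x ^ i) = Ideal.Quotient.mk _ (x ^ (i + n + 1)) →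
      w.valuation K ((x : K) ^ (n + 1) - 1) ≤ exp (-(m : ℤ)) := fun x hx h => by
    obtain ⟨a, ha⟩ := Ideal.mem_span_singleton'.1 (Ideal.Quotient.eq.1 h.symm)
    have h1 : (a : K) * c = (x : K) ^ i * ((x : K) ^ (n + 1) - 1) := by
      have := congrArg (fun y : 𝓞 K => (y : K)) ha
      push_cast at this
      rw [this]; ring
    have h2 := congrArg (w.valuation K) h1
    rw [map_mul, map_mul, map_pow, hx, one_pow, one_mul] at h2
    rw [← h2]
    exact (mul_le_of_le_one_left' (val_int w a)).trans (hc w hw)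
  have hq0 : (q : K) ≠ 0 := fun h => by simpa [h] using hq w hw
  have h3 : ((p : K) / q) ^ (n + 1) - 1 =
      (((p : K) ^ (n + 1) - 1) - ((q : K) ^ (n + 1) - 1)) / (q : K) ^ (n + 1) := by
    rw [div_pow, sub_sub_sub_cancel_right, sub_div, div_self (pow_ne_zero _ hq0)]
  rw [h3, map_div₀, map_pow, hq w hw, one_pow, div_one]
  exact Valuation.map_sub_le _ (key p (hp w hw) (congrArg Prod.fst e))
    (key q (hq w hw) (congrArg Prod.snd e))

end

variable {k K B : Type*} [Field k] [NumberField k] [Field K] [NumberField K] [Algebra k K]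
  [StarRing K] [Quad k K] [Ring B] [StarRing B] [Algebra K B] [StarModule K B]
  [Algebra.IsCentral K B] [IsSimpleRing B] [FiniteDimensional K B] [Algebra k B]
  [IsScalarTower k K B]

theorem exists_above (v : Pl k) : ∃ w : Pl K, below k w = v := by
  have := v.isMaximal
  obtain ⟨Q, h1, h2⟩ := Ideal.exists_maximal_ideal_liesOver_of_isIntegral (S := 𝓞 K) v.asIdeal
  exact ⟨⟨Q, h1.isPrime, Ideal.ne_bot_of_liesOver_of_ne_bot v.ne_bot Q⟩,
    HeightOneSpectrum.ext h2.over.symm⟩

theorem below_conj {w w' : Pl K} (h : ∀ x, w'.valuation K x = w.valuation K (star x)) :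
    below k w' = below k w :=
  HeightOneSpectrum.ext (Ideal.ext fun a => by
    rw [← HeightOneSpectrum.valuation_lt_one_iff_mem (K := k),
      ← HeightOneSpectrum.valuation_lt_one_iff_mem (K := k), ← below_lt_one, ← below_lt_one, h,
      Quad.star_k])

/-- a norm one element of infinite order, integral off `v₀` and near `1` at `S` -/
theorem exists_zeta {v₀ : Pl k} (i : K →ₐ[k] Kv v₀) (S : Finset (Pl K))
    (hS : ∀ w ∈ S, below k w ≠ v₀) (m : ℕ) : ∃ ζ : K, star ζ * ζ = 1 ∧
      Function.Injective (fun n : ℕ => ζ ^ n) ∧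
      (∀ w ∈ S, w.valuation K (ζ - 1) ≤ exp (-(m : ℤ))) ∧
      ∃ (c : k) (a : 𝓞 K), ζ = c • (a : K) ∧ ∀ v ≠ v₀, v.valuation k c ≤ 1 := by
  obtain ⟨w₀, rfl, ⟨x, hx⟩, -⟩ := Loc.place_of_hom i
  obtain ⟨p, hp0, hp1, hp⟩ := exists_gen w₀
  let q : 𝓞 K := RingOfIntegers.mapRingEquiv (starRingAut : RingAut K) p
  have hq : (q : K) = star (p : K) := rfl
  have hp0' : (p : K) ≠ 0 := by simpa using hp0
  have hq0 : (q : K) ≠ 0 := by rw [hq]; simpa using hp0'
  have h1 : ∀ w : Pl K, below k w ≠ below k w₀ → w.valuation K (p : K) = 1 :=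
    fun w hw => hp w (mt (congrArg _) hw)
  have h2 : ∀ w : Pl K, below k w ≠ below k w₀ → w.valuation K (q : K) = 1 := fun w hw => by
    obtain ⟨w', h⟩ := Loc.exists_conj_place (starRingAut : RingAut K) w
    exact (h _).symm.trans (h1 w' (by rwa [below_conj (k := k) h]))
  have h3 : w₀.valuation K (q : K) = 1 := by
    obtain ⟨w', h⟩ := Loc.exists_conj_place (starRingAut : RingAut K) w₀
    exact (h _).symm.trans (hp w' fun e => hx (by subst e; exact (h x).symm))
  obtain ⟨e, he, h4⟩ := exists_pow S m p q (fun w hw => h1 w (hS w hw)) fun w hw => h2 w (hS w hw)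
  obtain ⟨c, hc⟩ := fixed (Quad.fr (k := k)) (sig_ne k K) (x := (p : K) * q)
    (by rw [sig_apply, hq, star_mul, star_star])
  refine ⟨((p : K) / q) ^ e, ?_, fun a b hab => ?_, h4, c⁻¹ ^ e, (p * p) ^ e, ?_, fun v hv => ?_⟩
  · rw [star_pow, ← mul_pow, star_div₀, ← hq, hq, star_star, ← hq, div_mul_div_cancel₀ hp0',
      div_self hq0, one_pow]
  · have h5 : w₀.valuation K (((p : K) / q) ^ e) < 1 := by
      rw [map_pow, map_div₀, h3, div_one]; exact pow_lt_one₀ zero_le hp1 he
    have h6 : 0 < w₀.valuation K (((p : K) / q) ^ e) :=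
      zero_lt_iff.2 (val_ne_zero _ (pow_ne_zero _ (div_ne_zero hp0' hq0)))
    have h7 := congrArg (w₀.valuation K) hab
    simp only [map_pow (w₀.valuation K) (_ ^ e)] at h7
    exact pow_right_injective₀ h6 h5.ne h7
  · rw [Algebra.smul_def, map_pow, map_inv₀, hc]
    push_cast
    rw [← mul_pow]; congr 1; field_simp
  · obtain ⟨w, rfl⟩ := exists_above (K := K) v
    have : (below k w).valuation k c = 1 := by
      rw [← below_eq_one, hc, map_mul, h1 w hv, h2 w hv, one_mul]
    rw [map_pow, map_inv₀, this, inv_one, one_pow]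

instance : IsArtinianRing (Inf k) := .of_finite ℝ _

instance {R : Type*} [CommRing R] [Algebra k R] [IsArtinianRing R] :
    IsArtinianRing (BC k K B R) := .of_finite R _

/-- the Cayley chart: a central element of the arithmetic group removes the eigenvalue `1` -/
theorem chart (hd : 2 ≤ deg K B) (Λ : Ord K B) {v₀ : Pl k} (s : Spl K B v₀) (m : ℕ)
    (S : Finset (Pl k)) (g : AS k K B S) (h : Matrix (Fin (deg K B)) (Fin (deg K B)) (Kv v₀)) :
    ∃ u : unitary B, u ∈ Um K B m ∧ (∀ S' : Finset (Pl k), v₀ ∈ S' → u ∈ Λ.GamU S') ∧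
      IsUnit (jA k K B S u * g - 1) ∧ IsUnit (s.ψ u * h - 1) := by
  obtain ⟨ζ, h1, h2, h3, c, a, h4, h5⟩ := exists_zeta s.ι (Loc.finite_TT hd).toFinset
    (fun w hw e => s.notMem_Tk hd ⟨w, by simpa using hw, e⟩) (m + 1)
  let u : unitary B := ⟨algebraMap K B ζ, by
    constructor <;> rw [star_algebraMap, ← map_mul] <;> simp [h1, mul_comm ζ]⟩
  have hU : u ∈ Um K B m := fun w hw => by
    have : (u : B) - 1 = algebraMap K B (ζ - 1) := by simp [u]
    have h6 := h3 w (by simpa using hw)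
    rw [this, val, Nrd_algebraMap, map_pow]
    refine (pow_le_of_le_one zero_le (h6.trans (exp_neg_le_one _)) (by omega)).trans_lt
      (h6.trans_lt ?_)
    rw [exp_lt_exp]; push_cast; omega
  have hG : ∀ S' : Finset (Pl k), v₀ ∈ S' → u ∈ Λ.GamU S' := fun S' hS' =>
    Ord.mem_Off.2 fun v hv => by
      have : (u : B) = c • algebraMap K B a := by
        rw [← algebraMap_smul K, Algebra.smul_def, ← map_mul, ← Algebra.smul_def, ← h4]
      rw [this]
      exact Λ.smul_mem_At (h5 v fun e => hv (e ▸ hS')) (Λ.le_At v (Λ.int a))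
  let φ : B →+* AS k K B S × Matrix (Fin (deg K B)) (Fin (deg K B)) (Kv v₀) :=
    (jA k K B S).prod s.ψ
  have hc : ∀ (t : K) x, φ (algebraMap K B t) * x = x * φ (algebraMap K B t) := fun t x =>
    Prod.ext (Prod.ext (BC.cen_comm k K B _ (BC.inc k K K _ t) x.1.1)
      (funext fun v => BC.cen_comm k K B _ (BC.inc k K K _ t) (x.1.2 v)))
      (by simp [φ, s.compat, Algebra.commutes])
  obtain ⟨n, hn⟩ := (fin_nonunit (g, h) (fun n : ℕ => φ (algebraMap K B (ζ ^ n)⁻¹))
    (fun n => hc _) fun i j hij => by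
      rw [← map_sub, ← map_sub]
      exact ((IsUnit.mk0 _ (sub_ne_zero.2 fun e => hij (h2 (inv_injective e)))).map _).map _
    ).exists_notMem
  have h0 : ζ ^ n ≠ 0 := pow_ne_zero _ (right_ne_zero_of_mul_eq_one h1)
  have h7 : IsUnit (φ (u ^ n : unitary B) * (g, h) - 1) := by
    have e : ((u ^ n : unitary B) : B) = algebraMap K B (ζ ^ n) := by simp [u]
    have := (((IsUnit.mk0 _ h0).map (algebraMap K B)).map φ).mul (not_not.1 hn)
    rwa [mul_sub, ← map_mul, ← map_mul, mul_inv_cancel₀ h0, map_one, map_one, ← e] at this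
  exact ⟨u ^ n, pow_mem hU n, fun S' hS' => pow_mem (hG S' hS') n,
    h7.map (RingHom.fst _ _), h7.map (RingHom.snd _ _)⟩

end C86

universe u v w

/-- (f) -/
theorem iChartStmt : IChartStmt.{u, v, w} := fun D _ I h _ _ g => by
  obtain ⟨u, h1, h2, h3⟩ := C86.chart (le_trans (by norm_num) h.hd) I.Λ I.s I.m I.S
    g.1.1.1 g.2.1
  exact ⟨⟨⟨u, h1⟩, h2 _ (by classical exact Finset.mem_insert_self _ _)⟩, h3⟩

end Crest.Agent.T24.Na
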