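import Crest.Agent.T24.NstK_39

/-! Row 24, module NA + TW (helper13): density of the colours in the `S`-arithmetic group. -/

set_option autoImplicit false
set_option linter.unusedSectionVars false

noncomputable section

namespace Crest.Agent.T24.Na.D13

open NumberField WithZero Csa Asa Topology Filter NstK39

variable {k K B : Type*} [Field k] [NumberField k] [Field K] [NumberField K] [Algebra k K]
  [StarRing K] [Quad k K] [Ring B] [StarRing B] [Algebra K B] [StarModule K B]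
  [Algebra.IsCentral K B] [IsSimpleRing B] [FiniteDimensional K B] [Algebra k B]
  [IsScalarTower k K B]

theorem exists_nc (hP : Pow K B) {m : ℕ} {Q : Type*} [Group Q] [Finite Q] (c : Um K B m →* Q) :
    ∃ N : Subgroup (unitary B), NC K N ∧ ∀ x ∈ N, ∃ h : x ∈ Um K B m, c ⟨x, h⟩ = 1 := by
  let H : Subgroup (unitary B) := c.ker.map (Um K B m).subtype ⊓ SU K B
  obtain ⟨-, x, hx, g, hg, hne⟩ := hP m (Nat.card Q) Nat.card_pos.ne'
  refine ⟨H.normalCore, ⟨H.normalCore_le.trans inf_le_right,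
    fun g _ x hx => H.normalCore_normal.conj_mem x hx g, _, fun b => ?_, g, hg, hne⟩,
    fun x hx => ?_⟩
  · have h1 : b * x * b⁻¹ ∈ SUm K B m := Subgroup.Normal.conj_mem inferInstance x hx b
    rw [← conj_pow]
    exact ⟨⟨⟨_, h1.2⟩ ^ Nat.card Q, by rw [SetLike.mem_coe, MonoidHom.mem_ker, map_pow,
      pow_card_eq_one'], rfl⟩, pow_mem h1.1 _⟩
  · obtain ⟨⟨y, hy, rfl⟩, -⟩ := H.normalCore_le hx
    exact ⟨y.2, hy⟩

theorem exists_depth (hT : TLink k K B) (hf : (Tk k K B).Finite)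
    (V : (v : Pl k) → Subgroup (SUc k K B (Kv v)))
    (hV : ∀ v, IsOpen (V v : Set (SUc k K B (Kv v)))) :
    ∃ m, ∀ g : SU K B, (g : unitary B) ∈ Um K B m → ∀ v ∈ Tk k K B, toG k K B (Kv v) g ∈ V v := by
  have h : ∀ v ∈ Tk k K B, ∀ᶠ m in atTop, ∀ g : SU K B, (g : unitary B) ∈ Um K B m →
      toG k K B (Kv v) g ∈ V v := fun v hv => by
    have h1 := (hV v).mem_nhds (V v).one_mem
    rw [nhds_subtype_eq_comap, nhds_subtype_eq_comap, comap_comap, mem_comap] at h1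
    obtain ⟨U, hU, hUV⟩ := h1
    obtain ⟨m, hm⟩ := (hT v hv).2.1 ((· + 1) ⁻¹' U)
      ((continuous_add_const _).continuousAt.preimage_mem_nhds (by simpa using hU))
    filter_upwards [eventually_ge_atTop m] with m' hm' g hg
    have := hm _ fun w hw _ => Um_anti hm' hg w hw
    exact hUV (by simpa using this)
  obtain ⟨m, hm⟩ := ((eventually_all_finite hf).2 h).exists
  exact ⟨m, fun g hg v hv => hm v hv g hg⟩

theorem cont_conj {R : Type*} [CommRing R] [Algebra k R] [TopologicalSpace R] [IsTopologicalRing R]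
    (r : k) (a : B) : Continuous fun y : BC k K B R =>
      r • (y * BC.inc k K B R a * star y - BC.inc k K B R a) := by
  simp only [← algebraMap_smul R r]
  fun_prop

theorem ev_At (Λ : Ord K B) (S : Finset (Pl k)) (r : k) (a : B) :
    ∃ U ∈ 𝓝 (1 : GS k K B S), ∀ g : SU K B, jS k K B S g ∈ U → ∀ v ∈ S,
      ((g : unitary B) : B) ∈ Λ.At v ∧
      r • (((g : unitary B) : B) * a * star ((g : unitary B) : B) - a) ∈ Λ.At v := by
  choose U hU hUA using fun v : Pl k => At_nhds (K := K) (B := B) Λ v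
  let ev : ∀ v : S, GS k K B S → BC k K B (Kv v.1) := fun v y => ((y.2 v : Uc k K B (Kv v.1)) : _)
  have hev : ∀ v, Continuous (ev v) := fun v => continuous_subtype_val.comp
    (continuous_subtype_val.comp ((continuous_apply v).comp continuous_snd))
  have hnb : ∀ᶠ y : GS k K B S in 𝓝 1, ∀ v : S, ev v y - 1 ∈ U v ∧
      r • (ev v y * BC.inc k K B _ a * star (ev v y) - BC.inc k K B _ a) ∈ U v := by
    refine eventually_all.2 fun v => .and ?_ ?_
    · exact ((continuous_sub_right 1).comp (hev v)).tendsto' 1 0 (by simp [ev]) (hU v)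
    · exact ((cont_conj r a).comp (hev v)).tendsto' 1 0 (by simp [ev]) (hU v)
  refine ⟨_, hnb, fun g hg v hv => ?_⟩
  obtain ⟨h2, h3⟩ := hg ⟨v, hv⟩
  have e : ev ⟨v, hv⟩ (jS k K B S g) = BC.inc k K B _ ((g : unitary B) : B) := rfl
  rw [e] at h2 h3
  rw [← map_one (BC.inc k K B (Kv v)), ← map_sub] at h2
  rw [BC.star_inc, ← map_mul, ← map_mul, ← map_sub, ← map_smul] at h3
  exact ⟨by simpa using (Λ.At v).add_mem (hUA v _ h2) (Λ.At v).one_mem, hUA v _ h3⟩

theorem ev_res {S S' : Finset (Pl k)} (h : ∀ v ∈ S, v ∈ S') {W : Set (US k K B S)} (hW : W ∈ 𝓝 1) :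
    ∃ U ∈ 𝓝 (1 : GS k K B S'), ∀ g : SU K B, jS k K B S' g ∈ U → jU k K B S g ∈ W := by
  let rs : GS k K B S' → US k K B S := fun y => (y.1, fun v => y.2 ⟨v, h v v.2⟩)
  have hrs : Continuous rs := (continuous_subtype_val.comp continuous_fst).prodMk (continuous_pi
    fun v => continuous_subtype_val.comp ((continuous_apply _).comp continuous_snd))
  exact ⟨_, (hrs.continuousAt (x := 1)).preimage_mem_nhds hW, fun g hg => hg⟩

theorem of_closure {G H : Type*} [Group G] [Group H] [TopologicalSpace H] [IsTopologicalGroup H]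
    (j : G →* H) {T : Set G} {g : G} (h : j g⁻¹ ∈ closure (j '' T)) {U : Set H} (hU : U ∈ 𝓝 1) :
    ∃ n ∈ T, j (g * n) ∈ U := by
  have ht : Tendsto (fun y => j g * y) (𝓝 (j g⁻¹)) (𝓝 1) :=
    (continuous_const_mul (j g)).tendsto' _ _ (by rw [← map_mul, mul_inv_cancel, map_one])
  obtain ⟨_, hy, n, hn, rfl⟩ := mem_closure_iff_nhds.1 h _ (ht hU)
  exact ⟨n, hn, by rw [map_mul]; exact hy⟩

open scoped Classical in
/-- every colour of `M` is taken close to `1` in the congruence subgroups -/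
theorem dens (hP : Pow K B) (hT : TLink k K B) (hf : (Tk k K B).Finite) (hA : Sa k K B)
    (Λ : Ord K B) {v₀ : Pl k} (s : Spl K B v₀) {S : Finset (Pl k)} (hS : v₀ ∉ S) {m : ℕ}
    {Q : Type} [Group Q] [Finite Q] {c : Um K B m →* Q} {M : Subgroup Q} (hc : Col m c M) {f : Q}
    (hM : f ∈ M) (a : B) (r : k) {W : Set (US k K B S)} (hW : W ∈ 𝓝 1) :
    ∃ γ : Um K B m, (γ : unitary B) ∈ SU K B ∧ (γ : unitary B) ∈ Λ.GamU (insert v₀ S) ∧
      jU k K B S γ ∈ W ∧ c γ = f ∧ r • (((γ : unitary B) : B) * a * star ((γ : unitary B) : B) - a) ∈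
        Λ.Off (insert v₀ S) := by
  obtain ⟨N, hN, hNc⟩ := exists_nc hP c
  obtain ⟨V, hVo, hV, hcl⟩ := hA N hN Λ v₀ ⟨s⟩
  obtain ⟨m', hm'⟩ := exists_depth hT hf V hVo
  obtain ⟨⟨g, hgm⟩, hg, rfl⟩ := (hc.im _ (le_max_left m m')).ge hM
  have hg1 : g ∈ SU K B := hg.1
  have hg2 : g ∈ Um K B m' := Um_anti (le_max_right m m') hg.2
  obtain ⟨S', h0, hSS, hS'⟩ : ∃ S' : Finset (Pl k), v₀ ∉ S' ∧ (∀ v ∈ S, v ∈ S') ∧
      ∀ v ∉ S', v ≠ v₀ → (g : B) ∈ Λ.At v ∧ r • a ∈ Λ.At v :=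
    ⟨(S ∪ (finite_not_At (k := k) Λ (g : B)).toFinset ∪
      (finite_not_At (k := k) Λ (r • a)).toFinset).erase v₀, Finset.notMem_erase _ _,
      fun v hv => Finset.mem_erase.2
        ⟨fun h => hS (h ▸ hv), Finset.mem_union_left _ (Finset.mem_union_left _ hv)⟩,
      fun v hv h => by
        simp only [Finset.mem_erase, Finset.mem_union, Set.Finite.mem_toFinset, Set.mem_ofPred_eq,
          ne_eq, h, not_false_eq_true, true_and, not_or, not_not] at hv
        exact ⟨hv.1.2, hv.2⟩⟩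
  have h2 : ∀ v, toG k K B (Kv v) (⟨g, hg1⟩ : SU K B)⁻¹ ∈ V v := fun v => by
    by_cases hv : v ∈ Tk k K B
    · exact hm' (⟨g, hg1⟩ : SU K B)⁻¹ (show g⁻¹ ∈ Um K B m' from inv_mem hg2) v hv
    · rw [hV v hv]; trivial
  have h1 := hcl S' h0 (jS k K B S' (⟨g, hg1⟩ : SU K B)⁻¹) fun v => h2 v
  obtain ⟨U, hU, hUA⟩ := ev_At Λ S' r a
  obtain ⟨U', hU', hUW⟩ := ev_res hSS hW
  obtain ⟨n, ⟨hn1, hn2⟩, hy, hy'⟩ := of_closure _ h1 (inter_mem hU hU')
  obtain ⟨hnm, hnc⟩ := hNc n hn2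
  have key : ∀ v ∉ insert v₀ S, ((g * n : unitary B) : B) ∈ Λ.At v ∧
      r • (((g * n : unitary B) : B) * a * star ((g * n : unitary B) : B) - a) ∈ Λ.At v := by
    intro v hv
    rw [Finset.mem_insert, not_or] at hv
    by_cases hv' : v ∈ S'
    · exact hUA _ hy v hv'
    · obtain ⟨h1, h2⟩ := hS' v hv' hv.1
      have h3 : ((g * n : unitary B) : B) ∈ Λ.At v :=
        (Λ.At v).mul_mem h1 (Ord.mem_Off.1 hn1 v (by simp [hv.1, hv']))
      refine ⟨h3, ?_⟩
      rw [smul_sub, ← smul_mul_assoc, ← mul_smul_comm]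
      exact sub_mem (mul_mem (mul_mem h3 h2) (Λ.star_mem_At v h3)) h2
  refine ⟨⟨g * n, mul_mem hgm hnm⟩, mul_mem hg1 n.2, Ord.mem_Off.2 fun v hv => (key v hv).1,
    hUW _ hy', ?_, Ord.mem_Off.2 fun v hv => (key v hv).2⟩
  exact (c.map_mul ⟨g, hgm⟩ ⟨n, hnm⟩).trans (by rw [hnc, mul_one])

end Crest.Agent.T24.Na.D13
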