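import Crest.Agent.T24.NaEs_24
import Crest.Agent.T24.NaD_13
import Crest.Agent.T24.TLink_31

/-! Row 24, module NA + TW (helper13): the field `dens` of the arithmetic system. -/

set_option autoImplicit false

noncomputable section

namespace Crest.Agent.T24.Na

open Module Csa Asa Filter Topology NumberField IsDedekindDomain

universe u v w

theorem iDensStmt : IDensStmt.{u, v, w} := fun D _ I h _ _ f hf a m hm W hW => by
  classical
  have hd : 2 ≤ deg D.K D.B := le_trans (by norm_num) h.hd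
  obtain ⟨U, hU, hU'⟩ := E24.near I hW
  obtain ⟨γ, p1, p2, p3, p4, p5⟩ := D13.dens (powStmt Loc.valStmt Loc.cofStmt D hd)
    (tLinkStmt D hd) (I.S.finite_toSet.subset h.T_sub) h.sa I.Λ I.s h.v0 h.col hf (a : D.B)
    (m : D.k)⁻¹ hU
  obtain ⟨q1, q2⟩ := hU' γ p3
  have h1 : star ((m : D.k)⁻¹ • (((γ : unitary D.B) • a - a : selfAdjoint D.B) : D.B)) =
      (m : D.k)⁻¹ • (((γ : unitary D.B) • a - a : selfAdjoint D.B) : D.B) := by
    rw [star_ksmul D.k D.K D.B, ((γ : unitary D.B) • a - a : selfAdjoint D.B).2]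
  refine ⟨⟨γ, p2⟩, ⟨(I.s.toSL ⟨γ, p1⟩).2, q2⟩, p4, ⟨_, h1⟩, p5, Subtype.ext ?_⟩
  change _ = (a : D.B) + m • ((m : D.k)⁻¹ • (_ - (a : D.B)))
  rw [← Nat.cast_smul_eq_nsmul D.k, smul_inv_smul₀ (Nat.cast_ne_zero.2 hm), add_sub_cancel]

end Crest.Agent.T24.Na
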