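import Crest.Agent.T24.NaDef_18
import Crest.Agent.T24.BcB_98
import Crest.Agent.T24.SplEx_33
import Crest.Agent.T24.Csa4_50

/-!
# Row 24, module NA + TW (helper24): intermediate subspaces escape under the near elements
-/

set_option autoImplicit false
set_option linter.unusedSectionVars false

noncomputable section

namespace Crest.Agent.T24.Na.E24

open Module NumberField IsDedekindDomain Csa Asa Topology Filter Matrix
open scoped NumberField Valued

section Lie
variable {F n : Type*} [Field F] [CharZero F] [Fintype n] [DecidableEq n]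

theorem of_smul {W : Submodule F (Matrix n n F)} {c : F} (hc : c ≠ 0) {x : Matrix n n F}
    (h : c • x ∈ W) : x ∈ W := (W.smul_mem_iff hc).1 h

/-- Lie ideals of the matrix algebra -/
theorem lie_top (W : Submodule F (Matrix n n F))
    (h : ∀ i j, i ≠ j → ∀ x ∈ W, single i j 1 * x - x * single i j 1 ∈ W) (h1 : 1 ∈ W)
    {x : Matrix n n F} (hx : x ∈ W) (hx' : ∀ c : F, x ≠ c • 1) : W = ⊤ := by
  have r1 : ∀ a b, a ≠ b → single a b (1 : F) ∈ W → single b b 1 - single a a (1 : F) ∈ W :=
    fun a b hab H => by simpa using h b a hab.symm _ H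
  have r2 : ∀ a b, a ≠ b → single a b (1 : F) ∈ W → single b a (1 : F) ∈ W := fun a b hab H => by
    refine of_smul (c := -2) (by norm_num) ?_
    convert h b a hab.symm _ (r1 a b hab H) using 1
    simp only [mul_sub, sub_mul, single_mul_single_same, mul_one, single_mul_single_of_ne _ _ _ _ hab]
    module
  have r3 : ∀ a b c, c ≠ a → c ≠ b → single a b (1 : F) ∈ W → single c b (1 : F) ∈ W :=
    fun a b c h1 h2 H => by simpa [single_mul_single_of_ne _ _ _ _ h2.symm] using h c a h1 _ H
  have r4 : ∀ a b, a ≠ b → single a b (1 : F) ∈ W → ∀ c d, c ≠ d → single c d (1 : F) ∈ W := by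
    intro a b hab H c d hcd
    obtain ⟨y, hy⟩ : ∃ y, single y d (1 : F) ∈ W := by
      by_cases h1 : d = b
      · exact ⟨a, h1 ▸ H⟩
      by_cases h2 : d = a
      · exact ⟨b, h2 ▸ r2 a b hab H⟩
      exact ⟨b, r2 d b h1 (r3 a b d h2 h1 H)⟩
    by_cases h3 : c = y
    · exact h3 ▸ hy
    exact r3 y d c h3 hcd hy
  have r5 : ∀ c d, c ≠ d → single c d (1 : F) ∈ W := by
    intro c d hcd
    by_contra hn
    have hn' : ∀ a b, a ≠ b → single a b (1 : F) ∉ W := fun a b hab H => hn (r4 a b hab H c d hcd)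
    have off : ∀ a b, a ≠ b → x b a = 0 := fun a b hab => by
      by_contra h0
      refine hn' a b hab (of_smul (c := -2 * x b a) (by simpa using h0) ?_)
      convert h a b hab _ (h a b hab x hx) using 1
      have e1 : single a b (1 : F) * single a b 1 = 0 := single_mul_single_of_ne _ _ _ _ hab.symm _
      have e2 : single a b (1 : F) * x * single a b 1 = x b a • single a b 1 := by
        rw [single_mul_mul_single]; simp
      rw [mul_sub, sub_mul, ← mul_assoc, ← mul_assoc, e1, mul_assoc x, e1, e2, zero_mul, mul_zero]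
      module
    have dia : ∀ a b, x a a = x b b := fun a b => by
      by_contra h0
      have hab : a ≠ b := fun e => h0 (e ▸ rfl)
      refine hn' a b hab (of_smul (c := x b b - x a a) (sub_ne_zero.2 (Ne.symm h0)) ?_)
      convert h a b hab x hx using 1
      ext i j
      by_cases hi : i = a <;> by_cases hj : j = b
      · subst hi hj; simp
      · subst hi; simp [hj, Ne.symm hj, off j b hj]
      · subst hj; simp [hi, Ne.symm hi, off a i (Ne.symm hi)]
      · simp [hi, hj, Ne.symm hi]
    refine hx' (x c c) ?_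
    ext i j
    by_cases hij : i = j
    · subst hij; simp [dia i c]
    · simp [hij, off j i (Ne.symm hij)]
  have r6 : ∀ c, single c c (1 : F) ∈ W := fun c => by
    have : Nonempty n := ⟨c⟩
    refine of_smul (c := (Fintype.card n : F)) (Nat.cast_ne_zero.2 Fintype.card_ne_zero) ?_
    have h2 : ∑ d, (single c c 1 - single d d (1 : F)) ∈ W := W.sum_mem fun d _ => by
      by_cases hd : d = c
      · simp [hd]
      · exact r1 d c hd (r5 d c hd)
    convert W.add_mem h2 h1 using 1
    rw [Finset.sum_sub_distrib, sum_single_one, sub_add_cancel, Finset.sum_const,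
      Nat.cast_smul_eq_nsmul, Finset.card_univ]
  refine eq_top_iff.2 fun y _ => ?_
  rw [matrix_eq_sum_single y]
  refine W.sum_mem fun i _ => W.sum_mem fun j _ => ?_
  rw [← mul_one (y i j), ← smul_eq_mul, ← smul_single]
  refine W.smul_mem _ ?_
  by_cases hij : i = j
  · exact hij ▸ r6 i
  · exact r5 i j hij

theorem tv_pow {i j : n} (h : i ≠ j) (b : F) (N : ℕ) :
    SpecialLinearGroup.transvection h b ^ N = SpecialLinearGroup.transvection h (N * b) := by
  induction N with
  | zero => simp
  | succ N ih => rw [pow_succ, ih, ← SpecialLinearGroup.transvection_add]; congr 1; push_cast; ring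

theorem lie_of_tv {W : Submodule F (Matrix n n F)} {i j : n} (h : i ≠ j) {N : ℕ} (hN : N ≠ 0)
    {x : Matrix n n F} (H : ∀ b : F, b = 1 ∨ b = -1 →
      (SpecialLinearGroup.transvection h b ^ N).1 * x *
        ((SpecialLinearGroup.transvection h b ^ N)⁻¹).1 ∈ W) :
    single i j 1 * x - x * single i j 1 ∈ W := by
  have h1 := W.sub_mem (H 1 (.inl rfl)) (H (-1) (.inr rfl))
  simp only [tv_pow, SpecialLinearGroup.transvection_inv] at h1
  refine of_smul (c := (2 * N : F)) (by simpa using hN) ?_
  convert h1 using 1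
  have e : ∀ b : F, (SpecialLinearGroup.transvection h b).1 = 1 + b • single i j 1 := fun b => by
    rw [smul_single, smul_eq_mul, mul_one]; rfl
  simp only [e, mul_add, add_mul, mul_one, one_mul, mul_smul_comm, smul_mul_assoc]
  module

end Lie

theorem pigeon {G Y : Type*} [Group G] [MulAction G Y] {Φ : Set Y} (hΦ : Φ.Finite) (g : G) (y : Y)
    (h : ∀ i ≤ hΦ.toFinset.card, (g ^ i)⁻¹ • y ∈ Φ) : g ^ hΦ.toFinset.card.factorial • y = y := by
  have key : ∀ i j, i < j → j ≤ hΦ.toFinset.card → (g ^ i)⁻¹ • y = (g ^ j)⁻¹ • y →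
      g ^ hΦ.toFinset.card.factorial • y = y := fun i j hij hj e => by
    have h1 : g ^ (j - i) ∈ MulAction.stabilizer G y := by
      rw [MulAction.mem_stabilizer_iff, pow_sub _ hij.le, mul_smul, e, smul_inv_smul]
    obtain ⟨q, hq⟩ := Nat.dvd_factorial (Nat.sub_pos_of_lt hij) ((Nat.sub_le j i).trans hj)
    rw [hq, pow_mul]
    exact pow_mem h1 q
  obtain ⟨i, hi, j, hj, hij, e⟩ := Finset.exists_ne_map_eq_of_card_lt_of_maps_to
    (s := Finset.range (hΦ.toFinset.card + 1)) (t := hΦ.toFinset) (f := fun i => (g ^ i)⁻¹ • y)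
    (by simp) fun i hi => by simpa using h i (by simpa [Nat.lt_succ_iff] using hi)
  rw [Finset.mem_range, Nat.lt_succ_iff] at hi hj
  rcases lt_or_gt_of_ne hij with h' | h'
  · exact key i j h' hj e
  · exact key j i h' hi e.symm

/-- conjugation of subspaces is an action -/
@[reducible] def cjA (k R : Type*) [Field k] [Ring R] [StarRing R] [Algebra k R] :
    MulAction (unitary R) (Submodule k R) where
  smul := cjV
  one_smul V := by
    change cjV 1 V = V
    ext x; simp [cjV]
  mul_smul g h V := by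
    change cjV (g * h) V = cjV g (cjV h V)
    rw [cjV, cjV, cjV, ← Submodule.map_comp]; congr 1; ext; simp [mul_assoc]

variable {k K B : Type*} [Field k] [NumberField k] [Field K] [NumberField K] [Algebra k K]
  [StarRing K] [Quad k K] [Ring B] [StarRing B] [Algebra K B] [StarModule K B]
  [Algebra.IsCentral K B] [IsSimpleRing B] [FiniteDimensional K B] [Algebra k B]
  [IsScalarTower k K B]

open scoped Classical in
/-- an intermediate subspace has infinitely many conjugates under the near elements -/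
theorem core (hA : Sa k K B) (hP : Pow K B) (hT : (Tk k K B).Finite) (Λ : Ord K B)
    (S : Finset (Pl k)) {v₀ : Pl k} (hv₀ : v₀ ∉ S) (s₀ : Nonempty (Spl K B v₀)) (V : Submodule k B)
    (h1 : ∀ y ∈ V, star y = y) (h2 : 1 ∈ V) (h3 : ∃ y ∈ V, ∀ r : k, y ≠ r • 1)
    (h4 : ∃ y, star y = y ∧ y ∉ V) {U : Set (GS k K B S)} (hU : U ∈ 𝓝 (1 : GS k K B S)) :
    {V' | ∃ γ ∈ Λ.Gam (insert v₀ S), jS k K B S γ ∈ U ∧ cjV (γ : unitary B) V' = V}.Infinite := by
  intro hΦ
  let := cjA k B
  have := finite_kB k K B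
  set N := hΦ.toFinset.card with hN
  obtain ⟨v₁, hv₁, s, hs⟩ := (SplE.splEx k K B).2 Λ (insert v₀ S ∪ hT.toFinset)
  rw [Finset.mem_union, not_or, Finset.mem_insert, not_or] at hv₁
  obtain ⟨e, he⟩ := splIso k K B v₁ s
  have : CharZero (Kv v₁) := algebraRat.charZero _
  have : Nonempty (Fin (deg K B)) := ⟨⟨0, deg_pos K B⟩⟩
  obtain ⟨x, hx₀, g, hg, hxg⟩ := (hP 0 1 one_ne_zero).2
  obtain ⟨V₀, -, hVt, hcl⟩ := hA (SU K B) ⟨le_rfl, fun g hg x hx => mul_mem (mul_mem hg hx) (inv_mem hg),
    x, hx₀.1, g, hg, by simpa using hxg⟩ Λ v₀ s₀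
  let b := finBasis k V
  let W := Submodule.span (Kv v₁) (Set.range fun i => s.ψ (b i))
  have hW : ∀ y ∈ V, s.ψ y ∈ W := fun y hy => by
    have := congrArg (fun z : V => s.sm.ψ z) (b.sum_repr ⟨y, hy⟩)
    simp only [Submodule.coe_sum, Submodule.coe_smul, map_sum, map_smul] at this
    rw [← s.sm_ψ, ← this]
    exact W.sum_mem fun i _ => W.smul_of_tower_mem _ (Submodule.subset_span ⟨i, rfl⟩)
  let S' := insert v₁ S
  have hm : v₁ ∈ S' := Finset.mem_insert_self _ _
  let r : GS k K B S' → GS k K B S := fun y => (y.1, fun v => y.2 ⟨v.1, Finset.mem_insert_of_mem v.2⟩)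
  have hr : Continuous r := continuous_fst.prodMk
    (continuous_pi fun v => (continuous_apply _).comp continuous_snd)
  let p : GS k K B S' → SpecialLinearGroup (Fin (deg K B)) (Kv v₁) := fun y => e (y.2 ⟨v₁, hm⟩)
  have hp : Continuous p := e.continuous.comp ((continuous_apply _).comp continuous_snd)
  have key : ∀ u : SpecialLinearGroup (Fin (deg K B)) (Kv v₁),
      (∀ i j, u.1 i j ∈ v₁.adicCompletionIntegers k) →
      (∀ i j, (u⁻¹).1 i j ∈ v₁.adicCompletionIntegers k) → ∀ y ∈ W,
      (u ^ N.factorial).1 * y * ((u ^ N.factorial)⁻¹).1 ∈ W := by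
    intro u hu hu' y hy
    let h : GS k K B S' := (1, Pi.mulSingle ⟨v₁, hm⟩ (e.symm u))
    have hph : p h = u := by simp [p, h]
    have hrh : r h = 1 := Prod.ext rfl (funext fun v => Pi.mulSingle_eq_of_ne
      (fun h' => hv₁.1.2 (by rw [← show v.1 = v₁ from congrArg Subtype.val h']; exact v.2)) _)
    have c1 := hcl S' (by simp [S', hv₀, Ne.symm hv₁.1.1]) h fun v => by
      by_cases hv : v = ⟨v₁, hm⟩
      · subst hv
        rw [hVt v₁ fun h' => hv₁.2 (by simpa using h')]; trivial
      · simp only [h, Pi.mulSingle_eq_of_ne hv]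
        exact (V₀ v).one_mem
    have hO := Valued.isOpen_valuationSubring (Kv v₁)
    have ce : ∀ i j, Continuous fun z : SpecialLinearGroup (Fin (deg K B)) (Kv v₁) => z.1 i j :=
      fun i j => continuous_subtype_val.matrix_elem i j
    have c2 : ∀ᶠ z in 𝓝 h, (∀ i ∈ Finset.range (N + 1), r z ^ i ∈ U) ∧
        (∀ i j, (p z).1 i j ∈ v₁.adicCompletionIntegers k) ∧
        ∀ i j, ((p z)⁻¹).1 i j ∈ v₁.adicCompletionIntegers k := by
      refine ((eventually_all_finset _).2 fun i _ => ?_).and
        ((eventually_all.2 fun i => eventually_all.2 fun j => ?_).and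
          (eventually_all.2 fun i => eventually_all.2 fun j => ?_))
      · exact (hr.pow i).continuousAt.preimage_mem_nhds (by rwa [Pi.pow_apply, hrh, one_pow])
      · exact ((ce i j).comp hp).continuousAt.preimage_mem_nhds
          (hO.mem_nhds (by rw [Function.comp_apply, hph]; exact hu i j))
      · exact ((ce i j).comp hp.inv).continuousAt.preimage_mem_nhds
          (hO.mem_nhds (by rw [Function.comp_apply, Pi.inv_apply, hph]; exact hu' i j))
    have c3 : h ∈ closure (_ ∩ _) := mem_closure_iff_nhds.2 fun t ht => by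
      obtain ⟨z, hz, hz'⟩ := mem_closure_iff_nhds.1 c1 _ (inter_mem ht c2)
      exact ⟨z, hz.1, hz.2, hz'⟩
    have c4 := map_mem_closure (t := W) (f := fun z => (p z ^ N.factorial).1 * y *
      ((p z ^ N.factorial)⁻¹).1) (((continuous_subtype_val.comp (hp.pow _)).mul
        continuous_const).mul (continuous_subtype_val.comp (hp.pow _).inv)) c3 (by
      rintro _ ⟨⟨d1, d2, d3⟩, γ, ⟨d4, -⟩, rfl⟩
      have e1 : p (jS k K B S' γ) = s.toSL γ := he γ
      beta_reduce
      rw [e1] at d2 d3 ⊢
      rw [← map_inv] at d3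
      have d5 : γ ∈ Λ.Gam (insert v₀ S) := Ord.mem_Off.2 fun v hv => by
        by_cases hv' : v = v₁
        · exact hv' ▸ (hs _).2 ⟨d2, d3⟩
        · exact Ord.mem_Off.1 d4 v (by simpa [S', hv'] using hv)
      have d6 := pigeon hΦ (γ : unitary B) V fun i hi => ⟨γ ^ i, pow_mem d5 i, by
        rw [map_pow]; exact d1 i (Finset.mem_range.2 (Nat.lt_succ_of_le hi)),
        smul_inv_smul ((γ : unitary B) ^ i) V⟩
      rw [← map_pow, ← map_inv]
      refine (Submodule.span_le (p := W.comap ((LinearMap.mulRight _ _).comp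
        (LinearMap.mulLeft _ _)))).2 ?_ hy
      rintro _ ⟨i, rfl⟩
      have d7 := hW _ (d6.le ⟨b i, (b i).2, rfl⟩)
      change s.ψ (_ * _ * _) ∈ W at d7
      rw [map_mul, map_mul] at d7
      exact d7)
    rwa [W.closed_of_finiteDimensional.closure_eq, hph] at c4
  obtain ⟨y, hy, hy'⟩ := h3
  have htop := lie_top W (fun i j hij x hx => lie_of_tv hij N.factorial_ne_zero fun b hb => by
      have t : ∀ b : Kv v₁, b = 1 ∨ b = -1 → ∀ i' j', (SpecialLinearGroup.transvection hij b).1 i' j' ∈
          v₁.adicCompletionIntegers k := fun b hb i' j' => by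
        change ((1 : Matrix _ _ (Kv v₁)) + single i j b : Matrix _ _ (Kv v₁)) i' j' ∈ _
        rw [Matrix.add_apply, one_apply, single_apply]
        refine add_mem ?_ ?_ <;> split_ifs <;> rcases hb with rfl | rfl <;> simp
      refine key _ (t b hb) ?_ x hx
      rw [SpecialLinearGroup.transvection_inv]
      exact t _ (hb.symm.imp (fun h => by rw [h, neg_neg]) fun h => by rw [h]))
    (map_one s.ψ ▸ hW 1 h2) (hW y hy) fun c hc => by
      have : y ∈ Subalgebra.center K B := Subalgebra.mem_center_iff.2 fun z => s.ψ.injective (by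
        rw [map_mul, map_mul, hc]; simp)
      obtain ⟨a, rfl⟩ := Algebra.IsCentral.out this
      obtain ⟨r, rfl⟩ := SplE.fixed' k (x := a) ((algebraMap K B).injective (by
        rw [← Csa.star_algebraMap]; exact h1 _ hy))
      exact hy' r (by
        change algebraMap K B _ = _
        rw [← IsScalarTower.algebraMap_apply, Algebra.algebraMap_eq_smul_one])
  have f1 : finrank (Kv v₁) W ≤ finrank k V := by
    exact (finrank_range_le_card (R := Kv v₁) fun i => s.ψ (b i)).trans (by simp)
  obtain ⟨z, hz, hz'⟩ := h4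
  have f2 := Submodule.finrank_lt_finrank_of_lt (lt_of_le_of_ne
    (show V ≤ herm (K := K) k Quad.star_k from h1) fun h => hz' (h.ge hz))
  rw [finrank_herm _ (fun c hc => SplE.fixed' k hc) (Quad.ne (k := k))] at f2
  rw [htop, finrank_top, s.sm.fr] at f1
  omega

open scoped Classical in
/-- the same with a neighbourhood in the unitary group -/
theorem coreU (hA : Sa k K B) (hP : Pow K B) (hT : (Tk k K B).Finite) (Λ : Ord K B)
    (S : Finset (Pl k)) {v₀ : Pl k} (hv₀ : v₀ ∉ S) (s₀ : Nonempty (Spl K B v₀)) (V : Submodule k B)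
    (h1 : ∀ y ∈ V, star y = y) (h2 : 1 ∈ V) (h3 : ∃ y ∈ V, ∀ r : k, y ≠ r • 1)
    (h4 : ∃ y, star y = y ∧ y ∉ V) {U : Set (US k K B S)} (hU : U ∈ 𝓝 (1 : US k K B S)) :
    {V' | ∃ γ : unitary B, γ ∈ SU K B ∧ γ ∈ Λ.GamU (insert v₀ S) ∧ jU k K B S γ ∈ U ∧
      cjV γ V' = V}.Infinite := by
  let f : GS k K B S → US k K B S := fun y => (y.1.1, fun v => (y.2 v).1)
  have hf : Continuous f := (continuous_subtype_val.comp continuous_fst).prodMk
    (continuous_pi fun v => continuous_subtype_val.comp ((continuous_apply v).comp continuous_snd))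
  refine (core hA hP hT Λ S hv₀ s₀ V h1 h2 h3 h4 (U := f ⁻¹' U)
    (hf.continuousAt.preimage_mem_nhds hU)).mono ?_
  rintro V' ⟨γ, p1, p2, p3⟩
  exact ⟨γ, γ.2, p1, p2, p3⟩

end Crest.Agent.T24.Na.E24
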