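import Crest.Agent.T24.NaInstDef_3
import Crest.Agent.T24.NaEsc_24
import Crest.Agent.T24.Pow_53
import Crest.Agent.T24.LocG_59

/-!
# Row 24, module NA + TW (helper24): the field `esc` of the arithmetic system
-/

set_option autoImplicit false
set_option linter.unusedSectionVars false

noncomputable section

namespace Crest.Agent.T24.Na

open Module Csa Asa Filter Topology NumberField IsDedekindDomain

universe u v w

namespace E24

variable {k K B : Type*} [Field k] [NumberField k] [Field K] [NumberField K] [Algebra k K]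
  [StarRing K] [Quad k K] [Ring B] [StarRing B] [Algebra K B] [StarModule K B]
  [Algebra.IsCentral K B] [IsSimpleRing B] [FiniteDimensional K B] [Algebra k B]
  [IsScalarTower k K B]

/-- the product of the unitary groups in the unitary group of the product -/
def pr (S : Finset (Pl k)) (y : US k K B S) : unitary (AS k K B S) :=
  ⟨(y.1.1, fun v => (y.2 v).1), Prod.ext y.1.2.1 (funext fun v => (y.2 v).2.1),
    Prod.ext y.1.2.2 (funext fun v => (y.2 v).2.2)⟩

theorem continuous_pr (S : Finset (Pl k)) : Continuous (pr (K := K) (B := B) S) :=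
  Continuous.subtype_mk ((continuous_subtype_val.comp continuous_fst).prodMk (continuous_pi fun v =>
    continuous_subtype_val.comp ((continuous_apply v).comp continuous_snd))) _

theorem near (I : Inp k K B) {W : Set I.G₂} (hW : W ∈ 𝓝 (1 : I.G₂)) :
    ∃ U ∈ 𝓝 (1 : US k K B I.S), ∀ γ : unitary B, jU k K B I.S γ ∈ U →
      ∃ h : γ ∈ Um K B I.m, (I.ι ⟨γ, h⟩).1 ∈ W := by
  refine ⟨pr I.S ⁻¹' (Subtype.val '' W), (continuous_pr I.S).continuousAt.preimage_mem_nhds
    (I.opn.isOpenMap_subtype_val.image_mem_nhds hW), ?_⟩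
  rintro γ ⟨g, hg, e⟩
  have e' : (g : unitary (AS k K B I.S)) = jAU k K B I.S γ := e
  refine ⟨(I.hG γ).1 (e' ▸ g.2), ?_⟩
  convert hg using 1
  exact Subtype.ext e'.symm

end E24

theorem iEscStmt : IEscStmt.{u, v, w} := fun D _ I h _ _ V h1 h2 h3 h4 W hW => by
  have hd : 2 ≤ deg D.K D.B := le_trans (by norm_num) h.hd
  obtain ⟨U, hU, hU'⟩ := E24.near I hW
  refine (E24.coreU h.sa (powStmt Loc.valStmt Loc.cofStmt D hd) (I.S.finite_toSet.subset h.T_sub)
    I.Λ I.S h.v0 ⟨I.s⟩ V h1 h2 h3 h4 hU).mono ?_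
  rintro V' ⟨γ, p1, p2, p3, p4⟩
  obtain ⟨q1, q2⟩ := hU' γ p3
  exact ⟨⟨⟨γ, q1⟩, p2⟩, ⟨(I.s.toSL ⟨γ, p1⟩).2, q2⟩, p4⟩

end Crest.Agent.T24.Na
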