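import Crest.Agent.T24.Coc_98
import Crest.Agent.T24.AsaA_53
import Crest.Agent.T24.LocA_59

/-!
# Row 24 (helper98): `S`-integers are discrete, cocompact and dense at the finite places
-/

set_option autoImplicit false

namespace Crest.Agent.T24.Coc

open Set Filter Topology NumberField IsDedekindDomain WithZero
open NumberField.mixedEmbedding (mixedSpace normAtPlace)
open Crest.Agent.T24.Asa (Pl)

section ALat

variable {V V' : Type*} [AddCommGroup V] [TopologicalSpace V] [AddCommGroup V'] [TopologicalSpace V']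

/-- discrete, cocompact, and surjective modulo every open subgroup -/
structure ALat (Λ : AddSubgroup V) : Prop where
  disc : ∃ N ∈ 𝓝 (0 : V), ∀ l ∈ Λ, l ∈ N → l = 0
  coc : ∃ C, IsCompact C ∧ ∀ a, ∃ l ∈ Λ, a - l ∈ C
  sa : ∀ H : AddSubgroup V, IsOpen (H : Set V) → ∀ a, ∃ l ∈ Λ, a - l ∈ H

theorem ALat.sandwich {Λ₁ Λ Λ₂ : AddSubgroup V} (h₁ : ALat Λ₁) (h₂ : ALat Λ₂) (h : Λ₁ ≤ Λ)
    (h' : Λ ≤ Λ₂) : ALat Λ := by
  obtain ⟨N, hN, hd⟩ := h₂.disc
  obtain ⟨C, hC, hc⟩ := h₁.coc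
  refine ⟨⟨N, hN, fun l hl => hd l (h' hl)⟩, ⟨C, hC, fun a => ?_⟩, fun H hH a => ?_⟩
  · obtain ⟨l, hl, e⟩ := hc a
    exact ⟨l, h hl, e⟩
  · obtain ⟨l, hl, e⟩ := h₁.sa H hH a
    exact ⟨l, h hl, e⟩

theorem ALat.equiv {Λ : AddSubgroup V} {Λ' : AddSubgroup V'} (h : ALat Λ') (Φ : V ≃ₜ+ V')
    (e : ∀ x, x ∈ Λ ↔ Φ x ∈ Λ') : ALat Λ := by
  obtain ⟨N, hN, hd⟩ := h.disc
  obtain ⟨C, hC, hc⟩ := h.coc
  refine ⟨⟨Φ ⁻¹' N, (map_continuous Φ).continuousAt.preimage_mem_nhds (by rwa [map_zero]),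
    fun l hl hl' => Φ.injective (by rw [map_zero]; exact hd _ ((e l).1 hl) hl')⟩,
    ⟨Φ ⁻¹' C, Φ.toHomeomorph.isCompact_preimage.2 hC, fun a => ?_⟩, fun H hH a => ?_⟩
  · obtain ⟨l, hl, h1⟩ := hc (Φ a)
    exact ⟨Φ.symm l, (e _).2 (by simpa using hl), by simpa using h1⟩
  · obtain ⟨l, hl, h1⟩ := h.sa (H.comap (Φ.symm : V' →+ V)) (hH.preimage Φ.symm.continuous) (Φ a)
    exact ⟨Φ.symm l, (e _).2 (by simpa using hl), by simpa using AddSubgroup.mem_comap.1 h1⟩

theorem ALat.pi {Λ : AddSubgroup V} (h : ALat Λ) (ι : Type*) [Finite ι] :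
    ALat (AddSubgroup.pi univ fun _ : ι => Λ) := by
  classical
  cases nonempty_fintype ι
  obtain ⟨N, hN, hd⟩ := h.disc
  obtain ⟨C, hC, hc⟩ := h.coc
  refine ⟨⟨univ.pi fun _ => N, set_pi_mem_nhds finite_univ fun _ _ => hN,
    fun l hl hl' => funext fun i => hd _ (hl i trivial) (hl' i trivial)⟩,
    ⟨univ.pi fun _ => C, isCompact_univ_pi fun _ => hC, fun a => ?_⟩, fun H hH a => ?_⟩
  · choose l hl e using fun i => hc (a i)
    exact ⟨l, fun i _ => hl i, fun i _ => e i⟩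
  · choose l hl e using fun i => h.sa (H.comap (AddMonoidHom.single (fun _ : ι => V) i))
      (hH.preimage (continuous_single i)) (a i)
    refine ⟨l, fun i _ => hl i, ?_⟩
    rw [← Finset.univ_sum_single (a - l)]
    exact sum_mem fun i _ => e i

end ALat

section Scalar

open scoped Valued

variable {k : Type*} [Field k] [NumberField k]

theorem isCompact_int (v : Pl k) : IsCompact {x : v.adicCompletion k | Valued.v x ≤ 1} := by
  have := Loc.proper_adic k v
  have e : {x : v.adicCompletion k | Valued.v x ≤ 1} = Metric.closedBall 0 1 := by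
    ext x
    rw [mem_closedBall_zero_iff, Valued.toNormedField.norm_le_one_iff, mem_ofPred_eq]
  rw [e]
  exact isCompact_closedBall _ _

theorem int_mem_nhds (v : Pl k) : {x : v.adicCompletion k | Valued.v x ≤ 1} ∈ 𝓝 0 :=
  (Valued.isOpen_valuationSubring (v.adicCompletion k)).mem_nhds (by simp)

theorem tendsto_of_val (v : Pl k) {z : ℕ → v.adicCompletion k}
    (h : ∀ m : ℕ, Valued.v (z m) ≤ exp (-(m : ℤ))) : Tendsto z atTop (𝓝 0) := by
  obtain ⟨π, hπ⟩ := v.valuation_exists_uniformizer k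
  rw [← v.valuedAdicCompletion_eq_valuation'] at hπ
  have h1 : ‖(π : v.adicCompletion k)‖ < 1 := by
    rw [Valued.toNormedField.norm_lt_one_iff, hπ, ← exp_zero, exp_lt_exp]
    norm_num
  refine squeeze_zero_norm (fun m => ?_) (tendsto_pow_atTop_nhds_zero_of_lt_one (norm_nonneg _) h1)
  rw [← norm_pow, Valued.toNormedField.norm_le_iff, map_pow, hπ, ← exp_nsmul]
  simpa using h m

variable {σ : Type*} (p : σ → Pl k)

/-- integers outside the places `p s` -/
def OS : Subring k where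
  carrier := {x | ∀ v, v ∉ range p → v.valuation k x ≤ 1}
  mul_mem' hx hy v hv := by rw [map_mul]; exact mul_le_one' (hx v hv) (hy v hv)
  one_mem' v _ := by rw [map_one]
  add_mem' hx hy v hv := Valuation.map_add_le _ (hx v hv) (hy v hv)
  zero_mem' v _ := by rw [map_zero]; exact zero_le
  neg_mem' hx v hv := by rw [Valuation.map_neg]; exact hx v hv

theorem mem_OS {x : k} : x ∈ OS p ↔ ∀ v, v ∉ range p → v.valuation k x ≤ 1 := Iff.rfl

theorem int_mem_OS (z : 𝓞 k) : (z : k) ∈ OS p := fun v _ => Asa.val_int v z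

/-- the product of the completions -/
abbrev RS : Type _ := mixedSpace k × ∀ s, (p s).adicCompletion k

/-- the diagonal embedding -/
noncomputable def dS : k →+* RS p :=
  (mixedEmbedding k).prod (RingHom.pi fun s => algebraMap k ((p s).adicCompletion k))

theorem dS_injective : Function.Injective (dS p) := (dS p).injective

variable [Finite σ] (hp : Function.Injective p)
include hp

theorem approx_p (a : ∀ s, (p s).adicCompletion k) (m : ℕ) : ∃ x ∈ OS p,
    ∀ s, Valued.v (a s - algebraMap k ((p s).adicCompletion k) x) ≤ exp (-(m : ℤ)) := by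
  choose y hy using fun s => Asa.exists_near_completion (p s) (a s) m
  obtain ⟨x, h1, h2⟩ := Asa.approx_fin (finite_range p).toFinset (Function.extend p y 0) m
  refine ⟨x, fun v hv => h2 v (by simpa using hv), fun s => ?_⟩
  have h3 := h1 (p s) (by simp)
  rw [hp.extend_apply, ← (p s).valuedAdicCompletion_eq_valuation'] at h3
  have e : a s - algebraMap k ((p s).adicCompletion k) x =
      -(((y s : k) : (p s).adicCompletion k) - a s) -
        algebraMap k ((p s).adicCompletion k) (x - y s) := by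
    rw [map_sub, neg_sub, sub_sub_sub_comm, sub_sub_sub_comm]
    exact (sub_sub_sub_cancel_right _ _ _).symm
  rw [e]
  exact Valuation.map_sub_le _ (by rw [Valuation.map_neg]; exact hy s) h3

omit [Finite σ] hp in
theorem disc_inf : ∃ N ∈ 𝓝 (0 : mixedSpace k), ∀ z : 𝓞 k, mixedEmbedding k z ∈ N → z = 0 := by
  have h1 : IsOpen ({0} : Set (mixedEmbedding.integerLattice k)) := isOpen_discrete _
  obtain ⟨N, hN, e⟩ := isOpen_induced_iff.1 h1
  refine ⟨N, hN.mem_nhds ?_, fun z hz => ?_⟩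
  · exact (Set.ext_iff.1 e 0).2 rfl
  · have := (Set.ext_iff.1 e ⟨mixedEmbedding k z, z, rfl⟩).1 hz
    have h2 : mixedEmbedding k z = 0 := congrArg Subtype.val this
    simpa using h2

omit [Finite σ] hp in
theorem coc_inf : ∃ C : Set (mixedSpace k), IsCompact C ∧
    ∀ b, ∃ z : 𝓞 k, b - mixedEmbedding k z ∈ C := by
  classical
  obtain ⟨C, -, hc⟩ := Asa.exists_close (k := k)
  refine ⟨Metric.closedBall 0 C, isCompact_closedBall _ _, fun b => ?_⟩
  obtain ⟨z, hz⟩ := hc b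
  refine ⟨z, ?_⟩
  rw [mem_closedBall_zero_iff, norm_sub_rev, mixedEmbedding.norm_eq_sup'_normAtPlace,
    Finset.sup'_le_iff]
  exact fun w _ => hz w

omit hp in
theorem disc_OS : ∃ N ∈ 𝓝 (0 : RS p), ∀ x ∈ OS p, dS p x ∈ N → x = 0 := by
  obtain ⟨N, hN, hd⟩ := disc_inf (k := k)
  refine ⟨N ×ˢ univ.pi fun s => {x | Valued.v x ≤ 1},
    prod_mem_nhds hN (set_pi_mem_nhds finite_univ fun s _ => int_mem_nhds (p s)), ?_⟩
  rintro x hx ⟨h1, h2⟩
  obtain ⟨z, rfl⟩ := HeightOneSpectrum.mem_integers_of_valuation_le_one (R := 𝓞 k) k x fun v => by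
    by_cases hv : v ∈ range p
    · obtain ⟨s, rfl⟩ := hv
      rw [← (p s).valuedAdicCompletion_eq_valuation']
      exact h2 s trivial
    · exact hx v hv
  rw [hd z h1, map_zero]

theorem coc_OS : ∃ C : Set (RS p), IsCompact C ∧ ∀ a, ∃ x ∈ OS p, a - dS p x ∈ C := by
  obtain ⟨C, hC, hc⟩ := coc_inf (k := k)
  refine ⟨C ×ˢ univ.pi fun s => {x | Valued.v x ≤ 1},
    hC.prod (isCompact_univ_pi fun s => isCompact_int (p s)), fun a => ?_⟩
  obtain ⟨x, hx, h1⟩ := approx_p p hp a.2 0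
  obtain ⟨z, hz⟩ := hc (a.1 - mixedEmbedding k x)
  refine ⟨x + z, add_mem hx (int_mem_OS p z), ?_, fun s _ => ?_⟩
  · change a.1 - mixedEmbedding k (x + z) ∈ _
    rwa [map_add, ← sub_sub]
  · change Valued.v (a.2 s - algebraMap k _ (x + z)) ≤ 1
    rw [map_add, ← sub_sub]
    refine Valuation.map_sub_le _ (by simpa using h1 s) ?_
    exact ((p s).valuedAdicCompletion_eq_valuation' _).trans_le (Asa.val_int _ z)

theorem sa_OS (H : AddSubgroup (RS p)) (hH : IsOpen (H : Set (RS p))) (a : RS p) :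
    ∃ x ∈ OS p, a - dS p x ∈ H := by
  have h0 : (H : Set (RS p)) ∈ 𝓝 0 := hH.mem_nhds H.zero_mem
  have hinf : ∀ y : mixedSpace k, ((y, 0) : RS p) ∈ H := by
    intro y
    have h1 : Tendsto (fun n : ℕ => ((((n + 1 : ℕ) : ℝ)⁻¹ • y, 0) : RS p)) atTop (𝓝 (0, 0)) := by
      refine Tendsto.prodMk_nhds ?_ tendsto_const_nhds
      simpa using ((tendsto_inv_atTop_nhds_zero_nat (𝕜 := ℝ)).comp
        (tendsto_add_atTop_nat 1)).smul_const y
    obtain ⟨n, hn⟩ := (h1.eventually h0).exists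
    have h2 := H.nsmul_mem hn (n + 1)
    rwa [Prod.smul_mk, smul_zero, ← Nat.cast_smul_eq_nsmul ℝ, smul_inv_smul₀ (by positivity)] at h2
  choose x hx h1 using approx_p p hp a.2
  have h2 : Tendsto (fun m => ((0, fun s => a.2 s - algebraMap k _ (x m)) : RS p)) atTop
      (𝓝 (0, 0)) :=
    tendsto_const_nhds.prodMk_nhds (tendsto_pi_nhds.2 fun s => tendsto_of_val _ fun m => h1 m s)
  obtain ⟨m, hm⟩ := (h2.eventually h0).exists
  refine ⟨x m, hx m, ?_⟩
  have h3 := add_mem (hinf (a.1 - mixedEmbedding k (x m))) hm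
  rwa [Prod.mk_add_mk, add_zero, zero_add] at h3

theorem alat_OS : ALat ((OS p).toAddSubgroup.map (dS p : k →+ RS p)) := by
  obtain ⟨N, hN, hd⟩ := disc_OS p
  obtain ⟨C, hC, hc⟩ := coc_OS p hp
  refine ⟨⟨N, hN, ?_⟩, ⟨C, hC, fun a => ?_⟩, fun H hH a => ?_⟩
  · rintro _ ⟨x, hx, rfl⟩ h
    rw [hd x hx h, map_zero]
  · obtain ⟨x, hx, h⟩ := hc a
    exact ⟨_, ⟨x, hx, rfl⟩, h⟩
  · obtain ⟨x, hx, h⟩ := sa_OS p hp H hH a
    exact ⟨_, ⟨x, hx, rfl⟩, h⟩

end Scalar

end Crest.Agent.T24.Coc
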