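import Crest.Agent.T24.BcB_98
import Crest.Agent.T24.CocK_98
import Crest.Agent.T24.Csa5_56

/-!
# Row 24: `S`-arithmetic subgroups of an anisotropic unitary group are cocompact lattices.
-/

set_option autoImplicit false
set_option linter.unusedSectionVars false
set_option linter.style.haveILetI false

noncomputable section

namespace Crest.Agent.T24

open Module Csa Asa Set Filter Topology NumberField IsDedekindDomain BC Coc
open scoped NumberField

universe u v w

variable {k K B : Type*} [Field k] [NumberField k] [Field K] [NumberField K] [Algebra k K]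
  [StarRing K] [Quad k K] [Ring B] [StarRing B] [Algebra K B] [StarModule K B]
  [Algebra.IsCentral K B] [IsSimpleRing B] [FiniteDimensional K B] [Algebra k B]
  [IsScalarTower k K B]

theorem BC.isOpen_isUnit {R : Type*} [CommRing R] [Algebra k R] [TopologicalSpace R]
    [IsTopologicalRing R] (hR : IsOpen {r : R | IsUnit r}) :
    IsOpen {x : BC k K B R | IsUnit x} := by
  haveI := finite_kB k K B
  let b := bas k K B R (finBasis k B)
  haveI : Module.Free R (BC k K B R) := Module.Free.of_basis b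
  have : {x : BC k K B R | IsUnit x} =
      (fun x => (Algebra.leftMulMatrix b x).det) ⁻¹' {r : R | IsUnit r} := by
    ext x
    simp only [mem_ofPred_eq, mem_preimage]
    rw [← Algebra.norm_eq_matrix_det, Algebra.norm_apply, ← LinearMap.isUnit_iff_isUnit_det,
      ← Algebra.lmul_isUnit_iff (R := R)]
  rw [this]
  exact hR.preimage (IsModuleTopology.continuous_of_linearMap
    (Algebra.leftMulMatrix b).toLinearMap).matrix_det

instance : Nontrivial (Inf k) := inferInstanceAs (Nontrivial (mixedEmbedding.mixedSpace k))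

namespace Ord
variable (Λ : Ord K B)

theorem int_smul (d : 𝓞 k) {x : B} (hx : x ∈ Λ.O) : (d : k) • x ∈ Λ.O := by
  have := Λ.O.mul_mem (Λ.int (algebraMap (𝓞 k) (𝓞 K) d)) hx
  rwa [← Algebra.smul_def, show ((algebraMap (𝓞 k) (𝓞 K) d : 𝓞 K) : K) =
    algebraMap k K (d : k) from rfl, algebraMap_smul] at this

theorem le_At (v : Pl k) : Λ.O ≤ Λ.At v := fun x hx =>
  ⟨1, (Ideal.ne_top_iff_one _).1 v.isPrime.ne_top, by simpa using hx⟩

theorem smul_mem_At {v : Pl k} {c : k} (hc : v.valuation k c ≤ 1) {x : B} (hx : x ∈ Λ.At v) :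
    c • x ∈ Λ.At v := by
  obtain ⟨n, d, h⟩ := v.exists_primeCompl_mul_eq_of_integer c hc
  obtain ⟨c', h1, h2⟩ := hx
  refine ⟨d * c', fun h' => (v.isPrime.mem_or_mem h').elim d.2 h1, ?_⟩
  have := Λ.int_smul n h2
  rw [smul_smul] at this ⊢
  convert this using 2
  rw [show (n : k) = c * ((d : 𝓞 k) : k) from h.symm]
  push_cast; ring

theorem isIntegral {x : B} (hx : x ∈ Λ.O) : IsIntegral ℤ x :=
  IsIntegral.of_mem_of_fg (subalgebraOfSubring Λ.O)
    ((Submodule.fg_iff_addSubgroup_fg _).2 Λ.fg) x hx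

theorem Nrd_mem {x : B} (hx : x ∈ Λ.O) : algebraMap K B (Nrd K x) ∈ Λ.O :=
  Λ.int ⟨Nrd K x, isIntegral_Nrd (R := ℤ) (Λ.isIntegral hx)⟩

/-- the central part of an order -/
def ctr : Ord K K where
  O := Λ.O.comap (algebraMap K B)
  star_mem x hx := by
    rw [Subring.mem_comap, ← Csa.star_algebraMap]; exact Λ.star_mem _ hx
  fg := by
    have h : (AddSubgroup.toIntSubmodule Λ.O.toAddSubgroup).FG :=
      (Submodule.fg_iff_addSubgroup_fg _).2 Λ.fg
    let f : K →ₗ[ℤ] B := (algebraMap K B).toAddMonoidHom.toIntLinearMap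
    have h2 : ((AddSubgroup.toIntSubmodule Λ.O.toAddSubgroup).comap f).FG :=
      Submodule.fg_of_fg_map_injective f (algebraMap K B).injective
        (h.of_le (Submodule.map_comap_le _ _))
    exact (Submodule.fg_iff_addSubgroup_fg _).1 h2
  den x := by
    obtain ⟨n, h1, h2⟩ := Λ.den (algebraMap K B x)
    exact ⟨n, h1, by rwa [Subring.mem_comap, map_mul, map_natCast]⟩
  int c := Λ.int c

theorem Nrd_mem_At {v : Pl k} {x : B} (hx : x ∈ Λ.At v) : Nrd K x ∈ Λ.ctr.At v := by
  obtain ⟨c, h1, h2⟩ := hx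
  refine ⟨c ^ deg K B, fun h => h1 (v.isPrime.mem_of_pow_mem _ h), ?_⟩
  have := Λ.Nrd_mem h2
  rw [← algebraMap_smul K, Nrd_smul, ← map_pow, ← Algebra.smul_def] at this
  exact_mod_cast this

theorem Nrd_mem_Off {S : Finset (Pl k)} {x : B} (hx : x ∈ Λ.Off S) : Nrd K x ∈ Λ.ctr.Off S :=
  mem_Off.2 fun v hv => Λ.Nrd_mem_At (mem_Off.1 hx v hv)

theorem star_mem_Off {S : Finset (Pl k)} {x : B} (hx : x ∈ Λ.Off S) : star x ∈ Λ.Off S :=
  mem_Off.2 fun v hv => Λ.star_mem_At v (mem_Off.1 hx v hv)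

/-- a basis inside the order -/
theorem exists_basis_in : ∃ e : Basis (Fin (finrank k B)) k B, ∀ i, e i ∈ Λ.O := by
  haveI := finite_kB k K B
  choose n h1 h2 using Λ.den
  let e := finBasis k B
  refine ⟨e.unitsSMul fun i => Units.mk0 (n (e i) : k) (Nat.cast_ne_zero.2 (h1 _)), fun i => ?_⟩
  rw [Basis.unitsSMul_apply, Units.smul_def, Units.val_mk0, Nat.cast_smul_eq_nsmul, nsmul_eq_mul]
  exact h2 _

/-- a basis whose lattice contains the order -/
theorem exists_basis_out : ∃ e : Basis (Fin (finrank k B)) k B,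
    ∀ x ∈ Λ.O, ∀ i, ∃ r : 𝓞 k, (r : k) = e.repr x i := by
  haveI := finite_kB k K B
  let e := finBasis k B
  obtain ⟨s, hs⟩ := Λ.fg
  obtain ⟨d, h0, hd⟩ := exists_den (s ×ˢ Finset.univ) fun p : B × Fin (finrank k B) => e.repr p.1 p.2
  have hdk : (d : k) ≠ 0 := by simpa using h0
  refine ⟨e.unitsSMul fun _ => (Units.mk0 (d : k) hdk)⁻¹, fun x hx i => ?_⟩
  rw [Basis.repr_unitsSMul, inv_inv, Units.smul_def, Units.val_mk0, smul_eq_mul]
  have hx' : x ∈ AddSubgroup.closure (s : Set B) := by rw [hs]; exact hx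
  clear hx
  induction hx' using AddSubgroup.closure_induction with
  | mem y hy => exact hd (y, i) (Finset.mem_product.2 ⟨hy, Finset.mem_univ _⟩)
  | zero => exact ⟨0, by simp⟩
  | add y z _ _ hy hz =>
    obtain ⟨a, ha⟩ := hy
    obtain ⟨b, hb⟩ := hz
    exact ⟨a + b, by simp [ha, hb, mul_add]⟩
  | neg y _ hy =>
    obtain ⟨a, ha⟩ := hy
    exact ⟨-a, by simp [ha]⟩

end Ord

variable (k K B) in
/-- `B ⊗ k_S` -/
abbrev AS (S : Finset (Pl k)) : Type _ := BC k K B (Inf k) × ((v : S) → BC k K B (Kv v.1))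

variable (k K B) in
/-- the diagonal embedding -/
def jA (S : Finset (Pl k)) : B →+* AS k K B S :=
  (inc k K B (Inf k)).toRingHom.prod (RingHom.pi fun v => (inc k K B (Kv v.1)).toRingHom)

theorem jA_injective (S : Finset (Pl k)) : Function.Injective (jA k K B S) := fun _ _ h =>
  inc_injective k K B (Inf k) (congrArg Prod.fst h)

theorem star_jA (S : Finset (Pl k)) (x : B) : star (jA k K B S x) = jA k K B S (star x) := rfl

section Lat
variable (S : Finset (Pl k)) {ι : Type*} [Fintype ι] (e : Basis ι k B)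

variable (K) in
/-- coordinates -/
def crdS : AS k K B S ≃ₜ+ (ι → RS (Subtype.val : S → Pl k)) where
  toFun a i := (crd k K B (Inf k) e a.1 i, fun v => crd k K B (Kv v.1) e (a.2 v) i)
  invFun y := ((crd k K B (Inf k) e).symm fun i => (y i).1,
    fun v => (crd k K B (Kv v.1) e).symm fun i => (y i).2 v)
  left_inv _ := Prod.ext ((crd k K B (Inf k) e).symm_apply_apply _)
    (funext fun v => (crd k K B (Kv v.1) e).symm_apply_apply _)
  right_inv y := funext fun i => Prod.ext
    (congrFun ((crd k K B (Inf k) e).apply_symm_apply fun i => (y i).1) i)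
    (funext fun v => congrFun ((crd k K B (Kv v.1) e).apply_symm_apply fun i => (y i).2 v) i)
  map_add' a b := funext fun i => Prod.ext (congrFun (map_add (crd k K B (Inf k) e) a.1 b.1) i)
    (funext fun v => congrFun (map_add (crd k K B (Kv v.1) e) (a.2 v) (b.2 v)) i)
  continuous_toFun := continuous_pi fun i => Continuous.prodMk
    ((continuous_apply i).comp ((crd k K B (Inf k) e).continuous.comp continuous_fst))
    (continuous_pi fun v => (continuous_apply i).comp ((crd k K B (Kv v.1) e).continuous.comp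
      ((continuous_apply v).comp continuous_snd)))
  continuous_invFun := Continuous.prodMk
    ((crd k K B (Inf k) e).symm.continuous.comp
      (continuous_pi fun i => continuous_fst.comp (continuous_apply i)))
    (continuous_pi fun v => (crd k K B (Kv v.1) e).symm.continuous.comp (continuous_pi fun i =>
      (continuous_apply v).comp (continuous_snd.comp (continuous_apply i))))

theorem crdS_jA (x : B) (i : ι) :
    crdS K S e (jA k K B S x) i = dS (Subtype.val : S → Pl k) (e.repr x i) :=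
  Prod.ext (repr_inc k K B (Inf k) e x i) (funext fun v => repr_inc k K B (Kv v.1) e x i)

/-- the `S`-integral span of a basis -/
def LB : AddSubgroup B where
  carrier := {x | ∀ i, e.repr x i ∈ OS (Subtype.val : S → Pl k)}
  add_mem' hx hy i := by rw [map_add]; exact add_mem (hx i) (hy i)
  zero_mem' i := by rw [map_zero]; exact zero_mem _
  neg_mem' hx i := by rw [map_neg]; exact neg_mem (hx i)

theorem alat_LB : ALat ((LB S e).map (jA k K B S : B →+ AS k K B S)) := by
  refine ((alat_OS (Subtype.val : S → Pl k) Subtype.val_injective).pi ι).equiv (crdS K S e)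
    fun a => ⟨?_, fun h => ?_⟩
  · rintro ⟨x, hx, rfl⟩ i -
    exact ⟨_, hx i, (crdS_jA S e x i).symm⟩
  · choose y h1 h2 using fun i => h i (mem_univ i)
    refine ⟨e.equivFun.symm y, fun i => ?_, (crdS K S e).injective (funext fun i => ?_)⟩
    · rw [← Basis.equivFun_apply, LinearEquiv.apply_symm_apply]; exact h1 i
    · refine (crdS_jA S e _ i).trans ?_
      rw [← Basis.equivFun_apply, LinearEquiv.apply_symm_apply]; exact h2 i

variable (Λ : Ord K B)

theorem alat_Off : ALat ((Λ.Off S).map (jA k K B S)).toAddSubgroup := by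
  obtain ⟨e₁, h₁⟩ := Λ.exists_basis_in (k := k)
  obtain ⟨e₂, h₂⟩ := Λ.exists_basis_out (k := k)
  refine (alat_LB S e₁).sandwich (alat_LB S e₂) ?_ ?_
  · rintro _ ⟨x, hx, rfl⟩
    refine ⟨x, Ord.mem_Off.2 fun v hv => ?_, rfl⟩
    rw [← e₁.sum_repr x]
    exact sum_mem fun i _ => Λ.smul_mem_At (hx i v (by simpa using hv)) (Λ.le_At v (h₁ i))
  · rintro _ ⟨x, hx, rfl⟩
    refine ⟨x, fun i v hv => ?_, rfl⟩
    obtain ⟨c, h1, h2⟩ := Ord.mem_Off.1 hx v (by simpa using hv)
    obtain ⟨r, hr⟩ := h₂ _ h2 i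
    have h3 := val_int v r
    have h4 : v.valuation k (c : k) = 1 := by
      rw [show (c : k) = algebraMap (𝓞 k) k c from rfl, v.valuation_of_algebraMap]
      exact v.intValuation_eq_one_iff.2 h1
    rwa [hr, map_smul, Finsupp.smul_apply, smul_eq_mul, map_mul, h4, one_mul] at h3

theorem big_inf {C : Set (BC k K B (Inf k))} (hC : IsCompact C) :
    ∃ t, ∀ c ∈ C, IsUnit (t - c) := by
  have ho : IsOpen {x : BC k K B (Inf k) | IsUnit x} := BC.isOpen_isUnit Units.isOpen
  have : ∀ᶠ ε : ℝ in 𝓝 0, ∀ c ∈ C, IsUnit (1 - algebraMap ℝ (Inf k) ε • c) := by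
    refine hC.eventually_forall_of_forall_eventually fun c _ => ?_
    have hc : Continuous fun z : ℝ × BC k K B (Inf k) => 1 - algebraMap ℝ (Inf k) z.1 • z.2 := by
      have := continuous_algebraMap ℝ (Inf k)
      fun_prop
    exact hc.continuousAt.eventually (ho.mem_nhds (by simp))
  obtain ⟨ε, h1, h2⟩ := ((this.filter_mono nhdsWithin_le_nhds).and
    (self_mem_nhdsWithin (s := {0}ᶜ))).exists
  have h3 : ε ≠ 0 := h2
  refine ⟨algebraMap ℝ (Inf k) ε⁻¹ • 1, fun c hc => ?_⟩
  have : algebraMap ℝ (Inf k) ε⁻¹ • 1 - c = algebraMap (Inf k) _ (algebraMap ℝ (Inf k) ε⁻¹) *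
      (1 - algebraMap ℝ (Inf k) ε • c) := by
    rw [← Algebra.smul_def, smul_sub, smul_smul, ← map_mul, inv_mul_cancel₀ h3, map_one, one_smul]
  rw [this]
  exact (((inv_ne_zero h3).isUnit.map _).map _).mul (h1 c hc)

theorem lat_Off (hB : Aniso B) :
    Lat (starAddEquiv (R := AS k K B S)).toAddMonoidHom ((Λ.Off S).map (jA k K B S)) where
  cont := continuous_star
  mul := star_mul
  inv := star_star
  mem := by rintro _ ⟨x, hx, rfl⟩; exact ⟨star x, Λ.star_mem_Off hx, rfl⟩
  disc := (alat_Off S Λ).disc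
  coc := (alat_Off S Λ).coc
  sa := (alat_Off S Λ).sa
  ani := by
    rintro _ ⟨x, -, rfl⟩ h
    rw [hB x (jA_injective (k := k) (K := K) S (by rw [map_mul, map_zero]; exact h)), map_zero]
  big := by
    refine ⟨{a | IsUnit a.1}, fun g a hg ha => (hg.map (RingHom.fst _ _)).mul ha, ?_, fun C hC => ?_⟩
    · rintro _ ⟨x, -, rfl⟩ h
      exact (isUnit_of_map (K := K) (inc k K B (Inf k)).toRingHom
        (inc_injective k K B (Inf k)) h).map _
    · obtain ⟨t, ht⟩ := big_inf (hC.image continuous_fst)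
      exact ⟨(t, 0), fun c hc => ht _ ⟨c, hc, rfl⟩⟩

end Lat

section Grp
variable (S : Finset (Pl k))

variable (k K B) in
/-- the unitary group inside the algebra -/
def iU : US k K B S →* AS k K B S where
  toFun u := (u.1, fun v => u.2 v)
  map_one' := rfl
  map_mul' _ _ := rfl

theorem isEmbedding_iU : IsEmbedding (iU k K B S) :=
  IsEmbedding.subtypeVal.prodMap (IsEmbedding.piMap fun _ => IsEmbedding.subtypeVal)

theorem mem_range_iU (a : AS k K B S) :
    a ∈ range (iU k K B S) ↔ star a * a = 1 ∧ a * star a = 1 :=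
  ⟨by rintro ⟨u, rfl⟩
      exact ⟨Prod.ext u.1.2.1 (funext fun v => (u.2 v).2.1),
        Prod.ext u.1.2.2 (funext fun v => (u.2 v).2.2)⟩,
    fun ⟨h1, h2⟩ => ⟨(⟨a.1, congrArg Prod.fst h1, congrArg Prod.fst h2⟩, fun v =>
      ⟨a.2 v, congrFun (congrArg Prod.snd h1) v, congrFun (congrArg Prod.snd h2) v⟩), rfl⟩⟩

theorem iU_jU (γ : unitary B) : iU k K B S (jU k K B S γ) = jA k K B S γ := rfl

variable (k K B) in
/-- the special unitary group inside the unitary group -/
def gU : GS k K B S →* US k K B S where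
  toFun u := (u.1, fun v => u.2 v)
  map_one' := rfl
  map_mul' _ _ := rfl

theorem isEmbedding_gU : IsEmbedding (gU k K B S) :=
  IsEmbedding.subtypeVal.prodMap (IsEmbedding.piMap fun _ => IsEmbedding.subtypeVal)

theorem gU_jS (γ : SU K B) : gU k K B S (jS k K B S γ) = jU k K B S γ := rfl

variable (k K B) in
/-- the reduced norm on `B ⊗ k_S` -/
def nrdS : AS k K B S →* AS k K K S where
  toFun a := (nrdK k K B _ a.1, fun v => nrdK k K B _ (a.2 v))
  map_one' := Prod.ext (map_one (nrdK k K B _)) (funext fun _ => map_one (nrdK k K B _))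
  map_mul' a b := Prod.ext (map_mul (nrdK k K B _) a.1 b.1)
    (funext fun v => map_mul (nrdK k K B _) (a.2 v) (b.2 v))

theorem continuous_nrdS : Continuous (nrdS k K B S) :=
  ((continuous_nrdK k K B _).comp continuous_fst).prodMk (continuous_pi fun v =>
    (continuous_nrdK k K B _).comp ((continuous_apply v).comp continuous_snd))

theorem nrdS_jA (x : B) : nrdS k K B S (jA k K B S x) = jA k K K S (Nrd K x) :=
  Prod.ext (nrdK_inc x) (funext fun _ => nrdK_inc x)

theorem mem_range_gU (u : US k K B S) :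
    u ∈ range (gU k K B S) ↔ nrdS k K B S (iU k K B S u) = 1 :=
  ⟨by rintro ⟨g, rfl⟩
      exact Prod.ext ((mem_SUc_iff _).1 g.1.2) (funext fun v => (mem_SUc_iff _).1 (g.2 v).2),
    fun h => ⟨(⟨u.1, (mem_SUc_iff _).2 (congrArg Prod.fst h)⟩, fun v =>
      ⟨u.2 v, (mem_SUc_iff _).2 (congrFun (congrArg Prod.snd h) v)⟩), rfl⟩⟩

variable (Λ : Ord K B)

theorem exists_GamU {u : US k K B S} (h : iU k K B S u ∈ (Λ.Off S).map (jA k K B S)) :
    ∃ γ ∈ Λ.GamU S, jU k K B S γ = u := by
  obtain ⟨x, hx, e⟩ := h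
  obtain ⟨h1, h2⟩ := (mem_range_iU S _).1 ⟨u, e.symm⟩
  rw [star_jA, ← map_mul, ← map_one (jA k K B S), (jA_injective S).eq_iff] at h1 h2
  exact ⟨⟨x, h1, h2⟩, hx, (isEmbedding_iU S).injective e⟩

theorem exists_Gam {g : GS k K B S}
    (h : iU k K B S (gU k K B S g) ∈ (Λ.Off S).map (jA k K B S)) :
    ∃ γ ∈ Λ.Gam S, jS k K B S γ = g := by
  obtain ⟨γ, hγ, e⟩ := exists_GamU S Λ h
  have h1 := (mem_range_gU S _).1 ⟨g, e.symm⟩
  rw [iU_jU, nrdS_jA, ← map_one (jA k K K S), (jA_injective S).eq_iff] at h1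
  exact ⟨⟨γ, h1⟩, hγ, (isEmbedding_gU S).injective e⟩

theorem disc_GamU :
    ∃ V ∈ 𝓝 (1 : US k K B S), ∀ γ ∈ Λ.GamU S, jU k K B S γ ∈ V → γ = 1 := by
  obtain ⟨N, hN, h⟩ := (alat_Off S Λ).disc
  have hc : Continuous fun u => iU k K B S u - 1 := (isEmbedding_iU S).continuous.sub continuous_const
  refine ⟨_, hc.continuousAt.preimage_mem_nhds (by rwa [map_one, sub_self]), fun γ hγ hV => ?_⟩
  have := h _ ⟨(γ : B) - 1, (Λ.Off S).sub_mem hγ (Λ.Off S).one_mem, rfl⟩
    (by rw [map_sub, map_one]; exact hV)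
  rw [← map_zero (jA k K B S), (jA_injective S).eq_iff, sub_eq_zero] at this
  exact Subtype.ext this

theorem disc_Gam :
    ∃ V ∈ 𝓝 (1 : GS k K B S), ∀ γ ∈ Λ.Gam S, jS k K B S γ ∈ V → γ = 1 := by
  obtain ⟨V, hV, h⟩ := disc_GamU S Λ
  exact ⟨_, (isEmbedding_gU S).continuous.continuousAt.preimage_mem_nhds (by rwa [map_one]),
    fun γ hγ hV => Subtype.ext (h _ hγ hV)⟩

theorem coc_GamU (hB : Aniso B) : ∃ C : Set (US k K B S), IsCompact C ∧
    ∀ x, ∃ γ ∈ Λ.GamU S, (jU k K B S γ)⁻¹ * x ∈ C := by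
  obtain ⟨C, hC, h⟩ := (lat_Off S Λ hB).group (Z := Unit) 1 continuous_const
    (fun _ _ => toFinite _) (iU k K B S) (isEmbedding_iU S)
    (fun a => (mem_range_iU S a).trans ⟨fun h => ⟨h.1, h.2, rfl⟩, fun h => ⟨h.1, h.2.1⟩⟩)
  refine ⟨C, hC, fun x => ?_⟩
  obtain ⟨u, hu, c, hc, rfl⟩ := h x
  obtain ⟨γ, hγ, rfl⟩ := exists_GamU S Λ hu
  exact ⟨γ, hγ, by rwa [inv_mul_cancel_left]⟩

theorem coc_Gam (hB : Aniso B) : ∃ C : Set (GS k K B S), IsCompact C ∧
    ∀ x, ∃ γ ∈ Λ.Gam S, (jS k K B S γ)⁻¹ * x ∈ C := by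
  obtain ⟨C, hC, h⟩ := (lat_Off S Λ hB).group (nrdS k K B S) (continuous_nrdS S)
    (fun C hC => (finite_inter _ (alat_Off S Λ.ctr).disc hC).subset (inter_subset_inter_right _ (by
      rintro _ ⟨_, ⟨x, hx, rfl⟩, rfl⟩
      exact ⟨_, Λ.Nrd_mem_Off hx, (nrdS_jA S x).symm⟩)))
    ((iU k K B S).comp (gU k K B S)) ((isEmbedding_iU S).comp (isEmbedding_gU S))
    (fun a => ⟨by
      rintro ⟨g, rfl⟩
      obtain ⟨h1, h2⟩ := (mem_range_iU S _).1 ⟨gU k K B S g, rfl⟩
      exact ⟨h1, h2, (mem_range_gU S _).1 ⟨g, rfl⟩⟩, fun ⟨h1, h2, h3⟩ => by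
      obtain ⟨u, rfl⟩ := (mem_range_iU S a).2 ⟨h1, h2⟩
      obtain ⟨g, rfl⟩ := (mem_range_gU S u).2 h3
      exact ⟨g, rfl⟩⟩)
  refine ⟨C, hC, fun x => ?_⟩
  obtain ⟨u, hu, c, hc, rfl⟩ := h x
  obtain ⟨γ, hγ, rfl⟩ := exists_Gam S Λ hu
  exact ⟨γ, hγ, by rwa [inv_mul_cancel_left]⟩

open scoped Classical

variable (k K B) in
/-- forget the place `v` -/
def prS (v : Pl k) : GS k K B (insert v S) →* GS k K B S where
  toFun g := (g.1, fun w => g.2 ⟨w.1, Finset.mem_insert_of_mem w.2⟩)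
  map_one' := rfl
  map_mul' _ _ := rfl

variable (k K B) in
/-- the component at `v` -/
def prV (v : Pl k) : GS k K B (insert v S) →* SUc k K B (Kv v) where
  toFun g := g.2 ⟨v, Finset.mem_insert_self v S⟩
  map_one' := rfl
  map_mul' _ _ := rfl

theorem continuous_prS (v : Pl k) : Continuous (prS k K B S v) :=
  continuous_fst.prodMk (continuous_pi fun _ => (continuous_apply _).comp continuous_snd)

theorem continuous_prV (v : Pl k) : Continuous (prV k K B S v) :=
  (continuous_apply _).comp continuous_snd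

/-- extension by `1` -/
def ext1 (x : GS k K B S) (w : Pl k) : SUc k K B (Kv w) := if h : w ∈ S then x.2 ⟨w, h⟩ else 1

theorem ext1_pos (x : GS k K B S) {w : Pl k} (h : w ∈ S) : ext1 S x w = x.2 ⟨w, h⟩ := dif_pos h

theorem continuous_ext1 : Continuous (ext1 (k := k) (K := K) (B := B) S) := by
  refine continuous_pi fun w => ?_
  by_cases h : w ∈ S
  · simp only [ext1, dif_pos h]; fun_prop
  · simp only [ext1, dif_neg h]; fun_prop

/-- add the place `v` -/
def glue (v : Pl k) (x : SUc k K B (Kv v) × GS k K B S) : GS k K B (insert v S) :=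
  (x.2.1, fun w => Function.update (ext1 S x.2) v x.1 w.1)

theorem continuous_glue (v : Pl k) : Continuous (glue (k := k) (K := K) (B := B) S v) :=
  (continuous_fst.comp continuous_snd).prodMk (continuous_pi fun w => (continuous_apply w.1).comp
    (((continuous_ext1 S).comp continuous_snd).update v continuous_fst))

theorem prV_glue (v : Pl k) (x : SUc k K B (Kv v) × GS k K B S) :
    prV k K B S v (glue S v x) = x.1 := (Function.update_self v x.1 (ext1 S x.2) :)

theorem prS_glue {v : Pl k} (hv : v ∉ S) (x : SUc k K B (Kv v) × GS k K B S) :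
    prS k K B S v (glue S v x) = x.2 :=
  Prod.ext rfl (funext fun w => ((Function.update_of_ne (fun h : w.1 = v => hv (h ▸ w.2)) x.1
    (ext1 S x.2)).trans (ext1_pos S x.2 w.2) :))

theorem glue_pr (v : Pl k) (g : GS k K B (insert v S)) :
    glue S v (prV k K B S v g, prS k K B S v g) = g := by
  refine Prod.ext rfl (funext fun ⟨w, hw⟩ => ?_)
  by_cases h : w = v
  · subst h; exact Function.update_self w (prV k K B S w g) (ext1 S (prS k K B S w g))
  · exact (Function.update_of_ne h (prV k K B S v g) (ext1 S (prS k K B S v g))).trans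
      (ext1_pos S _ ((Finset.mem_insert.1 hw).resolve_left h))

end Grp

variable (k K B) in
theorem coc (hB : Aniso B) : Coc k K B := by
  classical
  intro Λ S
  refine ⟨disc_GamU S Λ, coc_GamU S Λ hB, coc_Gam S Λ hB, fun v hv s => ?_⟩
  obtain ⟨e, he⟩ := splIso k K B v s
  constructor
  · obtain ⟨V, hV, h⟩ := disc_Gam (insert v S) Λ
    have hc : Continuous fun x : Matrix.SpecialLinearGroup (Fin (deg K B)) (Kv v) × GS k K B S =>
        glue S v (e.symm x.1, x.2) :=
      (continuous_glue S v).comp ((e.symm.continuous.comp continuous_fst).prodMk continuous_snd)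
    have h1 : glue S v (e.symm 1, (1 : GS k K B S)) = 1 := by
      rw [map_one]; exact glue_pr S v 1
    obtain ⟨V₁, h₁, V₂, h₂, hs⟩ := mem_nhds_prod_iff.1
      (hc.continuousAt (x := (1, 1)).preimage_mem_nhds (by rwa [h1]))
    refine ⟨V₁, h₁, V₂, h₂, fun γ hγ g1 g2 => h γ hγ ?_⟩
    have := hs (mk_mem_prod g1 g2)
    rw [mem_preimage, ← he, ContinuousMulEquiv.symm_apply_apply] at this
    rwa [← glue_pr S v (jS k K B (insert v S) γ)]
  · obtain ⟨C, hC, h⟩ := coc_Gam (insert v S) Λ hB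
    refine ⟨e '' (prV k K B S v '' C), prS k K B S v '' C,
      (hC.image (continuous_prV S v)).image e.continuous, hC.image (continuous_prS S v),
      fun x₁ x₂ => ?_⟩
    obtain ⟨γ, hγ, hc⟩ := h (glue S v (e.symm x₁, x₂))
    refine ⟨γ, hγ, ⟨_, ⟨_, hc, rfl⟩, ?_⟩, ⟨_, hc, ?_⟩⟩
    · rw [map_mul, map_inv, prV_glue, map_mul, map_inv, ContinuousMulEquiv.apply_symm_apply, ← he]
      rfl
    · rw [map_mul, map_inv, prS_glue S hv]
      rfl

theorem cocStmt : CocStmt.{u, v, w} := fun D => coc D.k D.K D.B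

end Crest.Agent.T24
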