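import Crest.Agent.T24.HgtB_88

/-!
# Row 24, heights: equidistribution in `ℝ^ι × F` from equidistribution in boxes
-/

set_option autoImplicit false
set_option linter.unusedSectionVars false
set_option linter.style.haveILetI false

noncomputable section

namespace Crest.Agent.T24.Hgt

open Filter Topology Module MeasureTheory
open scoped Pointwise

universe u

variable {B : Type*} [Ring B] [Algebra ℚ B] [StarRing B]

/-- the conclusion of `HtStmt` at `M` -/
def Ht (O : Subring B) (M : ℕ) : Prop :=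
  (∀ s : ℝ, 1 < s → Summable (wt O M s) ∧ 1 ≤ Z O M s) ∧
    Tendsto (Z O M) (𝓝[>] 1) atTop ∧
    ∀ (ι : Type) [Fintype ι] (be : ι → B) (co : B →ₗ[ℚ] ι → ℚ), Co O be co →
      ∀ ψ : (ι → ℝ) → ℝ, Continuous ψ → HasCompactSupport ψ →
        (∀ s : ℝ, 1 < s →
          Summable fun a : Jn (Loc O M) => H O M (a : B) ^ (-s) * ψ fun i => (co a i : ℝ)) ∧
        Tendsto (fun s => (∑' a : Jn (Loc O M), H O M (a : B) ^ (-s) * ψ fun i => (co a i : ℝ)) / Z O M s)
          (𝓝[>] 1) (𝓝 (∫ y, ψ y))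

/-- the normalised weight -/
def W (O : Subring B) (M : ℕ) (s : ℝ) (a : B) : ℝ := H O M a ^ (-s) / Z O M s

/-- summable, with limit `c` -/
def Gd (O : Subring B) (M : ℕ) (f : selfAdjoint B → ℝ) (c : ℝ) : Prop :=
  (∀ s : ℝ, 1 < s → Summable fun a : selfAdjoint B => W O M s a * f a) ∧
    Tendsto (fun s => ∑' a : selfAdjoint B, W O M s a * f a) (𝓝[>] 1) (𝓝 c)

variable {O : Subring B} {θ : B} {M : ℕ}

theorem Ord.W_nonneg (h : Ord O θ) (M : ℕ) (s : ℝ) (a : B) : 0 ≤ W O M s a :=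
  div_nonneg (Real.rpow_nonneg (h.H_pos M a).le _)
    (tsum_nonneg fun _ => Real.rpow_nonneg (h.H_pos M _).le _)

theorem Gd.zero : Gd O M (fun _ => 0) 0 := ⟨fun s _ => by simp, by simp⟩

theorem Gd.add {f g : selfAdjoint B → ℝ} {c d : ℝ} (hf : Gd O M f c) (hg : Gd O M g d) :
    Gd O M (fun a => f a + g a) (c + d) := by
  refine ⟨fun s hs => by simpa [mul_add] using (hf.1 s hs).add (hg.1 s hs), (hf.2.add hg.2).congr' ?_⟩
  filter_upwards [self_mem_nhdsWithin] with s hs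
  simp only [mul_add]
  exact ((hf.1 s hs).tsum_add (hg.1 s hs)).symm

theorem Gd.sum {T : Type*} (F : Finset T) {f : T → selfAdjoint B → ℝ} {c : T → ℝ}
    (h : ∀ t ∈ F, Gd O M (f t) (c t)) : Gd O M (fun a => ∑ t ∈ F, f t a) (∑ t ∈ F, c t) := by
  classical
  induction F using Finset.induction_on with
  | empty => simpa using Gd.zero
  | insert t F ht ih =>
    simp only [Finset.sum_insert ht]
    exact (h t (Finset.mem_insert_self _ _)).add (ih fun u hu => h u (Finset.mem_insert_of_mem hu))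

theorem Gd.unique {f : selfAdjoint B → ℝ} {c d : ℝ} (hf : Gd O M f c) (hg : Gd O M f d) : c = d :=
  tendsto_nhds_unique hf.2 hg.2

theorem Gd.approx (hO : Ord O θ) {f h : selfAdjoint B → ℝ} {c d : ℝ} (hh : Gd O M h d)
    (H : ∀ ε : ℝ, 0 < ε → ∃ g c', Gd O M g c' ∧ (∀ a, |f a - g a| ≤ ε * h a) ∧ |c - c'| ≤ ε * d) :
    Gd O M f c := by
  have key : ∀ {ε : ℝ} {g : selfAdjoint B → ℝ}, (∀ a, |f a - g a| ≤ ε * h a) → ∀ s a,
      ‖W O M s (a : selfAdjoint B) * f a - W O M s a * g a‖ ≤ ε * (W O M s a * h a) := by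
    intro ε g hg s a
    rw [← mul_sub, Real.norm_eq_abs, abs_mul, abs_of_nonneg (hO.W_nonneg M s a), mul_left_comm]
    exact mul_le_mul_of_nonneg_left (hg a) (hO.W_nonneg M s a)
  have hs : ∀ s : ℝ, 1 < s → Summable fun a : selfAdjoint B => W O M s a * f a := by
    intro s hs
    obtain ⟨g, c', hg, h1, -⟩ := H 1 one_pos
    have := (Summable.of_norm_bounded ((hh.1 s hs).mul_left 1) (key h1 s)).add (hg.1 s hs)
    simpa using this
  refine ⟨hs, Metric.tendsto_nhds.2 fun δ hδ => ?_⟩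
  have hp : 0 < 2 * |d| + 3 := by positivity
  obtain ⟨g, c', hg, h1, h2⟩ := H (δ / (2 * |d| + 3)) (div_pos hδ hp)
  set ε := δ / (2 * |d| + 3) with hε
  have hε0 : 0 < ε := div_pos hδ hp
  have hδε : δ = ε * (2 * |d| + 3) := by rw [hε]; field_simp
  filter_upwards [self_mem_nhdsWithin, Metric.tendsto_nhds.1 hg.2 ε hε0, Metric.tendsto_nhds.1 hh.2 1 one_pos]
    with s hs1 e1 e2
  have e3 := tsum_of_norm_bounded ((hh.1 s hs1).mul_left ε).hasSum (key h1 s)
  rw [(hs s hs1).tsum_sub (hg.1 s hs1), tsum_mul_left, Real.norm_eq_abs] at e3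
  rw [Real.dist_eq] at e1 e2 ⊢
  have e4 := (abs_lt.1 e2).2
  have e5 := le_abs_self d
  have e6 : ε * ∑' a : selfAdjoint B, W O M s a * h a ≤ ε * (|d| + 1) :=
    mul_le_mul_of_nonneg_left (by linarith) hε0.le
  have e7 : ε * d ≤ ε * |d| := mul_le_mul_of_nonneg_left e5 hε0.le
  rw [abs_le] at e3 h2
  rw [abs_lt] at e1 ⊢
  constructor <;> nlinarith

/-- `M^j Loc O M` -/
def Lj (O : Subring B) (M j : ℕ) : AddSubgroup (selfAdjoint B) where
  carrier := {a | ∃ x ∈ Loc O M, (a : B) = (M : B) ^ j * x}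
  zero_mem' := ⟨0, Subring.zero_mem _, by simp⟩
  add_mem' := by
    rintro a b ⟨x, hx, e⟩ ⟨y, hy, e'⟩
    exact ⟨x + y, Subring.add_mem _ hx hy, by simp [e, e', mul_add]⟩
  neg_mem' := by
    rintro a ⟨x, hx, e⟩
    exact ⟨-x, Subring.neg_mem _ hx, by simp [e]⟩

theorem Lj_anti {i j : ℕ} (h : i ≤ j) : Lj O M j ≤ Lj O M i := by
  rintro a ⟨x, hx, e⟩
  obtain ⟨t, rfl⟩ := Nat.exists_eq_add_of_le h
  exact ⟨(M : B) ^ t * x, Subring.mul_mem _ (Subring.pow_mem _ (natCast_mem _ _) _) hx,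
    by rw [e, pow_add, mul_assoc]⟩

theorem pow_mul_eq (M j : ℕ) (x : B) : (M : B) ^ j * x = (M : ℚ) ^ j • x := by
  rw [← Nat.cast_pow, natCast_mul_eq, Nat.cast_pow]

/-- additive strong approximation over `ℚ` -/
theorem Ord.split (h : Ord O θ) (hM : M ≠ 0) (j : ℕ) (a : selfAdjoint B) :
    ∃ b : selfAdjoint B, (b : B) ∈ OS O M ∧ a - b ∈ Lj O M j := by
  obtain ⟨m, hm, ha⟩ := h.full a
  obtain ⟨m₂, hm₂⟩ : Nat.gcd m (M ^ m) ∣ m := Nat.gcd_dvd_left _ _
  obtain ⟨m₃, hm₃⟩ : Nat.gcd m (M ^ m) ∣ M ^ m := Nat.gcd_dvd_right _ _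
  have hm₂0 : m₂ ≠ 0 := by rintro rfl; exact hm (by simpa using hm₂)
  have hc : m₂.Coprime M := by
    by_contra hc
    obtain ⟨q, hq, h1, h2⟩ := Nat.Prime.not_coprime_iff_dvd.1 hc
    have hg0 : Nat.gcd m (M ^ m) ≠ 0 := Nat.gcd_ne_zero_left hm
    have e1 : m.factorization q = (Nat.gcd m (M ^ m)).factorization q + m₂.factorization q := by
      conv_lhs => rw [hm₂]
      rw [Nat.factorization_mul hg0 hm₂0]; rfl
    have e2 := hq.factorization_pos_of_dvd hm₂0 h1
    have e3 := hq.factorization_pos_of_dvd hM h2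
    have e4 : m.factorization q < m := Nat.factorization_lt q hm
    rw [Nat.factorization_gcd hm (pow_ne_zero _ hM), Finsupp.inf_apply, Nat.factorization_pow,
      Finsupp.smul_apply, smul_eq_mul, min_eq_left (by nlinarith)] at e1
    omega
  have hb := Nat.gcd_eq_gcd_ab m₂ (M ^ (m + j))
  rw [(hc.pow_right _).gcd_eq_one] at hb
  set u := Nat.gcdA m₂ (M ^ (m + j))
  set v := Nat.gcdB m₂ (M ^ (m + j))
  have hbq : (1 : ℚ) = m₂ * u + (M : ℚ) ^ (m + j) * v := by exact_mod_cast hb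
  have hq2 : (m : ℚ) * m₃ = (M : ℚ) ^ m * m₂ := by
    have : m * m₃ = M ^ m * m₂ := by
      conv_lhs => rw [hm₂]
      conv_rhs => rw [hm₃]
      ring
    exact_mod_cast this
  have hO : ∀ z : ℤ, (z : ℚ) • ((M : ℚ) ^ m * m₂) • (a : B) ∈ O := fun z => by
    rw [← hq2, mul_comm, mul_smul, ← natCast_mul_eq m, ← natCast_mul_eq, ← intCast_mul_eq]
    exact O.mul_mem (intCast_mem _ _) (O.mul_mem (natCast_mem _ _) ha)
  refine ⟨((m₂ : ℚ) * u) • a, ⟨m, ?_⟩, ((M : ℚ) ^ m * v) • (a : B), ⟨m₂, hc, hm₂0, ?_⟩, ?_⟩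
  · have := hO u
    rw [pow_mul_eq, selfAdjoint.val_smul, smul_smul]
    rw [smul_smul] at this
    convert this using 2; ring
  · have := hO v
    rw [natCast_mul_eq, smul_smul]
    rw [smul_smul] at this
    convert this using 2; ring
  · rw [pow_mul_eq, smul_smul, AddSubgroup.coe_sub, selfAdjoint.val_smul]
    conv_lhs => enter [1]; rw [← one_smul ℚ (a : B), hbq]
    rw [← sub_smul]; congr 1; ring

open Classical in
theorem Ht.box (hO : Ord O θ) (hM : M ≠ 0) (hH : Ht O M) {ι : Type} [Fintype ι] {be : ι → B}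
    {co : B →ₗ[ℚ] ι → ℚ} (hc : Co O be co) (j : ℕ) (a₀ : selfAdjoint B) {φ : (ι → ℝ) → ℝ}
    (h1 : Continuous φ) (h2 : HasCompactSupport φ) :
    Gd O M (fun a => if a - a₀ ∈ Lj O M j then φ (fun i => (co a i : ℝ)) else 0)
      ((((M : ℝ) ^ j) ^ Fintype.card ι)⁻¹ * ∫ y, φ y) := by
  obtain ⟨b, hb, hab⟩ := hO.split hM j a₀
  have hMj : (M : ℝ) ^ j ≠ 0 := pow_ne_zero _ (by exact_mod_cast hM)
  have hMq : (M : ℚ) ^ j ≠ 0 := pow_ne_zero _ (by exact_mod_cast hM)
  let φ' : (ι → ℝ) → ℝ := fun y => φ ((fun i => (co b i : ℝ)) + (M : ℝ) ^ j • y)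
  have h1' : Continuous φ' := by fun_prop
  have h2' : HasCompactSupport φ' :=
    h2.comp_homeomorph ((Homeomorph.smulOfNeZero _ hMj).trans (Homeomorph.addLeft _))
  obtain ⟨hs, ht⟩ := hH.2.2 ι be co hc φ' h1' h2'
  have hI : ∫ y, φ' y = (((M : ℝ) ^ j) ^ Fintype.card ι)⁻¹ * ∫ y, φ y := by
    have := Measure.integral_comp_smul (volume : Measure (ι → ℝ)) (fun y => φ ((fun i => (co b i : ℝ)) + y))
      ((M : ℝ) ^ j)
    rw [integral_add_left_eq_self φ, finrank_fintype_fun_eq_card, abs_of_nonneg (by positivity),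
      smul_eq_mul] at this
    exact this
  let g : Jn (Loc O M) → selfAdjoint B := fun x => b + (M : ℚ) ^ j • ⟨x, x.2.1⟩
  have hg : Function.Injective g := fun x y hxy => by
    have := congrArg Subtype.val (smul_right_injective _ hMq (add_left_cancel hxy))
    exact Subtype.ext this
  have hgm : ∀ a, a - a₀ ∈ Lj O M j ↔ a ∈ Set.range g := fun a => by
    have e : a - a₀ ∈ Lj O M j ↔ a - b ∈ Lj O M j :=
      ⟨fun h => by simpa using add_mem h hab, fun h => by simpa using sub_mem h hab⟩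
    rw [e]
    constructor
    · rintro ⟨x, hx, e'⟩
      rw [pow_mul_eq] at e'
      have hxs : star x = x := by
        have := (a - b).2
        rw [selfAdjoint.mem_iff, e', star_smul, star_trivial] at this
        exact smul_right_injective _ hMq this
      refine ⟨⟨x, hxs, hx⟩, Subtype.ext ?_⟩
      change (b : B) + (M : ℚ) ^ j • x = a
      rw [← e']; simp
    · rintro ⟨x, rfl⟩
      exact ⟨x, x.2.2, by simp [g, pow_mul_eq]⟩
  have hv : ∀ s x, W O M s (g x) * (if g x - a₀ ∈ Lj O M j then φ (fun i => (co (g x) i : ℝ)) else 0) =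
      (H O M (x : B) ^ (-s) * φ' fun i => (co x i : ℝ)) / Z O M s := fun s x => by
    rw [if_pos ((hgm _).2 ⟨x, rfl⟩), W, div_mul_eq_mul_div]
    have e : ((g x : selfAdjoint B) : B) = b + (M : ℚ) ^ j • (x : B) := rfl
    rw [e]
    congr 2
    · rw [← pow_mul_eq, hO.H_box hM hb]
    · simp only [φ']; congr 1; ext i; simp
  have hz : ∀ s a, a ∉ Set.range g →
      W O M s (a : selfAdjoint B) * (if a - a₀ ∈ Lj O M j then φ (fun i => (co a i : ℝ)) else 0) = 0 :=
    fun s a ha => by rw [if_neg (fun h => ha ((hgm a).1 h)), mul_zero]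
  refine ⟨fun s hs1 => (hg.summable_iff (hz s)).1 ?_, ?_⟩
  · exact ((hs s hs1).div_const (Z O M s)).congr fun x => (hv s x).symm
  · rw [← hI]
    refine ht.congr fun s => ?_
    rw [← hg.tsum_eq (fun a ha => by by_contra h; exact ha (hz s a h)), ← tsum_div_const]
    exact tsum_congr fun x => (hv s x).symm

section fin

variable {F : Type*} [AddCommGroup F] [TopologicalSpace F] [IsTopologicalAddGroup F]

/-- the topology of `F` induces the `M`-adic topology, with dense image -/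
structure Adic (O : Subring B) (M : ℕ) (jf : selfAdjoint B →+ F) : Prop where
  dense : DenseRange jf
  small : ∀ N ∈ 𝓝 (0 : F), ∃ n, ∀ a ∈ Lj O M n, jf a ∈ N
  link : ∀ j, ∃ N ∈ 𝓝 (0 : F), ∀ a, jf a ∈ N → a ∈ Lj O M j

/-- the closure of `M^j Loc` -/
def Uj (O : Subring B) (M : ℕ) (jf : selfAdjoint B →+ F) (j : ℕ) : AddSubgroup F :=
  ((Lj O M j).map jf).topologicalClosure

variable {jf : selfAdjoint B →+ F}

theorem Uj_anti {i j : ℕ} (h : i ≤ j) : Uj O M jf j ≤ Uj O M jf i :=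
  closure_mono (AddSubgroup.map_mono (Lj_anti h))

theorem Adic.isOpen (h : Adic O M jf) (j : ℕ) : IsOpen (Uj O M jf j : Set F) := by
  obtain ⟨N, hN, hl⟩ := h.link j
  refine AddSubgroup.isOpen_of_mem_nhds _ (g := 0) (mem_of_superset (interior_mem_nhds.2 hN) fun y hy => ?_)
  refine closure_mono ?_ (h.dense.open_subset_closure_inter isOpen_interior hy)
  rintro _ ⟨h1, a, rfl⟩
  exact ⟨a, hl a (interior_subset h1), rfl⟩

theorem Adic.mem (h : Adic O M jf) {j : ℕ} {a : selfAdjoint B} : jf a ∈ Uj O M jf j ↔ a ∈ Lj O M j := by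
  refine ⟨fun ha => ?_, fun ha => subset_closure ⟨a, ha, rfl⟩⟩
  obtain ⟨N, hN, hl⟩ := h.link j
  have hc : ContinuousAt (fun y => jf a - y) (jf a) := by fun_prop
  obtain ⟨_, h1, b, hb, rfl⟩ := mem_closure_iff_nhds.1 ha _ (hc.preimage_mem_nhds (by rwa [sub_self]))
  simpa using add_mem (hl (a - b) (by rwa [map_sub])) hb

theorem Adic.basis [T2Space F] [LocallyCompactSpace F] (h : Adic O M jf) {N : Set F} (hN : N ∈ 𝓝 (0 : F)) :
    ∃ n, (Uj O M jf n : Set F) ⊆ N := by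
  obtain ⟨C, hC, hCN, hc⟩ := local_compact_nhds hN
  obtain ⟨n, hn⟩ := h.small C hC
  refine ⟨n, (closure_minimal ?_ hc.isClosed).trans hCN⟩
  rintro _ ⟨a, ha, rfl⟩
  exact hn a ha

variable [T2Space F] [LocallyCompactSpace F] [SecondCountableTopology F] [MeasurableSpace F] [BorelSpace F]
  {ι : Type} [Fintype ι] {be : ι → B} {co : B →ₗ[ℚ] ι → ℚ}

open Classical in
/-- finite sums of boxes -/
def bx (U : AddSubgroup F) (T : Finset (F ⧸ U)) (Φ : F ⧸ U → (ι → ℝ) → ℝ) (z : (ι → ℝ) × F) : ℝ :=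
  if (z.2 : F ⧸ U) ∈ T then Φ z.2 z.1 else 0

open Classical in
theorem bx_eq (U : AddSubgroup F) (T : Finset (F ⧸ U)) (Φ : F ⧸ U → (ι → ℝ) → ℝ) (z : (ι → ℝ) × F) :
    bx U T Φ z = ∑ c ∈ T, if (z.2 : F ⧸ U) = c then Φ c z.1 else 0 := by
  rw [Finset.sum_ite_eq, bx]

theorem Adic.bx_gd (h : Adic O M jf) (hO : Ord O θ) (hM : M ≠ 0) (hH : Ht O M) (hc : Co O be co) (j : ℕ)
    (T : Finset (F ⧸ Uj O M jf j)) {Φ : F ⧸ Uj O M jf j → (ι → ℝ) → ℝ}
    (h1 : ∀ c, Continuous (Φ c)) (h2 : ∀ c, HasCompactSupport (Φ c)) :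
    Gd O M (fun a => bx _ T Φ (fun i => (co a i : ℝ), jf a))
      ((((M : ℝ) ^ j) ^ Fintype.card ι)⁻¹ * ∑ c ∈ T, ∫ y, Φ c y) := by
  classical
  simp only [bx_eq, Finset.mul_sum]
  refine Gd.sum T fun c _ => ?_
  have hc' : ContinuousAt (fun y => -c.out + y) c.out := by fun_prop
  obtain ⟨_, e1, a₀, rfl⟩ := mem_closure_iff_nhds.1 (h.dense c.out) _
    (hc'.preimage_mem_nhds ((h.isOpen j).mem_nhds (by simp [zero_mem])))
  have e2 : (jf a₀ : F ⧸ Uj O M jf j) = c := by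
    rw [← c.out_eq', eq_comm, QuotientAddGroup.eq]; exact e1
  convert hH.box hO hM hc j a₀ (h1 c) (h2 c) using 3 with a
  rw [← e2, eq_comm, QuotientAddGroup.eq, ← h.mem, map_sub, neg_add_eq_sub]

theorem bx_int (ν : Measure F) [ν.IsAddHaarMeasure] {U : AddSubgroup F} (ho : IsOpen (U : Set F))
    (hU : IsCompact (U : Set F)) (T : Finset (F ⧸ U)) {Φ : F ⧸ U → (ι → ℝ) → ℝ}
    (h1 : ∀ c, Continuous (Φ c)) (h2 : ∀ c, HasCompactSupport (Φ c)) :
    Integrable (bx U T Φ) (volume.prod ν) ∧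
      ∫ z, bx U T Φ z ∂(volume.prod ν) = ν.real U * ∑ c ∈ T, ∫ y, Φ c y := by
  classical
  have e : bx U T Φ = fun z => ∑ c ∈ T,
      Φ c z.1 * ((fun y => -c.out + y) ⁻¹' (U : Set F)).indicator (1 : F → ℝ) z.2 := by
    ext z
    rw [bx_eq]
    refine Finset.sum_congr rfl fun c _ => ?_
    have : (z.2 : F ⧸ U) = c ↔ z.2 ∈ (fun y => -c.out + y) ⁻¹' (U : Set F) := by
      conv_lhs => rw [← c.out_eq', eq_comm, QuotientAddGroup.eq]
      rfl
    simp only [this, Set.indicator_apply]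
    split_ifs <;> simp
  have hm : ∀ c : F ⧸ U, MeasurableSet ((fun y => -c.out + y) ⁻¹' (U : Set F)) := fun c =>
    (ho.preimage (by fun_prop)).measurableSet
  have hi : ∀ c ∈ T, Integrable (fun z : (ι → ℝ) × F =>
      Φ c z.1 * ((fun y => -c.out + y) ⁻¹' (U : Set F)).indicator (1 : F → ℝ) z.2) (volume.prod ν) := by
    intro c _
    refine Integrable.mul_prod ((h1 c).integrable_of_hasCompactSupport (h2 c)) ?_
    refine (integrable_indicator_iff (hm c)).2 (integrableOn_const ?_)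
    rw [measure_preimage_add]; exact hU.measure_lt_top.ne
  rw [e]
  refine ⟨integrable_finsetSum _ hi, ?_⟩
  rw [integral_finsetSum _ hi, Finset.mul_sum]
  refine Finset.sum_congr rfl fun c _ => ?_
  rw [integral_prod_mul (Φ c), integral_indicator_one (hm c), mul_comm, Measure.real, measure_preimage_add]
  rfl

theorem fin_image {U : AddSubgroup F} (ho : IsOpen (U : Set F)) {K : Set F} (hK : IsCompact K) :
    ∃ T : Finset (F ⧸ U), ∀ c, c ∈ T ↔ ∃ y ∈ K, (y : F ⧸ U) = c := by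
  haveI := QuotientAddGroup.discreteTopology ho
  have := (hK.image (QuotientAddGroup.continuous_mk (N := U))).finite_of_discrete
  exact ⟨this.toFinset, fun c => by simp⟩

theorem Adic.eq_prod (h : Adic O M jf) (hO : Ord O θ) (hM : M ≠ 0) (hH : Ht O M) (hc : Co O be co) :
    ∃ ν : Measure F, ν.IsAddHaarMeasure ∧ ∀ ψ : (ι → ℝ) × F → ℝ, Continuous ψ → HasCompactSupport ψ →
      Gd O M (fun a => ψ (fun i => (co a i : ℝ), jf a)) (∫ z, ψ z ∂(volume.prod ν)) := by
  classical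
  obtain ⟨C, hC, hC0⟩ := exists_compact_mem_nhds (0 : F)
  obtain ⟨j₀, hj₀⟩ := h.basis hC0
  have hcp : ∀ j, j₀ ≤ j → IsCompact (Uj O M jf j : Set F) := fun j hj =>
    hC.of_isClosed_subset isClosed_closure (Set.Subset.trans (Uj_anti hj) hj₀)
  let K₀ : TopologicalSpace.PositiveCompacts F :=
    ⟨⟨_, hcp j₀ le_rfl⟩, ⟨0, by rw [(h.isOpen j₀).interior_eq]; exact zero_mem _⟩⟩
  let r : ℕ → ℝ := fun j => (((M : ℝ) ^ j) ^ Fintype.card ι)⁻¹
  have hr : ∀ j, 0 < r j := fun j => by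
    have : (0 : ℝ) < M := by exact_mod_cast Nat.pos_of_ne_zero hM
    positivity
  let ν : Measure F := ENNReal.ofReal (r j₀) • Measure.addHaarMeasure K₀
  haveI hν : ν.IsAddHaarMeasure :=
    Measure.IsAddHaarMeasure.smul _ (by simpa using hr j₀) ENNReal.ofReal_ne_top
  have hν0 : ν.real (Uj O M jf j₀) = r j₀ := by
    have : Measure.addHaarMeasure K₀ (Uj O M jf j₀) = 1 := Measure.addHaarMeasure_self (K₀ := K₀)
    rw [Measure.real, Measure.smul_apply, this, smul_eq_mul, mul_one, ENNReal.toReal_ofReal (hr j₀).le]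
  have hνj : ∀ j, j₀ ≤ j → ν.real (Uj O M jf j) = r j := by
    intro j hj
    obtain ⟨φ, p2, p3, p4⟩ := exists_continuous_nonneg_pos (0 : ι → ℝ)
    have hφ : 0 < ∫ y, φ y := φ.continuous.integral_pos_of_hasCompactSupport_nonneg_nonzero p2 p3 p4
    obtain ⟨T, hT⟩ := fin_image (h.isOpen j) (hcp j₀ le_rfl)
    have e : bx (Uj O M jf j) T (fun _ => φ) = bx (Uj O M jf j₀) {0} (fun _ => φ) := by
      ext z
      simp only [bx, Finset.mem_singleton, QuotientAddGroup.eq_zero_iff, hT]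
      refine if_congr ⟨?_, fun hz => ⟨_, hz, rfl⟩⟩ rfl rfl
      rintro ⟨y, hy, e⟩
      simpa using add_mem hy (Uj_anti hj (QuotientAddGroup.eq.1 e))
    have a1 := h.bx_gd hO hM hH hc j T (Φ := fun _ => φ) (fun _ => φ.continuous) fun _ => p2
    have a2 := h.bx_gd hO hM hH hc j₀ {0} (Φ := fun _ => φ) (fun _ => φ.continuous) fun _ => p2
    have a3 := (bx_int ν (h.isOpen j) (hcp j hj) T (Φ := fun _ => φ) (fun _ => φ.continuous) fun _ => p2).2
    have a4 := (bx_int ν (h.isOpen j₀) (hcp j₀ le_rfl) {0} (Φ := fun _ => φ) (fun _ => φ.continuous)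
      fun _ => p2).2
    rw [e] at a1 a3
    have a5 := a1.unique a2
    rw [a4, hν0] at a3
    change r j * _ = r j₀ * _ at a5
    have hne : ∑ c ∈ T, ∫ y, φ y ≠ 0 := by
      intro h0
      rw [h0, mul_zero, Finset.sum_singleton] at a5
      exact (mul_pos (hr j₀) hφ).ne a5
    exact mul_right_cancel₀ hne (a3.symm.trans a5.symm)
  refine ⟨ν, hν, fun ψ p1 p2 => ?_⟩
  have hK1 : IsCompact (Prod.fst '' tsupport ψ) := p2.isCompact.image continuous_fst
  have hK2 : IsCompact (Prod.snd '' tsupport ψ) := p2.isCompact.image continuous_snd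
  obtain ⟨φ, q1, -, q3, q4⟩ := exists_continuous_one_zero_of_isCompact hK1 isClosed_empty (by simp)
  obtain ⟨T₀, hT₀⟩ := fin_image (h.isOpen j₀) hK2
  have g0 := h.bx_gd hO hM hH hc j₀ T₀ (Φ := fun _ => φ) (fun _ => φ.continuous) fun _ => q3
  obtain ⟨i0, i0'⟩ := bx_int ν (h.isOpen j₀) (hcp j₀ le_rfl) T₀ (Φ := fun _ => φ) (fun _ => φ.continuous)
    fun _ => q3
  refine Gd.approx hO g0 fun ε hε => ?_
  have hu : ∀ᶠ u in 𝓝 (0 : F), ∀ z ∈ (Prod.fst '' tsupport ψ) ×ˢ ((Prod.snd '' tsupport ψ) + (Uj O M jf j₀ : Set F)),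
      |ψ z - ψ (z.1, z.2 + u)| < ε := by
    refine (hK1.prod (hK2.add (hcp j₀ le_rfl))).eventually_forall_of_forall_eventually fun z _ => ?_
    have : Continuous fun x : F × (ι → ℝ) × F => |ψ x.2 - ψ (x.2.1, x.2.2 + x.1)| := by fun_prop
    exact this.continuousAt.eventually_lt continuousAt_const (by simpa using hε)
  obtain ⟨n, hn⟩ := h.basis hu
  have hj : j₀ ≤ max j₀ n := le_max_left _ _
  set j := max j₀ n
  obtain ⟨T, hT⟩ := fin_image (h.isOpen j) hK2
  have c1 : ∀ c : F ⧸ Uj O M jf j, Continuous fun v => ψ (v, c.out) := fun c => by fun_prop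
  have c2 : ∀ c : F ⧸ Uj O M jf j, HasCompactSupport fun v => ψ (v, c.out) := fun c =>
    HasCompactSupport.intro hK1 fun v hv => image_eq_zero_of_notMem_tsupport fun hx => hv ⟨_, hx, rfl⟩
  obtain ⟨i1, i1'⟩ := bx_int ν (h.isOpen j) (hcp j hj) T c1 c2
  have hpt : ∀ z, |ψ z - bx _ T (fun c v => ψ (v, c.out)) z| ≤ ε * bx _ T₀ (fun _ => φ) z := by
    intro z
    have hnn : 0 ≤ ε * bx _ T₀ (fun _ => φ) z := by
      refine mul_nonneg hε.le ?_
      rw [bx]; split_ifs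
      exacts [(q4 _).1, le_rfl]
    by_cases h1 : (z.2 : F ⧸ Uj O M jf j) ∈ T
    · obtain ⟨y, hy, e⟩ := (hT _).1 h1
      have e' := QuotientAddGroup.eq.1 e
      by_cases h2 : z.1 ∈ Prod.fst '' tsupport ψ
      · have h3 : (z.2 : F ⧸ Uj O M jf j₀) ∈ T₀ := (hT₀ _).2 ⟨y, hy, QuotientAddGroup.eq.2 (Uj_anti hj e')⟩
        have h4 : -z.2 + (z.2 : F ⧸ Uj O M jf j).out ∈ Uj O M jf j :=
          QuotientAddGroup.eq.1 (QuotientAddGroup.out_eq' _).symm
        have h5 := hn (Uj_anti (le_max_right _ _) h4) z ⟨h2, y, hy, _, Uj_anti hj e', by simp⟩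
        simp only [bx, if_pos h1, if_pos h3, q1 h2, Pi.one_apply, mul_one]
        simpa using h5.le
      · have h3 : ∀ f, ψ (z.1, f) = 0 := fun f => image_eq_zero_of_notMem_tsupport fun hx => h2 ⟨_, hx, rfl⟩
        rw [bx, if_pos h1, show ψ z = 0 from h3 z.2, h3]
        simpa using hnn
    · have h3 : ψ z = 0 := image_eq_zero_of_notMem_tsupport fun hx => h1 ((hT _).2 ⟨_, ⟨_, hx, rfl⟩, rfl⟩)
      rw [bx, if_neg h1, h3]
      simpa using hnn
  refine ⟨_, _, h.bx_gd hO hM hH hc j T c1 c2, fun a => hpt _, ?_⟩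
  rw [hνj j hj] at i1'
  rw [hν0] at i0'
  change |_ - r j * _| ≤ ε * (r j₀ * _)
  haveI : (volume.prod ν : Measure ((ι → ℝ) × F)).IsAddHaarMeasure := inferInstance
  rw [← i1', ← i0', ← integral_sub (p1.integrable_of_hasCompactSupport p2) i1, ← integral_const_mul]
  exact norm_integral_le_of_norm_le (G := ℝ) (i0.const_mul ε) (Eventually.of_forall fun z => hpt z)

end fin

theorem Ord.exists_co (h : Ord O θ) : ∃ (n : ℕ) (be : Fin n → B) (co : B →ₗ[ℚ] Fin n → ℚ), Co O be co := by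
  let Λ : Submodule ℤ B := (Jn O).toIntSubmodule
  have hfg : Λ.FG := ((Submodule.fg_iff_addSubgroup_fg O.toAddSubgroup.toIntSubmodule).2 h.fg).of_le
    fun x hx => hx.2
  haveI : Module.Finite ℤ Λ := Module.Finite.iff_fg.2 hfg
  haveI : IsAddTorsionFree B := IsAddTorsionFree.of_module_rat B
  let b := Module.finBasis ℤ Λ
  have hli : LinearIndependent ℚ (fun i => (b i : B)) := by
    rw [← LinearIndependent.iff_fractionRing ℤ ℚ]
    exact b.linearIndependent.map' Λ.subtype (Submodule.ker_subtype Λ)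
  have hsum : ∀ y : Λ, (y : B) = ∑ i, ((b.repr y i : ℤ) : ℚ) • (b i : B) := by
    intro y
    have := congrArg Λ.subtype (b.sum_repr y)
    rw [map_sum] at this
    simp only [Int.cast_smul_eq_zsmul]
    exact this.symm
  obtain ⟨co, hco⟩ := (Fintype.linearCombination ℚ fun i => (b i : B)).exists_leftInverse_of_injective
    (LinearMap.ker_eq_bot.2 hli.fintypeLinearCombination_injective)
  have h1 : ∀ x, co (∑ i, x i • (b i : B)) = x := fun x => by
    simpa [Fintype.linearCombination_apply] using LinearMap.congr_fun hco x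
  refine ⟨_, fun i => b i, co, fun i => (b i).2, h1, fun a ha => ?_, fun a ha i => ⟨b.repr ⟨a, ha⟩ i, ?_⟩⟩
  · obtain ⟨m, hm, hx⟩ := h.full a
    have hm' : (m : ℚ) ≠ 0 := by exact_mod_cast hm
    have h2 : (m : B) * a ∈ Jn O := mem_Jn.2 ⟨by rw [natCast_mul_eq, star_smul, star_trivial, ha], hx⟩
    have h3 : (m : ℚ) • a = _ := (natCast_mul_eq m a).symm.trans (hsum ⟨_, h2⟩)
    have h4 : a = ∑ i, ((m : ℚ)⁻¹ * ((b.repr ⟨_, h2⟩ i : ℤ) : ℚ)) • (b i : B) := by
      simp only [mul_smul, ← Finset.smul_sum, ← h3, inv_smul_smul₀ hm']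
    conv_lhs => rw [h4, h1, ← h4]
  · conv_lhs => rw [show a = _ from hsum ⟨a, ha⟩, h1]

theorem Co.card {ι : Type} [Fintype ι] {be : ι → B} {co : B →ₗ[ℚ] ι → ℚ} (hc : Co O be co) :
    finrank ℚ (selfAdjoint B) = Fintype.card ι := by
  let e : selfAdjoint B ≃ₗ[ℚ] (ι → ℚ) :=
    { toFun := fun a => co a
      map_add' := fun a b => by simp
      map_smul' := fun r a => by simp
      invFun := fun x => ∑ i, x i • ⟨be i, (hc.mem i).1⟩
      left_inv := fun a => Subtype.ext (by simpa using hc.be_co a a.2)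
      right_inv := fun x => by simpa using hc.co_be x }
  rw [e.finrank_eq, finrank_fintype_fun_eq_card]

/-- equidistribution in `Z ≅ V × F` -/
theorem eq_abs (hO : Ord O θ) (hM : M ≠ 0) (hH : Ht O M)
    {V : Type*} [AddCommGroup V] [Module ℝ V] [TopologicalSpace V] [IsTopologicalAddGroup V]
    [ContinuousSMul ℝ V] [T2Space V] [FiniteDimensional ℝ V]
    {F : Type*} [AddCommGroup F] [TopologicalSpace F] [IsTopologicalAddGroup F] [T2Space F]
    [LocallyCompactSpace F] [SecondCountableTopology F]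
    {Z : Type*} [AddCommGroup Z] [TopologicalSpace Z] [IsTopologicalAddGroup Z] [MeasurableSpace Z]
    [BorelSpace Z] (e : Z ≃ₜ+ V × F) (iJ : selfAdjoint B →+ Z)
    (h1 : Submodule.span ℝ (Set.range fun a => (e (iJ a)).1) = ⊤)
    (h2 : finrank ℝ V = finrank ℚ (selfAdjoint B))
    (h3 : Adic O M ((AddMonoidHom.snd V F).comp ((e : Z →+ V × F).comp iJ))) :
    ∃ lam : Measure Z, lam.IsAddHaarMeasure ∧ ∀ φ : Z → ℝ, Continuous φ → HasCompactSupport φ →
      Gd O M (fun a => φ (iJ a)) (∫ z, φ z ∂lam) := by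
  obtain ⟨n, be, co, hc⟩ := hO.exists_co
  borelize F
  obtain ⟨ν, hν, hE⟩ := h3.eq_prod hO hM hH hc
  let jV : selfAdjoint B →+ V := (AddMonoidHom.fst V F).comp ((e : Z →+ V × F).comp iJ)
  let L : (Fin n → ℝ) →ₗ[ℝ] V := Fintype.linearCombination ℝ fun i => jV ⟨be i, (hc.mem i).1⟩
  have hL : ∀ a : selfAdjoint B, L (fun i => (co a i : ℝ)) = jV a := fun a => by
    have : a = ∑ i, co a i • (⟨be i, (hc.mem i).1⟩ : selfAdjoint B) :=
      Subtype.ext (by simpa using (hc.be_co a a.2).symm)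
    conv_rhs => rw [this, map_sum]
    rw [Fintype.linearCombination_apply]
    refine Finset.sum_congr rfl fun i _ => ?_
    rw [← Rat.cast_smul_eq_qsmul ℚ, map_ratCast_smul jV ℚ ℝ]
  have hs : Function.Surjective L := by
    rw [← LinearMap.range_eq_top, eq_top_iff, ← h1, Submodule.span_le]
    rintro _ ⟨a, rfl⟩
    exact ⟨_, hL a⟩
  have hi : Function.Injective L := (LinearMap.injective_iff_surjective_of_finrank_eq_finrank
    (by rw [h2, hc.card, finrank_fintype_fun_eq_card])).2 hs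
  let l := (LinearEquiv.ofBijective L ⟨hi, hs⟩).toContinuousLinearEquiv
  let e' : ((Fin n → ℝ) × F) ≃ₜ+ Z :=
    ContinuousAddEquiv.trans { (l.toLinearEquiv.toAddEquiv.prodCongr (AddEquiv.refl F)) with
      continuous_toFun := l.continuous.prodMap continuous_id
      continuous_invFun := l.symm.continuous.prodMap continuous_id } e.symm
  refine ⟨Measure.map e' (volume.prod ν), e'.isAddHaarMeasure_map _, fun φ p1 p2 => ?_⟩
  have := hE (φ ∘ e') (p1.comp e'.continuous) (p2.comp_homeomorph e'.toHomeomorph)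
  have hm : ∫ z, φ z ∂Measure.map e' (volume.prod ν) = ∫ z, φ (e' z) ∂(volume.prod ν) :=
    integral_map_equiv e'.toHomeomorph.toMeasurableEquiv φ
  rw [hm]
  have hf : (fun a => φ (iJ a)) = fun a : selfAdjoint B => (φ ∘ e') (fun i => (co a i : ℝ),
      ((AddMonoidHom.snd V F).comp ((e : Z →+ V × F).comp iJ)) a) := by
    ext a
    change φ (iJ a) = φ (e.symm (L _, _))
    rw [hL]
    congr 1
    exact (e.symm_apply_apply _).symm
  rw [hf]
  exact this

end Crest.Agent.T24.Hgt
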