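import Crest.Agent.T24.NaDef_18
import Crest.Agent.T24.CocS_98
import Crest.Agent.T24.HgtC_88

/-!
# Row 24, module NA + TW: the arithmetic system attached to the data of the row (words and Props).
-/

set_option autoImplicit false
set_option linter.unusedSectionVars false

noncomputable section

namespace Crest.Agent.T24.Na

open Module Csa Asa Filter Topology NumberField IsDedekindDomain MeasureTheory
open scoped NumberField

universe u v w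

/-- multiplication by a central hermitian unit on the first factor -/
def scl {A : Type*} (Y : Type*) [Ring A] [StarRing A] [TopologicalSpace A] [IsTopologicalRing A]
    [AddCommGroup Y] [TopologicalSpace Y] (f : ℝ → A) (hm : ∀ s t, f (s * t) = f s * f t)
    (h1 : f 1 = 1) (hc : ∀ t y, f t * y = y * f t) (hs : ∀ t, star (f t) = f t) (t : ℝ)
    (ht : t ≠ 0) : (selfAdjoint A × Y) ≃ₜ+ (selfAdjoint A × Y) where
  toFun z := (⟨f t * z.1, by rw [selfAdjoint.mem_iff, star_mul, z.1.2, hs, hc]⟩, z.2)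
  invFun z := (⟨f t⁻¹ * z.1, by rw [selfAdjoint.mem_iff, star_mul, z.1.2, hs, hc]⟩, z.2)
  left_inv z := Prod.ext (Subtype.ext (by
    change f t⁻¹ * (f t * z.1) = z.1
    rw [← mul_assoc, ← hm, inv_mul_cancel₀ ht, h1, one_mul])) rfl
  right_inv z := Prod.ext (Subtype.ext (by
    change f t * (f t⁻¹ * z.1) = z.1
    rw [← mul_assoc, ← hm, mul_inv_cancel₀ ht, h1, one_mul])) rfl
  map_add' a b := Prod.ext (Subtype.ext (mul_add _ _ _)) rfl
  continuous_toFun := (Continuous.subtype_mk (by fun_prop) _).prodMk continuous_snd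
  continuous_invFun := (Continuous.subtype_mk (by fun_prop) _).prodMk continuous_snd

/-- all the coefficients of `g` lie in `R` -/
structure Aff.In {k B : Type*} [Field k] [Ring B] [StarRing B] [Algebra k B] (g : Aff k B)
    (R : Subring B) : Prop where
  κ : algebraMap k B g.κ ∈ R
  κ' : algebraMap k B (g.κ⁻¹ : kˣ) ∈ R
  p : (g.p : B) ∈ R
  p' : ((g.p⁻¹ : Bˣ) : B) ∈ R
  b : g.b ∈ R

namespace Sys
variable (S : Sys.{u, v, w})

/-- the lattice fields of `Ok` -/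
structure OkL : Prop where
  latt : Latt S.ιΓ
  L_iff : ∀ b, b ∈ S.L ↔ ∃ j : ℕ, S.N ^ j • b ∈ S.L₀
  fg : S.L₀.FG
  full : ∀ b : S.X, ∃ m : ℕ, m ≠ 0 ∧ m • b ∈ S.L₀
  L_cj : ∀ γ : S.Γ, ∀ b ∈ S.L, ((γ : S.U₀) : unitary S.B) • b ∈ S.L
  L_fin : ∀ K : Set S.Z, IsCompact K → {b | b ∈ S.L ∧ S.iJ b ∈ K}.Finite
  L_cov : ∀ m : ℕ, m ≠ 0 → ∀ U ∈ 𝓝 (0 : S.A × Mt S.d S.F), ∃ D : Set S.Z, IsCompact D ∧
    (∀ z ∈ D, (S.ε * z.1, z.2) ∈ U) ∧ ∀ z, ∃ b ∈ S.L, z - S.iJ (m • b) ∈ D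
  L_small : ∀ U ∈ 𝓝 (0 : S.A × Mt S.d S.F), ∃ n : ℕ, ∀ b ∈ S.L₀,
    (S.ε * S.inc ((S.N ^ n • b : S.X) : S.B), S.ψ ((S.N ^ n • b : S.X) : S.B)) ∈ U
  L_link : ∀ m : ℕ, m ≠ 0 → ∃ U ∈ 𝓝 (0 : S.A × Mt S.d S.F), ∀ b ∈ S.L,
    (S.ε * S.inc ((m • b : S.X) : S.B), S.ψ ((m • b : S.X) : S.B)) ∈ U → b ∈ S.L₀

/-- the weight fields of `Ok` -/
structure OkW : Prop where
  haar : S.lam.IsAddHaarMeasure
  w_nonneg : ∀ s a, 0 ≤ S.w s a
  w_add : ∀ s (a : S.X), ∀ b ∈ S.L, S.w s (a + b : S.X) = S.w s a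
  w_cj : ∀ s (γ : S.Γ) (a : S.X), S.w s (((γ : S.U₀) : unitary S.B) • a : S.X) = S.w s a
  w_sum : ∀ φ, Cc φ → ∀ s, 1 < s → Summable fun a : S.X => S.w s a * φ (S.iJ a)
  w_eq : ∀ φ, Cc φ →
    Tendsto (fun s => ∑' a : S.X, S.w s a * φ (S.iJ a)) (𝓝[>] 1) (𝓝 (∫ z, φ z ∂S.lam))
  wU_left : ∀ s (γ : S.Γ) y, S.wU s ((((γ : S.U₀) : unitary S.B) : S.B) * y) = S.wU s y
  wU_right : ∀ s (γ : S.Γ) y, S.wU s (y * (((γ : S.U₀) : unitary S.B) : S.B)) = S.wU s y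
  wU_cy : ∀ s (a : S.X), S.wU s (cy S.θ a) = S.w s a * S.Δ (S.iJ a) ^ (-s)
  Δ_cont : Continuous S.Δ
  Δ_pos : ∀ z, S.Ch z → 0 < S.Δ z

/-- the field `chart` of `Ok` -/
def ChartP : Prop :=
  ∀ g : S.G, ∃ γ : S.Γ, IsUnit ((((S.ιΓ γ * g).1 : unitary S.A) : S.A) - 1) ∧
    IsUnit (((S.ιΓ γ * g).2 : Mt S.d S.F) - 1)

/-- the field `dens` of `Ok` -/
def DensP : Prop :=
  ∀ f ∈ S.M, ∀ (a : S.X) (m : ℕ), m ≠ 0 → ∀ W ∈ 𝓝 (1 : S.G₂), ∃ γ : S.Γ,
    Near S.ιΓ W γ ∧ S.c γ = f ∧ ∃ b ∈ S.L, ((γ : S.U₀) : unitary S.B) • a = a + m • b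

/-- the field `esc` of `Ok` -/
def EscP : Prop :=
  ∀ V : Submodule S.k S.B, (∀ y ∈ V, star y = y) → 1 ∈ V →
    (∃ y ∈ V, ∀ r : S.k, y ≠ r • 1) → (∃ y, star y = y ∧ y ∉ V) → ∀ W ∈ 𝓝 (1 : S.G₂),
    {V' | ∃ γ : S.Γ, Near S.ιΓ W γ ∧ cjV ((γ : S.U₀) : unitary S.B) V' = V}.Infinite

end Sys

section Row
variable (k K B : Type*) [Field k] [NumberField k] [Field K] [NumberField K] [Algebra k K]
  [StarRing K] [Quad k K] [Ring B] [StarRing B] [Algebra K B] [StarModule K B]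
  [Algebra.IsCentral K B] [IsSimpleRing B] [FiniteDimensional K B] [Algebra k B]
  [IsScalarTower k K B]

/-- rational unitary points in the `S`-points -/
def jAU (S : Finset (Pl k)) : unitary B →* unitary (AS k K B S) where
  toFun u := ⟨jA k K B S u, by
    rw [Unitary.mem_iff, star_jA, ← map_mul, ← map_mul, u.2.1, u.2.2, map_one]; exact ⟨rfl, rfl⟩⟩
  map_one' := Subtype.ext (map_one _)
  map_mul' a b := Subtype.ext (map_mul _ _ _)

/-- the real number `t` at infinity, `1` at the finite places -/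
def rh (S : Finset (Pl k)) (t : ℝ) : AS k K B S :=
  (algebraMap (Inf k) (BC k K B (Inf k)) (algebraMap ℝ (Inf k) t), 1)

theorem rh_mul (S : Finset (Pl k)) (s t : ℝ) : rh k K B S (s * t) = rh k K B S s * rh k K B S t :=
  Prod.ext (by simp only [rh, map_mul, Prod.fst_mul]) (one_mul _).symm

theorem rh_one (S : Finset (Pl k)) : rh k K B S 1 = 1 := Prod.ext (by simp only [rh, map_one, Prod.fst_one]) rfl

theorem rh_comm (S : Finset (Pl k)) (t : ℝ) (y : AS k K B S) : rh k K B S t * y = y * rh k K B S t :=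
  Prod.ext (Algebra.commutes _ _) ((one_mul _).trans (mul_one _).symm)

theorem star_rh (S : Finset (Pl k)) (t : ℝ) : star (rh k K B S t) = rh k K B S t :=
  Prod.ext (BC.star_algebraMap _) (star_one _)

include K in
theorem countable_B : Countable B :=
  haveI : Countable K := Finsupp.Countable.of_moduleFinite (R := ℚ)
  Finsupp.Countable.of_moduleFinite (R := K)

set_option linter.checkUnivs false in
/-- the choices -/
structure Inp where
  m : ℕ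
  Q : Type
  [iQ : Group Q] [fQ : Finite Q]
  c : Um K B m →* Q
  M : Subgroup Q
  θ : K
  Λ : Ord K B
  N : ℕ
  v₀ : Pl k
  s : Spl K B v₀
  /-- the places over `N` other than `v₀` -/
  S : Finset (Pl k)
  π : Kv v₀
  G₂ : Subgroup (unitary (AS k K B S))
  hG : ∀ u : unitary B, jAU k K B S u ∈ G₂ ↔ u ∈ Um K B m
  opn : IsOpen (G₂ : Set (unitary (AS k K B S)))

attribute [instance] Inp.iQ Inp.fQ

namespace Inp
variable {k K B} (I : Inp k K B)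

/-- the local space -/
abbrev Z : Type _ := selfAdjoint (AS k K B I.S) × Mt (deg K B) (Kv I.v₀)

instance : MeasurableSpace I.Z := borel _
instance : BorelSpace I.Z := ⟨rfl⟩

instance : LocallyCompactSpace I.G₂ :=
  haveI := (isClosed_unitary (R := AS k K B I.S)).isClosedEmbedding_subtypeVal.locallyCompactSpace
  I.opn.isOpenEmbedding_subtypeVal.locallyCompactSpace

open scoped Classical in
/-- all the places over `N` -/
def S₁ : Finset (Pl k) := insert I.v₀ I.S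

/-- the embedding of `Um m` -/
def ι : Um K B I.m →* I.G₂ × GL (Fin (deg K B)) (Kv I.v₀) :=
  (((jAU k K B I.S).comp (Um K B I.m).subtype).codRestrict I.G₂ fun u => (I.hG u).2 u.2).prod
    ((Units.map I.s.ψ.toMonoidHom).comp (Unitary.toUnits.comp (Um K B I.m).subtype))

/-- the embedding of the hermitian elements -/
def iJ : selfAdjoint B →+ I.Z where
  toFun a := (⟨jA k K B I.S a, by rw [selfAdjoint.mem_iff, star_jA, a.2]⟩, I.s.ψ a)
  map_zero' := Prod.ext (Subtype.ext (map_zero _)) (map_zero _)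
  map_add' a b := Prod.ext (Subtype.ext (map_add _ _ _)) (map_add _ _ _)

variable [Algebra ℚ B]

/-- the arithmetic system -/
@[reducible] def sys (lam : Measure I.Z) (Δ : I.Z → ℝ) : Sys where
  k := k
  B := B
  A := AS k K B I.S
  F := Kv I.v₀
  Q := I.Q
  d := deg K B
  i6 := finite_kB k K B
  i7 := countable_B K B
  O := (I.v₀.adicCompletionIntegers k).toSubring
  π := I.π
  inc := jA k K B I.S
  ψ := I.s.ψ
  θ := algebraMap K B I.θ
  ε := rh k K B I.S 0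
  ρ R := rh k K B I.S ((R : ℝ) + 1)⁻¹
  G₂ := I.G₂
  U₀ := Um K B I.m
  Γ := (I.Λ.GamU I.S₁).subgroupOf (Um K B I.m)
  ι := I.ι
  c := I.c
  M := I.M
  iJ := I.iJ
  sc R := scl _ (rh k K B I.S) (rh_mul k K B I.S) (rh_one k K B I.S) (rh_comm k K B I.S)
    (star_rh k K B I.S) ((R : ℝ) + 1)⁻¹ (by positivity)
  L₀ := I.Λ.O.toAddSubgroup.addSubgroupOf (selfAdjoint B)
  L := (I.Λ.Off I.S₁).toAddSubgroup.addSubgroupOf (selfAdjoint B)
  N := I.N
  lam := lam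
  w := Hgt.W I.Λ.O I.N
  wU := Hgt.W I.Λ.O I.N
  Δ := Δ

/-- the choices are good -/
structure Ok : Prop where
  hd : 3 ≤ deg K B
  an : Aniso B
  sa : Sa k K B
  col : Col I.m I.c I.M
  th0 : I.θ ≠ 0
  th_star : star I.θ = -I.θ
  N0 : I.N ≠ 0
  two : 2 ∣ I.N
  v0 : I.v₀ ∉ I.S
  mem_S : ∀ v, v ∈ I.S₁ ↔ (I.N : 𝓞 k) ∈ v.asIdeal
  T_sub : ∀ v ∈ Tk k K B, v ∈ I.S
  good : I.s.Good I.Λ
  lf : Lf (I.v₀.adicCompletionIntegers k).toSubring I.π
  off : I.Λ.Off I.S₁ = Hgt.OS I.Λ.O I.N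
  th_mem : algebraMap K B I.θ ∈ Hgt.OS I.Λ.O I.N
  th_inv : algebraMap K B I.θ⁻¹ ∈ Hgt.OS I.Λ.O I.N
  ht : Hgt.Ht I.Λ.O I.N

end Inp
end Row

/-- (b), (c) -/
def ILatStmt : Prop := ∀ (D : Dat.{u, v, w}) [Algebra ℚ D.B] (I : Inp D.k D.K D.B), I.Ok →
  ∀ lam Δ, (I.sys lam Δ).OkL

/-- (d), (e) -/
def IWtStmt : Prop := ∀ (D : Dat.{u, v, w}) [Algebra ℚ D.B] (I : Inp D.k D.K D.B), I.Ok →
  ∃ lam Δ, (I.sys lam Δ).OkW

/-- (f) -/
def IChartStmt : Prop := ∀ (D : Dat.{u, v, w}) [Algebra ℚ D.B] (I : Inp D.k D.K D.B), I.Ok →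
  ∀ lam Δ, (I.sys lam Δ).ChartP

/-- (g) -/
def IDensStmt : Prop := ∀ (D : Dat.{u, v, w}) [Algebra ℚ D.B] (I : Inp D.k D.K D.B), I.Ok →
  ∀ lam Δ, (I.sys lam Δ).DensP

/-- (h) -/
def IEscStmt : Prop := ∀ (D : Dat.{u, v, w}) [Algebra ℚ D.B] (I : Inp D.k D.K D.B), I.Ok →
  ∀ lam Δ, (I.sys lam Δ).EscP

/-- (i), weights -/
def IAdmStmt : Prop := ∀ (D : Dat.{u, v, w}) [Algebra ℚ D.B] (I : Inp D.k D.K D.B), I.Ok →
  ∀ lam Δ (g : Aff D.k D.B), g.In (Hgt.OS I.Λ.O I.N) → (I.sys lam Δ).Adm g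

end Crest.Agent.T24.Na
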