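import Crest.Agent.T24.NaL_98
import Crest.Agent.T24.NaInstDef_3

/-!
# Row 24, NA/TW instantiation: the lattice fields.
-/

set_option autoImplicit false

noncomputable section

namespace Crest.Agent.T24.Na

universe u v w

theorem iLatStmt : ILatStmt.{u, v, w} := by
  intro D _ I h lam Δ
  have e : rh D.k D.K D.B I.S 0 = L98.eps D.k D.K D.B I.S :=
    Prod.ext (by simp only [rh, map_zero]; rfl) rfl
  have hS := fun v => (h.mem_S v).1
  exact
    { latt := L98.latt I.Λ h.v0 I.s h.an I.G₂ I.opn _ I.ι (fun _ => rfl) (fun _ => rfl)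
        (fun u ⟨g, hg⟩ => (I.hG u).1 (by
          rw [show jAU D.k D.K D.B I.S u = g from Subtype.ext hg.symm]; exact g.2))
        _ fun _ => Iff.rfl
      L_iff := L98.L_iff I.Λ h.mem_S
      fg := L98.L₀_fg I.Λ
      full := L98.L₀_full I.Λ
      L_cj := fun γ _ hb => L98.L_cj I.Λ γ.2 hb
      L_fin := L98.L_fin I.Λ h.v0 I.s
      L_cov := by
        have := L98.L_cov I.Λ h.v0 I.s h.N0 hS
        rw [← e] at this
        exact this
      L_small := by
        have := L98.L_small I.Λ I.s hS
        rw [← e] at this
        exact this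
      L_link := by
        have := L98.L_link (S := I.S) I.Λ I.s
        rw [← e] at this
        exact this }

end Crest.Agent.T24.Na
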