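import Crest.Agent.T24.NstDef_39
import Crest.Agent.T24.Def_26

/-!
# Row 24, module NA + TW: words and interface statements.

`G = G₂ × GL_d(F)` acts on `Z = Z₂ × M_d(F)`; `Γ` is a cocompact lattice of `G`.
`Sys` is the arithmetic system: `B` with involution, `inc : B → A` (all places of `S` except `v₀`),
`ψ : B → M_d(F)` (the place `v₀`), weights `w s` on the hermitian elements.
-/

set_option autoImplicit false
set_option linter.unusedSectionVars false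

noncomputable section

namespace Crest.Agent.T24.Na

open Topology Filter MeasureTheory
open scoped ENNReal NNReal

universe u v w x

/-! ### test functions and positive functionals -/

/-- continuous with compact support -/
def Cc {X : Type*} [TopologicalSpace X] (φ : X → ℝ) : Prop := Continuous φ ∧ HasCompactSupport φ

/-- a positive linear functional on the test functions -/
structure PosF {X : Type*} [TopologicalSpace X] (ν : (X → ℝ) → ℝ) : Prop where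
  add : ∀ φ χ, Cc φ → Cc χ → ν (φ + χ) = ν φ + ν χ
  smul : ∀ (c : ℝ) φ, Cc φ → ν (c • φ) = c * ν φ
  pos : ∀ φ, Cc φ → 0 ≤ φ → 0 ≤ ν φ

/-! ### the place `v₀` -/

/-- matrices -/
abbrev Mt (d : ℕ) (F : Type*) : Type _ := Matrix (Fin d) (Fin d) F

section Place
variable {F : Type*} [Field F] {d : ℕ}

/-- `π^j M_d(O)` -/
def cell (d : ℕ) (O : Subring F) (π : F) (j : ℕ) : AddSubgroup (Mt d F) where
  carrier := {y | ∀ a b, ∃ o ∈ O, y a b = π ^ j * o}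
  zero_mem' _ _ := ⟨0, O.zero_mem, by simp⟩
  add_mem' {y y'} h h' a b := by
    obtain ⟨o, ho, e⟩ := h a b
    obtain ⟨o', ho', e'⟩ := h' a b
    exact ⟨o + o', O.add_mem ho ho', by rw [Matrix.add_apply, e, e', mul_add]⟩
  neg_mem' {y} h a b := by
    obtain ⟨o, ho, e⟩ := h a b
    exact ⟨-o, O.neg_mem ho, by rw [Matrix.neg_apply, e, mul_neg]⟩

/-- the number of cells of level `j` in the cell of level `0` -/
def ncell (d : ℕ) (O : Subring F) (π : F) (j : ℕ) : ℕ := (cell d O π j).relIndex (cell d O π 0)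

/-- matrices with a dominant simple eigenvalue (open, stable under conjugation and scaling) -/
def Dom (O : Subring F) (π : F) (y : Mt d F) : Prop :=
  ∃ (i : Fin d) (h : GL (Fin d) F) (l : F),
    l • ((h : Mt d F) * y * ((h⁻¹ : GL (Fin d) F) : Mt d F)) - Matrix.single i i 1 ∈ cell d O π 1

/-- the local field: `O` is the valuation ring, `π` a uniformiser -/
structure Lf [TopologicalSpace F] (O : Subring F) (π : F) : Prop where
  loc : Nst.LocF O π 5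
  opn : IsOpen (O : Set F)
  pi_mem : π ∈ O
  val : ∀ y : F, y ∈ O ∨ y⁻¹ ∈ O
  unif : ∀ y ∈ O, y⁻¹ ∈ O ∧ y ≠ 0 ∨ ∃ o ∈ O, y = π * o

end Place

/-! ### the lattice -/

section Grp
variable {F : Type*} [Field F] {d : ℕ} {G₂ : Type*} [Group G₂] {Γ : Type*} [Group Γ]

/-- the action of `G₂ × GL_d(F)` on `Z₂ × M_d(F)` -/
def ac {Z₂ : Type*} [MulAction G₂ Z₂] (g : G₂ × GL (Fin d) F) (z : Z₂ × Mt d F) : Z₂ × Mt d F :=
  (g.1 • z.1, (g.2 : Mt d F) * z.2 * ((g.2⁻¹ : GL (Fin d) F) : Mt d F))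

/-- `γ` is in `SL_d` at `v₀` and in `W` elsewhere -/
def Near (ι : Γ →* G₂ × GL (Fin d) F) (W : Set G₂) (γ : Γ) : Prop :=
  ((ι γ).2 : Mt d F).det = 1 ∧ (ι γ).1 ∈ W

variable [TopologicalSpace F] [TopologicalSpace G₂]

/-- discrete and cocompact -/
structure Latt (ι : Γ →* G₂ × GL (Fin d) F) : Prop where
  disc : ∃ U ∈ 𝓝 (1 : G₂ × GL (Fin d) F), ∀ γ, ι γ ∈ U → γ = 1
  coc : ∃ C : Set (G₂ × GL (Fin d) F), IsCompact C ∧ ∀ g, ∃ γ, (ι γ)⁻¹ * g ∈ C

/-- the orbit of `y` under the near elements is infinite -/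
def Esc (ι : Γ →* G₂ × GL (Fin d) F) {Y : Type*} [MulAction Γ Y] (y : Y) : Prop :=
  ∀ W ∈ 𝓝 (1 : G₂), {y' | ∃ γ, Near ι W γ ∧ γ • y' = y}.Infinite

end Grp

/-- (3), ergodic part: an equivariant summable family of functionals on an escaping orbit vanishes
on the dominant set -/
def EscStmt : Prop :=
  ∀ (F : Type u) [Field F] [TopologicalSpace F] [IsTopologicalDivisionRing F]
    [LocallyCompactSpace F] [SecondCountableTopology F] [T2Space F] (O : Subring F) (π : F) (d : ℕ)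
    (G₂ : Type v) [Group G₂] [TopologicalSpace G₂] [IsTopologicalGroup G₂] [LocallyCompactSpace G₂]
    [SecondCountableTopology G₂] [T2Space G₂]
    (Z₂ : Type v) [TopologicalSpace Z₂] [LocallyCompactSpace Z₂] [SecondCountableTopology Z₂]
    [T2Space Z₂] [MulAction G₂ Z₂] [ContinuousSMul G₂ Z₂]
    (Γ : Type w) [Group Γ] (ι : Γ →* G₂ × GL (Fin d) F) (Y : Type w) [Countable Y] [MulAction Γ Y]
    (μ : Y → (Z₂ × Mt d F → ℝ) → ℝ) (Λ : (Z₂ × Mt d F → ℝ) → ℝ),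
    Lf O π → 3 ≤ d → Latt ι → (∀ y, PosF (μ y)) → PosF Λ →
    (∀ φ (t : Mt d F), Cc φ → Λ (fun z => φ (z.1, z.2 + t)) = Λ φ) →
    (∀ γ y φ, Cc φ → μ (γ • y) φ = μ y fun z => φ (ac (ι γ) z)) →
    (∀ (T : Finset Y) φ, Cc φ → 0 ≤ φ → (∀ z ∈ tsupport φ, Dom O π z.2) → ∑ y ∈ T, μ y φ ≤ Λ φ) →
    (∀ y : Y, Esc ι y) → ∀ y φ, Cc φ → (∀ z ∈ tsupport φ, Dom O π z.2) → μ y φ = 0

/-- (1), ergodic part: bi-equivariant functionals without concentration on cells do not see `M` -/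
def MooreStmt : Prop :=
  ∀ (F : Type u) [Field F] [TopologicalSpace F] [IsTopologicalDivisionRing F]
    [LocallyCompactSpace F] [SecondCountableTopology F] [T2Space F] (O : Subring F) (π : F) (d : ℕ)
    (G₂ : Type v) [Group G₂] [TopologicalSpace G₂] [IsTopologicalGroup G₂] [LocallyCompactSpace G₂]
    [SecondCountableTopology G₂] [T2Space G₂]
    (Γ : Type w) [Group Γ] (ι : Γ →* G₂ × GL (Fin d) F) (Q : Type) [Group Q] [Finite Q]
    (c : Γ →* Q) (M : Subgroup Q) (ν : Q → (G₂ × GL (Fin d) F → ℝ) → ℝ),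
    Lf O π → 3 ≤ d → Latt ι → M.Normal →
    (∀ f ∈ M, ∀ W ∈ 𝓝 (1 : G₂), ∃ γ, Near ι W γ ∧ c γ = f) → (∀ q, PosF (ν q)) →
    (∀ K : Set (G₂ × GL (Fin d) F), IsCompact K → ∃ C : ℝ, ∀ q (j : ℕ) (y₀ : Mt d F) φ, Cc φ →
      0 ≤ φ → φ ≤ 1 → (∀ g ∈ tsupport φ, g ∈ K ∧ (g.2 : Mt d F) - y₀ ∈ cell d O π j) →
      ν q φ ≤ C / ncell d O π j) →
    (∀ q γ φ, Cc φ → ν (c γ * q) φ = ν q fun g => φ (ι γ * g)) →
    (∀ q γ φ, Cc φ → ν (q * c γ) φ = ν q fun g => φ (g * ι γ)) →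
    ∀ q, ∀ f ∈ M, ∀ φ, Cc φ → ν (q * f) φ = ν q φ

/-! ### star rings -/

section Star
variable {R : Type*} [Ring R] [StarRing R]

/-- unitary elements act on hermitian elements by conjugation -/
scoped instance cjAct : MulAction (unitary R) (selfAdjoint R) where
  smul g z := ⟨(g : R) * z * star (g : R), z.2.conjugate _⟩
  one_smul z := Subtype.ext (by change ((1 : unitary R) : R) * z * star ((1 : unitary R) : R) = z; simp)
  mul_smul g h z := Subtype.ext (by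
    change ((g * h : unitary R) : R) * z * star ((g * h : unitary R) : R) =
      (g : R) * ((h : R) * z * star (h : R)) * star (g : R)
    simp [mul_assoc])

theorem coe_cj (g : unitary R) (z : selfAdjoint R) :
    ((g • z : selfAdjoint R) : R) = (g : R) * z * star (g : R) := rfl

scoped instance [TopologicalSpace R] [IsTopologicalRing R] [ContinuousStar R] :
    ContinuousSMul (unitary R) (selfAdjoint R) :=
  ⟨Continuous.subtype_mk (by
    have h1 : Continuous fun p : unitary R × selfAdjoint R => (p.1 : R) := by fun_prop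
    have h2 : Continuous fun p : unitary R × selfAdjoint R => (p.2 : R) := by fun_prop
    exact (h1.mul h2).mul h1.star) _⟩

/-- the Cayley transform (zero if `z - θ` is not a unit) -/
def cy {R : Type*} [Ring R] (θ z : R) : R := (z + θ) * Ring.inverse (z - θ)

/-- the unitary elements of `U₀` in the bicommutant of `y` -/
def bic (U₀ : Subgroup (unitary R)) (y : R) : Subgroup U₀ where
  carrier := {u | ∀ z : R, z * y = y * z → z * ((u : unitary R) : R) = ((u : unitary R) : R) * z}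
  one_mem' z _ := by simp
  mul_mem' {a b} ha hb z hz := by
    have h1 := ha z hz
    have h2 := hb z hz
    simp only [Subgroup.coe_mul, Submonoid.coe_mul]
    rw [← mul_assoc, h1, mul_assoc, h2, mul_assoc]
  inv_mem' {a} ha z hz := by
    have h1 := ha z hz
    have e1 : (((a⁻¹ : U₀) : unitary R) : R) * ((a : unitary R) : R) = 1 := by
      rw [← Submonoid.coe_mul, ← Subgroup.coe_mul]; simp
    have e2 : ((a : unitary R) : R) * (((a⁻¹ : U₀) : unitary R) : R) = 1 := by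
      rw [← Submonoid.coe_mul, ← Subgroup.coe_mul]; simp
    calc z * (((a⁻¹ : U₀) : unitary R) : R)
        = (((a⁻¹ : U₀) : unitary R) : R) * (((a : unitary R) : R) * z) *
            (((a⁻¹ : U₀) : unitary R) : R) := by rw [← mul_assoc, e1, one_mul]
      _ = _ := by rw [← h1, mul_assoc, mul_assoc, e2, mul_one]

open Classical in
/-- the colour of an element of `R` (`1` off `U₀`) -/
def col {U₀ : Subgroup (unitary R)} {Q : Type*} [Group Q] (c : U₀ →* Q) (y : R) : Q :=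
  if h : ∃ u : U₀, ((u : unitary R) : R) = y then c h.choose else 1

theorem col_coe {U₀ : Subgroup (unitary R)} {Q : Type*} [Group Q] (c : U₀ →* Q) (u : U₀) :
    col c ((u : unitary R) : R) = c u := by
  have h : ∃ u' : U₀, ((u' : unitary R) : R) = ((u : unitary R) : R) := ⟨u, rfl⟩
  rw [col, dif_pos h]
  exact congrArg c (Subtype.ext (Subtype.ext h.choose_spec))

/-- affine maps `a ↦ κ p⋆ a p + b` -/
structure Aff (k R : Type*) [Field k] [Ring R] [StarRing R] where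
  /-- scalar -/
  κ : kˣ
  /-- congruence -/
  p : Rˣ
  /-- translation -/
  b : R
  hb : star b = b

variable {k : Type*} [Field k] [Algebra k R]

/-- the linear part -/
def Aff.lin (g : Aff k R) (a : R) : R := (g.κ : k) • (star (g.p : R) * a * g.p)

/-- the affine map -/
def Aff.ap (g : Aff k R) (a : R) : R := g.lin a + g.b

/-- the lines of scalar translations are different -/
def Aff.Dif (g g' : Aff k R) : Prop :=
  ∀ r : k, (g.p : R) * star (g.p : R) ≠ r • ((g'.p : R) * star (g'.p : R))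

/-- conjugation of subspaces -/
def cjV (u : unitary R) (V : Submodule k R) : Submodule k R :=
  V.map ((LinearMap.mulRight k (star (u : R))).comp (LinearMap.mulLeft k (u : R)))

end Star

/-- zero mean along the orbits of `M` -/
def Mz {Q : Type} [Group Q] [Finite Q] (M : Subgroup Q) {T : Type*} [MulAction Q T] (φ : T → ℝ) :
    Prop := ∀ t, ∑ᶠ f : M, φ ((f : Q) • t) = 0

/-- the conclusion of the analytic step -/
structure Indep {k B : Type*} [Field k] [Ring B] [StarRing B] [Algebra k B] (θ : B)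
    {U₀ : Subgroup (unitary B)} {Q : Type} [Group Q] [Finite Q] (c : U₀ →* Q) (M : Subgroup Q)
    {T : Type} [MulAction Q T] (At : B → T) {I : Type} (g : I → Aff k B)
    (P : (B → ℝ) →ₗ[ℝ] ℝ) : Prop where
  pos : ∀ S : Set B, 0 ≤ P (S.indicator 1)
  one : P 1 = 1
  good : P ({a | ¬ (star a = a ∧
    ∀ j, ∃ u : U₀, ((u : unitary B) : B) = cy θ ((g j).ap a))}.indicator 1) = 0
  unif : ∀ j q, ∀ f ∈ M, P ({a | col c (cy θ ((g j).ap a)) = q * f}.indicator 1) =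
    P ({a | col c (cy θ ((g j).ap a)) = q}.indicator 1)
  orth : ∀ i j, (g i).Dif (g j) → ∀ φ χ : T → ℝ, Mz M φ →
    P (fun a => φ (At ((g i).ap a)) * χ (At ((g j).ap a))) = 0

/-! ### the arithmetic system -/

set_option linter.checkUnivs false in
/-- the data -/
structure Sys where
  k : Type u
  B : Type w
  A : Type v
  F : Type u
  Q : Type
  d : ℕ
  [i1 : Field k] [i2 : CharZero k] [i3 : Ring B] [i4 : StarRing B] [i5 : Algebra k B]
  [i6 : FiniteDimensional k B] [i7 : Countable B]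
  [i8 : Ring A] [i9 : StarRing A] [i10 : TopologicalSpace A] [i11 : IsTopologicalRing A]
  [i12 : ContinuousStar A] [i13 : T2Space A] [i14 : SecondCountableTopology A]
  [i15 : LocallyCompactSpace A]
  [i16 : Field F] [i17 : TopologicalSpace F] [i18 : IsTopologicalDivisionRing F]
  [i19 : LocallyCompactSpace F] [i20 : SecondCountableTopology F] [i21 : T2Space F]
  [i22 : Group Q] [i23 : Finite Q]
  [i24 : MeasurableSpace (selfAdjoint A × Mt d F)] [i25 : BorelSpace (selfAdjoint A × Mt d F)]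
  O : Subring F
  π : F
  inc : B →+* A
  ψ : B →+* Mt d F
  θ : B
  /-- the finite part of `A` -/
  ε : A
  /-- the scaling `R⁻¹ (1 - ε) + ε` -/
  ρ : ℕ → A
  G₂ : Subgroup (unitary A)
  [i26 : LocallyCompactSpace G₂]
  U₀ : Subgroup (unitary B)
  Γ : Subgroup U₀
  ι : U₀ →* G₂ × GL (Fin d) F
  c : U₀ →* Q
  M : Subgroup Q
  iJ : selfAdjoint B →+ selfAdjoint A × Mt d F
  /-- the scaling on `Z` -/
  sc : ℕ → (selfAdjoint A × Mt d F) ≃ₜ+ (selfAdjoint A × Mt d F)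
  L₀ : AddSubgroup (selfAdjoint B)
  L : AddSubgroup (selfAdjoint B)
  N : ℕ
  lam : Measure (selfAdjoint A × Mt d F)
  w : ℝ → B → ℝ
  wU : ℝ → B → ℝ
  Δ : selfAdjoint A × Mt d F → ℝ

attribute [instance] Sys.i1 Sys.i2 Sys.i3 Sys.i4 Sys.i5 Sys.i6 Sys.i7 Sys.i8 Sys.i9 Sys.i10 Sys.i11
  Sys.i12 Sys.i13 Sys.i14 Sys.i15 Sys.i16 Sys.i17 Sys.i18 Sys.i19 Sys.i20 Sys.i21 Sys.i22 Sys.i23
  Sys.i24 Sys.i25 Sys.i26

instance {A : Type*} [Ring A] [StarRing A] [TopologicalSpace A] [ContinuousStar A] [T2Space A]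
    [LocallyCompactSpace A] : LocallyCompactSpace (selfAdjoint A) :=
  (isClosed_eq continuous_star continuous_id :
    IsClosed {x : A | star x = x}).isClosedEmbedding_subtypeVal.locallyCompactSpace

namespace Sys
variable (S : Sys.{u, v, w})

/-- hermitian elements -/
abbrev X : Type w := selfAdjoint S.B
/-- the local space -/
abbrev Z : Type (max u v) := selfAdjoint S.A × Mt S.d S.F
/-- the local group -/
abbrev G : Type (max u v) := S.G₂ × GL (Fin S.d) S.F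

/-- the lattice in the local group -/
def ιΓ : S.Γ →* S.G := S.ι.comp S.Γ.subtype

/-- the macroscopic position -/
def pos (R : ℕ) (a : S.X) : S.Z := S.sc R (S.iJ a)

/-- the Cayley transform of `z` is a point of `G` -/
def Ch (z : S.Z) : Prop :=
  IsUnit ((z.1 : S.A) - S.inc S.θ) ∧ (∃ g : S.G₂, ((g : unitary S.A) : S.A) = cy (S.inc S.θ) z.1) ∧
    IsUnit (z.2 - S.ψ S.θ) ∧ IsUnit (z.2 + S.ψ S.θ)

/-- the hypotheses -/
structure Ok : Prop where
  lf : Lf S.O S.π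
  hd : 3 ≤ S.d
  star_k : ∀ (r : S.k) (b : S.B), star (r • b) = r • star b
  inc_star : ∀ b, S.inc (star b) = star (S.inc b)
  inc_inj : Function.Injective S.inc
  k_comm : ∀ (r : S.k) (y : S.A), S.inc (algebraMap _ _ r) * y = y * S.inc (algebraMap _ _ r)
  k_comm' : ∀ (r : S.k) (y : Mt S.d S.F), S.ψ (algebraMap _ _ r) * y = y * S.ψ (algebraMap _ _ r)
  th_comm : ∀ y : S.A, S.inc S.θ * y = y * S.inc S.θ
  th_comm' : ∀ y : Mt S.d S.F, S.ψ S.θ * y = y * S.ψ S.θ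
  th_star : star S.θ = -S.θ
  th_unit : IsUnit S.θ
  aniso : ∀ a : S.X, IsUnit ((a : S.B) - S.θ)
  unit_open : IsOpen {y : S.A | IsUnit y}
  inv_cont : ContinuousOn Ring.inverse {y : S.A | IsUnit y}
  eps_comm : ∀ y, S.ε * y = y * S.ε
  eps_star : star S.ε = S.ε
  eps_idem : S.ε * S.ε = S.ε
  rho_comm : ∀ R y, S.ρ R * y = y * S.ρ R
  rho_eps : ∀ R, S.ρ R * S.ε = S.ε
  rho_tend : Tendsto S.ρ atTop (𝓝 S.ε)
  sc_fst : ∀ R z, ((S.sc R z).1 : S.A) = S.ρ R * z.1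
  sc_snd : ∀ R z, (S.sc R z).2 = z.2
  G_open : IsOpen (S.G₂ : Set (unitary S.A))
  ι_fst : ∀ u, (((S.ι u).1 : unitary S.A) : S.A) = S.inc ((u : unitary S.B) : S.B)
  ι_snd : ∀ u, ((S.ι u).2 : Mt S.d S.F) = S.ψ ((u : unitary S.B) : S.B)
  mem_U : ∀ u : unitary S.B, (∃ g : S.G₂, ((g : unitary S.A) : S.A) = S.inc u) → u ∈ S.U₀
  iJ_fst : ∀ a, ((S.iJ a).1 : S.A) = S.inc a
  iJ_snd : ∀ a, (S.iJ a).2 = S.ψ a
  latt : Latt S.ιΓ
  nrm : S.M.Normal
  N_ne : S.N ≠ 0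
  L_iff : ∀ b, b ∈ S.L ↔ ∃ j : ℕ, S.N ^ j • b ∈ S.L₀
  fg : S.L₀.FG
  full : ∀ b : S.X, ∃ m : ℕ, m ≠ 0 ∧ m • b ∈ S.L₀
  L_cj : ∀ γ : S.Γ, ∀ b ∈ S.L, ((γ : S.U₀) : unitary S.B) • b ∈ S.L
  L_fin : ∀ K : Set S.Z, IsCompact K → {b | b ∈ S.L ∧ S.iJ b ∈ K}.Finite
  L_cov : ∀ m : ℕ, m ≠ 0 → ∀ U ∈ 𝓝 (0 : S.A × Mt S.d S.F), ∃ D : Set S.Z, IsCompact D ∧
    (∀ z ∈ D, (S.ε * z.1, z.2) ∈ U) ∧ ∀ z, ∃ b ∈ S.L, z - S.iJ (m • b) ∈ D
  L_small : ∀ U ∈ 𝓝 (0 : S.A × Mt S.d S.F), ∃ n : ℕ, ∀ b ∈ S.L₀,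
    (S.ε * S.inc ((S.N ^ n • b : S.X) : S.B), S.ψ ((S.N ^ n • b : S.X) : S.B)) ∈ U
  L_link : ∀ m : ℕ, m ≠ 0 → ∃ U ∈ 𝓝 (0 : S.A × Mt S.d S.F), ∀ b ∈ S.L,
    (S.ε * S.inc ((m • b : S.X) : S.B), S.ψ ((m • b : S.X) : S.B)) ∈ U → b ∈ S.L₀
  haar : S.lam.IsAddHaarMeasure
  w_nonneg : ∀ s a, 0 ≤ S.w s a
  w_add : ∀ s (a : S.X), ∀ b ∈ S.L, S.w s (a + b : S.X) = S.w s a
  w_cj : ∀ s (γ : S.Γ) (a : S.X), S.w s (((γ : S.U₀) : unitary S.B) • a : S.X) = S.w s a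
  w_sum : ∀ φ, Cc φ → ∀ s, 1 < s → Summable fun a : S.X => S.w s a * φ (S.iJ a)
  w_eq : ∀ φ, Cc φ →
    Tendsto (fun s => ∑' a : S.X, S.w s a * φ (S.iJ a)) (𝓝[>] 1) (𝓝 (∫ z, φ z ∂S.lam))
  wU_left : ∀ s (γ : S.Γ) y, S.wU s ((((γ : S.U₀) : unitary S.B) : S.B) * y) = S.wU s y
  wU_right : ∀ s (γ : S.Γ) y, S.wU s (y * (((γ : S.U₀) : unitary S.B) : S.B)) = S.wU s y
  wU_cy : ∀ s (a : S.X), S.wU s (cy S.θ a) = S.w s a * S.Δ (S.iJ a) ^ (-s)
  Δ_cont : Continuous S.Δ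
  Δ_pos : ∀ z, S.Ch z → 0 < S.Δ z
  chart : ∀ g : S.G, ∃ γ : S.Γ, IsUnit ((((S.ιΓ γ * g).1 : unitary S.A) : S.A) - 1) ∧
    IsUnit (((S.ιΓ γ * g).2 : Mt S.d S.F) - 1)
  dens : ∀ f ∈ S.M, ∀ (a : S.X) (m : ℕ), m ≠ 0 → ∀ W ∈ 𝓝 (1 : S.G₂), ∃ γ : S.Γ,
    Near S.ιΓ W γ ∧ S.c γ = f ∧ ∃ b ∈ S.L, ((γ : S.U₀) : unitary S.B) • a = a + m • b
  esc : ∀ V : Submodule S.k S.B, (∀ y ∈ V, star y = y) → 1 ∈ V →
    (∃ y ∈ V, ∀ r : S.k, y ≠ r • 1) → (∃ y, star y = y ∧ y ∉ V) → ∀ W ∈ 𝓝 (1 : S.G₂),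
    {V' | ∃ γ : S.Γ, Near S.ιΓ W γ ∧ cjV ((γ : S.U₀) : unitary S.B) V' = V}.Infinite

/-- an affine map which preserves the weights -/
structure Adm (g : Aff S.k S.B) : Prop where
  w_ap : ∀ s (a : S.X), S.w s (g.ap a) = S.w s a

/-- the component at `v₀` of the local affine map -/
def ap₀ (g : Aff S.k S.B) (y : Mt S.d S.F) : Mt S.d S.F :=
  S.ψ (algebraMap _ _ (g.κ : S.k)) * (S.ψ (star (g.p : S.B)) * y * S.ψ g.p) + S.ψ g.b

/-- the component in `A` of the local affine map -/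
def ap₂ (g : Aff S.k S.B) (y : S.A) : S.A :=
  S.inc (algebraMap _ _ (g.κ : S.k)) * (S.inc (star (g.p : S.B)) * y * S.inc g.p) + S.inc g.b

/-- `z₀` is a good centre for `g`: dominant at `v₀`, and in the chart at large scales -/
structure Cen (g : Aff S.k S.B) (z₀ : S.Z) : Prop where
  dom : Dom S.O S.π (S.ap₀ g z₀.2)
  ch : ∃ U ∈ 𝓝 z₀, ∀ᶠ R in atTop, ∀ z z' : S.Z, S.sc R z ∈ U → (z'.1 : S.A) = S.ap₂ g z.1 →
    z'.2 = S.ap₀ g z.2 → S.Ch z'

/-- an equivariant label which does not see scalar translations -/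
structure Lab {T : Type} [MulAction S.Q T] (At : S.B → T) : Prop where
  cj : ∀ (γ : S.Γ) (a : S.X), At (((γ : S.U₀) : unitary S.B) • a : S.X) = S.c γ • At a
  tr : ∀ (a : S.B) (r : S.k), At (a + r • 1) = At a

open Classical in
/-- the local square norm -/
def n2 (R : ℕ) (K : Set S.Z) (ξ : S.X → S.Q → ℝ) : ℝ≥0∞ :=
  ∑' q : S.Q, ∑' a : S.X, if S.pos R a ∈ K then ENNReal.ofReal (ξ a q ^ 2) else 0

end Sys

/-- (4): the Poincaré inequality before the limit -/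
def JcStmt : Prop := ∀ S : Sys.{u, v, w}, S.Ok → ∀ K : Set S.Z, IsCompact K →
  (∀ z ∈ K, Dom S.O S.π z.2) → ∃ (K₁ : Set S.Z) (Γ₁ : Finset S.Γ) (C : ℝ≥0), IsCompact K₁ ∧
    ∀ m₁ : ℕ, m₁ ≠ 0 → ∃ C' : ℝ≥0, ∀ m₂ : ℕ, m₂ ≠ 0 → ∃ E₁ E₂ : Finset S.X,
      (∀ e ∈ E₁, ∃ b ∈ S.L₀, e = m₁ • b) ∧ (∀ e ∈ E₂, ∃ b ∈ S.L₀, e = m₂ • b) ∧
      ∀ᶠ R in atTop, ∀ ξ₁ ξ₂ : S.X → S.Q → ℝ,
        (∀ a q, ∑ᶠ f : S.M, ξ₂ a (q * f) = 0) → S.n2 R K₁ ξ₂ ≠ ⊤ →
        S.n2 R K ξ₂ ≤ C * (S.n2 R K₁ (ξ₁ - ξ₂) +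
            ∑ e ∈ E₁, S.n2 R K₁ fun a q => ξ₁ (a + e) q - ξ₁ a q) +
          C' * (∑ γ ∈ Γ₁, S.n2 R K₁ (fun a q =>
              ξ₂ (((γ : S.U₀) : unitary S.B) • a) (S.c γ * q) - ξ₂ a q) +
            ∑ e ∈ E₂, S.n2 R K₁ fun a q => ξ₂ (a + e) q - ξ₂ a q)

open Classical in
/-- (1): one-point uniformity on the cosets of `M` -/
def OneStmt : Prop := ∀ S : Sys.{u, v, w}, S.Ok → ∀ φ : S.Z → ℝ, Cc φ →
  (∀ z ∈ tsupport φ, S.Ch z) → ∀ q, ∀ f ∈ S.M,
    Tendsto (fun s => ∑' a : S.X, S.w s a * φ (S.iJ a) *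
      ((if col S.c (cy S.θ a) = q * f then 1 else 0) - if col S.c (cy S.θ a) = q then 1 else 0))
      (𝓝[>] 1) (𝓝 0)

/-- (3) + (4): orthogonality for different lines -/
def OrthStmt : Prop := ∀ S : Sys.{u, v, w}, S.Ok → ∀ (T : Type) [Finite T] [MulAction S.Q T]
  (At : S.B → T), S.Lab At → ∀ g g' : Aff S.k S.B, S.Adm g → S.Adm g' → g.Dif g' →
  ∀ φ χ : T → ℝ, Mz S.M φ → ∀ β : S.Z → ℝ, Cc β → (∀ z ∈ tsupport β, Dom S.O S.π (S.ap₀ g z.2)) →
  ∀ β₀ : S.Z → ℝ, Cc β₀ → 0 ≤ β₀ → β₀ ≠ 0 → ∀ η : ℝ, 0 < η → ∀ᶠ R in atTop, ∀ᶠ s in 𝓝[>] (1 : ℝ),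
    |∑' a : S.X, S.w s a * β (S.pos R a) * (φ (At (g.ap a)) * χ (At (g'.ap a)))| ≤
      η * ∫ z, β₀ (S.sc R z) ∂S.lam

/-- the analytic step in the abstract system -/
def AbsStmt : Prop := ∀ S : Sys.{u, v, w}, S.Ok → ∀ (T : Type) [Finite T] [MulAction S.Q T]
  (At : S.B → T), S.Lab At → ∀ (I : Type) [Finite I] (g : I → Aff S.k S.B) (z₀ : S.Z),
  (∀ j, S.Adm (g j)) → (∀ j, S.Cen (g j) z₀) → ∃ P, Indep S.θ S.c S.M At g P

/-- the analytic step for the data of the row -/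
def IndepStmt : Prop := ∀ D : Dat.{u, v, w}, 3 ≤ Csa.deg D.K D.B → Aniso D.B →
  ∀ (m : ℕ) (Q : Type) [Group Q] [Finite Q] (c : Um D.K D.B m →* Q) (M : Subgroup Q),
  Col m c M → ∀ θ : D.K, θ ≠ 0 → star θ = -θ →
  ∀ (T : Type) [Finite T] [MulAction Q T] (At : D.B → T),
  (∀ (u : Um D.K D.B m) (a : D.B), At (((u : unitary D.B) : D.B) * a * star ((u : unitary D.B) : D.B)) =
    c u • At a) → (∀ (a : D.B) (r : D.k), At (a + r • 1) = At a) →
  ∀ (I : Type) [Finite I] (g : I → Aff D.k D.B), ∃ P, Indep (algebraMap D.K D.B θ) c M At g P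

end Crest.Agent.T24.Na
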