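import Crest.Agent.T24.NstCt_39

/-!
# Row 24, NST: the amenable half and the assembly from the leaves.
-/

set_option autoImplicit false

namespace Crest.Agent.T24.Nst

open Topology Filter MeasureTheory Set
open scoped ENNReal

universe u v w

open Ct39 in
theorem amStmt (hF : FdStmt.{max u v}) (hC : ContStmt.{max u v}) (hE : EndStmt.{u, v})
    (hX : FixStmt.{max u v}) (hT : CtStmt.{u, v}) : AmStmt.{u, v, w} := by
  intro G₁ G₂ _ _ _ _ _ _ _ _ _ _ _ _ Γ N Q _ κ hκ hker hS ⟨B, a, D, hB, hD⟩ ⟨k, s, f, M, ε, hε, hM, hf⟩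
  borelize G₁ G₂
  let μ₁ : Measure G₁ := Measure.haar
  let μ₂ : Measure G₂ := Measure.haar
  set μ := μ₁.prod μ₂
  obtain ⟨hcount, -, ⟨c, hc⟩, huni⟩ := hF (G₁ × G₂) Γ hS.lat
  have := huni μ
  have : Countable N := (Subgroup.inclusion_injective hS.le).countable
  choose σ hσ using fun i => hκ (s i)
  have : Group.IsSolvable (B.map (MonoidHom.inl G₁ G₂)) :=
    Group.isSolvable_of_surjective (f := (MonoidHom.inl G₁ G₂).subgroupMap B)
      (MonoidHom.subgroupMap_surjective _ _)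
  have hcm : ∀ g : Γ → ℝ, Measurable fun x => g (c x) := fun g t _ => by
    have : (fun x => g (c x)) ⁻¹' t = ⋃ γ : {γ // g γ ∈ t}, {x | c x = γ} := by
      ext x; simp
    rw [this]
    exact .iUnion fun γ => hc.meas _
  obtain ⟨F, hFm, hFM, hFN, hFε, hFB⟩ := hX (G₁ × G₂) μ N (B.map (MonoidHom.inl G₁ G₂)) k
    (fun i => σ i) (fun i x => f i (κ (c x))) M ε (fun i => hcm fun γ => f i (κ γ))
    (fun i x => hM _ _)
    (fun i n hn x => by
      have := hc.equiv ⟨n, hS.le hn⟩ x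
      simp only at this
      simp only [this, map_mul, (hker ⟨n, hS.le hn⟩).2 hn, one_mul])
    (fun x => by simpa only [hc.equiv, map_mul, hσ] using hf (κ (c x)))
  obtain ⟨U₁, hU₁, hU₁n⟩ := exists_compact_mem_nhds (1 : G₁)
  obtain ⟨U₂, hU₂, hU₂n⟩ := exists_compact_mem_nhds (1 : G₂)
  have hU := hU₁.prod hU₂
  have hUpos : 0 < μ.real (U₁ ×ˢ U₂) := ENNReal.toReal_pos
    (Measure.measure_pos_of_mem_nhds μ (prod_mem_nhds hU₁n hU₂n)).ne' hU.measure_lt_top.ne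
  obtain ⟨H, hHn, hHf, hH⟩ := hE G₁ G₂ N hS.dense hS.fin
  let p : Fin k → G₁ × G₂ → ℝ := fun i x => ∫ y in U₁ ×ˢ U₂, F i (x * y) ∂μ
  have hp : ∀ i, ∀ h ∈ H, ∀ x, p i (h * x) = p i x := fun i =>
    hH (p i) (hC _ μ (F i) M _ (hFm i) (hFM i) hU).1
      (fun n hn x => by simp only [p, mul_assoc, hFN i n hn])
      (Or.inr fun n hn x => hT G₁ G₂ μ₁ μ₂ Γ N B a D (F i) M U₁ U₂ hS.lat.cocpt hS.nrm hD (hFm i)
        (hFM i) (hFN i) (fun b hb => hFB i _ ⟨b, hb, rfl⟩) hU₁ hU₂ n hn x)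
  have i1 : ∀ i (g : G₁ × G₂), IntegrableOn (fun y => F i (g * y)) (U₁ ×ˢ U₂) μ := fun i g =>
    integrableOn_bdd hU.measure_lt_top.ne ((hFm i).comp (measurable_const_mul g)) fun _ => hFM i _
  have hpε : ∀ x, ε * μ.real (U₁ ×ˢ U₂) ≤ ∑ i, (p i (σ i * x) - p i x) := fun x => by
    have e : ∑ i, (p i (σ i * x) - p i x) =
        ∫ y in U₁ ×ˢ U₂, ∑ i, (F i (σ i * x * y) - F i (x * y)) ∂μ := by
      refine Eq.trans ?_ (integral_finsetSum _ fun i _ => (i1 i _).sub (i1 i _)).symm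
      exact Finset.sum_congr rfl fun i _ => (integral_sub (i1 i _) (i1 i _)).symm
    rw [e, mul_comm, ← smul_eq_mul, ← setIntegral_const]
    refine integral_mono_ae (integrableOn_const hU.measure_lt_top.ne)
      (integrable_finsetSum _ fun i _ => (i1 i _).sub (i1 i _)) (ae_restrict_of_ae ?_)
    filter_upwards [(measurePreserving_mul_left μ x).quasiMeasurePreserving.ae hFε] with y hy
    simpa only [mul_assoc] using hy
  -- sum over the finite quotient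
  have : Fintype ((G₁ × G₂) ⧸ H) := Fintype.ofFinite _
  have hq : ∀ i (x y : G₁ × G₂), (x : (G₁ × G₂) ⧸ H) = y → p i x = p i y := fun i x y h => by
    have h1 : y * x⁻¹ ∈ H := by
      simpa [mul_assoc] using hHn.conj_mem _ (QuotientGroup.eq.1 h) x
    rw [← hp i _ h1 x, inv_mul_cancel_right]
  have hsum : ∀ i, ∑ q : (G₁ × G₂) ⧸ H, p i (σ i * q.out) = ∑ q : (G₁ × G₂) ⧸ H, p i q.out :=
    fun i => Fintype.sum_equiv (Equiv.mulLeft ((σ i : G₁ × G₂) : (G₁ × G₂) ⧸ H)) _ _ fun q =>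
      hq i _ _ (by simp)
  have h0 : ∑ q : (G₁ × G₂) ⧸ H, ∑ i, (p i (σ i * q.out) - p i q.out) = 0 := by
    rw [Finset.sum_comm]
    exact Finset.sum_eq_zero fun i _ => by rw [Finset.sum_sub_distrib, hsum, sub_self]
  have h1 : 0 < ∑ q : (G₁ × G₂) ⧸ H, ∑ i, (p i (σ i * q.out) - p i q.out) :=
    Finset.sum_pos (fun q _ => (mul_pos hε hUpos).trans_le (hpε _)) Finset.univ_nonempty
  exact h1.ne' h0

/-- the normal subgroup theorem for an abstract first factor -/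
theorem nst_gen (hA : AmStmt.{u, v, w}) (hH : HbStmt.{w}) (hT : ThStmt.{u, v, w})
    (G₁ : Type u) (G₂ : Type v) [Group G₁] [TopologicalSpace G₁] [IsTopologicalGroup G₁]
    [LocallyCompactSpace G₁] [SecondCountableTopology G₁] [T2Space G₁] [Group G₂]
    [TopologicalSpace G₂] [IsTopologicalGroup G₂] [LocallyCompactSpace G₂]
    [SecondCountableTopology G₂] [T2Space G₂] (Γ : Type w) [Group Γ] (ι₁ : Γ →* G₁) (ι₂ : Γ →* G₂)
    (N : Subgroup Γ) [hN : N.Normal] (hK : Kaz.{u, max u v} G₁) (hC : Ctr G₁)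
    (hd : ∃ U₁ ∈ 𝓝 (1 : G₁), ∃ U₂ ∈ 𝓝 (1 : G₂), ∀ γ, ι₁ γ ∈ U₁ → ι₂ γ ∈ U₂ → γ = 1)
    (hc : ∃ C₁ C₂, IsCompact C₁ ∧ IsCompact C₂ ∧
      ∀ x₁ x₂, ∃ γ, (ι₁ γ)⁻¹ * x₁ ∈ C₁ ∧ (ι₂ γ)⁻¹ * x₂ ∈ C₂)
    (h1 : Dense (ι₁ '' (N : Set Γ))) (h2 : (N.map ι₂).topologicalClosure.FiniteIndex) :
    N.FiniteIndex := by
  obtain ⟨U₁, hU₁, U₂, hU₂, hU⟩ := hd
  obtain ⟨C₁, C₂, hC₁, hC₂, hCC⟩ := hc
  set ι := ι₁.prod ι₂ with hι
  have hinj : Function.Injective ι := (injective_iff_map_eq_one ι).2 fun γ h => by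
    have h' := Prod.ext_iff.1 h
    exact hU γ (by rw [show ι₁ γ = 1 from h'.1]; exact mem_of_mem_nhds hU₁)
      (by rw [show ι₂ γ = 1 from h'.2]; exact mem_of_mem_nhds hU₂)
  let e := MonoidHom.ofInjective hinj
  let κ : ι.range →* Γ ⧸ N := (QuotientGroup.mk' N).comp e.symm.toMonoidHom
  have hκ : Function.Surjective κ := (QuotientGroup.mk'_surjective N).comp e.symm.surjective
  have hker : ∀ γ : ι.range, κ γ = 1 ↔ (γ : G₁ × G₂) ∈ N.map ι := fun γ => by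
    obtain ⟨γ, rfl⟩ := e.surjective γ
    have : ((e γ : ι.range) : G₁ × G₂) = ι γ := rfl
    rw [this, Subgroup.mem_map_iff_mem hinj]
    simp [κ]
  have hS : Setup ι.range (N.map ι) := by
    refine ⟨⟨⟨U₁ ×ˢ U₂, prod_mem_nhds hU₁ hU₂, ?_⟩, C₁ ×ˢ C₂, hC₁.prod hC₂, fun x => ?_⟩,
      N.map_le_range ι, ?_, ?_, ?_⟩
    · rintro _ ⟨γ, rfl⟩ h
      rw [hU γ h.1 h.2, map_one]
    · obtain ⟨γ, hγ⟩ := hCC x.1 x.2
      exact ⟨ι γ, ⟨γ, rfl⟩, hγ⟩
    · rintro _ ⟨γ, rfl⟩ _ ⟨n, hn, rfl⟩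
      exact ⟨_, hN.conj_mem n hn γ, by simp⟩
    · rw [Subgroup.coe_map, image_image]
      exact h1
    · rw [Subgroup.map_map]
      exact h2
  have := hT G₁ G₂ _ _ _ κ hκ hker hS hK (hH _ (hA G₁ G₂ _ _ _ κ hκ hker hS hC))
  exact Subgroup.finiteIndex_of_finite_quotient

section SL

variable {F : Type u} [Field F] [TopologicalSpace F] {n : Type} [Fintype n] [DecidableEq n]

lemma sl_closedEmbedding [IsTopologicalRing F] [T2Space F] :
    IsClosedEmbedding ((↑) : Matrix.SpecialLinearGroup n F → Matrix n n F) :=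
  (isClosed_eq (continuous_id.matrix_det) continuous_const :
    IsClosed {A : Matrix n n F | A.det = 1}).isClosedEmbedding_subtypeVal

lemma sl_lc [IsTopologicalRing F] [T2Space F] [LocallyCompactSpace F] :
    LocallyCompactSpace (Matrix.SpecialLinearGroup n F) :=
  haveI : LocallyCompactSpace (Matrix n n F) := inferInstanceAs (LocallyCompactSpace (n → n → F))
  sl_closedEmbedding.locallyCompactSpace

lemma sl_sc [SecondCountableTopology F] :
    SecondCountableTopology (Matrix.SpecialLinearGroup n F) :=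
  haveI : SecondCountableTopology (Matrix n n F) :=
    inferInstanceAs (SecondCountableTopology (n → n → F))
  TopologicalSpace.Subtype.secondCountableTopology {A : Matrix n n F | A.det = 1}

lemma sl_t2 [T2Space F] : T2Space (Matrix.SpecialLinearGroup n F) :=
  inferInstanceAs (T2Space {A : Matrix n n F // A.det = 1})

end SL

theorem nst_of (hK : KazStmt.{u, max u v}) (hC : CtrStmt.{u}) (hA : AmStmt.{u, v, w})
    (hH : HbStmt.{w}) (hT : ThStmt.{u, v, w}) : NstStmt.{u, v, w} := by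
  intro F _ _ _ _ _ _ O π d G₂ _ _ _ _ _ _ Γ _ ι₁ ι₂ N hL hd hN h1 h2 h3 h4
  have := sl_lc (F := F) (n := Fin d)
  have := sl_sc (F := F) (n := Fin d)
  have := sl_t2 (F := F) (n := Fin d)
  exact nst_gen hA hH hT _ G₂ Γ ι₁ ι₂ N (hK F O π d hL hd) (hC F π d hL.ne hL.tend (by omega))
    h1 h2 h3 h4

end Crest.Agent.T24.Nst
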