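import Crest.Agent.T24.NaKoop_39
import Crest.Agent.T24.NaDef_18
import Crest.Agent.T24.NstAm_39

/-!
# Row 24, NA + TW: vectors fixed by `SL_d` do not separate points which are joined by near elements.
-/

set_option autoImplicit false
set_option linter.unusedSectionVars false

noncomputable section

namespace Crest.Agent.T24.Na.K39

open Topology Filter MeasureTheory Set
open scoped ENNReal

universe u v w

/-- right invariance under a normal subgroup gives left invariance -/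
theorem left_of_right {G H : Type*} [Group G] [MeasurableSpace G] [MeasurableMul₂ G] [Group H]
    [MeasurableSpace H] [MeasurableMul H] (μ : Measure G) [SFinite μ] [μ.IsMulLeftInvariant]
    (η : Measure H) [SFinite η] [η.IsMulLeftInvariant] [NeZero η] (j : H →* G) (hj : Measurable j)
    (hn : ∀ x s, ∃ s', j s * x = x * j s') {f : G → ℝ} (hf : Measurable f)
    (hi : ∀ s, ∀ᵐ x ∂μ, f (x * j s) = f x) (s : H) : ∀ᵐ x ∂μ, f (j s * x) = f x := by
  have hm : MeasurableSet {z : H × G | f (z.2 * j z.1) = f z.2} :=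
    measurableSet_eq_fun (hf.comp (measurable_snd.mul (hj.comp measurable_fst)))
      (hf.comp measurable_snd)
  have h1 := (Measure.ae_ae_comm (μ := η) (ν := μ) (p := fun s x => f (x * j s) = f x) hm).1
    (Eventually.of_forall hi)
  filter_upwards [h1, (measurePreserving_mul_left μ (j s)).quasiMeasurePreserving.ae h1] with x a b
  obtain ⟨s₀, e⟩ := hn x s
  obtain ⟨t, h2, h3⟩ :=
    (((measurePreserving_mul_left η s₀).quasiMeasurePreserving.ae a).and b).exists
  rw [← h3, ← h2, e, map_mul, mul_assoc]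

variable {G : Type u} {Γ Y : Type*} [Group G] [TopologicalSpace G] [IsTopologicalGroup G]
  [LocallyCompactSpace G] [SecondCountableTopology G] [T2Space G] [MeasurableSpace G] [BorelSpace G]
  [Group Γ] [Countable Γ] [MulAction Γ Y] [MeasurableSpace Y] [MeasurableConstSMul Γ Y]
  {ι : Γ →* G} {c : G → Γ}

/-- IND0 -/
theorem Co.ind0 (h : Co ι c) (μ : Measure G) (ω : Measure Y) [μ.IsHaarMeasure] [SFinite ω]
    [μ.IsMulRightInvariant] [SMulInvariantMeasure Γ Y ω] {H : Type*} [Group H] [TopologicalSpace H]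
    [IsTopologicalGroup H] [LocallyCompactSpace H] [SecondCountableTopology H] [T2Space H]
    (j : H →* G) (hj : Continuous j) (hn : ∀ x s, ∃ s', j s * x = x * j s')
    {ξ : Lp ℝ 2 (mX c μ ω)} (hξ : ∀ s, h.kp μ ω (j s) ξ = ξ) {y y' : Y} (hy : ω {y} ≠ 0)
    (hW : ∀ W ∈ 𝓝 (1 : G), ∃ γ s, (j s)⁻¹ * ι γ ∈ W ∧ γ • y' = y) :
    ∀ᵐ x ∂μ, ξ (Pj ι c (x, y)) = ξ (Pj ι c (x, y')) := by
  borelize H
  have hm : ∀ y, Measurable fun x => Real.arctan (ξ (Pj ι c (x, y))) := fun y =>
    Real.continuous_arctan.measurable.comp ((Lp.stronglyMeasurable ξ).measurable.comp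
      (h.meas_Pj.comp measurable_prodMk_right))
  have hb : ∀ t : ℝ, |Real.arctan t| ≤ Real.pi / 2 := fun t =>
    abs_le.2 ⟨(Real.neg_pi_div_two_lt_arctan t).le, (Real.arctan_lt_pi_div_two t).le⟩
  have h1 : ∀ s, ∀ᵐ x ∂μ, Real.arctan (ξ (Pj ι c (x * j s, y))) = Real.arctan (ξ (Pj ι c (x, y))) :=
    fun s => by
      have h2 : ∀ᵐ p ∂μ.prod ω, ξ (Pj ι c (rt (j s) p)) = ξ (Pj ι c p) := by
        refine h.ae_of_mX μ ω (fun γ p => by simp only [← act_rt, h.Pj_act]) ?_
        filter_upwards [h.kp_coe μ ω (j s) ξ, h.ae_mem μ ω] with p a b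
        rw [← a, hξ, Pj_of_mem b]
      filter_upwards [Measure.ae_ae_of_ae_prod h2] with x hx
      by_contra h3
      refine hy (measure_mono_null (fun z hz => ?_) (ae_iff.1 hx))
      rw [mem_singleton_iff.1 hz]
      exact fun h4 => h3 (congrArg _ h4)
  have h2 := left_of_right μ (Measure.haar (G := H)) j hj.measurable hn (hm y) h1
  have h3 : ∀ K, IsCompact K → ∫ x in K, Real.arctan (ξ (Pj ι c (x, y))) ∂μ =
      ∫ x in K, Real.arctan (ξ (Pj ι c (x, y'))) ∂μ := fun K hK => by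
    have hc := (Nst.contStmt G μ _ _ K (hm y) (fun _ => hb _) hK).1
    have : (1 : G) ∈ closure {g | ∫ x in K, Real.arctan (ξ (Pj ι c (g * x, y))) ∂μ =
        ∫ x in K, Real.arctan (ξ (Pj ι c (x, y'))) ∂μ} := mem_closure_iff_nhds.2 fun W hW' => by
      obtain ⟨γ, s, h4, rfl⟩ := hW W hW'
      refine ⟨_, h4, integral_congr_ae (ae_restrict_of_ae ?_)⟩
      filter_upwards [(measurePreserving_mul_left μ ((j s)⁻¹ * ι γ)).quasiMeasurePreserving.ae
        (h2 s)] with x hx
      rw [← hx, ← h.Pj_act γ (x, y'), act, mul_assoc, mul_inv_cancel_left]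
    simpa using (isClosed_eq hc continuous_const).closure_subset this
  have hi : ∀ y K, IsCompact K → IntegrableOn (fun x => Real.arctan (ξ (Pj ι c (x, y)))) K μ :=
    fun y K hK => Nst.Ct39.integrableOn_bdd hK.measure_lt_top.ne (hm y) fun _ => hb _
  have h4 := ae_eq_zero_of_forall_setIntegral_isCompact_eq_zero' (μ := μ)
    (f := fun x => Real.arctan (ξ (Pj ι c (x, y))) - Real.arctan (ξ (Pj ι c (x, y'))))
    (locallyIntegrable_iff.2 fun K hK => (hi y K hK).sub (hi y' K hK))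
    fun K hK => by rw [integral_sub (hi y K hK) (hi y' K hK), h3 K hK, sub_self]
  filter_upwards [h4] with x hx
  exact Real.arctan_injective (sub_eq_zero.1 hx)

section Gl
variable {F : Type*} [Field F] [TopologicalSpace F] [IsTopologicalRing F] {d : ℕ}

instance gl_lc [T2Space F] [LocallyCompactSpace F] : LocallyCompactSpace (GL (Fin d) F) :=
  haveI : LocallyCompactSpace (Mt d F) := inferInstanceAs (LocallyCompactSpace (Fin d → Fin d → F))
  inferInstance

instance gl_sc [SecondCountableTopology F] : SecondCountableTopology (GL (Fin d) F) :=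
  haveI : SecondCountableTopology (Mt d F) :=
    inferInstanceAs (SecondCountableTopology (Fin d → Fin d → F))
  haveI : SecondCountableTopology (Mt d F)ᵐᵒᵖ := MulOpposite.opHomeomorph.symm.secondCountableTopology
  Units.isEmbedding_embedProduct.secondCountableTopology

variable (G₂ : Type*) [Group G₂]

/-- `SL_d(F)` in `G₂ × GL_d(F)` -/
def jS : Matrix.SpecialLinearGroup (Fin d) F →* G₂ × GL (Fin d) F :=
  (MonoidHom.inr _ _).comp Matrix.SpecialLinearGroup.toGL

omit [TopologicalSpace F] [IsTopologicalRing F] in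
@[simp] theorem jS_apply (s : Matrix.SpecialLinearGroup (Fin d) F) :
    jS G₂ s = (1, Matrix.SpecialLinearGroup.toGL s) := rfl

theorem continuous_jS [TopologicalSpace G₂] :
    Continuous (jS G₂ : Matrix.SpecialLinearGroup (Fin d) F → _) :=
  continuous_const.prodMk Matrix.SpecialLinearGroup.continuous_toGL

omit [TopologicalSpace F] [IsTopologicalRing F] in
/-- conjugation of `SL_d` by `GL_d` -/
theorem exists_conj (x : GL (Fin d) F) (s : Matrix.SpecialLinearGroup (Fin d) F) :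
    ∃ s' : Matrix.SpecialLinearGroup (Fin d) F,
      Matrix.SpecialLinearGroup.toGL s * x = x * Matrix.SpecialLinearGroup.toGL s' :=
  ⟨⟨(x⁻¹ * Matrix.SpecialLinearGroup.toGL s * x : GL (Fin d) F), by
    rw [Units.val_mul, Units.val_mul, Matrix.det_mul, Matrix.det_mul, mul_right_comm,
      ← Matrix.det_mul, ← Units.val_mul, inv_mul_cancel]
    simp⟩, by
    rw [← mul_inv_cancel_left x (_ * x), ← mul_assoc x⁻¹]
    congr 1
    exact Units.ext rfl⟩

omit [TopologicalSpace F] [IsTopologicalRing F] in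
theorem jS_normal (x : G₂ × GL (Fin d) F) (s : Matrix.SpecialLinearGroup (Fin d) F) :
    ∃ s', jS G₂ s * x = x * jS G₂ s' := by
  obtain ⟨s', h⟩ := exists_conj x.2 s
  exact ⟨s', Prod.ext (by simp) h⟩

variable {G₂} [TopologicalSpace G₂] in
omit [IsTopologicalRing F] in
theorem near_mem {Γ : Type*} [Group Γ] {ι : Γ →* G₂ × GL (Fin d) F} {W : Set (G₂ × GL (Fin d) F)}
    (hW : W ∈ 𝓝 1) : ∃ W' ∈ 𝓝 (1 : G₂), ∀ γ, Near ι W' γ → ∃ s, (jS G₂ s)⁻¹ * ι γ ∈ W := by
  refine ⟨_, (continuous_id.prodMk continuous_const).continuousAt.preimage_mem_nhds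
    (f := fun g : G₂ => (g, (1 : GL (Fin d) F))) hW, fun γ h => ⟨⟨_, h.1⟩, ?_⟩⟩
  have e : (jS G₂ (⟨_, h.1⟩ : Matrix.SpecialLinearGroup (Fin d) F))⁻¹ * ι γ = ((ι γ).1, 1) :=
    Prod.ext (by change (1 : G₂)⁻¹ * _ = _; simp) (inv_mul_eq_one.2 (Units.ext rfl))
  rw [e]
  exact h.2

end Gl

/-- IND0 in the words of `NaDef_18` -/
theorem Co.ind0_near {F : Type*} [Field F] [TopologicalSpace F] [IsTopologicalRing F]
    [LocallyCompactSpace F] [SecondCountableTopology F] [T2Space F] {d : ℕ} {G₂ : Type*} [Group G₂]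
    [TopologicalSpace G₂] [IsTopologicalGroup G₂] [LocallyCompactSpace G₂]
    [SecondCountableTopology G₂] [T2Space G₂] [MeasurableSpace (G₂ × GL (Fin d) F)]
    [BorelSpace (G₂ × GL (Fin d) F)] {ι : Γ →* G₂ × GL (Fin d) F} {c : G₂ × GL (Fin d) F → Γ}
    (h : Co ι c) (μ : Measure (G₂ × GL (Fin d) F)) (ω : Measure Y) [μ.IsHaarMeasure] [SFinite ω]
    [μ.IsMulRightInvariant] [SMulInvariantMeasure Γ Y ω] {ξ : Lp ℝ 2 (mX c μ ω)}
    (hξ : ∀ s, h.kp μ ω (jS G₂ s) ξ = ξ) {y y' : Y} (hy : ω {y} ≠ 0)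
    (hW : ∀ W ∈ 𝓝 (1 : G₂), ∃ γ, Near ι W γ ∧ γ • y' = y) :
    ∀ᵐ x ∂μ, ξ (Pj ι c (x, y)) = ξ (Pj ι c (x, y')) := by
  have := Nst.sl_lc (F := F) (n := Fin d)
  have := Nst.sl_sc (F := F) (n := Fin d)
  have := Nst.sl_t2 (F := F) (n := Fin d)
  refine h.ind0 μ ω (jS G₂) (continuous_jS G₂) (jS_normal G₂) hξ hy fun W hW' => ?_
  obtain ⟨W', h1, h2⟩ := near_mem (ι := ι) hW'
  obtain ⟨γ, h3, h4⟩ := hW W' h1
  obtain ⟨s, h5⟩ := h2 γ h3
  exact ⟨γ, s, h5, h4⟩

end Crest.Agent.T24.Na.K39
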