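import Crest.Agent.T24.NaVm_52

/-!
# Row 24: cells of `M_d (O)`, the element `t`, the Newton step, vector measures on matrices (helper52)
-/

set_option autoImplicit false

namespace Crest.Agent.T24.Vm

open Finset Matrix Kaz

section act
variable {ι F : Type*} [Fintype ι] [DecidableEq ι] [Field F] {G : Type*} [Group G]
  {V : Type*} [NormedAddCommGroup V] [InnerProductSpace ℝ V] [CompleteSpace V]
  {O : Subring F} {p ϖ : F} {κ : Type*} [Fintype κ] {t : κ → F} {M : Type*} [AddCommGroup M]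

/-- stable under translation by `L` -/
def Sat (L : AddSubgroup M) (s : Set M) : Prop := ∀ x ∈ s, ∀ l ∈ L, x + l ∈ s

theorem mem_cell {L : AddSubgroup M} {z x : M} : x ∈ cell L z ↔ x - z ∈ L := by
  rw [cell, Set.mem_ofPred_eq, neg_add_eq_sub]

theorem sat_cell (L : AddSubgroup M) (z : M) : Sat L (cell L z) := fun x hx l hl => by
  rw [mem_cell] at *; simpa [add_sub_right_comm] using L.add_mem hx hl

/-- VM for an additive action -/
theorem vmA (h : Dat O p t) (hϖ : ϖ ∈ O) (hp : p * ϖ = 1) (hκ : 5 ≤ Fintype.card κ)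
    (hι : 3 ≤ Fintype.card ι) (π : G →* (V ≃ₗᵢ[ℝ] V)) {i₀ : ι} {c : F} (hc : ∃ o ∈ O, c = ϖ * o)
    (L : ℕ → AddSubgroup M) (hL : Antitone L) (hfin : ∀ j, (L j).relIndex (L 0) ≠ 0) {a b : ℕ}
    (hb : ∀ j, (L (j + a)).relIndex (L j) ≤ b) (ρ : G →* (M ≃ₗ[ℤ] M)) (z₀ : M) (Ψ : Set M → V)
    (hadd : ∀ j s s', s ⊆ cell (L 0) z₀ → s' ⊆ cell (L 0) z₀ → Sat (L j) s → Sat (L j) s' →
      Disjoint s s' → Ψ (s ∪ s') = Ψ s + Ψ s')
    {C : ℝ} (hC : ∀ j, ∀ z ∈ cell (L 0) z₀, (L j).relIndex (L 0) * ‖Ψ (cell (L j) z)‖ ≤ C)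
    (heq : ∀ g j, ∀ z ∈ cell (L 0) z₀, ρ g '' cell (L j) z ⊆ cell (L 0) z₀ →
      π g (Ψ (cell (L j) z)) = Ψ (ρ g '' cell (L j) z))
    (J : ℕ → M → (SpecialLinearGroup ι F →* G)) (T : ℕ → M → G)
    (hT : ∀ j, ∀ z ∈ cell (L 0) z₀, Ctr (J j z) i₀ c (T j z) ∧ ρ (T j z) z - z ∈ L j ∧
      ∀ i, ∀ l ∈ L (i + a), ρ (T j z) l ∈ L i ∧ ρ (T j z)⁻¹ l ∈ L i)
    (hK : ∀ j₁, ∃ m : ℕ, ∀ j, ∀ z ∈ cell (L 0) z₀, ∀ k, k ≠ i₀ → ∀ o ∈ O, ∀ x ∈ cell (L 0) z₀,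
      ρ (J j z (X i₀ k (ϖ ^ m * o))) x - x ∈ L j₁ ∧ ρ (J j z (X k i₀ (ϖ ^ m * o))) x - x ∈ L j₁)
    {g : G} (hg : ∀ j, ∀ z ∈ cell (L 0) z₀, g ∈ (J j z).range) :
    π g (Ψ (cell (L 0) z₀)) = Ψ (cell (L 0) z₀) := by
  set f : L 0 → M := fun l => z₀ + l with hf
  have hf0 : ∀ l, f l ∈ cell (L 0) z₀ := fun l => by simp [mem_cell, hf]
  have hf1 : ∀ s, f '' s ⊆ cell (L 0) z₀ := by rintro s _ ⟨l, -, rfl⟩; exact hf0 l
  have hf2 : ∀ x ∈ cell (L 0) z₀, ∃ l, f l = x := fun x hx => ⟨⟨_, mem_cell.1 hx⟩, by simp [hf]⟩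
  have hf3 : ∀ j z, f '' cell ((L j).addSubgroupOf (L 0)) z = cell (L j) (f z) := fun j z => by
    ext x
    constructor
    · rintro ⟨l, hl, rfl⟩
      simpa [mem_cell, hf, AddSubgroup.mem_addSubgroupOf] using hl
    · intro hx
      obtain ⟨l, rfl⟩ := hf2 x (by
        rw [mem_cell] at *
        have := (L 0).add_mem (hL (Nat.zero_le j) hx) z.2
        rwa [hf, show x - (z₀ + z) + z = x - z₀ by abel] at this)
      exact ⟨l, by simpa [mem_cell, hf, AddSubgroup.mem_addSubgroupOf] using hx, rfl⟩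
  have hf4 : ∀ j s, Sat (L j) (f '' U ((L j).addSubgroupOf (L 0)) s) := by
    rintro j s _ ⟨x, hx, rfl⟩ l hl
    refine ⟨x + ⟨l, hL (Nat.zero_le j) hl⟩, ?_, by simp [hf, add_assoc]⟩
    change _ ∈ s at hx ⊢
    rwa [QuotientAddGroup.mk_add_of_mem _ (by exact hl)]
  have hsub : ∀ j, ∀ z ∈ cell (L 0) z₀, cell (L j) z ⊆ cell (L 0) z₀ := fun j z hz x hx => by
    rw [mem_cell] at *
    simpa using (L 0).add_mem (hL (Nat.zero_le j) hx) hz
  have hfix : ∀ (k : G) j, ∀ z ∈ cell (L 0) z₀, (∀ x ∈ cell (L 0) z₀, ρ k x - x ∈ L j) →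
      (∀ x ∈ cell (L 0) z₀, ρ k⁻¹ x - x ∈ L j) → π k (Ψ (cell (L j) z)) = Ψ (cell (L j) z) :=
    fun k j z hz h1 h2 => by
      have : ρ k '' cell (L j) z = cell (L j) z := by
        refine Set.Subset.antisymm ?_ fun x hx => ⟨ρ k⁻¹ x, ?_, ?_⟩
        · rintro _ ⟨x, hx, rfl⟩
          simpa using sat_cell _ _ x hx _ (h1 x (hsub j z hz hx))
        · simpa using sat_cell _ _ x hx _ (h2 x (hsub j z hz hx))
        · rw [← LinearEquiv.mul_apply, ← map_mul, mul_inv_cancel, map_one]; rfl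
      rw [heq k j z hz (this.symm ▸ hsub j z hz), this]
  have hu : f '' Set.univ = cell (L 0) z₀ :=
    (hf1 _).antisymm fun x hx => (hf2 x hx).imp fun _ h => ⟨trivial, h⟩
  rw [← hu]
  refine vm h hϖ hp hκ hι π (i₀ := i₀) hc (fun j => (L j).addSubgroupOf (L 0))
    (fun i j hij => AddSubgroup.comap_mono (hL hij)) (fun j => ⟨hfin j⟩) (a := a) (b := b)
    (fun j => ?_) (fun s => Ψ (f '' s)) (fun j s s' hs => ?_) (C := C) (fun j z => ?_)
    (fun j z => J j (f z)) (fun j z => T j (f z)) (fun j z => (hT j _ (hf0 z)).1) (fun j z => ?_)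
    (fun j₁ => (hK j₁).imp fun m hm j z k hk o ho => ?_) fun j z => hg j _ (hf0 z)
  · rw [AddSubgroup.relIndex_addSubgroupOf (hL (Nat.zero_le j))]; exact hb j
  · simp only [U, Set.preimage_union, Set.image_union]
    refine hadd j _ _ (hf1 _) (hf1 _) (hf4 j s) (hf4 j s') ?_
    exact (Set.disjoint_image_iff fun x y hxy => by simpa [hf] using hxy).2 (hs.preimage _)
  · rw [hf3]; exact hC j _ (hf0 z)
  · obtain ⟨-, h1, h2⟩ := hT j _ (hf0 z)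
    have h3 : ρ (T j (f z)) '' cell (L (j + a)) (f z) ⊆ cell (L j) (f z) := by
      rintro _ ⟨x, hx, rfl⟩
      rw [mem_cell] at *
      simpa using (L j).add_mem (h2 j _ hx).1 h1
    have h4 : f '' U ((L (j + a + a)).addSubgroupOf (L 0))
        {q | ∃ l : L 0, (l : _ ⧸ _) = q ∧ f l ∈ ρ (T j (f z)) '' cell (L (j + a)) (f z)} =
        ρ (T j (f z)) '' cell (L (j + a)) (f z) := by
      refine Set.Subset.antisymm ?_ fun x hx => ?_
      · rintro _ ⟨l, ⟨l', e, x, hx, e'⟩, rfl⟩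
        rw [QuotientAddGroup.eq, AddSubgroup.mem_addSubgroupOf] at e
        refine ⟨x + ρ (T j (f z))⁻¹ _, sat_cell _ _ x hx _ (h2 _ _ e).2, ?_⟩
        rw [map_add, e', ← LinearEquiv.mul_apply, ← map_mul, mul_inv_cancel, map_one]
        simp [hf]
      · obtain ⟨l, rfl⟩ := hf2 x (hsub j _ (hf0 z) (h3 hx))
        exact ⟨l, ⟨l, rfl, hx⟩, rfl⟩
    refine ⟨_, fun l hl => ?_, by
      rw [h4, hf3]; exact heq _ _ _ (hf0 z) (h3.trans (hsub j _ (hf0 z)))⟩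
    have := h3 (h4 ▸ Set.mem_image_of_mem f hl)
    simpa [mem_cell, hf, AddSubgroup.mem_addSubgroupOf] using this
  · rw [hf3]
    have h1 := hm j _ (hf0 z) k hk o ho
    have h2 := hm j _ (hf0 z) k hk _ (O.neg_mem ho)
    simp only [mul_neg, ← X_neg, map_inv (J j (f z))] at h2
    exact ⟨hfix _ _ _ (hf0 z) (fun x hx => (h1 x hx).1) fun x hx => (h2 x hx).1,
      hfix _ _ _ (hf0 z) (fun x hx => (h1 x hx).2) fun x hx => (h2 x hx).2⟩

end act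

section mat
variable {ι F : Type*} [Fintype ι] [DecidableEq ι] [Field F] (O : Subring F) (ϖ : F)

/-- `ϖ ^ n O` -/
def Iv (n : ℕ) : AddSubgroup F where
  carrier := {x | ∃ o ∈ O, x = ϖ ^ n * o}
  zero_mem' := ⟨0, O.zero_mem, by simp⟩
  add_mem' := by
    rintro _ _ ⟨o, ho, rfl⟩ ⟨o', ho', rfl⟩
    exact ⟨o + o', O.add_mem ho ho', by ring⟩
  neg_mem' := by
    rintro _ ⟨o, ho, rfl⟩
    exact ⟨-o, O.neg_mem ho, by ring⟩

/-- `ϖ ^ n M_d (O)` -/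
def Lv (ι : Type*) (n : ℕ) : AddSubgroup (Matrix ι ι F) := (Iv O ϖ n).matrix

variable {O ϖ}

omit [Fintype ι] [DecidableEq ι] in
theorem mem_Lv {n : ℕ} {x : Matrix ι ι F} : x ∈ Lv O ϖ ι n ↔ ∀ i j, ∃ o ∈ O, x i j = ϖ ^ n * o :=
  Iff.rfl

theorem Iv_mul {a b : ℕ} {x y : F} (hx : x ∈ Iv O ϖ a) (hy : y ∈ Iv O ϖ b) : x * y ∈ Iv O ϖ (a + b) := by
  obtain ⟨o, ho, rfl⟩ := hx
  obtain ⟨o', ho', rfl⟩ := hy
  exact ⟨o * o', O.mul_mem ho ho', by ring⟩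

omit [DecidableEq ι] in
theorem Lv_mul {a b : ℕ} {x y : Matrix ι ι F} (hx : x ∈ Lv O ϖ ι a) (hy : y ∈ Lv O ϖ ι b) :
    x * y ∈ Lv O ϖ ι (a + b) := fun i j => by
  rw [mul_apply]; exact (Iv O ϖ (a + b)).sum_mem fun k _ => Iv_mul (hx i k) (hy k j)

omit [DecidableEq ι] in
theorem Lv_mul_left {a : ℕ} {x y : Matrix ι ι F} (hx : x ∈ Lv O ϖ ι 0) (hy : y ∈ Lv O ϖ ι a) :
    x * y ∈ Lv O ϖ ι a := by simpa using Lv_mul hx hy

omit [DecidableEq ι] in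
theorem Lv_mul_right {a : ℕ} {x y : Matrix ι ι F} (hx : x ∈ Lv O ϖ ι a) (hy : y ∈ Lv O ϖ ι 0) :
    x * y ∈ Lv O ϖ ι a := by simpa using Lv_mul hx hy

omit [Fintype ι] [DecidableEq ι] in
theorem Lv_anti (hϖ : ϖ ∈ O) : Antitone (Lv O ϖ ι) := antitone_nat_of_succ_le fun n x hx i j => by
  obtain ⟨o, ho, e⟩ := hx i j
  exact ⟨ϖ * o, O.mul_mem hϖ ho, by rw [e]; ring⟩

omit [Fintype ι] in
theorem single_mem_Lv {n : ℕ} (i j : ι) {o : F} (ho : o ∈ O) : single i j (ϖ ^ n * o) ∈ Lv O ϖ ι n :=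
  fun k l => by
    rw [single_apply]; split_ifs
    exacts [⟨o, ho, rfl⟩, (Iv O ϖ n).zero_mem]

omit [Fintype ι] in
theorem diagonal_mem_Lv {f : ι → F} (hf : ∀ i, f i ∈ O) : diagonal f ∈ Lv O ϖ ι 0 := fun k l => by
  rw [diagonal_apply]; split_ifs
  exacts [⟨_, hf k, by simp⟩, (Iv O ϖ 0).zero_mem]

omit [Fintype ι] in
theorem one_mem_Lv : (1 : Matrix ι ι F) ∈ Lv O ϖ ι 0 := diagonal_mem_Lv fun _ => O.one_mem

omit [Fintype ι] [DecidableEq ι] in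
theorem Lv_cancel (h0 : ϖ ≠ 0) {a n : ℕ} {x : Matrix ι ι F} (h : ϖ ^ a • x ∈ Lv O ϖ ι (n + a)) :
    x ∈ Lv O ϖ ι n := fun i j => by
  obtain ⟨o, ho, e⟩ := h i j
  refine ⟨o, ho, mul_left_cancel₀ (pow_ne_zero a h0) ?_⟩
  rw [← smul_eq_mul, ← Matrix.smul_apply, e]; ring

omit [DecidableEq ι] in
/-- bounded distortion -/
theorem Lv_dist (h0 : ϖ ≠ 0) {a b n : ℕ} {g g' x : Matrix ι ι F} (hg : ϖ ^ a • g ∈ Lv O ϖ ι 0)
    (hg' : ϖ ^ b • g' ∈ Lv O ϖ ι 0) (hx : x ∈ Lv O ϖ ι (n + (a + b))) : g * x * g' ∈ Lv O ϖ ι n := by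
  refine Lv_cancel h0 (a := a + b) ?_
  have := Lv_mul_right (Lv_mul_left hg hx) hg'
  rwa [smul_mul_assoc, smul_mul_smul_comm, ← pow_add] at this

/-- an element of `SL_d (O)` -/
def InK (O : Subring F) (ϖ : F) (h : SpecialLinearGroup ι F) : Prop :=
  (h : Matrix ι ι F) ∈ Lv O ϖ ι 0 ∧ ((h⁻¹ : SpecialLinearGroup ι F) : Matrix ι ι F) ∈ Lv O ϖ ι 0

theorem InK.mul {g h : SpecialLinearGroup ι F} (hg : InK O ϖ g) (hh : InK O ϖ h) : InK O ϖ (g * h) :=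
  ⟨Lv_mul_left hg.1 hh.1, by rw [_root_.mul_inv_rev]; exact Lv_mul_left hh.2 hg.2⟩

theorem newton_step (hϖ : ϖ ∈ O) {e z b : Matrix ι ι F} (he0 : e ∈ Lv O ϖ ι 0)
    (hz : z - e ∈ Lv O ϖ ι 1) (hb : b ∈ Lv O ϖ ι 1) (hbb : b * b = 0) (hd : (1 - b).det = 1) :
    ∃ u : SpecialLinearGroup ι F, InK O ϖ u ∧ (u : Matrix ι ι F) = 1 - b ∧
      ((u⁻¹ : SpecialLinearGroup ι F) : Matrix ι ι F) = 1 + b ∧
      (1 + b) * z * (1 - b) - e ∈ Lv O ϖ ι 1 := by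
  have hb0 := Lv_anti hϖ zero_le_one hb
  have hz0 : z ∈ Lv O ϖ ι 0 := by simpa using add_mem (Lv_anti hϖ zero_le_one hz) he0
  obtain ⟨u, hu⟩ : ∃ u : SpecialLinearGroup ι F, (u : Matrix ι ι F) = 1 - b := ⟨⟨_, hd⟩, rfl⟩
  have h1 : ((u⁻¹ : SpecialLinearGroup ι F) : Matrix ι ι F) = 1 + b := by
    have h2 : (u : Matrix ι ι F) * (1 + b) = 1 := by
      rw [hu]; linear_combination (norm := noncomm_ring) -hbb
    have h3 : ((u⁻¹ : SpecialLinearGroup ι F) : Matrix ι ι F) * u = 1 := by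
      rw [← Matrix.SpecialLinearGroup.coe_mul, inv_mul_cancel]; rfl
    exact left_inv_eq_right_inv h3 h2
  refine ⟨u, ⟨hu ▸ sub_mem one_mem_Lv hb0, h1 ▸ add_mem one_mem_Lv hb0⟩, hu, h1, ?_⟩
  have : (1 + b) * z * (1 - b) - e = (z - e) + b * z - (1 + b) * z * b := by noncomm_ring
  rw [this]
  exact sub_mem (add_mem hz (Lv_mul_right hb hz0))
    (Lv_mul_left (Lv_mul_left (add_mem one_mem_Lv hb0) hz0) hb)

/-- block diagonalisation modulo `ϖ ^ n` -/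
theorem newton (hϖ : ϖ ∈ O) {e : Matrix ι ι F} (he : e * e = e) (he0 : e ∈ Lv O ϖ ι 0) (n : ℕ)
    {z : Matrix ι ι F} (hz : z - e ∈ Lv O ϖ ι 1) :
    ∃ h : SpecialLinearGroup ι F, InK O ϖ h ∧ ∀ y, y = (h⁻¹ : SpecialLinearGroup ι F) * z * h →
      y - e ∈ Lv O ϖ ι 1 ∧ e * y * (1 - e) ∈ Lv O ϖ ι (n + 1) ∧ (1 - e) * y * e ∈ Lv O ϖ ι (n + 1) := by
  have he1 : 1 - e ∈ Lv O ϖ ι 0 := sub_mem one_mem_Lv he0
  have e1 : e * (1 - e) = 0 := by rw [mul_sub, mul_one, he, sub_self]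
  have e2 : (1 - e) * e = 0 := by rw [sub_mul, one_mul, he, sub_self]
  induction n with
  | zero =>
    refine ⟨1, ⟨one_mem_Lv, by simpa using one_mem_Lv⟩, fun y hy => ?_⟩
    obtain rfl : y = z := by simpa using hy
    refine ⟨hz, ?_, ?_⟩
    · have : e * y * (1 - e) = e * (y - e) * (1 - e) := by rw [mul_sub e y, he, sub_mul, e1, sub_zero]
      rw [this]; exact Lv_mul_right (Lv_mul_left he0 hz) he1
    · have : (1 - e) * y * e = (1 - e) * (y - e) * e := by rw [mul_sub _ y, e2, sub_zero]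
      rw [this]; exact Lv_mul_right (Lv_mul_left he1 hz) he0
  | succ n ih =>
    obtain ⟨h, hh, h1⟩ := ih
    obtain ⟨h2, h3, h4⟩ := h1 _ rfl
    set y := ((h⁻¹ : SpecialLinearGroup ι F) : Matrix ι ι F) * z * h with hy
    have l : 1 ≤ n + 1 := Nat.le_add_left _ _
    obtain ⟨b, hb⟩ : ∃ b, b = e * y * (1 - e) := ⟨_, rfl⟩
    have b1 : b * e = 0 := by rw [hb, mul_assoc, e2, mul_zero]
    have b2 : e * b = b := by rw [hb, ← mul_assoc, ← mul_assoc, he]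
    obtain ⟨u, hu, u1, u2, u3⟩ := newton_step hϖ he0 h2 (b := b) (hb ▸ Lv_anti hϖ l h3)
      (by rw [← b2, ← mul_assoc, mul_assoc e, b1]; simp)
      (by rw [← b2, det_one_sub_mul_comm, b1]; simp)
    obtain ⟨y', hy'⟩ : ∃ y', y' = (1 + b) * y * (1 - b) := ⟨_, rfl⟩
    rw [← hy'] at u3
    have y0 := Lv_anti hϖ zero_le_one (hb ▸ Lv_anti hϖ l h3 : b ∈ Lv O ϖ ι 1)
    have h5 : (1 - e) * y' * e = (1 - e) * y * e := by
      rw [hy', mul_assoc, mul_assoc, sub_mul 1 b, b1, ← mul_assoc, ← mul_assoc, mul_add, ← b2,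
        ← mul_assoc _ e, e2]; simp
    have h6 : e * y' * (1 - e) = b * (y - e) * (1 - b) * (1 - e) - e * (y - e) * b := by
      have : e * y * (1 - e) = b := hb.symm
      rw [hy']
      linear_combination (norm := noncomm_ring) this + b2 * y * (1 - b) * (1 - e) + e * y * b1 +
        b1 * (1 - b) * (1 - e) - he * b - b2
    have h7 : e * y' * (1 - e) ∈ Lv O ϖ ι (n + 1 + 1) := by
      rw [h6]
      refine sub_mem (Lv_mul_right (Lv_mul_right (Lv_mul (hb ▸ h3) h2) (sub_mem one_mem_Lv y0)) he1) ?_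
      rw [add_comm (n + 1)]; exact Lv_mul (Lv_mul_left he0 h2) (hb ▸ h3)
    obtain ⟨c, hc⟩ : ∃ c, c = -((1 - e) * y' * e) := ⟨_, rfl⟩
    have c0 : c ∈ Lv O ϖ ι (n + 1) := by rw [hc, h5]; exact neg_mem h4
    have c1 : e * c = 0 := by rw [hc, mul_neg, ← mul_assoc, ← mul_assoc, e1]; simp
    have c2 : c * e = c := by rw [hc, neg_mul, mul_assoc, he]
    obtain ⟨w, hw, w1, w2, w3⟩ := newton_step hϖ he0 u3 (b := c) (Lv_anti hϖ l c0)
      (by rw [← c2, mul_assoc, ← mul_assoc e, c1]; simp)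
      (by rw [← c2, det_one_sub_mul_comm, c1]; simp)
    refine ⟨h * u * w, (hh.mul hu).mul hw, fun y'' hy'' => ?_⟩
    obtain rfl : y'' = (1 + c) * y' * (1 - c) := by
      rw [hy'', hy', hy, ← u1, ← u2, ← w1, ← w2]
      simp only [_root_.mul_inv_rev, Matrix.SpecialLinearGroup.coe_mul, mul_assoc]
    have z0 := Lv_anti hϖ (Nat.zero_le _) c0
    refine ⟨w3, ?_, ?_⟩
    · have : e * ((1 + c) * y' * (1 - c)) * (1 - e) = e * y' * (1 - e) := by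
        linear_combination (norm := noncomm_ring) c1 * y' * (1 - c) * (1 - e) + e * y' * c2
      rw [this]; exact h7
    · have : (1 - e) * ((1 + c) * y' * (1 - c)) * e =
          c * (y' - e) * (1 - c) * e - (1 - e) * (y' - e) * c := by
        have h8 : (1 - e) * y' * e = -c := by rw [hc, neg_neg]
        linear_combination (norm := noncomm_ring) h8 - c1 * y' * (1 - c) * e - (1 - e) * y' * c2 +
          c * he - c * c1 * e + c2 - e2 * c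
      rw [this]
      refine sub_mem (Lv_mul_right (Lv_mul_right (Lv_mul c0 u3) (sub_mem one_mem_Lv z0)) he0) ?_
      rw [add_comm (n + 1)]; exact Lv_mul (Lv_mul_left he1 u3) c0

/-- the contracting element -/
theorem exists_t {p : F} (hϖ : ϖ ∈ O) (hp : p * ϖ = 1) (i₀ : ι) : ∃ t : SpecialLinearGroup ι F,
    Ctr (MonoidHom.id _) i₀ (ϖ ^ Fintype.card ι) t ∧ ϖ ^ 1 • (t : Matrix ι ι F) ∈ Lv O ϖ ι 0 ∧
      ϖ ^ Fintype.card ι • ((t⁻¹ : SpecialLinearGroup ι F) : Matrix ι ι F) ∈ Lv O ϖ ι 0 ∧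
      ∃ a b : F, (t : Matrix ι ι F) = a • single i₀ i₀ 1 + b • (1 - single i₀ i₀ 1) := by
  obtain ⟨n, hn⟩ : ∃ n, Fintype.card ι = n + 1 :=
    Nat.exists_eq_add_one.2 (Fintype.card_pos_iff.2 ⟨i₀⟩)
  have hp' : ∀ m : ℕ, p ^ m * ϖ ^ m = 1 := fun m => by rw [← mul_pow, hp, one_pow]
  obtain ⟨t, ht⟩ : ∃ t : SpecialLinearGroup ι F, (t : Matrix ι ι F) =
      diagonal fun i => if i = i₀ then ϖ ^ n else p := ⟨⟨diagonal _, by
    rw [det_diagonal, ← mul_prod_erase _ _ (mem_univ i₀), if_pos rfl,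
      prod_congr rfl (g := fun _ => p) fun i hi => if_neg (ne_of_mem_erase hi), prod_const,
      card_erase_of_mem (mem_univ _), card_univ, hn, Nat.add_sub_cancel, mul_comm, hp']⟩, rfl⟩
  have ht' : ((t⁻¹ : SpecialLinearGroup ι F) : Matrix ι ι F) =
      diagonal fun i => if i = i₀ then p ^ n else ϖ := by
    have h3 : ((t⁻¹ : SpecialLinearGroup ι F) : Matrix ι ι F) * t = 1 := by
      rw [← Matrix.SpecialLinearGroup.coe_mul, inv_mul_cancel]; rfl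
    have h2 : (t : Matrix ι ι F) * diagonal (fun i => if i = i₀ then p ^ n else ϖ) = 1 := by
      rw [ht, diagonal_mul_diagonal, ← diagonal_one]
      congr 1; ext i; split_ifs
      exacts [by rw [mul_comm, hp'], hp]
    exact left_inv_eq_right_inv h3 h2
  refine ⟨t, ⟨fun j hj s => Subtype.ext ?_, fun j hj s => Subtype.ext ?_⟩, ?_, ?_, ϖ ^ n, p, ?_⟩
  · simp only [MonoidHom.id_apply, Matrix.SpecialLinearGroup.coe_mul, X_coe hj.symm, ht, mul_add,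
      add_mul, mul_one, one_mul, hn]
    congr 1; ext k l
    simp only [diagonal_mul, mul_diagonal, single_apply]
    split_ifs with h1 h2 h3 <;> try simp
    · exact absurd (h2.2.trans h3) hj
    · linear_combination -ϖ ^ n * s * hp
    all_goals exact absurd ‹i₀ = k ∧ j = l›.1.symm h1
  · simp only [MonoidHom.id_apply, Matrix.SpecialLinearGroup.coe_mul, X_coe hj, ht, mul_add,
      add_mul, mul_one, one_mul, hn]
    congr 1; ext k l
    simp only [diagonal_mul, mul_diagonal, single_apply]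
    split_ifs with h1 h2 h3 h4 h5 h6 <;> try simp
    · exact absurd (h2.1.trans h1) hj
    · exact absurd (h2.1.trans h1) hj
    · linear_combination ϖ ^ n * s * hp
    · exact absurd ‹j = k ∧ i₀ = l›.2.symm ‹_›
  · rw [ht, ← diagonal_smul]
    refine diagonal_mem_Lv fun i => ?_
    simp only [Pi.smul_apply, smul_eq_mul, pow_one]; split_ifs
    exacts [O.mul_mem hϖ (O.pow_mem hϖ n), by rw [mul_comm, hp]; exact O.one_mem]
  · rw [ht', ← diagonal_smul]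
    refine diagonal_mem_Lv fun i => ?_
    simp only [Pi.smul_apply, smul_eq_mul, hn]; split_ifs
    exacts [by rw [pow_succ', mul_assoc, mul_comm (ϖ ^ n), hp', mul_one]; exact hϖ,
      O.mul_mem (O.pow_mem hϖ _) hϖ]
  · rw [ht]; ext i j
    by_cases h1 : i = j <;> by_cases h2 : i = i₀ <;> simp_all [single_apply, one_apply, eq_comm]

theorem Ctr.map {G G' : Type*} [Group G] [Group G'] {J : SpecialLinearGroup ι F →* G} {i₀ : ι} {c : F}
    {τ : G} (h : Ctr J i₀ c τ) (f : G →* G') {σ : G'} (hσ : ∀ g, σ * f (J g) = f (J g) * σ) :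
    Ctr (f.comp J) i₀ c (f τ * σ) :=
  ⟨fun j hj s => by
    simp only [MonoidHom.comp_apply]
    rw [mul_assoc, hσ, ← mul_assoc, ← map_mul, h.row j hj, map_mul, mul_assoc],
   fun j hj s => by
    simp only [MonoidHom.comp_apply]
    rw [mul_assoc, hσ, ← mul_assoc, ← map_mul, h.col j hj, map_mul, mul_assoc]⟩

theorem coe_inv_mul (g : SpecialLinearGroup ι F) :
    ((g⁻¹ : SpecialLinearGroup ι F) : Matrix ι ι F) * g = 1 := by
  rw [← Matrix.SpecialLinearGroup.coe_mul, inv_mul_cancel]; rfl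

theorem coe_mul_inv (g : SpecialLinearGroup ι F) :
    (g : Matrix ι ι F) * (g⁻¹ : SpecialLinearGroup ι F) = 1 := by
  rw [← Matrix.SpecialLinearGroup.coe_mul, mul_inv_cancel]; rfl

/-- a contracting element which almost commutes with `z` -/
theorem exists_tau {p : F} (hϖ : ϖ ∈ O) (hp : p * ϖ = 1) (i₀ : ι) (n : ℕ) {z : Matrix ι ι F}
    (hz : z - single i₀ i₀ 1 ∈ Lv O ϖ ι 1) : ∃ h τ : SpecialLinearGroup ι F, InK O ϖ h ∧
      Ctr (MulAut.conj h).toMonoidHom i₀ (ϖ ^ Fintype.card ι) τ ∧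
      ϖ ^ 1 • (τ : Matrix ι ι F) ∈ Lv O ϖ ι 0 ∧
      ϖ ^ Fintype.card ι • ((τ⁻¹ : SpecialLinearGroup ι F) : Matrix ι ι F) ∈ Lv O ϖ ι 0 ∧
      (τ : Matrix ι ι F) * z * (τ⁻¹ : SpecialLinearGroup ι F) - z ∈ Lv O ϖ ι n := by
  have h0 : ϖ ≠ 0 := right_ne_zero_of_mul_eq_one hp
  obtain ⟨t, t1, t2, t3, a, b, t4⟩ := exists_t hϖ hp i₀
  obtain ⟨e, he'⟩ : ∃ e : Matrix ι ι F, e = single i₀ i₀ 1 := ⟨_, rfl⟩
  rw [← he'] at hz t4
  have he : e * e = e := by rw [he', single_mul_single_same, one_mul]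
  obtain ⟨h, hh, h1⟩ := newton hϖ he (by simpa [he'] using single_mem_Lv (n := 0) i₀ i₀ O.one_mem)
    (n + (1 + Fintype.card ι)) hz
  obtain ⟨-, h2, h3⟩ := h1 _ rfl
  set y := ((h⁻¹ : SpecialLinearGroup ι F) : Matrix ι ι F) * z * h with hy
  have h4 := Lv_anti hϖ (Nat.le_succ _) (add_mem h2 h3)
  set r := e * y * (1 - e) + (1 - e) * y * e with hr
  have h5 : (t : Matrix ι ι F) * (y - r) = (y - r) * t := by
    have : e * (y - r) = (y - r) * e := by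
      rw [hr]
      linear_combination (norm := noncomm_ring) -he * y + he * y * e + he * y * e - e * y * he -
        he * y * e + y * he - e * y * he + e * y * he - he * y * e + (he * y * e - e * y * he) +
        he * y * e
    rw [t4]
    simp only [add_mul, mul_add, smul_mul_assoc, mul_smul_comm, sub_mul, mul_sub (y - r), one_mul,
      mul_one, this]
  have h6 : (t : Matrix ι ι F) * y * (t⁻¹ : SpecialLinearGroup ι F) - y ∈ Lv O ϖ ι n := by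
    have : (t : Matrix ι ι F) * y * (t⁻¹ : SpecialLinearGroup ι F) - y =
        t * r * (t⁻¹ : SpecialLinearGroup ι F) - r := by
      linear_combination (norm := noncomm_ring) h5 * ((t⁻¹ : SpecialLinearGroup ι F) : Matrix ι ι F) +
        (y - r) * coe_mul_inv t
    rw [this]
    exact sub_mem (Lv_dist h0 t2 t3 h4) (Lv_anti hϖ (Nat.le_add_right _ _) h4)
  refine ⟨h, h * t * h⁻¹, hh, by simpa using t1.map (MulAut.conj h).toMonoidHom (σ := 1) (by simp),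
    ?_, ?_, ?_⟩
  · have := Lv_mul_right (Lv_mul_left hh.1 t2) hh.2
    rwa [mul_smul_comm, smul_mul_assoc] at this
  · have := Lv_mul_right (Lv_mul_left hh.1 t3) hh.2
    rw [mul_smul_comm, smul_mul_assoc] at this
    simpa only [_root_.mul_inv_rev, inv_inv, Matrix.SpecialLinearGroup.coe_mul, mul_assoc] using this
  · convert Lv_mul_right (Lv_mul_left hh.1 h6) hh.2 using 1
    simp only [hy, _root_.mul_inv_rev, inv_inv, Matrix.SpecialLinearGroup.coe_mul, mul_sub, sub_mul,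
      mul_assoc, coe_mul_inv, mul_one]
    rw [← mul_assoc (h : Matrix ι ι F) _ z, coe_mul_inv, one_mul]

/-- conjugated transvections of level `m` are in the congruence subgroup -/
theorem conj_X {h : SpecialLinearGroup ι F} (hh : InK O ϖ h) {i j : ι} (hij : i ≠ j) (m : ℕ) {o : F}
    (ho : o ∈ O) : ((h * X i j (ϖ ^ m * o) * h⁻¹ : SpecialLinearGroup ι F) : Matrix ι ι F) - 1 ∈
      Lv O ϖ ι m := by
  convert Lv_mul_right (Lv_mul_left hh.1 (single_mem_Lv (n := m) i j ho)) hh.2 using 1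
  simp only [Matrix.SpecialLinearGroup.coe_mul, X_coe hij, mul_add, add_mul, mul_one, coe_mul_inv]
  abel

theorem lr_sub (hϖ : ϖ ∈ O) {m : ℕ} {k k' x : Matrix ι ι F} (hk : k - 1 ∈ Lv O ϖ ι m)
    (hk' : k' - 1 ∈ Lv O ϖ ι m) (hx : x ∈ Lv O ϖ ι 0) : k * x * k' - x ∈ Lv O ϖ ι m := by
  have h1 : k' ∈ Lv O ϖ ι 0 := by simpa using add_mem (Lv_anti hϖ (Nat.zero_le m) hk') one_mem_Lv
  have : k * x * k' - x = (k - 1) * x * k' + x * (k' - 1) := by noncomm_ring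
  rw [this]
  exact add_mem (Lv_mul_right (Lv_mul_right hk hx) h1) (Lv_mul_left hx hk')

omit [Fintype ι] [DecidableEq ι] in
theorem relIndex_Lv (h0 : ϖ ≠ 0) (j a : ℕ) :
    (Lv O ϖ ι (j + a)).relIndex (Lv O ϖ ι j) = (Lv O ϖ ι a).relIndex (Lv O ϖ ι 0) := by
  let f : Matrix ι ι F →+ Matrix ι ι F := DistribSMul.toAddMonoidHom _ (ϖ ^ j)
  have h1 : ∀ n, (Lv O ϖ ι (n + j)).comap f = Lv O ϖ ι n := fun n => by
    ext x
    refine ⟨Lv_cancel h0, fun hx i k => ?_⟩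
    obtain ⟨o, ho, e⟩ := hx i k
    exact ⟨o, ho, by simp [f, e]; ring⟩
  rw [← h1 a, ← h1 0, AddSubgroup.relIndex_comap, AddSubgroup.map_comap_eq_self_of_surjective
    (fun x => ⟨(ϖ ^ j)⁻¹ • x, smul_inv_smul₀ (pow_ne_zero j h0) x⟩), zero_add, add_comm]

theorem exists_inv (hϖ : ϖ ∈ O) (hu : ∀ o ∈ O, ∃ u ∈ O, u * (1 + ϖ * o) = 1) {z : Matrix ι ι F}
    (hz : z - 1 ∈ Lv O ϖ ι 1) : ∃ z' ∈ Lv O ϖ ι 0, z * z' = 1 ∧ z' * z = 1 := by
  choose f hf hf' using mem_Lv.1 hz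
  let w : Matrix ι ι O := 1 + (⟨ϖ, hϖ⟩ : O) • Matrix.of fun i j => (⟨f i j, hf i j⟩ : O)
  have h1 : O.subtype.mapMatrix w = z := by
    ext i j
    have := hf' i j
    rw [Matrix.sub_apply, pow_one, sub_eq_iff_eq_add'] at this
    rw [this]; by_cases h : i = j <;> simp [w, one_apply, h]
  have h2 : IsUnit w.det := by
    obtain ⟨o, ho⟩ : (⟨ϖ, hϖ⟩ : O) ∣ w.det - 1 := by
      rw [← Ideal.mem_span_singleton, ← Ideal.Quotient.eq, RingHom.map_det, map_one]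
      have : (Ideal.Quotient.mk (Ideal.span {(⟨ϖ, hϖ⟩ : O)})).mapMatrix w = 1 := by
        rw [map_add, map_one, add_eq_left]
        ext i j
        exact Ideal.Quotient.eq_zero_iff_mem.2
          (Ideal.mul_mem_right _ _ (Ideal.mem_span_singleton_self _))
      rw [this, det_one]
    obtain ⟨u, hu1, hu2⟩ := hu o o.2
    refine IsUnit.of_mul_eq_one_right (⟨u, hu1⟩ : O) (Subtype.ext ?_)
    rw [sub_eq_iff_eq_add'] at ho
    rw [ho]; exact hu2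
  obtain ⟨v, hv⟩ := (isUnit_iff_isUnit_det w).2 h2
  refine ⟨O.subtype.mapMatrix (v⁻¹ : (Matrix ι ι O)ˣ), fun i j => ⟨_, ((v⁻¹ : (Matrix ι ι O)ˣ).1 i j).2,
    by simp⟩, ?_, ?_⟩ <;> rw [← h1, ← hv, ← map_mul] <;> simp

/-- `x ↦ g x g'⁻¹` -/
def lr : SpecialLinearGroup ι F × SpecialLinearGroup ι F →* (Matrix ι ι F ≃ₗ[ℤ] Matrix ι ι F) where
  toFun g :=
    { toFun x := g.1 * x * (g.2⁻¹ : SpecialLinearGroup ι F)
      invFun x := (g.1⁻¹ : SpecialLinearGroup ι F) * x * g.2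
      map_add' x y := by rw [mul_add, add_mul]
      map_smul' c x := by rw [mul_smul_comm, smul_mul_assoc]; rfl
      left_inv x := by
        simp only [← mul_assoc, coe_inv_mul, one_mul]; rw [mul_assoc, coe_inv_mul, mul_one]
      right_inv x := by
        simp only [← mul_assoc, coe_mul_inv, one_mul]; rw [mul_assoc, coe_mul_inv, mul_one] }
  map_one' := by ext1 x; simp
  map_mul' g h := by
    ext1 x
    simp only [LinearEquiv.coe_mk, LinearEquiv.mul_apply, LinearMap.coe_mk, AddHom.coe_mk, Prod.fst_mul,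
      Prod.snd_mul, _root_.mul_inv_rev, Matrix.SpecialLinearGroup.coe_mul, mul_assoc]

theorem lr_apply (g : SpecialLinearGroup ι F × SpecialLinearGroup ι F) (x : Matrix ι ι F) :
    lr g x = g.1 * x * (g.2⁻¹ : SpecialLinearGroup ι F) := rfl

variable {V : Type*} [NormedAddCommGroup V] [InnerProductSpace ℝ V] [CompleteSpace V]
  {p : F} {κ : Type*} [Fintype κ] {t : κ → F}

/-- VM for the conjugation action on a cell in `E + ϖ M_d (O)` -/
theorem vm_conj (h : Dat O p t) (hϖ : ϖ ∈ O) (hp : p * ϖ = 1) (hκ : 5 ≤ Fintype.card κ)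
    (hι : 3 ≤ Fintype.card ι) (hfin : ∀ j, (Lv O ϖ ι j).relIndex (Lv O ϖ ι 0) ≠ 0)
    (π : SpecialLinearGroup ι F →* (V ≃ₗᵢ[ℝ] V)) (i₀ : ι) {n : ℕ} (hn : 1 ≤ n) {z₀ : Matrix ι ι F}
    (hz₀ : z₀ - single i₀ i₀ 1 ∈ Lv O ϖ ι 1) (Ψ : Set (Matrix ι ι F) → V)
    (hadd : ∀ j s s', s ⊆ cell (Lv O ϖ ι n) z₀ → s' ⊆ cell (Lv O ϖ ι n) z₀ → Sat (Lv O ϖ ι j) s →
      Sat (Lv O ϖ ι j) s' → Disjoint s s' → Ψ (s ∪ s') = Ψ s + Ψ s')
    {C : ℝ} (hC : ∀ j, ∀ z ∈ cell (Lv O ϖ ι n) z₀,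
      (Lv O ϖ ι j).relIndex (Lv O ϖ ι 0) * ‖Ψ (cell (Lv O ϖ ι (n + j)) z)‖ ≤ C)
    (heq : ∀ (g : SpecialLinearGroup ι F) j, ∀ z ∈ cell (Lv O ϖ ι n) z₀,
      π g (Ψ (cell (Lv O ϖ ι (n + j)) z)) = Ψ ((fun x => g * x * (g⁻¹ : SpecialLinearGroup ι F)) ''
        cell (Lv O ϖ ι (n + j)) z)) (g : SpecialLinearGroup ι F) :
    π g (Ψ (cell (Lv O ϖ ι n) z₀)) = Ψ (cell (Lv O ϖ ι n) z₀) := by
  have h0 : ϖ ≠ 0 := right_ne_zero_of_mul_eq_one hp
  have h1 : ∀ z ∈ cell (Lv O ϖ ι n) z₀, z - single i₀ i₀ 1 ∈ Lv O ϖ ι 1 := fun z hz => by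
    simpa using add_mem (Lv_anti hϖ hn (mem_cell.1 hz)) hz₀
  have h2 : ∀ z ∈ cell (Lv O ϖ ι n) z₀, z ∈ Lv O ϖ ι 0 := fun z hz => by
    simpa using add_mem (Lv_anti hϖ zero_le_one (h1 z hz)) (single_mem_Lv (n := 0) i₀ i₀ O.one_mem)
  choose! hh τ k1 k2 k3 k4 k5 using fun j z hz => exists_tau hϖ hp i₀ (n + j) (h1 z hz)
  refine vmA h hϖ hp hκ hι π (i₀ := i₀) (c := ϖ ^ Fintype.card ι)
    ⟨ϖ ^ (Fintype.card ι - 1), O.pow_mem hϖ _, by rw [← pow_succ']; congr 1; omega⟩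
    (fun j => Lv O ϖ ι (n + j)) (fun i j hij => Lv_anti hϖ (by omega))
    (fun j => by simpa [relIndex_Lv h0] using hfin j) (a := 1 + Fintype.card ι)
    (fun j => by rw [← add_assoc, relIndex_Lv h0]) (lr.comp ((MonoidHom.id _).prod (MonoidHom.id _)))
    z₀ Ψ (fun j => hadd _) (C := C) (fun j z hz => by simpa [relIndex_Lv h0] using hC j z hz)
    (fun g j z hz _ => heq g j z hz) (fun j z => (MulAut.conj (hh j z)).toMonoidHom) τ
    (fun j z hz => ⟨k2 j z hz, k5 j z hz, fun i l hl => ⟨Lv_dist h0 (k3 j z hz) (k4 j z hz)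
      (by rwa [add_assoc]), ?_⟩⟩)
    (fun j₁ => ⟨n + j₁, fun j z hz k hk o ho x hx => ?_⟩)
    fun j z _ => (MulAut.conj (hh j z)).surjective g
  · change _ * l * (((τ j z)⁻¹⁻¹ : SpecialLinearGroup ι F) : Matrix ι ι F) ∈ _
    rw [inv_inv]
    exact Lv_dist h0 (k4 j z hz) (k3 j z hz) (by rwa [add_assoc, add_comm _ 1])
  · have e : ∀ (i j' : ι) (s : F), (hh j z * X i j' (ϖ ^ (n + j₁) * s) * (hh j z)⁻¹)⁻¹ =
        hh j z * X i j' (ϖ ^ (n + j₁) * -s) * (hh j z)⁻¹ := fun i j' s => by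
      rw [mul_neg, ← X_neg]; group
    exact ⟨lr_sub hϖ (conj_X (k1 j z hz) hk.symm _ ho)
        ((e _ _ _).symm ▸ conj_X (k1 j z hz) hk.symm _ (O.neg_mem ho)) (h2 x hx),
      lr_sub hϖ (conj_X (k1 j z hz) hk _ ho)
        ((e _ _ _).symm ▸ conj_X (k1 j z hz) hk _ (O.neg_mem ho)) (h2 x hx)⟩

/-- VM for the left-right action on a cell in `1 + ϖ M_d (O)` -/
theorem vm_lr (h : Dat O p t) (hϖ : ϖ ∈ O) (hp : p * ϖ = 1) (hκ : 5 ≤ Fintype.card κ)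
    (hι : 3 ≤ Fintype.card ι) (hfin : ∀ j, (Lv O ϖ ι j).relIndex (Lv O ϖ ι 0) ≠ 0)
    (hu : ∀ o ∈ O, ∃ u ∈ O, u * (1 + ϖ * o) = 1)
    (π : SpecialLinearGroup ι F × SpecialLinearGroup ι F →* (V ≃ₗᵢ[ℝ] V)) {n : ℕ} (hn : 1 ≤ n)
    {z₀ : Matrix ι ι F} (hz₀ : z₀ - 1 ∈ Lv O ϖ ι 1) (Ψ : Set (Matrix ι ι F) → V)
    (hadd : ∀ j s s', s ⊆ cell (Lv O ϖ ι n) z₀ → s' ⊆ cell (Lv O ϖ ι n) z₀ → Sat (Lv O ϖ ι j) s →
      Sat (Lv O ϖ ι j) s' → Disjoint s s' → Ψ (s ∪ s') = Ψ s + Ψ s')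
    {C : ℝ} (hC : ∀ j, ∀ z ∈ cell (Lv O ϖ ι n) z₀,
      (Lv O ϖ ι j).relIndex (Lv O ϖ ι 0) * ‖Ψ (cell (Lv O ϖ ι (n + j)) z)‖ ≤ C)
    (heq : ∀ g j, ∀ z ∈ cell (Lv O ϖ ι n) z₀,
      π g (Ψ (cell (Lv O ϖ ι (n + j)) z)) = Ψ (lr g '' cell (Lv O ϖ ι (n + j)) z))
    (g : SpecialLinearGroup ι F) :
    π (g, 1) (Ψ (cell (Lv O ϖ ι n) z₀)) = Ψ (cell (Lv O ϖ ι n) z₀) := by
  have h0 : ϖ ≠ 0 := right_ne_zero_of_mul_eq_one hp
  obtain ⟨i₀⟩ : Nonempty ι := Fintype.card_pos_iff.1 (by omega)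
  have h1 : ∀ z ∈ cell (Lv O ϖ ι n) z₀, z - 1 ∈ Lv O ϖ ι 1 := fun z hz => by
    simpa using add_mem (Lv_anti hϖ hn (mem_cell.1 hz)) hz₀
  have h2 : ∀ z ∈ cell (Lv O ϖ ι n) z₀, z ∈ Lv O ϖ ι 0 := fun z hz => by
    simpa using add_mem (Lv_anti hϖ zero_le_one (h1 z hz)) one_mem_Lv
  obtain ⟨τ, t1, t2, t3, -⟩ := exists_t hϖ hp i₀
  have h3 : ∀ z ∈ cell (Lv O ϖ ι n) z₀, ∃ σ : SpecialLinearGroup ι F,
      ϖ ^ 1 • (σ : Matrix ι ι F) ∈ Lv O ϖ ι 0 ∧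
      ϖ ^ Fintype.card ι • ((σ⁻¹ : SpecialLinearGroup ι F) : Matrix ι ι F) ∈ Lv O ϖ ι 0 ∧
      (τ : Matrix ι ι F) * z * (σ⁻¹ : SpecialLinearGroup ι F) = z := fun z hz => by
    obtain ⟨z', k0, k1, k2⟩ := exists_inv hϖ hu (h1 z hz)
    obtain ⟨σ, hσ⟩ : ∃ σ : SpecialLinearGroup ι F, (σ : Matrix ι ι F) = z' * τ * z := ⟨⟨_, by
      rw [det_mul, det_mul, τ.2, mul_one, ← det_mul, k2, det_one]⟩, rfl⟩
    have k3 : ((σ⁻¹ : SpecialLinearGroup ι F) : Matrix ι ι F) =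
        z' * (τ⁻¹ : SpecialLinearGroup ι F) * z := by
      have : (σ : Matrix ι ι F) * (z' * (τ⁻¹ : SpecialLinearGroup ι F) * z) = 1 := by
        rw [hσ]; simp only [mul_assoc]
        rw [← mul_assoc z, k1, one_mul, ← mul_assoc _ _ z, coe_mul_inv, one_mul, k2]
      exact left_inv_eq_right_inv (coe_inv_mul σ) this
    refine ⟨σ, ?_, ?_, ?_⟩
    · have := Lv_mul_right (Lv_mul_left k0 t2) (h2 z hz)
      rwa [mul_smul_comm, smul_mul_assoc, ← hσ] at this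
    · have := Lv_mul_right (Lv_mul_left k0 t3) (h2 z hz)
      rwa [mul_smul_comm, smul_mul_assoc, ← k3] at this
    · rw [k3]; simp only [mul_assoc]
      rw [← mul_assoc z, k1, one_mul, ← mul_assoc _ _ z, coe_mul_inv, one_mul]
  choose! σ k1 k2 k3 using h3
  refine vmA h hϖ hp hκ hι π (i₀ := i₀) (c := ϖ ^ Fintype.card ι)
    ⟨ϖ ^ (Fintype.card ι - 1), O.pow_mem hϖ _, by rw [← pow_succ']; congr 1; omega⟩
    (fun j => Lv O ϖ ι (n + j)) (fun i j hij => Lv_anti hϖ (by omega))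
    (fun j => by simpa [relIndex_Lv h0] using hfin j) (a := 1 + Fintype.card ι)
    (fun j => by rw [← add_assoc, relIndex_Lv h0]) lr
    z₀ Ψ (fun j => hadd _) (C := C) (fun j z hz => by simpa [relIndex_Lv h0] using hC j z hz)
    (fun g j z hz _ => heq g j z hz) (fun _ _ => MonoidHom.inl _ _) (fun _ z => (τ, σ z))
    (fun j z hz => ⟨by simpa using t1.map (MonoidHom.inl _ _) (σ := (1, σ z)) (by simp),
      by rw [lr_apply, k3 z hz, sub_self]; exact zero_mem _,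
      fun i l hl => ⟨Lv_dist h0 t2 (k2 z hz) (by rwa [add_assoc]), ?_⟩⟩)
    (fun j₁ => ⟨n + j₁, fun j z hz k hk o ho x hx => ?_⟩) fun j z _ => ⟨g, rfl⟩
  · change _ * l * (((σ z)⁻¹⁻¹ : SpecialLinearGroup ι F) : Matrix ι ι F) ∈ _
    rw [inv_inv]
    exact Lv_dist h0 t3 (k1 z hz) (by rwa [add_assoc, add_comm _ 1])
  · exact ⟨lr_sub hϖ (by simpa [X_coe hk.symm] using single_mem_Lv i₀ k ho) (by simp) (h2 x hx),
      lr_sub hϖ (by simpa [X_coe hk] using single_mem_Lv k i₀ ho) (by simp) (h2 x hx)⟩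

end mat

end Crest.Agent.T24.Vm
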