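import Crest.Agent.T24.NaDef_18

/-!
# Row 24, module NA: cells, bump functions and Cayley charts.
-/

set_option autoImplicit false
set_option linter.unusedSectionVars false

noncomputable section

namespace Crest.Agent.T24.Na.One37

open Topology Filter MeasureTheory Ring

section Cell
variable {F : Type*} [Field F] {d : ℕ} {O : Subring F} {π : F}

theorem mem_cell {j : ℕ} {y : Mt d F} : y ∈ cell d O π j ↔ ∀ a b, ∃ o ∈ O, y a b = π ^ j * o :=
  Iff.rfl

theorem cell_anti (hπ : π ∈ O) {i j : ℕ} (h : j ≤ i) : cell d O π i ≤ cell d O π j := by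
  intro y hy a b
  obtain ⟨o, ho, e⟩ := hy a b
  obtain ⟨n, rfl⟩ := Nat.exists_eq_add_of_le h
  exact ⟨π ^ n * o, O.mul_mem (O.pow_mem hπ n) ho, by rw [e, pow_add, mul_assoc]⟩

theorem cell_mul {i j : ℕ} {x y : Mt d F} (hx : x ∈ cell d O π i) (hy : y ∈ cell d O π j) :
    x * y ∈ cell d O π (i + j) := by
  intro a b
  choose o ho e using hx
  choose o' ho' e' using hy
  refine ⟨∑ c, o a c * o' c b, O.sum_mem fun c _ => O.mul_mem (ho a c) (ho' c b), ?_⟩
  rw [Matrix.mul_apply, Finset.mul_sum]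
  exact Finset.sum_congr rfl fun c _ => by rw [e, e', pow_add]; ring

theorem smul_mem_cell (h0 : π ≠ 0) {c j : ℕ} {x : Mt d F} :
    π ^ c • x ∈ cell d O π (j + c) ↔ x ∈ cell d O π j := by
  refine forall₂_congr fun a b => exists_congr fun o => and_congr_right fun _ => ?_
  rw [Matrix.smul_apply, smul_eq_mul, pow_add, mul_comm (π ^ j), mul_assoc,
    mul_right_inj' (pow_ne_zero c h0)]

theorem cell_map (h0 : π ≠ 0) (c j : ℕ) :
    (cell d O π j).map (DistribSMul.toAddMonoidHom (Mt d F) (π ^ c)) = cell d O π (j + c) := by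
  ext y
  constructor
  · rintro ⟨x, hx, rfl⟩
    exact (smul_mem_cell h0).2 hx
  · intro hy
    have e : π ^ c • ((π ^ c)⁻¹ • y) = y := smul_inv_smul₀ (pow_ne_zero c h0) y
    exact ⟨(π ^ c)⁻¹ • y, (smul_mem_cell h0).1 (by rwa [e]), e⟩

theorem ncell_add (h0 : π ≠ 0) (hπ : π ∈ O) (i c : ℕ) :
    ncell d O π (c + i) = ncell d O π c * ncell d O π i := by
  have h1 := AddSubgroup.relIndex_map_map_of_injective
    (f := DistribSMul.toAddMonoidHom (Mt d F) (π ^ i)) (cell d O π c) (cell d O π 0)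
    (MulAction.injective₀ (pow_ne_zero i h0))
  rw [cell_map h0, cell_map h0, zero_add] at h1
  rw [ncell, ← AddSubgroup.relIndex_mul_relIndex _ _ _ (cell_anti hπ (Nat.le_add_left i c))
    (cell_anti hπ (Nat.zero_le i)), h1]
  rfl

variable [TopologicalSpace F] [IsTopologicalRing F]

theorem isOpen_cell (h : Lf O π) (j : ℕ) : IsOpen (cell d O π j : Set (Mt d F)) := by
  have : (cell d O π j : Set (Mt d F)) = ⋂ a, ⋂ b, (fun y => (π ^ j)⁻¹ * y a b) ⁻¹' O := by
    ext y
    simp only [SetLike.mem_coe, mem_cell, Set.mem_iInter, Set.mem_preimage]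
    refine forall₂_congr fun a b => ⟨?_, fun ho => ⟨_, ho, ?_⟩⟩
    · rintro ⟨o, ho, e⟩
      rwa [e, inv_mul_cancel_left₀ (pow_ne_zero j h.loc.ne)]
    · rw [mul_inv_cancel_left₀ (pow_ne_zero j h.loc.ne)]
  rw [this]
  exact isOpen_iInter_of_finite fun a => isOpen_iInter_of_finite fun b =>
    h.opn.preimage (by fun_prop)

theorem isCompact_cell (h : Lf O π) (j : ℕ) : IsCompact (cell d O π j : Set (Mt d F)) := by
  have h1 : IsCompact ((fun o => π ^ j * o) '' (O : Set F)) := h.loc.cpt.image (by fun_prop)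
  have h2 : IsCompact (Set.univ.pi fun _ : Fin d => Set.univ.pi fun _ : Fin d =>
      (fun o => π ^ j * o) '' (O : Set F)) := isCompact_univ_pi fun _ => isCompact_univ_pi fun _ => h1
  refine h2.of_isClosed_subset ((cell d O π j).isClosed_of_isOpen (isOpen_cell h j))
    fun y hy a _ b _ => ?_
  obtain ⟨o, ho, e⟩ := hy a b
  exact ⟨o, ho, e.symm⟩

theorem ncell_ne_zero (h : Lf O π) (j : ℕ) : ncell d O π j ≠ 0 := by
  have : CompactSpace (cell d O π 0) := isCompact_iff_compactSpace.1 (isCompact_cell h 0)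
  have := AddSubgroup.quotient_finite_of_isOpen ((cell d O π j).addSubgroupOf (cell d O π 0))
    ((isOpen_cell h j).preimage continuous_subtype_val)
  exact AddSubgroup.index_ne_zero_of_finite

theorem ncell_pos (h : Lf O π) (j : ℕ) : (0 : ℝ) < ncell d O π j := by
  exact_mod_cast Nat.pos_of_ne_zero (ncell_ne_zero h j)

theorem ncell_le (h : Lf O π) (j c : ℕ) :
    ncell d O π j ≤ ncell d O π c * ncell d O π (j - c) := by
  rcases le_total c j with hc | hc
  · rw [← ncell_add h.loc.ne h.pi_mem, Nat.add_sub_cancel' hc]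
  · obtain ⟨n, rfl⟩ := Nat.exists_eq_add_of_le hc
    rw [ncell_add h.loc.ne h.pi_mem, mul_assoc]
    exact Nat.le_mul_of_pos_right _ (Nat.pos_of_ne_zero
      (mul_ne_zero (ncell_ne_zero h _) (ncell_ne_zero h _)))

theorem bdd (h : Lf O π) {C : Set (Mt d F)} (hC : IsCompact C) :
    ∃ c : ℕ, ∀ x ∈ C, π ^ c • x ∈ cell d O π 0 := by
  have hmono : Monotone fun c : ℕ => {x : Mt d F | π ^ c • x ∈ cell d O π 0} := by
    intro i j hij x hx
    obtain ⟨n, rfl⟩ := Nat.exists_eq_add_of_le hij
    have : π ^ n • (π ^ i • x) ∈ cell d O π (0 + n) := (smul_mem_cell h.loc.ne).2 hx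
    rw [smul_smul, ← pow_add, add_comm n] at this
    exact cell_anti h.pi_mem (Nat.zero_le _) this
  refine hC.elim_directed_cover (fun c : ℕ => {x : Mt d F | π ^ c • x ∈ cell d O π 0})
    (fun c => (isOpen_cell h 0).preimage (by fun_prop)) (fun x _ => ?_) hmono.directed_le
  choose n hn using fun p : Fin d × Fin d => h.loc.abs (x p.1 p.2)
  refine Set.mem_iUnion.2 ⟨∑ p, n p, fun a b => ?_⟩
  obtain ⟨m, hm⟩ := Nat.exists_eq_add_of_le
    (Finset.single_le_sum (f := n) (fun _ _ => Nat.zero_le _) (Finset.mem_univ (a, b)))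
  refine ⟨_, O.mul_mem (O.pow_mem h.pi_mem m) (hn (a, b)), ?_⟩
  rw [hm, Matrix.smul_apply, smul_eq_mul, pow_add]
  ring

theorem sandwich (h : Lf O π) {c j : ℕ} {x y z : Mt d F} (hx : π ^ c • x ∈ cell d O π 0)
    (hz : π ^ c • z ∈ cell d O π 0) (hy : y ∈ cell d O π j) (hj : c + c ≤ j) :
    x * y * z ∈ cell d O π (j - (c + c)) := by
  have h1 := cell_mul (cell_mul hx hy) hz
  rw [smul_mul_assoc, smul_mul_assoc, mul_smul_comm, smul_smul, ← pow_add, zero_add, add_zero]
    at h1
  exact (smul_mem_cell h.loc.ne).1 (by rwa [Nat.sub_add_cancel hj])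

theorem isOpen_unit [T2Space F] : IsOpen {y : Mt d F | IsUnit y} := by
  have : {y : Mt d F | IsUnit y} = (fun y => y.det) ⁻¹' {0}ᶜ := by
    ext y
    simp [Matrix.isUnit_iff_isUnit_det]
  rw [this]
  exact isClosed_singleton.isOpen_compl.preimage (by fun_prop)

end Cell

theorem inv_cont {F : Type*} [Field F] {d : ℕ} [TopologicalSpace F] [IsTopologicalDivisionRing F] :
    ContinuousOn inverse {y : Mt d F | IsUnit y} := by
  intro y hy
  have h0 : y.det ≠ 0 := ((Matrix.isUnit_iff_isUnit_det y).1 hy).ne_zero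
  have h1 : ContinuousAt (Inv.inv : Mt d F → Mt d F) y :=
    continuousAt_matrix_inv y (by rw [Ring.inverse_eq_inv']; exact continuousAt_inv₀ h0)
  have : (inverse : Mt d F → Mt d F) = Inv.inv :=
    funext fun z => (Matrix.nonsing_inv_eq_ringInverse z).symm
  rw [this]
  exact h1.continuousWithinAt

section Bump
variable {F : Type*} [Field F] {d : ℕ} {Y : Type*} (O : Subring F) (π : F)

/-- a bump function times the indicator function of a cell -/
def bump (χ : Y → ℝ) (j : ℕ) (t : Mt d F) (z : Y × Mt d F) : ℝ :=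
  χ z.1 * (cell d O π j : Set (Mt d F)).indicator 1 (z.2 - t)

variable {O π}

theorem bump_nonneg {χ : Y → ℝ} (h : ∀ y, 0 ≤ χ y) (j : ℕ) (t : Mt d F) (z : Y × Mt d F) :
    0 ≤ bump O π χ j t z :=
  mul_nonneg (h _) (Set.indicator_nonneg (fun _ _ => zero_le_one) _)

variable [TopologicalSpace F] [IsTopologicalRing F] [T2Space F] [TopologicalSpace Y] [T2Space Y]

theorem cc_bump (h : Lf O π) {χ : Y → ℝ} (hχ : Cc χ) (j : ℕ) (t : Mt d F) :
    Cc (bump O π χ j t) := by
  have hc : IsClopen (cell d O π j : Set (Mt d F)) :=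
    ⟨(isCompact_cell h j).isClosed, isOpen_cell h j⟩
  refine ⟨(hχ.1.comp continuous_fst).mul
    ((hc.continuous_indicator continuous_const).comp (by fun_prop)), ?_⟩
  refine HasCompactSupport.intro (hχ.2.isCompact.prod
    ((isCompact_cell (d := d) h j).image (continuous_add_const t))) fun z hz => ?_
  by_contra h0
  obtain ⟨h1, h2⟩ := mul_ne_zero_iff.1 h0
  exact hz ⟨subset_tsupport _ h1, _, Set.mem_of_indicator_ne_zero h2, sub_add_cancel _ _⟩

variable [AddCommGroup Y] [IsTopologicalAddGroup Y] [MeasurableSpace (Y × Mt d F)]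
  [BorelSpace (Y × Mt d F)] (lam : Measure (Y × Mt d F)) [lam.IsAddHaarMeasure]

theorem int_bump_tr (χ : Y → ℝ) (j : ℕ) (t : Mt d F) :
    ∫ z, bump O π χ j t z ∂lam = ∫ z, bump O π χ j 0 z ∂lam := by
  rw [← integral_add_left_eq_self (bump O π χ j t) (0, t)]
  simp [bump]

theorem int_bump (h : Lf O π) {χ : Y → ℝ} (hχ : Cc χ) (j : ℕ) (t : Mt d F) :
    ∫ z, bump O π χ j t z ∂lam = (∫ z, bump O π χ 0 0 z ∂lam) / ncell d O π j := by
  rw [eq_div_iff (ncell_pos h j).ne', int_bump_tr]
  let H := (cell d O π j).addSubgroupOf (cell d O π 0)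
  have : Finite (cell d O π 0 ⧸ H) := Nat.finite_of_card_ne_zero (ncell_ne_zero h j)
  have := Fintype.ofFinite (cell d O π 0 ⧸ H)
  have h1 : ∀ z : Y × Mt d F, bump O π χ 0 0 z =
      ∑ q : cell d O π 0 ⧸ H, bump O π χ j ((q.out : cell d O π 0) : Mt d F) z := by
    intro z
    simp only [bump, ← Finset.mul_sum, sub_zero]
    congr 1
    by_cases hz : z.2 ∈ cell d O π 0
    · have key : ∀ q : cell d O π 0 ⧸ H, z.2 - (q.out : cell d O π 0) ∈ cell d O π j ↔
          q = QuotientAddGroup.mk (⟨z.2, hz⟩ : cell d O π 0) := by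
        intro q
        conv_rhs => rw [← QuotientAddGroup.out_eq' q, QuotientAddGroup.eq]
        rw [AddSubgroup.mem_addSubgroupOf, sub_eq_neg_add]
        rfl
      rw [Set.indicator_of_mem hz, Finset.sum_eq_single (QuotientAddGroup.mk ⟨z.2, hz⟩),
        Set.indicator_of_mem ((key _).2 rfl)]
      · rfl
      · exact fun q _ hq => Set.indicator_of_notMem (fun h' => hq ((key q).1 h')) _
      · simp
    · rw [Set.indicator_of_notMem hz, eq_comm]
      refine Finset.sum_eq_zero fun q _ => Set.indicator_of_notMem (fun h' => hz ?_) _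
      simpa using add_mem (cell_anti h.pi_mem (Nat.zero_le j) h') (q.out).2
  simp only [h1]
  rw [integral_finsetSum _ fun q _ =>
    (cc_bump h hχ j _).1.integrable_of_hasCompactSupport (cc_bump h hχ j _).2]
  simp only [int_bump_tr lam χ j]
  rw [Finset.sum_const, Finset.card_univ, nsmul_eq_mul, mul_comm, ← Nat.card_eq_fintype_card]
  rfl

end Bump

section Cay
variable {R : Type*} [Ring R]

/-- the inverse Cayley transform -/
def ic (θ y : R) : R := θ * ((y + 1) * inverse (y - 1))

/-- `θ` is central and `2 θ` is a unit -/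
structure Ct (θ : R) : Prop where
  comm : ∀ y, θ * y = y * θ
  unit : IsUnit (θ + θ)

variable {θ y z : R}

theorem ic_sub (hy : IsUnit (y - 1)) : ic θ y - θ = (θ + θ) * inverse (y - 1) := by
  have e := mul_inverse_cancel _ hy
  rw [ic]
  linear_combination (norm := noncomm_ring) θ * e

theorem ic_add (h : Ct θ) (hy : IsUnit (y - 1)) : ic θ y + θ = y * (ic θ y - θ) := by
  have e := mul_inverse_cancel _ hy
  have e2 := h.comm y
  rw [ic_sub hy, ic]
  linear_combination (norm := noncomm_ring) -θ * e + 2 • e2 * inverse (y - 1)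

theorem unit_ic_sub (h : Ct θ) (hy : IsUnit (y - 1)) : IsUnit (ic θ y - θ) := by
  rw [ic_sub hy]; exact h.unit.mul hy.ringInverse

theorem cy_ic (h : Ct θ) (hy : IsUnit (y - 1)) : cy θ (ic θ y) = y := by
  rw [cy, ic_add h hy, mul_assoc, mul_inverse_cancel _ (unit_ic_sub h hy), mul_one]

theorem cy_sub (hz : IsUnit (z - θ)) : cy θ z - 1 = (θ + θ) * inverse (z - θ) := by
  have e := mul_inverse_cancel _ hz
  rw [cy]
  linear_combination (norm := noncomm_ring) e

theorem unit_cy_sub (h : Ct θ) (hz : IsUnit (z - θ)) : IsUnit (cy θ z - 1) := by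
  rw [cy_sub hz]; exact h.unit.mul hz.ringInverse

theorem ic_cy (h : Ct θ) (hz : IsUnit (z - θ)) : ic θ (cy θ z) = z := by
  have h1 := ic_sub (θ := θ) (unit_cy_sub h hz)
  have e1 := mul_inverse_cancel _ (unit_cy_sub h hz)
  have e2 := mul_inverse_cancel _ hz
  have e3 := h.comm (inverse (z - θ))
  have e4 := h.comm (z - θ)
  rw [← sub_left_inj (a := θ), h1]
  rw [cy_sub hz] at e1 ⊢
  linear_combination (norm := noncomm_ring)
    (z - θ) * e1 - (θ + θ) * e2 * inverse ((θ + θ) * inverse (z - θ)) +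
      2 • e4 * inverse (z - θ) * inverse ((θ + θ) * inverse (z - θ))

theorem map_inverse {R' : Type*} [Ring R'] (f : R →+* R') {x : R} (hx : IsUnit x) :
    f (inverse x) = inverse (f x) := by
  obtain ⟨u, rfl⟩ := hx
  rw [inverse_unit]
  exact (inverse_unit (Units.map (f : R →* R') u)).symm

theorem map_ic {R' : Type*} [Ring R'] (f : R →+* R') (hy : IsUnit (y - 1)) :
    f (ic θ y) = ic (f θ) (f y) := by
  simp only [ic, map_mul, map_add, map_one, map_inverse f hy, map_sub]

theorem map_cy {R' : Type*} [Ring R'] (f : R →+* R') (hz : IsUnit (z - θ)) :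
    f (cy θ z) = cy (f θ) (f z) := by
  simp only [cy, map_mul, map_add, map_inverse f hz, map_sub]

theorem ic_diff {y' : R} (hy : IsUnit (y - 1)) (hy' : IsUnit (y' - 1)) :
    ic θ y - ic θ y' = (θ + θ) * inverse (y - 1) * (y' - y) * inverse (y' - 1) := by
  have e1 := inverse_mul_cancel _ hy
  have e2 := mul_inverse_cancel _ hy'
  rw [← sub_sub_sub_cancel_right _ _ θ, ic_sub hy, ic_sub hy']
  linear_combination (norm := noncomm_ring)
    (θ + θ) * e1 * inverse (y' - 1) - (θ + θ) * inverse (y - 1) * e2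

theorem cy_mul_inv (hz : IsUnit (z - θ)) (hz' : IsUnit (z + θ)) :
    cy θ z * ((z - θ) * inverse (z + θ)) = 1 ∧ (z - θ) * inverse (z + θ) * cy θ z = 1 := by
  constructor
  · rw [cy, mul_assoc, ← mul_assoc (inverse _), inverse_mul_cancel _ hz, one_mul,
      mul_inverse_cancel _ hz']
  · rw [cy, mul_assoc, ← mul_assoc (inverse _), inverse_mul_cancel _ hz', one_mul,
      mul_inverse_cancel _ hz]

variable [StarRing R]

theorem star_ic (hc : ∀ y, θ * y = y * θ) (hs : star θ = -θ) (u : unitary R) :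
    star (ic θ (u : R)) = ic θ u := by
  by_cases hu : IsUnit ((u : R) - 1)
  · have e1 := mul_inverse_cancel _ hu
    have e2 := inverse_mul_cancel _ hu.star
    have e3 := u.2.1
    rw [star_sub, star_one] at e2
    rw [ic, star_mul, star_mul, hs, star_add, star_one, ← Ring.inverse_star, star_sub, star_one,
      mul_neg, ← hc, ← mul_neg]
    congr 1
    linear_combination (norm := noncomm_ring)
      inverse (star (u : R) - 1) * (star (u : R) + 1) * e1 + e2 * ((u : R) + 1) * inverse ((u : R) - 1)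
        - 2 • inverse (star (u : R) - 1) * e3 * inverse ((u : R) - 1)
  · simp [ic, inverse_non_unit _ hu]

theorem cy_mem (hc : ∀ y, θ * y = y * θ) (hs : star θ = -θ) (hz : star z = z)
    (hu : IsUnit (z - θ)) : cy θ z ∈ unitary R := by
  have hu' : IsUnit (z + θ) := by simpa [hz, hs] using hu.star
  have e1 := mul_inverse_cancel _ hu
  have e2 := inverse_mul_cancel _ hu
  have e3 := mul_inverse_cancel _ hu'
  have e4 := inverse_mul_cancel _ hu'
  have e5 := hc z
  have c1 : (z - θ) * (z + θ) = (z + θ) * (z - θ) := by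
    linear_combination (norm := noncomm_ring) -(2 • e5)
  have hst : star (cy θ z) = inverse (z + θ) * (z - θ) := by
    rw [cy, star_mul, ← Ring.inverse_star]
    simp [hz, hs, sub_eq_add_neg]
  rw [Unitary.mem_iff, hst, cy]
  constructor
  · rw [mul_assoc, ← mul_assoc (z - θ), c1, mul_assoc, e1, mul_one, e4]
  · have c2 : inverse (z - θ) * inverse (z + θ) = inverse (z + θ) * inverse (z - θ) := by
      rw [← Ring.mul_inverse_rev' (Commute.symm c1), ← Ring.mul_inverse_rev' c1, c1]
    rw [mul_assoc, ← mul_assoc (inverse (z - θ)), c2, mul_assoc, e2, mul_one, e3]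

end Cay

end Crest.Agent.T24.Na.One37
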