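import Crest.Agent.T24.NaPos_84
import Crest.Agent.T24.NaMx_52
import Crest.Agent.T24.NaInd_39
import Crest.Agent.T24.NaOneA_37

/-!
# Row 24, module NA: bi-equivariant functionals do not see `M` (`MooreStmt`).
-/

set_option autoImplicit false
set_option linter.unusedSectionVars false

noncomputable section

namespace Crest.Agent.T24.Na

universe u v w

namespace M41

open Topology Filter MeasureTheory Set P84 K39

section E
variable {G : Type u} [Group G]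

/-- two-sided translation of functions -/
def sh (k : G × G) (φ : G → ℝ) (x : G) : ℝ := φ (k.1⁻¹ * x * k.2)

theorem sh_mul (k k' : G × G) (φ : G → ℝ) : sh (k * k') φ = sh k (sh k' φ) := by
  funext x; simp [sh, mul_assoc]

theorem sh_one (φ : G → ℝ) : sh 1 φ = φ := by funext x; simp [sh]

variable [TopologicalSpace G] [IsTopologicalGroup G] {φ : G → ℝ}

theorem cc_sh (h : Cc φ) (k : G × G) : Cc (sh k φ) :=
  cc_comp h ((Homeomorph.mulLeft k.1⁻¹).trans (Homeomorph.mulRight k.2))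

theorem pos_sh {ν : (G → ℝ) → ℝ} (h : PosF ν) (k : G × G) : PosF fun φ => ν (sh k φ) :=
  ⟨fun _ _ h1 h2 => h.add _ _ (cc_sh h1 k) (cc_sh h2 k), fun c _ h1 => h.smul c _ (cc_sh h1 k),
    fun _ h1 h2 => h.pos _ (cc_sh h1 k) fun x => h2 (k.1⁻¹ * x * k.2)⟩

theorem tsupport_sh (k : G × G) : tsupport (sh k φ) ⊆ {x | k.1⁻¹ * x * k.2 ∈ tsupport φ} :=
  closure_minimal (fun _ hx => subset_tsupport φ hx) ((isClosed_tsupport φ).preimage (by fun_prop))

omit [Group G] [IsTopologicalGroup G] in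
theorem abs_bd {ν : (G → ℝ) → ℝ} (h : PosF ν) (hφ : Cc φ) {A B : ℝ} (hA : 0 < A)
    (h1 : ∀ x, |φ x| ≤ A)
    (hB : ∀ χ, Cc χ → 0 ≤ χ → χ ≤ 1 → tsupport χ ⊆ tsupport φ → ν χ ≤ B) : |ν φ| ≤ A * B := by
  have h2 : Function.support (A⁻¹ • fun x => |φ x|) ⊆ Function.support φ := fun x hx h0 =>
    hx (by simp [h0])
  have h3 : Cc (A⁻¹ • fun x => |φ x|) := ⟨hφ.1.abs.const_smul _, hφ.2.mono h2⟩
  refine (pos_abs_le h hφ (cc_smul A h3) fun x => by simp [hA.ne']).trans ?_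
  rw [h.smul _ _ h3]
  exact mul_le_mul_of_nonneg_left (hB _ h3 (fun x => by simp; positivity)
    (fun x => by simpa [inv_mul_le_one₀ hA] using h1 x) (closure_mono h2)) hA.le

variable [LocallyCompactSpace G] [T2Space G]

theorem cont_sh {ν : (G → ℝ) → ℝ} (h : PosF ν) (hφ : Cc φ) : Continuous fun k => ν (sh k φ) :=
  pos_cont h (by have := hφ.1; unfold sh; fun_prop) fun k₀ => by
    obtain ⟨C, hC, hC'⟩ := exists_compact_mem_nhds k₀
    refine ⟨(fun p : (G × G) × G => p.1.1 * p.2 * p.1.2⁻¹) '' (C ×ˢ tsupport φ),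
      (hC.prod hφ.2).image (by fun_prop), ?_⟩
    filter_upwards [hC'] with k hk x hx
    by_contra h0
    exact hx ⟨(k, k.1⁻¹ * x * k.2), ⟨hk, subset_tsupport _ h0⟩, by simp [mul_assoc]⟩

/-- the unitary model of a bi-equivariant family of functionals -/
theorem exists_E [SecondCountableTopology G] {Γ : Type*} [Group Γ] (ι : Γ →* G)
    (hd : ∃ U ∈ 𝓝 (1 : G), ∀ γ, ι γ ∈ U → γ = 1)
    (hc : ∃ C : Set G, IsCompact C ∧ ∀ g, ∃ γ, (ι γ)⁻¹ * g ∈ C) {Q : Type} [Group Q] [Finite Q]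
    (c : Γ →* Q) {ν : Q → (G → ℝ) → ℝ} (hν : ∀ q, PosF (ν q))
    (hL : ∀ q γ φ, Cc φ → ν (c γ * q) φ = ν q fun g => φ (ι γ * g))
    (hR : ∀ q γ φ, Cc φ → ν (q * c γ) φ = ν q fun g => φ (g * ι γ)) :
    ∃ (V : Type u) (_ : NormedAddCommGroup V) (_ : InnerProductSpace ℝ V) (_ : CompleteSpace V)
      (π : G × G →* (V ≃ₗᵢ[ℝ] V)) (E : (G → ℝ) → V) (C : Set (G × G)) (A : ℝ), IsCompact C ∧ 0 ≤ A ∧
      (∀ φ χ, Cc φ → Cc χ → E (φ + χ) = E φ + E χ) ∧ (∀ k φ, Cc φ → π k (E φ) = E (sh k φ)) ∧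
      (∀ φ B, Cc φ → 0 ≤ B → (∀ k ∈ C, ∀ q, |ν q (sh k φ)| ≤ B) → ‖E φ‖ ≤ A * B) ∧
      ∀ φ χ, Cc φ → Cc χ → E φ = E χ → ∀ q, ν q φ = ν q χ := by
  classical
  borelize (G × G)
  let _ : MeasurableSpace Q := ⊤
  have : DiscreteMeasurableSpace Q := ⟨fun _ => trivial⟩
  let _ : MulAction (Γ × Γ) Q :=
    { smul γ q := c γ.1 * q * c γ.2⁻¹
      one_smul q := by change c 1 * q * c 1⁻¹ = q; simp
      mul_smul a b q := by
        change c (a.1 * b.1) * q * c (a.2 * b.2)⁻¹ = c a.1 * (c b.1 * q * c b.2⁻¹) * c a.2⁻¹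
        simp [mul_assoc] }
  obtain ⟨U, hU, hd⟩ := hd
  obtain ⟨C₀, hC₀, hc⟩ := hc
  obtain ⟨h1, ⟨b, hb⟩, h2⟩ := exists_co (ι.prodMap ι)
    ⟨U ×ˢ U, prod_mem_nhds hU hU, fun γ h => Prod.ext (hd _ h.1) (hd _ h.2)⟩
    ⟨C₀ ×ˢ C₀, hC₀.prod hC₀, fun g => by
      obtain ⟨γ, h⟩ := hc g.1
      obtain ⟨γ', h'⟩ := hc g.2
      exact ⟨(γ, γ'), h, h'⟩⟩
  let μ : Measure (G × G) := Measure.haar
  have := h2 μ
  let ω : Measure Q := wm fun _ => 1
  have : SMulInvariantMeasure (Γ × Γ) Q ω := wm_inv fun _ _ => rfl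
  obtain ⟨C, hC, hF⟩ := hb.Fd_cpt
  have : IsFiniteMeasure ω := ⟨by
    have := Fintype.ofFinite Q
    rw [← lintegral_one, lintegral_wm]; simp⟩
  have : IsFiniteMeasure (μ.restrict (Fd b)) :=
    ⟨by rw [Measure.restrict_apply_univ]; exact (measure_mono hF).trans_lt hC.measure_lt_top⟩
  have : IsFiniteMeasure (mX b μ ω) := by unfold mX; infer_instance
  let Ψ : (G → ℝ) → (G × G) × Q → ℝ := fun φ p => ν p.2 (sh p.1 φ)
  have hI : ∀ φ, Cc φ → K39.Inv (ι.prodMap ι) (Ψ φ) := fun φ hφ γ p => by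
    change ν (c γ.1 * p.2 * c γ.2⁻¹) (sh (ι.prodMap ι γ * p.1) φ) = ν p.2 (sh p.1 φ)
    refine (hR _ _ _ (cc_sh hφ _)).trans ((hL _ _ _ (cc_comp (cc_sh hφ _)
      (Homeomorph.mulRight (ι γ.2⁻¹)))).trans (congrArg _ (funext fun x => ?_)))
    simp [sh, mul_assoc]
  have hm : ∀ φ, Cc φ → MemLp (Ψ φ) 2 (mX b μ ω) := fun φ hφ => by
    choose B hB using fun q => hC.exists_bound_of_continuousOn (cont_sh (hν q) hφ).continuousOn
    obtain ⟨B', hB'⟩ := Finite.exists_le B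
    refine MemLp.of_bound (measurable_from_prod_countable_left fun q =>
      (cont_sh (hν q) hφ).measurable).aestronglyMeasurable B' ?_
    filter_upwards [hb.ae_mem μ ω] with p hp using (hB _ _ (hF hp)).trans (hB' _)
  let E : (G → ℝ) → Lp ℝ 2 (mX b μ ω) := fun φ => if h : Cc φ then (hm φ h).toLp _ else 0
  have hE : ∀ φ, Cc φ → E φ =ᵐ[mX b μ ω] Ψ φ := fun φ h => by
    simp only [E, dif_pos h]; exact MemLp.coeFn_toLp _
  refine ⟨_, inferInstance, inferInstance, inferInstance, hb.kp μ ω, E, C,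
    (measureUnivNNReal (mX b μ ω) : ℝ) ^ (2 : ENNReal).toReal⁻¹, hC, by positivity,
    fun φ χ hφ hχ => Lp.ext ?_, fun k φ hφ => Lp.ext ?_, fun φ B hφ hB h => ?_,
    fun φ χ hφ hχ h q => ?_⟩
  · filter_upwards [hE _ (cc_add hφ hχ), hE _ hφ, hE _ hχ, Lp.coeFn_add (E φ) (E χ)] with p a1 a2 a3 a4
    rw [a1, a4, Pi.add_apply, a2, a3]
    exact (pos_sh (hν _) _).add _ _ hφ hχ
  · filter_upwards [hb.kp_inv μ ω k (hI φ hφ) (hE φ hφ), hE _ (cc_sh hφ k)] with p a1 a2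
    rw [a1, a2]
    exact congrArg (ν p.2) (sh_mul _ _ _)
  · refine Lp.norm_le_of_ae_bound hB ?_
    filter_upwards [hE _ hφ, hb.ae_mem μ ω] with p a1 a2
    rw [a1]; exact h _ (hF a2) _
  · have a1 : ∀ᵐ p ∂μ.prod ω, Ψ φ p = Ψ χ p :=
      hb.ae_of_mX μ ω (fun γ p => by rw [hI φ hφ γ, hI χ hχ γ])
        ((hE φ hφ).symm.trans (h ▸ hE χ hχ))
    have a2 : (fun k => ν q (sh k φ)) =ᵐ[μ] fun k => ν q (sh k χ) := by
      filter_upwards [Measure.ae_ae_of_ae_prod a1] with k hk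
      exact ae_iff_of_countable.1 hk q (by rw [wm_singleton]; simp)
    have := congrFun (((cont_sh (hν q) hφ).ae_eq_iff_eq μ (cont_sh (hν q) hχ)).1 a2) 1
    simpa only [sh_one] using this

end E

section Mat
variable {F : Type u} [Field F] {d : ℕ} {O : Subring F} {π : F} {G₂ : Type v} [Group G₂]

/-- the two-sided action on matrices -/
def lr (G₂ : Type v) [Group G₂] :
    (G₂ × GL (Fin d) F) × (G₂ × GL (Fin d) F) →* (Mt d F ≃ₗ[ℤ] Mt d F) where
  toFun k :=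
    { toFun x := k.1.2 * x * (k.2.2⁻¹ : GL (Fin d) F)
      invFun x := (k.1.2⁻¹ : GL (Fin d) F) * x * k.2.2
      map_add' x y := by rw [mul_add, add_mul]
      map_smul' c x := by rw [mul_smul_comm, smul_mul_assoc]; rfl
      left_inv x := by simp only [mul_assoc, Units.inv_mul, mul_one, Units.inv_mul_cancel_left]
      right_inv x := by simp only [mul_assoc, Units.mul_inv, mul_one, Units.mul_inv_cancel_left] }
  map_one' := by ext1 x; simp
  map_mul' g h := by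
    ext1 x
    simp only [LinearEquiv.coe_mk, LinearEquiv.mul_apply, LinearMap.coe_mk, AddHom.coe_mk,
      Prod.fst_mul, Prod.snd_mul, mul_inv_rev, Units.val_mul, mul_assoc]

theorem lr_apply (k : (G₂ × GL (Fin d) F) × (G₂ × GL (Fin d) F)) (x : Mt d F) :
    lr G₂ k x = k.1.2 * x * (k.2.2⁻¹ : GL (Fin d) F) := rfl

/-- `χ ⊗ 1_β` on the group -/
def tn (χ : G₂ → ℝ) (β : Set (Mt d F)) : G₂ × GL (Fin d) F → ℝ := tens χ (Units.val ⁻¹' β)

theorem sh_tn (χ : G₂ → ℝ) (β : Set (Mt d F)) {k : (G₂ × GL (Fin d) F) × (G₂ × GL (Fin d) F)}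
    (h1 : k.1.1 = 1) (h2 : k.2.1 = 1) : sh k (tn χ β) = tn χ (lr G₂ k '' β) := by
  funext x
  rw [LinearEquiv.image_eq_preimage_symm]
  simp only [sh, tn, tens, Prod.fst_mul, Prod.fst_inv, h1, h2, inv_one, one_mul, mul_one]
  rfl

theorem rel_cell (h0 : π ≠ 0) (i j : ℕ) :
    (cell d O π (i + j)).relIndex (cell d O π i) = ncell d O π j := by
  have h1 := AddSubgroup.relIndex_map_map_of_injective
    (f := DistribSMul.toAddMonoidHom (Mt d F) (π ^ i)) (cell d O π j) (cell d O π 0)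
    (MulAction.injective₀ (pow_ne_zero i h0))
  rwa [One37.cell_map h0, One37.cell_map h0, zero_add, add_comm] at h1

variable [TopologicalSpace F] [IsTopologicalDivisionRing F] [T2Space F]

theorem emb_val : IsEmbedding (Units.val : GL (Fin d) F → Mt d F) :=
  Units.isEmbedding_val_mk' One37.inv_cont fun u => Ring.inverse_unit u

theorem cpt_val {β : Set (Mt d F)} (h : IsCompact β) (hu : ∀ y ∈ β, IsUnit y) :
    IsCompact (Units.val ⁻¹' β : Set (GL (Fin d) F)) := emb_val.isInducing.isCompact_preimage' h hu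

theorem sat_clopen (h : Lf O π) {j : ℕ} {s : Set (Mt d F)} (hs : Vm.Sat (cell d O π j) s) :
    IsClopen s := by
  have key : ∀ s : Set (Mt d F), Vm.Sat (cell d O π j) s → IsOpen s := fun s hs =>
    isOpen_iff_mem_nhds.2 fun x hx => mem_of_superset
      (((cell_open h j).preimage (continuous_sub_right x)).mem_nhds (by simp))
      fun y hy => by simpa using hs x hx _ hy
  exact ⟨⟨key _ fun x hx l hl h' => hx (by simpa using hs _ h' _ (neg_mem hl))⟩, key s hs⟩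

theorem cpt_cell (h : Lf O π) (j : ℕ) (y : Mt d F) : IsCompact (Vm.cell (cell d O π j) y) :=
  (Homeomorph.addLeft (-y)).isCompact_preimage.2 (cell_compact h j)

variable [TopologicalSpace G₂] [T2Space G₂]

theorem cc_tn (h : Lf O π) {χ : G₂ → ℝ} (hχ : Cc χ) {i j : ℕ} {y : Mt d F} {s : Set (Mt d F)}
    (hu : ∀ z ∈ Vm.cell (cell d O π i) y, IsUnit z) (h1 : s ⊆ Vm.cell (cell d O π i) y)
    (hs : Vm.Sat (cell d O π j) s) : Cc (tn χ s) :=
  cc_tens hχ (cpt_val ((cpt_cell h i y).of_isClosed_subset (sat_clopen h hs).1 h1)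
    fun z hz => hu z (h1 hz)) ((sat_clopen h hs).2.preimage Units.continuous_val)

variable [LocallyCompactSpace F] [LocallyCompactSpace G₂]

open Classical in
/-- positive functionals are determined by their values on small cells -/
theorem ext_cell (h : Lf O π) {ν ν' : (G₂ × GL (Fin d) F → ℝ) → ℝ} (hν : PosF ν) (hν' : PosF ν')
    (n : ℕ) (he : ∀ χ, Cc χ → ∀ j y, (∀ z ∈ Vm.cell (cell d O π (j + n)) y, IsUnit z) →
      ν (tn χ (Vm.cell (cell d O π (j + n)) y)) = ν' (tn χ (Vm.cell (cell d O π (j + n)) y)))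
    {φ : G₂ × GL (Fin d) F → ℝ} (hφ : Cc φ) : ν φ = ν' φ := by
  let un : Mt d F → GL (Fin d) F := fun y => if h : IsUnit y then h.unit else 1
  have un1 : ∀ y, IsUnit y → (un y : Mt d F) = y := fun y h => by simp [un, h]
  have un2 : ∀ u : GL (Fin d) F, un u = u := fun u => Units.ext (un1 _ u.isUnit)
  have un3 : ∀ y, IsUnit y → ContinuousAt un y := fun y h =>
    emb_val.isInducing.continuousAt_iff.2 (continuousAt_id.congr
      (mem_of_superset (One37.isOpen_unit.mem_nhds h) fun z hz => (un1 z hz).symm))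
  have hK₁ := hφ.2.isCompact.image continuous_fst
  have hK₂ := hφ.2.isCompact.image continuous_snd
  set K₁ := Prod.fst '' tsupport φ
  set K₂ := Prod.snd '' tsupport φ
  have z1 : ∀ x : G₂ × GL (Fin d) F, x.1 ∉ K₁ → φ x = 0 := fun x hx =>
    by_contra fun h0 => hx ⟨x, subset_tsupport _ h0, rfl⟩
  have hP : ∀ ε : ℝ, 0 < ε → ∃ j, ∀ e ∈ cell d O π j, ∀ p ∈ K₁ ×ˢ K₂,
      IsUnit ((p.2 : Mt d F) + e) ∧ |φ (p.1, un (p.2 + e)) - φ p| < ε := fun ε hε =>
    cell_basis h ((hK₁.prod hK₂).eventually_forall_of_forall_eventually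
      (P := fun (e : Mt d F) p => IsUnit ((p.2 : Mt d F) + e) ∧ |φ (p.1, un (p.2 + e)) - φ p| < ε)
      fun p _ => by
        have a1 : Continuous fun z : Mt d F × G₂ × GL (Fin d) F => (z.2.2 : Mt d F) + z.1 := by
          fun_prop
        have a2 : ContinuousAt (fun z : Mt d F × G₂ × GL (Fin d) F => un (z.2.2 + z.1)) (0, p) :=
          ContinuousAt.comp (un3 _ (by simp)) a1.continuousAt
        refine (a1.continuousAt.eventually_mem (One37.isOpen_unit.mem_nhds (by simp))).and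
          (ContinuousAt.eventually_lt (ContinuousAt.abs ((hφ.1.continuousAt.comp
            (continuousAt_snd.fst.prodMk a2)).sub (hφ.1.continuousAt.comp continuousAt_snd)))
            continuousAt_const (by simpa [un2] using hε)))
  obtain ⟨j₁, hj₁⟩ := hP 1 one_pos
  have u1 : ∀ y ∈ K₂, ∀ e ∈ cell d O π j₁, IsUnit ((y : Mt d F) + e) := by
    rintro _ ⟨x, hx, rfl⟩ e he
    exact (hj₁ e he x ⟨⟨x, hx, rfl⟩, x, hx, rfl⟩).1
  obtain ⟨b, hb, hb0, -, hb1⟩ := exists_bump (hK₁.prod (cpt_val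
    ((hK₂.prod (cell_compact (d := d) h j₁)).image
      (f := fun p : GL (Fin d) F × Mt d F => (p.1 : Mt d F) + p.2) (by fun_prop))
    (by rintro _ ⟨p, hp, rfl⟩; exact u1 _ hp.1 _ hp.2)))
  have hb2 := hν.pos b hb hb0
  have hb3 := hν'.pos b hb hb0
  refine eq_of_forall_dist_le fun ε hε => ?_
  obtain ⟨j₂, hj₂⟩ := hP (ε / (ν b + ν' b + 1)) (by positivity)
  set L := cell d O π (j₁ + j₂ + n) with hL
  have l1 : L ≤ cell d O π j₁ := cell_anti h.pi_mem (by omega)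
  have l2 : L ≤ cell d O π j₂ := cell_anti h.pi_mem (by omega)
  have := QuotientAddGroup.discreteTopology (cell_open (d := d) h (j₁ + j₂ + n))
  have hT : ((fun y : GL (Fin d) F => ((y : Mt d F) : Mt d F ⧸ L)) '' K₂).Finite :=
    (hK₂.image (QuotientAddGroup.continuous_mk.comp Units.continuous_val)).finite_of_discrete
  choose! r r1 r2 using fun q (hq : q ∈ hT.toFinset) => hT.mem_toFinset.1 hq
  have u2 : ∀ q ∈ hT.toFinset, ∀ z ∈ Vm.cell L (r q), IsUnit z := fun q hq z hz => by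
    simpa using u1 _ (r1 q hq) _ (l1 hz)
  have c1 : ∀ q, Cc fun a => φ (a, r q) := fun q =>
    cc_of (hφ.1.comp (Continuous.prodMk_left _)) hK₁ fun a ha => z1 _ ha
  have c2 : ∀ q ∈ hT.toFinset, Cc (tn (fun a => φ (a, r q)) (Vm.cell L (r q))) := fun q hq =>
    cc_tn h (c1 q) (u2 q hq) Subset.rfl (Vm.sat_cell _ _)
  have m1 : ∀ q ∈ hT.toFinset, ∀ y : GL (Fin d) F,
      y ∈ Units.val ⁻¹' Vm.cell L (r q) ↔ q = (y : Mt d F) := fun q hq y => by
    conv_rhs => rw [← r2 q hq, QuotientAddGroup.eq]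
    rfl
  set ψ := ∑ q ∈ hT.toFinset, tn (fun a => φ (a, r q)) (Vm.cell L (r q)) with hψ
  have e1 : ν ψ = ν' ψ := by
    rw [pos_sum hν _ c2, pos_sum hν' _ c2]
    exact Finset.sum_congr rfl fun q hq => he _ (c1 q) _ _ (u2 q hq)
  have e2 : ∀ x, |(φ - ψ) x| ≤ ((ε / (ν b + ν' b + 1)) • b) x := fun x => by
    have p0 : 0 ≤ ((ε / (ν b + ν' b + 1)) • b) x := mul_nonneg (by positivity) (hb0 x)
    rw [Pi.sub_apply, hψ, Finset.sum_apply]
    by_cases hx : ((x.2 : Mt d F) : Mt d F ⧸ L) ∈ hT.toFinset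
    · have a1 := (m1 _ hx x.2).2 rfl
      rw [Finset.sum_eq_single_of_mem _ hx fun q hq hq' => by
        rw [tn, tens, indicator_of_notMem (mt (m1 q hq _).1 hq'), mul_zero],
        tn, tens, indicator_of_mem a1, Pi.one_apply, mul_one]
      by_cases hx1 : x.1 ∈ K₁
      · have a2 := (hj₂ _ (l2 a1) (x.1, r (x.2 : Mt d F)) ⟨hx1, r1 _ hx⟩).2
        rw [add_neg_cancel_left, un2] at a2
        rw [Pi.smul_apply, hb1 x ⟨hx1, (_, _), ⟨r1 _ hx, l1 a1⟩, add_neg_cancel_left _ _⟩,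
          smul_eq_mul, mul_one]
        exact a2.le
      · rwa [z1 _ hx1, z1 (x.1, r (x.2 : Mt d F)) hx1, sub_self, abs_zero]
    · rw [Finset.sum_eq_zero fun q hq => by
        rw [tn, tens, indicator_of_notMem fun h' => hx ((m1 q hq _).1 h' ▸ hq), mul_zero]]
      rwa [show φ x = 0 from by_contra fun h0 =>
        hx (hT.mem_toFinset.2 ⟨_, ⟨x, subset_tsupport _ h0, rfl⟩, rfl⟩), sub_self, abs_zero]
  have c3 := cc_sum _ c2
  have e3 := pos_abs_le hν (cc_sub hφ c3) (cc_smul _ hb) e2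
  have e4 := pos_abs_le hν' (cc_sub hφ c3) (cc_smul _ hb) e2
  rw [pos_sub hν hφ c3, hν.smul _ _ hb, abs_le] at e3
  rw [pos_sub hν' hφ c3, hν'.smul _ _ hb, abs_le] at e4
  have e5 : ε / (ν b + ν' b + 1) * (ν b + ν' b + 1) = ε := by field_simp
  have e6 : 0 < ε / (ν b + ν' b + 1) := by positivity
  rw [Real.dist_eq, abs_le]
  constructor <;> nlinarith

variable [IsTopologicalGroup G₂]

/-- the vectors of small cells are fixed by `SL_d` -/
theorem cell_inv (h : Lf O π) (hd : 3 ≤ d) {V : Type*} [NormedAddCommGroup V]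
    [InnerProductSpace ℝ V] [CompleteSpace V]
    (p : (G₂ × GL (Fin d) F) × (G₂ × GL (Fin d) F) →* (V ≃ₗᵢ[ℝ] V))
    (E : (G₂ × GL (Fin d) F → ℝ) → V) {C : Set ((G₂ × GL (Fin d) F) × (G₂ × GL (Fin d) F))} {A : ℝ}
    (hC : IsCompact C) {Q : Type*} {ν : Q → (G₂ × GL (Fin d) F → ℝ) → ℝ}
    (hν : ∀ q, PosF (ν q)) (e1 : ∀ φ χ, Cc φ → Cc χ → E (φ + χ) = E φ + E χ)
    (e2 : ∀ k φ, Cc φ → p k (E φ) = E (sh k φ))
    (e3 : ∀ φ B, Cc φ → 0 ≤ B → (∀ k ∈ C, ∀ q, |ν q (sh k φ)| ≤ B) → ‖E φ‖ ≤ A * B)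
    (hK : ∀ K : Set (G₂ × GL (Fin d) F), IsCompact K → ∃ C : ℝ, ∀ q (j : ℕ) (y₀ : Mt d F) φ, Cc φ →
      0 ≤ φ → φ ≤ 1 → (∀ g ∈ tsupport φ, g ∈ K ∧ (g.2 : Mt d F) - y₀ ∈ cell d O π j) →
      ν q φ ≤ C / ncell d O π j) :
    ∃ n, ∀ χ, Cc χ → ∀ j y, (∀ z ∈ Vm.cell (cell d O π (j + n)) y, IsUnit z) → ∀ s,
      p (jS G₂ s, 1) (E (tn χ (Vm.cell (cell d O π (j + n)) y))) =
        E (tn χ (Vm.cell (cell d O π (j + n)) y)) := by
  have h0 := h.loc.ne
  obtain ⟨n, hn⟩ := bounded_gl h ((hC.image (f := fun k => k.1.2) (by fun_prop)).union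
    (hC.image (f := fun k => k.2.2) (by fun_prop)))
  refine ⟨n, fun χ hχ j₀ y hu s => ?_⟩
  obtain ⟨r, r1, r2⟩ := h.loc.res
  have hp : π⁻¹ * π = 1 := inv_mul_cancel₀ h0
  have hD : Kaz.Dat O π⁻¹ r := ⟨r1, fun k l hkl => ⟨_, (r2 l k hkl.symm).2,
    inv_mul_cancel₀ (sub_ne_zero.2 (r2 l k hkl.symm).1)⟩, fun x => (h.loc.abs x).imp fun m hm =>
      ⟨_, hm, by rw [inv_pow, inv_mul_cancel_left₀ (pow_ne_zero m h0)]⟩⟩
  let i₀ : Fin d := ⟨0, by omega⟩
  obtain ⟨t, t1, -⟩ := Vm.exists_t h.pi_mem hp i₀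
  have hΩ := cpt_cell h (j₀ + n) y
  have hΩ' := cpt_val hΩ hu
  obtain ⟨a, ha⟩ := bounded_gl h ((hΩ'.image
    (f := fun u => u⁻¹ * Matrix.SpecialLinearGroup.toGL t * u) (by fun_prop)).insert
      (Matrix.SpecialLinearGroup.toGL t))
  obtain ⟨e, he⟩ := bounded h hΩ
  obtain ⟨B, hB⟩ := hK _ ((hC.prod (hχ.2.isCompact.prod hΩ')).image
    (f := fun z => z.1.1 * z.2 * z.1.2⁻¹) (by fun_prop))
  obtain ⟨A', hA'⟩ := hχ.1.bounded_above_of_compact_support hχ.2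
  choose! u hu' using hu
  have hu : ∀ z ∈ Vm.cell (cell d O π (j₀ + n)) y, IsUnit z := fun z hz => ⟨_, hu' z hz⟩
  have hsub : ∀ j, ∀ z ∈ Vm.cell (cell d O π (j₀ + n)) y,
      Vm.cell (cell d O π (j₀ + n + j)) z ⊆ Vm.cell (cell d O π (j₀ + n)) y := fun j z hz x hx => by
    rw [Vm.mem_cell] at *
    simpa using add_mem (cell_anti h.pi_mem (Nat.le_add_right _ j) hx) hz
  have hcc := fun j z hz => cc_tn h hχ hu (hsub j z hz) (Vm.sat_cell _ _)
  let φ : GL (Fin d) F × GL (Fin d) F →* (G₂ × GL (Fin d) F) × (G₂ × GL (Fin d) F) :=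
    (MonoidHom.inr _ _).prodMap (MonoidHom.inr _ _)
  let f := (MonoidHom.inl (GL (Fin d) F) (GL (Fin d) F)).comp
    (Matrix.SpecialLinearGroup.toGL (n := Fin d) (R := F))
  refine Vm.vmA hD h.pi_mem hp (by simp) (by simpa using hd) (p.comp φ) (i₀ := i₀)
    (c := π ^ Fintype.card (Fin d))
    ⟨π ^ (d - 1), O.pow_mem h.pi_mem _, by rw [← pow_succ', Fintype.card_fin]; congr 1; omega⟩
    (fun j => cell d O π (j₀ + n + j)) (fun i j hij => cell_anti h.pi_mem (by omega))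
    (fun j => by simpa [rel_cell h0] using ncell_ne h j) (a := a) (b := ncell d O π a)
    (fun j => by rw [← add_assoc, rel_cell h0]) ((lr G₂).comp φ) y (fun β => E (tn χ β))
    (fun j β β' b1 b2 b3 b4 b5 => ?_) (C := A * ((|A'| + 1) * (|B| / ncell d O π j₀)))
    (fun j z hz => ?_) (fun g j z hz _ => ?_) (fun _ _ => f.comp (MonoidHom.id _))
    (fun _ z => f t * (1, (u z)⁻¹ * Matrix.SpecialLinearGroup.toGL t * u z))
    (fun j z hz => ⟨t1.map f fun g => by simp [f], ?_, fun i l hl => ?_⟩)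
    (fun j₁ => ⟨j₀ + n + j₁ + e, fun j z hz k hk o ho x hx => ?_⟩) (g := f s) fun _ _ _ => ⟨s, rfl⟩
  · rw [← e1 _ _ (cc_tn h hχ hu b1 b3) (cc_tn h hχ hu b2 b4), tn, preimage_union,
      tens_union _ (b5.preimage _)]
    rfl
  · have n1 := One37.ncell_pos (d := d) h j
    have n2 := One37.ncell_pos (d := d) h j₀
    rw [add_zero, rel_cell h0]
    refine (mul_le_mul_of_nonneg_left (e3 _ ((|A'| + 1) * (|B| / ncell d O π (j₀ + j))) (hcc j z hz)
      (by positivity) fun k hk q => abs_bd (hν q) (cc_sh (hcc j z hz) k) (by positivity)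
        (fun x => ?_) fun ψ p1 p2 p3 p4 => (hB q _ (k.1.2 * z * (k.2.2⁻¹ : GL (Fin d) F)) ψ p1 p2 p3
          fun x hx => ?_).trans (by gcongr; exact le_abs_self _)) n1.le).trans (le_of_eq ?_)
    · rw [sh, tn, tens, abs_mul]
      refine (mul_le_of_le_one_right (abs_nonneg _) ?_).trans
        ((hA' _).trans (by linarith [le_abs_self A']))
      classical
      rw [indicator_apply]; split_ifs <;> simp
    · have a1 := tsupport_tens (cpt_val (cpt_cell h _ z) fun w hw => hu w (hsub j z hz hw))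
        (tsupport_sh k (p4 hx))
      refine ⟨⟨(k, k.1⁻¹ * x * k.2), ⟨hk, a1.1, hsub j z hz a1.2⟩, by simp [mul_assoc]⟩, ?_⟩
      have a2 := (hn _ (.inl ⟨k, hk, rfl⟩) _ (.inr ⟨k, hk, rfl⟩) _ _ (Vm.mem_cell.1 a1.2)).1
      rw [add_comm j₀, add_assoc, smul_mem_cell h0] at a2
      simpa [mul_sub, sub_mul, mul_assoc] using a2
    · rw [One37.ncell_add h0 h.pi_mem]; push_cast; field_simp
  · rw [MonoidHom.comp_apply, e2 _ _ (hcc j z hz), sh_tn _ _ rfl rfl]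
    rfl
  · have a1 : lr G₂ (φ (f t * (1, (u z)⁻¹ * Matrix.SpecialLinearGroup.toGL t * u z))) (u z) = u z := by
      rw [lr_apply, ← Units.val_mul, ← Units.val_mul]
      congr 1
      simp [φ, f, mul_assoc]
    rw [hu' z hz] at a1
    rw [MonoidHom.comp_apply, a1, sub_self]
    exact zero_mem _
  · have a1 := ha _ (mem_insert _ _) _ (mem_insert_of_mem _ ⟨u z, by
      rwa [mem_preimage, hu' z hz], rfl⟩) _ _ hl
    have a2 := ha _ (mem_insert_of_mem _ ⟨u z, by rwa [mem_preimage, hu' z hz], rfl⟩) _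
      (mem_insert _ _) _ _ hl
    rw [← add_assoc, add_comm _ a, smul_mem_cell h0, smul_mem_cell h0] at a1 a2
    exact ⟨by simpa [lr_apply, φ, f] using a1.1, by simpa [lr_apply, φ, f] using a2.2⟩
  · have key : ∀ i k : Fin d, i ≠ k → (lr G₂).comp φ (f.comp (MonoidHom.id _)
        (Kaz.X i k (π ^ (j₀ + n + j₁ + e) * o))) x - x ∈ cell d O π (j₀ + n + j₁) := fun i k hik => by
      have a1 := cell_mul (Vm.single_mem_Lv (n := j₀ + n + j₁ + e) i k ho) (he x hx)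
      rw [mul_smul_comm, add_zero, add_comm _ e, smul_mem_cell h0, add_comm e] at a1
      simpa [lr_apply, φ, f, Kaz.X_coe hik, add_mul] using a1
    exact ⟨key _ _ hk.symm, key _ _ hk⟩

end Mat

end M41

open M41 P84 K39 in
/-- (1), ergodic part -/
theorem mooreStmt : MooreStmt.{u, v, w} := by
  intro F _ _ _ _ _ _ O π d G₂ _ _ _ _ _ _ Γ _ ι Q _ _ c M ν h hd hι hM hN hν hK hL hR q f hf φ hφ
  obtain ⟨V, _, _, _, p, E, C, A, hC, -, e1, e2, e3, e4⟩ := exists_E ι hι.disc hι.coc c hν hL hR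
  obtain ⟨n, hn⟩ := cell_inv h hd p E hC hν e1 e2 e3 hK
  have h1 : ∀ s ψ, Cc ψ → ν q (sh (jS G₂ s, 1) ψ) = ν q ψ := fun s ψ hψ =>
    ext_cell h (pos_sh (hν q) _) (hν q) n (fun χ hχ j y hu => by
      have a1 := cc_tn h hχ hu subset_rfl (Vm.sat_cell _ _)
      exact e4 _ _ (cc_sh a1 _) a1 ((e2 _ _ a1).symm.trans (hn χ hχ j y hu s)) q) hψ
  have h2 : Continuous fun a : G₂ => ν q (sh ((a⁻¹, 1), 1) φ) :=
    (cont_sh (hν q) hφ).comp (by fun_prop)
  have h3 : (1 : G₂) ∈ closure {a : G₂ | ν q (sh ((a⁻¹, 1), 1) φ) = ν (q * f) φ} :=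
    mem_closure_iff_nhds.2 fun W hW => by
      obtain ⟨γ, ⟨h4, h4'⟩, h5⟩ := hN _ (hM.conj_mem f hf q) W hW
      obtain ⟨s, hs⟩ : ∃ s : Matrix.SpecialLinearGroup (Fin d) F, s.toGL = (ι γ).2 :=
        ⟨⟨_, h4⟩, Units.ext rfl⟩
      refine ⟨_, h4', ?_⟩
      have h6 := hL q γ φ hφ
      rw [h5, inv_mul_cancel_right] at h6
      rw [Set.mem_ofPred_eq, h6, ← h1 s⁻¹ _ (cc_sh hφ _), ← sh_mul]
      refine congrArg _ (funext fun x => congrArg φ ?_)
      rw [map_inv]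
      simp only [Prod.fst_mul, Prod.snd_mul, mul_one, mul_inv_rev, inv_inv]
      congr 1
      exact Prod.ext (by simp) (by simp [hs])
  have h4 := (isClosed_eq h2 continuous_const).closure_subset h3
  rw [Set.mem_ofPred_eq, inv_one] at h4
  exact h4.symm.trans (congrArg _ (sh_one φ))

end Crest.Agent.T24.Na
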