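import Crest.Agent.T24.NaOneA_37

/-!
# Row 24, module NA: one-point uniformity.
-/

set_option autoImplicit false
set_option linter.unusedSectionVars false

noncomputable section

namespace Crest.Agent.T24.Na

open Topology Filter MeasureTheory Ring

universe u v w

namespace One37

variable {S : Sys.{u, v, w}}

/-- first component -/
abbrev g1 (g : S.G) : S.A := ((g.1 : unitary S.A) : S.A)
/-- second component -/
abbrev g2 (g : S.G) : Mt S.d S.F := (g.2 : Mt S.d S.F)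
/-- rational points -/
abbrev bb (u : S.U₀) : S.B := ((u : unitary S.B) : S.B)

variable (S) in
/-- the domain of the chart -/
def Go : Set S.G := {g | IsUnit (g1 g - 1) ∧ IsUnit (g2 g - 1)}

theorem cont_g1 : Continuous (g1 : S.G → S.A) :=
  continuous_subtype_val.comp (continuous_subtype_val.comp continuous_fst)

theorem cont_g2 : Continuous (g2 : S.G → Mt S.d S.F) := Units.continuous_val.comp continuous_snd

/-- bound for the mass of `E` -/
def Bd (s : ℝ) (E : Set S.G) (c : ℝ) : Prop :=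
  ∀ T : Finset S.U₀, ∑ u ∈ T, S.wU s (bb u) * E.indicator 1 (S.ι u) ≤ c

open Classical in
/-- the coloured sums -/
def Tq (s : ℝ) (q : S.Q) (φ : S.G → ℝ) : ℝ :=
  ∑' u : S.U₀, S.wU s (bb u) * (if S.c u = q then 1 else 0) * φ (S.ι u)

theorem exists_bound {X : Type*} [TopologicalSpace X] {φ : X → ℝ} (hφ : Cc φ) :
    ∃ b : ℝ, 0 ≤ b ∧ ∀ g, |φ g| ≤ b * (tsupport φ).indicator 1 g := by
  obtain ⟨C, hC⟩ := hφ.1.bounded_above_of_compact_support hφ.2
  refine ⟨max C 0, le_max_right _ _, fun g => ?_⟩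
  by_cases hg : g ∈ tsupport φ
  · rw [Set.indicator_of_mem hg, Pi.one_apply, mul_one]
    exact (hC g).trans (le_max_left _ _)
  · simp [hg, image_eq_zero_of_notMem_tsupport hg]

variable (h : S.Ok)
include h

theorem ctB : Ct S.θ where
  comm y := h.inc_inj (by rw [map_mul, map_mul, h.th_comm])
  unit := by
    rw [← two_smul S.k, Algebra.smul_def]
    exact ((IsUnit.mk0 (2 : S.k) two_ne_zero).map _).mul h.th_unit

theorem ctA : Ct (S.inc S.θ) := ⟨h.th_comm, by rw [← map_add]; exact (ctB h).unit.map _⟩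

theorem ctM : Ct (S.ψ S.θ) := ⟨h.th_comm', by rw [← map_add]; exact (ctB h).unit.map _⟩

theorem thA : star (S.inc S.θ) = -S.inc S.θ := by rw [← h.inc_star, h.th_star, map_neg]

/-- the chart -/
def icZ (g : S.G) : S.Z :=
  (⟨ic (S.inc S.θ) (g1 g), star_ic h.th_comm (thA h) _⟩, ic (S.ψ S.θ) (g2 g))

/-- the chart on rational points -/
def icX (u : S.U₀) : S.X := ⟨ic S.θ (bb u), star_ic (ctB h).comm h.th_star _⟩

theorem isOpen_Go : IsOpen (Go S) :=
  (h.unit_open.preimage (cont_g1.sub continuous_const)).inter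
    (isOpen_unit.preimage (cont_g2.sub continuous_const))

theorem cont_inv1 : ContinuousOn (fun g : S.G => inverse (g1 g - 1)) (Go S) :=
  h.inv_cont.comp (cont_g1.sub continuous_const).continuousOn fun _ hg => hg.1

omit h in
theorem cont_inv2 : ContinuousOn (fun g : S.G => inverse (g2 g - 1)) (Go S) :=
  inv_cont.comp (cont_g2.sub continuous_const).continuousOn fun _ hg => hg.2

theorem cont_icZ : ContinuousOn (icZ h) (Go S) := by
  refine ContinuousOn.prodMk ?_ (continuousOn_const.mul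
    ((cont_g2.add continuous_const).continuousOn.mul cont_inv2))
  rw [Topology.IsInducing.subtypeVal.continuousOn_iff]
  exact continuousOn_const.mul ((cont_g1.add continuous_const).continuousOn.mul (cont_inv1 h))

theorem ch_icZ {g : S.G} (hg : g ∈ Go S) : S.Ch (icZ h g) := by
  refine ⟨unit_ic_sub (ctA h) hg.1, ⟨g.1, (cy_ic (ctA h) hg.1).symm⟩, unit_ic_sub (ctM h) hg.2, ?_⟩
  change IsUnit (ic _ _ + _)
  rw [ic_add (ctM h) hg.2]
  exact g.2.isUnit.mul (unit_ic_sub (ctM h) hg.2)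

theorem unit_of_inc {x : S.B} (hx : IsUnit (S.inc x)) : IsUnit x := by
  have h1 : ∀ y, x * y = 0 → y = 0 := fun y hy => h.inc_inj (by
    have := congrArg S.inc hy
    rw [map_mul, map_zero, hx.mul_right_eq_zero] at this
    rw [this, map_zero])
  have h2 : Function.Injective (LinearMap.mulLeft S.k x) := (injective_iff_map_eq_zero _).2 h1
  obtain ⟨y, hy⟩ := LinearMap.injective_iff_surjective.1 h2 1
  rw [LinearMap.mulLeft_apply] at hy
  refine ⟨⟨x, y, hy, sub_eq_zero.1 (h1 _ ?_)⟩, rfl⟩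
  rw [mul_sub, ← mul_assoc, hy, one_mul, mul_one, sub_self]

theorem unit_bb {u : S.U₀} (hu : S.ι u ∈ Go S) : IsUnit (bb u - 1) :=
  unit_of_inc h (by rw [map_sub, map_one, ← h.ι_fst]; exact hu.1)

theorem iJ_icX {u : S.U₀} (hu : S.ι u ∈ Go S) : S.iJ (icX h u) = icZ h (S.ι u) := by
  refine Prod.ext (Subtype.ext ?_) ?_
  · rw [h.iJ_fst]
    exact (map_ic S.inc (unit_bb h hu)).trans (by rw [← h.ι_fst]; rfl)
  · rw [h.iJ_snd]
    exact (map_ic S.ψ (unit_bb h hu)).trans (by rw [← h.ι_snd]; rfl)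

theorem cy_icX {u : S.U₀} (hu : S.ι u ∈ Go S) : cy S.θ (icX h u) = bb u :=
  cy_ic (ctB h) (unit_bb h hu)

theorem icX_inj {u u' : S.U₀} (hu : S.ι u ∈ Go S) (hu' : S.ι u' ∈ Go S) (e : icX h u = icX h u') :
    u = u' :=
  Subtype.ext (Subtype.ext ((cy_icX h hu).symm.trans (by rw [e]; exact cy_icX h hu')))

theorem wU_eq (s : ℝ) {u : S.U₀} (hu : S.ι u ∈ Go S) :
    S.wU s (bb u) = S.w s (icX h u) * S.Δ (icZ h (S.ι u)) ^ (-s) := by
  rw [← cy_icX h hu, h.wU_cy, iJ_icX h hu]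

omit h in
theorem ι_mul (γ : S.Γ) (u : S.U₀) : S.ι (γ * u) = S.ιΓ γ * S.ι u := map_mul _ _ _

omit h in
theorem ι_mul' (γ : S.Γ) (u : S.U₀) : S.ι (u * γ) = S.ι u * S.ιΓ γ := map_mul _ _ _

theorem wU_l (s : ℝ) (γ : S.Γ) (u : S.U₀) : S.wU s (bb (γ * u)) = S.wU s (bb u) := h.wU_left s γ _

theorem wU_r (s : ℝ) (γ : S.Γ) (u : S.U₀) : S.wU s (bb (u * γ)) = S.wU s (bb u) := h.wU_right s γ _

theorem wU_nonneg (s : ℝ) (u : S.U₀) : 0 ≤ S.wU s (bb u) := by
  obtain ⟨γ, hγ⟩ := h.chart (S.ι u)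
  have hg : S.ι (γ * u) ∈ Go S := by rw [ι_mul]; exact hγ
  rw [← wU_l h s γ, wU_eq h s hg]
  exact mul_nonneg (h.w_nonneg _ _) (Real.rpow_nonneg (h.Δ_pos _ (ch_icZ h hg)).le _)

theorem term_nonneg (s : ℝ) (E : Set S.G) (u : S.U₀) :
    0 ≤ S.wU s (bb u) * E.indicator 1 (S.ι u) :=
  mul_nonneg (wU_nonneg h s u) (Set.indicator_nonneg (fun _ _ => zero_le_one) _)

theorem Bd.mono {s c c' : ℝ} {E E' : Set S.G} (hE : Bd s E c) (h1 : E' ⊆ E) (h2 : c ≤ c') :
    Bd s E' c' := fun T => by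
  refine le_trans (Finset.sum_le_sum fun u _ => ?_) ((hE T).trans h2)
  refine mul_le_mul_of_nonneg_left ?_ (wU_nonneg h s u)
  exact Set.indicator_le_indicator_of_subset h1 (fun _ => zero_le_one) _

theorem Bd.union {s c c' : ℝ} {E E' : Set S.G} (hE : Bd s E c) (hE' : Bd s E' c') :
    Bd s (E ∪ E') (c + c') := fun T => by
  refine le_trans (Finset.sum_le_sum fun u _ => ?_)
    ((Finset.sum_add_distrib).trans_le (add_le_add (hE T) (hE' T)))
  rw [← mul_add]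
  refine mul_le_mul_of_nonneg_left ?_ (wU_nonneg h s u)
  by_cases h1 : S.ι u ∈ E <;> by_cases h2 : S.ι u ∈ E' <;> simp [h1, h2]

theorem cont_chart (γ : S.Γ) {K : Set S.G} (hγ : ∀ g ∈ K, S.ιΓ γ * g ∈ Go S) :
    ContinuousOn (fun g => icZ h (S.ιΓ γ * g)) K :=
  (cont_icZ h).comp (continuous_const_mul _).continuousOn hγ

theorem loc (γ : S.Γ) {K : Set S.G} (hK : IsCompact K) (hγ : ∀ g ∈ K, S.ιΓ γ * g ∈ Go S) :
    ∃ C : ℝ, 0 < C ∧ ∀ E ⊆ K, ∀ χ : S.Z → ℝ, Cc χ → (∀ z, 0 ≤ χ z) →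
      (∀ g ∈ E, 1 ≤ χ (icZ h (S.ιΓ γ * g))) → ∀ η, ∫ z, χ z ∂S.lam < η →
      ∀ᶠ s in 𝓝[>] (1 : ℝ), Bd s E (C * η) := by
  classical
  obtain ⟨δ, hδ, hδ'⟩ := hK.exists_forall_le' (a := 0)
    (h.Δ_cont.comp_continuousOn (cont_chart h γ hγ)) fun g hg => h.Δ_pos _ (ch_icZ h (hγ g hg))
  have hδ1 : 0 < min δ 1 := lt_min hδ one_pos
  refine ⟨min δ 1 ^ (-2 : ℝ), Real.rpow_pos_of_pos hδ1 _, fun E hE χ hχ h0 h1 η hη => ?_⟩
  filter_upwards [(h.w_eq χ hχ).eventually (gt_mem_nhds hη),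
    Ioo_mem_nhdsGT (show (1 : ℝ) < 2 by norm_num)] with s hs hs' T
  refine le_trans ?_ (mul_le_mul_of_nonneg_left hs.le (Real.rpow_nonneg hδ1.le _))
  have hgo : ∀ u ∈ T.filter fun u => S.ι u ∈ E, S.ι (γ * u) ∈ Go S := fun u hu => by
    rw [ι_mul]; exact hγ _ (hE (Finset.mem_filter.1 hu).2)
  calc ∑ u ∈ T, S.wU s (bb u) * E.indicator 1 (S.ι u)
      = ∑ u ∈ T.filter fun u => S.ι u ∈ E, S.wU s (bb u) := by
        rw [Finset.sum_filter]
        exact Finset.sum_congr rfl fun u _ => by by_cases hu : S.ι u ∈ E <;> simp [hu]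
    _ ≤ ∑ u ∈ T.filter fun u => S.ι u ∈ E, min δ 1 ^ (-2 : ℝ) *
          (S.w s (icX h (γ * u)) * χ (S.iJ (icX h (γ * u)))) := by
        refine Finset.sum_le_sum fun u hu => ?_
        have hu' := (Finset.mem_filter.1 hu).2
        rw [← wU_l h s γ, wU_eq h s (hgo u hu), iJ_icX h (hgo u hu), ι_mul, mul_comm]
        refine mul_le_mul ?_ (le_mul_of_one_le_right (h.w_nonneg _ _) (h1 _ hu'))
          (h.w_nonneg _ _) (Real.rpow_nonneg hδ1.le _)
        exact (Real.rpow_le_rpow_of_nonpos hδ1 ((min_le_left _ _).trans (hδ' _ (hE hu')))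
          (by linarith [hs'.1])).trans
          (Real.rpow_le_rpow_of_exponent_ge hδ1 (min_le_right _ _) (by linarith [hs'.2]))
    _ ≤ _ := by
        rw [← Finset.mul_sum]
        refine mul_le_mul_of_nonneg_left ?_ (Real.rpow_nonneg hδ1.le _)
        rw [← Finset.sum_image (g := fun u : S.U₀ => icX h (γ * u))
          (f := fun a : S.X => S.w s a * χ (S.iJ a))
          fun u hu u' hu' e => mul_left_cancel (icX_inj h (hgo u hu) (hgo u' hu') e)]
        exact (h.w_sum χ hχ s hs'.1).sum_le_tsum _ fun a _ => mul_nonneg (h.w_nonneg _ _) (h0 _)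

variable (S) in
/-- the two bounds -/
def PB (K : Set S.G) : Prop := ∃ C : ℝ, (∀ᶠ s in 𝓝[>] (1 : ℝ), Bd s K C) ∧
  ∀ (j : ℕ) (y₀ : Mt S.d S.F), ∀ᶠ s in 𝓝[>] (1 : ℝ),
    Bd s {g | g ∈ K ∧ g2 g - y₀ ∈ cell S.d S.O S.π j} (C / ncell S.d S.O S.π j)

theorem pb_loc (γ : S.Γ) {K : Set S.G} (hK : IsCompact K) (hγ : ∀ g ∈ K, S.ιΓ γ * g ∈ Go S) :
    PB S K := by
  obtain ⟨C, hC, hloc⟩ := loc h γ hK hγ
  have := h.haar
  have : LocallyCompactSpace (Mt S.d S.F) :=
    inferInstanceAs (LocallyCompactSpace (Fin S.d → Fin S.d → S.F))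
  have hK' := hK.image_of_continuousOn (cont_chart h γ hγ)
  obtain ⟨χ, χ1, -, χc, χ0⟩ := exists_continuous_one_zero_of_isCompact hK' isClosed_empty
    (Set.disjoint_empty _)
  obtain ⟨ξ, ξ1, -, ξc, ξ0⟩ := exists_continuous_one_zero_of_isCompact
    (hK'.image continuous_fst) isClosed_empty (Set.disjoint_empty _)
  have hξ : Cc ξ := ⟨ξ.continuous, ξc⟩
  have hI : 0 ≤ ∫ z, χ z ∂S.lam := integral_nonneg fun z => (χ0 z).1
  have hJ : 0 ≤ ∫ z, bump S.O S.π ξ 0 0 z ∂S.lam :=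
    integral_nonneg fun z => bump_nonneg (fun y => (ξ0 y).1) _ _ _
  have b1 := hloc K le_rfl χ ⟨χ.continuous, χc⟩ (fun z => (χ0 z).1)
    (fun g hg => (χ1 ⟨g, hg, rfl⟩).ge) _ (lt_add_one _)
  have ci : ContinuousOn (fun g => inverse (g2 (S.ιΓ γ * g) - 1)) K :=
    cont_inv2.comp (continuous_const_mul _).continuousOn hγ
  obtain ⟨c, hc⟩ := bdd h.lf ((hK.image_of_continuousOn ci).union (hK.image_of_continuousOn
    ((continuousOn_const (c := S.ψ S.θ + S.ψ S.θ)).mul ci |>.mul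
      (continuousOn_const (c := -g2 (S.ιΓ γ))))))
  set I := ∫ z, χ z ∂S.lam
  set J := ∫ z, bump S.O S.π ξ 0 0 z ∂S.lam
  have hn := fun j => ncell_pos (d := S.d) h.lf j
  have hn1 : (1 : ℝ) ≤ ncell S.d S.O S.π (c + c) := by
    exact_mod_cast Nat.pos_of_ne_zero (ncell_ne_zero h.lf _)
  have hle : ∀ j, (ncell S.d S.O S.π j : ℝ) ≤
      ncell S.d S.O S.π (c + c) * ncell S.d S.O S.π (j - (c + c)) := fun j => by
    exact_mod_cast ncell_le h.lf j (c + c)
  have hpos : 0 ≤ C * (I + J + 1) := by positivity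
  refine ⟨C * (I + J + 1) * ncell S.d S.O S.π (c + c), ?_, fun j y₀ => ?_⟩
  · filter_upwards [b1] with s hs
    refine hs.mono h le_rfl (le_trans ?_ (le_mul_of_one_le_right hpos hn1))
    exact mul_le_mul_of_nonneg_left (by linarith) hC.le
  rcases lt_or_ge j (c + c) with hj | hj
  · filter_upwards [b1] with s hs
    refine hs.mono h (fun g hg => hg.1) ?_
    have h1 := hle j
    rw [Nat.sub_eq_zero_of_le hj.le, show ncell S.d S.O S.π 0 = 1 from AddSubgroup.relIndex_self _,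
      Nat.cast_one, mul_one] at h1
    rw [le_div_iff₀ (hn j)]
    exact mul_le_mul (mul_le_mul_of_nonneg_left (by linarith) hC.le) h1 (hn j).le hpos
  rcases Set.eq_empty_or_nonempty {g | g ∈ K ∧ g2 g - y₀ ∈ cell S.d S.O S.π j} with he | ⟨g₀, hg₀⟩
  · refine Eventually.of_forall fun s T => ?_
    rw [he]
    simpa using div_nonneg (mul_nonneg hpos (hn _).le) (hn j).le
  have b2 := hloc {g | g ∈ K ∧ g2 g - y₀ ∈ cell S.d S.O S.π j} (fun g hg => hg.1) _
    (cc_bump h.lf hξ (j - (c + c)) (icZ h (S.ιΓ γ * g₀)).2)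
    (bump_nonneg (fun y => (ξ0 y).1) _ _) (fun g hg => by
      have e1 : ξ (icZ h (S.ιΓ γ * g)).1 = 1 := ξ1 ⟨_, ⟨g, hg.1, rfl⟩, rfl⟩
      have e2 : (icZ h (S.ιΓ γ * g)).2 - (icZ h (S.ιΓ γ * g₀)).2 ∈
          cell S.d S.O S.π (j - (c + c)) := by
        have h1 := sandwich h.lf (hc _ (Or.inr ⟨g, hg.1, rfl⟩)) (hc _ (Or.inl ⟨g₀, hg₀.1, rfl⟩))
          (sub_mem hg.2 hg₀.2) hj
        convert h1 using 1
        refine (ic_diff (hγ g hg.1).2 (hγ g₀ hg₀.1).2).trans ?_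
        simp only [g2, Prod.snd_mul, Units.val_mul, Pi.mul_apply]
        noncomm_ring
      rw [bump, e1, Set.indicator_of_mem e2]
      simp) ((J + 1) / ncell S.d S.O S.π (j - (c + c))) (by
      rw [int_bump S.lam h.lf hξ]
      exact div_lt_div_of_pos_right (lt_add_one _) (hn _))
  filter_upwards [b2] with s hs
  refine hs.mono h le_rfl ?_
  rw [← mul_div_assoc, div_le_div_iff₀ (hn _) (hn _), mul_assoc (C * (I + J + 1))]
  exact mul_le_mul (mul_le_mul_of_nonneg_left (by linarith) hC.le) (hle j) (hn j).le hpos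

theorem pb {K : Set S.G} (hK : IsCompact K) : PB S K := by
  refine hK.induction_on ⟨0, Eventually.of_forall fun s T => by simp,
    fun j y₀ => Eventually.of_forall fun s T => by simp⟩ ?_ ?_ ?_
  · rintro s t hst ⟨C, h1, h2⟩
    exact ⟨C, h1.mono fun _ hs => hs.mono h hst le_rfl, fun j y₀ => (h2 j y₀).mono fun _ hs =>
      hs.mono h (fun g hg => ⟨hst hg.1, hg.2⟩) le_rfl⟩
  · rintro s t ⟨C, h1, h2⟩ ⟨C', h1', h2'⟩
    refine ⟨C + C', (h1.and h1').mono fun _ hs => hs.1.union h hs.2, fun j y₀ =>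
      ((h2 j y₀).and (h2' j y₀)).mono fun _ hs => (hs.1.union h hs.2).mono h ?_ (add_div _ _ _).ge⟩
    rintro g ⟨hg | hg, hg'⟩
    exacts [Or.inl ⟨hg, hg'⟩, Or.inr ⟨hg, hg'⟩]
  · intro x _
    obtain ⟨γ, hγ⟩ := h.chart x
    obtain ⟨N, hN, hNc, hNs⟩ := exists_mem_nhds_isClosed_subset
      (((isOpen_Go h).preimage (continuous_const_mul (S.ιΓ γ))).mem_nhds (x := x) hγ)
    exact ⟨K ∩ N, inter_mem_nhdsWithin _ hN, pb_loc h γ (hK.inter_right hNc) fun g hg => hNs hg.2⟩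

open Classical in
theorem tq_bound {s c b : ℝ} {E : Set S.G} (hE : Bd s E c) (hb : 0 ≤ b) {φ : S.G → ℝ}
    (hφ : ∀ g, |φ g| ≤ b * E.indicator 1 g) (q : S.Q) :
    Summable (fun u : S.U₀ => S.wU s (bb u) * (if S.c u = q then 1 else 0) * φ (S.ι u)) ∧
      |Tq s q φ| ≤ b * c := by
  have h1 := summable_of_sum_le (fun u => term_nonneg h s E u) hE
  have h2 := Real.tsum_le_of_sum_le (fun u => term_nonneg h s E u) hE
  have h3 : ∀ u : S.U₀, ‖S.wU s (bb u) * (if S.c u = q then 1 else 0) * φ (S.ι u)‖ ≤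
      b * (S.wU s (bb u) * E.indicator 1 (S.ι u)) := by
    intro u
    split_ifs
    · rw [mul_one, Real.norm_eq_abs, abs_mul, abs_of_nonneg (wU_nonneg h s u), mul_left_comm]
      exact mul_le_mul_of_nonneg_left (hφ _) (wU_nonneg h s u)
    · simpa using mul_nonneg hb (term_nonneg h s E u)
  exact ⟨(h1.mul_left b).of_norm_bounded h3,
    (tsum_of_norm_bounded (h1.hasSum.mul_left b) h3).trans (mul_le_mul_of_nonneg_left h2 hb)⟩

open Classical in
theorem tq_ev {φ : S.G → ℝ} (hφ : Cc φ) (q : S.Q) : ∃ C : ℝ, ∀ᶠ s in 𝓝[>] (1 : ℝ),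
    Summable (fun u : S.U₀ => S.wU s (bb u) * (if S.c u = q then 1 else 0) * φ (S.ι u)) ∧
      |Tq s q φ| ≤ C := by
  obtain ⟨b, hb, hb'⟩ := exists_bound hφ
  obtain ⟨C, hC, -⟩ := pb h hφ.2.isCompact
  exact ⟨b * C, hC.mono fun s hs => tq_bound h hs hb hb' q⟩

omit h in
/-- the limit functionals -/
def nu (U : Ultrafilter ℝ) (q : S.Q) (φ : S.G → ℝ) : ℝ := limUnder U fun s => Tq s q φ

theorem tendsto_nu {U : Ultrafilter ℝ} (hU : (U : Filter ℝ) ≤ 𝓝[>] 1) {φ : S.G → ℝ} (hφ : Cc φ)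
    (q : S.Q) : Tendsto (fun s => Tq s q φ) U (𝓝 (nu U q φ)) := by
  obtain ⟨C, hC⟩ := tq_ev h hφ q
  obtain ⟨x, -, hx⟩ := (isCompact_Icc (a := -C) (b := C)).ultrafilter_le_nhds
    (U.map fun s => Tq s q φ) (le_principal_iff.2 (hU (hC.mono fun s hs => abs_le.1 hs.2)))
  exact tendsto_nhds_limUnder ⟨x, hx⟩

theorem posF_nu {U : Ultrafilter ℝ} (hU : (U : Filter ℝ) ≤ 𝓝[>] 1) (q : S.Q) : PosF (nu U q) where
  add φ χ hφ hχ := by
    refine tendsto_nhds_unique (tendsto_nu h hU ⟨hφ.1.add hχ.1, hφ.2.add hχ.2⟩ q)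
      (((tendsto_nu h hU hφ q).add (tendsto_nu h hU hχ q)).congr' ?_)
    obtain ⟨_, h1⟩ := tq_ev h hφ q
    obtain ⟨_, h2⟩ := tq_ev h hχ q
    filter_upwards [hU h1, hU h2] with s h1 h2
    rw [Tq, Tq, Tq, ← h1.1.tsum_add h2.1]
    simp only [Pi.add_apply, mul_add]
  smul c φ hφ := by
    refine tendsto_nhds_unique (tendsto_nu h hU ⟨hφ.1.const_smul c, hφ.2.smul_left⟩ q)
      (((tendsto_nu h hU hφ q).const_mul c).congr fun s => ?_)
    rw [Tq, Tq, ← tsum_mul_left]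
    simp only [Pi.smul_apply, smul_eq_mul, mul_left_comm c]
  pos φ hφ h0 := ge_of_tendsto' (tendsto_nu h hU hφ q) fun s => tsum_nonneg fun u =>
    mul_nonneg (mul_nonneg (wU_nonneg h s u) (by split_ifs <;> norm_num)) (h0 _)

open Classical in
theorem tq_left (s : ℝ) (q : S.Q) (γ : S.Γ) (φ : S.G → ℝ) :
    Tq s (S.c γ * q) φ = Tq s q fun g => φ (S.ιΓ γ * g) := by
  rw [Tq, Tq, ← (Equiv.mulLeft (γ : S.U₀)).tsum_eq]
  refine tsum_congr fun u => ?_
  have e : (S.c ((Equiv.mulLeft (γ : S.U₀)) u) = S.c γ * q) ↔ S.c u = q := by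
    rw [Equiv.coe_mulLeft, S.c.map_mul, mul_right_inj]
  rw [if_congr e rfl rfl, Equiv.coe_mulLeft, wU_l h, ι_mul]

open Classical in
theorem tq_right (s : ℝ) (q : S.Q) (γ : S.Γ) (φ : S.G → ℝ) :
    Tq s (q * S.c γ) φ = Tq s q fun g => φ (g * S.ιΓ γ) := by
  rw [Tq, Tq, ← (Equiv.mulRight (γ : S.U₀)).tsum_eq]
  refine tsum_congr fun u => ?_
  have e : (S.c ((Equiv.mulRight (γ : S.U₀)) u) = q * S.c γ) ↔ S.c u = q := by
    rw [Equiv.coe_mulRight, S.c.map_mul, mul_left_inj]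
  rw [if_congr e rfl rfl, Equiv.coe_mulRight, wU_r h, ι_mul']

theorem moore (hM : MooreStmt.{u, v, w}) {U : Ultrafilter ℝ} (hU : (U : Filter ℝ) ≤ 𝓝[>] 1)
    (q : S.Q) {f : S.Q} (hf : f ∈ S.M) {φ : S.G → ℝ} (hφ : Cc φ) : nu U (q * f) φ = nu U q φ := by
  have : SecondCountableTopology (unitary S.A) :=
    Topology.IsInducing.subtypeVal.secondCountableTopology
  have : SecondCountableTopology S.G₂ := Topology.IsInducing.subtypeVal.secondCountableTopology
  refine hM S.F S.O S.π S.d S.G₂ S.Γ S.ιΓ S.Q (S.c.comp S.Γ.subtype) S.M (nu U) h.lf h.hd h.latt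
    h.nrm (fun f hf W hW => ?_) (posF_nu h hU) (fun K hK => ?_) (fun q γ φ _ => ?_)
    (fun q γ φ _ => ?_) q f hf φ hφ
  · obtain ⟨γ, h1, h2, -⟩ := h.dens f hf 0 1 one_ne_zero W hW
    exact ⟨γ, h1, h2⟩
  · obtain ⟨C, -, hC⟩ := pb h hK
    refine ⟨C, fun q j y₀ φ hφ h0 h1 hs => le_of_tendsto (tendsto_nu h hU hφ q) ?_⟩
    filter_upwards [hU (hC j y₀)] with s hs'
    refine (le_abs_self _).trans ((tq_bound h hs' zero_le_one (fun g => ?_) q).2.trans_eq (one_mul _))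
    by_cases hg : g ∈ tsupport φ
    · rw [Set.indicator_of_mem (show g ∈ {g | g ∈ K ∧ g2 g - y₀ ∈ cell S.d S.O S.π j} from hs g hg),
        abs_of_nonneg (h0 g)]
      simpa using h1 g
    · rw [image_eq_zero_of_notMem_tsupport hg, abs_zero, one_mul]
      exact Set.indicator_nonneg (fun _ _ => zero_le_one) _
  · exact congrArg (limUnder (U : Filter ℝ)) (funext fun s => tq_left h s q γ φ)
  · exact congrArg (limUnder (U : Filter ℝ)) (funext fun s => tq_right h s q γ φ)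

/-- the Cayley transform on the chart -/
def cay (z : {z : S.Z // S.Ch z}) : S.G :=
  (z.2.2.1.choose, ⟨cy (S.ψ S.θ) z.1.2, (z.1.2 - S.ψ S.θ) * inverse (z.1.2 + S.ψ S.θ),
    (cy_mul_inv z.2.2.2.1 z.2.2.2.2).1, (cy_mul_inv z.2.2.2.1 z.2.2.2.2).2⟩)

omit h in
theorem g1_cay (z : {z : S.Z // S.Ch z}) : g1 (cay z) = cy (S.inc S.θ) z.1.1 := z.2.2.1.choose_spec

theorem cont_cay : Continuous (cay : {z : S.Z // S.Ch z} → S.G) := by
  have c1 : Continuous fun z : {z : S.Z // S.Ch z} => (z.1.1 : S.A) := by fun_prop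
  have c2 : Continuous fun z : {z : S.Z // S.Ch z} => z.1.2 := by fun_prop
  refine Continuous.prodMk ?_ (Units.continuous_iff.2 ⟨?_, ?_⟩)
  · rw [Topology.IsInducing.subtypeVal.continuous_iff, Topology.IsInducing.subtypeVal.continuous_iff]
    refine Continuous.congr ?_ fun z => (g1_cay z).symm
    exact (c1.add continuous_const).mul
      (h.inv_cont.comp_continuous (c1.sub continuous_const) fun z => z.2.1)
  · exact (c2.add continuous_const).mul
      (inv_cont.comp_continuous (c2.sub continuous_const) fun z => z.2.2.2.1)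
  · exact (c2.sub continuous_const).mul
      (inv_cont.comp_continuous (c2.add continuous_const) fun z => z.2.2.2.2)

theorem cay_mem (z : {z : S.Z // S.Ch z}) : cay z ∈ Go S :=
  ⟨by rw [g1_cay]; exact unit_cy_sub (ctA h) z.2.1, unit_cy_sub (ctM h) z.2.2.2.1⟩

theorem cay_icZ {g : S.G} (hg : g ∈ Go S) : cay ⟨icZ h g, ch_icZ h hg⟩ = g :=
  Prod.ext (Subtype.ext (Subtype.ext ((g1_cay _).trans (cy_ic (ctA h) hg.1))))
    (Units.ext (cy_ic (ctM h) hg.2))

theorem cc_ext {φ : S.Z → ℝ} (hφ : Cc φ) (hs : ∀ z ∈ tsupport φ, S.Ch z) :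
    Cc ((Go S).indicator fun g => φ (icZ h g)) := by
  have hK : IsCompact (cay '' (Subtype.val ⁻¹' tsupport φ : Set {z : S.Z // S.Ch z})) :=
    (Topology.IsInducing.subtypeVal.isCompact_preimage' hφ.2.isCompact
      fun z hz => ⟨⟨z, hs z hz⟩, rfl⟩).image (cont_cay h)
  have h0 : ∀ g ∉ cay '' (Subtype.val ⁻¹' tsupport φ : Set {z : S.Z // S.Ch z}),
      (Go S).indicator (fun g => φ (icZ h g)) g = 0 := by
    intro g hg
    by_contra h1
    have h2 := Set.mem_of_indicator_ne_zero h1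
    rw [Set.indicator_of_mem h2] at h1
    exact hg ⟨⟨icZ h g, ch_icZ h h2⟩, subset_tsupport _ h1, cay_icZ h h2⟩
  refine ⟨continuous_iff_continuousAt.2 fun g => ?_, HasCompactSupport.intro hK h0⟩
  by_cases hg : g ∈ Go S
  · have hn := (isOpen_Go h).mem_nhds hg
    refine ((hφ.1.comp_continuousOn (cont_icZ h)).continuousAt hn).congr ?_
    filter_upwards [hn] with x hx
    rw [Set.indicator_of_mem hx]; rfl
  · have hn := hK.isClosed.isOpen_compl.mem_nhds
      (show g ∉ _ from fun ⟨z, _, e⟩ => hg (e ▸ cay_mem h z))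
    refine (continuousAt_const (y := (0 : ℝ))).congr ?_
    filter_upwards [hn] with x hx
    exact (h0 x hx).symm

open Classical in
theorem tq_ext {φ : S.Z → ℝ} (hs : ∀ z ∈ tsupport φ, S.Ch z) (s : ℝ) (q : S.Q) :
    Tq s q ((Go S).indicator fun g => φ (icZ h g)) = ∑' a : S.X, S.w s a * S.Δ (S.iJ a) ^ (-s) *
      (if col S.c (cy S.θ a) = q then 1 else 0) * φ (S.iJ a) := by
  have h0 : (Function.support fun u : S.U₀ => S.wU s (bb u) * (if S.c u = q then 1 else 0) *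
      (Go S).indicator (fun g => φ (icZ h g)) (S.ι u)) ⊆ {u | S.ι u ∈ Go S} := fun u hu =>
    Set.mem_of_indicator_ne_zero (s := Go S) (right_ne_zero_of_mul hu)
  rw [Tq, ← tsum_subtype_eq_of_support_subset h0,
    ← Function.Injective.tsum_eq (g := fun u : {u | S.ι u ∈ Go S} => icX h u.1)
    (fun u u' e => Subtype.ext (icX_inj h u.2 u'.2 e))]
  · refine tsum_congr fun u => ?_
    rw [Set.indicator_of_mem (s := Go S) u.2, wU_eq h s u.2, iJ_icX h u.2, cy_icX h u.2, col_coe]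
  · intro a ha
    obtain ⟨-, ⟨g, hg⟩, -⟩ := hs _ (subset_tsupport _ (right_ne_zero_of_mul ha))
    have hu := h.aniso a
    have hc := unit_cy_sub (ctB h) hu
    refine ⟨⟨⟨⟨cy S.θ a, cy_mem (ctB h).comm h.th_star a.2 hu⟩, h.mem_U _ ⟨g, ?_⟩⟩, ?_, ?_⟩,
      Subtype.ext (ic_cy (ctB h) hu)⟩
    · rw [hg, h.iJ_fst]
      exact (map_cy S.inc hu).symm
    · simpa only [g1, h.ι_fst, map_sub, map_one] using hc.map S.inc
    · simpa only [g2, h.ι_snd, map_sub, map_one] using hc.map S.ψ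

open Classical in
theorem compare {φ : S.Z → ℝ} (hφ : Cc φ) (hs : ∀ z ∈ tsupport φ, S.Ch z) (q : S.Q) :
    Tendsto (fun s => Tq s q ((Go S).indicator fun g => (φ * S.Δ) (icZ h g)) -
      ∑' a : S.X, S.w s a * φ (S.iJ a) * (if col S.c (cy S.θ a) = q then 1 else 0))
      (𝓝[>] 1) (𝓝 0) ∧ ∀ s, 1 < s →
      Summable fun a : S.X => S.w s a * φ (S.iJ a) * (if col S.c (cy S.θ a) = q then 1 else 0) := by
  have ha : Cc fun z => |φ z| := ⟨hφ.1.abs, hφ.2.abs⟩
  have hsum : ∀ s, 1 < s →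
      Summable fun a : S.X => S.w s a * φ (S.iJ a) * (if col S.c (cy S.θ a) = q then 1 else 0) := by
    intro s hs1
    refine (h.w_sum _ ha s hs1).of_norm_bounded fun a => ?_
    split_ifs
    · rw [mul_one, Real.norm_eq_abs, abs_mul, abs_of_nonneg (h.w_nonneg _ _)]
    · simpa using mul_nonneg (h.w_nonneg _ _) (abs_nonneg _)
  refine ⟨Metric.tendsto_nhds.2 fun ε hε => ?_, hsum⟩
  have hI : 0 < ∫ z, |φ z| ∂S.lam + 1 :=
    add_pos_of_nonneg_of_pos (integral_nonneg fun z => abs_nonneg _) one_pos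
  have hη := div_pos hε hI
  have h1 : ∀ᶠ s in 𝓝 (1 : ℝ), ∀ z ∈ tsupport φ,
      |S.Δ z ^ (-s) * S.Δ z - 1| < ε / (∫ z, |φ z| ∂S.lam + 1) := by
    refine hφ.2.isCompact.eventually_forall_of_forall_eventually fun z hz => ?_
    have hp := h.Δ_pos z (hs z hz)
    have c1 : ContinuousAt (fun p : ℝ × S.Z => S.Δ p.2) (1, z) :=
      (h.Δ_cont.comp continuous_snd).continuousAt
    have c2 : ContinuousAt (fun p : ℝ × S.Z => |S.Δ p.2 ^ (-p.1) * S.Δ p.2 - 1|) (1, z) :=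
      (((c1.rpow continuous_fst.neg.continuousAt (Or.inl hp.ne')).mul c1).sub
        continuousAt_const).abs
    refine c2.eventually (gt_mem_nhds ?_)
    simpa [Real.rpow_neg_one, inv_mul_cancel₀ hp.ne'] using hη
  filter_upwards [nhdsWithin_le_nhds h1, self_mem_nhdsWithin,
    (h.w_eq _ ha).eventually (gt_mem_nhds (lt_add_one _))] with s h1 hs1 h2
  have h3 : ∀ a : S.X, ‖S.w s a * φ (S.iJ a) * (if col S.c (cy S.θ a) = q then 1 else 0) *
      (S.Δ (S.iJ a) ^ (-s) * S.Δ (S.iJ a) - 1)‖ ≤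
      ε / (∫ z, |φ z| ∂S.lam + 1) * (S.w s a * |φ (S.iJ a)|) := by
    intro a
    by_cases hz : S.iJ a ∈ tsupport φ
    · rw [Real.norm_eq_abs, abs_mul, mul_comm]
      refine mul_le_mul (h1 _ hz).le ?_ (abs_nonneg _) hη.le
      split_ifs
      · rw [mul_one, abs_mul, abs_of_nonneg (h.w_nonneg _ _)]
      · simpa using mul_nonneg (h.w_nonneg _ _) (abs_nonneg _)
    · simp [image_eq_zero_of_notMem_tsupport hz]
  have h4 := (h.w_sum _ ha s hs1).hasSum.mul_left (ε / (∫ z, |φ z| ∂S.lam + 1))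
  have h5 := (hsum s hs1).tsum_add (h4.summable.of_norm_bounded h3)
  rw [tq_ext h (φ := φ * S.Δ) fun z hz => hs z (tsupport_mul_subset_left hz), dist_zero_right,
    sub_eq_iff_eq_add'.2 ((tsum_congr fun a => by simp only [Pi.mul_apply]; ring).trans h5)]
  refine (tsum_of_norm_bounded h4 h3).trans_lt ?_
  exact (mul_lt_mul_of_pos_left h2 hη).trans_eq (div_mul_cancel₀ _ hI.ne')

end One37

open One37 in
/-- (1): one-point uniformity on the cosets of `M` -/
theorem oneStmt (hM : MooreStmt.{u, v, w}) : OneStmt.{u, v, w} := by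
  intro S h φ hφ hs q f hf
  rw [tendsto_iff_ultrafilter]
  intro U hU
  have hc : Cc ((Go S).indicator fun g => (φ * S.Δ) (icZ h g)) :=
    cc_ext h ⟨hφ.1.mul h.Δ_cont, hφ.2.mul_right⟩ fun z hz => hs z (tsupport_mul_subset_left hz)
  obtain ⟨c1, s1⟩ := compare h hφ hs (q * f)
  obtain ⟨c2, s2⟩ := compare h hφ hs q
  have t := (((tendsto_nu h hU hc (q * f)).sub (tendsto_nu h hU hc q)).sub
    (c1.mono_left hU)).add (c2.mono_left hU)
  rw [moore h hM hU q hf hc, sub_self, sub_self, add_zero] at t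
  refine t.congr' ?_
  filter_upwards [hU self_mem_nhdsWithin] with s hs1
  simp only [mul_sub]
  rw [(s1 s hs1).tsum_sub (s2 s hs1)]
  ring

end Crest.Agent.T24.Na
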