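import Crest.Agent.T24.HgtC_88
import Crest.Agent.T24.CocS_98

/-!
# Row 24, heights: the places over `M`, the local module `Δ`
-/

set_option autoImplicit false
set_option linter.unusedSectionVars false
set_option linter.style.haveILetI false

noncomputable section

namespace Crest.Agent.T24.HgtI

open Module Csa Asa Set Filter Topology NumberField IsDedekindDomain BC WithZero
open scoped NumberField

section places
variable {k : Type*} [Field k] [NumberField k]

theorem not_coprime {v : Pl k} {a b : ℕ} (ha : (a : 𝓞 k) ∈ v.asIdeal) (hb : (b : 𝓞 k) ∈ v.asIdeal) :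
    ¬ a.Coprime b := fun h => by
  obtain ⟨x, y, e⟩ := (Nat.isCoprime_iff_coprime.2 h).map (Int.castRingHom (𝓞 k))
  simp only [eq_intCast, Int.cast_natCast] at e
  exact (Ideal.ne_top_iff_one _).1 v.isPrime.ne_top
    (e ▸ add_mem (Ideal.mul_mem_left _ _ ha) (Ideal.mul_mem_left _ _ hb))

theorem mem_of_dvd {v : Pl k} {a b : ℕ} (h : a ∣ b) (ha : (a : 𝓞 k) ∈ v.asIdeal) :
    (b : 𝓞 k) ∈ v.asIdeal := by
  obtain ⟨c, rfl⟩ := h
  rw [Nat.cast_mul]; exact Ideal.mul_mem_right _ _ ha

theorem finite_over {M : ℕ} (hM : M ≠ 0) : {v : Pl k | (M : 𝓞 k) ∈ v.asIdeal}.Finite := by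
  have := Ideal.finite_factors (R := 𝓞 k) (I := Ideal.span {(M : 𝓞 k)}) (by simpa using hM)
  simpa only [Ideal.dvd_span_singleton] using this

/-- an ideal prime to `M` contains an integer prime to `M` -/
theorem exists_nat (I : Ideal (𝓞 k)) (hI : I ≠ ⊥) {M : ℕ}
    (h : ∀ v : Pl k, (M : 𝓞 k) ∈ v.asIdeal → ¬ I ≤ v.asIdeal) :
    ∃ m : ℕ, m.Coprime M ∧ m ≠ 0 ∧ (m : 𝓞 k) ∈ I := by
  obtain ⟨g, hg⟩ := (IsPrincipalIdealRing.principal (I.comap (algebraMap ℤ (𝓞 k)))).principal
  have h1 : g ∈ I.comap (algebraMap ℤ (𝓞 k)) := by rw [hg]; exact Submodule.mem_span_singleton_self g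
  have h2 : g ≠ 0 := by
    rintro rfl
    have : ((Ideal.absNorm I : ℕ) : ℤ) ∈ I.comap (algebraMap ℤ (𝓞 k)) := by
      simpa using Ideal.absNorm_mem I
    rw [hg] at this
    exact hI (Ideal.absNorm_eq_zero_iff.1 (by simpa using this))
  refine ⟨g.natAbs, ?_, Int.natAbs_ne_zero.2 h2, ?_⟩
  · by_contra hc
    obtain ⟨q, hq, q1, q2⟩ := Nat.Prime.not_coprime_iff_dvd.1 hc
    haveI : (Ideal.span {(q : ℤ)}).IsPrime :=
      (Ideal.span_singleton_prime (by exact_mod_cast hq.ne_zero)).2 (Nat.prime_iff_prime_int.1 hq)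
    obtain ⟨Q, hQ, hQ', hQ''⟩ := Ideal.exists_ideal_over_prime_of_isIntegral (Ideal.span {(q : ℤ)}) I (by
      rw [hg]; exact Ideal.span_singleton_le_span_singleton.2 (Int.natCast_dvd.2 q1))
    have hq' : (q : 𝓞 k) ∈ Q := by
      have : (q : ℤ) ∈ Q.comap (algebraMap ℤ (𝓞 k)) := by rw [hQ'']; exact Ideal.mem_span_singleton_self _
      simpa using this
    exact h ⟨Q, hQ', fun h0 => hI (le_bot_iff.1 (h0 ▸ hQ))⟩ (mem_of_dvd q2 hq') hQ
  · have : ((g.natAbs : ℕ) : ℤ) ∈ I.comap (algebraMap ℤ (𝓞 k)) := by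
      rw [Int.natCast_natAbs]
      rcases abs_choice g with e | e <;> rw [e]
      exacts [h1, neg_mem h1]
    rwa [Ideal.mem_comap, map_natCast] at this

theorem val_eq_one {v : Pl k} {c : 𝓞 k} (h : c ∉ v.asIdeal) : v.valuation k (c : k) = 1 := by
  rw [show (c : k) = algebraMap (𝓞 k) k c from rfl, v.valuation_of_algebraMap]
  exact v.intValuation_eq_one_iff.2 h

theorem val_lt_one {v : Pl k} {c : 𝓞 k} (h : c ∈ v.asIdeal) : v.valuation k (c : k) < 1 :=
  (v.valuation_lt_one_iff_mem c).2 h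

theorem padicNorm_prod {p : ℕ} (hp : p.Prime) {T : Type*} (F : Finset T) {r : T → ℚ}
    (h : ∀ t ∈ F, padicNorm p (r t) = 1) : padicNorm p (∏ t ∈ F, r t) = 1 := by
  haveI := Fact.mk hp
  exact Finset.prod_induction r (fun x => padicNorm p x = 1)
    (fun a b ha hb => by rw [padicNorm.mul, ha, hb, one_mul]) padicNorm.one h

/-- the `M`-part of the norm -/
theorem prod_places {M : ℕ} (hM : M ≠ 0) (S : Finset (Pl k)) (hS : ∀ v, v ∈ S ↔ (M : 𝓞 k) ∈ v.asIdeal)
    {c : k} (hc : c ≠ 0) : ∏ p ∈ M.primeFactors, ((padicNorm p (Algebra.norm ℚ c) : ℚ) : ℝ) =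
      ∏ v ∈ S, ‖algebraMap k (Kv v) c‖ := by
  classical
  have h1 : ∀ v : Pl k, ∃ r : ℚ, ‖algebraMap k (Kv v) c‖ = r ∧
      ∀ q : ℕ, q.Prime → (q : 𝓞 k) ∉ v.asIdeal → padicNorm q r = 1 := by
    intro v
    have e := FinitePlace.norm_embedding' v c
    rw [WithZeroMulInt.toNNReal_neg_apply _ (val_ne_zero v hc)] at e
    refine ⟨(Ideal.absNorm v.asIdeal : ℚ) ^ (Multiplicative.toAdd (unzero (val_ne_zero v hc))), ?_,
      fun q hq hv => ?_⟩
    · push_cast at e ⊢; exact e
    · haveI := Fact.mk hq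
      haveI := v.isMaximal
      obtain ⟨p, n, -, p1, p2, p3⟩ := Ideal.exists_prime_and_absNorm_eq_pow v.asIdeal
      have : padicNorm q (Ideal.absNorm v.asIdeal : ℕ) = 1 := by
        rw [padicNorm.nat_eq_one_iff, p3]
        intro hd
        exact hv (((Nat.prime_dvd_prime_iff_eq hq p2).1 (hq.dvd_of_dvd_pow hd)) ▸ p1)
      have e2 := map_zpow₀ (IsAbsoluteValue.abvHom (padicNorm q)) (Ideal.absNorm v.asIdeal : ℚ)
        (Multiplicative.toAdd (unzero (val_ne_zero v hc)))
      change padicNorm q _ = padicNorm q _ ^ _ at e2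
      rw [e2, this, one_zpow]
  choose r r1 r2 using h1
  have hfin : (Function.mulSupport fun v : Pl k => ‖algebraMap k (Kv v) c‖).Finite := by
    refine (finite_ne_one hc).subset fun v hv h => hv ?_
    have e := FinitePlace.norm_embedding' v c
    rw [h, map_one] at e
    exact e
  obtain ⟨T, hT⟩ : ∃ T : Finset (Pl k), ∀ v, ‖algebraMap k (Kv v) c‖ ≠ 1 → v ∈ T :=
    ⟨hfin.toFinset, fun v hv => hfin.mem_toFinset.2 hv⟩
  have h2 : ∏ v ∈ S ∪ T, ‖algebraMap k (Kv v) c‖ = |Algebra.norm ℚ c|⁻¹ := by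
    rw [← FinitePlace.prod_eq_inv_abs_norm hc, ← finprod_comp_equiv FinitePlace.equivHeightOneSpectrum.symm]
    exact (finprod_eq_prod_of_mulSupport_subset _ fun v hv => by
      simpa using Or.inr (hT v hv)).symm
  rw [← Finset.union_sdiff_self_eq_union, Finset.prod_union Finset.disjoint_sdiff] at h2
  simp only [r1] at h2 ⊢
  have h3 : (∏ v ∈ S, r v) * ∏ v ∈ T \ S, r v = |Algebra.norm ℚ c|⁻¹ := by
    refine Rat.cast_injective (α := ℝ) ?_
    rw [Rat.cast_mul, Rat.cast_prod, Rat.cast_prod]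
    exact h2
  have hN : Algebra.norm ℚ c ≠ 0 := Algebra.norm_ne_zero_iff.2 hc
  have hf0 : 0 < ∏ v ∈ S, r v := Finset.prod_pos fun v _ => by
    have : (0 : ℝ) < r v := by rw [← r1]; exact norm_pos_iff.2 (by simpa using hc)
    exact_mod_cast this
  have h4 := Hgt.nS_eq hM (z := ∏ v ∈ S, r v) hf0.ne'.isUnit
  have h5 : Hgt.nS M (∏ v ∈ S, r v) = 1 := finprod_mem_of_eqOn_one fun q hq => by
    have := padicNorm_prod hq.1 S (r := r) fun v hv => r2 v q hq.1 fun h =>
      not_coprime h ((hS v).1 hv) ((Nat.Prime.coprime_iff_not_dvd hq.1).2 hq.2)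
    simp [Hgt.nr, this]
  have h6 : (∏ p ∈ M.primeFactors, ((padicNorm p (Algebra.norm ℚ c) : ℚ) : ℝ)) *
      ∏ p ∈ M.primeFactors, Hgt.nr p (∏ v ∈ S, r v) = 1 := by
    rw [← Finset.prod_mul_distrib]
    refine Finset.prod_eq_one fun p hp => ?_
    have hp' := Nat.mem_primeFactors.1 hp
    haveI := Fact.mk hp'.1
    have e1 := padicNorm_prod hp'.1 (T \ S) (r := r) fun v hv => r2 v p hp'.1 fun h =>
      (Finset.mem_sdiff.1 hv).2 ((hS v).2 (mem_of_dvd hp'.2.1 h))
    have e2 : padicNorm p (|Algebra.norm ℚ c| * ((∏ v ∈ S, r v) * ∏ v ∈ T \ S, r v)) = 1 := by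
      rw [h3, mul_inv_cancel₀ (abs_ne_zero.2 hN), padicNorm.one]
    have e3 : padicNorm p |Algebra.norm ℚ c| = padicNorm p (Algebra.norm ℚ c) := by
      rcases abs_choice (Algebra.norm ℚ c) with e | e <;> rw [e]
      rw [padicNorm.neg]
    rw [padicNorm.mul, padicNorm.mul, e1, mul_one, e3] at e2
    simp only [Hgt.nr, Algebra.norm_self, MonoidHom.id_apply]
    exact_mod_cast e2
  rw [h5, one_mul, Algebra.norm_self, MonoidHom.id_apply, abs_of_pos (by exact_mod_cast hf0)] at h4
  have h7 : ∏ p ∈ M.primeFactors, Hgt.nr p (∏ v ∈ S, r v) ≠ 0 := right_ne_zero_of_mul_eq_one h6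
  rw [← Rat.cast_prod S]
  exact mul_right_cancel₀ h7 (h6.trans h4.symm)

end places

variable {k K B : Type*} [Field k] [NumberField k] [Field K] [NumberField K] [Algebra k K]
  [StarRing K] [Quad k K] [Ring B] [StarRing B] [Algebra K B] [StarModule K B]
  [Algebra.IsCentral K B] [IsSimpleRing B] [FiniteDimensional K B] [Algebra k B]
  [IsScalarTower k K B] [Algebra ℚ B]

variable (k K B) in
include k K in
theorem finite_rat : FiniteDimensional ℚ B :=
  haveI := finite_kB k K B
  Module.Finite.trans k B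

/-- the order in the words of the height module -/
theorem ord (Λ : Ord K B) {θ : K} (h0 : θ ≠ 0) (hθ : star θ = -θ) (hm : algebraMap K B θ ∈ Λ.O) :
    Hgt.Ord Λ.O (algebraMap K B θ) where
  fg := Λ.fg
  full := Λ.den
  star_mem := Λ.star_mem
  th_mem := hm
  th_ne := by simpa using h0
  th_comm x := Algebra.commutes θ x
  th_star := by rw [star_algebraMap, hθ, map_neg]

include k in
theorem exists_ord (Λ : Ord K B) : ∃ θ : B, Hgt.Ord Λ.O θ := by
  obtain ⟨θ, -, h0, hθ, -⟩ := exists_delta (k := k) (K := K)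
  obtain ⟨n, hn, h⟩ := Λ.den (algebraMap K B θ)
  exact ⟨_, ord Λ (θ := n * θ) (mul_ne_zero (Nat.cast_ne_zero.2 hn) h0) (by simp [hθ]) (by simpa using h)⟩

theorem mem_Loc (Λ : Ord K B) {M : ℕ} {x : B} :
    x ∈ Hgt.Loc Λ.O M ↔ ∀ v : Pl k, (M : 𝓞 k) ∈ v.asIdeal → x ∈ Λ.At v := by
  constructor
  · rintro ⟨m, hm, -, hx⟩ v hv
    refine ⟨m, fun h => not_coprime h hv hm, ?_⟩
    rwa [show ((m : 𝓞 k) : k) = m from rfl, Nat.cast_smul_eq_nsmul, nsmul_eq_mul]
  · intro h
    let I : Ideal (𝓞 k) :=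
      { carrier := {c | (c : k) • x ∈ Λ.O}
        zero_mem' := by simp
        add_mem' := fun {a b} ha hb => by simpa [add_smul] using Λ.O.add_mem ha hb
        smul_mem' := fun c a ha => by simpa [mul_smul] using Λ.int_smul c ha }
    have hn : ∀ m : ℕ, (m : 𝓞 k) ∈ I ↔ (m : B) * x ∈ Λ.O := fun m => by
      change ((m : 𝓞 k) : k) • x ∈ Λ.O ↔ _
      rw [show ((m : 𝓞 k) : k) = m from rfl, Nat.cast_smul_eq_nsmul, nsmul_eq_mul]
    obtain ⟨n, hn0, hx⟩ := Λ.den x
    obtain ⟨m, h1, h2, h3⟩ := exists_nat I (M := M)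
      (fun h0 => by
        have := (hn n).2 hx
        rw [h0] at this
        exact hn0 (by simpa using this))
      fun v hv hle => by
        obtain ⟨c, c1, c2⟩ := h v hv
        exact c1 (hle c2)
    exact ⟨m, h1, h2, (hn m).1 h3⟩

/-- `S`-integers for `S` the set of places over `M` -/
theorem Off_eq (Λ : Ord K B) {M : ℕ} (hM : M ≠ 0) (S : Finset (Pl k))
    (hS : ∀ v, v ∈ S ↔ (M : 𝓞 k) ∈ v.asIdeal) : Λ.Off S = Hgt.OS Λ.O M := by
  obtain ⟨θ, hθ⟩ := exists_ord (k := k) Λ
  ext x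
  rw [Ord.mem_Off]
  constructor
  · intro h
    refine hθ.mem_OS hM fun p hp => (mem_Loc (k := k) Λ).2 fun v hv => h v fun hv' => ?_
    exact not_coprime hv ((hS v).1 hv') ((Nat.Prime.coprime_iff_not_dvd hp.1).2 hp.2)
  · rintro ⟨j, hj⟩ v hv
    refine ⟨(M : 𝓞 k) ^ j, fun h => hv ((hS v).2 (v.isPrime.mem_of_pow_mem _ h)), ?_⟩
    rwa [show (((M : 𝓞 k) ^ j : 𝓞 k) : k) = ((M ^ j : ℕ) : k) by simp, Nat.cast_smul_eq_nsmul, nsmul_eq_mul,
      Nat.cast_pow]

/-- finitely many elements are `S`-integers -/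
theorem exists_M {O : Subring B} {θ : B} (h : Hgt.Ord O θ) {X : Set B} (hX : X.Finite) :
    ∃ M₀ : ℕ, M₀ ≠ 0 ∧ ∀ M : ℕ, M₀ ∣ M → ∀ x ∈ X, x ∈ Hgt.OS O M := by
  choose n n1 n2 using h.full
  refine ⟨∏ x ∈ hX.toFinset, n x, Finset.prod_ne_zero_iff.2 fun x _ => n1 x, fun M hM x hx => ⟨1, ?_⟩⟩
  obtain ⟨c, hc⟩ := (Finset.dvd_prod_of_mem n (hX.mem_toFinset.2 hx)).trans hM
  rw [pow_one, hc, mul_comm (n x), Nat.cast_mul, mul_assoc]
  exact O.mul_mem (natCast_mem _ _) (n2 x)

/-! ### the local module -/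

section norm
variable {R : Type*} [CommRing R] [Algebra k R]

theorem norm_inc (x : B) : Algebra.norm R (inc k K B R x) = algebraMap k R (Algebra.norm k x) := by
  haveI := finite_kB k K B
  let e := finBasis k B
  rw [Algebra.norm_eq_matrix_det (bas k K B R e), Algebra.norm_eq_matrix_det e, RingHom.map_det]
  congr 1
  ext i j
  rw [Algebra.leftMulMatrix_eq_repr_mul, bas_apply, ← map_mul, repr_inc, RingHom.mapMatrix_apply,
    Matrix.map_apply, Algebra.leftMulMatrix_eq_repr_mul]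

theorem continuous_norm [TopologicalSpace R] [IsTopologicalRing R] :
    Continuous (Algebra.norm R : BC k K B R → R) := by
  haveI := finite_kB k K B
  let b := bas k K B R (finBasis k B)
  have : (Algebra.norm R : BC k K B R → R) = fun x => (Algebra.leftMulMatrix b x).det :=
    funext fun x => Algebra.norm_eq_matrix_det b x
  rw [this]
  exact (IsModuleTopology.continuous_of_linearMap (Algebra.leftMulMatrix b).toLinearMap).matrix_det

end norm

/-- the module of `z - θ` -/
def Del (S : Finset (Pl k)) {v₀ : Pl k} (s : Spl K B v₀) (θ : B)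
    (z : selfAdjoint (AS k K B S) × Matrix (Fin (deg K B)) (Fin (deg K B)) (Kv v₀)) : ℝ :=
  mixedEmbedding.norm (Algebra.norm (Inf k) ((z.1 : AS k K B S) - jA k K B S θ).1) *
    ((∏ v : S, ‖Algebra.norm (Kv v.1) (((z.1 : AS k K B S) - jA k K B S θ).2 v)‖) *
      ‖Algebra.norm (Kv v₀) (s.sm.mk' (z.2 - s.ψ θ) (z.2 + s.ψ θ))‖)

variable (S : Finset (Pl k)) {v₀ : Pl k} (s : Spl K B v₀) (θ : B)

theorem continuous_Del : Continuous (Del S s θ) := by
  have h0 : Continuous fun z : selfAdjoint (AS k K B S) × Matrix (Fin (deg K B)) (Fin (deg K B)) (Kv v₀) =>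
      (z.1 : AS k K B S) - jA k K B S θ := (continuous_subtype_val.comp continuous_fst).sub continuous_const
  haveI : IsModuleTopology (Kv v₀) (Matrix (Fin (deg K B)) (Fin (deg K B)) (Kv v₀)) :=
    inferInstanceAs (IsModuleTopology (Kv v₀) (Fin (deg K B) → Fin (deg K B) → Kv v₀))
  have h1 := (continuous_norm (R := Inf k)).comp h0.fst
  refine ((mixedEmbedding.continuous_norm k).comp h1).mul
    ((continuous_finsetProd _ fun v _ => ?_).mul ?_)
  · exact (continuous_norm.comp ((continuous_apply v).comp h0.snd)).norm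
  · exact (continuous_norm.comp (s.sm.continuous_mk'.comp
      ((continuous_snd.sub continuous_const).prodMk (continuous_snd.add continuous_const)))).norm

theorem Del_pos {z : selfAdjoint (AS k K B S) × Matrix (Fin (deg K B)) (Fin (deg K B)) (Kv v₀)}
    (h1 : IsUnit ((z.1 : AS k K B S) - jA k K B S θ)) (h2 : IsUnit (z.2 - s.ψ θ))
    (h3 : IsUnit (z.2 + s.ψ θ)) : 0 < Del S s θ z := by
  refine mul_pos ?_ (mul_pos (Finset.prod_pos fun v _ => norm_pos_iff.2 ?_) (norm_pos_iff.2 ?_))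
  · refine lt_of_le_of_ne (mixedEmbedding.norm_nonneg _) (Ne.symm ?_)
    have := ((h1.map (RingHom.fst _ _)).map (Algebra.norm (Inf k)))
    exact (IsUnit.map (mixedEmbedding.norm (K := k)) this).ne_zero
  · exact (((h1.map (RingHom.snd _ _)).map (Pi.evalRingHom _ v)).map (Algebra.norm (Kv v.1))).ne_zero
  · exact (((s.sm.isUnit_iff _).2 ⟨by simpa using h2, by simpa using h3⟩).map (Algebra.norm (Kv v₀))).ne_zero

open scoped Classical in
theorem Del_eq {M : ℕ} (hM : M ≠ 0) (h₀ : v₀ ∉ S) (hS : ∀ v, v ∈ insert v₀ S ↔ (M : 𝓞 k) ∈ v.asIdeal)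
    (hθ : star θ = -θ) {a : B} (ha : star a = a) (hu : IsUnit (a - θ))
    {z : selfAdjoint (AS k K B S) × Matrix (Fin (deg K B)) (Fin (deg K B)) (Kv v₀)}
    (h1 : (z.1 : AS k K B S) = jA k K B S a) (h2 : z.2 = s.ψ a) : Hgt.nS M (a - θ) * Del S s θ z = 1 := by
  haveI := finite_kB k K B
  have hc : Algebra.norm k (a - θ) ≠ 0 := (hu.map (Algebra.norm k)).ne_zero
  have e1 : s.sm.mk' (z.2 - s.ψ θ) (z.2 + s.ψ θ) = inc k K B (Kv v₀) (a - θ) := by
    rw [← s.sm.mk'_hat (inc k K B (Kv v₀) (a - θ)), star_inc, SM.hat_inc, SM.hat_inc, star_sub, ha, hθ, h2,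
      sub_neg_eq_add, map_sub, map_add]
    rfl
  rw [← Hgt.nS_eq hM hu, Del, h1, ← map_sub, e1]
  congr 2
  · change mixedEmbedding.norm (Algebra.norm (Inf k) (inc k K B (Inf k) (a - θ))) = _
    rw [norm_inc, Inf.algebraMap_eq, mixedEmbedding.norm_eq_norm, Algebra.norm_norm, Rat.cast_abs]
  · have := prod_places hM _ hS hc
    rw [Algebra.norm_norm, Finset.prod_insert h₀, mul_comm] at this
    rw [norm_inc]
    refine Eq.trans ?_ this.symm
    congr 1
    rw [← Finset.prod_coe_sort S]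
    exact Finset.prod_congr rfl fun v _ => congrArg _ (norm_inc _)

/-! ### coordinates on hermitian elements -/

variable (k K B) in
include K in
theorem exists_hbasis : ∃ (n m : ℕ) (e : Basis (Fin n ⊕ Fin m) k B),
    (∀ i, star (e (.inl i)) = e (.inl i)) ∧ ∀ i, star (e (.inr i)) = -e (.inr i) := by
  haveI := finite_kB k K B
  let P : Submodule k B := LinearMap.ker (starL k K B - LinearMap.id)
  let Q : Submodule k B := LinearMap.ker (starL k K B + LinearMap.id)
  have hP : ∀ x, x ∈ P ↔ star x = x := fun x => by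
    rw [LinearMap.mem_ker, LinearMap.sub_apply, sub_eq_zero]; rfl
  have hQ : ∀ x, x ∈ Q ↔ star x = -x := fun x => by
    rw [LinearMap.mem_ker, LinearMap.add_apply, add_eq_zero_iff_eq_neg]; rfl
  have hc : IsCompl P Q := by
    refine ⟨Submodule.disjoint_def.2 fun x h1 h2 => ?_, codisjoint_iff.2 (eq_top_iff.2 fun x _ => ?_)⟩
    · have h3 : (2 : k) • x = 0 := by
        rw [two_smul]; nth_rewrite 1 [← (hP x).1 h1]; rw [(hQ x).1 h2, neg_add_cancel]
      exact (smul_eq_zero.1 h3).resolve_left two_ne_zero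
    · have : x = (2 : k)⁻¹ • ((x + star x) + (x - star x)) := by
        rw [add_add_sub_cancel, ← two_smul k x, inv_smul_smul₀ two_ne_zero]
      rw [this]
      exact Submodule.smul_mem _ _ (Submodule.add_mem_sup ((hP _).2 (by rw [star_add, star_star, add_comm]))
        ((hQ _).2 (by rw [star_sub, star_star, neg_sub])))
  refine ⟨_, _, ((finBasis k P).prod (finBasis k Q)).map (P.prodEquivOfIsCompl Q hc), fun i => ?_, fun i => ?_⟩
  · simpa using (hP _).1 (finBasis k P i).2
  · simpa using (hQ _).1 (finBasis k Q i).2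

section crd
variable {I I' : Type} [Fintype I] [Fintype I'] (e : Basis (I ⊕ I') k B)
  (h1 : ∀ i, star (e (.inl i)) = e (.inl i)) (h2 : ∀ i, star (e (.inr i)) = -e (.inr i))
  (R : Type*) [CommRing R] [Algebra k R]

include h1 in
theorem star_sum_inl (y : I → R) :
    star (∑ i, y i • bas k K B R e (.inl i)) = ∑ i, y i • bas k K B R e (.inl i) := by
  simp only [star_sum, star_rsmul, bas_apply, star_inc, h1]

include h1 h2 in
theorem herm_eq {x : BC k K B R} (hx : star x = x) :
    ∑ i, (bas k K B R e).repr x (.inl i) • bas k K B R e (.inl i) = x := by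
  have a1 := (bas k K B R e).sum_repr x
  rw [Fintype.sum_sum_type] at a1
  have a2 := congrArg star a1
  rw [hx, star_add, star_sum_inl e h1] at a2
  simp only [star_sum, star_rsmul, bas_apply, star_inc, h2, map_neg, smul_neg, Finset.sum_neg_distrib] at a1 a2 ⊢
  have a3 : (2 : k) • (∑ i, (bas k K B R e).repr x (.inl i) • inc k K B R (e (.inl i))) = (2 : k) • x := by
    rw [two_smul, two_smul]
    conv_rhs => enter [1]; rw [← a1]
    conv_rhs => enter [2]; rw [← a2]
    abel
  exact smul_right_injective _ two_ne_zero a3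

theorem repr_sum_inl (y : I → R) (j : I) :
    (bas k K B R e).repr (∑ i, y i • bas k K B R e (.inl i)) (.inl j) = y j := by
  classical
  simp [Finsupp.single_apply]

variable [TopologicalSpace R] [IsTopologicalRing R]

variable (K) in
/-- coordinates on hermitian elements -/
def crdJ : selfAdjoint (BC k K B R) ≃ₜ+ (I → R) where
  toFun x i := (bas k K B R e).repr x (.inl i)
  invFun y := ⟨∑ i, y i • bas k K B R e (.inl i), star_sum_inl e h1 R y⟩
  left_inv x := Subtype.ext (herm_eq e h1 h2 R x.2)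
  right_inv y := funext (repr_sum_inl e R y)
  map_add' x y := by ext i; simp
  continuous_toFun := continuous_pi fun i =>
    (IsModuleTopology.continuous_of_linearMap ((bas k K B R e).coord (.inl i))).comp continuous_subtype_val
  continuous_invFun := Continuous.subtype_mk (by fun_prop) _

end crd

/-- hermitian elements at the split place -/
def hatJ : selfAdjoint (BC k K B (Kv v₀)) ≃ₜ+ Matrix (Fin (deg K B)) (Fin (deg K B)) (Kv v₀) :=
  haveI : IsModuleTopology (Kv v₀) (Matrix (Fin (deg K B)) (Fin (deg K B)) (Kv v₀)) :=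
    inferInstanceAs (IsModuleTopology (Kv v₀) (Fin (deg K B) → Fin (deg K B) → Kv v₀))
  { toFun := fun x => s.sm.hat x
    invFun := fun y => ⟨s.sm.mk' y y, s.sm.star_mk' y y⟩
    left_inv := fun x => Subtype.ext (s.sm.herm_ext (s.sm.star_mk' _ _) x.2 (s.sm.hat_mk' _ _))
    right_inv := fun y => s.sm.hat_mk' y y
    map_add' := fun _ _ => map_add s.sm.hat _ _
    continuous_toFun := s.sm.continuous_hat.comp continuous_subtype_val
    continuous_invFun := Continuous.subtype_mk (s.sm.continuous_mk'.comp (continuous_id.prodMk continuous_id)) _ }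

section split
variable {I I' : Type} [Fintype I] [Fintype I'] (e : Basis (I ⊕ I') k B)
  (h1 : ∀ i, star (e (.inl i)) = e (.inl i)) (h2 : ∀ i, star (e (.inr i)) = -e (.inr i))

/-- the splitting of the local space -/
def splZ : (selfAdjoint (AS k K B S) × Matrix (Fin (deg K B)) (Fin (deg K B)) (Kv v₀)) ≃ₜ+
    (I → Inf k) × (((v : S) → I → Kv v.1) × (I → Kv v₀)) where
  toFun z := (crdJ K e h1 h2 (Inf k) ⟨z.1.1.1, congrArg Prod.fst z.1.2⟩,
    fun v => crdJ K e h1 h2 (Kv v.1) ⟨z.1.1.2 v, congrFun (congrArg Prod.snd z.1.2) v⟩,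
    crdJ K e h1 h2 (Kv v₀) ((hatJ s).symm z.2))
  invFun y := (⟨((crdJ K e h1 h2 (Inf k)).symm y.1, fun v => (crdJ K e h1 h2 (Kv v.1)).symm (y.2.1 v)),
    Prod.ext ((crdJ K e h1 h2 (Inf k)).symm y.1).2 (funext fun v => ((crdJ K e h1 h2 (Kv v.1)).symm (y.2.1 v)).2)⟩,
    hatJ s ((crdJ K e h1 h2 (Kv v₀)).symm y.2.2))
  left_inv z := Prod.ext (Subtype.ext (Prod.ext (by simp) (funext fun v => by simp))) (by simp)
  right_inv y := Prod.ext ((crdJ K e h1 h2 (Inf k)).apply_symm_apply y.1)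
    (Prod.ext (funext fun v => (crdJ K e h1 h2 (Kv v.1)).apply_symm_apply (y.2.1 v)) (by simp))
  map_add' z z' := Prod.ext (funext fun i => DFunLike.congr_fun
      (map_add (bas k K B (Inf k) e).repr (z.1 : AS k K B S).1 (z'.1 : AS k K B S).1) (.inl i))
    (Prod.ext (funext fun v => funext fun i => DFunLike.congr_fun
      (map_add (bas k K B (Kv v.1) e).repr ((z.1 : AS k K B S).2 v) ((z'.1 : AS k K B S).2 v)) (.inl i))
      (by simp))
  continuous_toFun := by
    have h0 : Continuous fun z : selfAdjoint (AS k K B S) × Matrix (Fin (deg K B)) (Fin (deg K B)) (Kv v₀) =>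
      (z.1 : AS k K B S) := continuous_subtype_val.comp continuous_fst
    exact ((crdJ K e h1 h2 (Inf k)).continuous.comp (h0.fst.subtype_mk _)).prodMk
      ((continuous_pi fun v => (crdJ K e h1 h2 (Kv v.1)).continuous.comp
        (((continuous_apply v).comp h0.snd).subtype_mk _)).prodMk
      ((crdJ K e h1 h2 (Kv v₀)).continuous.comp ((hatJ s).symm.continuous.comp continuous_snd)))
  continuous_invFun := by
    refine (Continuous.subtype_mk (Continuous.prodMk ?_ (continuous_pi fun v => ?_)) _).prodMk ?_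
    · exact continuous_subtype_val.comp ((crdJ K e h1 h2 (Inf k)).symm.continuous.comp continuous_fst)
    · exact continuous_subtype_val.comp ((crdJ K e h1 h2 (Kv v.1)).symm.continuous.comp
        ((continuous_apply v).comp continuous_snd.fst))
    · exact (hatJ s).continuous.comp ((crdJ K e h1 h2 (Kv v₀)).symm.continuous.comp continuous_snd.snd)

theorem splZ_apply {a : B} (ha : star a = a)
    {z : selfAdjoint (AS k K B S) × Matrix (Fin (deg K B)) (Fin (deg K B)) (Kv v₀)}
    (a1 : (z.1 : AS k K B S) = jA k K B S a) (a2 : z.2 = s.ψ a) :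
    splZ S s e h1 h2 z = (fun i => algebraMap k _ (e.repr a (.inl i)),
      fun _ i => algebraMap k _ (e.repr a (.inl i)), fun i => algebraMap k _ (e.repr a (.inl i))) := by
  refine Prod.ext (funext fun i => ?_) (Prod.ext (funext fun v => funext fun i => ?_) (funext fun i => ?_))
  · change (bas k K B _ e).repr (z.1 : AS k K B S).1 _ = _
    rw [a1]; exact repr_inc k K B _ e a _
  · change (bas k K B _ e).repr ((z.1 : AS k K B S).2 v) _ = _
    rw [a1]; exact repr_inc k K B _ e a _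
  · change (bas k K B _ e).repr (s.sm.mk' z.2 z.2) _ = _
    have := s.sm.mk'_hat (inc k K B (Kv v₀) a)
    rw [star_inc, ha, SM.hat_inc] at this
    rw [a2, show s.sm.mk' (s.ψ a) (s.ψ a) = _ from this]; exact repr_inc k K B _ e a _

variable (K) in
/-- coordinates on rational hermitian elements -/
def crdQ : selfAdjoint B ≃ₗ[ℚ] (I → k) where
  toFun x i := e.repr x (.inl i)
  invFun y := ⟨∑ i, y i • e (.inl i), by
    rw [selfAdjoint.mem_iff]; simp only [star_sum, star_ksmul k K B, h1]⟩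
  left_inv x := Subtype.ext (inc_injective k K B (Inf k) (by
    have := herm_eq e h1 h2 (Inf k) (x := inc k K B (Inf k) x) (by rw [star_inc, x.2])
    simpa only [map_sum, map_smul, repr_inc, bas_apply, algebraMap_smul] using this))
  right_inv y := by
    classical
    ext j; simp [Finsupp.single_apply]
  map_add' x y := by ext i; simp
  map_smul' r x := by ext i; simp [map_rat_smul e.repr]

/-- valuations of coordinates are bounded on the local order -/
theorem exists_bound (Λ : Ord K B) {ι : Type} [Fintype ι] (e : Basis ι k B) :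
    ∃ d : 𝓞 k, d ≠ 0 ∧ ∀ (v : Pl k), ∀ x ∈ Λ.At v, ∀ i, v.valuation k ((d : k) * e.repr x i) ≤ 1 := by
  obtain ⟨e₂, h₂⟩ := Λ.exists_basis_out (k := k)
  obtain ⟨d, h0, hd⟩ := exists_den Finset.univ fun p : Fin (finrank k B) × ι => e.repr (e₂ p.1) p.2
  refine ⟨d, h0, fun v x hx i => ?_⟩
  obtain ⟨c, c1, c2⟩ := hx
  rw [← e₂.sum_repr x, map_sum, Finsupp.finsetSum_apply, Finset.mul_sum]
  refine Valuation.map_sum_le _ fun j _ => ?_
  obtain ⟨r, hr⟩ := h₂ _ c2 j
  obtain ⟨t, ht⟩ := hd (j, i) (Finset.mem_univ _)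
  have h3 := val_int v r
  rw [hr, map_smul, Finsupp.smul_apply, smul_eq_mul, map_mul, val_eq_one c1, one_mul] at h3
  rw [map_smul, Finsupp.smul_apply, smul_eq_mul, mul_left_comm, ← ht, map_mul]
  exact mul_le_one' h3 (val_int v t)

theorem ball_mem (v : Pl k) {c : k} (hc : c ≠ 0) :
    {y : Kv v | Valued.v y ≤ v.valuation k c} ∈ 𝓝 (0 : Kv v) := by
  have h : Continuous fun y : Kv v => (algebraMap k (Kv v) c)⁻¹ * y := by fun_prop
  refine mem_of_superset (h.continuousAt.preimage_mem_nhds (by rw [mul_zero]; exact Coc.int_mem_nhds v))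
    fun y hy => ?_
  have e : Valued.v (algebraMap k (Kv v) c) = v.valuation k c := v.valuedAdicCompletion_eq_valuation' c
  have h1 : Valued.v ((algebraMap k (Kv v) c)⁻¹ * y) ≤ 1 := hy
  rwa [map_mul, map_inv₀, e, inv_mul_le_iff₀ (zero_lt_iff.2 (val_ne_zero v hc)), mul_one] at h1

/-- neighbourhoods of zero in the finite part -/
theorem fin_basis {N : Set (((v : S) → I → Kv v.1) × (I → Kv v₀))} (hN : N ∈ 𝓝 0) :
    ∃ m : ℕ, ∀ y : ((v : S) → I → Kv v.1) × (I → Kv v₀), (∀ v i, Valued.v (y.1 v i) ≤ exp (-(m : ℤ))) →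
      (∀ i, Valued.v (y.2 i) ≤ exp (-(m : ℤ))) → y ∈ N := by
  by_contra hc
  push Not at hc
  choose y y1 y2 y3 using hc
  have t1 : Tendsto (fun m => (y m).1) atTop (𝓝 0) :=
    tendsto_pi_nhds.2 fun v => tendsto_pi_nhds.2 fun i => Coc.tendsto_of_val v.1 fun m => y1 m v i
  have t2 : Tendsto (fun m => (y m).2) atTop (𝓝 0) :=
    tendsto_pi_nhds.2 fun i => Coc.tendsto_of_val v₀ fun m => y2 m i
  have : Tendsto y atTop (𝓝 0) := (Prod.tendsto_iff y 0).2 ⟨t1, t2⟩
  obtain ⟨m, hm⟩ := (this.eventually hN).exists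
  exact y3 m hm

include h1 h2 in
open scoped Classical in
theorem adic (Λ : Ord K B) {M : ℕ} (hM : M ≠ 0) (hS : ∀ v, v ∈ insert v₀ S ↔ (M : 𝓞 k) ∈ v.asIdeal)
    (h₀ : v₀ ∉ S) (jf : selfAdjoint B →+ ((v : S) → I → Kv v.1) × (I → Kv v₀))
    (hj : ∀ a, jf a = (fun _ i => algebraMap k _ (e.repr a (.inl i)),
      fun i => algebraMap k _ (e.repr a (.inl i)))) : Hgt.Adic Λ.O M jf := by
  have hv : ∀ (v : Pl k) (c : k), Valued.v (algebraMap k (Kv v) c) = v.valuation k c := fun v c =>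
    v.valuedAdicCompletion_eq_valuation' c
  have hMk : (M : k) ≠ 0 := Nat.cast_ne_zero.2 hM
  refine ⟨fun y => mem_closure_iff_nhds.2 fun N hN => ?_, fun N hN => ?_, fun j => ?_⟩
  · have hc : ContinuousAt (fun u => y - u) 0 := by fun_prop
    obtain ⟨m, hm⟩ := fin_basis S (hc.preimage_mem_nhds (by rwa [sub_zero]))
    let p : Option S → Pl k := fun o => o.elim v₀ Subtype.val
    have hp : Function.Injective p := by
      rintro (_ | a) (_ | b) h
      · rfl
      · exact absurd (show v₀ ∈ S from (show v₀ = b.1 from h) ▸ b.2) h₀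
      · exact absurd (show v₀ ∈ S from (show a.1 = v₀ from h) ▸ a.2) h₀
      · exact congrArg some (Subtype.ext h)
    choose x _ hx using fun i : I => Coc.approx_p p hp
      (fun o => match o with | none => y.2 i | some v => y.1 v i) m
    have e1 : ∀ i, e.repr ((crdQ K e h1 h2).symm x : selfAdjoint B) (.inl i) = x i :=
      congrFun ((crdQ K e h1 h2).apply_symm_apply x)
    refine ⟨jf ((crdQ K e h1 h2).symm x), ?_, _, rfl⟩
    have := hm (y - jf ((crdQ K e h1 h2).symm x)) (fun v i => by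
      rw [hj]; simp only [Prod.fst_sub, Pi.sub_apply, e1]; exact hx i (some v)) (fun i => by
      rw [hj]; simp only [Prod.snd_sub, Pi.sub_apply, e1]; exact hx i none)
    simpa using this
  · obtain ⟨m, hm⟩ := fin_basis S hN
    obtain ⟨d, d0, hd⟩ := exists_bound Λ e
    have hdk : (d : k) ≠ 0 := by simpa using d0
    choose t ht using fun v : Pl k => exists_exp_le (val_ne_zero v hdk)
    refine ⟨m + (insert v₀ S).sup t, ?_⟩
    rintro a ⟨x, hx, ea⟩
    have key : ∀ v ∈ insert v₀ S, ∀ i, v.valuation k (e.repr a (.inl i)) ≤ exp (-(m : ℤ)) := by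
      intro v hvS i
      have b1 := hd v x ((mem_Loc (k := k) Λ).1 hx v ((hS v).1 hvS)) (.inl i)
      have b2 : v.valuation k (M : k) ≤ exp (-1 : ℤ) := by
        have := val_lt_one ((hS v).1 hvS)
        rw [show ((M : 𝓞 k) : k) = M from rfl, ← exp_log (val_ne_zero v hMk), ← exp_zero, exp_lt_exp] at this
        rw [← exp_log (val_ne_zero v hMk), exp_le_exp]; omega
      have b3 : t v ≤ (insert v₀ S).sup t := Finset.le_sup hvS
      have b4 : v.valuation k ((M : k) ^ (m + (insert v₀ S).sup t)) ≤ exp (-(m : ℤ)) * v.valuation k (d : k) := by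
        rw [map_pow]
        refine (pow_le_pow_left' b2 _).trans (le_trans ?_ (mul_le_mul_right (ht v) _))
        rw [← exp_nsmul, ← exp_add, exp_le_exp, nsmul_eq_mul]
        push_cast; omega
      rw [ea, ← Nat.cast_pow, ← nsmul_eq_mul, ← Nat.cast_smul_eq_nsmul k, map_smul, Finsupp.smul_apply,
        smul_eq_mul, map_mul, Nat.cast_pow]
      refine (mul_le_mul_left b4 _).trans ?_
      rw [mul_assoc, ← map_mul]
      exact mul_le_of_le_one_right' b1
    refine hm _ (fun v i => ?_) fun i => ?_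
    · rw [hj]; exact (hv _ _).trans_le (key v (Finset.mem_insert_of_mem v.2) i)
    · rw [hj]; exact (hv _ _).trans_le (key v₀ (Finset.mem_insert_self _ _) i)
  · choose n n1 n2 using fun i : I => Λ.den (e (.inl i))
    have hc : ∀ i, (M : k) ^ j * n i ≠ 0 := fun i => mul_ne_zero (pow_ne_zero _ hMk) (Nat.cast_ne_zero.2 (n1 i))
    refine ⟨{y | ∀ v i, Valued.v (y v i) ≤ v.1.valuation k ((M : k) ^ j * n i)} ×ˢ
      {y | ∀ i, Valued.v (y i) ≤ v₀.valuation k ((M : k) ^ j * n i)}, prod_mem_nhds ?_ ?_, fun a ha => ?_⟩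
    · refine eventually_all.2 fun v => eventually_all.2 fun i => ?_
      have : Continuous fun y : (v : S) → I → Kv v.1 => y v i := by fun_prop
      exact (this.tendsto 0).eventually (ball_mem v.1 (hc i))
    · refine eventually_all.2 fun i => ?_
      have : Continuous fun y : I → Kv v₀ => y i := continuous_apply i
      exact (this.tendsto 0).eventually (ball_mem v₀ (hc i))
    · rw [hj] at ha
      refine ⟨∑ i, (e.repr a (.inl i) / ((M : k) ^ j * n i)) • ((n i : B) * e (.inl i)),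
        (mem_Loc (k := k) Λ).2 fun v hvM => sum_mem fun i _ => Λ.smul_mem_At ?_ (Λ.le_At v (n2 i)), ?_⟩
      · rw [map_div₀, div_le_one₀ (zero_lt_iff.2 (val_ne_zero v (hc i)))]
        rcases Finset.mem_insert.1 ((hS v).2 hvM) with rfl | h
        · exact (hv _ _).symm.trans_le (ha.2 i)
        · exact (hv _ _).symm.trans_le (ha.1 ⟨v, h⟩ i)
      · have e1 : (a : B) = ∑ i, e.repr a (.inl i) • e (.inl i) :=
          (congrArg Subtype.val ((crdQ K e h1 h2).symm_apply_apply a)).symm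
        conv_lhs => rw [e1]
        rw [Finset.mul_sum]
        refine Finset.sum_congr rfl fun i _ => ?_
        rw [← Nat.cast_pow, ← nsmul_eq_mul, ← nsmul_eq_mul, ← Nat.cast_smul_eq_nsmul k,
          ← Nat.cast_smul_eq_nsmul k, smul_smul, smul_smul, Nat.cast_pow]
        congr 1
        have : (n i : k) ≠ 0 := Nat.cast_ne_zero.2 (n1 i)
        field_simp

end split

open scoped Classical in
/-- equidistribution of the rational hermitian elements in the local space -/
theorem exists_lam (Λ : Ord K B) {M : ℕ} (hM : M ≠ 0) (h₀ : v₀ ∉ S)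
    (hS : ∀ v, v ∈ insert v₀ S ↔ (M : 𝓞 k) ∈ v.asIdeal) (hH : Hgt.Ht Λ.O M)
    [MeasurableSpace (selfAdjoint (AS k K B S) × Matrix (Fin (deg K B)) (Fin (deg K B)) (Kv v₀))]
    [BorelSpace (selfAdjoint (AS k K B S) × Matrix (Fin (deg K B)) (Fin (deg K B)) (Kv v₀))]
    (iJ : selfAdjoint B →+ selfAdjoint (AS k K B S) × Matrix (Fin (deg K B)) (Fin (deg K B)) (Kv v₀))
    (a1 : ∀ a, ((iJ a).1 : AS k K B S) = jA k K B S a) (a2 : ∀ a, (iJ a).2 = s.ψ a) :
    ∃ lam : MeasureTheory.Measure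
        (selfAdjoint (AS k K B S) × Matrix (Fin (deg K B)) (Fin (deg K B)) (Kv v₀)),
      lam.IsAddHaarMeasure ∧ ∀ φ, Continuous φ → HasCompactSupport φ →
        Hgt.Gd Λ.O M (fun a => φ (iJ a)) (∫ z, φ z ∂lam) := by
  obtain ⟨θ, hθ⟩ := exists_ord (k := k) Λ
  obtain ⟨n, m, e, h1, h2⟩ := exists_hbasis k K B
  have hz := fun a : selfAdjoint B => splZ_apply S s e h1 h2 a.2 (a1 a) (a2 a)
  refine Hgt.eq_abs hθ hM hH (splZ S s e h1 h2) iJ ?_ ?_
    (adic S e h1 h2 Λ hM hS h₀ _ fun a => congrArg Prod.snd (hz a))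
  · refine eq_top_iff.2 fun y _ => ?_
    rw [← Finset.univ_sum_single y]
    refine Submodule.sum_mem _ fun i _ => ?_
    have b1 : y i ∈ Submodule.span ℝ (Set.range (algebraMap k (Inf k))) := by
      have := (mixedEmbedding.latticeBasis k).mem_span (y i)
      refine Submodule.span_mono ?_ this
      rintro _ ⟨j, rfl⟩
      exact ⟨_, (mixedEmbedding.latticeBasis_apply k j).symm⟩
    have b2 := Submodule.mem_map_of_mem (f := LinearMap.single ℝ (fun _ : Fin n => Inf k) i) b1
    rw [Submodule.map_span] at b2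
    refine Submodule.span_mono ?_ b2
    rintro _ ⟨_, ⟨c, rfl⟩, rfl⟩
    refine ⟨(crdQ K e h1 h2).symm (Pi.single i c), ?_⟩
    have e1 : ∀ j, e.repr ((crdQ K e h1 h2).symm (Pi.single i c) : selfAdjoint B) (.inl j) =
        (Pi.single i c : Fin n → k) j := congrFun ((crdQ K e h1 h2).apply_symm_apply _)
    simp only [hz, e1]
    ext j
    by_cases h : j = i
    · subst h; simp
    · simp [h]
  · rw [(crdQ K e h1 h2).finrank_eq, finrank_pi_fintype, finrank_pi_fintype]
    exact Finset.sum_congr rfl fun _ _ => mixedEmbedding.finrank k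

end Crest.Agent.T24.HgtI
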