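import Crest.Agent.T24.NaInstDef_3
import Crest.Agent.T24.HgtD_88

/-!
# Row 24, module NA + TW: the weight fields of the arithmetic system
-/

set_option autoImplicit false
set_option linter.unusedSectionVars false
set_option linter.style.haveILetI false

noncomputable section

namespace Crest.Agent.T24.Na

open Module Csa Asa Filter Topology NumberField IsDedekindDomain MeasureTheory
open scoped NumberField

universe u v w

namespace W88

variable {B : Type*} [Ring B] [Algebra ℚ B] [StarRing B] {O : Subring B} {θ₀ : B} {M : ℕ}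

theorem H_cayley (h : Hgt.Ord O θ₀) {θ t : B} (hθ : θ ∈ Hgt.OS O M) (ht : t ∈ Hgt.OS O M)
    (h2 : t * (2 * θ) = 1) {a u : B} (hu : u * (a - θ) = a + θ) (ha : IsUnit (a - θ)) :
    Hgt.H O M u * Hgt.nS M (a - θ) = Hgt.H O M a := by
  rw [Hgt.H, ← h.H2_mul_right M (c := 0) (d := 1) (by simp) ha, hu, one_mul]
  refine h.H2_sim ⟨⟨1, Subring.one_mem _, θ, hθ, by simp⟩,
    ⟨1, Subring.one_mem _, -θ, Subring.neg_mem _ hθ, by simp [sub_eq_add_neg]⟩,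
    ⟨t * θ, Subring.mul_mem _ ht hθ, t * θ, Subring.mul_mem _ ht hθ, ?_⟩,
    ⟨t, ht, -t, Subring.neg_mem _ ht, ?_⟩⟩
  · rw [show t * θ * (a + θ) + t * θ * (a - θ) = t * (2 * θ) * a by noncomm_ring, h2, one_mul]
  · rw [show t * (a + θ) + -t * (a - θ) = t * (2 * θ) by noncomm_ring, h2]

theorem isUnit_sub [FiniteDimensional ℚ B] (hB : Aniso B) {θ t : B} (hc : ∀ x, θ * x = x * θ)
    (hθ : star θ = -θ) (h2 : t * (2 * θ) = 1) {a : B} (ha : star a = a) : IsUnit (a - θ) := by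
  have hi : Function.Injective (Algebra.lmul ℚ B (a - θ)) := by
    rw [injective_iff_map_eq_zero]
    intro y hy
    have h1 : a * y = θ * y := by
      rw [← sub_eq_zero, ← sub_mul]; exact hy
    have h3 : star y * a = -(star y * θ) := by
      have := congrArg star h1
      rwa [star_mul, star_mul, ha, hθ, mul_neg] at this
    have h4 : θ * (star y * y) = -(θ * (star y * y)) := by
      conv_lhs => rw [← mul_assoc, hc, mul_assoc, ← h1, ← mul_assoc, h3, ← hc, neg_mul, mul_assoc]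
    refine hB y ?_
    rw [← one_mul (star y * y), ← h2, mul_assoc, mul_assoc, two_mul]
    nth_rewrite 1 [h4]
    rw [neg_add_cancel, mul_zero]
  exact Algebra.lmul_isUnit_iff.1 ((LinearMap.isUnit_iff_ker_eq_bot _).2 (LinearMap.ker_eq_bot.2 hi))

end W88

theorem iWtStmt : IWtStmt.{u, v, w} := by
  intro D _ I h
  haveI := HgtI.finite_rat D.k D.K D.B
  obtain ⟨θ₀, hO⟩ := HgtI.exists_ord (k := D.k) I.Λ
  obtain ⟨lam, hl, hE⟩ := HgtI.exists_lam I.S I.s I.Λ h.N0 h.v0 h.mem_S h.ht I.iJ (fun _ => rfl) fun _ => rfl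
  have hγ : ∀ γ : (I.Λ.GamU I.S₁).subgroupOf (Um D.K D.B I.m),
      (((γ : Um D.K D.B I.m) : unitary D.B) : D.B) ∈ Hgt.OS I.Λ.O I.N := fun γ => h.off ▸ γ.2
  have hθ : star (algebraMap D.K D.B I.θ) = -algebraMap D.K D.B I.θ := by
    rw [star_algebraMap, h.th_star, map_neg]
  have ht : algebraMap D.K D.B 2⁻¹ * algebraMap D.K D.B I.θ⁻¹ ∈ Hgt.OS I.Λ.O I.N := by
    refine Subring.mul_mem _ ⟨1, ?_⟩ h.th_inv
    obtain ⟨c, hc⟩ := h.two
    rw [pow_one, ← map_natCast (algebraMap D.K D.B), ← map_mul, hc,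
      show ((2 * c : ℕ) : D.K) * 2⁻¹ = c by push_cast; field_simp, map_natCast]
    exact natCast_mem _ _
  have h2 : algebraMap D.K D.B 2⁻¹ * algebraMap D.K D.B I.θ⁻¹ * (2 * algebraMap D.K D.B I.θ) = 1 := by
    rw [← map_ofNat (algebraMap D.K D.B) 2, ← map_mul, ← map_mul, ← map_mul, ← map_one (algebraMap D.K D.B)]
    congr 1
    have := h.th0
    field_simp
  refine ⟨lam, HgtI.Del I.S I.s (algebraMap D.K D.B I.θ), hl, hO.W_nonneg I.N, fun s a b hb => ?_,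
    fun s γ a => ?_, fun φ hφ => (hE φ hφ.1 hφ.2).1, fun φ hφ => (hE φ hφ.1 hφ.2).2, fun s γ y => ?_,
    fun s γ y => ?_, fun s a => ?_, HgtI.continuous_Del _ _ _, fun z hz => HgtI.Del_pos _ _ _ hz.1 hz.2.2.1 hz.2.2.2⟩
  · change Hgt.W _ _ s ((a : D.B) + b) = Hgt.W _ _ s (a : D.B)
    rw [Hgt.W, hO.H_add _ (h.off ▸ hb), Hgt.W]
  · change Hgt.W _ _ s (_ * (a : D.B) * star _) = Hgt.W _ _ s (a : D.B)
    rw [Hgt.W, hO.H_congr _ (hγ γ) (Hgt.star_mem_OS hO (hγ γ)) γ.1.1.2.1 γ.1.1.2.2, Hgt.W]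
  · change Hgt.W _ _ s _ = Hgt.W _ _ s y
    rw [Hgt.W, hO.H_unit_mul _ (hγ γ) (Hgt.star_mem_OS hO (hγ γ)) γ.1.1.2.1, Hgt.W]
  · change Hgt.W _ _ s _ = Hgt.W _ _ s y
    rw [Hgt.W, hO.H_mul_unit _ (hγ γ) (Hgt.star_mem_OS hO (hγ γ)) γ.1.1.2.1 γ.1.1.2.2, Hgt.W]
  · have hu := W88.isUnit_sub h.an (fun x => Algebra.commutes I.θ x) hθ h2 a.2
    have e1 := W88.H_cayley hO h.th_mem ht h2 (u := cy (algebraMap D.K D.B I.θ) a)
      (by rw [cy, mul_assoc, Ring.inverse_mul_cancel _ hu, mul_one]) hu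
    have e2 := HgtI.Del_eq I.S I.s _ h.N0 h.v0 h.mem_S hθ a.2 hu (z := I.iJ a) rfl rfl
    have e3 := Hgt.nS_pos I.N hu
    have e4 : 0 < HgtI.Del I.S I.s (algebraMap D.K D.B I.θ) (I.iJ a) :=
      (pos_iff_pos_of_mul_pos (one_pos.trans_eq e2.symm)).1 e3
    change Hgt.W _ _ s (cy (algebraMap D.K D.B I.θ) a) =
      Hgt.W _ _ s (a : D.B) * HgtI.Del I.S I.s (algebraMap D.K D.B I.θ) (I.iJ a) ^ (-s)
    rw [Hgt.W, Hgt.W, div_mul_eq_mul_div, ← Real.mul_rpow (hO.H_pos _ _).le e4.le, ← e1, mul_assoc, e2, mul_one]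

theorem iAdmStmt : IAdmStmt.{u, v, w} := by
  intro D _ I _ lam Δ g hg
  obtain ⟨θ₀, hO⟩ := HgtI.exists_ord (k := D.k) I.Λ
  refine ⟨fun s a => ?_⟩
  change Hgt.W _ _ s (g.ap (a : D.B)) = Hgt.W _ _ s (a : D.B)
  rw [Hgt.W, Hgt.W, Aff.ap, hO.H_add _ hg.b, Aff.lin, Algebra.smul_def,
    hO.H_unit_mul _ hg.κ hg.κ' (by rw [← map_mul]; simp),
    hO.H_mul_unit _ hg.p hg.p' (by simp) (by simp),
    hO.H_unit_mul _ (Hgt.star_mem_OS hO hg.p) (Hgt.star_mem_OS hO hg.p') (by rw [← star_mul]; simp)]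

end Crest.Agent.T24.Na
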