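import Crest.Agent.T24.NaInst_3
import Crest.Agent.T24.NaLat_98
import Crest.Agent.T24.NaWt_88
import Crest.Agent.T24.NaChart_86
import Crest.Agent.T24.NaDens_13
import Crest.Agent.T24.NaEs_24
import Crest.Agent.T24.NaAbs_56
import Crest.Agent.T24.NaOne_37
import Crest.Agent.T24.NaMoore_41

/-! # Row 24, module NA + TW: the analytic step from orthogonality and strong approximation -/

set_option autoImplicit false

namespace Crest.Agent.T24.Na

universe u v w

theorem indep_of (hO : OrthStmt.{u, max u w, w}) (hS : SaStmt.{u, v, w}) : IndepStmt.{u, v, w} :=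
  indepStmt (absStmt (oneStmt mooreStmt) hO) hS iLatStmt iWtStmt iChartStmt iDensStmt iEscStmt iAdmStmt

end Crest.Agent.T24.Na
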