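import Crest.Agent.T24.LocInfA_15
import Crest.Agent.T24.BcB_98

/-!
# Row 24 (helper15): `SU (k_∞)` is path connected (first half of `LocG`)
-/

set_option autoImplicit false
set_option linter.unusedSectionVars false

noncomputable section

namespace Crest.Agent.T24

open Module Csa BC NumberField
open scoped TensorProduct

universe u v w x

namespace L15

variable (k : Type u) (K : Type v) (B : Type w) [Field k] [NumberField k] [Field K] [NumberField K]
  [Algebra k K] [StarRing K] [Quad k K] [Ring B] [StarRing B] [Algebra K B] [StarModule K B]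
  [Algebra.IsCentral K B] [IsSimpleRing B] [FiniteDimensional K B] [Algebra k B]
  [IsScalarTower k K B]

/-- `SU (R)` is path connected -/
def Con (R : Type*) [CommRing R] [Algebra k R] [TopologicalSpace R] [IsTopologicalRing R] : Prop :=
  SUc k K B R ≤ Pth (SUc k K B R)

theorem con_emb (F : Type x) [Field F] [CharZero F] [Algebra k F] [TopologicalSpace F]
    [IsTopologicalRing F] (ι : K →ₐ[k] F)
    (h : ∀ (C : Type (max x w)) [Ring C] [Algebra F C] [Algebra.IsCentral F C] [IsSimpleRing C]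
      [FiniteDimensional F C] [TopologicalSpace C] [IsTopologicalRing C] [ContinuousSMul F C],
      SL1 F C ≤ Pth (SL1 F C)) : Con k K B F := by
  let _ : Algebra K F := ι.toRingHom.toAlgebra
  have : IsScalarTower k K F := IsScalarTower.of_algebraMap_eq fun c => (ι.commutes c).symm
  let _ : TopologicalSpace (F ⊗[K] B) := moduleTopology F _
  have : IsModuleTopology F (F ⊗[K] B) := ⟨rfl⟩
  have : IsTopologicalRing (F ⊗[K] B) := IsModuleTopology.isTopologicalRing F _
  have : IsSimpleRing (F ⊗[K] B) := isSimpleRing_tensor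
  have : Algebra.IsCentral F (F ⊗[K] B) := isCentral_tensor
  let s := SM.taut k K B F
  intro u hu
  have := Pth.map (S' := SUc k K B F) s.uHomeo.symm.toMulEquiv.toMonoidHom s.uHomeo.symm.continuous
    (fun g hg => (s.mem_SUc_iff _).2 ((congrArg (Nrd F) (s.hat_mk' _ _)).trans hg))
    (h (F ⊗[K] B) (show s.uHomeo u ∈ SL1 F (F ⊗[K] B) from (s.mem_SUc_iff u).1 hu))
  exact (s.uHomeo.symm_apply_apply u) ▸ this

theorem con_complex [Algebra k ℂ] : Con k K B ℂ :=
  haveI := finite_kK k K
  con_emb k K B ℂ IsAlgClosed.lift @sl_complex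

theorem con_real [Algebra k ℝ] : Con k K B ℝ := by
  rcases isEmpty_or_nonempty (K →ₐ[k] ℝ) with h | ⟨⟨ι⟩⟩
  · obtain ⟨ε, hε⟩ := exists_eps (BC k K K ℝ) Quad.fr Quad.star_k (Quad.ne (k := ℝ))
    have e : SUc k K B ℝ = Wall.su (BC k K K ℝ) (BC k K B ℝ) := Subgroup.ext fun u => mem_SUc_E u
    rw [Con, e]
    exact su_pth ε hε
  · exact con_emb k K B ℝ ι @sl_real

section prod
variable {k K B} {R : Type*} [CommRing R] [Algebra k R] {ι₁ ι₂ : Type*} {F₁ : ι₁ → Type*}
  {F₂ : ι₂ → Type*} [∀ i, CommRing (F₁ i)] [∀ i, Algebra k (F₁ i)] [∀ i, CommRing (F₂ i)]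
  [∀ i, Algebra k (F₂ i)] (p₁ : ∀ i, R →ₐ[k] F₁ i) (p₂ : ∀ i, R →ₐ[k] F₂ i)

theorem repr_map {M : Type*} [Ring M] [Algebra K M] [Algebra k M] [IsScalarTower k K M] {R' ι : Type*}
    [CommRing R'] [Algebra k R'] (f : R →ₐ[k] R') (e : Basis ι k M) (y : BC k K M R) (a : ι) :
    (bas k K M R' e).repr (map k K M R f y) a = f ((bas k K M R e).repr y a) := by
  refine ind y (by simp) (fun r b => ?_) (fun y z hy hz => ?_)
  · rw [map_smul', map_inc, map_smul, map_smul, Finsupp.smul_apply, Finsupp.smul_apply, repr_inc,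
      repr_inc, smul_eq_mul, smul_eq_mul, map_mul, f.commutes]
  · rw [map_add, map_add, map_add, Finsupp.add_apply, Finsupp.add_apply, map_add, hy, hz]

theorem ext_map (hinj : ∀ r r', (∀ i, p₁ i r = p₁ i r') → (∀ i, p₂ i r = p₂ i r') → r = r')
    {M : Type*} [Ring M] [Algebra K M] [Algebra k M] [IsScalarTower k K M] {y z : BC k K M R}
    (h₁ : ∀ i, map k K M R (p₁ i) y = map k K M R (p₁ i) z)
    (h₂ : ∀ i, map k K M R (p₂ i) y = map k K M R (p₂ i) z) : y = z :=
  (bas k K M R (Basis.ofVectorSpace k M)).ext_elem fun a => hinj _ _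
    (fun i => by rw [← repr_map, ← repr_map, h₁]) fun i => by rw [← repr_map, ← repr_map, h₂]

variable [TopologicalSpace R] [IsTopologicalRing R] [∀ i, TopologicalSpace (F₁ i)]
  [∀ i, IsTopologicalRing (F₁ i)] [∀ i, TopologicalSpace (F₂ i)] [∀ i, IsTopologicalRing (F₂ i)]

theorem con_prod (hinj : ∀ r r', (∀ i, p₁ i r = p₁ i r') → (∀ i, p₂ i r = p₂ i r') → r = r')
    (q : (∀ i, F₁ i) × (∀ i, F₂ i) → R) (hq : Continuous q) (h₁ : ∀ y i, p₁ i (q y) = y.1 i)
    (h₂ : ∀ y i, p₂ i (q y) = y.2 i) (c₁ : ∀ i, Con k K B (F₁ i)) (c₂ : ∀ i, Con k K B (F₂ i)) :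
    Con k K B R := by
  have := finite_kB k K B
  intro u hu
  have mU : ∀ {R' : Type _} [CommRing R'] [Algebra k R'] (f : R →ₐ[k] R'),
      map k K B R f u ∈ unitary (BC k K B R') := fun f => by
    rw [Unitary.mem_iff, ← BC.map_star, ← map_mul, ← map_mul, u.2.1, u.2.2, map_one]
    exact ⟨rfl, rfl⟩
  have mU' : ∀ {R' : Type _} [CommRing R'] [Algebra k R'] (f : R →ₐ[k] R'),
      map k K B R f u ∈ unitary (BC k K B R') := fun f => by
    rw [Unitary.mem_iff, ← BC.map_star, ← map_mul, ← map_mul, u.2.1, u.2.2, map_one]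
    exact ⟨rfl, rfl⟩
  have hu' := (mem_SUc_iff u).1 hu
  choose f₁ a₁ b₁ d₁ e₁ using fun i => c₁ i (x := ⟨_, mU (p₁ i)⟩)
    ((mem_SUc_iff _).2 ((nrdK_map _ _).trans (by rw [hu', map_one])))
  choose f₂ a₂ b₂ d₂ e₂ using fun i => c₂ i (x := ⟨_, mU' (p₂ i)⟩)
    ((mem_SUc_iff _).2 ((nrdK_map _ _).trans (by rw [hu', map_one])))
  let e := finBasis k B
  let g : ℝ → BC k K B R := fun t => ∑ a, q (fun i => (bas k K B _ e).repr (f₁ i t) a,
    fun i => (bas k K B _ e).repr (f₂ i t) a) • inc k K B R (e a)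
  have g₁ : ∀ t i, map k K B R (p₁ i) (g t) = f₁ i t := fun t i => by
    simp only [g, map_sum, map_smul', map_inc, h₁]
    exact (eq_sum e _).symm
  have g₂ : ∀ t i, map k K B R (p₂ i) (g t) = f₂ i t := fun t i => by
    simp only [g, map_sum, map_smul', map_inc, h₂]
    exact (eq_sum e _).symm
  have gc : Continuous g := continuous_finsetSum _ fun a _ => by
    refine Continuous.smul (f := fun t => q _) (g := fun _ => inc k K B R (e a))
      (hq.comp (Continuous.prodMk (continuous_pi fun i => ?_) (continuous_pi fun i => ?_)))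
      continuous_const
    · exact (IsModuleTopology.continuous_of_linearMap ((bas k K B (F₁ i) e).coord a)).comp
        (continuous_subtype_val.comp (a₁ i))
    · exact (IsModuleTopology.continuous_of_linearMap ((bas k K B (F₂ i) e).coord a)).comp
        (continuous_subtype_val.comp (a₂ i))
  have gU : ∀ t, g t ∈ unitary (BC k K B R) := fun t => Unitary.mem_iff.2
    ⟨ext_map p₁ p₂ hinj (fun i => by rw [map_mul, BC.map_star, g₁, map_one, (f₁ i t).2.1])
      fun i => by rw [map_mul, BC.map_star, g₂, map_one, (f₂ i t).2.1],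
    ext_map p₁ p₂ hinj (fun i => by rw [map_mul, BC.map_star, g₁, map_one, (f₁ i t).2.2])
      fun i => by rw [map_mul, BC.map_star, g₂, map_one, (f₂ i t).2.2]⟩
  refine ⟨fun t => ⟨g t, gU t⟩, gc.subtype_mk _, Subtype.ext (ext_map p₁ p₂ hinj (fun i => ?_)
    fun i => ?_), Subtype.ext (ext_map p₁ p₂ hinj (fun i => ?_) fun i => ?_),
    fun t => (mem_SUc_iff _).2 (ext_map p₁ p₂ hinj (fun i => ?_) fun i => ?_)⟩
  · exact (g₁ 0 i).trans (by rw [b₁]; exact (map_one _).symm)
  · exact (g₂ 0 i).trans (by rw [b₂]; exact (map_one _).symm)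
  · exact (g₁ 1 i).trans (by rw [d₁])
  · exact (g₂ 1 i).trans (by rw [d₂])
  · rw [← nrdK_map, map_one, g₁]; exact (mem_SUc_iff _).1 (e₁ i t)
  · rw [← nrdK_map, map_one, g₂]; exact (mem_SUc_iff _).1 (e₂ i t)

end prod

variable {k} in
/-- `F` as a `k`-algebra through `ρ` -/
@[nolint unusedArguments]
def Via {F : Type} [CommRing F] (_ρ : k →+* F) : Type := F

section via
variable {k} {F : Type} [CommRing F] (ρ : k →+* F)
instance : CommRing (Via ρ) := ‹CommRing F›
instance : Algebra k (Via ρ) := RingHom.toAlgebra (S := F) ρ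
instance [h : TopologicalSpace F] : TopologicalSpace (Via ρ) := h
instance [TopologicalSpace F] [h : IsTopologicalRing F] : IsTopologicalRing (Via ρ) := h
end via

open InfinitePlace in
theorem con_inf : Con k K B (Inf k) := by
  let p₁ : ∀ w : {w : InfinitePlace k // IsReal w}, Inf k →ₐ[k] Via (embedding_of_isReal w.2) :=
    fun w => { (Pi.evalRingHom (fun _ => ℝ) w).comp (RingHom.fst _ _) with commutes' := fun _ => rfl }
  let p₂ : ∀ w : {w : InfinitePlace k // IsComplex w}, Inf k →ₐ[k] Via w.1.embedding :=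
    fun w => { (Pi.evalRingHom (fun _ => ℂ) w).comp (RingHom.snd _ _) with commutes' := fun _ => rfl }
  refine con_prod p₁ p₂ (fun r r' h₁ h₂ => Prod.ext (funext h₁) (funext h₂)) (fun y => y)
    continuous_id (fun _ _ => rfl) (fun _ _ => rfl) (fun w => ?_) fun w => ?_
  · let _ := (embedding_of_isReal w.2).toAlgebra
    exact con_real k K B
  · let _ := w.1.embedding.toAlgebra
    exact con_complex k K B

end L15

/-- the first half of `LocG` -/
theorem locG_inf (k K B : Type*) [Field k] [NumberField k] [Field K] [NumberField K]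
    [Algebra k K] [StarRing K] [Quad k K] [Ring B] [StarRing B] [Algebra K B] [StarModule K B]
    [Algebra.IsCentral K B] [IsSimpleRing B] [FiniteDimensional K B] [Algebra k B]
    [IsScalarTower k K B] (H : Subgroup (SUc k K B (Inf k)))
    (hH : IsOpen (H : Set (SUc k K B (Inf k)))) : H = ⊤ :=
  L15.eq_top_of_pth (L15.con_inf k K B) H hH

end Crest.Agent.T24
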