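import Crest.Agent.T24.LocL_59
import Crest.Agent.T24.LocInf_15

/-! # Row 24 (helper59): `LocGStmt` -/

set_option autoImplicit false

namespace Crest.Agent.T24

universe u v w

theorem locGStmt : LocGStmt.{u, v, w} := Loc.locGStmt_of fun D _ => locG_inf D.k D.K D.B

end Crest.Agent.T24
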