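import Crest.Agent.T24.NstDef_39

/-!
# Row 24, module NST: the Borel subgroup, the big cell and the contraction in `SL_d(F)` (helper66)
-/

set_option autoImplicit false

namespace Crest.Agent.T24.Nst

open Topology Filter Matrix Finset
open scoped commutatorElement

universe u

namespace Ctr66

variable {F : Type u} [Field F] {d : ℕ}

/-- vanishing below the `k`-th superdiagonal -/
def Z (k : ℕ) (M : Matrix (Fin d) (Fin d) F) : Prop := ∀ i j : Fin d, j.val < i.val + k → M i j = 0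

variable {k l : ℕ} {M N : Matrix (Fin d) (Fin d) F}

theorem Z.mul (h : Z k M) (h' : Z l N) : Z (k + l) (M * N) := fun i j hij =>
  Matrix.mul_apply.trans <| sum_eq_zero fun m _ => by
    rcases lt_or_ge m.val (i.val + k) with hm | hm
    · rw [h i m hm, zero_mul]
    · rw [h' m j (by omega), mul_zero]

theorem Z.mono (h : Z k M) (hl : l ≤ k) : Z l M := fun i j hij => h i j (by omega)
theorem Z.add (h : Z k M) (h' : Z k N) : Z k (M + N) := fun i j hij => by
  rw [Matrix.add_apply, h i j hij, h' i j hij, add_zero]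
theorem Z.sub (h : Z k M) (h' : Z k N) : Z k (M - N) := fun i j hij => by
  rw [Matrix.sub_apply, h i j hij, h' i j hij, sub_zero]
theorem Z.neg (h : Z k M) : Z k (-M) := fun i j hij => by rw [neg_apply, h i j hij, neg_zero]
theorem Z.diag (w : Fin d → F) : Z 0 (diagonal w) := fun i j hij =>
  diagonal_apply_ne _ fun e => by subst e; omega

theorem Z.mul_diag (h : Z 0 M) (h' : Z 0 N) (i : Fin d) : (M * N) i i = M i i * N i i :=
  Matrix.mul_apply.trans <| sum_eq_single i (fun m _ hm => by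
    rcases lt_or_gt_of_ne hm with hm | hm
    · rw [h i m hm, zero_mul]
    · rw [h' m i hm, mul_zero]) (by simp)

theorem Z.comm (h : Z 0 M) (h' : Z 0 N) : Z 1 (M * N - N * M) := fun i j hij => by
  rcases eq_or_ne j i with rfl | hn
  · rw [Matrix.sub_apply, h.mul_diag h', h'.mul_diag h, mul_comm, sub_self]
  · exact ((h.mul h').sub (h'.mul h)) i j (by have := Fin.val_ne_of_ne hn; omega)

/-- the upper triangular subgroup -/
def bor (F : Type u) [Field F] (d : ℕ) : Subgroup (SpecialLinearGroup (Fin d) F) where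
  carrier := {g | Z 0 g.1}
  one_mem' := Z.diag _
  mul_mem' := fun h h' => Z.mul h h'
  inv_mem' := fun {g} h => by
    have e : g.1⁻¹ = (g⁻¹).1 := inv_eq_left_inv (congrArg Subtype.val (inv_mul_cancel g))
    let : Invertible g.1 := invertibleOfLeftInverse _ _ (congrArg Subtype.val (inv_mul_cancel g))
    have := blockTriangular_inv_of_blockTriangular (M := g.1) (b := id) fun i j hij => h i j hij
    exact fun i j hij => e ▸ this (show j < i from hij)

/-- the filtration -/
def fil (k : ℕ) : Subgroup (bor F d) where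
  carrier := {g | Z k (g.1.1 - 1)}
  one_mem' := fun i j _ => by simp
  mul_mem' := fun {g h} hg hh => by
    have e : (g * h).1.1 - 1 = (g.1.1 - 1) * h.1.1 + (h.1.1 - 1) := by
      change g.1.1 * h.1.1 - 1 = _; noncomm_ring
    change Z k _
    rw [e]; exact (Z.mul hg h.2).add hh
  inv_mem' := fun {g} hg => by
    have e0 : (g⁻¹).1.1 * g.1.1 = 1 := congrArg (·.1.1) (inv_mul_cancel g)
    have e : (g⁻¹).1.1 - 1 = -((g⁻¹).1.1 * (g.1.1 - 1)) := by rw [mul_sub, e0]; noncomm_ring
    change Z k _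
    rw [e]; exact ((Z.mul (g⁻¹).2 hg).mono (by omega)).neg

theorem comm_mem {g h : bor F d} (H : Z k (g.1.1 * h.1.1 - h.1.1 * g.1.1)) : ⁅g, h⁆ ∈ fil k := by
  have e0 : h.1.1 * g.1.1 * (g⁻¹ * h⁻¹).1.1 = 1 :=
    congrArg (·.1.1) (show h * g * (g⁻¹ * h⁻¹) = 1 by group)
  have e1 : (⁅g, h⁆).1.1 = g.1.1 * h.1.1 * (g⁻¹ * h⁻¹).1.1 :=
    congrArg (·.1.1) (show ⁅g, h⁆ = g * h * (g⁻¹ * h⁻¹) by rw [commutatorElement_def, mul_assoc])
  change Z k _
  rw [e1, ← e0, ← sub_mul]
  exact Z.mul H (g⁻¹ * h⁻¹).2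

theorem der_le (k : ℕ) : derivedSeries (bor F d) (k + 1) ≤ fil (k + 1) := by
  induction k with
  | zero => exact Subgroup.commutator_le.2 fun g _ h _ => comm_mem (Z.comm g.2 h.2)
  | succ k ih =>
    refine Subgroup.commutator_le.2 fun g hg h hh => comm_mem ?_
    have e : g.1.1 * h.1.1 - h.1.1 * g.1.1 =
        (g.1.1 - 1) * (h.1.1 - 1) - (h.1.1 - 1) * (g.1.1 - 1) := by noncomm_ring
    rw [e]
    exact ((Z.mul (ih hg) (ih hh)).sub (Z.mul (ih hh) (ih hg))).mono (by omega)

theorem solv : Group.IsSolvable (bor F d) := ⟨⟨d + 1, eq_bot_iff.2 fun g hg =>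
  Subtype.ext (Subtype.ext (sub_eq_zero.1 (Matrix.ext fun i j => der_le d hg i j (by omega))))⟩⟩

/-- the leading principal submatrix -/
def lead (i : Fin d) (M : Matrix (Fin d) (Fin d) F) : Matrix {j // j < i} {j // j < i} F :=
  M.submatrix Subtype.val Subtype.val

/-- row reduction -/
theorem lu (h : ∀ i, (lead i M).det ≠ 0) : ∃ u : Matrix (Fin d) (Fin d) F,
    (∀ i, u i i = 1) ∧ (∀ i j, i < j → u i j = 0) ∧ Z 0 (u * M) := by
  let c : ∀ i : Fin d, {j // j < i} → F := fun i => (fun l => M i l.1) ᵥ* (lead i M)⁻¹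
  have hc : ∀ i, c i ᵥ* lead i M = fun l => M i l.1 := fun i => by
    rw [vecMul_vecMul, nonsing_inv_mul _ (isUnit_iff_ne_zero.2 (h i)), vecMul_one]
  refine ⟨1 - of fun i j => if hj : j < i then c i ⟨j, hj⟩ else 0, fun i => by simp,
    fun i j hij => by simp [hij.ne, hij.not_gt], fun i l hl => ?_⟩
  rw [sub_mul, one_mul, Matrix.sub_apply, sub_eq_zero, ← congrFun (hc i) ⟨l, hl⟩, Matrix.mul_apply]
  simp only [of_apply, dite_mul, zero_mul]
  rw [sum_dite, sum_const_zero, add_zero, vecMul, dotProduct]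
  exact (sum_bij' (fun j _ => ⟨j.1, mem_filter.2 ⟨mem_univ _, j.2⟩⟩)
    (fun j _ => ⟨j.1, (mem_filter.1 j.2).2⟩) (by simp) (by simp) (by simp) (by simp) fun j _ => rfl)

/-- a diagonal element -/
def dg (w : Fin d → F) (h : ∏ i, w i = 1) : SpecialLinearGroup (Fin d) F :=
  ⟨diagonal w, by rw [det_diagonal, h]⟩

theorem dg_inv (w : Fin d → F) (h : ∏ i, w i = 1) : ((dg w h)⁻¹).1 = diagonal fun i => (w i)⁻¹ := by
  have h0 : ∀ i, w i ≠ 0 := fun i => prod_ne_zero_iff.1 (h ▸ one_ne_zero) i (mem_univ i)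
  have : (dg w h)⁻¹ = dg (fun i => (w i)⁻¹) (by rw [prod_inv_distrib, h, inv_one]) :=
    inv_eq_of_mul_eq_one_right (Subtype.ext (by
      change diagonal _ * diagonal _ = 1
      rw [diagonal_mul_diagonal, ← diagonal_one]
      exact congrArg _ (funext fun i => mul_inv_cancel₀ (h0 i))))
  rw [this]; rfl

theorem ev_ne [TopologicalSpace F] [T1Space F] {p : Polynomial F} (hp : p ≠ 0) :
    ∀ᶠ t in 𝓝[≠] (0 : F), p.eval t ≠ 0 := by
  have h := ((Polynomial.finite_setOfPred_isRoot hp).subset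
    (Set.sdiff_subset (t := {0}))).isClosed.isOpen_compl.mem_nhds (x := 0) (by simp)
  filter_upwards [mem_nhdsWithin_of_mem_nhds h, self_mem_nhdsWithin] with t h1 h2 h3
  exact h1 ⟨h3, h2⟩

theorem ev_det [TopologicalSpace F] [T1Space F] {n : Type*} [Fintype n] [DecidableEq n]
    (A : Matrix n n F) : ∀ᶠ t in 𝓝[≠] (0 : F), (A + scalar n t).det ≠ 0 := by
  filter_upwards [ev_ne (-A).charpoly_monic.ne_zero] with t ht
  rwa [eval_charpoly, sub_neg_eq_add, add_comm] at ht

theorem dense [TopologicalSpace F] [IsTopologicalDivisionRing F] [T2Space F] [(𝓝[≠] (0 : F)).NeBot]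
    (hd : 0 < d) : Dense {g : SpecialLinearGroup (Fin d) F | ∀ i, (lead i g.1).det ≠ 0} := fun g => by
  obtain ⟨n, rfl⟩ : ∃ n, d = n + 1 := ⟨d - 1, by omega⟩
  refine ((SpecialLinearGroup.isClosedEmbedding_val (n := Fin (n + 1))
    (R := F)).isInducing.closure_eq_preimage_closure_image _).ge ?_
  let f : F → Matrix (Fin (n + 1)) (Fin (n + 1)) F := fun t =>
    (g.1 + scalar _ t) * diagonal (Function.update 1 (Fin.last n) (g.1 + scalar _ t).det⁻¹)
  have c0 : Continuous fun t : F => g.1 + scalar (Fin (n + 1)) t :=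
    continuous_const.add (continuous_pi fun _ => continuous_id).matrix_diagonal
  have c1 : ContinuousAt (fun t : F => (g.1 + scalar (Fin (n + 1)) t).det⁻¹) 0 :=
    c0.matrix_det.continuousAt.inv₀ (by simp)
  have c2 : ContinuousAt f 0 := c0.continuousAt.mul
    ((continuous_id.matrix_diagonal.comp (continuous_const.update _ continuous_id)).continuousAt.comp c1)
  have e : f 0 = g.1 := by simp [f]
  refine mem_closure_of_tendsto (b := 𝓝[≠] 0) (e ▸ c2.tendsto.mono_left nhdsWithin_le_nhds) ?_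
  filter_upwards [ev_det g.1, eventually_all.2 fun i => ev_det (lead i g.1)] with t h1 h2
  refine ⟨⟨f t, ?_⟩, fun i => ?_, rfl⟩
  · rw [det_mul, det_diagonal, prod_update_of_mem (mem_univ _)]
    simpa using mul_inv_cancel₀ h1
  · refine ne_of_eq_of_ne (congrArg det (Matrix.ext fun a b => ?_)) (h2 i)
    have hb : b.1 ≠ Fin.last n := (b.2.trans_le (Fin.le_last i)).ne
    simp [f, lead, hb, diagonal_apply, Subtype.ext_iff]

end Ctr66

open Ctr66

theorem ctrStmt : CtrStmt.{u} := fun F _ _ _ _ π d h0 ht hd => by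
  have : (𝓝[≠] (0 : F)).NeBot := (tendsto_nhdsWithin_iff.2
    ⟨ht, Eventually.of_forall fun n => pow_ne_zero n h0⟩).neBot
  let w : ℕ → Fin d → F := fun n i => ((π ^ n) ^ i.val) ^ d / ∏ j : Fin d, (π ^ n) ^ j.val
  have hp : ∀ n, ∏ j : Fin d, (π ^ n) ^ j.val ≠ 0 := fun n =>
    prod_ne_zero_iff.2 fun j _ => pow_ne_zero _ (pow_ne_zero _ h0)
  have hw : ∀ n, ∏ i, w n i = 1 := fun n => by
    rw [prod_div_distrib, prod_pow, prod_const, card_univ, Fintype.card_fin,
      div_self (pow_ne_zero _ (hp n))]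
  refine ⟨bor F d, fun n => dg (w n) (hw n), _, solv, ?_, dense hd, fun g hg => ?_⟩
  · rw [Set.ofPred_forall]
    exact isOpen_iInter_of_finite fun i => isOpen_ne_fun
      ((continuous_subtype_val.matrix_submatrix _ _).matrix_det) continuous_const
  obtain ⟨u, hu1, hu2, hu3⟩ := lu hg
  let U : SpecialLinearGroup (Fin d) F :=
    ⟨u, by rw [det_of_isLowerTriangular u fun i j hij => hu2 i j hij]; simp [hu1]⟩
  refine ⟨fun n => (U * g)⁻¹ * (dg (w n) (hw n))⁻¹, fun n =>
    mul_mem (inv_mem hu3) (inv_mem (Z.diag _)), ?_⟩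
  have T : Tendsto (fun n => dg (w n) (hw n) * U * (dg (w n) (hw n))⁻¹) atTop (𝓝 1) := by
    refine tendsto_subtype_rng.2 (tendsto_pi_nhds.2 fun i => tendsto_pi_nhds.2 fun j => ?_)
    have e : ∀ n, (dg (w n) (hw n) * U * (dg (w n) (hw n))⁻¹).1 i j = w n i * u i j * (w n j)⁻¹ :=
      fun n => by
        change (diagonal (w n) * u * ((dg (w n) (hw n))⁻¹).1) i j = _
        rw [dg_inv, mul_diagonal, diagonal_mul]
    simp only [e]
    change Tendsto _ _ (𝓝 ((1 : Matrix (Fin d) (Fin d) F) i j))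
    rcases lt_trichotomy i j with h | rfl | h
    · simp [hu2 i j h, h.ne]
    · have : ∀ n, w n i ≠ 0 := fun n => prod_ne_zero_iff.1 (hw n ▸ one_ne_zero) i (mem_univ i)
      simp [hu1, this]
    · obtain ⟨m, hm⟩ : ∃ m, i.val = j.val + (m + 1) := ⟨i.val - j.val - 1, by have : j.val < i.val := h; omega⟩
      have e2 : ∀ n, w n i * u i j * (w n j)⁻¹ = ((π ^ n) ^ (m + 1)) ^ d * u i j := fun n => by
        have := hp n
        simp only [w, hm, pow_add (π ^ n) j.val, mul_pow]
        field_simp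
      simp only [e2, one_apply_ne h.ne']
      simpa [hd.ne'] using ((ht.pow (m + 1)).pow d).mul_const (u i j)
  have := T.inv
  rw [inv_one] at this
  exact this.congr fun n => by group

end Crest.Agent.T24.Nst
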