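import Crest.Agent.T24.NstDef_39

/-!
# Row 24 (helper29): fundamental domains, unimodularity, continuity of translations
-/

set_option autoImplicit false
set_option linter.unusedSectionVars false

namespace Crest.Agent.T24.Nst

open Topology Filter MeasureTheory Set
open scoped ENNReal Pointwise

universe u v

namespace Fd29

section
variable {G : Type u} [Group G] [TopologicalSpace G] [IsTopologicalGroup G]

theorem discrete {Γ : Subgroup G} (h : Lat Γ) : DiscreteTopology Γ := by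
  obtain ⟨U, hU, hΓ⟩ := h.disc
  obtain ⟨V, hVU, hV, h1⟩ := mem_nhds_iff.1 hU
  refine discreteTopology_of_isOpen_singleton_one ?_
  have : ({1} : Set Γ) = Subtype.val ⁻¹' V := by
    ext γ
    refine ⟨fun h => ?_, fun h => Subtype.ext (hΓ _ γ.2 (hVU h))⟩
    rw [mem_singleton_iff.1 h]
    exact h1
  rw [this]
  exact hV.preimage continuous_subtype_val

theorem exists_coc [LocallyCompactSpace G] [MeasurableSpace G] [BorelSpace G] {Γ : Subgroup G}
    (h : Lat Γ) : ∃ c : G → Γ, Coc Γ c := by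
  classical
  obtain ⟨U, hU, hΓ⟩ := h.disc
  obtain ⟨C, hC, hCx⟩ := h.cocpt
  obtain ⟨V₀, hV₀, hVU⟩ := exists_nhds_split_inv hU
  obtain ⟨K, hK, hK1⟩ := exists_compact_mem_nhds (1 : G)
  obtain ⟨V, hV, hVo, h1⟩ := mem_nhds_iff.1 (inter_mem hV₀ hK1)
  let W : G → Set G := fun x => {y | y * x⁻¹ ∈ V}
  have hW : ∀ x, IsOpen (W x) := fun x => hVo.preimage (continuous_mul_const _)
  obtain ⟨t, ht⟩ := hC.elim_finite_subcover W hW fun x _ => mem_iUnion.2 ⟨x, by simpa [W] using h1⟩
  obtain ⟨f, hf⟩ := ((t.finite_toSet.insert 1).countable).exists_eq_range (insert_nonempty _ _)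
  let P : ℕ → G → Prop := fun i x => ∃ γ : Γ, (γ : G)⁻¹ * x ∈ W (f i)
  have hP : ∀ x, ∃ i, P i x := fun x => by
    obtain ⟨γ, hγ, hx⟩ := hCx x
    obtain ⟨y, hy, hxy⟩ := mem_iUnion₂.1 (ht hx)
    obtain ⟨i, rfl⟩ : y ∈ range f := hf ▸ mem_insert_of_mem _ hy
    exact ⟨i, ⟨γ, hγ⟩, hxy⟩
  have uniq : ∀ (y x : G) (γ γ' : Γ), (γ : G)⁻¹ * x ∈ W y → (γ' : G)⁻¹ * x ∈ W y → γ = γ' := by
    intro y x γ γ' a b
    have h2 := hVU _ (hV a).1 _ (hV b).1
    have e : (γ : G)⁻¹ * x * y⁻¹ / ((γ' : G)⁻¹ * x * y⁻¹) = ((γ⁻¹ * γ' : Γ) : G) := by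
      simp [div_eq_mul_inv, mul_assoc]
    rw [e] at h2
    have h3 : γ⁻¹ * γ' = 1 := Subtype.ext (hΓ _ (γ⁻¹ * γ').2 h2)
    exact inv_mul_eq_one.1 h3
  let c : G → Γ := fun x => (Nat.find_spec (hP x)).choose
  have hc : ∀ x, ((c x : Γ) : G)⁻¹ * x ∈ W (f (Nat.find (hP x))) := fun x =>
    (Nat.find_spec (hP x)).choose_spec
  have hPi : ∀ i (γ : Γ) x, P i (γ * x) ↔ P i x := fun i γ x =>
    ⟨fun ⟨δ, hδ⟩ => ⟨γ⁻¹ * δ, by simpa [mul_assoc] using hδ⟩,
      fun ⟨δ, hδ⟩ => ⟨γ * δ, by simpa [mul_assoc] using hδ⟩⟩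
  have hPo : ∀ i, MeasurableSet {x | P i x} := fun i => by
    have : {x | P i x} = ⋃ γ : Γ, (fun x => (γ : G)⁻¹ * x) ⁻¹' W (f i) := by
      ext x; simp [P]
    rw [this]
    exact (isOpen_iUnion fun γ => (hW _).preimage (continuous_const_mul _)).measurableSet
  refine ⟨c, fun γ => ?_, fun γ x => ?_, K * range f, ?_, fun x => ?_⟩
  · have : {x | c x = γ} = ⋃ i, ({x | P i x} ∩ ⋂ j < i, {x | P j x}ᶜ) ∩
        (fun x => (γ : G)⁻¹ * x) ⁻¹' W (f i) := by
      ext x
      simp only [mem_iUnion, mem_inter_iff, mem_iInter, mem_compl_iff, mem_preimage]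
      constructor
      · rintro (rfl : c x = γ)
        exact ⟨_, ⟨Nat.find_spec (hP x), fun j hj => Nat.find_min (hP x) hj⟩, hc x⟩
      · rintro ⟨i, ⟨h1, h2⟩, h3⟩
        have : Nat.find (hP x) = i := (Nat.find_eq_iff _).2 ⟨h1, h2⟩
        exact uniq _ x _ _ (this ▸ hc x) h3
    rw [this]
    exact MeasurableSet.iUnion fun i => ((hPo i).inter
      (MeasurableSet.biInter (to_countable _) fun j _ => (hPo j).compl)).inter
        ((hW _).preimage (continuous_const_mul _)).measurableSet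
  · have e : Nat.find (hP (γ * x)) = Nat.find (hP x) :=
      Nat.find_congr' fun {n} => hPi n γ x
    refine uniq _ (γ * x) _ _ (hc _) ?_
    rw [e]
    simpa [mul_assoc] using hc x
  · rw [← hf]
    exact hK.mul (t.finite_toSet.insert 1).isCompact
  · exact ⟨_, (hV (hc x)).2, _, ⟨Nat.find (hP x), rfl⟩, by simp⟩

/-- the strict fundamental domain and its right translates -/
theorem Coc.fd [MeasurableSpace G] [BorelSpace G] {Γ : Subgroup G} {c : G → Γ} (h : Coc Γ c)
    (μ : Measure G) (g : G) : IsFundamentalDomain Γ ((· * g) ⁻¹' {x | c x = 1}) μ := by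
  refine IsFundamentalDomain.mk' ((h.meas 1).preimage (measurable_mul_const g)).nullMeasurableSet
    fun x => ?_
  have : ∀ γ : Γ, γ • x ∈ (· * g) ⁻¹' {x | c x = 1} ↔ γ = (c (x * g))⁻¹ := fun γ => by
    show c ((γ : G) * x * g) = 1 ↔ _
    rw [mul_assoc, h.equiv, mul_eq_one_iff_eq_inv]
  exact ⟨_, (this _).2 rfl, fun γ hγ => (this γ).1 hγ⟩

end

section
variable {G : Type u} [TopologicalSpace G] [LocallyCompactSpace G]
  [SecondCountableTopology G] [T2Space G] [MeasurableSpace G] [BorelSpace G]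

/-- `L¹`-continuity along a continuous family of measure preserving maps -/
theorem l1_cont {Z : Type v} [TopologicalSpace Z] (μ : Measure G) [IsFiniteMeasureOnCompacts μ]
    {h : G → ℝ} (hh : Integrable h μ) (g : C(Z × G, G))
    (hg : ∀ z, MeasurePreserving (fun x => g (z, x)) μ μ) (z₀ : Z) :
    Tendsto (fun z => ∫⁻ x, ‖h (g (z, x)) - h (g (z₀, x))‖ₑ ∂μ) (𝓝 z₀) (𝓝 0) := by
  have hm := memLp_one_iff_integrable.2 hh
  have hc : Continuous fun z => Lp.compMeasurePreserving (g.curry z) (hg z) (hm.toLp h) :=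
    continuous_const.compMeasurePreservingLp g.curry.continuous hg ENNReal.one_ne_top
  have h1 := (Lp.tendsto_Lp_iff_tendsto_eLpNorm' _ _).1 (hc.tendsto z₀)
  refine h1.congr fun z => ?_
  rw [eLpNorm_one_eq_lintegral_enorm]
  have e : ∀ z, Lp.compMeasurePreserving (g.curry z) (hg z) (hm.toLp h) =ᵐ[μ] fun x => h (g (z, x)) :=
    fun z => (Lp.coeFn_compMeasurePreserving _ _).trans
      ((hg z).quasiMeasurePreserving.ae_eq_comp hm.coeFn_toLp)
  refine lintegral_congr_ae ?_
  filter_upwards [e z, e z₀] with x a b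
  rw [Pi.sub_apply, a, b]

end

end Fd29

open Fd29

theorem fdStmt : FdStmt.{u} := by
  intro G _ _ _ _ _ _ _ _ Γ h
  have := discrete h
  have hc : Countable Γ := TopologicalSpace.separableSpace_iff_countable.1 inferInstance
  obtain ⟨c, hc'⟩ := exists_coc h
  refine ⟨hc, fun K hK => tendsto_cofinite_cocompact_iff.1
    (Γ.tendsto_coe_cofinite_of_discrete (isDiscrete_iff_discreteTopology.2 this)) K hK,
    ⟨c, hc'⟩, fun μ _ => ⟨fun g => ?_⟩⟩
  have e := Measure.isMulLeftInvariant_eq_smul (μ.map (· * g)) μ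
  have f1 : IsFundamentalDomain Γ {x | c x = 1} μ := by simpa using Coc.fd hc' μ 1
  have e1 : μ.map (· * g) {x | c x = 1} = μ {x | c x = 1} := by
    rw [Measure.map_apply (measurable_mul_const g) (hc'.meas 1)]
    exact (Coc.fd hc' μ g).measure_eq f1
  have n0 : μ {x | c x = 1} ≠ 0 := f1.measure_ne_zero (NeZero.ne μ)
  have nt : μ {x | c x = 1} ≠ ∞ := by
    obtain ⟨C, hC, hx⟩ := hc'.cpt
    refine ne_top_of_le_ne_top hC.measure_ne_top (measure_mono fun x (h1 : c x = 1) => ?_)
    simpa [h1] using hx x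
  rw [e, Measure.smul_apply, ENNReal.smul_def, smul_eq_mul] at e1
  have e2 : ((μ.map (· * g)).haarScalarFactor μ : ℝ≥0∞) = 1 :=
    (ENNReal.mul_left_inj n0 nt).1 (by rw [e1, one_mul])
  rw [e, ENNReal.coe_eq_one.1 e2, one_smul]

theorem contStmt : ContStmt.{u} := by
  intro G _ _ _ _ _ _ _ _ μ _ f M K hf hM hK
  have ind : ∀ S : Set G, IsCompact S → Integrable (S.indicator f) μ := fun S hS =>
    (integrable_indicator_iff hS.measurableSet).2 (Measure.integrableOn_of_bounded (M := M)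
      hS.measure_ne_top hf.aestronglyMeasurable (Eventually.of_forall hM))
  constructor
  · refine continuous_iff_continuousAt.2 fun x₀ => ?_
    have hh : Integrable (K.indicator fun _ => (1 : ℝ)) μ :=
      (integrable_indicator_iff hK.measurableSet).2 (integrableOn_const hK.measure_ne_top)
    have mp : ∀ z : G, MeasurePreserving (fun x => z⁻¹ * x) μ μ := fun z =>
      measurePreserving_mul_left μ z⁻¹
    have h1 := l1_cont μ hh ⟨fun p : G × G => p.1⁻¹ * p.2, by fun_prop⟩ mp x₀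
    have e : ∀ x, ∫ y in K, f (x * y) ∂μ =
        ∫ z, f z * K.indicator (fun _ => (1 : ℝ)) (x⁻¹ * z) ∂μ := fun x => by
      rw [← integral_indicator hK.measurableSet,
        ← integral_mul_left_eq_self (fun z => f z * K.indicator (fun _ => (1 : ℝ)) (x⁻¹ * z)) x]
      refine integral_congr_ae (Eventually.of_forall fun y => ?_)
      by_cases hy : y ∈ K <;> simp [hy]
    have hi : ∀ x : G, Integrable (fun z => f z * K.indicator (fun _ => (1 : ℝ)) (x⁻¹ * z)) μ :=
      fun x => ((mp x).integrable_comp_of_integrable hh).bdd_mul (c := M) hf.aestronglyMeasurable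
        (Eventually.of_forall hM)
    simp only [ContinuousAt, e]
    refine tendsto_integral_of_L1 _ (hi x₀).aestronglyMeasurable (Eventually.of_forall hi) ?_
    have h2 := ENNReal.Tendsto.const_mul (a := ENNReal.ofReal M) h1 (Or.inr ENNReal.ofReal_ne_top)
    rw [mul_zero] at h2
    refine tendsto_of_tendsto_of_tendsto_of_le_of_le tendsto_const_nhds h2 (fun _ => zero_le)
      fun x => ?_
    simp only
    rw [← lintegral_const_mul' _ _ ENNReal.ofReal_ne_top]
    refine lintegral_mono fun z => ?_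
    rw [← mul_sub, enorm_mul]
    refine mul_le_mul_left ?_ _
    rw [← ofReal_norm]
    exact ENNReal.ofReal_le_ofReal (hM z)
  · intro _
    obtain ⟨K', hK', h1⟩ := exists_compact_mem_nhds (1 : G)
    have h2 := l1_cont μ (ind _ (hK.mul hK')) ⟨fun p : G × G => p.2 * p.1, by fun_prop⟩
      (fun z => measurePreserving_mul_right μ z) 1
    refine tendsto_of_tendsto_of_tendsto_of_le_of_le' tendsto_const_nhds h2
      (Eventually.of_forall fun _ => zero_le) ?_
    filter_upwards [h1] with t ht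
    refine le_trans (le_of_eq ?_) (setLIntegral_le_lintegral K _)
    refine setLIntegral_congr_fun hK.measurableSet fun x hx => ?_
    simp only [ContinuousMap.coe_mk]
    rw [indicator_of_mem (mul_mem_mul hx ht),
      indicator_of_mem (mul_mem_mul hx (mem_of_mem_nhds h1)), mul_one]

theorem endStmt : EndStmt.{u, v} := by
  intro G₁ G₂ _ _ _ _ _ _ N hd hfi
  let H₀ := (N.map (MonoidHom.snd G₁ G₂)).topologicalClosure.comap (MonoidHom.snd G₁ G₂)
  have : H₀.FiniteIndex := ⟨by
    rw [Subgroup.index_comap_of_surjective _ Prod.snd_surjective]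
    exact hfi.index_ne_zero⟩
  refine ⟨H₀.normalCore, inferInstance, inferInstance, fun p hp hN h g hg x => ?_⟩
  let S : Subgroup (G₁ × G₂) :=
    { carrier := {g | ∀ x, p (g * x) = p x}
      mul_mem' := fun {a b} ha hb x => by rw [mul_assoc, ha, hb]
      one_mem' := fun x => by rw [one_mul]
      inv_mem' := fun {a} ha x => by rw [← ha (a⁻¹ * x), mul_inv_cancel_left] }
  have hS : IsClosed (S : Set (G₁ × G₂)) := by
    have : (S : Set (G₁ × G₂)) = ⋂ x, {g | p (g * x) = p x} := by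
      ext g; simp only [mem_iInter]; rfl
    rw [this]
    exact isClosed_iInter fun x => isClosed_eq (by fun_prop) continuous_const
  have hNS : ∀ n ∈ N, n ∈ S := hN
  have h2 : ∀ n ∈ N, ((1, n.2) : G₁ × G₂) ∈ S := by
    rcases h with h | h
    · intro n hn
      have : ((1, n.2) : G₁ × G₂) = (n.1⁻¹, 1) * n := by ext <;> simp
      rw [this]
      exact S.mul_mem (h _) (hNS n hn)
    · exact h
  have h1 : ∀ a : G₁, ((a, 1) : G₁ × G₂) ∈ S := by
    have hc : IsClosed {a : G₁ | ((a, 1) : G₁ × G₂) ∈ S} := hS.preimage (by fun_prop)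
    intro a
    refine closure_minimal (s := Prod.fst '' (N : Set (G₁ × G₂))) ?_ hc (hd a)
    rintro _ ⟨n, hn, rfl⟩
    have : ((n.1, 1) : G₁ × G₂) = n * (1, n.2)⁻¹ := by ext <;> simp
    show ((n.1, 1) : G₁ × G₂) ∈ S
    rw [this]
    exact S.mul_mem (hNS n hn) (S.inv_mem (h2 n hn))
  have h3 : ((1, g.2) : G₁ × G₂) ∈ S := by
    have hc : IsClosed {b : G₂ | ((1, b) : G₁ × G₂) ∈ S} := hS.preimage (by fun_prop)
    refine closure_minimal (s := (N.map (MonoidHom.snd G₁ G₂) : Set G₂)) ?_ hc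
      (H₀.normalCore_le hg)
    rintro _ ⟨n, hn, rfl⟩
    exact h2 n hn
  have : g = (g.1, 1) * (1, g.2) := by ext <;> simp
  have hg' : g ∈ S := by rw [this]; exact S.mul_mem (h1 _) h3
  exact hg' x

end Crest.Agent.T24.Nst
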