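import Crest.Agent.T24.NstDef_39

/-!
# Row 24, module NST: the dual of `L¹` and right invariant flows.
-/

set_option autoImplicit false

namespace Crest.Agent.T24.Nst

open Topology Filter MeasureTheory

universe u

namespace Fix37

/-- Riesz representation against a square integrable weight -/
theorem riesz {α : Type u} [MeasurableSpace α] (μ : Measure α) (Λ : Lp ℝ 1 μ →L[ℝ] ℝ)
    (w : α → ℝ) (hw : MemLp w 2 μ) :
    ∃ F : α → ℝ, Measurable F ∧ MemLp F 2 μ ∧ ∀ h : α → ℝ, MemLp h 2 μ → ∀ ξ : Lp ℝ 1 μ,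
      (ξ : α → ℝ) =ᵐ[μ] (fun x => w x * h x) → Λ ξ = ∫ x, F x * h x ∂μ := by
  let T : Lp ℝ 2 μ →L[ℝ] Lp ℝ 1 μ := (ContinuousLinearMap.mul ℝ ℝ).holderL μ 2 2 1 hw.toLp
  let F : Lp ℝ 2 μ := (InnerProductSpace.toDual ℝ (Lp ℝ 2 μ)).symm (Λ.comp T)
  refine ⟨F, (Lp.stronglyMeasurable F).measurable, Lp.memLp F, fun h hh ξ hξ => ?_⟩
  have h1 : ξ = T hh.toLp := by
    apply Lp.ext
    have e1 := (ContinuousLinearMap.mul ℝ ℝ).coeFn_holder (r := 1) hw.toLp hh.toLp
    filter_upwards [hξ, e1, hw.coeFn_toLp, hh.coeFn_toLp] with x h0 h1 h2 h3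
    have : (T hh.toLp) x = ((ContinuousLinearMap.mul ℝ ℝ).holder 1 hw.toLp hh.toLp) x := rfl
    rw [this, h1, h2, h3, h0]
    simp
  have h2 : Λ (T hh.toLp) = inner ℝ F hh.toLp := by
    simp [F]
  rw [h1, h2, L2.inner_def]
  apply integral_congr_ae
  filter_upwards [hh.coeFn_toLp] with x hx
  rw [hx]
  simp [mul_comm]

theorem abs_apply_le {α : Type u} [MeasurableSpace α] {μ : Measure α} (Λ : Lp ℝ 1 μ →L[ℝ] ℝ)
    {φ : α → ℝ} (hφ : Integrable φ μ) : |Λ (hφ.toL1 φ)| ≤ ‖Λ‖ * ∫ x, |φ x| ∂μ := by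
  have h1 := Λ.le_opNorm (hφ.toL1 φ)
  rw [L1.norm_eq_integral_norm, Real.norm_eq_abs] at h1
  have : ∫ a, ‖(hφ.toL1 φ) a‖ ∂μ = ∫ x, |φ x| ∂μ := by
    apply integral_congr_ae
    filter_upwards [hφ.coeFn_toL1] with x hx
    rw [hx, Real.norm_eq_abs]
  rwa [this] at h1

end Fix37

open Fix37 in
/-- the dual of `L¹` -/
theorem dualStmt : DualStmt.{u} := by
  intro α _ μ _ Λ
  obtain ⟨g0, hg0, hgm, hgi⟩ := exists_pos_lintegral_lt_of_sigmaFinite μ (ε := 1) one_ne_zero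
  let g : α → ℝ := fun x => g0 x
  have hgpos : ∀ x, 0 < g x := fun x => by simpa [g] using hg0 x
  have hgmeas : Measurable g := hgm.coe_nnreal_real
  have hgint : Integrable g μ := by
    refine ⟨hgmeas.aestronglyMeasurable, ?_⟩
    rw [HasFiniteIntegral]
    simpa [g] using hgi.trans ENNReal.one_lt_top
  let w : α → ℝ := fun x => Real.sqrt (g x)
  have hwpos : ∀ x, 0 < w x := fun x => Real.sqrt_pos.2 (hgpos x)
  have hww : ∀ x, w x * w x = g x := fun x => Real.mul_self_sqrt (hgpos x).le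
  have hwmeas : Measurable w := hgmeas.sqrt
  have hw : MemLp w 2 μ := by
    rw [memLp_two_iff_integrable_sq hwmeas.aestronglyMeasurable]
    simpa only [sq, hww] using hgint
  obtain ⟨F, hFm, hF, hrep⟩ := riesz μ Λ w hw
  have hFw : Integrable (fun x => F x * w x) μ := hF.integrable_mul hw
  have hb : ∀ s, MeasurableSet s → |∫ x in s, F x * w x ∂μ| ≤ ∫ x in s, ‖Λ‖ * g x ∂μ := by
    intro s hs
    have hi : Integrable (s.indicator g) μ := hgint.indicator hs
    have h1 := hrep (s.indicator w) (hw.indicator hs) (hi.toL1 _) (by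
      filter_upwards [hi.coeFn_toL1] with x hx
      rw [hx]
      by_cases hxs : x ∈ s <;> simp [hxs, hww])
    have h2 := abs_apply_le Λ hi
    have h3 : ∫ x, F x * s.indicator w x ∂μ = ∫ x in s, F x * w x ∂μ := by
      rw [← integral_indicator hs]
      congr 1
      funext x
      by_cases hxs : x ∈ s <;> simp [hxs]
    have h4 : ∫ x, |s.indicator g x| ∂μ = ∫ x in s, g x ∂μ := by
      rw [← integral_indicator hs]
      congr 1
      funext x
      by_cases hxs : x ∈ s <;> simp [hxs, abs_of_pos (hgpos x)]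
    rw [h1, h3, h4] at h2
    rwa [integral_const_mul]
  have hup : (fun x => F x * w x) ≤ᵐ[μ] fun x => ‖Λ‖ * g x :=
    ae_le_of_forall_setIntegral_le hFw (hgint.const_mul _)
      fun s hs _ => (le_abs_self _).trans (hb s hs)
  have hlo : (fun x => -(F x * w x)) ≤ᵐ[μ] fun x => ‖Λ‖ * g x :=
    ae_le_of_forall_setIntegral_le hFw.neg (hgint.const_mul _) fun s hs _ => by
      rw [integral_neg]
      exact (neg_le_abs _).trans (hb s hs)
  let f : α → ℝ := fun x => max (-‖Λ‖) (min ‖Λ‖ (F x / w x))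
  have hfm : Measurable f := measurable_const.max (measurable_const.min (hFm.div hwmeas))
  have hfb : ∀ x, |f x| ≤ ‖Λ‖ := fun x =>
    abs_le.2 ⟨le_max_left _ _, max_le (by linarith [norm_nonneg Λ]) (min_le_left _ _)⟩
  have hfe : ∀ᵐ x ∂μ, f x = F x / w x := by
    filter_upwards [hup, hlo] with x h1 h2
    have hx := hwpos x
    rw [← hww x] at h1 h2
    have a1 : F x / w x ≤ ‖Λ‖ := by
      rw [div_le_iff₀ hx]
      exact le_of_mul_le_mul_right (by nlinarith) hx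
    have a2 : -‖Λ‖ ≤ F x / w x := by
      rw [le_div_iff₀ hx]
      exact le_of_mul_le_mul_right (by nlinarith) hx
    simp only [f, min_eq_right a1, max_eq_right a2]
  refine ⟨f, hfm, hfb, fun ξ => ?_⟩
  have hξm : Measurable (ξ : α → ℝ) := (Lp.stronglyMeasurable ξ).measurable
  have hξi : Integrable (ξ : α → ℝ) μ := L1.integrable_coeFn ξ
  have hfξ : Integrable (fun x => f x * ξ x) μ :=
    hξi.bdd_mul hfm.aestronglyMeasurable (Eventually.of_forall fun x => hfb x)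
  let B : ℕ → Set α := fun n => {x | (n : ℝ) * g x < |ξ x|}
  have hBm : ∀ n, MeasurableSet (B n) := fun n =>
    measurableSet_lt (hgmeas.const_mul _) hξm.abs
  have hBa : Antitone B := by
    intro m n hmn x hx
    have : (m : ℝ) ≤ n := by exact_mod_cast hmn
    exact lt_of_le_of_lt (mul_le_mul_of_nonneg_right this (hgpos x).le) hx
  have hBe : ⋂ n, B n = ∅ := by
    rw [Set.eq_empty_iff_forall_notMem]
    intro x hx
    obtain ⟨n, hn⟩ := exists_nat_ge (|ξ x| / g x)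
    have := Set.mem_iInter.1 hx n
    rw [div_le_iff₀ (hgpos x)] at hn
    exact absurd this (not_lt.2 hn)
  have hkey : ∀ n, |Λ ξ - ∫ x, f x * ξ x ∂μ| ≤
      ‖Λ‖ * (∫ x in B n, |ξ x| ∂μ) + |∫ x in B n, f x * ξ x ∂μ| := by
    intro n
    have hi : Integrable ((B n).indicator ξ) μ := hξi.indicator (hBm n)
    let h : α → ℝ := (B n)ᶜ.indicator fun x => ξ x / w x
    have hhm : Measurable h := (hξm.div hwmeas).indicator (hBm n).compl
    have hh : MemLp h 2 μ := by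
      refine (hw.const_mul (n : ℝ)).of_le hhm.aestronglyMeasurable
        (Eventually.of_forall fun x => ?_)
      have hx := hwpos x
      rw [Real.norm_eq_abs, Real.norm_eq_abs, abs_of_nonneg (by positivity : 0 ≤ (n : ℝ) * w x)]
      by_cases hxs : x ∈ B n
      · simp only [h, Set.indicator_of_notMem (show x ∉ (B n)ᶜ from fun h => h hxs), abs_zero]
        positivity
      · simp only [h, Set.indicator_of_mem (show x ∈ (B n)ᶜ from hxs)]
        rw [abs_div, abs_of_pos hx, div_le_iff₀ hx, mul_assoc, hww]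
        exact not_lt.1 hxs
    have h1 := hrep h hh (ξ - hi.toL1 _) (by
      filter_upwards [Lp.coeFn_sub ξ (hi.toL1 _), hi.coeFn_toL1] with x h1 h2
      rw [h1, Pi.sub_apply, h2]
      have hx := (hwpos x).ne'
      by_cases hxs : x ∈ B n
      · simp [h, hxs]
      · simp only [h, Set.indicator_of_mem (show x ∈ (B n)ᶜ from hxs),
          Set.indicator_of_notMem hxs]
        field_simp
        ring)
    have h2 : ∫ x, F x * h x ∂μ = ∫ x in (B n)ᶜ, f x * ξ x ∂μ := by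
      rw [← integral_indicator (hBm n).compl]
      apply integral_congr_ae
      filter_upwards [hfe] with x hx
      by_cases hxs : x ∈ B n
      · simp [h, hxs]
      · simp only [h, Set.indicator_of_mem (show x ∈ (B n)ᶜ from hxs), hx]
        ring
    have h3 := integral_add_compl (hBm n) hfξ
    have h4 := abs_apply_le Λ hi
    have h5 : ∫ x, |(B n).indicator ξ x| ∂μ = ∫ x in B n, |ξ x| ∂μ := by
      rw [← integral_indicator (hBm n)]
      congr 1
      funext x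
      by_cases hxs : x ∈ B n <;> simp [hxs]
    rw [h5] at h4
    rw [map_sub, h2] at h1
    have e : Λ ξ - ∫ x, f x * ξ x ∂μ = Λ (hi.toL1 _) - ∫ x in B n, f x * ξ x ∂μ := by
      linarith
    rw [e]
    exact (abs_sub _ _).trans (by linarith)
  have t1 := tendsto_setIntegral_of_antitone (f := fun x => |ξ x|) hBm hBa
    ⟨0, hξi.abs.integrableOn⟩
  have t2 := tendsto_setIntegral_of_antitone (f := fun x => f x * ξ x) hBm hBa
    ⟨0, hfξ.integrableOn⟩
  rw [hBe, setIntegral_empty] at t1 t2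
  have t3 := (t1.const_mul ‖Λ‖).add t2.abs
  have := ge_of_tendsto' t3 hkey
  rw [mul_zero, abs_zero, add_zero] at this
  exact sub_eq_zero.1 (abs_nonpos_iff.1 this)

namespace Fix37

theorem ae_nonneg_of_pair {α : Type u} [MeasurableSpace α] {μ : Measure α} [SigmaFinite μ]
    {φ : α → ℝ} (hm : Measurable φ) {C : ℝ} (hb : ∀ x, |φ x| ≤ C)
    (h : ∀ ξ : Lp ℝ 1 μ, 0 ≤ᵐ[μ] (ξ : α → ℝ) → 0 ≤ ∫ x, φ x * ξ x ∂μ) : 0 ≤ᵐ[μ] φ := by
  refine ae_nonneg_of_forall_setIntegral_nonneg_of_sigmaFinite (fun s _ hμ => ?_) fun s hs hμ => ?_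
  · exact Measure.integrableOn_of_bounded hμ.ne hm.aestronglyMeasurable
      (Eventually.of_forall fun x => hb x)
  · have hi : Integrable (s.indicator fun _ => (1 : ℝ)) μ :=
      (integrableOn_const hμ.ne).integrable_indicator hs
    have h1 := h (hi.toL1 _) (by
      filter_upwards [hi.coeFn_toL1] with x hx
      rw [hx]
      by_cases hxs : x ∈ s <;> simp [hxs])
    have h2 : ∫ x, φ x * (hi.toL1 _) x ∂μ = ∫ x in s, φ x ∂μ := by
      rw [← integral_indicator hs]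
      apply integral_congr_ae
      filter_upwards [hi.coeFn_toL1] with x hx
      rw [hx]
      by_cases hxs : x ∈ s <;> simp [hxs]
    rwa [h2] at h1

theorem integrable_pair {α : Type u} [MeasurableSpace α] {μ : Measure α}
    {φ : α → ℝ} (hm : Measurable φ) {C : ℝ} (hb : ∀ x, |φ x| ≤ C) (ξ : Lp ℝ 1 μ) :
    Integrable (fun x => φ x * ξ x) μ :=
  (L1.integrable_coeFn ξ).bdd_mul hm.aestronglyMeasurable (Eventually.of_forall fun x => hb x)

theorem ae_eq_of_pair {α : Type u} [MeasurableSpace α] {μ : Measure α} [SigmaFinite μ]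
    {φ ψ : α → ℝ} (hm : Measurable φ) (hm' : Measurable ψ) {C : ℝ} (hb : ∀ x, |φ x| ≤ C)
    (hb' : ∀ x, |ψ x| ≤ C)
    (h : ∀ ξ : Lp ℝ 1 μ, ∫ x, φ x * ξ x ∂μ = ∫ x, ψ x * ξ x ∂μ) : φ =ᵐ[μ] ψ := by
  have key : ∀ {φ ψ : α → ℝ}, Measurable φ → Measurable ψ → (∀ x, |φ x| ≤ C) →
      (∀ x, |ψ x| ≤ C) → (∀ ξ : Lp ℝ 1 μ, ∫ x, φ x * ξ x ∂μ = ∫ x, ψ x * ξ x ∂μ) →
      0 ≤ᵐ[μ] fun x => φ x - ψ x := by
    intro φ ψ hm hm' hb hb' h
    refine ae_nonneg_of_pair (C := C + C) (hm.sub hm')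
      (fun x => (abs_sub _ _).trans (add_le_add (hb x) (hb' x))) fun ξ _ => ?_
    simp only [sub_mul]
    rw [integral_sub (integrable_pair hm hb ξ) (integrable_pair hm' hb' ξ), h ξ, sub_self]
  filter_upwards [key hm hm' hb hb' h, key hm' hm hb' hb fun ξ => (h ξ).symm] with x h1 h2
  simp only [Pi.zero_apply] at h1 h2
  linarith

section Grp

variable {G : Type u} [Group G] [MeasurableSpace G] [MeasurableMul G] (μ : Measure G)

/-- left translation on `L¹` -/
noncomputable def lt [μ.IsMulLeftInvariant] (g : G) : Lp ℝ 1 μ →ₗᵢ[ℝ] Lp ℝ 1 μ :=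
  Lp.compMeasurePreservingₗᵢ ℝ (fun x => g * x) (measurePreserving_mul_left μ g)

/-- right translation on `L¹` -/
noncomputable def rt [μ.IsMulRightInvariant] (g : G) : Lp ℝ 1 μ →ₗᵢ[ℝ] Lp ℝ 1 μ :=
  Lp.compMeasurePreservingₗᵢ ℝ (fun x => x * g) (measurePreserving_mul_right μ g)

theorem coe_lt [μ.IsMulLeftInvariant] (g : G) (ξ : Lp ℝ 1 μ) :
    (lt μ g ξ : G → ℝ) =ᵐ[μ] fun x => ξ (g * x) :=
  Lp.coeFn_compMeasurePreserving ξ (measurePreserving_mul_left μ g)

theorem coe_rt [μ.IsMulRightInvariant] (g : G) (ξ : Lp ℝ 1 μ) :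
    (rt μ g ξ : G → ℝ) =ᵐ[μ] fun x => ξ (x * g) :=
  Lp.coeFn_compMeasurePreserving ξ (measurePreserving_mul_right μ g)

theorem rt_one [μ.IsMulRightInvariant] (ξ : Lp ℝ 1 μ) : rt μ 1 ξ = ξ := by
  apply Lp.ext
  filter_upwards [coe_rt μ 1 ξ] with x hx
  rw [hx, mul_one]

theorem rt_mul [μ.IsMulRightInvariant] (a b : G) (ξ : Lp ℝ 1 μ) :
    rt μ (a * b) ξ = rt μ a (rt μ b ξ) := by
  apply Lp.ext
  filter_upwards [coe_rt μ (a * b) ξ, coe_rt μ a (rt μ b ξ),
    (measurePreserving_mul_right μ a).quasiMeasurePreserving.ae (coe_rt μ b ξ)] with x h1 h2 h3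
  rw [h1, h2, h3, mul_assoc]

theorem lt_rt [μ.IsMulLeftInvariant] [μ.IsMulRightInvariant] (a b : G) (ξ : Lp ℝ 1 μ) :
    lt μ a (rt μ b ξ) = rt μ b (lt μ a ξ) := by
  apply Lp.ext
  filter_upwards [coe_lt μ a (rt μ b ξ), coe_rt μ b (lt μ a ξ),
    (measurePreserving_mul_left μ a).quasiMeasurePreserving.ae (coe_rt μ b ξ),
    (measurePreserving_mul_right μ b).quasiMeasurePreserving.ae (coe_lt μ a ξ)] with x h1 h2 h3 h4
  rw [h1, h2, h3, h4, mul_assoc]

theorem pair_lt [μ.IsMulLeftInvariant] (φ : G → ℝ) (g : G) (ξ : Lp ℝ 1 μ) :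
    ∫ x, φ x * (lt μ g⁻¹ ξ) x ∂μ = ∫ x, φ (g * x) * ξ x ∂μ := by
  rw [← integral_mul_left_eq_self (fun x => φ (g * x) * ξ x) g⁻¹]
  apply integral_congr_ae
  filter_upwards [coe_lt μ g⁻¹ ξ] with x hx
  rw [hx, mul_inv_cancel_left]

theorem pair_rt [μ.IsMulRightInvariant] (φ : G → ℝ) (g : G) (ξ : Lp ℝ 1 μ) :
    ∫ x, φ x * (rt μ g⁻¹ ξ) x ∂μ = ∫ x, φ (x * g) * ξ x ∂μ := by
  rw [← integral_mul_right_eq_self (fun x => φ (x * g) * ξ x) g⁻¹]
  apply integral_congr_ae
  filter_upwards [coe_rt μ g⁻¹ ξ] with x hx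
  rw [hx, inv_mul_cancel_right]

theorem integral_rt [μ.IsMulRightInvariant] (g : G) (ξ : Lp ℝ 1 μ) :
    ∫ x, (rt μ g ξ) x ∂μ = ∫ x, ξ x ∂μ := by
  rw [integral_congr_ae (coe_rt μ g ξ)]
  exact integral_mul_right_eq_self (fun x => ξ x) g

/-- the action of a subgroup by right translations -/
noncomputable def act [μ.IsMulRightInvariant] (B : Subgroup G) (k : ℕ) :
    B →* ((Fin k → Lp ℝ 1 μ → ℝ) →L[ℝ] (Fin k → Lp ℝ 1 μ → ℝ)) where
  toFun b :=
    { toFun := fun L i ξ => L i (rt μ (b : G)⁻¹ ξ)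
      map_add' := fun _ _ => rfl
      map_smul' := fun _ _ => rfl
      cont := by fun_prop }
  map_one' := by
    ext L i ξ
    simp [rt_one]
  map_mul' a b := by
    ext L i ξ
    simp [rt_mul]

theorem act_apply [μ.IsMulRightInvariant] (B : Subgroup G) (k : ℕ) (b : B)
    (L : Fin k → Lp ℝ 1 μ → ℝ) (i : Fin k) (ξ : Lp ℝ 1 μ) :
    act μ B k b L i ξ = L i (rt μ (b : G)⁻¹ ξ) := rfl

/-- the compact convex set of flows -/
def KK [μ.IsMulLeftInvariant] (N : Subgroup G) {k : ℕ} (s : Fin k → G) (M ε : ℝ) :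
    Set (Fin k → Lp ℝ 1 μ → ℝ) :=
  {L | (∀ i ξ η, L i (ξ + η) = L i ξ + L i η) ∧ (∀ i (c : ℝ) ξ, L i (c • ξ) = c * L i ξ) ∧
    (∀ i ξ, |L i ξ| ≤ M * ‖ξ‖) ∧ (∀ i, ∀ n ∈ N, ∀ ξ, L i (lt μ n⁻¹ ξ) = L i ξ) ∧
    ∀ ξ : Lp ℝ 1 μ, 0 ≤ᵐ[μ] (ξ : G → ℝ) →
      ε * ∫ x, ξ x ∂μ ≤ ∑ i, (L i (lt μ (s i)⁻¹ ξ) - L i ξ)}

theorem isCompact_KK [μ.IsMulLeftInvariant] (N : Subgroup G) {k : ℕ} (s : Fin k → G) (M ε : ℝ) :
    IsCompact (KK μ N s M ε) := by
  have hc : IsCompact (Set.univ.pi fun _ : Fin k =>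
      Set.univ.pi fun ξ : Lp ℝ 1 μ => Set.Icc (-(M * ‖ξ‖)) (M * ‖ξ‖)) :=
    isCompact_univ_pi fun _ => isCompact_univ_pi fun _ => isCompact_Icc
  refine hc.of_isClosed_subset ?_ fun L hL i _ ξ _ => abs_le.1 (hL.2.2.1 i ξ)
  simp only [KK, Set.ofPred_and, Set.ofPred_forall]
  refine IsClosed.inter ?_ (IsClosed.inter ?_ (IsClosed.inter ?_ (IsClosed.inter ?_ ?_)))
  · exact isClosed_iInter fun i => isClosed_iInter fun ξ => isClosed_iInter fun η =>
      isClosed_eq (by fun_prop) (by fun_prop)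
  · exact isClosed_iInter fun i => isClosed_iInter fun c => isClosed_iInter fun ξ =>
      isClosed_eq (by fun_prop) (by fun_prop)
  · exact isClosed_iInter fun i => isClosed_iInter fun ξ =>
      isClosed_le (by fun_prop) (by fun_prop)
  · exact isClosed_iInter fun i => isClosed_iInter fun n => isClosed_iInter fun _ =>
      isClosed_iInter fun ξ => isClosed_eq (by fun_prop) (by fun_prop)
  · exact isClosed_iInter fun ξ => isClosed_iInter fun _ =>
      isClosed_le (by fun_prop) (by fun_prop)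

theorem convex_KK [μ.IsMulLeftInvariant] (N : Subgroup G) {k : ℕ} (s : Fin k → G) (M ε : ℝ) :
    Convex ℝ (KK μ N s M ε) := by
  rintro L ⟨l1, l2, l3, l4, l5⟩ P ⟨p1, p2, p3, p4, p5⟩ a b ha hb hab
  refine ⟨fun i ξ η => ?_, fun i c ξ => ?_, fun i ξ => ?_, fun i n hn ξ => ?_, fun ξ hξ => ?_⟩
  · simp only [Pi.add_apply, Pi.smul_apply, smul_eq_mul, l1, p1]
    ring
  · simp only [Pi.add_apply, Pi.smul_apply, smul_eq_mul, l2, p2]
    ring
  · simp only [Pi.add_apply, Pi.smul_apply, smul_eq_mul]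
    have h1 := abs_le.1 (l3 i ξ)
    have h2 := abs_le.1 (p3 i ξ)
    have e : M * ‖ξ‖ = a * (M * ‖ξ‖) + b * (M * ‖ξ‖) := by rw [← add_mul, hab, one_mul]
    rw [abs_le]
    constructor <;> nlinarith [mul_le_mul_of_nonneg_left h1.1 ha, mul_le_mul_of_nonneg_left h1.2 ha,
      mul_le_mul_of_nonneg_left h2.1 hb, mul_le_mul_of_nonneg_left h2.2 hb]
  · simp only [Pi.add_apply, Pi.smul_apply, smul_eq_mul, l4 i n hn, p4 i n hn]
  · have h1 := mul_le_mul_of_nonneg_left (l5 ξ hξ) ha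
    have h2 := mul_le_mul_of_nonneg_left (p5 ξ hξ) hb
    have e : ∑ i, ((a • L + b • P) i (lt μ (s i)⁻¹ ξ) - (a • L + b • P) i ξ) =
        a * ∑ i, (L i (lt μ (s i)⁻¹ ξ) - L i ξ) + b * ∑ i, (P i (lt μ (s i)⁻¹ ξ) - P i ξ) := by
      rw [Finset.mul_sum, Finset.mul_sum, ← Finset.sum_add_distrib]
      refine Finset.sum_congr rfl fun i _ => ?_
      simp only [Pi.add_apply, Pi.smul_apply, smul_eq_mul]
      ring
    have e2 : ε * ∫ x, ξ x ∂μ = a * (ε * ∫ x, ξ x ∂μ) + b * (ε * ∫ x, ξ x ∂μ) := by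
      rw [← add_mul, hab, one_mul]
    rw [e]
    linarith

theorem act_mem_KK [μ.IsMulLeftInvariant] [μ.IsMulRightInvariant] (N B : Subgroup G) {k : ℕ}
    (s : Fin k → G) (M ε : ℝ) (b : B) (L : Fin k → Lp ℝ 1 μ → ℝ) (hL : L ∈ KK μ N s M ε) :
    act μ B k b L ∈ KK μ N s M ε := by
  obtain ⟨l1, l2, l3, l4, l5⟩ := hL
  refine ⟨fun i ξ η => ?_, fun i c ξ => ?_, fun i ξ => ?_, fun i n hn ξ => ?_, fun ξ hξ => ?_⟩
  · simp only [act_apply, map_add, l1]
  · simp only [act_apply, map_smul, l2]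
  · rw [act_apply, ← (rt μ (b : G)⁻¹).norm_map ξ]
    exact l3 i _
  · rw [act_apply, act_apply, ← lt_rt, l4 i n hn]
  · have h := l5 (rt μ (b : G)⁻¹ ξ) (by
      filter_upwards [coe_rt μ (b : G)⁻¹ ξ,
        (measurePreserving_mul_right μ (b : G)⁻¹).quasiMeasurePreserving.ae hξ] with x h1 h2
      rw [h1]
      exact h2)
    rw [integral_rt] at h
    simpa only [act_apply, ← lt_rt] using h

theorem pair_div [μ.IsMulLeftInvariant] {k : ℕ} (s : Fin k → G) (f : Fin k → G → ℝ) (M ε : ℝ)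
    (hm : ∀ i, Measurable (f i)) (hb : ∀ i x, |f i x| ≤ M) (ξ : Lp ℝ 1 μ) :
    ∫ x, (∑ i, (f i (s i * x) - f i x) - ε) * ξ x ∂μ =
      ∑ i, (∫ x, f i x * (lt μ (s i)⁻¹ ξ) x ∂μ - ∫ x, f i x * ξ x ∂μ) - ε * ∫ x, ξ x ∂μ := by
  have hi : ∀ i, Integrable (fun x => f i (s i * x) * ξ x) μ := fun i =>
    integrable_pair ((hm i).comp (measurable_const_mul (s i))) (fun x => hb i _) ξ
  have hj : ∀ i, Integrable (fun x => f i x * ξ x) μ := fun i => integrable_pair (hm i) (hb i) ξ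
  have hk : ∀ i, Integrable (fun x => f i (s i * x) * ξ x - f i x * ξ x) μ := fun i =>
    (hi i).sub (hj i)
  simp only [sub_mul, Finset.sum_mul, pair_lt]
  rw [integral_sub (integrable_finsetSum _ fun i _ => hk i)
    ((L1.integrable_coeFn ξ).const_mul ε), integral_finsetSum _ fun i _ => hk i,
    integral_const_mul]
  congr 1
  exact Finset.sum_congr rfl fun i _ => integral_sub (hi i) (hj i)

end Grp

end Fix37

open Fix37 in
/-- a bounded flow can be made right invariant under a solvable subgroup -/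
theorem fixStmt (hMk : MkStmt.{u, u}) : FixStmt.{u} := by
  intro G _ _ _ μ _ _ _ N B _ _ k s f M ε hm hb hN hdiv
  have hne : (KK μ N s M ε).Nonempty := by
    refine ⟨fun i ξ => ∫ x, f i x * ξ x ∂μ, fun i ξ η => ?_, fun i c ξ => ?_, fun i ξ => ?_,
      fun i n hn ξ => ?_, fun ξ hξ => ?_⟩
    · rw [← integral_add (integrable_pair (hm i) (hb i) ξ) (integrable_pair (hm i) (hb i) η)]
      apply integral_congr_ae
      filter_upwards [Lp.coeFn_add ξ η] with x hx
      rw [hx, Pi.add_apply, mul_add]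
    · rw [← integral_const_mul]
      apply integral_congr_ae
      filter_upwards [Lp.coeFn_smul c ξ] with x hx
      rw [hx, Pi.smul_apply, smul_eq_mul]
      ring
    · rw [L1.norm_eq_integral_norm, ← integral_const_mul, ← Real.norm_eq_abs]
      refine norm_integral_le_of_norm_le ((L1.integrable_coeFn ξ).norm.const_mul M)
        (Eventually.of_forall fun x => ?_)
      rw [norm_mul]
      exact mul_le_mul_of_nonneg_right (hb i x) (norm_nonneg _)
    · simp only [pair_lt, hN i n hn]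
    · have h1 := pair_div μ s f M ε hm hb ξ
      have h2 : 0 ≤ ∫ x, (∑ i, (f i (s i * x) - f i x) - ε) * ξ x ∂μ := by
        apply integral_nonneg_of_ae
        filter_upwards [hξ] with x hx
        exact mul_nonneg (sub_nonneg.2 (hdiv x)) hx
      rw [h1] at h2
      exact sub_nonneg.1 h2
  obtain ⟨L, ⟨l1, l2, l3, l4, l5⟩, hfix⟩ := hMk (Fin k → Lp ℝ 1 μ → ℝ) B (act μ B k)
    (KK μ N s M ε) (isCompact_KK μ N s M ε) (convex_KK μ N s M ε) hne
    (fun b L hL => act_mem_KK μ N B s M ε b L hL)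
  have hM : ∀ _ : Fin k, 0 ≤ M := fun i => (abs_nonneg _).trans (hb i 1)
  have hex : ∀ i, ∃ φ : G → ℝ, Measurable φ ∧ (∀ x, |φ x| ≤ M) ∧
      ∀ ξ : Lp ℝ 1 μ, L i ξ = ∫ x, φ x * ξ x ∂μ := by
    intro i
    let Λ0 : Lp ℝ 1 μ →ₗ[ℝ] ℝ := { toFun := L i, map_add' := l1 i, map_smul' := l2 i }
    obtain ⟨φ, h1, h2, h3⟩ := dualStmt G μ (Λ0.mkContinuous M (l3 i))
    exact ⟨φ, h1, fun x => (h2 x).trans (LinearMap.mkContinuous_norm_le _ (hM i) _), h3⟩
  choose φ φm φb φe using hex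
  have hφN : ∀ i, ∀ᵐ x ∂μ, ∀ n : N, φ i (n * x) = φ i x := by
    intro i
    rw [ae_all_iff]
    intro n
    refine ae_eq_of_pair ((φm i).comp (measurable_const_mul (n : G))) (φm i) (fun x => φb i _)
      (φb i) fun ξ => ?_
    have := l4 i n n.2 ξ
    rwa [φe, φe, pair_lt] at this
  have hφB : ∀ i, ∀ b ∈ B, ∀ᵐ x ∂μ, φ i (x * b) = φ i x := by
    intro i b hbB
    refine ae_eq_of_pair ((φm i).comp (measurable_mul_const b)) (φm i) (fun x => φb i _)
      (φb i) fun ξ => ?_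
    have := congrFun (congrFun (hfix ⟨b, hbB⟩) i) ξ
    rwa [act_apply, φe, φe, pair_rt] at this
  have hφd : 0 ≤ᵐ[μ] fun x => ∑ i, (φ i (s i * x) - φ i x) - ε := by
    refine ae_nonneg_of_pair (C := ∑ _i : Fin k, (M + M) + |ε|) ?_ (fun x => ?_) fun ξ hξ => ?_
    · exact (Finset.measurable_sum _ fun i _ =>
        ((φm i).comp (measurable_const_mul (s i))).sub (φm i)).sub measurable_const
    · refine (abs_sub _ _).trans (add_le_add ((Finset.abs_sum_le_sum_abs _ _).trans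
        (Finset.sum_le_sum fun i _ => ?_)) le_rfl)
      exact (abs_sub _ _).trans (add_le_add (φb i _) (φb i _))
    · rw [pair_div μ s φ M ε φm φb ξ, sub_nonneg]
      simpa only [φe] using l5 ξ hξ
  let A : Fin k → Set G := fun i => {x | ∀ n : N, φ i (n * x) = φ i x}
  have hAm : ∀ i, MeasurableSet (A i) := by
    intro i
    simp only [A, Set.ofPred_forall]
    exact MeasurableSet.iInter fun n =>
      measurableSet_eq_fun ((φm i).comp (measurable_const_mul (n : G))) (φm i)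
  have hAinv : ∀ i, ∀ n ∈ N, ∀ x ∈ A i, n * x ∈ A i := by
    intro i n hn x hx m
    have h1 := hx (m * ⟨n, hn⟩)
    have h2 := hx ⟨n, hn⟩
    simp only [Subgroup.coe_mul, mul_assoc] at h1 h2
    rw [h1, h2]
  have hae : ∀ i, ∀ᵐ x ∂μ, (A i).indicator (φ i) x = φ i x := by
    intro i
    filter_upwards [hφN i] with x hx
    exact Set.indicator_of_mem (show x ∈ A i from hx) _
  refine ⟨fun i => (A i).indicator (φ i), fun i => (φm i).indicator (hAm i), fun i x => ?_,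
    fun i n hn x => ?_, ?_, fun i b hbB => ?_⟩
  · beta_reduce
    by_cases hx : x ∈ A i
    · rw [Set.indicator_of_mem hx]
      exact φb i x
    · rw [Set.indicator_of_notMem hx, abs_zero]
      exact hM i
  · beta_reduce
    by_cases hx : x ∈ A i
    · rw [Set.indicator_of_mem hx, Set.indicator_of_mem (hAinv i n hn x hx)]
      exact hx ⟨n, hn⟩
    · have : n * x ∉ A i := fun h => hx (by simpa using hAinv i n⁻¹ (N.inv_mem hn) _ h)
      rw [Set.indicator_of_notMem hx, Set.indicator_of_notMem this]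
  · have h1 : ∀ᵐ x ∂μ, ∀ i, (A i).indicator (φ i) x = φ i x := ae_all_iff.2 hae
    have h2 : ∀ᵐ x ∂μ, ∀ i, (A i).indicator (φ i) (s i * x) = φ i (s i * x) :=
      ae_all_iff.2 fun i => (measurePreserving_mul_left μ (s i)).quasiMeasurePreserving.ae (hae i)
    filter_upwards [h1, h2, hφd] with x h1 h2 h3
    simp only [h1, h2]
    exact sub_nonneg.1 h3
  · filter_upwards [hae i, (measurePreserving_mul_right μ b).quasiMeasurePreserving.ae (hae i),
      hφB i b hbB] with x h1 h2 h3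
    rw [h1, h2, h3]

end Crest.Agent.T24.Nst
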