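import Crest.Agent.T24.KazA_16

/-!
# Row 24: property (T) and the Hecke bound for `SL_d (F)`, `d ≥ 3`, purely algebraically (helper16)
-/

set_option autoImplicit false

namespace Crest.Agent.T24.Kaz

open Finset Matrix Matrix.SpecialLinearGroup
open scoped RealInnerProductSpace

variable {ι F : Type*} [Fintype ι] [DecidableEq ι] [Field F]

/-- elementary matrices -/
def X (i j : ι) (s : F) : SpecialLinearGroup ι F :=
  if h : i ≠ j then SpecialLinearGroup.transvection h s else 1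

theorem X_eq {i j : ι} (h : i ≠ j) (s : F) : X i j s = SpecialLinearGroup.transvection h s := dif_pos h

theorem X_coe {i j : ι} (h : i ≠ j) (s : F) : (X i j s : Matrix ι ι F) = 1 + single i j s := by
  rw [X_eq h]; rfl

theorem X_add (i j : ι) (s t : F) : X i j (s + t) = X i j s * X i j t := by
  unfold X
  split_ifs with h
  · exact transvection_add h s t
  · simp

theorem X_zero (i j : ι) : X i j (0 : F) = 1 := by
  unfold X
  split_ifs with h
  · exact transvection_coeff_zero h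
  · rfl

theorem X_neg (i j : ι) (s : F) : (X i j s)⁻¹ = X i j (-s) :=
  inv_eq_of_mul_eq_one_right (by rw [← X_add, add_neg_cancel, X_zero])

theorem X_comm {i j k l : ι} (h1 : i ≠ j) (h2 : k ≠ l) (h3 : j ≠ k) (h4 : l ≠ i) (s t : F) :
    X i j s * X k l t = X k l t * X i j s := by
  apply Subtype.ext
  simp only [Matrix.SpecialLinearGroup.coe_mul, X_coe h1, X_coe h2, mul_add, add_mul, one_mul, mul_one,
    single_mul_single_of_ne _ _ _ _ h3, single_mul_single_of_ne _ _ _ _ h4]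
  abel

theorem X_heis {i j k : ι} (h1 : i ≠ j) (h2 : j ≠ k) (h3 : i ≠ k) (s t : F) :
    X i j s * X j k t = X j k t * X i j s * X i k (s * t) := by
  apply Subtype.ext
  simp only [Matrix.SpecialLinearGroup.coe_mul, X_coe h1, X_coe h2, X_coe h3, mul_add, add_mul, one_mul,
    mul_one, single_mul_single_of_ne _ _ _ _ h3.symm, single_mul_single_of_ne _ _ _ _ h1.symm,
    single_mul_single_same, zero_mul]
  abel

theorem diag2n_eq {i j : ι} (h : i ≠ j) {a : F} (ha : a ≠ 0) :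
    diag2n h a ha = X i j a * X j i (-a⁻¹) * X i j (a - 1) * X j i 1 * X i j (-1) := by
  apply Subtype.ext
  simp only [Matrix.SpecialLinearGroup.coe_mul, X_coe h, X_coe h.symm, mul_add, add_mul, one_mul,
    mul_one, single_mul_single_of_ne _ _ _ _ h, single_mul_single_of_ne _ _ _ _ h.symm,
    single_mul_single_same, zero_mul, diag2n_coe]
  ext k l
  by_cases h1 : i = k <;> by_cases h2 : j = k <;> by_cases h3 : i = l <;> by_cases h4 : j = l <;>
    simp_all [diagonal_apply, one_apply, eq_comm]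
  all_goals (field_simp; ring)

theorem eq_top_of_X [Nontrivial ι] {H : Subgroup (SpecialLinearGroup ι F)}
    (h : ∀ i j, i ≠ j → ∀ s : F, X i j s ∈ H) (g : SpecialLinearGroup ι F) : g ∈ H :=
  diagonal_transvection_induction' (· ∈ H) g
    (fun i j hij c hc => by
      rw [diag2n_eq]
      exact H.mul_mem (H.mul_mem (H.mul_mem (H.mul_mem (h _ _ hij _) (h _ _ hij.symm _))
        (h _ _ hij _)) (h _ _ hij.symm _)) (h _ _ hij _))
    (fun i j hij a => X_eq hij a ▸ h i j hij a) fun _ _ => H.mul_mem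

/-- the root subgroup `X_{ij} (a O)` -/
def R (O : Subring F) (i j : ι) (a : F) : Subgroup (SpecialLinearGroup ι F) where
  carrier := {g | ∃ o ∈ O, g = X i j (a * o)}
  one_mem' := ⟨0, O.zero_mem, by rw [mul_zero, X_zero]⟩
  mul_mem' := by
    rintro _ _ ⟨o, ho, rfl⟩ ⟨o', ho', rfl⟩
    exact ⟨o + o', O.add_mem ho ho', by rw [mul_add, X_add]⟩
  inv_mem' := by
    rintro _ ⟨o, ho, rfl⟩
    exact ⟨-o, O.neg_mem ho, by rw [X_neg, mul_neg]⟩

theorem R_comp {O : Subring F} {H : Subgroup (SpecialLinearGroup ι F)} {i j k : ι} (h1 : i ≠ j)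
    (h2 : j ≠ k) (h3 : i ≠ k) {a b : F} (ha : R O i j a ≤ H) (hb : R O j k b ≤ H) :
    R O i k (a * b) ≤ H := by
  rintro _ ⟨o, ho, rfl⟩
  have h4 := ha ⟨o, ho, rfl⟩
  have h5 := hb ⟨1, O.one_mem, rfl⟩
  have h6 := H.mul_mem h4 h5
  rw [X_heis h1 h2 h3, H.mul_mem_cancel_left (H.mul_mem h5 h4)] at h6
  convert h6 using 2
  ring

/-- `O` a subring with `F = ⋃ pⁿ O`, and a family of elements of `O` with unit differences -/
structure Dat (O : Subring F) (p : F) {κ : Type*} (t : κ → F) : Prop where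
  mem : ∀ k, t k ∈ O
  unit : ∀ k l, k ≠ l → ∃ u ∈ O, u * (t l - t k) = 1
  all : ∀ x : F, ∃ n : ℕ, ∃ o ∈ O, x = p ^ n * o

theorem exists_third (h : 3 ≤ Fintype.card ι) (i j : ι) : ∃ k, k ≠ i ∧ k ≠ j := by
  by_contra h1
  have h2 : (univ : Finset ι) ⊆ {i, j} := fun k _ => by
    rw [mem_insert, mem_singleton]
    by_contra h3
    exact h1 ⟨k, not_or.1 h3⟩
  have := (card_le_card h2).trans card_le_two
  rw [card_univ] at this
  omega

theorem exists_cyc (h : 3 ≤ Fintype.card ι) {i j : ι} (hij : i ≠ j) :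
    ∃ (n : ℕ) (e : Fin (n + 3) ≃ ι), e 0 = i ∧ e (0 + 1) = j := by
  obtain ⟨n, hn⟩ := Nat.exists_eq_add_of_le' h
  obtain ⟨e₀⟩ : Nonempty (Fin (n + 3) ≃ ι) := ⟨(Fintype.equivFinOfCardEq hn).symm⟩
  set e₁ := e₀.trans (Equiv.swap (e₀ 0) i) with he₁
  have h1 : e₁ 0 = i := by simp [he₁]
  refine ⟨n, e₁.trans (Equiv.swap (e₁ 1) j), ?_, by simp⟩
  rw [Equiv.trans_apply, h1, Equiv.swap_apply_of_ne_of_ne _ hij]
  rw [← h1]
  exact e₁.injective.ne zero_ne_one

theorem ne_one' {n : ℕ} (i : Fin (n + 3)) : i ≠ i + 1 := by simp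

theorem ne_two' {n : ℕ} (i : Fin (n + 3)) : i ≠ i + 1 + 1 := by
  rw [add_assoc, Ne, left_eq_add, Fin.ext_iff, Fin.val_add]
  simp [Nat.mod_eq_of_lt]

/-- the cyclic root subgroups generate -/
theorem gen {O : Subring F} {p : F} (hall : ∀ x : F, ∃ n : ℕ, ∃ o ∈ O, x = p ^ n * o) {n : ℕ}
    (e : Fin (n + 3) ≃ ι) {H : Subgroup (SpecialLinearGroup ι F)}
    (h1 : ∀ i, R O (e i) (e (i + 1)) 1 ≤ H) (hp : R O (e 0) (e (0 + 1)) p ≤ H)
    (g : SpecialLinearGroup ι F) : g ∈ H := by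
  have hc : 3 ≤ Fintype.card ι := by rw [← Fintype.card_congr e, Fintype.card_fin]; omega
  have h2 : ∀ i k : Fin (n + 3), k ≠ 0 → R O (e i) (e (i + k)) 1 ≤ H := fun i k => by
    refine Fin.induction (by simp) (fun k ih hk => ?_) k
    rw [← Fin.coeSucc_eq_succ] at hk ⊢
    by_cases h0 : k.castSucc = 0
    · rw [h0, zero_add]; exact h1 i
    · have := R_comp (e.injective.ne (by simpa using h0)) (e.injective.ne (ne_one' _))
        (e.injective.ne (by rwa [add_assoc, Ne, left_eq_add])) (ih h0) (h1 _)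
      rwa [mul_one, add_assoc] at this
  have h3 : ∀ i j, i ≠ j → R O i j 1 ≤ H := fun i j hij => by
    have := h2 (e.symm i) (e.symm j - e.symm i) (sub_ne_zero.2 (e.symm.injective.ne hij.symm))
    simpa using this
  have h01 : e 0 ≠ e (0 + 1) := e.injective.ne (ne_one' _)
  have h4 : ∀ j, e 0 ≠ j → R O (e 0) j p ≤ H := fun j hj => by
    by_cases h : e (0 + 1) = j
    · exact h ▸ hp
    · simpa using R_comp h01 h hj hp (h3 _ _ h)
  have h5 : ∀ i j, i ≠ j → e 0 ≠ j → R O i j p ≤ H := fun i j hij hj => by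
    by_cases h : i = e 0
    · exact h ▸ h4 j hj
    · simpa using R_comp h hj hij (h3 _ _ h) (h4 j hj)
  have h6 : ∀ i j, i ≠ j → R O i j p ≤ H := fun i j hij => by
    by_cases h : e 0 = j
    · obtain ⟨k, k1, k2⟩ := exists_third hc i j
      simpa using R_comp k1.symm k2 hij (h5 i k k1.symm (h ▸ k2.symm)) (h3 _ _ k2)
    · exact h5 i j hij h
  have h7 : ∀ (m : ℕ) i j, i ≠ j → R O i j (p ^ m) ≤ H := fun m => by
    induction m with
    | zero => simpa using h3
    | succ m ih =>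
      intro i j hij
      obtain ⟨k, k1, k2⟩ := exists_third hc i j
      rw [pow_succ]
      exact R_comp k1.symm k2 hij (ih _ _ k1.symm) (h6 _ _ k2)
  have : Nontrivial ι := ⟨_, _, h01⟩
  refine eq_top_of_X (fun i j hij s => ?_) g
  obtain ⟨m, o, ho, rfl⟩ := hall s
  exact h7 m i j hij ⟨o, ho, rfl⟩

variable {V : Type*} [NormedAddCommGroup V] [InnerProductSpace ℝ V] [CompleteSpace V]
  (π : SpecialLinearGroup ι F →* (V ≃ₗᵢ[ℝ] V)) {O : Subring F} {p : F} {κ : Type*} [Fintype κ]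
  {t : κ → F}

theorem ang_R [Nontrivial κ] (h : Dat O p t) {i j k : ι} (h1 : i ≠ j) (h2 : j ≠ k) (h3 : i ≠ k)
    (a b : F) : Ang (Fix π (R O i j a)) (Fix π (R O j k b)) (1 / √(Fintype.card κ)) := by
  refine ang_heis π (Z := R O i k (a * b)) (fun l => X j k (b * t l)) ?_ ?_
    (fun l => ⟨_, h.mem l, rfl⟩) ?_
  · rintro _ ⟨o, -, rfl⟩ _ ⟨o', -, rfl⟩
    exact X_comm h1 h3 h1.symm h3.symm _ _
  · rintro _ ⟨o, ho, rfl⟩ _ ⟨o', ho', rfl⟩
    exact ⟨_, ⟨o * o', O.mul_mem ho ho', rfl⟩, by rw [X_heis h1 h2 h3]; congr 2; ring⟩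
  · rintro l m hlm _ ⟨o, ho, rfl⟩
    obtain ⟨u, hu, e⟩ := h.unit l m hlm
    refine ⟨_, ⟨o * u, O.mul_mem ho hu, rfl⟩, ?_⟩
    rw [X_neg, ← X_add, X_heis h1 h2 h3]
    congr 2
    linear_combination a * b * o * e

/-- the angle matrix of the cycle -/
noncomputable def cm (c : ℝ) {n : ℕ} (i j : Fin (n + 3)) : ℝ := if j = i + 1 ∨ i = j + 1 then c else 0

theorem sum_cm {c : ℝ} (hc : 0 ≤ c) {n : ℕ} (i : Fin (n + 3)) :
    ∑ j ∈ univ.erase i, cm c i j ≤ 2 * c := by
  calc _ ≤ ∑ j, ((if j = i + 1 then c else 0) + if j = i - 1 then c else 0) := by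
        refine le_trans (sum_le_sum fun j _ => ?_) (sum_le_sum_of_subset_of_nonneg (subset_univ _)
          fun j _ _ => add_nonneg (by split_ifs <;> simp [hc]) (by split_ifs <;> simp [hc]))
        simp only [cm, eq_sub_iff_add_eq, eq_comm (a := i)]
        split_ifs <;> simp_all
    _ = 2 * c := by simp [sum_add_distrib, two_mul]

theorem ang_cyc [Nontrivial κ] (h : Dat O p t) {n : ℕ} (e : Fin (n + 3) ≃ ι) (a : Fin (n + 3) → F)
    {i j : Fin (n + 3)} : Ang (Fix π (R O (e i) (e (i + 1)) (a i)))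
      (Fix π (R O (e j) (e (j + 1)) (a j))) (cm (1 / √(Fintype.card κ)) i j) ∨ i = j := by
  have h1 := fun i => e.injective.ne (ne_one' i)
  have h2 := fun i => e.injective.ne (ne_two' i)
  left
  unfold cm
  split_ifs with h0
  · rcases h0 with rfl | rfl
    · exact ang_R π h (h1 _) (h1 _) (h2 _) _ _
    · exact (ang_R π h (h1 _) (h1 _) (h2 _) _ _).symm (by positivity)
  · refine ang_comm π ?_
    rintro _ ⟨o, -, rfl⟩ _ ⟨o', -, rfl⟩
    exact X_comm (h1 _) (h1 _) (e.injective.ne fun h => h0 (Or.inl h.symm))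
      (e.injective.ne fun h => h0 (Or.inr h.symm)) _ _

theorem sqrt_le (hκ : 5 ≤ Fintype.card κ) : 1 / √(Fintype.card κ : ℝ) ≤ 9 / 20 := by
  have h1 : (5 : ℝ) ≤ Fintype.card κ := by exact_mod_cast hκ
  have h2 : 20 / 9 ≤ √(Fintype.card κ : ℝ) := Real.le_sqrt_of_sq_le (by linarith)
  rw [div_le_iff₀ (by linarith)]
  linarith

theorem gap_cyc (h : Dat O p t) (hκ : 5 ≤ Fintype.card κ) {n : ℕ} (e : Fin (n + 3) ≃ ι)
    (a : Fin (n + 3) → F) (h1 : ∀ i, ∃ o ∈ O, a i * o = 1) (h0 : a 0 = p) (v : V) :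
    ‖Q (Fix π ⊤) v‖ ^ 2 ≤ 10 * ∑ i, ‖Q (Fix π (R O (e i) (e (i + 1)) (a i))) v‖ ^ 2 := by
  have : Nontrivial κ := Fintype.one_lt_card_iff_nontrivial.1 (by omega)
  have hc := sqrt_le hκ
  have hc0 : 0 ≤ 1 / √(Fintype.card κ : ℝ) := by positivity
  have h2 := gap (fun i => Fix π (R O (e i) (e (i + 1)) (a i))) (cm (1 / √(Fintype.card κ)))
    (l := 1 / 10) (fun i j => by simp only [cm, or_comm])
    (fun i => (sum_cm hc0 i).trans (by linarith))
    (fun i j hij => ((ang_cyc π h e a).resolve_right hij).Q_ge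
      (by unfold cm; split_ifs <;> simp) (by unfold cm; split_ifs <;> linarith))
    (by norm_num) v
  have h3 : (⨅ i, Fix π (R O (e i) (e (i + 1)) (a i))) = Fix π ⊤ := by
    refine le_antisymm (fun w hw g _ => ?_) (le_iInf fun i w hw g _ => hw g trivial)
    rw [Submodule.mem_iInf] at hw
    let H : Subgroup (SpecialLinearGroup ι F) :=
      { carrier := {g | π g w = w}
        one_mem' := by simp
        mul_mem' := fun {x y} hx hy => by
          show π (x * y) w = w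
          rw [pi_mul, hy, hx]
        inv_mem' := fun {x} hx => by
          show π x⁻¹ w = w
          conv_lhs => rw [← hx, ← pi_mul, inv_mul_cancel, map_one]
          rfl }
    refine gen (H := H) h.all e (fun i => ?_) (h0 ▸ hw 0) g
    rintro _ ⟨o, ho, rfl⟩
    obtain ⟨o', ho', e'⟩ := h1 i
    exact hw i _ ⟨o' * o, O.mul_mem ho' ho, by rw [← mul_assoc, e']⟩
  simp only [h3] at h2
  linarith

/-- KAZHDAN: almost invariant vectors are close to invariant vectors -/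
theorem kazhdan (h : Dat O p t) (hp : ∃ o ∈ O, p * o = 1) (hκ : 5 ≤ Fintype.card κ)
    (hι : 3 ≤ Fintype.card ι) {v : V} {ε : ℝ}
    (hv : ∀ (i j : ι) (hij : i ≠ j), ∀ o ∈ O,
      ‖π (SpecialLinearGroup.transvection hij (p * o)) v - v‖ ≤ ε) :
    ∃ w, (∀ g, π g w = w) ∧ ‖v - w‖ ^ 2 ≤ 10 * Fintype.card ι * ε ^ 2 := by
  have : Nontrivial ι := Fintype.one_lt_card_iff_nontrivial.1 (by omega)
  obtain ⟨i, j, hij⟩ := exists_pair_ne ι
  obtain ⟨n, e, -⟩ := exists_cyc hι hij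
  refine ⟨_, fun g => (Fix π ⊤).starProjection_apply_mem v g trivial,
    (gap_cyc π h hκ e (fun _ => p) (fun _ => hp) rfl v).trans ?_⟩
  rw [mul_assoc, ← Fintype.card_congr e, ← nsmul_eq_mul, ← card_univ, ← sum_const]
  refine mul_le_mul_of_nonneg_left (sum_le_sum fun i _ => pow_le_pow_left₀ (norm_nonneg _)
    (norm_Q_Fix_le π _ ?_) 2) (by norm_num)
  rintro _ ⟨o, ho, rfl⟩
  rw [X_eq (e.injective.ne (ne_one' i))]
  exact hv _ _ _ o ho

/-- HECKE: `b` fixed by the integral elementary matrices and orthogonal to the invariant vectors,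
`a` fixed by one larger root subgroup -/
theorem hecke (h : Dat O p t) (hp : ∃ o ∈ O, p * o = 1) (hκ : 5 ≤ Fintype.card κ)
    (hι : 3 ≤ Fintype.card ι) {a b : V} {i₀ j₀ : ι} (h₀ : i₀ ≠ j₀)
    (ha : ∀ o ∈ O, π (SpecialLinearGroup.transvection h₀ (p * o)) a = a)
    (hb : ∀ (i j : ι) (hij : i ≠ j), ∀ o ∈ O, π (SpecialLinearGroup.transvection hij o) b = b)
    (h0 : ∀ w, (∀ g, π g w = w) → ⟪w, b⟫ = 0) :
    |⟪a, b⟫| ≤ 5 / √(Fintype.card κ) * ‖a‖ * ‖b‖ := by
  have : Nontrivial κ := Fintype.one_lt_card_iff_nontrivial.1 (by omega)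
  obtain ⟨n, e, rfl, rfl⟩ := exists_cyc hι h₀
  set c := 1 / √(Fintype.card κ : ℝ) with hc
  have hc0 : 0 ≤ c := by positivity
  have hc1 : c ≤ 9 / 20 := sqrt_le hκ
  set A : Fin (n + 3) → F := fun i => if i = 0 then p else 1 with hA
  have ha' : a ∈ Fix π (R O (e 0) (e (0 + 1)) (A 0)) := by
    rintro _ ⟨o, ho, rfl⟩
    rw [X_eq h₀]
    exact ha o ho
  set a' := (Fix π (R O (e 0) (e (0 + 1)) (A 0))).starProjection b with ha''
  have h1 := gap_cyc π h hκ e A (fun i => by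
    simp only [hA]; split_ifs; exacts [hp, ⟨1, O.one_mem, one_mul _⟩]) (if_pos rfl) a'
  have h2 : Q (Fix π ⊤) a' = a' := by
    rw [Q_apply, sub_eq_self]
    refine Submodule.eq_starProjection_of_mem_of_inner_eq_zero (Submodule.zero_mem _) fun w hw => ?_
    rw [sub_zero, ha'', P_inner _ b (show w ∈ Fix π _ from fun g _ => hw g trivial), real_inner_comm]
    exact h0 w fun g => hw g trivial
  have h3 : ∑ i, ‖Q (Fix π (R O (e i) (e (i + 1)) (A i))) a'‖ ^ 2 ≤ 2 * c * (c * ‖b‖ ^ 2) := by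
    rw [← add_sum_erase _ _ (mem_univ 0), Q_of_mem (Submodule.starProjection_apply_mem _ _),
      norm_zero, zero_pow two_ne_zero, zero_add]
    refine le_trans (sum_le_sum fun j hj => ?_)
      ((sum_mul _ _ _).symm.trans_le (mul_le_mul_of_nonneg_right (sum_cm hc0 0) (by positivity)))
    have hj0 := ne_of_mem_erase hj
    have h4 := ((ang_cyc π h e A).resolve_right hj0.symm).norm_QP
      (by unfold cm; split_ifs <;> simp) (b := b) (by
        rintro _ ⟨o, ho, rfl⟩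
        rw [X_eq (e.injective.ne (ne_one' j))]
        simp only [hA, if_neg hj0, one_mul]
        exact hb _ _ _ o ho)
    refine (pow_le_pow_left₀ (norm_nonneg _) h4 2).trans (le_of_eq ?_)
    unfold cm; split_ifs <;> ring
  have h5 : ‖a'‖ ≤ 5 * c * ‖b‖ := by
    refine (pow_le_pow_iff_left₀ (norm_nonneg _) (by positivity) two_ne_zero).1 ?_
    rw [h2] at h1
    nlinarith [sq_nonneg (c * ‖b‖)]
  rw [real_inner_comm, ← P_inner _ b ha']
  refine (abs_real_inner_le_norm _ _).trans ?_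
  calc ‖a'‖ * ‖a‖ ≤ 5 * c * ‖b‖ * ‖a‖ := by gcongr
    _ = _ := by rw [hc]; ring

/-! ## Real or complex Hilbert spaces -/

section rc
variable {𝕜 E : Type*} [RCLike 𝕜] [NormedAddCommGroup E] [InnerProductSpace 𝕜 E]

/-- the underlying real representation -/
noncomputable def toReal {G : Type*} [Group G] (ρ : G →* (E ≃ₗᵢ[𝕜] E)) :
    letI := InnerProductSpace.rclikeToReal 𝕜 E
    G →* (E ≃ₗᵢ[ℝ] E) :=
  letI := InnerProductSpace.rclikeToReal 𝕜 E
  { toFun := fun g =>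
      { toFun := ρ g
        invFun := (ρ g).symm
        map_add' := map_add _
        map_smul' := fun c v => map_smul (ρ g) (c : 𝕜) v
        left_inv := (ρ g).symm_apply_apply
        right_inv := (ρ g).apply_symm_apply
        norm_map' := (ρ g).norm_map }
    map_one' := by ext v; simp
    map_mul' := fun g h => by ext v; simp }

variable [CompleteSpace E] (ρ : SpecialLinearGroup ι F →* (E ≃ₗᵢ[𝕜] E))

theorem kazhdan_rc (h : Dat O p t) (hp : ∃ o ∈ O, p * o = 1) (hκ : 5 ≤ Fintype.card κ)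
    (hι : 3 ≤ Fintype.card ι) {v : E} {ε : ℝ}
    (hv : ∀ (i j : ι) (hij : i ≠ j), ∀ o ∈ O,
      ‖ρ (SpecialLinearGroup.transvection hij (p * o)) v - v‖ ≤ ε) :
    ∃ w, (∀ g, ρ g w = w) ∧ ‖v - w‖ ^ 2 ≤ 10 * Fintype.card ι * ε ^ 2 :=
  letI := InnerProductSpace.rclikeToReal 𝕜 E
  kazhdan (toReal ρ) h hp hκ hι hv

theorem hecke_rc (h : Dat O p t) (hp : ∃ o ∈ O, p * o = 1) (hκ : 5 ≤ Fintype.card κ)
    (hι : 3 ≤ Fintype.card ι) {a b : E} {i₀ j₀ : ι} (h₀ : i₀ ≠ j₀)
    (ha : ∀ o ∈ O, ρ (SpecialLinearGroup.transvection h₀ (p * o)) a = a)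
    (hb : ∀ (i j : ι) (hij : i ≠ j), ∀ o ∈ O, ρ (SpecialLinearGroup.transvection hij o) b = b)
    (h0 : ∀ w, (∀ g, ρ g w = w) → inner 𝕜 w b = 0) :
    ‖inner 𝕜 a b‖ ≤ 5 / √(Fintype.card κ) * ‖a‖ * ‖b‖ := by
  letI := InnerProductSpace.rclikeToReal 𝕜 E
  have h1 := hecke (toReal ρ) h hp hκ hι (a := inner 𝕜 a b • a) (b := b) h₀
    (fun o ho => (map_smul (ρ _) _ a).trans (by rw [ha o ho])) hb
    fun w hw => by
      show RCLike.re (inner 𝕜 w b) = 0
      rw [h0 w hw, map_zero]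
  have h2 : inner ℝ (inner 𝕜 a b • a) b = ‖inner 𝕜 a b‖ ^ 2 := by
    show RCLike.re (inner 𝕜 (inner 𝕜 a b • a) b) = _
    rw [inner_smul_left, RCLike.conj_mul]
    norm_cast
  rw [h2, norm_smul, abs_of_nonneg (sq_nonneg _)] at h1
  rcases (norm_nonneg (inner 𝕜 a b)).eq_or_lt with h3 | h3
  · rw [← h3]; positivity
  · exact le_of_mul_le_mul_left (by linarith) h3

end rc

/-! ## Valuation rings -/

section val
variable {Γ : Type*} [LinearOrderedCommGroupWithZero Γ] (v : Valuation F Γ)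

theorem inv_of_val {p : F} (hp : 1 < v p) : ∃ o ∈ v.integer, p * o = 1 := by
  have h0 : p ≠ 0 := fun h => by simp [h] at hp
  refine ⟨p⁻¹, ?_, mul_inv_cancel₀ h0⟩
  rw [Valuation.mem_integer_iff, map_inv₀]
  exact inv_le_one_of_one_le₀ hp.le

theorem dat_of_val [MulArchimedean Γ] {p : F} (hp : 1 < v p) {κ : Type*} {t : κ → F}
    (ht : ∀ k, v (t k) ≤ 1) (hu : ∀ k l, k ≠ l → v (t l - t k) = 1) : Dat v.integer p t := by
  refine ⟨ht, fun k l h => ⟨(t l - t k)⁻¹, ?_, inv_mul_cancel₀ fun h0 => ?_⟩, fun x => ?_⟩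
  · rw [Valuation.mem_integer_iff, map_inv₀, hu k l h, inv_one]
  · simpa [h0] using hu k l h
  · have h0 : p ≠ 0 := fun h => by simp [h] at hp
    obtain ⟨n, hn⟩ := MulArchimedean.arch (v x) hp
    refine ⟨n, x / p ^ n, ?_, by field_simp⟩
    rw [Valuation.mem_integer_iff, map_div₀, map_pow]
    exact div_le_one_of_le₀ hn zero_le

/-- representatives of the residue field -/
theorem exists_dat [MulArchimedean Γ] {p : F} (hp : 1 < v p) {κ : Type*} [Ring κ]
    (r : v.integer →+* κ) (hr : Function.Surjective r) (h0 : ∀ x : v.integer, v x < 1 → r x = 0) :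
    ∃ t : κ → F, Dat v.integer p t := by
  choose s hs using hr
  refine ⟨fun k => s k, dat_of_val v hp (fun k => (s k).2) fun k l h => ?_⟩
  refine ((s l - s k).2 : v _ ≤ 1).eq_of_not_lt fun h1 => h ?_
  have := h0 _ h1
  rw [map_sub, hs, hs, sub_eq_zero] at this
  exact this.symm

end val

end Crest.Agent.T24.Kaz
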