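import Crest.Agent.T24.NstDef_39
import Crest.Agent.T24.Kaz_16

/-!
# Row 24, NST-KAZ: `KazStmt` (helper16)
-/

set_option autoImplicit false

namespace Crest.Agent.T24.Nst

open Crest.Agent.N111 Matrix

namespace Kz16

/-- a unitary representation as a homomorphism to the isometry group -/
noncomputable def iso {G H : Type*} [Group G] [NormedAddCommGroup H] [InnerProductSpace ℂ H]
    (ρ : URep G H) : G →* (H ≃ₗᵢ[ℂ] H) where
  toFun g :=
    { toFun := ρ g
      invFun := ρ g⁻¹
      map_add' := map_add _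
      map_smul' := map_smul _
      left_inv := ρ.inv_apply_apply g
      right_inv := ρ.apply_inv_apply g
      norm_map' := ρ.norm_map g }
  map_one' := by ext v; simp
  map_mul' g h := by ext v; exact ρ.mul_apply g h v

theorem cpt_adjoin {F : Type*} [Field F] [TopologicalSpace F] [IsTopologicalRing F] {O : Subring F}
    (hO : IsCompact (O : Set F)) {π : F} {n : ℕ} (h : π ^ n * π ∈ O) :
    IsCompact ((Algebra.adjoin O {π}).toSubring : Set F) := by
  have : CompactSpace O := isCompact_iff_compactSpace.1 hO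
  have hi : IsIntegral O π := IsIntegral.of_pow (Nat.succ_pos n)
    (by rw [pow_succ]; exact isIntegral_algebraMap (x := (⟨_, h⟩ : O)))
  exact Submodule.isCompact_of_fg hi.fg_adjoin_singleton

theorem continuous_X {ι F : Type*} [Fintype ι] [DecidableEq ι] [Field F] [TopologicalSpace F]
    [IsTopologicalRing F] (i j : ι) : Continuous fun s : F => Kaz.X i j s := by
  by_cases h : i ≠ j
  · refine Continuous.subtype_mk (f := fun s : F => (Kaz.X i j s : Matrix ι ι F)) ?_ _
    simp only [Kaz.X_coe h]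
    refine continuous_const.add (continuous_matrix fun a b => ?_)
    simp only [single_apply]
    split_ifs
    exacts [continuous_id, continuous_const]
  · simp only [Kaz.X, dif_neg h]
    exact continuous_const

end Kz16

universe u w

theorem kazStmt : KazStmt.{u, w} := by
  intro F _ _ _ O π d h hd
  obtain ⟨n, hn⟩ := h.abs π
  obtain ⟨t, ht1, ht2⟩ := h.res
  set O' := (Algebra.adjoin O {π}).toSubring with hO'
  have hle : ∀ x ∈ O, x ∈ O' := fun x hx => (Algebra.adjoin O {π}).algebraMap_mem ⟨x, hx⟩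
  have hD : Kaz.Dat O' π⁻¹ t :=
    ⟨fun k => hle _ (ht1 k), fun k l hkl => ⟨_, hle _ (ht2 l k hkl.symm).2,
      inv_mul_cancel₀ (sub_ne_zero.2 (ht2 l k hkl.symm).1)⟩, fun x => by
      obtain ⟨m, hm⟩ := h.abs x
      exact ⟨m, _, hle _ hm, (inv_pow π m ▸ inv_mul_cancel_left₀ (pow_ne_zero m h.ne) x).symm⟩⟩
  have hp : ∃ o ∈ O', π⁻¹ * o = 1 :=
    ⟨π, Algebra.self_mem_adjoin_singleton O π, inv_mul_cancel₀ h.ne⟩
  have hd' : (3 : ℝ) ≤ d := by exact_mod_cast hd
  refine ⟨⋃ i : Fin d, ⋃ j : Fin d, (fun o => Kaz.X i j (π⁻¹ * o)) '' O', 1 / (10 * d),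
    isCompact_iUnion fun i => isCompact_iUnion fun j => (Kz16.cpt_adjoin h.cpt hn).image
      ((Kz16.continuous_X i j).comp (continuous_const.mul continuous_id)), by positivity,
    fun H _ _ _ ρ x hx hK => ?_⟩
  obtain ⟨y, hy1, hy2⟩ := Kaz.kazhdan_rc (Kz16.iso ρ) hD hp (by simp) (by simpa using hd) (v := x)
    fun i j hij o ho => hK _ (Set.mem_iUnion₂.2 ⟨i, j, o, ho, Kaz.X_eq hij _⟩)
  refine ⟨y, fun h0 => ?_, hy1⟩
  rw [h0, sub_zero, Fintype.card_fin] at hy2
  have h1 : 0 < ‖x‖ ^ 2 := by positivity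
  have h2 : 10 * (d : ℝ) * (1 / (10 * d) * ‖x‖) ^ 2 = ‖x‖ ^ 2 / (10 * d) := by field_simp
  rw [h2, le_div_iff₀ (by positivity)] at hy2
  nlinarith

end Crest.Agent.T24.Nst
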