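import Crest.Agent.T24.NstDef_39

/-!
# Row 24, module NST (helper33): Markov–Kakutani for solvable groups; Hahn–Banach gives Reiter's condition
-/

set_option autoImplicit false

namespace Crest.Agent.T24.Nst

open Topology Filter

universe u v

namespace Mk33

variable {E : Type*} [AddCommGroup E] [Module ℝ E] [TopologicalSpace E] [IsTopologicalAddGroup E]
  [ContinuousSMul ℝ E] [T2Space E] {K : Set E}

theorem fix_one (hK : IsCompact K) (hc : Convex ℝ K) (hn : K.Nonempty) (T : E →L[ℝ] E)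
    (hT : ∀ x ∈ K, T x ∈ K) : ∃ x ∈ K, T x = x := by
  obtain ⟨x₀, h0⟩ := hn
  have h1 : ∀ k : ℕ, T^[k] x₀ ∈ K := fun k => by
    induction k with
    | zero => exact h0
    | succ k ih => rw [Function.iterate_succ_apply']; exact hT _ ih
  let A : ℕ → E := fun n => ∑ k ∈ Finset.range (n + 1), ((n : ℝ) + 1)⁻¹ • T^[k] x₀
  have h2 : ∀ n, A n ∈ K := fun n => hc.sum_mem (fun _ _ => by positivity)
    (by simp only [Finset.sum_const, Finset.card_range, nsmul_eq_mul]; push_cast; field_simp)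
    fun k _ => h1 k
  have h3 : Tendsto (fun n => T (A n) - A n) atTop (𝓝 0) := by
    have e : ∀ n, T (A n) - A n = ((n : ℝ) + 1)⁻¹ • (T^[n + 1] x₀ - x₀) := fun n => by
      simp only [A, map_sum, map_smul, ← Finset.sum_sub_distrib, ← smul_sub, ← Finset.smul_sum]
      congr 1
      simpa only [Function.iterate_succ_apply', Function.iterate_zero_apply] using
        Finset.sum_range_sub (fun k => T^[k] x₀) (n + 1)
    simp only [e]
    exact ((hK.image (continuous_sub_right x₀)).isVonNBounded ℝ).smul_tendsto_zero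
      (Eventually.of_forall fun n => ⟨_, h1 (n + 1), rfl⟩)
      (by simpa only [one_div] using tendsto_one_div_add_atTop_nhds_zero_nat (𝕜 := ℝ))
  obtain ⟨x, hx, h4⟩ := hK.ultrafilter_le_nhds ((hyperfilter ℕ).map A)
    (le_principal_iff.2 (mem_map.2 (Eventually.of_forall h2)))
  have h5 : Tendsto A (hyperfilter ℕ) (𝓝 x) := h4
  exact ⟨x, hx, sub_eq_zero.1 (tendsto_nhds_unique (((T.continuous.tendsto x).comp h5).sub h5)
    (h3.mono_left Nat.hyperfilter_le_atTop))⟩

omit [IsTopologicalAddGroup E] [ContinuousSMul ℝ E] in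
theorem closed_fix {ι : Type*} (T : ι → E →L[ℝ] E) (P : ι → Prop) :
    IsClosed {x | ∀ i, P i → T i x = x} := by
  simp only [Set.ofPred_forall]
  exact isClosed_iInter fun i => isClosed_iInter fun _ => isClosed_eq (T i).continuous continuous_id

omit [IsTopologicalAddGroup E] [ContinuousSMul ℝ E] [T2Space E] in
theorem convex_fix {ι : Type*} (T : ι → E →L[ℝ] E) (P : ι → Prop) :
    Convex ℝ {x | ∀ i, P i → T i x = x} := fun x hx y hy a b _ _ _ i hi => by
  rw [map_add, map_smul, map_smul, hx i hi, hy i hi]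

theorem fix_comm (hK : IsCompact K) (hc : Convex ℝ K) (hn : K.Nonempty) {ι : Type*}
    (T : ι → E →L[ℝ] E) (hT : ∀ i, ∀ x ∈ K, T i x ∈ K)
    (h : ∀ i j, ∀ x ∈ K, T i (T j x) = T j (T i x)) : ∃ x ∈ K, ∀ i, T i x = x := by
  classical
  have key : ∀ S : Finset ι, (K ∩ {x | ∀ i, i ∈ S → T i x = x}).Nonempty := by
    intro S
    induction S using Finset.induction_on with
    | empty => simpa using hn
    | insert j S _ ih =>
      obtain ⟨x, hx, h1⟩ := fix_one (hK.inter_right (closed_fix T _)) (hc.inter (convex_fix T _)) ih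
        (T j) fun x hx => ⟨hT j x hx.1, fun i hi => by rw [h i j x hx.1, hx.2 i hi]⟩
      exact ⟨x, hx.1, fun i hi => (Finset.mem_insert.1 hi).elim (fun e => e ▸ h1) (hx.2 i)⟩
  obtain ⟨x, hx, h1⟩ := hK.inter_iInter_nonempty (fun i => {x | T i x = x})
    (fun i => isClosed_eq (T i).continuous continuous_id) fun S => by
      simpa only [Set.ofPred_forall] using key S
  exact ⟨x, hx, fun i => Set.mem_iInter.1 h1 i⟩

end Mk33

open Mk33

theorem mkStmt : MkStmt.{u, v} := by
  intro E _ _ _ _ _ _ B _ hB ρ K hK hc hn hρ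
  obtain ⟨N, hN⟩ := hB.solvable
  have key : ∀ n, (K ∩ {x | ∀ b, b ∈ derivedSeries B (n + 1) → ρ b x = x}).Nonempty →
      (K ∩ {x | ∀ b, b ∈ derivedSeries B n → ρ b x = x}).Nonempty := by
    intro n h
    have hm : ∀ a b x, ρ (a * b) x = ρ a (ρ b x) := fun a b x => by rw [map_mul]; rfl
    obtain ⟨x, hx, h1⟩ := fix_comm (hK.inter_right (closed_fix ρ _)) (hc.inter (convex_fix ρ _)) h
      (fun b : derivedSeries B n => ρ b) (fun b x hx => ⟨hρ _ _ hx.1, fun a ha => by
        have := hx.2 _ ((derivedSeries_normal B (n + 1)).conj_mem' a ha b)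
        rw [← hm, show a * b = b * ((b : B)⁻¹ * a * b) by group, hm, this]⟩)
      fun a b x hx => by
        have := hx.2 _ (Subgroup.commutator_mem_commutator (inv_mem a.2) (inv_mem b.2))
        rw [commutatorElement_def] at this
        rw [← hm, show (a : B) * b = b * (a * ((a : B)⁻¹ * (b : B)⁻¹ * (a : B)⁻¹⁻¹ * (b : B)⁻¹⁻¹))
          by group, hm, hm, this]
    exact ⟨x, hx.1, fun b hb => h1 ⟨b, hb⟩⟩
  have h0 := Nat.decreasingInduction (motive := fun n _ =>
    (K ∩ {x | ∀ b, b ∈ derivedSeries B n → ρ b x = x}).Nonempty) (fun n _ => key n)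
    (hn.mono fun x hx => ⟨hx, fun b hb => by
      rw [hN, Subgroup.mem_bot] at hb; simp [hb]⟩) (Nat.zero_le N)
  obtain ⟨x, hx, h1⟩ := h0
  exact ⟨x, hx, fun b => h1 b (Subgroup.mem_top b)⟩

theorem hbStmt : HbStmt.{u} := by
  classical
  intro Q _ hP S δ hδ
  by_contra h
  push Not at h
  let s : Fin S.card → Q := fun i => S.equivFin.symm i
  let C : Set (Fin S.card → lp (fun _ : Q => ℝ) 1) := {y | ∃ p : Q → ℝ, (Function.support p).Finite ∧
    (∀ q, 0 ≤ p q) ∧ HasSum p 1 ∧ ∀ i r, y i r = p ((s i)⁻¹ * r) - p r}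
  have hC : Convex ℝ C := by
    rintro y ⟨p, a1, a2, a3, a4⟩ y' ⟨p', b1, b2, b3, b4⟩ a b ha hb hab
    refine ⟨fun q => a * p q + b * p' q, (a1.union b1).subset fun q hq => ?_,
      fun q => add_nonneg (mul_nonneg ha (a2 q)) (mul_nonneg hb (b2 q)), ?_, fun i r => ?_⟩
    · by_contra h1
      simp only [Set.mem_union, Function.mem_support, not_or, not_not] at h1
      exact hq (by simp [h1.1, h1.2])
    · simpa [hab] using (a3.mul_left a).add (b3.mul_left b)
    · simp only [Pi.add_apply, Pi.smul_apply, lp.coeFn_add, lp.coeFn_smul, a4, b4, smul_eq_mul]; ring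
  have hd : Disjoint (Metric.ball 0 δ) C := by
    rw [Set.disjoint_right]
    rintro y ⟨p, a1, a2, a3, a4⟩ hy
    have h1 : ∑' q, Real.sqrt (p q⁻¹) ^ 2 = 1 := by
      simp only [Real.sq_sqrt (a2 _)]
      exact ((Equiv.inv Q).tsum_eq p).trans a3.tsum_eq
    obtain ⟨t, ht, h2⟩ := h (fun q => Real.sqrt (p q⁻¹))
      ((a1.preimage inv_injective.injOn).subset fun q hq h0 => hq (by simp [h0])) fun h0 => by
        simp only [congrFun h0, Pi.zero_apply] at h1
        simp at h1
    have h3 : HasSum (fun r => |y (S.equivFin ⟨t, ht⟩) r|) ‖y (S.equivFin ⟨t, ht⟩)‖ := by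
      simpa using lp.hasSum_norm (p := 1) (by simp) (y (S.equivFin ⟨t, ht⟩))
    have h4 := (Equiv.inv Q).hasSum_iff.2 h3
    have h5 : ∀ q, (Real.sqrt (p (q * t)⁻¹) - Real.sqrt (p q⁻¹)) ^ 2 ≤
        |y (S.equivFin ⟨t, ht⟩) q⁻¹| := fun q => by
      rw [a4, mul_inv_rev, show s (S.equivFin ⟨t, ht⟩) = t by simp [s]]
      nth_rw 2 [← Real.sq_sqrt (a2 (t⁻¹ * q⁻¹))]
      nth_rw 2 [← Real.sq_sqrt (a2 q⁻¹)]
      rw [sq_sub_sq, abs_mul, ← sq_abs, sq]
      refine mul_le_mul_of_nonneg_right ?_ (abs_nonneg _)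
      have c1 := Real.sqrt_nonneg (p (t⁻¹ * q⁻¹))
      have c2 := Real.sqrt_nonneg (p q⁻¹)
      rw [abs_of_nonneg (add_nonneg c1 c2), abs_le]
      constructor <;> linarith
    have h6 := (Summable.tsum_le_tsum h5 (h4.summable.of_nonneg_of_le (fun _ => sq_nonneg _) h5)
      h4.summable).trans_eq h4.tsum_eq
    have h7 := (norm_le_pi_norm y (S.equivFin ⟨t, ht⟩)).trans_lt (mem_ball_zero_iff.1 hy)
    rw [h1] at h2
    linarith
  obtain ⟨L, u, h1, h2⟩ := geometric_hahn_banach_open (convex_ball 0 δ) Metric.isOpen_ball hC hd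
  refine hP ⟨_, s, fun i q => L (Pi.single i (lp.single 1 q 1)), ‖L‖, u,
    by simpa using h1 0 (Metric.mem_ball_self hδ), fun i q => ?_, fun q => ?_⟩
  · refine (L.le_opNorm _).trans (le_of_eq ?_)
    rw [Pi.norm_single, lp.norm_single (by simp), norm_one, mul_one]
  · refine (h2 (fun i => lp.single 1 (s i * q) 1 - lp.single 1 q 1) ⟨Pi.single q 1,
      (Set.finite_singleton q).subset Pi.support_single_subset, fun r => ?_, hasSum_pi_single q 1,
      fun i r => ?_⟩).trans (le_of_eq ?_)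
    · rw [Pi.single_apply]; split_ifs <;> norm_num
    · simp only [lp.coeFn_sub, Pi.sub_apply, lp.single_apply, Pi.single_apply, inv_mul_eq_iff_eq_mul]
    · simp only [← map_sub, ← map_sum, ← Pi.single_sub, Finset.univ_sum_single]

end Crest.Agent.T24.Nst
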