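import Crest.Agent.T24.NstDef_39

/-!
# Row 24, module NST: the (T) half (helper5)

`L²(N \ G)` is realised on a strict fundamental domain `{x | P x = x}` of `N`.
-/

set_option autoImplicit false

namespace Crest.Agent.T24.Nst

open Topology Filter MeasureTheory Crest.Agent.N111
open scoped ENNReal

universe u v w

namespace Th5

section sel
variable {G : Type*} [Group G] [MeasurableSpace G] {N : Subgroup G} {P : G → G}

/-- the fundamental domain of a selector -/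
def dom (P : G → G) : Set G := {x | P x = x}

/-- a measurable choice of a point in each orbit `N x` -/
structure Sel (N : Subgroup G) (P : G → G) : Prop where
  meas : Measurable P
  mdom : MeasurableSet (dom P)
  inv : ∀ n ∈ N, ∀ x, P (n * x) = P x
  ex : ∀ x, ∃ n ∈ N, P x = n * x

variable [MeasurableMul G] (μ : Measure G)

namespace Sel

theorem fd (h : Sel N P) (g : G) : IsFundamentalDomain N ((fun x => x * g) ⁻¹' dom P) μ := by
  refine IsFundamentalDomain.mk' (measurable_mul_const g h.mdom).nullMeasurableSet fun x => ?_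
  obtain ⟨n, hn, e⟩ := h.ex (x * g)
  refine ⟨⟨n, hn⟩, ?_, fun m hm => Subtype.ext ?_⟩
  · change P (n * x * g) = n * x * g
    rw [mul_assoc, h.inv n hn, e]
  · change P ((m : G) * x * g) = m * x * g at hm
    rw [mul_assoc, h.inv m m.2, e] at hm
    exact (mul_right_cancel hm).symm

theorem fd1 (h : Sel N P) : IsFundamentalDomain N (dom P) μ := by simpa using h.fd μ 1

omit [MeasurableMul G] in
theorem comp_mul (h : Sel N P) (x g : G) : P (P x * g) = P (x * g) := by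
  obtain ⟨n, hn, e⟩ := h.ex x
  rw [e, mul_assoc, h.inv n hn]

variable [Countable N] [μ.IsMulLeftInvariant]

theorem ae_of_dom (h : Sel N P) {p : G → Prop} (hp : ∀ n ∈ N, ∀ x, p (n * x) ↔ p x)
    (ha : ∀ᵐ x ∂μ.restrict (dom P), p x) : ∀ᵐ x ∂μ, p x := by
  rw [ae_iff] at ha ⊢
  rw [Measure.restrict_apply' h.mdom] at ha
  refine (h.fd1 μ).measure_zero_of_invariant _ (fun n => ?_) ha
  ext x
  rw [Set.mem_smul_set_iff_inv_smul_mem]
  exact not_congr (hp _ (n⁻¹).2 x)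

variable [μ.IsMulRightInvariant]

theorem shift (h : Sel N P) (f : G → ℝ≥0∞) (hf : ∀ n ∈ N, ∀ x, f (n * x) = f x) (g : G) :
    ∫⁻ x in dom P, f (x * g) ∂μ = ∫⁻ x in dom P, f x ∂μ := by
  rw [(h.fd1 μ).setLIntegral_eq (h.fd μ g) _ fun n x => by
      rw [Subgroup.smul_def, smul_eq_mul, mul_assoc, hf _ n.2],
    ← lintegral_indicator h.mdom, ← lintegral_indicator (measurable_mul_const g h.mdom),
    ← lintegral_mul_right_eq_self ((dom P).indicator f) g]
  rfl

theorem mp (h : Sel N P) (g : G) :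
    MeasurePreserving (fun x => P (x * g)) (μ.restrict (dom P)) (μ.restrict (dom P)) := by
  have hm : Measurable fun x => P (x * g) := h.meas.comp (measurable_mul_const g)
  refine ⟨hm, Measure.ext fun A hA => ?_⟩
  rw [Measure.map_apply hm hA, ← lintegral_indicator_one (hm hA), ← lintegral_indicator_one hA]
  have := h.shift μ (fun x => A.indicator 1 (P x)) (fun n hn x => by rw [h.inv n hn]) g
  refine Eq.trans rfl (this.trans (setLIntegral_congr_fun h.mdom fun x hx => ?_))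
  rw [show P x = x from hx]

/-- right translation on `L²(N \ G)` -/
noncomputable def tr (h : Sel N P) (g : G) :
    Lp ℂ 2 (μ.restrict (dom P)) →L[ℂ] Lp ℂ 2 (μ.restrict (dom P)) :=
  (Lp.compMeasurePreservingₗᵢ ℂ _ (h.mp μ g)).toContinuousLinearMap

theorem tr_coe (h : Sel N P) (g : G) (ξ : Lp ℂ 2 (μ.restrict (dom P))) :
    h.tr μ g ξ =ᵐ[μ.restrict (dom P)] fun x => ξ (P (x * g)) :=
  Lp.coeFn_compMeasurePreserving ξ (h.mp μ g)

/-- the representation on `L²(N \ G)` -/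
noncomputable def rep (h : Sel N P) : URep G (Lp ℂ 2 (μ.restrict (dom P))) :=
  URep.mk' (h.tr μ)
    (by
      ext1 ξ
      refine Lp.ext ?_
      filter_upwards [h.tr_coe μ 1 ξ, ae_restrict_mem h.mdom] with x h1 h2
      rw [h1, mul_one, show P x = x from h2]; rfl)
    (fun g k => by
      ext1 ξ
      refine Lp.ext ?_
      filter_upwards [h.tr_coe μ (g * k) ξ, h.tr_coe μ g (h.tr μ k ξ),
        (h.mp μ g).quasiMeasurePreserving.ae (h.tr_coe μ k ξ)] with x h1 h2 h3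
      rw [h1, mul_apply_eq_comp, h2, h3, h.comp_mul, mul_assoc])
    fun g ξ => Lp.norm_compMeasurePreserving ξ (h.mp μ g)

theorem rep_coe (h : Sel N P) (g : G) (ξ : Lp ℂ 2 (μ.restrict (dom P))) :
    h.rep μ g ξ =ᵐ[μ.restrict (dom P)] fun x => ξ (P (x * g)) := h.tr_coe μ g ξ

end Sel
end sel

theorem eL2 {α : Type*} [MeasurableSpace α] (ν : Measure α) (f : α → ℂ) :
    eLpNorm f 2 ν ^ 2 = ∫⁻ x, ‖f x‖ₑ ^ 2 ∂ν := by
  have := eLpNorm_nnreal_pow_eq_lintegral (μ := ν) (f := f) (p := 2) two_ne_zero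
  simpa [ENNReal.rpow_two] using this

theorem enorm_sq {α : Type*} [MeasurableSpace α] {ν : Measure α} (ξ : Lp ℂ 2 ν) :
    ENNReal.ofReal (‖ξ‖ ^ 2) = ∫⁻ x, ‖ξ x‖ₑ ^ 2 ∂ν := by
  rw [← eL2, ← Lp.enorm_def, ENNReal.ofReal_pow (norm_nonneg _), ofReal_norm]

theorem enorm_real (t : ℝ) : ‖(t : ℂ)‖ₑ ^ 2 = ENNReal.ofReal (t ^ 2) := by
  rw [← ofReal_norm, ← ENNReal.ofReal_pow (norm_nonneg _), Complex.norm_real, Real.norm_eq_abs,
    sq_abs]

section coc
variable {G : Type*} [Group G] [TopologicalSpace G] [MeasurableSpace G] [MeasurableMul₂ G]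
  [MeasurableSingletonClass G] {Γ N : Subgroup G} [Countable Γ] {c : G → Γ}
  {Q : Type*} [Group Q] {κ : Γ →* Q} {sec : Q → Γ}

omit [MeasurableMul₂ G] in
theorem c_meas (hc : Coc Γ c) {β : Type*} [MeasurableSpace β] (f : Γ → β) : Measurable fun x => f (c x) :=
  (measurable_of_countable f).comp (measurable_to_countable' hc.meas)

/-- the selector attached to `t : Γ → Γ` -/
def pt (c : G → Γ) (t : Γ → Γ) (x : G) : G := (t (c x) : Γ) * (((c x : Γ) : G)⁻¹ * x)

omit [TopologicalSpace G] [MeasurableSpace G] [MeasurableMul₂ G]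
  [MeasurableSingletonClass G] [Countable Γ] in
theorem mem_dom {t : Γ → Γ} {x : G} : x ∈ dom (pt c t) ↔ t (c x) = c x := by
  change (t (c x) : G) * (((c x : Γ) : G)⁻¹ * x) = x ↔ _
  rw [← mul_assoc, mul_eq_right, mul_inv_eq_one, Subtype.coe_inj]

theorem sel_pt (hc : Coc Γ c) {t : Γ → Γ} (hN : N ≤ Γ) (h1 : ∀ n (hn : n ∈ N) γ, t (⟨n, hN hn⟩ * γ) = t γ)
    (h2 : ∀ γ, ((t γ * γ⁻¹ : Γ) : G) ∈ N) : Sel N (pt c t) where
  meas := (c_meas hc fun γ => (t γ : G)).mul ((c_meas hc fun γ => (γ : G)⁻¹).mul measurable_id)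
  mdom := by
    have : dom (pt c t) = (fun x => c x) ⁻¹' {γ | t γ = γ} := Set.ext fun x => mem_dom
    rw [this]
    exact c_meas hc id (Set.to_countable _).measurableSet
  inv n hn x := by
    have := hc.equiv ⟨n, hN hn⟩ x
    simp only [pt] at this ⊢
    rw [this, h1 n hn]
    simp [mul_assoc]
  ex x := ⟨_, h2 (c x), by simp [pt, mul_assoc]⟩

theorem selG (hc : Coc Γ c) : Sel Γ (pt c fun _ => 1) :=
  sel_pt hc le_rfl (fun _ _ _ => rfl) fun _ => Subtype.property _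

theorem selN (hc : Coc Γ c) (hN : N ≤ Γ) (hk : ∀ γ : Γ, κ γ = 1 ↔ (γ : G) ∈ N) (hs : ∀ q, κ (sec q) = q) :
    Sel N (pt c fun γ => sec (κ γ)) :=
  sel_pt hc hN (fun n hn γ => by rw [map_mul, (hk ⟨n, hN hn⟩).2 hn, one_mul]) fun γ =>
    (hk _).1 (by rw [map_mul, hs, map_inv, mul_inv_cancel])

variable (μ : Measure G) [μ.IsMulLeftInvariant]

/-- unfolding over `Q` -/
theorem unf (hc : Coc Γ c) (hN : N ≤ Γ) (hk : ∀ γ : Γ, κ γ = 1 ↔ (γ : G) ∈ N) (hs : ∀ q, κ (sec q) = q)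
    (f : G → ℝ≥0∞) : ∫⁻ x in dom (pt c fun γ => sec (κ γ)), f x ∂μ =
      ∑' q, ∫⁻ x in dom (pt c fun _ => 1), f (sec q * x) ∂μ := by
  have hG := selG hc
  have hi : Function.Injective sec := fun a b h => by rw [← hs a, h, hs]
  have key : ∀ γ : Γ, ∀ x ∈ dom (pt c fun _ => 1),
      (γ : G) * x ∈ dom (pt c fun γ => sec (κ γ)) ↔ sec (κ γ) = γ := fun γ x hx => by
    rw [mem_dom, hc.equiv, ← mem_dom.1 hx, mul_one]
  rw [← lintegral_indicator (selN hc hN hk hs).mdom, (hG.fd1 μ).lintegral_eq_tsum'', ← hi.tsum_eq]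
  · refine tsum_congr fun q => setLIntegral_congr_fun hG.mdom fun x hx => ?_
    exact Set.indicator_of_mem ((key _ x hx).2 (by rw [hs])) _
  · intro γ hγ
    by_contra h
    refine hγ ((setLIntegral_congr_fun hG.mdom fun x hx => ?_).trans lintegral_zero)
    exact Set.indicator_of_notMem (fun h' => h ⟨_, (key γ x hx).1 h'⟩) _

/-- the almost invariant vector -/
theorem almost [μ.IsMulRightInvariant] [Countable N] (hc : Coc Γ c) (hN : N ≤ Γ)
    (hk : ∀ γ : Γ, κ γ = 1 ↔ (γ : G) ∈ N) (hs : ∀ q, κ (sec q) = q)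
    (h0 : μ (dom (pt c fun _ => 1)) ≠ 0) (h1 : μ (dom (pt c fun _ => 1)) ≠ ∞) (hR : Reiter Q) {K : Set G}
    (hK : {γ : Γ | ∃ x ∈ dom (pt c fun _ => 1), ∃ k ∈ K, c (x * k) = γ}.Finite) {δ : ℝ} (hδ : 0 < δ) :
    ∃ ξ, ξ ≠ 0 ∧ ∀ k ∈ K, ‖(selN hc hN hk hs).rep μ k ξ - ξ‖ ≤ δ * ‖ξ‖ := by
  have hG := selG hc
  have hS := selN hc hN hk hs
  have : Countable Q := (show Function.Surjective κ from fun q => ⟨_, hs q⟩).countable
  obtain ⟨φ, hf, hne, hφ⟩ := hR (hK.image κ).toFinset (δ ^ 2) (by positivity)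
  have s1 : Summable fun q => φ q ^ 2 :=
    summable_of_hasFiniteSupport (hf.subset fun q hq h => hq (by simp [h]))
  have s2 : ∀ s, Summable fun q => (φ (q * s) - φ q) ^ 2 := fun s =>
    summable_of_hasFiniteSupport (((hf.preimage (mul_left_injective s).injOn).union hf).subset fun q hq => by
      by_contra h
      simp only [Set.mem_union, Set.mem_preimage, Function.mem_support, not_or, not_not] at h
      exact hq (by simp [h.1, h.2]))
  have hc1 : ∀ q, ∀ x ∈ dom (pt c fun _ => 1), ∀ k, κ (c (sec q * x * k)) = q * κ (c (x * k)) :=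
    fun q x _ k => by rw [mul_assoc, hc.equiv, map_mul, hs]
  have hc2 : ∀ q, ∀ x ∈ dom (pt c fun _ => 1), κ (c (sec q * x)) = q := fun q x hx => by
    rw [hc.equiv, ← mem_dom.1 hx, mul_one, hs]
  let Φ : G → ℂ := fun x => (φ (κ (c x)) : ℂ)
  have mΦ : Measurable Φ := c_meas hc fun γ => (φ (κ γ) : ℂ)
  have iΦ : ∀ x, Φ (pt c (fun γ => sec (κ γ)) x) = Φ x := fun x => by
    obtain ⟨n, hn, e⟩ := hS.ex x
    have := hc.equiv ⟨n, hN hn⟩ x
    simp only [Φ] at this ⊢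
    rw [e, this, map_mul, (hk ⟨n, hN hn⟩).2 hn, one_mul]
  have n1 : ∫⁻ x in dom (pt c fun γ => sec (κ γ)), ‖Φ x‖ₑ ^ 2 ∂μ =
      ENNReal.ofReal (∑' q, φ q ^ 2) * μ (dom (pt c fun _ => 1)) := by
    rw [unf μ hc hN hk hs, ENNReal.ofReal_tsum_of_nonneg (fun _ => sq_nonneg _) s1,
      ← ENNReal.tsum_mul_right]
    refine tsum_congr fun q => ?_
    rw [← setLIntegral_const]
    refine setLIntegral_congr_fun hG.mdom fun x hx => ?_
    simp only [Φ]
    rw [hc2 q x hx, enorm_real]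
  have hm : MemLp Φ 2 (μ.restrict (dom (pt c fun γ => sec (κ γ)))) := by
    refine ⟨mΦ.aestronglyMeasurable, lt_top_iff_ne_top.2 fun h => ?_⟩
    have := eL2 (μ.restrict (dom (pt c fun γ => sec (κ γ)))) Φ
    rw [h, n1] at this
    exact ENNReal.mul_ne_top ENNReal.ofReal_ne_top h1 (this.symm.trans (by simp))
  have n2 : ENNReal.ofReal (‖hm.toLp Φ‖ ^ 2) = ENNReal.ofReal (∑' q, φ q ^ 2) * μ (dom (pt c fun _ => 1)) := by
    rw [enorm_sq, ← n1]
    exact lintegral_congr_ae (hm.coeFn_toLp.mono fun x hx => by simp only [hx])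
  refine ⟨hm.toLp Φ, fun h => ?_, fun k hk' => ?_⟩
  · rw [h] at n2
    obtain ⟨q, hq⟩ := Function.ne_iff.1 hne
    have : 0 < ∑' q, φ q ^ 2 := s1.tsum_pos (fun _ => sq_nonneg _) q (sq_pos_of_ne_zero hq)
    exact mul_ne_zero (ENNReal.ofReal_pos.2 this).ne' h0 (n2.symm.trans (by simp))
  · have n3 : ENNReal.ofReal (‖hS.rep μ k (hm.toLp Φ) - hm.toLp Φ‖ ^ 2) =
        ∫⁻ x in dom (pt c fun γ => sec (κ γ)), ENNReal.ofReal ((φ (κ (c (x * k))) - φ (κ (c x))) ^ 2) ∂μ := by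
      rw [enorm_sq]
      refine lintegral_congr_ae ?_
      filter_upwards [Lp.coeFn_sub (hS.rep μ k (hm.toLp Φ)) (hm.toLp Φ), hS.rep_coe μ k (hm.toLp Φ),
        hm.coeFn_toLp, (hS.mp μ k).quasiMeasurePreserving.ae hm.coeFn_toLp] with x e1 e2 e3 e4
      rw [e1, Pi.sub_apply, e2, e3, e4, iΦ, ← enorm_real]
      simp only [Φ, Complex.ofReal_sub]
    have n4 : ∀ q, ∫⁻ x in dom (pt c fun _ => 1), ENNReal.ofReal
        ((φ (κ (c (sec q * x * k))) - φ (κ (c (sec q * x)))) ^ 2) ∂μ = ∫⁻ x in dom (pt c fun _ => 1),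
        ENNReal.ofReal ((φ (q * κ (c (x * k))) - φ q) ^ 2) ∂μ := fun q =>
      setLIntegral_congr_fun hG.mdom fun x hx => by simp only [hc1 q x hx, hc2 q x hx]
    rw [unf μ hc hN hk hs, tsum_congr n4, ← lintegral_tsum
      (f := fun q x => ENNReal.ofReal ((φ (q * κ (c (x * k))) - φ q) ^ 2)) fun q => ((c_meas hc fun γ => ENNReal.ofReal ((φ (q * κ γ) - φ q) ^ 2)).comp
        (measurable_mul_const k)).aemeasurable] at n3
    have n5 : ENNReal.ofReal (‖hS.rep μ k (hm.toLp Φ) - hm.toLp Φ‖ ^ 2) ≤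
        ENNReal.ofReal ((δ * ‖hm.toLp Φ‖) ^ 2) := by
      rw [n3, mul_pow, ENNReal.ofReal_mul (sq_nonneg _), n2, ← mul_assoc,
        ← ENNReal.ofReal_mul (sq_nonneg _), ← setLIntegral_const]
      refine setLIntegral_mono' hG.mdom fun x hx => ?_
      rw [← ENNReal.ofReal_tsum_of_nonneg (fun _ => sq_nonneg _) (s2 _)]
      exact ENNReal.ofReal_le_ofReal (hφ _ ((Set.Finite.mem_toFinset _).2 ⟨_, ⟨x, hx, k, hk', rfl⟩, rfl⟩))
    exact le_of_sq_le_sq ((ENNReal.ofReal_le_ofReal_iff (sq_nonneg _)).1 n5) (by positivity)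

end coc

section fin
variable {G₁ G₂ : Type*} [Group G₁] [Group G₂] [MeasurableSpace G₁] [MeasurableSpace G₂]
  [MeasurableMul₂ G₁] [MeasurableMul₂ G₂] (μ₁ : Measure G₁) (μ₂ : Measure G₂) [SFinite μ₁] [SFinite μ₂]
  [μ₁.IsMulLeftInvariant]

/-- a function that is right invariant under the first factor depends on the second coordinate only -/
theorem snd_only (h0 : μ₁ ≠ 0) {f : G₁ × G₂ → ℝ} (hf : Measurable f)
    (hi : ∀ g : G₁, ∀ᵐ x ∂μ₁.prod μ₂, f (x * (g, 1)) = f x) :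
    ∃ h : G₂ → ℝ, ∀ᵐ x ∂μ₁.prod μ₂, f x = h x.2 := by
  classical
  have hm : MeasurableSet {z : G₁ × G₁ × G₂ | f (z.2 * (z.1, 1)) = f z.2} :=
    measurableSet_eq_fun (hf.comp (show Measurable fun z : G₁ × G₁ × G₂ => (z.2.1 * z.1, z.2.2 * 1) by
      fun_prop)) (hf.comp measurable_snd)
  have h1 := (Measure.ae_ae_comm (μ := μ₁) (ν := μ₁.prod μ₂)
    (p := fun g x => f (x * (g, 1)) = f x) hm).1 (Eventually.of_forall hi)
  refine ⟨fun y => if h : ∃ t, ∀ᵐ z ∂μ₁, f (z, y) = t then h.choose else 0, h1.mono fun x hx => ?_⟩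
  have h2 : ∀ᵐ z ∂μ₁, f (z, x.2) = f x := by
    filter_upwards [(measurePreserving_mul_left μ₁ x.1⁻¹).quasiMeasurePreserving.ae hx] with z hz
    rw [← hz]; congr 1; ext <;> simp
  have h3 : ∃ t, ∀ᵐ z ∂μ₁, f (z, x.2) = t := ⟨_, h2⟩
  have : (ae μ₁).NeBot := ae_neBot.2 h0
  obtain ⟨z, a, b⟩ := (h2.and h3.choose_spec).exists
  simp only [dif_pos h3]
  rw [← a, b]

end fin

end Th5

open Th5 in
/-- **the (T) half of the normal subgroup theorem** -/
theorem thStmt (hF : FdStmt.{max u v}) (hC : ContStmt.{max u v}) (hE : EndStmt.{u, v}) :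
    ThStmt.{u, v, w} := by
  intro G₁ G₂ _ _ _ _ _ _ _ _ _ _ _ _ Γ N Q _ κ hκ hk hS hK hR
  borelize G₁ G₂
  let μ₁ : Measure G₁ := Measure.haar
  let μ₂ : Measure G₂ := Measure.haar
  let μ : Measure (G₁ × G₂) := μ₁.prod μ₂
  obtain ⟨hct, hfin, ⟨c, hc⟩, hri⟩ := hF (G₁ × G₂) Γ hS.lat
  have := hri μ
  have : Countable N := (Subgroup.inclusion_injective hS.le).countable
  obtain ⟨C, hCc, hCx⟩ := hc.cpt
  obtain ⟨K, δ, hKc, hδ, hKz⟩ := hK
  have hs : ∀ q, κ (Function.surjInv hκ q) = q := Function.surjInv_eq hκ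
  set sec := Function.surjInv hκ
  have hG := selG hc
  have hN := selN hc hS.le hk hs
  have hsub : dom (pt c fun _ => 1) ⊆ C := fun x hx => by
    have := hCx x
    rwa [← mem_dom.1 hx, Subgroup.coe_one, inv_one, one_mul] at this
  have h0 : μ (dom (pt c fun _ => 1)) ≠ 0 := (hG.fd1 μ).measure_ne_zero (NeZero.ne μ)
  have h1 : μ (dom (pt c fun _ => 1)) ≠ ∞ := ((measure_mono hsub).trans_lt hCc.measure_lt_top).ne
  obtain ⟨ξ, hξ, hξ'⟩ := almost μ hc hS.le hk hs h0 h1 hR (K := (fun k => (k, 1)) '' K) (by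
    refine (hfin _ ((hCc.mul (hKc.image (f := fun k => ((k, 1) : G₁ × G₂)) (by fun_prop))).mul hCc.inv)).subset ?_
    rintro _ ⟨x, hx, k, hk', rfl⟩
    exact ⟨x * k, Set.mul_mem_mul (hsub hx) hk', _, Set.inv_mem_inv.2 (hCx (x * k)), by simp [mul_assoc]⟩) hδ
  obtain ⟨y, hy, hy'⟩ := hKz _ ((hN.rep μ).comp (MonoidHom.inl G₁ G₂)) ξ hξ fun k hk' => hξ' _ ⟨k, hk', rfl⟩
  have hu := unf μ hc hS.le hk hs fun _ => 1
  replace hy' : ∀ g : G₁, hN.rep μ (g, 1) y = y := hy'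
  clear hξ hξ' ξ
  revert y hu hN
  generalize (pt c fun γ => sec (κ γ)) = P
  intro hN y hy hu hy'
  let f : G₁ × G₂ → ℝ := fun x => min (‖y (P x)‖ ^ 2) 1
  have mf : Measurable f :=
    (((Lp.stronglyMeasurable y).measurable.comp hN.meas).norm.pow_const 2).min measurable_const
  have f0 : ∀ x, 0 ≤ f x := fun x => le_min (sq_nonneg _) zero_le_one
  have f1 : ∀ x, |f x| ≤ 1 := fun x => by rw [abs_of_nonneg (f0 x)]; exact min_le_right _ _
  have fN : ∀ n ∈ N, ∀ x, f (n * x) = f x := fun n hn x => by simp only [f, hN.inv n hn]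
  have fr : ∀ g : G₁, ∀ᵐ x ∂μ, f (x * (g, 1)) = f x := fun g => by
    refine hN.ae_of_dom μ (fun n hn x => by rw [mul_assoc, fN n hn, fN n hn]) ?_
    have := hN.rep_coe μ (g, 1) y
    rw [hy' g] at this
    filter_upwards [this, ae_restrict_mem hN.mdom] with x e1 e2
    simp only [f]
    rw [← e1, show P x = x from e2]
  have I0 : ∫⁻ x in dom P, ENNReal.ofReal (f x) ∂μ ≠ 0 := fun h => hy <| by
    rw [lintegral_eq_zero_iff mf.ennreal_ofReal] at h
    refine Lp.ext ?_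
    filter_upwards [h, ae_restrict_mem hN.mdom, Lp.coeFn_zero ℂ 2 (μ.restrict (dom P))] with x e1 e2 e3
    have e4 : min (‖y (P x)‖ ^ 2) 1 ≤ 0 := ENNReal.ofReal_eq_zero.1 e1
    rw [show P x = x from e2, min_le_iff] at e4
    rw [e3]
    rcases e4 with e4 | e4
    · exact norm_eq_zero.1 (pow_eq_zero_iff two_ne_zero |>.1 (le_antisymm e4 (sq_nonneg _)))
    · norm_num at e4
  have I1 : ∫⁻ x in dom P, ENNReal.ofReal (f x) ∂μ ≠ ∞ := by
    refine ne_top_of_le_ne_top ENNReal.ofReal_ne_top (le_trans ?_ (enorm_sq y).ge)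
    refine setLIntegral_mono' hN.mdom fun x hx => ?_
    rw [← ofReal_norm, ← ENNReal.ofReal_pow (norm_nonneg _)]
    refine ENNReal.ofReal_le_ofReal ?_
    simp only [f]
    rw [show P x = x from hx]
    exact min_le_left _ _
  obtain ⟨h, hh⟩ := snd_only μ₁ μ₂ (NeZero.ne μ₁) mf fr
  obtain ⟨U, hU, hU1⟩ := exists_compact_mem_nhds (1 : G₁ × G₂)
  let p : G₁ × G₂ → ℝ := fun x => ∫ z in U, f (x * z) ∂μ
  have pc : Continuous p := (hC (G₁ × G₂) μ f 1 U mf f1 hU).1
  have ph : ∀ x, p x = ∫ z in U, h (x * z).2 ∂μ := fun x =>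
    integral_congr_ae (ae_restrict_of_ae ((measurePreserving_mul_left μ x).quasiMeasurePreserving.ae hh))
  obtain ⟨H, hHn, hHf, hH⟩ := hE G₁ G₂ N hS.dense hS.fin
  have pH := hH p pc (fun n hn x => by simp only [p, mul_assoc, fN n hn])
    (Or.inl fun g x => by simp [ph])
  have pl : ∀ x, ENNReal.ofReal (p x) = ∫⁻ z in U, ENNReal.ofReal (f (x * z)) ∂μ := fun x => by
    have : IsFiniteMeasure (μ.restrict U) := isFiniteMeasure_restrict.2 hU.measure_lt_top.ne
    exact ofReal_integral_eq_lintegral_ofReal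
      (Integrable.of_bound (mf.comp (measurable_const_mul x)).aestronglyMeasurable 1
        (Eventually.of_forall fun z => f1 _)) (Eventually.of_forall fun z => f0 _)
  have pI : ∀ g, ∫⁻ x in dom P, ENNReal.ofReal (p (x * g)) ∂μ =
      (∫⁻ x in dom P, ENNReal.ofReal (f x) ∂μ) * μ U := fun g => by
    simp only [pl]
    rw [lintegral_lintegral_swap
      (mf.comp ((measurable_fst.mul_const g).mul measurable_snd)).ennreal_ofReal.aemeasurable,
      ← setLIntegral_const]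
    refine lintegral_congr fun z => ?_
    simp only [mul_assoc]
    exact hN.shift μ (fun x => ENNReal.ofReal (f x)) (fun n hn x => by rw [fN n hn]) _
  obtain ⟨x₀, hx₀⟩ : ∃ x₀, ENNReal.ofReal (p x₀) ≠ 0 := by
    by_contra hcon
    push Not at hcon
    have := pI 1
    simp only [hcon, lintegral_zero] at this
    exact mul_ne_zero I0 (Measure.measure_pos_of_mem_nhds μ hU1).ne' this.symm
  have : Fintype ((G₁ × G₂) ⧸ H) := Fintype.ofFinite _
  have hle : ENNReal.ofReal (p x₀) * μ (dom P) ≤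
      ∑ j : (G₁ × G₂) ⧸ H, ∫⁻ x in dom P, ENNReal.ofReal (p (x * j.out)) ∂μ := by
    rw [← setLIntegral_const, ← lintegral_finsetSum _ fun j _ =>
      (pc.measurable.comp (measurable_mul_const j.out)).ennreal_ofReal]
    refine lintegral_mono fun x => ?_
    obtain ⟨k, e⟩ := QuotientGroup.mk_out_eq_mul H (x⁻¹ * x₀)
    refine le_trans (le_of_eq ?_) (Finset.single_le_sum (f := fun j : (G₁ × G₂) ⧸ H =>
      ENNReal.ofReal (p (x * j.out))) (fun _ _ => zero_le) (Finset.mem_univ (QuotientGroup.mk (x⁻¹ * x₀))))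
    rw [e, ← pH _ (hHn.conj_mem _ k.2 x₀) x₀]
    congr 2
    group
  have hv : μ (dom P) ≠ ∞ := fun hv => by
    rw [hv, ENNReal.mul_top hx₀, top_le_iff] at hle
    refine (ENNReal.sum_ne_top.2 fun j _ => ?_) hle
    rw [pI]
    exact ENNReal.mul_ne_top I1 hU.measure_lt_top.ne
  by_contra hQ
  have : Infinite Q := not_finite_iff_infinite.1 hQ
  simp only [setLIntegral_one] at hu
  exact hv (hu.trans (ENNReal.tsum_const_eq_top_of_ne_zero h0))

end Crest.Agent.T24.Nst
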