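import Crest.Agent.T24.NstAm_39
import Crest.Agent.T24.NstTh_5
import Crest.Agent.T24.NstFd_29
import Crest.Agent.T24.NstMk_33
import Crest.Agent.T24.NstCtr_66
import Crest.Agent.T24.NstFix_37
import Crest.Agent.T24.NstKaz_16

/-!
# Row 24: the normal subgroup theorem for cocompact lattices of `SL_d(F) × G₂`.
-/

set_option autoImplicit false

namespace Crest.Agent.T24.Nst

universe u v w

theorem amStmt' : AmStmt.{u, v, w} :=
  amStmt fdStmt contStmt endStmt (fixStmt mkStmt) (ctStmt contStmt contStmt)

theorem thStmt' : ThStmt.{u, v, w} := thStmt fdStmt contStmt endStmt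

/-- **the normal subgroup theorem** -/
theorem nstStmt : NstStmt.{u, v, w} := nst_of kazStmt ctrStmt amStmt' hbStmt thStmt'

end Crest.Agent.T24.Nst
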