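import Crest.Agent.T24.DefS_26
import Crest.Agent.T24.Nst_39

/-!
# Row 24: finite index of non-central normal subgroups of `SU` (anisotropic case).
-/

set_option autoImplicit false
set_option linter.unusedSectionVars false

noncomputable section

namespace Crest.Agent.T24

open Module NumberField IsDedekindDomain WithZero Csa Asa Topology Filter
open scoped NumberField Valued

universe u v w

namespace NstK39

variable {k : Type*} [Field k] [NumberField k]

theorem val_alg (v : Pl k) (x : k) : Valued.v (algebraMap k (Kv v) x) = v.valuation k x :=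
  v.valuedAdicCompletion_eq_valuation' x

theorem int_eq_ball (v : Pl k) :
    ((v.adicCompletionIntegers k).toSubring : Set (Kv v)) = Metric.closedBall 0 1 := by
  ext x
  rw [mem_closedBall_zero_iff, Valued.toNormedField.norm_le_one_iff]
  rfl

/-- the local field at a place prime to `6` -/
theorem locF (v : Pl k) (h6 : v.valuation k (6 : k) = 1) :
    ∃ π : Kv v, Nst.LocF (v.adicCompletionIntegers k).toSubring π 5 := by
  have := Loc.proper_adic k v
  have := Loc.charZero_adic k v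
  obtain ⟨p, hp⟩ := v.valuation_exists_uniformizer k
  have hp0 : p ≠ 0 := by rintro rfl; simp at hp; exact exp_ne_zero hp.symm
  have hπ : ‖algebraMap k (Kv v) p‖ < 1 := by
    rw [Valued.toNormedField.norm_lt_one_iff, val_alg, hp]
    exact exp_neg_lt_one one_pos
  have ht := tendsto_pow_atTop_nhds_zero_of_norm_lt_one hπ
  have hmem : ∀ x : Kv v, x ∈ (v.adicCompletionIntegers k).toSubring ↔ Valued.v x ≤ 1 :=
    fun _ => Iff.rfl
  refine ⟨algebraMap k (Kv v) p, ?_, by simpa using hp0, ht, fun x => ?_, fun i => (i : ℕ),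
    fun i => natCast_mem _ _, fun i j hij => ?_⟩
  · rw [int_eq_ball]; exact isCompact_closedBall _ _
  · have h1 := ht.mul_const x
    rw [zero_mul] at h1
    obtain ⟨n, hn⟩ := (h1.eventually (Metric.closedBall_mem_nhds (0 : Kv v) one_pos)).exists
    exact ⟨n, by rw [← SetLike.mem_coe, int_eq_ball]; exact hn⟩
  · refine ⟨fun h => hij (Fin.ext (Nat.cast_injective h)), ?_⟩
    have h36 : Valued.v ((36 : ℤ) : Kv v) = 1 := by
      have : ((36 : ℤ) : Kv v) = algebraMap k (Kv v) 6 * algebraMap k (Kv v) 6 := by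
        rw [map_ofNat]; norm_num
      rw [this, map_mul, val_alg, h6, one_mul]
    have hle : ∀ z : ℤ, Valued.v (z : Kv v) ≤ 1 := fun z => (hmem _).1 (intCast_mem _ z)
    obtain ⟨c, hc⟩ : ((i : ℕ) : ℤ) - ((j : ℕ) : ℤ) ∣ 36 := by revert i j; decide
    have e : (((i : ℕ) : Kv v) - ((j : ℕ) : Kv v)) = ((((i : ℕ) : ℤ) - ((j : ℕ) : ℤ) : ℤ) : Kv v) := by
      push_cast; rfl
    rw [hc, Int.cast_mul, map_mul] at h36
    rw [hmem, map_inv₀, e, eq_one_of_one_le_mul_left (hle _) (hle _) h36.ge, inv_one]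

variable {K B : Type*} [Field K] [NumberField K] [Algebra k K]
  [StarRing K] [Quad k K] [Ring B] [StarRing B] [Algebra K B] [StarModule K B]
  [Algebra.IsCentral K B] [IsSimpleRing B] [FiniteDimensional K B] [Algebra k B]
  [IsScalarTower k K B]

theorem smul_mem_O (Λ : Ord K B) (d : 𝓞 k) {x : B} (hx : x ∈ Λ.O) : (d : k) • x ∈ Λ.O := by
  have := Λ.O.mul_mem (Λ.int (algebraMap (𝓞 k) (𝓞 K) d)) hx
  rwa [← Algebra.smul_def, show ((algebraMap (𝓞 k) (𝓞 K) d : 𝓞 K) : K) =
    algebraMap k K (d : k) from rfl, algebraMap_smul] at this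

theorem smul_mem_At (Λ : Ord K B) (v : Pl k) {c : k} (hc : v.valuation k c ≤ 1) {x : B}
    (hx : x ∈ Λ.At v) : c • x ∈ Λ.At v := by
  obtain ⟨n, d, h⟩ := v.exists_primeCompl_mul_eq_of_integer c hc
  obtain ⟨e, he, hx⟩ := hx
  refine ⟨d * e, fun h => (v.isPrime.mem_or_mem h).elim d.2 he, ?_⟩
  have := smul_mem_O Λ n hx
  rw [smul_smul] at this ⊢
  convert this using 2
  rw [show (n : k) = c * ((d : 𝓞 k) : k) from h.symm]
  push_cast; ring

theorem mem_At_of (Λ : Ord K B) (v : Pl k) {c : k} (hc : v.valuation k c = 1) {x : B}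
    (hx : c • x ∈ Λ.O) : x ∈ Λ.At v := by
  have hc0 : c ≠ 0 := by rintro rfl; simp at hc
  have h1 : c • x ∈ Λ.At v := ⟨1, (Ideal.ne_top_iff_one _).1 v.isPrime.ne_top, by simpa using hx⟩
  simpa [smul_smul, hc0] using smul_mem_At Λ v (c := c⁻¹) (by simp [hc]) h1

/-- an element is integral almost everywhere -/
theorem finite_not_At (Λ : Ord K B) (x : B) : {v : Pl k | x ∉ Λ.At v}.Finite := by
  obtain ⟨n, hn, hx⟩ := Λ.den x
  refine (finite_ne_one (x := (n : k)) (Nat.cast_ne_zero.2 hn)).subset fun v hv h => hv ?_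
  exact mem_At_of Λ v h (by rwa [Nat.cast_smul_eq_nsmul, nsmul_eq_mul])

/-- integrality at `v` is an open condition -/
theorem At_nhds (Λ : Ord K B) (v : Pl k) :
    ∃ V ∈ 𝓝 (0 : BC k K B (Kv v)), ∀ x : B, BC.inc k K B (Kv v) x ∈ V → x ∈ Λ.At v := by
  have := finite_kB k K B
  let e₀ := finBasis k B
  choose n hn hx using fun i => Λ.den (e₀ i)
  let e := e₀.unitsSMul fun i => Units.mk0 (n i : k) (Nat.cast_ne_zero.2 (hn i))
  have he : ∀ i, e i ∈ Λ.At v := fun i => mem_At_of Λ v (c := 1) (by simp) (by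
    simpa [e, Basis.unitsSMul_apply, Units.smul_def, Nat.cast_smul_eq_nsmul] using hx i)
  refine ⟨BC.crd k K B (Kv v) e ⁻¹' Metric.closedBall 0 1,
    (BC.crd k K B (Kv v) e).continuous.continuousAt.preimage_mem_nhds
      (by rw [map_zero]; exact Metric.closedBall_mem_nhds _ one_pos), fun x hx => ?_⟩
  rw [← e.sum_repr x]
  refine Subring.sum_mem _ fun i _ => smul_mem_At Λ v ?_ (he i)
  have h1 : BC.crd k K B (Kv v) e (BC.inc k K B (Kv v) x) i = algebraMap k (Kv v) (e.repr x i) := by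
    have := Algebra.TensorProduct.basis_repr_tmul (A := Kv v) e 1 x
    change (Algebra.TensorProduct.basis (Kv v) e).repr ((1 : Kv v) ⊗ₜ[k] x) i = _
    rw [this]; simp
  rw [← val_alg, ← Valued.toNormedField.norm_le_one_iff, ← h1]
  exact (norm_le_pi_norm _ i).trans (mem_closedBall_zero_iff.1 hx)

variable (k K B) in
theorem finite_Tk (h : Val K B) : (Tk k K B).Finite :=
  (h.1.image (below k)).subset fun _ ⟨w, hw, e⟩ => ⟨w, hw, e⟩

open scoped Classical in
/-- `SU = N · Γ` -/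
theorem exists_mul (hA : Sa k K B) {N : Subgroup (unitary B)} (hN : NC K N) (Λ : Ord K B)
    {v₀ : Pl k} (s : Spl K B v₀) {S : Finset (Pl k)} (hS : ∀ v ∈ Tk k K B, v ∈ S)
    (g : SU K B) : ∃ n : SU K B, (n : unitary B) ∈ N ∧ n⁻¹ * g ∈ Λ.Gam (insert v₀ S) := by
  obtain ⟨V, -, hV, hcl⟩ := hA N hN Λ v₀ ⟨s⟩
  let S' := (S ∪ (finite_not_At (k := k) Λ ((g : unitary B) : B)).toFinset).erase v₀
  let h : GS k K B S' := (1, fun v => if v.1 ∈ S then 1 else toG k K B (Kv v.1) g)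
  have h1 := hcl S' (Finset.notMem_erase _ _) h fun v => by
    simp only [h]
    split_ifs with hv
    · exact (V v).one_mem
    · rw [hV v fun h' => hv (hS v h')]; trivial
  choose W hW hWA using fun v : Pl k => At_nhds (K := K) (B := B) Λ v
  have hnb : ∀ᶠ y : GS k K B S' in 𝓝 h, ∀ v : S',
      ((((y.2 v)⁻¹ * h.2 v : SUc k K B (Kv v.1)) : Uc k K B (Kv v.1)) : BC k K B (Kv v.1)) - 1 ∈
        W v.1 := by
    refine eventually_all.2 fun v => ContinuousAt.preimage_mem_nhds (f := fun y : GS k K B S' =>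
      ((((y.2 v)⁻¹ * h.2 v : SUc k K B (Kv v.1)) : Uc k K B (Kv v.1)) : BC k K B (Kv v.1)) - 1)
      (Continuous.continuousAt ?_) (by simpa using hW v.1)
    exact (continuous_subtype_val.comp (continuous_subtype_val.comp
      ((((continuous_apply v).comp continuous_snd).inv).mul continuous_const))).sub continuous_const
  obtain ⟨_, hy, n, ⟨hn1, hn2⟩, rfl⟩ := mem_closure_iff_nhds.1 h1 _ hnb
  refine ⟨n, hn2, Ord.mem_Off.2 fun v hv => ?_⟩
  rw [Finset.mem_insert, not_or] at hv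
  by_cases hv' : v ∈ S'
  · have h2 := hy ⟨v, hv'⟩
    have e : (jS k K B S' n).2 ⟨v, hv'⟩ = toG k K B (Kv v) n := rfl
    simp only [h, hv.2, if_false, e, ← map_inv, ← map_mul, coe_toG] at h2
    rw [← map_one (BC.inc k K B (Kv v)), ← map_sub] at h2
    simpa using (Λ.At v).add_mem (hWA v _ h2) (Λ.At v).one_mem
  · have h2 : ((g : unitary B) : B) ∈ Λ.At v := by
      by_contra h3
      exact hv' (Finset.mem_erase.2 ⟨hv.1, Finset.mem_union_right _ (by simpa using h3)⟩)
    have h3 := Ord.mem_Off.1 ((Λ.Gam _).inv_mem hn1) v (by simp [hv.1, hv'])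
    exact (Λ.At v).mul_mem h3 h2

open scoped Classical in
theorem nstK (hd : 3 ≤ deg K B) (hX : SplEx k K B) (hI : SplIso k K B) (hC : Coc k K B)
    (hT : TLink k K B) (hA : Sa k K B) (hV : Val K B) : NstK K B := by
  intro N hN
  obtain ⟨⟨Λ⟩, hX⟩ := hX
  let T₀ := (finite_Tk k K B hV).toFinset
  obtain ⟨v₁, hv₁, s₁, -⟩ := hX Λ T₀
  let S := insert v₁ T₀
  obtain ⟨v₀, hv₀, s, -⟩ := hX Λ (S ∪ (finite_ne_one (x := (6 : k)) (by norm_num)).toFinset)
  rw [Finset.mem_union, not_or] at hv₀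
  have hS : ∀ v ∈ Tk k K B, v ∈ S := fun v hv => Finset.mem_insert_of_mem (by simpa [T₀] using hv)
  obtain ⟨π, hπ⟩ := locF v₀ (by simpa using hv₀.2)
  let N₁ := N.subgroupOf (SU K B)
  have hN₁ : N₁.Normal := ⟨fun n hn g => hN.nrm g g.2 n hn⟩
  let Γ := Λ.Gam (insert v₀ S)
  obtain ⟨⟨V₁, hV₁, V₂, hV₂, hdisc⟩, C₁, C₂, hC₁, hC₂, hcoc⟩ := (hC Λ S).2.2.2 v₀ hv₀.1 s
  have key : (N₁.subgroupOf Γ).FiniteIndex := by
    refine Nst.nstStmt (Kv v₀) _ π (deg K B) (GS k K B S) Γ (s.toSL.comp Γ.subtype)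
      ((jS k K B S).comp Γ.subtype) _ hπ hd inferInstance
      ⟨V₁, hV₁, V₂, hV₂, fun γ h1 h2 => Subtype.ext (hdisc γ γ.2 h1 h2)⟩
      ⟨C₁, C₂, hC₁, hC₂, fun x₁ x₂ => ?_⟩ (fun y => ?_) ?_
    · obtain ⟨γ, hγ, h⟩ := hcoc x₁ x₂
      exact ⟨⟨γ, hγ⟩, h⟩
    · obtain ⟨V, -, hVt, hcl⟩ := hA N hN Λ v₁ ⟨s₁⟩
      obtain ⟨e, he⟩ := hI v₀ s
      have hne : v₁ ≠ v₀ := fun h => hv₀.1 (h ▸ Finset.mem_insert_self _ _)
      let S'' := insert v₀ T₀
      have hm : v₀ ∈ S'' := Finset.mem_insert_self _ _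
      let h : GS k K B S'' := (1, Pi.mulSingle ⟨v₀, hm⟩ (e.symm y))
      have h1 := hcl S'' (by simp [S'', hne, hv₁]) h fun v => by
        by_cases hv : v = ⟨v₀, hm⟩
        · subst hv
          rw [hVt v₀ fun h' => hv₀.1 (hS _ h')]; trivial
        · simp only [h, Pi.mulSingle_eq_of_ne hv]
          exact (V v).one_mem
      have h2 := map_mem_closure (f := fun x : GS k K B S'' => e (x.2 ⟨v₀, hm⟩))
        (t := (s.toSL.comp Γ.subtype) '' (N₁.subgroupOf Γ : Set Γ))
        (e.continuous.comp ((continuous_apply _).comp continuous_snd)) h1 (by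
          rintro _ ⟨γ, ⟨h3, h4⟩, rfl⟩
          rw [Finset.insert_comm] at h3
          exact ⟨⟨γ, h3⟩, h4, (he γ).symm⟩)
      simpa [h] using h2
    · obtain ⟨V, hVo, hVt, hcl⟩ := hA N hN Λ v₀ ⟨s⟩
      let ev : ∀ v : S, GS k K B S →* SUc k K B (Kv v.1) := fun v =>
        (Pi.evalMonoidHom _ v).comp (MonoidHom.snd _ _)
      have hW : (⨅ v : S, (V v.1).comap (ev v)).FiniteIndex := by
        refine Subgroup.finiteIndex_iInf fun v => ⟨?_⟩
        have : (V v.1).FiniteIndex := by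
          by_cases hv : v.1 ∈ Tk k K B
          · have := (hT v hv).1
            have := (V v).quotient_finite_of_isOpen (hVo v)
            exact Subgroup.finiteIndex_of_finite_quotient
          · rw [hVt v hv]; infer_instance
        rw [Subgroup.index_comap]
        exact Subgroup.FiniteIndex.index_ne_zero
      refine Subgroup.finiteIndex_of_le (H := ⨅ v : S, (V v.1).comap (ev v)) fun g hg => ?_
      refine closure_mono ?_ (hcl S hv₀.1 g fun v => Subgroup.mem_iInf.1 hg v)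
      rintro _ ⟨γ, ⟨h3, h4⟩, rfl⟩
      exact ⟨⟨γ, h3⟩, h4, rfl⟩
  have htop : N₁ ⊔ Γ = ⊤ := eq_top_iff.2 fun g _ => by
    obtain ⟨n, hn, hg⟩ := exists_mul hA hN Λ s hS g
    simpa using Subgroup.mul_mem_sup (S := N₁) (T := Γ) hn hg
  have := Subgroup.relIndex_sup_left Γ N₁
  rw [htop, Subgroup.relIndex_top_right] at this
  exact this.trans_ne key.index_ne_zero

end NstK39

theorem nstKStmt (hX : SplExStmt.{u, v, w}) (hI : SplIsoStmt.{u, v, w}) (hC : CocStmt.{u, v, w})
    (hT : TLinkStmt.{u, v, w}) (hA : SaStmt.{u, v, w}) (hV : ValStmt.{u, v, w}) :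
    NstKStmt.{u, v, w} := fun D hd ha =>
  NstK39.nstK hd (hX D) (hI D) (hC D ha) (hT D (by omega)) (hA D hd ha) (hV D (by omega))

end Crest.Agent.T24
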