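import Crest.Agent.T24.SaLoc_92
import Crest.Agent.T24.DefS_26
import Crest.Agent.T24.OpnB_6
import Crest.Agent.T24.Csa4_50

/-! # The local algebras `BC k K B R` satisfy the hypotheses of the local theorems -/

set_option autoImplicit false
set_option linter.unusedSectionVars false
set_option linter.style.haveILetI false

noncomputable section

namespace Crest.Agent.T24.Sa

open Module NumberField Csa Asa Filter Topology
open scoped TensorProduct

section Scale

theorem inv_fd (F : Type*) [NontriviallyNormedField F] [CompleteSpace F] {A : Type*} [Ring A]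
    [Algebra F A] [FiniteDimensional F A] [TopologicalSpace A] [IsTopologicalAddGroup A]
    [ContinuousSMul F A] [T2Space A] :
    ∀ V ∈ 𝓝 (1 : A), ∀ᶠ x in 𝓝 (1 : A), ∃ y ∈ V, x * y = 1 ∧ y * x = 1 := by
  intro V hV
  have h := (Opn.inverse_continuousAt F (A := A) isUnit_one).preimage_mem_nhds (t := V)
    (by simpa using hV)
  filter_upwards [h, Opn.ev_isUnit F (A := A) isUnit_one] with x h1 h2
  exact ⟨_, h1, Ring.mul_inverse_cancel _ h2, Ring.inverse_mul_cancel _ h2⟩

theorem exists_arch {A : Type*} [Ring A] [StarRing A] [Algebra ℝ A] [FiniteDimensional ℝ A]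
    [t : TopologicalSpace A] [IsTopologicalAddGroup A] [ContinuousSMul ℝ A] [T2Space A] :
    ∃ s : Sc A, Arch s := by
  have hi := inv_fd ℝ (A := A)
  have c : Continuous (algebraMap ℝ A) := continuous_algebraMap ℝ A
  have two : (2 : A) * algebraMap ℝ A (1 / 2) = 1 := by
    rw [← map_ofNat (algebraMap ℝ A) 2, ← map_mul]; norm_num
  let s : Sc A :=
    { p := algebraMap ℝ A (1 / 2)
      q := algebraMap ℝ A 2
      pq := by rw [← map_mul]; norm_num
      cen := fun x => Algebra.commutes _ _
      star_p := star_half two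
      tend := by
        have := (c.tendsto 0).comp (tendsto_pow_atTop_nhds_zero_of_lt_one (r := (1 / 2 : ℝ))
          (by norm_num) (by norm_num))
        simpa only [map_zero, Function.comp_def, map_pow] using this
      inv := hi
      div := fun m hm V hV => by
        have hm' : (0 : ℝ) < m := by exact_mod_cast hm
        have h1 := (tendsto_nat_floor_div_atTop (R := ℝ)).comp
          ((tendsto_pow_atTop_atTop_of_one_lt (one_lt_two (α := ℝ))).atTop_div_const hm')
        obtain ⟨i, hi⟩ := (((c.tendsto 1).comp h1).eventually (p := (· ∈ V))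
          (by simpa using hV)).exists
        refine ⟨⌊(2 : ℝ) ^ i / m⌋₊, i, 0, ?_⟩
        rw [pow_zero, mul_one, ← map_pow, ← map_nsmul, ← map_zsmul]
        convert hi using 2
        simp only [Function.comp_apply, nsmul_eq_mul, zsmul_eq_mul, Int.cast_natCast, one_div,
          inv_pow]
        field_simp }
  refine ⟨s, two, ?_⟩
  obtain rfl := Opn.top_nrmR ℝ A
  letI := Opn.nrmR ℝ A
  letI := Opn.nrmA ℝ A
  refine ⟨fun x => ‖x‖, norm_add_le, norm_mul_le, fun x => ?_, norm_nonneg, ?_⟩
  · change ‖algebraMap ℝ A (1 / 2) * x‖ = _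
    rw [← Algebra.smul_def, norm_smul]; norm_num; ring
  · convert Metric.nhds_basis_ball (x := (0 : A)) using 2
    ext x; simp

theorem exists_pad (F : Type*) [NontriviallyNormedField F] [CompleteSpace F] [IsUltrametricDist F]
    [CharZero F] {P : ℕ} (hP : P.Prime) (h1 : ‖(P : F)‖ < 1) {A : Type*} [Ring A] [StarRing A]
    [Algebra F A] [FiniteDimensional F A] [TopologicalSpace A] [IsTopologicalAddGroup A]
    [ContinuousSMul F A] [T2Space A] : ∃ s : Sc A, s.p = P := by
  have c : Continuous (algebraMap F A) := continuous_algebraMap F A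
  have P0 : (P : F) ≠ 0 := by exact_mod_cast hP.ne_zero
  have t0 := tendsto_pow_atTop_nhds_zero_of_norm_lt_one h1
  refine ⟨{ p := P
            q := algebraMap F A (P : F)⁻¹
            pq := by rw [← map_natCast (algebraMap F A), ← map_mul, mul_inv_cancel₀ P0, map_one]
            cen := fun x => (Nat.cast_commute P x).eq
            star_p := star_natCast P
            tend := by
              simpa only [map_zero, Function.comp_def, map_pow, map_natCast] using
                (c.tendsto 0).comp t0
            inv := inv_fd F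
            div := fun m hm V hV => ?_ }, rfl⟩
  obtain ⟨a, m', h2, rfl⟩ := Nat.exists_eq_pow_mul_and_not_dvd hm.ne' P hP.ne_one
  have hV' := c.continuousAt.preimage_mem_nhds (x := 1) (t := V) (by simpa using hV)
  obtain ⟨ε, hε, hb⟩ := Metric.mem_nhds_iff.1 hV'
  obtain ⟨e, he⟩ := (t0.norm.eventually (gt_mem_nhds (by simpa using hε))).exists
  obtain ⟨u, v, huv⟩ := Nat.isCoprime_iff_coprime.2
    (((Nat.Prime.coprime_iff_not_dvd hP).2 h2).symm.pow_right e)
  refine ⟨u, 0, a, ?_⟩
  rw [pow_zero, one_mul, ← map_pow, ← map_nsmul, ← map_zsmul]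
  apply hb
  have e1 : u • (P ^ a * m') • ((P : F)⁻¹) ^ a = 1 - v * (P : F) ^ e := by
    have : (u : F) * m' + v * (P : F) ^ e = 1 := by exact_mod_cast huv
    rw [← this, nsmul_eq_mul, zsmul_eq_mul, inv_pow]; push_cast; field_simp; ring
  rw [e1, Metric.mem_ball, dist_eq_norm, sub_sub_cancel_left, norm_neg, norm_mul]
  exact (mul_le_of_le_one_left (norm_nonneg _) (IsUltrametricDist.norm_intCast_le_one F v)).trans_lt
    he

end Scale

section Glob
variable {K : Type*} [Field K] [CharZero K] {B : Type*} [Ring B] [Algebra K B]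
  [Algebra.IsCentral K B] [IsSimpleRing B] [FiniteDimensional K B]

theorem dens_all (f : B →ₗ[K] B) : ∃ S : Finset (B × B), ∀ x, f x = ∑ p ∈ S, p.1 * x * p.2 := by
  classical
  let b := finBasis K B
  obtain ⟨S, hS⟩ := dens f (Finset.univ.image b)
  refine ⟨S, fun x => ?_⟩
  have : f = ∑ p ∈ S, (LinearMap.mulRight K p.2).comp (LinearMap.mulLeft K p.1) :=
    b.ext fun i => by rw [hS _ (Finset.mem_image_of_mem _ (Finset.mem_univ i))]; simp
  rw [this]; simp

variable (K) in
theorem span_B (x : B) : ∃ c : K, x - algebraMap K B c ∈ comA B := by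
  let W : Submodule K B :=
    { carrier := {x | ∃ c : K, x - algebraMap K B c ∈ comA B}
      zero_mem' := ⟨0, by simp⟩
      add_mem' := fun ⟨c, hc⟩ ⟨c', hc'⟩ => ⟨c + c', by
        convert add_mem hc hc' using 1; rw [map_add]; abel⟩
      smul_mem' := fun a x ⟨c, hc⟩ => ⟨a * c, by
        rw [map_mul, ← Algebra.smul_def, ← smul_sub]
        generalize x - algebraMap K B c = y at hc
        induction hc using AddSubgroup.closure_induction with
        | mem y hy =>
          obtain ⟨u, v, rfl⟩ := hy
          exact AddSubgroup.subset_closure ⟨a • u, v, by simp [smul_sub]⟩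
        | zero => simp
        | add y z _ _ hy hz => rw [smul_add]; exact add_mem hy hz
        | neg y _ hy => rw [smul_neg]; exact neg_mem hy⟩ }
  by_contra hx
  obtain ⟨l, h1, h2⟩ := Submodule.exists_dual_map_eq_bot_of_notMem (p := W) (x := x) hx
    inferInstance
  have h3 : ∀ y ∈ W, l y = 0 := fun y hy => by
    have : l y ∈ W.map l := Submodule.mem_map_of_mem hy
    rwa [h2, Submodule.mem_bot] at this
  let T : B →ₗ[K] Dual K B := (LinearMap.mul K B).compr₂ (Trd K)
  have Ti : Function.Injective T := (injective_iff_map_eq_zero T).2 fun y hy =>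
    eq_zero_of_Trd (K := K) fun z => by simpa [T] using LinearMap.congr_fun hy z
  obtain ⟨c, rfl⟩ := (LinearMap.injective_iff_surjective_of_finrank_eq_finrank
    (Subspace.dual_finrank_eq).symm).1 Ti l
  have hc : c ∈ Subalgebra.center K B := by
    rw [Subalgebra.mem_center_iff]
    intro y
    apply sub_eq_zero.1
    refine eq_zero_of_Trd (K := K) fun z => ?_
    have := h3 (z * y - y * z) ⟨0, by
      rw [map_zero, sub_zero]; exact AddSubgroup.subset_closure ⟨z, y, rfl⟩⟩
    simp only [T, LinearMap.compr₂_apply, LinearMap.mul_apply', map_sub] at this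
    rw [sub_mul, map_sub, mul_assoc, Trd_mul_comm, mul_assoc, mul_assoc, this]
  rw [Algebra.IsCentral.center_eq_bot, Algebra.mem_bot] at hc
  obtain ⟨a, rfl⟩ := hc
  have := h3 1 ⟨1, by simp⟩
  simp only [T, LinearMap.compr₂_apply, LinearMap.mul_apply', mul_one, Trd_algebraMap] at this
  have hd : (deg K B : K) ≠ 0 := by exact_mod_cast (deg_pos K B).ne'
  rw [(mul_eq_zero.1 this).resolve_left hd] at h1
  simp at h1

end Glob

section BC
variable (k K B : Type*) [Field k] [NumberField k] [Field K] [NumberField K] [Algebra k K]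
  [StarRing K] [Quad k K] [Ring B] [StarRing B] [Algebra K B] [StarModule K B]
  [Algebra.IsCentral K B] [IsSimpleRing B] [FiniteDimensional K B] [Algebra k B]
  [IsScalarTower k K B] (R : Type*) [CommRing R] [Algebra k R]

open BC

variable {k K B R}

theorem cen_inc (c : K) : Cen (inc k K B R (algebraMap K B c)) := fun x => by
  refine ind x (by simp) (fun r b => ?_) fun x y hx hy => by rw [mul_add, add_mul, hx, hy]
  rw [mul_smul_comm, smul_mul_assoc, ← map_mul, ← map_mul, Algebra.commutes]

theorem Cen.smul {z : BC k K B R} (hz : Cen z) (r : R) : Cen (r • z) := fun x => by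
  rw [mul_smul_comm, smul_mul_assoc, hz]

theorem alg_inj : Function.Injective (algebraMap R (BC k K B R)) :=
  Algebra.TensorProduct.includeLeft_injective (R := k) (S := k) (A := R) (B := B)
    (algebraMap k B).injective

theorem half_BC : (2 : BC k K B R) * inc k K B R (algebraMap k B (1 / 2)) = 1 := by
  rw [← map_ofNat (inc k K B R) 2, ← map_mul, ← map_ofNat (algebraMap k B) 2, ← map_mul]
  norm_num

theorem eq_zero_of_mul_inc {f : BC k K B R} (hf : Cen f) {b : B} (hb : b ≠ 0)
    (h : f * inc k K B R b = 0) : f = 0 := by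
  let I : TwoSidedIdeal B := TwoSidedIdeal.mk' {x | f * inc k K B R x = 0} (by simp)
    (fun {a b} ha hb => by simp only [Set.mem_ofPred_eq] at *; rw [map_add, mul_add, ha, hb, add_zero])
    (fun {a} ha => by simp only [Set.mem_ofPred_eq] at *; rw [map_neg, mul_neg, ha, neg_zero])
    (fun {a b} hb => by
      simp only [Set.mem_ofPred_eq] at *; rw [map_mul, ← mul_assoc, hf, mul_assoc, hb, mul_zero])
    (fun {a b} ha => by simp only [Set.mem_ofPred_eq] at *; rw [map_mul, ← mul_assoc, ha, zero_mul])
  have := IsSimpleRing.one_mem_of_ne_zero_mem I hb (by rwa [TwoSidedIdeal.mem_mk'])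
  rw [TwoSidedIdeal.mem_mk'] at this
  simpa using this

section Th
variable {θ : K} (h0 : θ ≠ 0) (hθ : star θ = -θ)
include h0 hθ

theorem op_mem (l : B →ₗ[K] K) {S : Finset (B × B)}
    (hS : ∀ x, algebraMap K B (l x) = ∑ p ∈ S, p.1 * x * p.2) (x : BC k K B R) :
    ∃ r r' : R, ∑ p ∈ S, inc k K B R p.1 * x * inc k K B R p.2 =
      algebraMap R _ r + r' • inc k K B R (algebraMap K B θ) := by
  refine ind x ⟨0, 0, by simp⟩ (fun r b => ?_) ?_
  · obtain ⟨a, a', e⟩ := exists_coord (Quad.fr (k := k) (K := K)) Quad.star_k h0 hθ (l b)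
    refine ⟨r * algebraMap k R a, r * algebraMap k R a', ?_⟩
    simp only [mul_smul_comm, smul_mul_assoc, ← map_mul, ← Finset.smul_sum, ← map_sum, ← hS]
    rw [e, map_add, map_mul, ← IsScalarTower.algebraMap_apply, ← IsScalarTower.algebraMap_apply,
      ← Algebra.smul_def, map_add, map_smul, AlgHom.commutes, smul_add, mul_smul, map_mul,
      ← IsScalarTower.algebraMap_apply, ← Algebra.smul_def, algebraMap_smul]
  · rintro x y ⟨r, r', e⟩ ⟨s, s', e'⟩
    refine ⟨r + s, r' + s', ?_⟩
    simp only [mul_add, add_mul, Finset.sum_add_distrib, e, e', map_add, add_smul]; abel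

theorem cen_eq {z : BC k K B R} (hz : Cen z) :
    ∃ r r' : R, z = algebraMap R _ r + r' • inc k K B R (algebraMap K B θ) := by
  have hd : (deg K B : K) ≠ 0 := by exact_mod_cast (deg_pos K B).ne'
  obtain ⟨S, hS⟩ := dens_all ((Algebra.linearMap K B).comp ((deg K B : K)⁻¹ • Trd K))
  obtain ⟨r, r', e⟩ := op_mem h0 hθ ((deg K B : K)⁻¹ • Trd K) hS z
  refine ⟨r, r', ?_⟩
  have h1 := hS 1
  simp only [LinearMap.comp_apply, LinearMap.smul_apply, Trd_one, smul_eq_mul, inv_mul_cancel₀ hd,
    Algebra.linearMap_apply, map_one, mul_one] at h1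
  rw [← e]
  simp only [← hz (inc k K B R _), mul_assoc, ← map_mul, ← Finset.mul_sum, ← map_sum, ← h1,
    map_one, mul_one]

theorem star_cen (r r' : R) : star (algebraMap R (BC k K B R) r + r' • inc k K B R (algebraMap K B θ))
    = algebraMap R _ r - r' • inc k K B R (algebraMap K B θ) := by
  rw [star_add, star_rsmul, star_inc, T24.star_algebraMap, hθ, map_neg, map_neg, smul_neg,
    Algebra.algebraMap_eq_smul_one, star_rsmul, star_one, sub_eq_add_neg]

end Th

theorem th_unit {θ : K} (h0 : θ ≠ 0) :
    inc k K B R (algebraMap K B θ) * inc k K B R (algebraMap K B θ⁻¹) = 1 := by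
  rw [← map_mul, ← map_mul, mul_inv_cancel₀ h0, map_one, map_one]

variable (k K B R)

theorem idem_BC [IsArtinianRing R] [IsReduced R] : Idem (BC k K B R) := by
  obtain ⟨θ, h0, hθ⟩ := exists_skew (Quad.ne (k := k) (K := K))
  let Z := Subalgebra.center R (BC k K B R)
  haveI : IsNoetherian R (BC k K B R) := inferInstance
  haveI : Module.Finite R Z := Module.Finite.of_injective Z.val.toLinearMap Subtype.val_injective
  haveI : IsArtinianRing Z := IsArtinianRing.of_finite R Z
  have nil : ∀ r : R, IsNilpotent (2 * algebraMap R (BC k K B R) r) → r = 0 := by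
    intro r hr
    have h1 := (Commute.isNilpotent_mul_left (cen_inc (R := R) (k := k) (B := B)
      (algebraMap k K (1 / 2)) _) hr)
    rw [← IsScalarTower.algebraMap_apply, ← mul_assoc, cen_half half_BC 2, half_BC, one_mul] at h1
    obtain ⟨n, hn⟩ := h1
    exact IsNilpotent.eq_zero ⟨n, alg_inj (k := k) (K := K) (B := B) (by rw [map_pow, hn, map_zero])⟩
  haveI : IsReduced Z := ⟨fun z hz => by
    have cz : Cen (z : BC k K B R) := fun x => (Subalgebra.mem_center_iff.1 z.2 x).symm
    have n1 : IsNilpotent (z : BC k K B R) := hz.map Z.val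
    have n2 : IsNilpotent (star (z : BC k K B R)) := by
      obtain ⟨n, hn⟩ := n1; exact ⟨n, by rw [← star_pow, hn, star_zero]⟩
    obtain ⟨r, r', e⟩ := cen_eq h0 hθ cz
    have n3 := Commute.isNilpotent_add (cz _) n1 n2
    have n4 := Commute.isNilpotent_mul_left ((cen_inc θ⁻¹) _) (Commute.isNilpotent_sub (cz _) n1 n2)
    rw [e, star_cen h0 hθ] at n3 n4
    have a1 := nil r (by convert n3 using 1; rw [two_mul]; abel)
    have a2 := nil r' (by
      convert n4 using 1
      rw [add_sub_sub_cancel, mul_add, mul_smul_comm, cen_inc θ⁻¹, th_unit h0,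
        Algebra.algebraMap_eq_smul_one, two_mul])
    apply Subtype.ext
    rw [e, a1, a2]; simp⟩
  haveI : IsSemisimpleRing Z := IsArtinianRing.isSemisimpleRing_of_isReduced _
  intro M hM
  let M0 : Ideal Z :=
    { carrier := {z | (z : BC k K B R) ∈ M}
      zero_mem' := M.zero_mem
      add_mem' := M.add_mem
      smul_mem' := fun c z hz => (hM c z hz).1 }
  obtain ⟨e, hee, he⟩ := IsSemisimpleRing.ideal_eq_span_idempotent M0
  have eM : (e : BC k K B R) ∈ M := (he ▸ Ideal.mem_span_singleton_self e : e ∈ M0)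
  refine ⟨e, congrArg Subtype.val hee, fun x => (Subalgebra.mem_center_iff.1 e.2 x).symm,
    fun x => ⟨fun hx => ?_, fun hx => hx ▸ (hM x e eM).2⟩⟩
  let b := finBasis K B
  choose S hS using fun i => dens_all ((Algebra.linearMap K B).comp (b.coord i))
  have e1 : ∀ y : BC k K B R, y = ∑ i, (∑ p ∈ S i, inc k K B R p.1 * y * inc k K B R p.2) *
      inc k K B R (b i) := by
    intro y
    refine ind y (by simp) (fun r c => ?_) fun y z hy hz => ?_
    · simp only [mul_smul_comm, smul_mul_assoc, ← map_mul, ← Finset.smul_sum, ← map_sum, ← hS]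
      congr 2
      conv_lhs => rw [← b.sum_repr c]
      simp [Algebra.smul_def]
    · simp only [mul_add, add_mul, Finset.sum_add_distrib, ← hy, ← hz]
  rw [e1 x, Finset.mul_sum]
  refine Finset.sum_congr rfl fun i _ => ?_
  obtain ⟨r, r', e2⟩ := op_mem h0 hθ (b.coord i) (hS i) x
  have m1 : ∑ p ∈ S i, inc k K B R p.1 * x * inc k K B R p.2 ∈ M :=
    sum_mem fun p _ => (hM _ _ (hM _ _ hx).1).2
  have m2 : ∑ p ∈ S i, inc k K B R p.1 * x * inc k K B R p.2 ∈ Z := by
    rw [e2]
    exact add_mem (Z.algebraMap_mem r) (Z.smul_mem (Subalgebra.mem_center_iff.2 fun y =>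
      (cen_inc θ y).symm) r')
  have m3 : (⟨_, m2⟩ : Z) ∈ Ideal.span {e} := he ▸ m1
  obtain ⟨c, hc⟩ := Ideal.mem_span_singleton'.1 m3
  have : e * (⟨_, m2⟩ : Z) = ⟨_, m2⟩ := by rw [← hc, mul_left_comm, hee.eq]
  rw [← mul_assoc]; congr 1
  exact congrArg Subtype.val this

theorem good_BC [IsArtinianRing R] [IsReduced R] : Good (BC k K B R) := by
  obtain ⟨θ, h0, hθ⟩ := exists_skew (Quad.ne (k := k) (K := K))
  refine ⟨⟨_, half_BC⟩, ⟨_, _, cen_inc θ, ?_, th_unit h0⟩, idem_BC k K B R, fun x => ?_⟩
  · rw [star_inc, T24.star_algebraMap, hθ, map_neg, map_neg]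
  refine ind x ⟨0, fun x => by simp, by simp⟩ (fun r b => ?_) ?_
  · obtain ⟨c, hc⟩ := span_B K b
    refine ⟨_, (cen_inc c).smul r, ?_⟩
    rw [← smul_sub, ← map_sub]
    generalize b - algebraMap K B c = y at hc
    induction hc using AddSubgroup.closure_induction with
    | mem y hy =>
      obtain ⟨u, v, rfl⟩ := hy
      exact AddSubgroup.subset_closure ⟨r • inc k K B R u, inc k K B R v, by simp [smul_sub]⟩
    | zero => simp
    | add y z _ _ hy hz => rw [map_add, smul_add]; exact add_mem hy hz
    | neg y _ hy => rw [map_neg, smul_neg]; exact neg_mem hy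
  · rintro x y ⟨z, hz, h⟩ ⟨z', hz', h'⟩
    exact ⟨z + z', fun x => by rw [add_mul, mul_add, hz, hz'], by
      convert add_mem h h' using 1; abel⟩

/-- the local special unitary group as a set -/
def SG : Set (BC k K B R) := {g | g ∈ unitary (BC k K B R) ∧ nrd k K B R g = 1}

theorem ug_SG : UG (SG k K B R) :=
  ⟨⟨one_mem _, map_one _⟩,
    fun a ha b hb => ⟨mul_mem ha.1 hb.1, by rw [map_mul, ha.2, hb.2, one_mul]⟩,
    fun a ha => ⟨Unitary.star_mem ha.1, by
      have := congrArg (nrd k K B R) ha.1.2
      rwa [map_mul, ha.2, one_mul, map_one] at this⟩,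
    fun a ha => ha.1.2⟩

theorem spR_cen (θ : K) (r r' : R) :
    spR k K B R (algebraMap R _ r + r' • inc k K B R (algebraMap K B θ)) =
      (algebraMap R (R ⊗[k] AlgebraicClosure K) r +
        r' • (1 : R) ⊗ₜ[k] algebraMap K (AlgebraicClosure K) θ) • 1 := by
  rw [map_add, map_smul, AlgHom.commutes, spR_inc, AlgHom.commutes, add_smul, algebraMap_smul,
    smul_assoc, Algebra.algebraMap_eq_smul_one]
  congr 2
  ext i j
  by_cases h : i = j <;> simp [Matrix.algebraMap_matrix_apply, h]

variable [TopologicalSpace R] [IsTopologicalRing R] [T2Space R]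

theorem cont_eval {C σ : Type*} [CommRing C] [Algebra R C] (l : C →ₗ[R] R)
    (Q : MvPolynomial σ C) :
    Continuous fun x : σ → R => l (MvPolynomial.eval (fun i => algebraMap R C (x i)) Q) := by
  induction Q using MvPolynomial.induction_on with
  | C c => simpa using continuous_const
  | add p q hp hq => simp only [map_add]; exact hp.add hq
  | mul_X p i hp =>
    simp only [map_mul, MvPolynomial.eval_X, mul_comm _ (algebraMap R C _), ← Algebra.smul_def,
      map_smul, smul_eq_mul]
    exact (continuous_apply i).mul hp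

theorem det_expand (l : R ⊗[k] AlgebraicClosure K →ₗ[R] R) :
    ∃ Q : R × BC k K B R → R, Continuous Q ∧ ∀ t a, l (nrd k K B R (1 + t • a)) =
      l 1 + t * l (spR k K B R a).trace + t ^ 2 * Q (t, a) := by
  haveI := finite_kB k K B
  let e := bas k K B R (finBasis k B)
  let C := R ⊗[k] AlgebraicClosure K
  let M : Matrix (Fin (deg K B)) (Fin (deg K B)) (MvPolynomial (Option (Fin (finrank k B))) C) :=
    ∑ j, (MvPolynomial.X (some j) : MvPolynomial (Option (Fin (finrank k B))) C) •
      (spR k K B R (e j)).map MvPolynomial.C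
  obtain ⟨Q, hQ⟩ : ∃ Q, (1 + (MvPolynomial.X none :
      MvPolynomial (Option (Fin (finrank k B))) C) • M).det =
    1 + M.trace * MvPolynomial.X none + Q * MvPolynomial.X none ^ 2 :=
    ⟨_, Matrix.det_one_add_smul _ M⟩
  let x : R × BC k K B R → Option (Fin (finrank k B)) → R := fun z o => o.elim z.1 (e.repr z.2)
  have hx : Continuous x := continuous_pi fun o => by
    cases o with
    | none => exact continuous_fst
    | some j => exact (IsModuleTopology.continuous_of_linearMap (e.coord j)).comp continuous_snd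
  refine ⟨_, (cont_eval R l Q).comp hx, fun t a => ?_⟩
  let ev := MvPolynomial.eval fun i => algebraMap R C (x (t, a) i)
  have h1 : ev.mapMatrix M = spR k K B R a := by
    conv_rhs => rw [← e.sum_repr a, map_sum]
    ext i j
    simp only [M, ev, RingHom.mapMatrix_apply, Matrix.map_apply, Matrix.sum_apply, map_sum,
      Matrix.smul_apply, smul_eq_mul, map_mul, MvPolynomial.eval_X, MvPolynomial.eval_C, map_smul]
    exact Finset.sum_congr rfl fun c _ => (Algebra.smul_def _ _).symm
  have h2 := congrArg ev hQ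
  rw [RingHom.map_det, map_add, map_add, map_add, map_one, map_one, map_mul, map_mul, map_pow,
    AddMonoidHom.map_trace, MvPolynomial.eval_X] at h2
  have h3 : ev.mapMatrix ((MvPolynomial.X none :
      MvPolynomial (Option (Fin (finrank k B))) C) • M) = t • spR k K B R a := by
    rw [← h1]; ext i j
    simp only [ev, RingHom.mapMatrix_apply, Matrix.map_apply, Matrix.smul_apply, smul_eq_mul,
      map_mul, MvPolynomial.eval_X]
    exact (Algebra.smul_def _ _).symm
  rw [h3] at h2
  change _ = 1 + (ev.mapMatrix M).trace * algebraMap R C t + ev Q * algebraMap R C t ^ 2 at h2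
  rw [nrd_def, map_add, map_one, map_smul, h2, h1, ← map_pow, mul_comm _ (algebraMap R C _),
    mul_comm _ (algebraMap R C _), ← Algebra.smul_def, ← Algebra.smul_def, map_add, map_add,
    map_smul, map_smul]
  rfl

theorem spc_SG [FirstCountableTopology R] (s : Sc (BC k K B R)) {t : R} (ht : IsUnit t)
    (ht0 : Tendsto (fun n : ℕ => t ^ n) atTop (𝓝 0)) (hs : s.p = algebraMap R _ t) :
    Spc s (SG k K B R) := by
  obtain ⟨θ, h0, hθ⟩ := exists_skew (Quad.ne (k := k) (K := K))
  haveI := (crd₀ k K B R).toHomeomorph.isInducing.firstCountableTopology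
  refine ⟨ug_SG k K B R, isClosed_unitary.inter (isClosed_nrd k K B R 1), fun z hz cz => ?_,
    fun e hee he _ g hg => ⟨?_, ?_⟩⟩
  · have sk := Sc.Dir_skew (fun _ => ug_SG k K B R) hz
    obtain ⟨j, a, hj, ha, h⟩ := Sc.seq_of_Dir hz
    have tr : (spR k K B R z).trace = 0 := by
      let b := Algebra.TensorProduct.basis R (Basis.ofVectorSpace k (AlgebraicClosure K))
      refine b.ext_elem fun i => ?_
      obtain ⟨Q, hQ, e⟩ := det_expand k K B R (b.coord i)
      have c1 : Continuous fun a => b.coord i (spR k K B R a).trace :=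
        IsModuleTopology.continuous_of_linearMap ((b.coord i).comp
          ((Matrix.traceLinearMap _ R _).comp (spR k K B R).toLinearMap))
      have t1 := ((c1.tendsto z).comp ha).add ((ht0.comp hj).mul
        ((hQ.tendsto (0, z)).comp ((ht0.comp hj).prodMk_nhds ha)))
      rw [zero_mul, add_zero] at t1
      rw [map_zero, Finsupp.zero_apply]
      refine tendsto_nhds_unique t1 (tendsto_const_nhds.congr fun n => ?_)
      have e1 := e (t ^ j n) (a n)
      have e2 := (h n).2
      rw [hs, ← map_pow, ← Algebra.smul_def] at e2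
      rw [e2, add_assoc, left_eq_add, sq, mul_assoc, ← mul_add] at e1
      exact ((ht.pow _).mul_right_eq_zero.1 e1).symm
    obtain ⟨r, r', rfl⟩ := cen_eq h0 hθ cz
    rw [star_cen h0 hθ] at sk
    have r0 : algebraMap R (BC k K B R) r = 0 := two_cancel half_BC (by
      rw [two_mul, ← sub_eq_zero.2 sk]; abel)
    rw [spR_cen, alg_inj (k := k) (K := K) (B := B) (r0.trans (map_zero _).symm), map_zero,
      zero_add, Matrix.trace_smul, Matrix.trace_one, Fintype.card_fin, smul_eq_mul,
      Algebra.smul_def, mul_assoc] at tr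
    have u : IsUnit ((1 : R) ⊗ₜ[k] algebraMap K (AlgebraicClosure K) θ *
        (deg K B : R ⊗[k] AlgebraicClosure K)) := by
      have hd : (deg K B : AlgebraicClosure K) ≠ 0 := by exact_mod_cast (deg_pos K B).ne'
      have := (IsUnit.mk0 _ (mul_ne_zero ((map_ne_zero (algebraMap K (AlgebraicClosure K))).2 h0)
        hd)).map (Algebra.TensorProduct.includeRight (R := k) (A := R))
      rwa [map_mul, map_natCast] at this
    have r1 : r' = 0 := Algebra.TensorProduct.includeLeft_injective (R := k) (S := k) (A := R)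
      (B := AlgebraicClosure K) (algebraMap k _).injective
      ((u.mul_left_eq_zero.1 tr).trans (map_zero _).symm)
    rw [r0, r1]; simp
  · rename_i se
    have fe : (1 - e) * e = 0 := by rw [sub_mul, one_mul, hee, sub_self]
    have ef : e * (1 - e) = 0 := by rw [he, fe]
    have ff : (1 - e) * (1 - e) = 1 - e := by rw [mul_sub, mul_one, fe, sub_zero]
    have key : ∀ a b : BC k K B R, a * b = 1 → (e * a + (1 - e)) * (e * b + (1 - e)) = 1 := by
      intro a b hab
      rw [add_mul, mul_add, mul_add, ff, ← mul_assoc (1 - e), fe, zero_mul, mul_assoc e a,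
        ← mul_assoc a, ← he a, mul_assoc e a, hab, mul_one, hee, mul_assoc, ← he.one_sub a,
        ← mul_assoc, ef, zero_mul]
      abel
    rw [Unitary.mem_iff, star_add, star_mul, se, star_sub, star_one, se, ← he]
    exact ⟨key _ _ hg.1.1, key _ _ hg.1.2⟩
  · obtain ⟨r, r', e1⟩ := cen_eq h0 hθ he
    obtain ⟨ε, hε⟩ : ∃ ε : R ⊗[k] AlgebraicClosure K, spR k K B R e = ε • 1 :=
      ⟨_, by rw [e1, spR_cen]⟩
    have i0 : Fin (deg K B) := ⟨0, deg_pos K B⟩
    have εε : ε * ε = ε := by
      have := congrArg (fun x => spR k K B R x i0 i0) hee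
      simpa [hε, smul_smul] using this
    have pw : ∀ η : R ⊗[k] AlgebraicClosure K, η * η = η → η ^ Fintype.card (Fin (deg K B)) = η :=
      fun η h => by
        rw [Fintype.card_fin, ← Nat.succ_pred_eq_of_pos (deg_pos K B)]
        exact IsIdempotentElem.pow_succ_eq _ h
    have g2 := hg.2
    rw [nrd_def] at g2 ⊢
    rw [map_add, map_mul, map_sub, map_one, hε, smul_mul_assoc, one_mul]
    set N := ε • spR k K B R g + (1 - ε • 1)
    have n1 : ε • N = ε • spR k K B R g := by
      simp only [N, smul_add, smul_sub, smul_smul, εε, sub_self, add_zero]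
    have n2 : (1 - ε) • N = (1 - ε) • 1 := by
      simp only [N, smul_add, smul_sub, smul_smul, sub_mul, one_mul, εε, sub_self, zero_smul,
        zero_add, sub_zero]
    have d1 := congrArg Matrix.det n1
    have d2 := congrArg Matrix.det n2
    rw [Matrix.det_smul, Matrix.det_smul, pw _ εε, g2] at d1
    rw [Matrix.det_smul, Matrix.det_smul, pw _ (by rw [mul_sub, mul_one, sub_mul, one_mul, εε]; abel),
      Matrix.det_one] at d2
    linear_combination d1 + d2

variable [Nontrivial R]

theorem inc_inj : Function.Injective (inc k K B R) :=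
  haveI : Nontrivial (BC k K B R) := (alg_inj (k := k) (K := K) (B := B) (R := R)).nontrivial
  RingHom.injective (inc k K B R).toRingHom

theorem isUnit_of_inc {b : B} (h : IsUnit (inc k K B R b)) : IsUnit b := by
  haveI : IsArtinianRing B := IsArtinianRing.of_finite K B
  refine IsArtinianRing.isUnit_iff_mem_nonZeroDivisors.2 ⟨fun x hx => ?_, fun x hx => ?_⟩ <;>
    apply inc_inj k K B R
  · exact (h.mul_right_eq_zero.1 (by rw [← map_mul, hx, map_zero])).trans (map_zero _).symm
  · exact (h.mul_left_eq_zero.1 (by rw [← map_mul, hx, map_zero])).trans (map_zero _).symm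

theorem dense_inc (hd : DenseRange (algebraMap k R)) : DenseRange (inc k K B R) := by
  haveI := finite_kB k K B
  let e := finBasis k B
  have := (crd k K B R e).symm.surjective.denseRange.comp (DenseRange.piMap fun _ => hd)
    (crd k K B R e).symm.continuous
  refine DenseRange.of_comp (g := e.equivFun.symm) ?_
  convert this using 1
  funext x
  change _ = (bas k K B R e).equivFun.symm _
  simp [Basis.equivFun_symm_apply, bas_apply]

/-- the tangent cone of the rational points of `SU` -/
theorem comS_rat [FirstCountableTopology R] [LocallyCompactSpace R]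
    (hd : DenseRange (algebraMap k R)) (s : Sc (BC k K B R))
    (hp : ∃ b, inc k K B R b = s.p) {L : Set (BC k K B R)} (hL : UG L)
    (h : ∀ g : SU K B, inc k K B R ((g : unitary B) : B) ∈ L) : ∀ x ∈ comS (BC k K B R), x ∈ s.Tan L := by
  haveI := (crd₀ k K B R).toHomeomorph.isInducing.firstCountableTopology
  refine Sc.comS_Tan (inc k K B R).toRingHom.range (dense_inc k K B R hd) hp half_BC ⟨_, rfl⟩
    (by rintro _ ⟨b, rfl⟩; exact ⟨star b, rfl⟩) ?_ hL ?_
  · rintro _ ⟨b, rfl⟩ y h1 h2
    obtain ⟨u, rfl⟩ := isUnit_of_inc k K B R (b := b) ⟨⟨_, _, h1, h2⟩, rfl⟩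
    refine ⟨(u⁻¹ : Bˣ), ?_⟩
    exact left_inv_eq_right_inv (a := inc k K B R u) (by
      change inc k K B R _ * _ = 1
      rw [← map_mul, u.inv_mul, map_one]) h1
  · have u : ∀ a : B, inc k K B R a ∈ Fx (0 : BC k K B R) → a ∈ unitary B := fun a ha =>
      ⟨inc_inj k K B R (by rw [map_mul, map_one]; exact ha.2.1),
        inc_inj k K B R (by rw [map_mul, map_one]; exact ha.1)⟩
    rintro _ ⟨⟨a, rfl⟩, ha⟩ _ ⟨⟨b, rfl⟩, hb⟩
    have := h ⟨_, comm_mem_SU K ⟨a, u a ha⟩ ⟨b, u b hb⟩⟩
    simp only [Submonoid.coe_mul, map_mul] at this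
    exact this

end BC
end Crest.Agent.T24.Sa
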