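import Crest.Agent.T24.NaJcDef_52

/-! Row 24, the `J`-component: the frame of an arithmetic system (helper32). -/

set_option autoImplicit false
set_option linter.unusedSectionVars false

noncomputable section

namespace Crest.Agent.T24.Na.J52

open Topology Filter

universe u v w

namespace Fr32

/-- the finite part -/
def fn (S : Sys.{u, v, w}) : S.Z →+ S.A × Mt S.d S.F where
  toFun z := (S.ε * z.1, z.2)
  map_zero' := by simp
  map_add' x y := by simp [mul_add]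

/-- the points whose finite part is in the closure of the finite parts of `L₀` -/
def H (S : Sys.{u, v, w}) : AddSubgroup S.Z where
  carrier := {z | ∀ U ∈ 𝓝 (0 : S.A × Mt S.d S.F), ∃ b ∈ S.L₀, fn S (z - S.iJ b) ∈ U}
  zero_mem' U hU := ⟨0, zero_mem _, by simpa using mem_of_mem_nhds hU⟩
  add_mem' {x y} hx hy U hU := by
    obtain ⟨V, hV, h⟩ := exists_nhds_zero_half hU
    obtain ⟨a, ha, h1⟩ := hx V hV
    obtain ⟨b, hb, h2⟩ := hy V hV
    refine ⟨a + b, add_mem ha hb, ?_⟩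
    have := h _ h1 _ h2
    rwa [← map_add, show x - S.iJ a + (y - S.iJ b) = x + y - S.iJ (a + b) by
      rw [map_add]; abel] at this
  neg_mem' {x} hx U hU := by
    obtain ⟨a, ha, h1⟩ := hx _ (neg_mem_nhds_zero _ hU)
    refine ⟨-a, neg_mem ha, ?_⟩
    rw [Set.mem_neg, ← map_neg] at h1
    rwa [show -x - S.iJ (-a) = -(x - S.iJ a) by rw [map_neg]; abel]

variable {S : Sys.{u, v, w}}

theorem fn_cont : Continuous (fn S) := by
  change Continuous fun z : S.Z => (S.ε * (z.1 : S.A), z.2)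
  fun_prop

theorem fn_iJ (h : S.Ok) (b : S.X) : fn S (S.iJ b) = (S.ε * S.inc b, S.ψ b) := by
  change (S.ε * ((S.iJ b).1 : S.A), (S.iJ b).2) = _
  rw [h.iJ_fst, h.iJ_snd]

theorem dens (h : S.Ok) (z : S.Z) {U : Set (S.A × Mt S.d S.F)} (hU : U ∈ 𝓝 0) :
    ∃ b ∈ S.L, fn S (z - S.iJ b) ∈ U := by
  obtain ⟨D, -, h1, h2⟩ := h.L_cov 1 one_ne_zero U hU
  obtain ⟨b, hb, h3⟩ := h2 z
  rw [one_smul] at h3
  exact ⟨b, hb, h1 _ h3⟩

theorem link (h : S.Ok) : ∃ U ∈ 𝓝 (0 : S.A × Mt S.d S.F), ∀ b ∈ S.L, fn S (S.iJ b) ∈ U → b ∈ S.L₀ := by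
  obtain ⟨U, hU, h1⟩ := h.L_link 1 one_ne_zero
  exact ⟨U, hU, fun b hb h2 => h1 b hb (by rwa [one_smul, ← fn_iJ h])⟩

theorem near (h : S.Ok) : ∃ V ∈ 𝓝 (0 : S.A × Mt S.d S.F), ∀ z, fn S z ∈ V → z ∈ H S := by
  obtain ⟨U, hU, h1⟩ := link h
  obtain ⟨V, hV, h2⟩ := exists_nhds_half_neg hU
  refine ⟨V, hV, fun z hz W hW => ?_⟩
  obtain ⟨b, hb, h3, h4⟩ := dens h z (inter_mem hW hV)
  refine ⟨b, h1 b hb ?_, h3⟩
  have := h2 _ hz _ h4
  rwa [← map_sub, sub_sub_cancel] at this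

theorem H_nhds (h : S.Ok) : (H S : Set S.Z) ∈ 𝓝 (0 : S.Z) := by
  obtain ⟨V, hV, h1⟩ := near h
  exact mem_of_superset (fn_cont.continuousAt.preimage_mem_nhds (by rwa [map_zero])) h1

theorem H_link (h : S.Ok) (b : S.X) (hb : b ∈ S.L) (hH : S.iJ b ∈ H S) : b ∈ S.L₀ := by
  obtain ⟨U, hU, h1⟩ := link h
  obtain ⟨a, ha, h2⟩ := hH U hU
  rw [← map_sub] at h2
  have h3 := h1 _ (sub_mem hb ((h.L_iff a).2 ⟨0, by simpa using ha⟩)) h2
  simpa using add_mem h3 ha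

theorem H_pow (h : S.Ok) (z : S.Z) : ∃ j : ℕ, S.N ^ j • z ∈ H S := by
  obtain ⟨V, hV, h1⟩ := near h
  obtain ⟨b, hb, h2⟩ := dens h z hV
  obtain ⟨j, hj⟩ := (h.L_iff b).1 hb
  have h3 : S.iJ (S.N ^ j • b) ∈ H S := fun U hU => ⟨_, hj, by simpa using mem_of_mem_nhds hU⟩
  refine ⟨j, ?_⟩
  have := add_mem (nsmul_mem (h1 _ h2) (S.N ^ j)) h3
  rwa [map_nsmul, ← smul_add, sub_add_cancel] at this

theorem H_cpt (h : S.Ok) {D : Set S.Z} (hD : IsCompact D) : ∃ j : ℕ, ∀ z ∈ D, S.N ^ j • z ∈ H S := by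
  have ho : IsOpen (H S : Set S.Z) := (H S).isOpen_of_mem_nhds (H_nhds h)
  refine hD.elim_directed_cover (fun j : ℕ => {z | S.N ^ j • z ∈ H S})
    (fun j => ho.preimage (continuous_const_smul _)) (fun z _ => Set.mem_iUnion.2 (H_pow h z))
    (Monotone.directed_le fun i j hij z hz => ?_)
  obtain ⟨n, rfl⟩ := Nat.exists_eq_add_of_le' hij
  change S.N ^ (n + i) • z ∈ H S
  rw [pow_add, mul_smul]
  exact nsmul_mem hz _

theorem H_small (h : S.Ok) {U : Set (S.A × Mt S.d S.F)} (hU : U ∈ 𝓝 0) :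
    ∃ n : ℕ, ∀ z ∈ H S, fn S (S.N ^ n • z) ∈ U := by
  obtain ⟨V, hV, h1⟩ := exists_nhds_zero_half hU
  obtain ⟨n, hn⟩ := h.L_small V hV
  refine ⟨n, fun z hz => ?_⟩
  obtain ⟨b, hb, h2⟩ := hz ((S.N ^ n • ·) ⁻¹' V)
    ((continuous_const_smul _).continuousAt.preimage_mem_nhds (by rwa [smul_zero]))
  have h3 := hn b hb
  rw [← fn_iJ h] at h3
  have := h1 (S.N ^ n • fn S (z - S.iJ b)) h2 _ h3
  rwa [← map_nsmul, ← map_add, map_nsmul, ← smul_add, sub_add_cancel] at this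

theorem lnk (h : S.Ok) (D : Set S.Z) (hD : IsCompact D) (W : Set S.Z) (hW : W ∈ 𝓝 (0 : S.Z)) :
    ∃ n₀ : ℕ, n₀ ≠ 0 ∧ (∀ z ∈ D, n₀ • z ∈ H S) ∧
      ∀ m : ℕ, ∀ᶠ R in atTop, ∀ z ∈ D, S.sc R ((m * n₀) • z) ∈ W := by
  have h2 : IsInducing (Prod.map Subtype.val id : S.Z → S.A × Mt S.d S.F) :=
    IsInducing.subtypeVal.prodMap IsInducing.id
  rw [h2.nhds_eq_comap, mem_comap] at hW
  obtain ⟨U, hU, h3⟩ := hW
  obtain ⟨V, hV, h4⟩ := exists_nhds_zero_half (show U ∈ 𝓝 0 from hU)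
  obtain ⟨j, hj⟩ := H_cpt h hD
  obtain ⟨n, hn⟩ := H_small h hV
  refine ⟨S.N ^ n * S.N ^ j, mul_ne_zero (pow_ne_zero _ h.N_ne) (pow_ne_zero _ h.N_ne),
    fun z hz => by rw [mul_smul]; exact nsmul_mem (hj z hz) _, fun m => ?_⟩
  set M := m * (S.N ^ n * S.N ^ j) with hM
  have hc : Continuous fun p : S.A × S.Z =>
      (((p.1 - S.ε) * ((M • p.2).1 : S.A), 0) : S.A × Mt S.d S.F) := by fun_prop
  have h5 := hD.eventually_forall_of_forall_eventually (x₀ := S.ε)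
    (P := fun r z => (((r - S.ε) * ((M • z).1 : S.A), 0) : S.A × Mt S.d S.F) ∈ V) fun y _ =>
      hc.continuousAt.preimage_mem_nhds (by simp only [sub_self, zero_mul]; exact hV)
  filter_upwards [h.rho_tend.eventually h5] with R hR z hz
  have h6 : fn S (M • z) ∈ V := by
    rw [hM, mul_left_comm, mul_smul, mul_smul]
    exact hn _ (nsmul_mem (hj z hz) _)
  refine h3 ?_
  have := h4 _ (hR z hz) _ h6
  change (((S.sc R (M • z)).1 : S.A), (S.sc R (M • z)).2) ∈ U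
  rw [h.sc_fst, h.sc_snd]
  convert this using 1
  refine Prod.ext ?_ (zero_add _).symm
  change _ = _ + S.ε * ((M • z).1 : S.A)
  rw [sub_mul, sub_add_cancel]

theorem dv (h : S.Ok) (m : ℕ) (hm : m ≠ 0) :
    ∃ f : S.Z →+ S.Z, Continuous f ∧ (∀ z, m • f z = z) ∧ ∀ z, f (m • z) = z := by
  set a : S.B := algebraMap S.k S.B (m : S.k)⁻¹ with ha
  have h1 : star a = a := by rw [ha, Algebra.algebraMap_eq_smul_one, h.star_k, star_one]
  have h2 : m • a = 1 := by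
    rw [ha, ← map_nsmul, nsmul_eq_mul, mul_inv_cancel₀ (Nat.cast_ne_zero.2 hm), map_one]
  let f : S.Z →+ S.Z :=
    { toFun := fun z => (⟨S.inc a * z.1, by
        rw [selfAdjoint.mem_iff, star_mul, ← h.inc_star, h1, z.1.2.star_eq, h.k_comm]⟩, S.ψ a * z.2)
      map_zero' := Prod.ext (Subtype.ext (by simp)) (by simp)
      map_add' := fun x y => Prod.ext (Subtype.ext (by simp [mul_add])) (by simp [mul_add]) }
  have h3 : ∀ z, m • f z = z := fun z => by
    refine Prod.ext (Subtype.ext ?_) ?_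
    · change m • (S.inc a * z.1) = _
      rw [← smul_mul_assoc, ← map_nsmul, h2, map_one, one_mul]
    · change m • (S.ψ a * z.2) = _
      rw [← smul_mul_assoc, ← map_nsmul, h2, map_one, one_mul]
  refine ⟨f, Continuous.prodMk (Continuous.subtype_mk (by fun_prop) _) (by fun_prop), h3,
    fun z => by rw [map_nsmul, h3]⟩

theorem inv_snd (h : S.Ok) (γ : S.Γ) : (((S.ιΓ γ).2⁻¹ : GL (Fin S.d) S.F) : Mt S.d S.F) =
    S.ψ (star (((γ : S.U₀) : unitary S.B) : S.B)) := by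
  rw [← Prod.snd_inv, ← map_inv]
  exact h.ι_snd _

end Fr32

open Fr32 in
/-- **the frame of a system** -/
theorem frStmt : FrStmt.{u, v, w} := fun S h =>
  { cont := by
      change Continuous fun p : S.G × S.Z => ac p.1 p.2
      refine Continuous.prodMk (Continuous.subtype_mk ?_ _) ?_
      · have h1 : Continuous fun p : S.G × S.Z => ((p.1.1 : unitary S.A) : S.A) := by fun_prop
        have h2 : Continuous fun p : S.G × S.Z => (p.2.1 : S.A) := by fun_prop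
        exact (h1.mul h2).mul h1.star
      · have h1 : Continuous fun p : S.G × S.Z => p.1.2 := by fun_prop
        exact ((Units.continuous_val.comp h1).mul (by fun_prop)).mul
          (Units.continuous_coe_inv.comp h1)
    eqv := fun γ a => by
      refine Prod.ext (Subtype.ext ?_) ?_
      · change _ = (((S.ι γ).1 : unitary S.A) : S.A) * (S.iJ a).1 *
          star (((S.ι γ).1 : unitary S.A) : S.A)
        rw [h.iJ_fst, h.iJ_fst, h.ι_fst, ← h.inc_star, ← map_mul, ← map_mul]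
        rfl
      · change _ = ((S.ι γ).2 : Mt S.d S.F) * (S.iJ a).2 *
          (((S.ιΓ γ).2⁻¹ : GL (Fin S.d) S.F) : Mt S.d S.F)
        rw [inv_snd h, h.iJ_snd, h.iJ_snd, h.ι_snd, ← map_mul, ← map_mul]
        rfl
    sc_smul := fun R g z => by
      refine Prod.ext (Subtype.ext ?_) ?_
      · change ((S.sc R (g • z)).1 : S.A) = ((g.1 : unitary S.A) : S.A) * (S.sc R z).1 *
          star ((g.1 : unitary S.A) : S.A)
        rw [h.sc_fst, h.sc_fst, ← mul_assoc, ← h.rho_comm]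
        change S.ρ R * (_ * z.1 * _) = _
        simp only [mul_assoc]
      · change (S.sc R (g • z)).2 = (g.2 : Mt S.d S.F) * (S.sc R z).2 *
          ((g.2⁻¹ : GL (Fin S.d) S.F) : Mt S.d S.F)
        rw [h.sc_snd, h.sc_snd]
        rfl
    L_smul := h.L_cj
    fin := h.L_fin
    cov := by
      obtain ⟨D, h1, -, h2⟩ := h.L_cov 1 one_ne_zero Set.univ univ_mem
      exact ⟨D, h1, by simpa using h2⟩
    dv := dv h
    lnk := ⟨H S, H_nhds h, H_link h, lnk h⟩ }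

end Crest.Agent.T24.Na.J52
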