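import Crest.Agent.T24.NaDef_18

/-!
# Row 24, module NA: test functions, positive functionals and cells (helper84)
-/

set_option autoImplicit false
set_option linter.unusedSectionVars false

noncomputable section

namespace Crest.Agent.T24.Na.P84

open Topology Filter Set
open scoped Pointwise

section cc
variable {X : Type*} [TopologicalSpace X] {φ χ : X → ℝ} {ν : (X → ℝ) → ℝ}

theorem cc_zero : Cc (0 : X → ℝ) := ⟨continuous_const, HasCompactSupport.zero⟩

theorem cc_add (h : Cc φ) (h' : Cc χ) : Cc (φ + χ) := ⟨h.1.add h'.1, h.2.add h'.2⟩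

theorem cc_smul (c : ℝ) (h : Cc φ) : Cc (c • φ) :=
  ⟨h.1.const_smul c, h.2.mono fun x hx h0 => hx (by simp [h0])⟩

theorem cc_neg (h : Cc φ) : Cc (-φ) := by simpa using cc_smul (-1) h

theorem cc_sub (h : Cc φ) (h' : Cc χ) : Cc (φ - χ) := by
  rw [sub_eq_add_neg]; exact cc_add h (cc_neg h')

theorem cc_sum {I : Type*} (s : Finset I) {f : I → X → ℝ} (h : ∀ i ∈ s, Cc (f i)) :
    Cc (∑ i ∈ s, f i) :=
  Finset.sum_induction f Cc (fun _ _ => cc_add) cc_zero h

theorem cc_mul (h : Cc φ) (h' : Continuous χ) : Cc (φ * χ) := ⟨h.1.mul h', h.2.mul_right⟩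

theorem cc_comp {X' : Type*} [TopologicalSpace X'] (h : Cc φ) (e : X' ≃ₜ X) : Cc fun x => φ (e x) :=
  ⟨h.1.comp e.continuous, h.2.comp_homeomorph e⟩

theorem cc_of [T2Space X] (h : Continuous φ) {K : Set X} (hK : IsCompact K)
    (h0 : ∀ x, x ∉ K → φ x = 0) : Cc φ := ⟨h, HasCompactSupport.intro hK h0⟩

theorem pos_zero (h : PosF ν) : ν 0 = 0 := by simpa using h.smul 0 0 cc_zero

theorem pos_sub (h : PosF ν) (h1 : Cc φ) (h2 : Cc χ) : ν (φ - χ) = ν φ - ν χ := by
  have := h.add (φ - χ) χ (cc_sub h1 h2) h2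
  rw [sub_add_cancel] at this
  linarith

theorem pos_mono (h : PosF ν) (h1 : Cc φ) (h2 : Cc χ) (hle : φ ≤ χ) : ν φ ≤ ν χ := by
  have := h.pos _ (cc_sub h2 h1) (sub_nonneg.2 hle)
  rw [pos_sub h h2 h1] at this
  linarith

theorem pos_abs_le (h : PosF ν) (h1 : Cc φ) (h2 : Cc χ) (hle : ∀ x, |φ x| ≤ χ x) :
    |ν φ| ≤ ν χ := by
  have a := pos_mono h h1 h2 fun x => (abs_le.1 (hle x)).2
  have b := pos_mono h (cc_smul (-1) h2) h1 fun x => by simpa using (abs_le.1 (hle x)).1
  rw [h.smul _ _ h2] at b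
  exact abs_le.2 ⟨by linarith, a⟩

theorem pos_sum (h : PosF ν) {I : Type*} (s : Finset I) {f : I → X → ℝ} (hf : ∀ i ∈ s, Cc (f i)) :
    ν (∑ i ∈ s, f i) = ∑ i ∈ s, ν (f i) := by
  classical
  induction s using Finset.induction_on with
  | empty => simpa using pos_zero h
  | insert i s hi ih =>
    rw [Finset.sum_insert hi, Finset.sum_insert hi, h.add _ _ (hf i (by simp))
      (cc_sum s fun j hj => hf j (by simp [hj])), ih fun j hj => hf j (by simp [hj])]

variable [T2Space X] [LocallyCompactSpace X]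

theorem exists_bump {K : Set X} (hK : IsCompact K) :
    ∃ χ : X → ℝ, Cc χ ∧ 0 ≤ χ ∧ χ ≤ 1 ∧ ∀ x ∈ K, χ x = 1 := by
  obtain ⟨f, h1, -, h3, h4⟩ := exists_continuous_one_zero_of_isCompact hK isClosed_empty (by simp)
  exact ⟨f, ⟨f.continuous, h3⟩, fun x => (h4 x).1, fun x => (h4 x).2, h1⟩

/-- a positive functional is continuous along families with locally uniform compact support -/
theorem pos_cont (h : PosF ν) {T : Type*} [TopologicalSpace T] {f : T → X → ℝ}
    (hf : Continuous fun p : T × X => f p.1 p.2)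
    (hs : ∀ t₀, ∃ K, IsCompact K ∧ ∀ᶠ t in 𝓝 t₀, ∀ x, x ∉ K → f t x = 0) :
    Continuous fun t => ν (f t) := by
  have hc : ∀ t, Cc (f t) := fun t => by
    obtain ⟨K, hK, h0⟩ := hs t
    exact cc_of (hf.comp (Continuous.prodMk_right t)) hK h0.self_of_nhds
  refine continuous_iff_continuousAt.2 fun t₀ => ?_
  obtain ⟨K, hK, h0⟩ := hs t₀
  obtain ⟨χ, hχ, hχ0, -, hχ1⟩ := exists_bump hK
  have hp := h.pos χ hχ hχ0
  rw [ContinuousAt, Metric.tendsto_nhds]
  intro ε hε
  have hη : 0 < ε / (ν χ + 1) := by positivity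
  have h1 : ∀ᶠ t in 𝓝 t₀, ∀ x ∈ K, |f t x - f t₀ x| < ε / (ν χ + 1) :=
    hK.eventually_forall_of_forall_eventually (P := fun t x => |f t x - f t₀ x| < ε / (ν χ + 1))
      fun x _ => by
        have : Continuous fun p : T × X => |f p.1 p.2 - f t₀ p.2| :=
          (hf.sub (hf.comp ((Continuous.prodMk_right t₀).comp continuous_snd))).abs
        exact this.continuousAt.eventually_lt continuousAt_const (by simpa using hη)
  filter_upwards [h0, h1] with t h2 h3
  rw [Real.dist_eq, ← pos_sub h (hc t) (hc t₀)]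
  refine (pos_abs_le h (cc_sub (hc t) (hc t₀)) (cc_smul (ε / (ν χ + 1)) hχ) fun x => ?_).trans_lt ?_
  · by_cases hx : x ∈ K
    · simpa [hχ1 x hx] using (h3 x hx).le
    · simpa [h2 x hx, h0.self_of_nhds x hx] using mul_nonneg hη.le (hχ0 x)
  · rw [h.smul _ _ hχ, div_mul_eq_mul_div, div_lt_iff₀ (by positivity)]
    nlinarith

end cc

section tens
variable {X M : Type*} [TopologicalSpace X] [TopologicalSpace M]

/-- `χ ⊗ 1_β` -/
def tens (χ : X → ℝ) (β : Set M) (z : X × M) : ℝ := χ z.1 * β.indicator 1 z.2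

omit [TopologicalSpace X] [TopologicalSpace M] in
theorem tens_nonneg {χ : X → ℝ} (h : 0 ≤ χ) (β : Set M) : 0 ≤ tens χ β := fun _ =>
  mul_nonneg (h _) (indicator_nonneg (fun _ _ => zero_le_one) _)

omit [TopologicalSpace X] [TopologicalSpace M] in
theorem tens_mono {χ χ' : X → ℝ} (h0 : 0 ≤ χ') (h : χ ≤ χ') {β β' : Set M} (hβ : β ⊆ β') :
    tens χ β ≤ tens χ' β' := fun _ =>
  mul_le_mul (h _) (indicator_le_indicator_of_subset hβ (fun _ => zero_le_one) _)
    (indicator_nonneg (fun _ _ => zero_le_one) _) (h0 _)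

omit [TopologicalSpace X] [TopologicalSpace M] in
theorem tens_union (χ : X → ℝ) {β β' : Set M} (h : Disjoint β β') :
    tens χ (β ∪ β') = tens χ β + tens χ β' := by
  funext z
  simp only [tens, Pi.add_apply, indicator_union_of_disjoint h, mul_add]

variable [T2Space X] [T2Space M]

theorem tsupport_tens {χ : X → ℝ} {β : Set M} (hβ : IsCompact β) :
    tsupport (tens χ β) ⊆ tsupport χ ×ˢ β :=
  closure_minimal (fun _ hz => ⟨subset_tsupport _ (left_ne_zero_of_mul hz),
    by_contra fun h => right_ne_zero_of_mul hz (indicator_of_notMem h _)⟩)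
    ((isClosed_tsupport _).prod hβ.isClosed)

theorem cc_tens {χ : X → ℝ} (h : Cc χ) {β : Set M} (hβ : IsCompact β) (ho : IsOpen β) :
    Cc (tens χ β) :=
  ⟨(h.1.comp continuous_fst).mul
      ((IsClopen.continuous_indicator ⟨hβ.isClosed, ho⟩ continuous_const).comp continuous_snd),
    (h.2.isCompact.prod hβ).of_isClosed_subset (isClosed_tsupport _) (tsupport_tens hβ)⟩

end tens

section haar
variable {X M : Type*} [TopologicalSpace X] [T2Space X] [AddCommGroup M] [TopologicalSpace M]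
  [IsTopologicalAddGroup M] [T2Space M] {Λ : (X × M → ℝ) → ℝ} {χ : X → ℝ}

theorem tens_shift (hΛ : ∀ φ (t : M), Cc φ → Λ (fun z => φ (z.1, z.2 + t)) = Λ φ) (hχ : Cc χ)
    {β : Set M} (hβ : IsCompact β) (ho : IsOpen β) (t : M) :
    Λ (tens χ {y | y + t ∈ β}) = Λ (tens χ β) := by
  rw [← hΛ _ t (cc_tens hχ hβ ho)]
  rfl

theorem relIndex_ne {H H' : AddSubgroup M} (hc : IsCompact (H : Set M)) (ho : IsOpen (H' : Set M)) :
    H'.relIndex H ≠ 0 := by
  have : CompactSpace H := isCompact_iff_compactSpace.1 hc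
  have := AddSubgroup.quotient_finite_of_isOpen (H'.addSubgroupOf H)
    (ho.preimage continuous_subtype_val)
  exact AddSubgroup.index_ne_zero_of_finite

/-- `Λ (χ ⊗ 1_H) = [H : H'] Λ (χ ⊗ 1_H')` -/
theorem tens_index (hp : PosF Λ) (hΛ : ∀ φ (t : M), Cc φ → Λ (fun z => φ (z.1, z.2 + t)) = Λ φ)
    (hχ : Cc χ) {H H' : AddSubgroup M} (hle : H' ≤ H) (hc : IsCompact (H : Set M))
    (ho : IsOpen (H' : Set M)) : Λ (tens χ H) = H'.relIndex H * Λ (tens χ H') := by
  classical
  have hc' : IsCompact (H' : Set M) := hc.of_isClosed_subset (H'.isClosed_of_isOpen ho) hle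
  have : Finite (H ⧸ H'.addSubgroupOf H) := Nat.finite_of_card_ne_zero (relIndex_ne hc ho)
  have := Fintype.ofFinite (H ⧸ H'.addSubgroupOf H)
  set B : H ⧸ H'.addSubgroupOf H → Set M := fun q => {y | y + -(q.out : M) ∈ H'} with hB
  have e : ∀ q, B q = Homeomorph.addRight (-(q.out : M)) ⁻¹' H' := fun q => rfl
  have h1 : tens χ (H : Set M) = ∑ q, tens χ (B q) := by
    funext z
    simp only [tens, Finset.sum_apply, ← Finset.mul_sum]
    congr 1
    by_cases hz : z.2 ∈ H
    · have key : ∀ q, z.2 ∈ B q ↔ q = ((⟨z.2, hz⟩ : H) : H ⧸ H'.addSubgroupOf H) := fun q => by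
        rw [← q.out_eq', QuotientAddGroup.eq, AddSubgroup.mem_addSubgroupOf, q.out_eq', hB,
          mem_ofPred_eq, add_comm]
        rfl
      rw [indicator_of_mem (show z.2 ∈ (H : Set M) from hz),
        Finset.sum_eq_single _ (fun q _ hq => indicator_of_notMem (fun h => hq ((key q).1 h)) _)
          (by simp), indicator_of_mem ((key _).2 rfl)]
    · rw [indicator_of_notMem (show z.2 ∉ (H : Set M) from hz), Finset.sum_eq_zero fun q _ =>
        indicator_of_notMem (fun h => hz (by simpa using H.add_mem (hle h) q.out.2)) _]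
  rw [h1, pos_sum hp _ fun q _ => cc_tens hχ (by rw [e]; exact (Homeomorph.isCompact_preimage _).2 hc')
    (by rw [e]; exact ho.preimage (Homeomorph.continuous _)),
    Finset.sum_congr rfl (g := fun _ => Λ (tens χ (H' : Set M)))
      fun q _ => tens_shift hΛ hχ hc' ho (-(q.out : M)), Finset.sum_const, Finset.card_univ,
    nsmul_eq_mul, ← Nat.card_eq_fintype_card]
  rfl

end haar

section cells
variable {F : Type*} [Field F] {d : ℕ} {O : Subring F} {π : F}

theorem mem_cell {j : ℕ} {y : Mt d F} : y ∈ cell d O π j ↔ ∀ a b, ∃ o ∈ O, y a b = π ^ j * o :=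
  Iff.rfl

theorem mem_cell_zero {y : Mt d F} : y ∈ cell d O π 0 ↔ ∀ a b, y a b ∈ O := by simp [mem_cell]

theorem cell_mul {i j : ℕ} {x y : Mt d F} (hx : x ∈ cell d O π i) (hy : y ∈ cell d O π j) :
    x * y ∈ cell d O π (i + j) := fun a b => by
  choose f hf hf' using hx
  choose g hg hg' using hy
  refine ⟨∑ c, f a c * g c b, O.sum_mem fun c _ => O.mul_mem (hf a c) (hg c b), ?_⟩
  rw [Matrix.mul_apply, Finset.mul_sum]
  exact Finset.sum_congr rfl fun c _ => by rw [hf', hg']; ring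

theorem smul_mem_cell (hπ : π ≠ 0) {i j : ℕ} {y : Mt d F} :
    π ^ i • y ∈ cell d O π (i + j) ↔ y ∈ cell d O π j := by
  simp only [mem_cell, Matrix.smul_apply, smul_eq_mul, pow_add, mul_assoc,
    mul_right_inj' (pow_ne_zero i hπ)]

theorem o_smul_mem {j : ℕ} {y : Mt d F} {o : F} (ho : o ∈ O) (hy : y ∈ cell d O π j) :
    o • y ∈ cell d O π j := fun a b => by
  obtain ⟨o', h, e⟩ := hy a b
  exact ⟨o * o', O.mul_mem ho h, by rw [Matrix.smul_apply, e, smul_eq_mul]; ring⟩

theorem cell_anti (hπ : π ∈ O) : Antitone (cell d O π) := fun i j hij y hy a b => by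
  obtain ⟨o, ho, e⟩ := hy a b
  obtain ⟨k, rfl⟩ := Nat.exists_eq_add_of_le hij
  exact ⟨π ^ k * o, O.mul_mem (O.pow_mem hπ k) ho, by rw [e]; ring⟩

theorem one_mem_cell : (1 : Mt d F) ∈ cell d O π 0 := mem_cell_zero.2 fun a b => by
  rw [Matrix.one_apply]; split_ifs; exacts [O.one_mem, O.zero_mem]

theorem single_mem_cell (a b : Fin d) {o : F} (ho : o ∈ O) : Matrix.single a b o ∈ cell d O π 0 :=
  mem_cell_zero.2 fun a' b' => by
    rw [Matrix.single_apply]; split_ifs; exacts [ho, O.zero_mem]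

variable [TopologicalSpace F] [IsTopologicalDivisionRing F] [T2Space F]

theorem cell_eq (j : ℕ) : (cell d O π j : Set (Mt d F)) =
    Set.univ.pi fun _ => Set.univ.pi fun _ => (π ^ j * ·) '' (O : Set F) := by
  ext y
  exact ⟨fun h a _ b _ => (h a b).imp fun o ho => ⟨ho.1, ho.2.symm⟩,
    fun h a b => (h a trivial b trivial).imp fun o ho => ⟨ho.1, ho.2.symm⟩⟩

theorem cell_compact (h : Lf O π) (j : ℕ) : IsCompact (cell d O π j : Set (Mt d F)) := by
  rw [cell_eq]
  exact isCompact_univ_pi fun _ => isCompact_univ_pi fun _ => h.loc.cpt.image (by fun_prop)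

theorem cell_open (h : Lf O π) (j : ℕ) : IsOpen (cell d O π j : Set (Mt d F)) := by
  rw [cell_eq]
  exact isOpen_set_pi finite_univ fun _ _ => isOpen_set_pi finite_univ fun _ _ =>
    (Homeomorph.mulLeft₀ _ (pow_ne_zero j h.loc.ne)).isOpenMap _ h.opn

theorem ncell_ne (h : Lf O π) (j : ℕ) : ncell d O π j ≠ 0 :=
  relIndex_ne (cell_compact h 0) (cell_open h j)

/-- the cells are a basis of neighbourhoods of `0` -/
theorem cell_basis (h : Lf O π) {U : Set (Mt d F)} (hU : U ∈ 𝓝 0) :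
    ∃ j, (cell d O π j : Set (Mt d F)) ⊆ U := by
  have h1 : ∀ᶠ c : F in 𝓝 0, ∀ y ∈ (cell d O π 0 : Set (Mt d F)), c • y ∈ U :=
    (cell_compact h 0).eventually_forall_of_forall_eventually (P := fun c y => c • y ∈ U)
      fun y _ => by
        have : Continuous fun p : F × Mt d F => p.1 • p.2 := continuous_smul
        exact this.continuousAt.preimage_mem_nhds (by simpa using hU)
  obtain ⟨j, hj⟩ := (h.loc.tend.eventually h1).exists
  refine ⟨j, fun y hy => ?_⟩
  have e : π ^ j • (π ^ j)⁻¹ • y = y := smul_inv_smul₀ (pow_ne_zero j h.loc.ne) y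
  rw [← e]
  exact hj _ ((smul_mem_cell h.loc.ne (i := j)).1 (by rwa [e]))

/-- compact sets are bounded -/
theorem bounded (h : Lf O π) {K : Set (Mt d F)} (hK : IsCompact K) :
    ∃ c : ℕ, ∀ y ∈ K, π ^ c • y ∈ cell d O π 0 := by
  have hm : Monotone fun c : ℕ => {y : Mt d F | π ^ c • y ∈ cell d O π 0} := fun a b hab y hy => by
    obtain ⟨k, rfl⟩ := Nat.exists_eq_add_of_le hab
    rw [mem_ofPred_eq, add_comm, pow_add, mul_smul]
    exact o_smul_mem (O.pow_mem h.pi_mem k) hy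
  obtain ⟨c, hc⟩ := hK.elim_directed_cover _
    (fun c : ℕ => (cell_open h 0).preimage (continuous_const_smul (π ^ c))) (fun y _ => by
      choose n hn using fun p : Fin d × Fin d => h.loc.abs (y p.1 p.2)
      refine mem_iUnion.2 ⟨∑ p, n p, mem_cell_zero.2 fun a b => ?_⟩
      obtain ⟨k, hk⟩ := Nat.exists_eq_add_of_le
        (Finset.single_le_sum (f := n) (fun _ _ => Nat.zero_le _) (Finset.mem_univ (a, b)))
      change π ^ (∑ p, n p) * y a b ∈ O
      rw [hk, add_comm, pow_add, mul_assoc]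
      exact O.mul_mem (O.pow_mem h.pi_mem k) (hn (a, b))) hm.directed_le
  exact ⟨c, hc⟩

/-- compact sets of `GL_d` distort the cells boundedly -/
theorem bounded_gl (h : Lf O π) {K : Set (GL (Fin d) F)} (hK : IsCompact K) :
    ∃ c : ℕ, ∀ g ∈ K, ∀ g' ∈ K, ∀ j, ∀ y ∈ cell d O π j,
      π ^ c • ((g : Mt d F) * y * ((g'⁻¹ : GL (Fin d) F) : Mt d F)) ∈ cell d O π j ∧
      π ^ c • (((g'⁻¹ : GL (Fin d) F) : Mt d F) * y * (g : Mt d F)) ∈ cell d O π j := by
  obtain ⟨a, ha⟩ := bounded h (hK.image Units.continuous_val)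
  obtain ⟨b, hb⟩ := bounded h (hK.image Units.continuous_coe_inv)
  refine ⟨a + b, fun g hg g' hg' j y hy => ?_⟩
  have h1 := cell_mul (cell_mul (ha _ ⟨g, hg, rfl⟩) hy) (hb _ ⟨g', hg', rfl⟩)
  have h2 := cell_mul (cell_mul (hb _ ⟨g', hg', rfl⟩) hy) (ha _ ⟨g, hg, rfl⟩)
  simp only [zero_add, add_zero, smul_mul_assoc, mul_smul_comm, smul_smul, ← pow_add] at h1 h2
  exact ⟨by rwa [add_comm], h2⟩

theorem not_unit (h : Lf O π) {o : F} (ho : o ∈ O) : π * o ≠ 1 := fun e => by
  have hc : Tendsto (fun n : ℕ => π ^ n) atTop (𝓝 0) := h.loc.tend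
  have h1 : ∀ᶠ c : F in 𝓝 0, ∀ y ∈ (O : Set F), c * y ≠ 1 :=
    h.loc.cpt.eventually_forall_of_forall_eventually (P := fun c y => c * y ≠ 1) fun y _ => by
      have : Continuous fun p : F × F => p.1 * p.2 := continuous_mul
      exact this.continuousAt.eventually_ne (by simp)
  obtain ⟨n, hn⟩ := (hc.eventually h1).exists
  exact hn _ (O.pow_mem ho n) (by rw [← mul_pow, e, one_pow])

theorem ne_zero_of_dom (h : Lf O π) {i : Fin d} {l : F} {y : Mt d F}
    (hy : l • y - Matrix.single i i 1 ∈ cell d O π 1) : l ≠ 0 := by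
  rintro rfl
  obtain ⟨o, ho, e⟩ := hy i i
  exact not_unit h (O.neg_mem ho) (by simp at e; linear_combination e)

end cells

end Crest.Agent.T24.Na.P84
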