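import Crest.Agent.T24.NaJcD_62
import Crest.Agent.T24.NaPos_84

/-! Row 24, the `J`-component: from the abstract counting core to `JcStmt` (helper32). -/

set_option autoImplicit false
set_option linter.unusedSectionVars false

noncomputable section

namespace Crest.Agent.T24.Na.J62

open Topology Filter MeasureTheory K39 J52
open scoped ENNReal NNReal

universe u v w

namespace G32

/-- the colour of a lattice element -/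
abbrev cq (S : Sys.{u, v, w}) : S.Γ →* S.Q := S.c.comp S.Γ.subtype

/-- zero sums along the cosets of `M` -/
def Zs (S : Sys.{u, v, w}) (f : S.Q → ℝ) : Prop := ∀ q, ∑ᶠ g : S.M, f (q * g) = 0

theorem sq_le {V : Type*} [NormedAddCommGroup V] {x y : V} {C₀ C₁ Δ : ℝ≥0}
    (h : ‖x‖ ≤ C₀ * √Δ + C₁ * ‖y‖) :
    ‖x‖ₑ ^ 2 ≤ 2 * ((C₀ : ℝ≥0∞) + 1) ^ 2 * Δ + 2 * (C₁ : ℝ≥0∞) ^ 2 * ‖y‖ₑ ^ 2 := by
  have h1 : ‖x‖ ^ 2 ≤ 2 * ((C₀ : ℝ) + 1) ^ 2 * Δ + 2 * (C₁ : ℝ) ^ 2 * ‖y‖ ^ 2 := by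
    have h2 := Real.sq_sqrt Δ.coe_nonneg
    have h3 := pow_le_pow_left₀ (norm_nonneg x) h 2
    have h4 := mul_nonneg C₀.coe_nonneg Δ.coe_nonneg
    nlinarith [sq_nonneg (C₀ * √Δ - C₁ * ‖y‖), Δ.coe_nonneg]
  rw [enorm_eq_nnnorm, enorm_eq_nnnorm]
  exact_mod_cast h1

theorem le_sqrt {V : Type*} [NormedAddCommGroup V] {x : V} {Δ : ℝ≥0} (h : ‖x‖ₑ ^ 2 ≤ Δ) :
    ‖x‖ ≤ √Δ := by
  rw [enorm_eq_nnnorm] at h
  exact Real.le_sqrt_of_sq_le (by exact_mod_cast h)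

theorem inst {α : Type u} [MeasurableSpace α] {ν : Measure α} {A B T : Type*} [Group A] [Group B]
    (π : A × B →* (Lp ℝ 2 ν ≃ₗᵢ[ℝ] Lp ℝ 2 ν)) {𝒞 : Set B} {P : B → Prop} {j : T → B} {τ : B}
    {C₀ C₁ : ℝ} (h : ∀ (V : Type u) [NormedAddCommGroup V] [InnerProductSpace ℝ V] [CompleteSpace V]
      (ρ : B →* V ≃ₗᵢ[ℝ] V) (x : V) (δ : ℝ), (∀ κ ∈ 𝒞, P κ → ‖ρ κ x - x‖ ≤ δ) →
        ∀ s, ‖ρ (j s) x - x‖ ≤ C₀ * δ + C₁ * ‖ρ τ x - x‖) (x : Lp ℝ 2 ν) (δ : ℝ)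
    (h' : ∀ κ ∈ 𝒞, P κ → ‖π (1, κ) x - x‖ ≤ δ) (s : T) :
    ‖π (1, j s) x - x‖ ≤ C₀ * δ + C₁ * ‖π (1, τ) x - x‖ :=
  h _ (π.comp (MonoidHom.inr _ _)) x δ h' s

variable {S : Sys.{u, v, w}}

theorem gp (hG : GapStmt.{u, max u v w}) (hS : SgStmt.{u, v, w}) (h : S.Ok)
    [SecondCountableTopology S.G₂] [MeasurableSpace S.G] [BorelSpace S.G] [Countable S.Γ]
    {c : S.G → S.Γ} (hc : Co S.ιΓ c) (μ : Measure S.G) [μ.IsHaarMeasure] [μ.IsMulRightInvariant] :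
    Gp S.ιΓ c μ (cq S) S.L (fun R => (S.sc R).toAddEquiv.toAddMonoidHom)
      {z | Dom S.O S.π z.2} (Zs S) := by
  intro Ω hΩ hO
  obtain ⟨𝒞, C₀, h𝒞, h1⟩ := hG S.F S.O S.π S.d h.lf h.hd (Prod.snd '' Ω) (hΩ.image continuous_snd)
    (by rintro _ ⟨z, hz, rfl⟩; exact hO hz)
  have hi : Continuous fun y : Mt S.d S.F => ((0, y) : S.Z) := by fun_prop
  refine ⟨(fun g => (1, g)) '' 𝒞, 2 * (C₀ + 1) ^ 2, h𝒞.image (by fun_prop), by finiteness,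
    fun V₁ hV₁ => ?_⟩
  obtain ⟨C₁, h2⟩ := h1 _ (hi.continuousAt.preimage_mem_nhds hV₁)
  refine ⟨2 * C₁ ^ 2, by finiteness, fun V₂ hV₂ R z hz => ?_⟩
  obtain ⟨τ, hτ, h3, h4⟩ := h2 _ (hi.continuousAt.preimage_mem_nhds hV₂) z.2 ⟨_, hz, h.sc_snd R z⟩
  have e : ∀ κ : GL (Fin S.d) S.F, ((1, κ) : S.G) • z - z =
      (0, (κ : Mt S.d S.F) * z.2 * ((κ⁻¹ : GL (Fin S.d) S.F) : Mt S.d S.F) - z.2) := fun κ =>
    Prod.ext (by change (1 : S.G₂) • z.1 - z.1 = 0; simp) rfl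
  refine ⟨(1, τ), ⟨τ, hτ, rfl⟩, by rw [e]; exact h3, fun L' _ m hm hL Ψ Δ hΨ hZ hf hΔ => ?_⟩
  rcases eq_or_ne Δ ∞ with rfl | hΔ'
  · rw [ENNReal.mul_top (by simp), top_add]
    exact le_top
  lift Δ to ℝ≥0 using hΔ'
  obtain ⟨x, hx⟩ : ∃ x : Lp ℝ 2 (mX c μ (wm fun _ : Yt (cq S) L' => 1)),
      x =ᵐ[mX c μ (wm fun _ : Yt (cq S) L' => 1)] Ψ :=
    ⟨(memLp_two hΨ.aestronglyMeasurable hf).toLp, MemLp.coeFn_toLp _⟩
  have hk : ∀ g, ‖hc.kp μ _ g x - x‖ₑ ^ 2 = en c μ fun p => Ψ (Pj S.ιΓ c (rt g p)) - Ψ p := fun g =>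
    enorm_sq ((Lp.coeFn_sub _ _).trans ((hc.kp_coe_of μ _ g hx).sub hx))
  have h5 := inst (hc.kp μ (wm fun _ : Yt (cq S) L' => 1)) h4 x √Δ fun κ hκ hV =>
    le_sqrt ((hk _).trans_le (hΔ (1, κ) ⟨κ, hκ, rfl⟩ (by rw [e]; exact hV)))
  have := Fintype.ofFinite S.M
  obtain ⟨r, hr⟩ : ∃ r : S.M → Yt (cq S) L' ≃ Yt (cq S) L', ∀ f y, r f y = (y.1, y.2 * f) :=
    ⟨fun f => (Equiv.refl (S.X ⧸ L')).prodCongr (Equiv.mulRight (f : S.Q)), fun _ _ => rfl⟩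
  have h6 : ∀ g y, ∑ f, Ψ (g, r f y) = 0 := fun g y => by
    simp only [hr]
    rw [← finsum_eq_sum_of_fintype]
    exact hZ g y.1 y.2
  have h7 : ∀ f y, ∀ W ∈ 𝓝 (1 : S.G₂), ∃ γ, Near S.ιΓ W γ ∧ γ • r f y = y := fun f y W hW => by
    obtain ⟨a, ha⟩ := QuotientAddGroup.mk_surjective y.1
    obtain ⟨γ, h6, h7, b, hb, h8⟩ := h.dens _ (h.nrm.conj_mem _ (inv_mem f.2) y.2) a m hm W hW
    rw [hr]
    refine ⟨γ, h6, Prod.ext ?_ ?_⟩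
    · change qa γ y.1 = y.1
      rw [← ha, qa_mk, show γ • a = a + m • b from h8, QuotientAddGroup.mk_add_of_mem a (hL b hb)]
    · change S.c γ * (y.2 * f) = y.2
      rw [h7]
      group
  have h8 := sq_le (hS S.F S.d S.G₂ S.Γ (Yt (cq S) L') S.ιΓ c hc μ S.M r Ψ x _ hx h6 h7 h5)
  exact (enorm_sq hx).symm.trans_le (h8.trans_eq
    (congrArg (fun t => 2 * ((C₀ : ℝ≥0∞) + 1) ^ 2 * Δ + 2 * (C₁ : ℝ≥0∞) ^ 2 * t) (hk (1, τ))))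

theorem n2_eq (R : ℕ) (K : Set S.Z) (ξ : S.X → S.Q → ℝ) :
    S.n2 R K ξ = nn {a | (S.sc R).toAddEquiv.toAddMonoidHom (S.iJ a) ∈ K} ξ := by
  refine tsum_congr fun q => tsum_congr fun a => ?_
  by_cases ha : S.pos R a ∈ K
  · rw [if_pos ha, Set.indicator_of_mem (by exact ha), Real.enorm_eq_ofReal_abs,
      ← ENNReal.ofReal_pow (abs_nonneg _), sq_abs]
  · rw [if_neg ha, Set.indicator_of_notMem (by exact ha)]

end G32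

open G32 in
/-- **the Poincaré inequality from the counting core** -/
theorem jc_of (hC : CoreStmt.{max u v, w}) (hF : FrStmt.{u, v, w}) (hG : GapStmt.{u, max u v w})
    (hS : SgStmt.{u, v, w}) : JcStmt.{u, v, w} := by
  intro S h K hK hD
  have : SecondCountableTopology (unitary S.A) := TopologicalSpace.Subtype.secondCountableTopology _
  have : SecondCountableTopology S.G₂ := TopologicalSpace.Subtype.secondCountableTopology _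
  have : LocallyCompactSpace (Mt S.d S.F) := Pi.locallyCompactSpace_of_finite
  borelize S.G
  obtain ⟨_, ⟨c, hc⟩, hμ⟩ := exists_co S.ιΓ h.latt.disc h.latt.coc
  have := hμ Measure.haar
  have ho : IsOpen {z : S.Z | Dom S.O S.π z.2} := by
    simp only [Dom, Set.ofPred_exists]
    exact isOpen_iUnion fun i => isOpen_iUnion fun g => isOpen_iUnion fun l =>
      (P84.cell_open h.lf 1).preimage (by fun_prop)
  obtain ⟨K₁, Γ₁, C, hK₁, h0, h1⟩ := hC S.G S.Γ S.Z S.X S.Q S.ιΓ c Measure.haar (cq S) S.iJ S.L S.L₀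
    _ _ (Zs S) hc (hF S h) ho (fun g z ⟨i, k, l, e⟩ => ⟨i, k * g.2⁻¹, l, by
      change l • (_ * ((g.2 : Mt S.d S.F) * z.2 * ((g.2⁻¹ : GL (Fin S.d) S.F) : Mt S.d S.F)) * _) - _ ∈ _
      simpa [mul_assoc] using e⟩) (gp hG hS h hc _) K hK hD
  refine ⟨K₁, Γ₁, C.toNNReal, hK₁, fun m₁ hm₁ => ?_⟩
  obtain ⟨C', h0', h2⟩ := h1 m₁ hm₁
  refine ⟨C'.toNNReal, fun m₂ hm₂ => ?_⟩
  obtain ⟨E₁, E₂, h3, h4, h5⟩ := h2 m₂ hm₂
  refine ⟨E₁, E₂, h3, h4, h5.mono fun R hR ξ₁ ξ₂ hz hf => ?_⟩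
  simp only [n2_eq, ENNReal.coe_toNNReal h0, ENNReal.coe_toNNReal h0'] at hf ⊢
  exact hR ξ₁ ξ₂ hz hf

end Crest.Agent.T24.Na.J62
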