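import Crest.Agent.T24.NaJcDef_52
import Crest.Agent.T24.NaPos_84

/-!
# Row 24, the `J`-component: Kazhdan's inequality near a dominant matrix (helper5)
-/

set_option autoImplicit false
set_option linter.unusedSectionVars false

noncomputable section

namespace Crest.Agent.T24.Na.J52

open Topology Filter Matrix Vm P84
open scoped NNReal

universe u v

namespace G5

variable {F : Type*} [Field F] {d : ℕ} {O : Subring F} {π : F}

/-- bounded by `π ^ (-c)` together with the inverse -/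
def Bd (O : Subring F) (π : F) (c : ℕ) (g : GL (Fin d) F) : Prop :=
  π ^ c • (g : Mt d F) ∈ cell d O π 0 ∧ π ^ c • ((g⁻¹ : GL (Fin d) F) : Mt d F) ∈ cell d O π 0

theorem up (hπ : π ∈ O) {a b : ℕ} (hab : a ≤ b) {y : Mt d F} (hy : π ^ a • y ∈ cell d O π 0) :
    π ^ b • y ∈ cell d O π 0 := by
  obtain ⟨k, rfl⟩ := Nat.exists_eq_add_of_le hab
  rw [add_comm, pow_add, mul_smul]
  exact o_smul_mem (O.pow_mem hπ k) hy

theorem Bd.mono (hπ : π ∈ O) {a b : ℕ} (hab : a ≤ b) {g : GL (Fin d) F} (h : Bd O π a g) :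
    Bd O π b g := ⟨up hπ hab h.1, up hπ hab h.2⟩

theorem Bd.mul {a b : ℕ} {g g' : GL (Fin d) F} (h : Bd O π a g) (h' : Bd O π b g') :
    Bd O π (a + b) (g * g') := by
  have h1 := cell_mul h.1 h'.1
  have h2 := cell_mul h'.2 h.2
  rw [smul_mul_smul_comm, ← pow_add] at h1 h2
  exact ⟨h1, by rw [_root_.mul_inv_rev, add_comm]; exact h2⟩

theorem Bd.inv {a : ℕ} {g : GL (Fin d) F} (h : Bd O π a g) : Bd O π a g⁻¹ :=
  ⟨h.2, by rw [inv_inv]; exact h.1⟩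

theorem bd_sl {a : ℕ} {s : SpecialLinearGroup (Fin d) F}
    (h1 : π ^ a • (s : Mt d F) ∈ Lv O π (Fin d) 0)
    (h2 : π ^ a • ((s⁻¹ : SpecialLinearGroup (Fin d) F) : Mt d F) ∈ Lv O π (Fin d) 0) :
    Bd O π a (SpecialLinearGroup.toGL s) := ⟨h1, by rw [← map_inv]; exact h2⟩

/-- transport of an almost commutation -/
theorem tr (h0 : π ≠ 0) {c j : ℕ} {h : GL (Fin d) F} (hh : Bd O π c h) {l : F} (hl : l ≠ 0)
    (hl' : π ^ c * l⁻¹ ∈ O) {y : Mt d F} {s : SpecialLinearGroup (Fin d) F}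
    (hs : (s : Mt d F) * (l • ((h : Mt d F) * y * ((h⁻¹ : GL (Fin d) F) : Mt d F))) *
      (s⁻¹ : SpecialLinearGroup (Fin d) F) -
      l • ((h : Mt d F) * y * ((h⁻¹ : GL (Fin d) F) : Mt d F)) ∈ Lv O π (Fin d) (c + j + (c + c))) :
    ((h⁻¹ * SpecialLinearGroup.toGL s * h : GL (Fin d) F) : Mt d F) * y *
      (((h⁻¹ * SpecialLinearGroup.toGL s * h)⁻¹ : GL (Fin d) F) : Mt d F) - y ∈ cell d O π j := by
  have h1 : _ ∈ cell d O π (c + j) := Lv_dist h0 hh.2 hh.1 hs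
  have h2 := o_smul_mem hl' h1
  rw [mul_smul, smul_mem_cell h0] at h2
  convert h2 using 1
  have e1 : ((h⁻¹ : GL (Fin d) F) : Mt d F) * (h : Mt d F) = 1 := h.inv_mul
  have e2 : (((SpecialLinearGroup.toGL s)⁻¹ : GL (Fin d) F) : Mt d F) =
      (s⁻¹ : SpecialLinearGroup (Fin d) F) := by rw [← map_inv]; rfl
  have e3 : ((SpecialLinearGroup.toGL s : GL (Fin d) F) : Mt d F) = s := rfl
  simp only [_root_.mul_inv_rev, inv_inv, Units.val_mul, e2, e3, mul_sub, sub_mul, smul_sub,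
    mul_smul_comm, smul_mul_assoc, inv_smul_smul₀ hl, mul_assoc, e1, mul_one]
  rw [← mul_assoc _ (h : Mt d F) y, e1, one_mul]

variable [TopologicalSpace F] [IsTopologicalDivisionRing F] [T2Space F]

theorem bd_compact (h : Lf O π) (c : ℕ) : IsCompact {g : GL (Fin d) F | Bd O π c g} := by
  have h1 : IsCompact {y : Mt d F | π ^ c • y ∈ cell d O π 0} :=
    (Homeomorph.smulOfNeZero (π ^ c) (pow_ne_zero c h.loc.ne)).isCompact_preimage.2
      (cell_compact h 0)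
  have h2 := Units.isClosedEmbedding_embedProduct.isCompact_preimage
    (h1.prod (MulOpposite.opHomeomorph.symm.isCompact_preimage.2 h1))
  exact h2

theorem exists_bd (h : Lf O π) (g : GL (Fin d) F) : ∃ c, Bd O π c g := by
  obtain ⟨a, ha⟩ := bounded h (isCompact_singleton (x := (g : Mt d F)))
  obtain ⟨b, hb⟩ := bounded h (isCompact_singleton (x := ((g⁻¹ : GL (Fin d) F) : Mt d F)))
  exact ⟨a + b, up h.pi_mem (by omega) (ha _ rfl), up h.pi_mem (by omega) (hb _ rfl)⟩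

/-- uniform data on a compact set -/
theorem unif (h : Lf O π) {K : Set (Mt d F)} (hK : IsCompact K) (hD : ∀ y ∈ K, Dom O π y) :
    ∃ c : ℕ, ∀ y ∈ K, ∃ (i : Fin d) (g : GL (Fin d) F) (l : F), Bd O π c g ∧ π ^ c * l⁻¹ ∈ O ∧
      l • ((g : Mt d F) * y * ((g⁻¹ : GL (Fin d) F) : Mt d F)) - single i i 1 ∈ cell d O π 1 := by
  have hup : ∀ {a b : ℕ} {x : F}, a ≤ b → π ^ a * x ∈ O → π ^ b * x ∈ O := fun {a b x} hab hx => by
    obtain ⟨k, rfl⟩ := Nat.exists_eq_add_of_le hab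
    rw [add_comm, pow_add, mul_assoc]
    exact O.mul_mem (O.pow_mem h.pi_mem k) hx
  let U : ℕ → Set (Mt d F) := fun c => {y | ∃ (i : Fin d) (g : GL (Fin d) F) (l : F),
    Bd O π c g ∧ π ^ c * l⁻¹ ∈ O ∧
      l • ((g : Mt d F) * y * ((g⁻¹ : GL (Fin d) F) : Mt d F)) - single i i 1 ∈ cell d O π 1}
  have hm : Monotone U := fun a b hab y ⟨i, g, l, h1, h2, h3⟩ =>
    ⟨i, g, l, h1.mono h.pi_mem hab, hup hab h2, h3⟩
  refine hK.elim_directed_cover U (fun c => isOpen_iff_mem_nhds.2 ?_) (fun y hy => ?_)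
    hm.directed_le
  · rintro y ⟨i, g, l, h1, h2, h3⟩
    have hc : Continuous fun y : Mt d F =>
        l • ((g : Mt d F) * y * ((g⁻¹ : GL (Fin d) F) : Mt d F)) - single i i 1 := by fun_prop
    filter_upwards [hc.continuousAt.preimage_mem_nhds ((cell_open h 1).mem_nhds h3)] with y' hy'
    exact ⟨i, g, l, h1, h2, hy'⟩
  · obtain ⟨i, g, l, h3⟩ := hD y hy
    obtain ⟨a, ha⟩ := exists_bd h g
    obtain ⟨b, hb⟩ := h.loc.abs l⁻¹
    exact Set.mem_iUnion.2 ⟨a + b, i, g, l, ha.mono h.pi_mem (by omega), hup (by omega) hb, h3⟩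

theorem dat (h : Lf O π) : ∃ t : Fin 5 → F, Kaz.Dat O π⁻¹ t := by
  obtain ⟨t, h1, h2⟩ := h.loc.res
  refine ⟨t, h1, fun k l hkl => ⟨_, (h2 l k hkl.symm).2,
    inv_mul_cancel₀ (sub_ne_zero.2 (h2 l k hkl.symm).1)⟩, fun x => ?_⟩
  obtain ⟨n, hn⟩ := h.loc.abs x
  exact ⟨n, _, hn, by rw [inv_pow, inv_mul_cancel_left₀ (pow_ne_zero n h.loc.ne)]⟩

end G5

open G5 in
theorem gapStmt : GapStmt.{u, v} := by
  intro F _ _ _ _ _ O π d h hd K hK hD
  have h0 := h.loc.ne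
  have hp : π⁻¹ * π = 1 := inv_mul_cancel₀ h0
  obtain ⟨c, hc⟩ := unif h hK hD
  obtain ⟨t, ht⟩ := dat h
  refine ⟨_, 32 * d, bd_compact h (c + d + c), fun V₁ hV₁ => ?_⟩
  obtain ⟨j, hj⟩ := cell_basis h hV₁
  refine ⟨64 * d * ((c + j + (c + c) : ℕ) + 1), fun V₂ hV₂ y hy => ?_⟩
  obtain ⟨n, hn⟩ := cell_basis h hV₂
  obtain ⟨i, g, l, hg, hl', hz⟩ := hc y hy
  have hl := ne_zero_of_dom h hz
  obtain ⟨h₁, τ, k1, k2, k3, k4, k5⟩ := exists_tau h.pi_mem hp i (c + n + (c + c)) hz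
  rw [Fintype.card_fin] at k2 k4
  have hτ : Bd O π d (SpecialLinearGroup.toGL τ) := bd_sl (up h.pi_mem (by omega) k3) k4
  refine ⟨g⁻¹ * SpecialLinearGroup.toGL τ * g, (hg.inv.mul hτ).mul hg, hn (tr h0 hg hl hl' k5),
    fun V _ _ _ ρ x δ hδ s => ?_⟩
  let f : SpecialLinearGroup (Fin d) F →* GL (Fin d) F :=
    (MulAut.conj g⁻¹).toMonoidHom.comp SpecialLinearGroup.toGL
  have hf : ∀ s, f s = g⁻¹ * SpecialLinearGroup.toGL s * g := fun s => by simp [f]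
  have hz0 : l • ((g : Mt d F) * y * ((g⁻¹ : GL (Fin d) F) : Mt d F)) ∈ Lv O π (Fin d) 0 := by
    have : _ ∈ Lv O π (Fin d) 0 :=
      add_mem (Lv_anti h.pi_mem zero_le_one hz) (single_mem_cell (π := π) i i O.one_mem)
    rwa [sub_add_cancel] at this
  have key : ∀ a b : Fin d, a ≠ b → ∀ o ∈ O, ‖ρ ((f.comp (MulAut.conj h₁).toMonoidHom)
      (Kaz.X a b (π ^ (c + j + (c + c)) * o))) x - x‖ ≤ δ := fun a b hab o ho => by
    have e : (h₁ * Kaz.X a b (π ^ (c + j + (c + c)) * o) * h₁⁻¹)⁻¹ =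
        h₁ * Kaz.X a b (π ^ (c + j + (c + c)) * -o) * h₁⁻¹ := by
      rw [mul_neg, ← Kaz.X_neg]; group
    have a1 := conj_X k1 hab (c + j + (c + c)) ho
    have a2 := e.symm ▸ conj_X k1 hab (c + j + (c + c)) (O.neg_mem ho)
    have a3 : ∀ {w : Mt d F}, w - 1 ∈ Lv O π (Fin d) (c + j + (c + c)) →
        π ^ 0 • w ∈ Lv O π (Fin d) 0 := fun hw => by
      simpa using add_mem (Lv_anti h.pi_mem (Nat.zero_le _) hw) one_mem_Lv
    change ‖ρ (f (h₁ * _ * h₁⁻¹)) x - x‖ ≤ δ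
    rw [hf]
    exact hδ _ (((hg.inv.mul (bd_sl (a3 a1) (a3 a2))).mul hg).mono h.pi_mem (by omega))
      (hj (tr h0 hg hl hl' (lr_sub h.pi_mem a1 a2 hz0)))
  obtain ⟨s', hs'⟩ := K39.exists_conj g⁻¹ s
  have := kt ht h.pi_mem hp (by simp) (by simpa using hd) ρ
    (c := π ^ d) ⟨π ^ (d - 1), O.pow_mem h.pi_mem _, by rw [← pow_succ']; congr 1; omega⟩
    (k2.map f (σ := 1) (by simp)) x x (m := c + j + (c + c)) (δ := δ)
    (fun b hb o ho => ⟨key i b hb.symm o ho, key b i hb o ho⟩) (h₁⁻¹ * s' * h₁)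
  have e : (f.comp (MulAut.conj h₁).toMonoidHom) (h₁⁻¹ * s' * h₁) = SpecialLinearGroup.toGL s := by
    change f (h₁ * (h₁⁻¹ * s' * h₁) * h₁⁻¹) = _
    rw [show h₁ * (h₁⁻¹ * s' * h₁) * h₁⁻¹ = s' by group, hf, ← hs', inv_mul_cancel_right]
  rw [e, mul_one, hf, sub_self, norm_zero, Fintype.card_fin] at this
  refine this.trans (le_of_eq ?_)
  push_cast
  ring

end Crest.Agent.T24.Na.J52
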