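import Mathlib

/-!
# Row 24, module NA: projections on smooth vectors for a unitary representation of an abelian group.
-/

set_option autoImplicit false
set_option linter.unusedSectionVars false

noncomputable section

namespace Crest.Agent.T24.Na.Pj

open Filter Topology
open scoped RealInnerProductSpace

variable {H : Type*} [NormedAddCommGroup H] [InnerProductSpace ℝ H] [CompleteSpace H]

/-- a vector moved by at most `η` by a group of isometries is within `η` of a fixed vector -/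
theorem exists_fix {G : Type*} [Group G] (π : G →* (H ≃ₗᵢ[ℝ] H)) (L : Subgroup G) {u : H} {η : ℝ}
    (h : ∀ g ∈ L, ‖π g u - u‖ ≤ η) : ∃ x, (∀ g ∈ L, π g x = x) ∧ ‖x - u‖ ≤ η := by
  set K : Set H := ⋂ g ∈ L, Metric.closedBall (π g u) η with hK
  have mem : ∀ x, x ∈ K ↔ ∀ g ∈ L, ‖x - π g u‖ ≤ η := fun x => by
    simp [hK, dist_eq_norm]
  have hne : K.Nonempty := ⟨u, (mem u).2 fun g hg => by rw [norm_sub_rev]; exact h g hg⟩
  have hcl : IsClosed K := isClosed_biInter fun _ _ => Metric.isClosed_closedBall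
  have hcv : Convex ℝ K := convex_iInter₂ fun _ _ => convex_closedBall _ _
  obtain ⟨x, hx, hmin⟩ := exists_norm_eq_iInf_of_complete_convex hne hcl.isComplete hcv 0
  have hinv : ∀ g ∈ L, π g x ∈ K := fun g hg => (mem _).2 fun g' hg' => by
    have := (mem x).1 hx (g⁻¹ * g') (L.mul_mem (L.inv_mem hg) hg')
    rw [← (π g).norm_map, map_sub] at this
    have e : π g (π (g⁻¹ * g') u) = π g' u := by
      rw [← LinearIsometryEquiv.trans_apply, ← LinearIsometryEquiv.mul_def, ← map_mul]; simp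
    rwa [e] at this
  refine ⟨x, fun g hg => ?_, by simpa using (mem x).1 hx 1 L.one_mem⟩
  have h1 := (norm_eq_iInf_iff_real_inner_le_zero hcv hx).1 hmin _ (hinv g hg)
  have h2 : ‖π g x‖ = ‖x‖ := (π g).norm_map x
  have h3 : ‖π g x - x‖ ^ 2 ≤ 0 := by
    rw [norm_sub_sq_real, h2]
    rw [zero_sub, inner_neg_left, inner_sub_right, real_inner_self_eq_norm_sq, real_inner_comm] at h1
    linarith
  exact sub_eq_zero.1 (norm_eq_zero.1 (by nlinarith [norm_nonneg (π g x - x)]))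

/-- a symmetric operator which preserves `U` commutes with the projection on `U` -/
theorem comm_of_symm (U : Submodule ℝ H) [U.HasOrthogonalProjection] (S : H →L[ℝ] H)
    (hS : ∀ x y, ⟪S x, y⟫ = ⟪x, S y⟫) (h : ∀ x ∈ U, S x ∈ U) (v : H) :
    U.starProjection (S v) = S (U.starProjection v) := by
  refine Submodule.eq_starProjection_of_mem_of_inner_eq_zero (h _ (U.starProjection_apply_mem v))
    fun w hw => ?_
  rw [← map_sub, hS]
  exact U.starProjection_inner_eq_zero v _ (h w hw)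

/-- an isometry which maps `U` onto `U'` intertwines the projections -/
theorem comm_of_isom (U U' : Submodule ℝ H) [U.HasOrthogonalProjection] [U'.HasOrthogonalProjection]
    (S : H ≃ₗᵢ[ℝ] H) (h : ∀ x, S x ∈ U' ↔ x ∈ U) (v : H) :
    U'.starProjection (S v) = S (U.starProjection v) := by
  refine Submodule.eq_starProjection_of_mem_of_inner_eq_zero
    ((h _).2 (U.starProjection_apply_mem v)) fun w hw => ?_
  obtain ⟨w', rfl⟩ := S.surjective w
  rw [← map_sub, S.inner_map_map]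
  exact U.starProjection_inner_eq_zero v _ ((h _).1 hw)

/-- Bessel's inequality for pairwise orthogonal projections of one vector -/
theorem bessel {ι : Type*} (s : Finset ι) (u : ι → H) (v : H) (h1 : ∀ i ∈ s, ⟪u i, v⟫ = ‖u i‖ ^ 2)
    (h2 : ∀ i ∈ s, ∀ j ∈ s, i ≠ j → ⟪u i, u j⟫ = 0) : ∑ i ∈ s, ‖u i‖ ^ 2 ≤ ‖v‖ ^ 2 := by
  have e1 : ⟪∑ i ∈ s, u i, v⟫ = ∑ i ∈ s, ‖u i‖ ^ 2 := by
    rw [sum_inner]; exact Finset.sum_congr rfl h1
  have e2 : ‖∑ i ∈ s, u i‖ ^ 2 = ∑ i ∈ s, ‖u i‖ ^ 2 := by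
    rw [← real_inner_self_eq_norm_sq, sum_inner]
    refine Finset.sum_congr rfl fun i hi => ?_
    rw [inner_sum, Finset.sum_eq_single i (fun j hj hne => h2 i hi j hj hne.symm)
      (fun h => absurd hi h), real_inner_self_eq_norm_sq]
  have e3 := sq_nonneg ‖∑ i ∈ s, u i - v‖
  rw [norm_sub_sq_real, e1, e2] at e3
  linarith

variable {X : Type*} [AddCommGroup X] (T : Multiplicative X →* (H ≃ₗᵢ[ℝ] H))

/-- the translation operator -/
def tr (e : X) : H ≃ₗᵢ[ℝ] H := T (Multiplicative.ofAdd e)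

@[simp] theorem tr_zero (v : H) : tr T 0 v = v := by simp [tr]

theorem tr_add (e e' : X) (v : H) : tr T (e + e') v = tr T e (tr T e' v) := by
  simp [tr, ofAdd_add]

theorem tr_comm (e e' : X) (v : H) : tr T e (tr T e' v) = tr T e' (tr T e v) := by
  rw [← tr_add, add_comm, tr_add]

theorem d_add (e e' : X) (v : H) :
    ‖tr T (e + e') v - v‖ ≤ ‖tr T e v - v‖ + ‖tr T e' v - v‖ := by
  have : tr T (e + e') v - v = tr T e (tr T e' v - v) + (tr T e v - v) := by
    rw [tr_add, map_sub]; abel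
  rw [this, add_comm ‖tr T e v - v‖]
  exact (norm_add_le _ _).trans (by rw [(tr T e).norm_map])

theorem d_near (e : X) (v x : H) : ‖tr T e v - v‖ ≤ ‖tr T e x - x‖ + 2 * ‖v - x‖ := by
  have : tr T e v - v = (tr T e x - x) + tr T e (v - x) - (v - x) := by rw [map_sub]; abel
  rw [this]
  refine (norm_sub_le _ _).trans ?_
  have := norm_add_le (tr T e x - x) (tr T e (v - x))
  rw [(tr T e).norm_map] at this
  linarith

/-- the vectors fixed by `m • L` -/
def Fx (m : ℕ) (L : AddSubgroup X) : Submodule ℝ H where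
  carrier := {v | ∀ e ∈ L, tr T (m • e) v = v}
  zero_mem' _ _ := map_zero _
  add_mem' ha hb e he := by rw [map_add, ha e he, hb e he]
  smul_mem' c _ ha e he := by rw [map_smul, ha e he]

theorem mem_Fx {m : ℕ} {L : AddSubgroup X} {v : H} :
    v ∈ Fx T m L ↔ ∀ e ∈ L, tr T (m • e) v = v := Iff.rfl

/-- the smooth vectors along `L` -/
def Sm (L : AddSubgroup X) : Submodule ℝ H where
  carrier := {v | ∀ η : ℝ, 0 < η → ∃ m : ℕ, m ≠ 0 ∧ ∀ e ∈ L, ‖tr T (m • e) v - v‖ ≤ η}
  zero_mem' η hη := ⟨1, one_ne_zero, fun _ _ => by simp [hη.le]⟩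
  add_mem' {a b} ha hb η hη := by
    obtain ⟨m, hm, h1⟩ := ha (η / 2) (by positivity)
    obtain ⟨n, hn, h2⟩ := hb (η / 2) (by positivity)
    refine ⟨m * n, mul_ne_zero hm hn, fun e he => ?_⟩
    have e1 := h1 (n • e) (L.nsmul_mem he n)
    have e2 := h2 (m • e) (L.nsmul_mem he m)
    rw [← mul_smul] at e1 e2
    rw [mul_comm n m] at e2
    have : tr T ((m * n) • e) (a + b) - (a + b) =
        (tr T ((m * n) • e) a - a) + (tr T ((m * n) • e) b - b) := by rw [map_add]; abel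
    rw [this]
    exact (norm_add_le _ _).trans (by linarith)
  smul_mem' c a ha η hη := by
    obtain ⟨m, hm, h1⟩ := ha (η / (|c| + 1)) (by positivity)
    refine ⟨m, hm, fun e he => ?_⟩
    rw [map_smul, ← smul_sub, norm_smul, Real.norm_eq_abs]
    have := h1 e he
    rw [le_div_iff₀ (by positivity)] at this
    nlinarith [norm_nonneg (tr T (m • e) a - a), abs_nonneg c]

theorem mem_Sm {L : AddSubgroup X} {v : H} :
    v ∈ Sm T L ↔ ∀ η : ℝ, 0 < η → ∃ m : ℕ, m ≠ 0 ∧ ∀ e ∈ L, ‖tr T (m • e) v - v‖ ≤ η := Iff.rfl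

theorem Fx_le_Sm {m : ℕ} (hm : m ≠ 0) (L : AddSubgroup X) : Fx T m L ≤ Sm T L :=
  fun _ hv η hη => ⟨m, hm, fun e he => by rw [hv e he, sub_self, norm_zero]; exact hη.le⟩

theorem mem_Sm_of_fix {L : AddSubgroup X} {v : H} (h : ∀ e ∈ L, tr T e v = v) : v ∈ Sm T L :=
  Fx_le_Sm T one_ne_zero L fun e he => by rw [one_smul]; exact h e he

/-- limits of smooth vectors are smooth -/
theorem mem_Sm_of_near {L : AddSubgroup X} {v : H}
    (h : ∀ η : ℝ, 0 < η → ∃ x ∈ Sm T L, ‖v - x‖ ≤ η) : v ∈ Sm T L := fun η hη => by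
  obtain ⟨x, hx, h1⟩ := h (η / 4) (by positivity)
  obtain ⟨m, hm, h2⟩ := hx (η / 2) (by positivity)
  exact ⟨m, hm, fun e he => (d_near T _ v x).trans (by linarith [h2 e he])⟩

theorem isClosed_Sm (L : AddSubgroup X) : IsClosed (Sm T L : Set H) :=
  isClosed_of_closure_subset fun v hv => mem_Sm_of_near T fun η hη => by
    obtain ⟨x, hx, h⟩ := Metric.mem_closure_iff.1 hv η hη
    exact ⟨x, hx, by rw [← dist_eq_norm]; exact h.le⟩

instance (L : AddSubgroup X) : (Sm T L).HasOrthogonalProjection :=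
  haveI : CompleteSpace (Sm T L) := (isClosed_Sm T L).completeSpace_coe
  inferInstance

/-- a vector almost fixed by `m • L` is close to a fixed one -/
theorem exists_Fx (m : ℕ) (L : AddSubgroup X) {u : H} {η : ℝ}
    (h : ∀ e ∈ L, ‖tr T (m • e) u - u‖ ≤ η) : ∃ x ∈ Fx T m L, ‖x - u‖ ≤ η := by
  obtain ⟨x, h1, h2⟩ := exists_fix T (AddSubgroup.toSubgroup (L.map (nsmulAddMonoidHom m)))
    (u := u) (η := η) (by
      rintro g ⟨e, he, hg⟩
      have : g = Multiplicative.ofAdd (m • e) := by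
        rw [show m • e = Multiplicative.toAdd g from hg]; rfl
      rw [this]; exact h e he)
  exact ⟨x, fun e he => h1 (Multiplicative.ofAdd (m • e)) ⟨e, he, rfl⟩, h2⟩

/-- a smooth vector is approximated by fixed vectors, at all multiples of a level -/
theorem Sm_approx {L : AddSubgroup X} {v : H} (hv : v ∈ Sm T L) {η : ℝ} (hη : 0 < η) :
    ∃ m : ℕ, m ≠ 0 ∧ ∃ x ∈ Fx T m L, ‖x - v‖ ≤ η := by
  obtain ⟨m, hm, h⟩ := hv η hη
  exact ⟨m, hm, exists_Fx T m L h⟩

/-- `L` is contained in `L'` up to a multiple -/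
def Le (L L' : AddSubgroup X) : Prop := ∃ n : ℕ, n ≠ 0 ∧ ∀ e ∈ L, n • e ∈ L'

theorem Le.of_le {L L' : AddSubgroup X} (h : L ≤ L') : Le L L' :=
  ⟨1, one_ne_zero, fun e he => by rw [one_smul]; exact h he⟩

theorem Le.trans {L L' L'' : AddSubgroup X} (h : Le L L') (h' : Le L' L'') : Le L L'' := by
  obtain ⟨n, hn, h⟩ := h
  obtain ⟨m, hm, h'⟩ := h'
  exact ⟨m * n, mul_ne_zero hm hn, fun e he => by rw [mul_smul]; exact h' _ (h e he)⟩

/-- a finitely generated group all of whose elements have a multiple in `L'` -/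
theorem Le.of_fg {L L' : AddSubgroup X} (hL : L.FG) (h : ∀ e ∈ L, ∃ n : ℕ, n ≠ 0 ∧ n • e ∈ L') :
    Le L L' := by
  classical
  obtain ⟨s, rfl⟩ := hL
  choose! n hn using h
  refine ⟨∏ e ∈ s, n e, Finset.prod_ne_zero_iff.2 fun e he =>
    (hn e (AddSubgroup.subset_closure he)).1, fun e he => ?_⟩
  induction he using AddSubgroup.closure_induction with
  | mem x hx =>
    rw [← Finset.prod_erase_mul _ _ (show x ∈ s from hx), mul_smul]
    exact L'.nsmul_mem (hn x (AddSubgroup.subset_closure hx)).2 _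
  | zero => simp
  | add x y _ _ hx hy => rw [smul_add]; exact L'.add_mem hx hy
  | neg x _ hx => rw [smul_neg]; exact L'.neg_mem hx

theorem fg_of_le {L L' : AddSubgroup X} (hL : L'.FG) (h : L ≤ L') : L.FG := by
  have h1 : (AddSubgroup.toIntSubmodule L').FG := (Submodule.fg_iff_addSubgroup_fg _).2 (by simpa)
  have h2 : (AddSubgroup.toIntSubmodule L).FG :=
    Submodule.FG.of_le h1 (by simpa using h)
  simpa using (Submodule.fg_iff_addSubgroup_fg _).1 h2

theorem Sm_anti {L L' : AddSubgroup X} (h : Le L L') : Sm T L' ≤ Sm T L := fun v hv η hη => by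
  obtain ⟨n, hn, h⟩ := h
  obtain ⟨m, hm, h1⟩ := hv η hη
  exact ⟨m * n, mul_ne_zero hm hn, fun e he => by rw [mul_smul]; exact h1 _ (h e he)⟩

theorem Sm_congr {L L' : AddSubgroup X} (h : Le L L') (h' : Le L' L) : Sm T L = Sm T L' :=
  le_antisymm (Sm_anti T h') (Sm_anti T h)

theorem Sm_sup (L L' : AddSubgroup X) : Sm T (L ⊔ L') = Sm T L ⊓ Sm T L' := by
  refine le_antisymm (le_inf (Sm_anti T (.of_le le_sup_left)) (Sm_anti T (.of_le le_sup_right)))
    fun v ⟨ha, hb⟩ η hη => ?_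
  obtain ⟨m, hm, h1⟩ := ha (η / 2) (by positivity)
  obtain ⟨n, hn, h2⟩ := hb (η / 2) (by positivity)
  refine ⟨m * n, mul_ne_zero hm hn, fun e he => ?_⟩
  obtain ⟨x, hx, y, hy, rfl⟩ := AddSubgroup.mem_sup.1 he
  have e1 := h1 (n • x) (L.nsmul_mem hx n)
  have e2 := h2 (m • y) (L'.nsmul_mem hy m)
  rw [← mul_smul] at e1 e2
  rw [mul_comm n m] at e2
  rw [smul_add]
  exact (d_add T _ _ v).trans (by linarith)

/-- the projection on the smooth vectors -/
def E (L : AddSubgroup X) : H →L[ℝ] H := (Sm T L).starProjection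

theorem E_mem (L : AddSubgroup X) (v : H) : E T L v ∈ Sm T L := (Sm T L).starProjection_apply_mem v

theorem E_eq {L : AddSubgroup X} {v : H} (h : v ∈ Sm T L) : E T L v = v :=
  Submodule.starProjection_eq_self_iff.2 h

theorem E_E (L : AddSubgroup X) (v : H) : E T L (E T L v) = E T L v := E_eq T (E_mem T L v)

theorem E_symm (L : AddSubgroup X) (x y : H) : ⟪E T L x, y⟫ = ⟪x, E T L y⟫ :=
  (Sm T L).inner_starProjection_left_eq_right x y

theorem inner_E_self (L : AddSubgroup X) (v : H) : ⟪E T L v, v⟫ = ‖E T L v‖ ^ 2 := by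
  rw [← real_inner_self_eq_norm_sq, E_symm T L v (E T L v), E_E, E_symm]

theorem norm_E_le (L : AddSubgroup X) (v : H) : ‖E T L v‖ ≤ ‖v‖ :=
  (Sm T L).norm_starProjection_apply_le v

theorem E_congr {L L' : AddSubgroup X} (h : Le L L') (h' : Le L' L) : E T L = E T L' := by
  ext v
  refine Submodule.eq_starProjection_of_mem_of_inner_eq_zero
    (Sm_anti T h (E_mem T L' v)) fun w hw => ?_
  exact (Sm T L').starProjection_inner_eq_zero v _ (Sm_anti T h' hw)

/-- an operator which almost commutes with deep translations preserves smooth vectors -/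
theorem Sm_map {L : AddSubgroup X} (S : H →L[ℝ] H) (h : ∀ η : ℝ, 0 < η → ∃ n : ℕ, n ≠ 0 ∧
    ∀ e ∈ L, ∀ v, ‖tr T (n • e) (S v) - S (tr T (n • e) v)‖ ≤ η * ‖v‖) {v : H} (hv : v ∈ Sm T L) :
    S v ∈ Sm T L := fun η hη => by
  obtain ⟨n, hn, h1⟩ := h (η / 2 / (‖v‖ + 1)) (by positivity)
  obtain ⟨m, hm, h2⟩ := hv (η / 2 / (‖S‖ + 1)) (by positivity)
  refine ⟨m * n, mul_ne_zero hm hn, fun e he => ?_⟩
  have e1 := h1 (m • e) (L.nsmul_mem he m) v
  have e2 := h2 (n • e) (L.nsmul_mem he n)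
  rw [← mul_smul] at e1 e2
  rw [mul_comm n m] at e1
  have : tr T ((m * n) • e) (S v) - S v = (tr T ((m * n) • e) (S v) - S (tr T ((m * n) • e) v)) +
      S (tr T ((m * n) • e) v - v) := by rw [map_sub]; abel
  rw [this]
  refine (norm_add_le _ _).trans ?_
  have e3 := S.le_opNorm (tr T ((m * n) • e) v - v)
  have e4 : η / 2 / (‖v‖ + 1) * ‖v‖ ≤ η / 2 := by
    rw [div_mul_eq_mul_div, div_le_iff₀ (by positivity)]; nlinarith
  have e5 : ‖S‖ * (η / 2 / (‖S‖ + 1)) ≤ η / 2 := by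
    rw [← mul_div_assoc, div_le_iff₀ (by positivity)]; nlinarith
  have e6 := mul_le_mul_of_nonneg_left e2 (norm_nonneg S)
  linarith

/-- a symmetric operator which almost commutes with deep translations commutes with `E` -/
theorem E_comm {L : AddSubgroup X} (S : H →L[ℝ] H) (hS : ∀ x y, ⟪S x, y⟫ = ⟪x, S y⟫)
    (h : ∀ η : ℝ, 0 < η → ∃ n : ℕ, n ≠ 0 ∧
      ∀ e ∈ L, ∀ v, ‖tr T (n • e) (S v) - S (tr T (n • e) v)‖ ≤ η * ‖v‖) (v : H) :
    E T L (S v) = S (E T L v) :=
  comm_of_symm _ S hS (fun _ hx => Sm_map T S h hx) v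

/-- an isometry which intertwines the translations along `σ` intertwines the projections -/
theorem E_conj (U : H ≃ₗᵢ[ℝ] H) (σ : X ≃+ X) (hU : ∀ e v, U (tr T e v) = tr T (σ e) (U v))
    {L L' : AddSubgroup X} (h : Le (L.map σ.toAddMonoidHom) L') (h' : Le L' (L.map σ.toAddMonoidHom))
    (v : H) : E T L' (U v) = U (E T L v) := by
  rw [← E_congr T h h']
  refine comm_of_isom _ _ U (fun x => ?_) v
  have key : ∀ (m : ℕ) (e : X), ‖tr T (m • σ e) (U x) - U x‖ = ‖tr T (m • e) x - x‖ := fun m e => by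
    rw [← map_nsmul, ← hU, ← map_sub, U.norm_map]
  constructor
  · intro hx η hη
    obtain ⟨m, hm, h1⟩ := hx η hη
    exact ⟨m, hm, fun e he => by rw [← key]; exact h1 _ ⟨e, he, rfl⟩⟩
  · intro hx η hη
    obtain ⟨m, hm, h1⟩ := hx η hη
    refine ⟨m, hm, ?_⟩
    rintro _ ⟨e, he, rfl⟩
    exact (key m e).trans_le (h1 e he)

theorem E_tr (L : AddSubgroup X) (e : X) (v : H) : E T L (tr T e v) = tr T e (E T L v) :=
  E_conj T (tr T e) (AddEquiv.refl X) (fun e' v => tr_comm T e e' v)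
    (.of_le (by rintro _ ⟨x, hx, rfl⟩; exact hx)) (.of_le fun x hx => ⟨x, hx, rfl⟩) v

theorem E_E_comm (L L' : AddSubgroup X) (v : H) : E T L (E T L' v) = E T L' (E T L v) :=
  E_comm T (E T L') (E_symm T L') (fun η hη => ⟨1, one_ne_zero, fun e _ v => by
    rw [E_tr, sub_self, norm_zero]; positivity⟩) v

/-- `E L * E L' = E (L + L')` -/
theorem E_mul (L L' : AddSubgroup X) (v : H) : E T L (E T L' v) = E T (L ⊔ L') v := by
  symm
  refine Submodule.eq_starProjection_of_mem_of_inner_eq_zero ?_ fun w hw => ?_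
  · rw [Sm_sup]
    exact ⟨E_mem T L _, by rw [E_E_comm]; exact E_mem T L' _⟩
  · rw [Sm_sup] at hw
    rw [inner_sub_left, E_symm, E_eq T hw.1, E_symm, E_eq T hw.2, sub_self]

theorem E_mul' {L L' L'' : AddSubgroup X} (h : Le (L ⊔ L') L'') (h' : Le L'' (L ⊔ L')) (v : H) :
    E T L (E T L' v) = E T L'' v := by rw [E_mul, E_congr T h h']

theorem inner_E_E (L L' : AddSubgroup X) (x y : H) :
    ⟪E T L x, E T L' y⟫ = ⟪x, E T (L ⊔ L') y⟫ := by rw [E_symm, E_mul]

/-- vectors smooth along `L`, `L'` are orthogonal when the `L + L'` component of one vanishes -/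
theorem inner_eq_zero {L L' : AddSubgroup X} {x y : H} (hx : x ∈ Sm T L) (hy : y ∈ Sm T L')
    (h : E T (L ⊔ L') x = 0) : ⟪x, y⟫ = 0 := by
  rw [← E_eq T hx, ← E_eq T hy, inner_E_E, ← E_symm, h, inner_zero_left]

/-- Bessel for the components of one vector -/
theorem sum_E_le {ι : Type*} (s : Finset ι) (L : ι → AddSubgroup X) (v : H)
    (h : ∀ i ∈ s, ∀ j ∈ s, i ≠ j → E T (L i ⊔ L j) v = 0) :
    ∑ i ∈ s, ‖E T (L i) v‖ ^ 2 ≤ ‖v‖ ^ 2 :=
  bessel s (fun i => E T (L i) v) v (fun i _ => inner_E_self T _ v) fun i hi j hj hne => by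
    rw [inner_E_E, h i hi j hj hne, inner_zero_right]

end Crest.Agent.T24.Na.Pj
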