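import Crest.Agent.T24.NaJcDef_52
import Crest.Agent.T24.NaPj_34

/-!
# Row 24, the `J`-component: a vector with zero sums which is almost fixed by `SL_d` is small.
-/

set_option autoImplicit false
set_option linter.unusedSectionVars false

noncomputable section

namespace Crest.Agent.T24.Na.J52

open Topology Filter MeasureTheory K39
open scoped ENNReal NNReal RealInnerProductSpace

universe u v w

namespace S53

theorem mp_wm {Y : Type*} [Countable Y] [MeasurableSpace Y] [DiscreteMeasurableSpace Y]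
    (r : Y ≃ Y) : MeasurePreserving r (wm fun _ : Y => 1) (wm fun _ : Y => 1) :=
  ⟨.of_discrete, Measure.ext fun s hs => by
    rw [Measure.map_apply .of_discrete hs, ← lintegral_indicator_one hs,
      ← lintegral_indicator_one .of_discrete, lintegral_wm, lintegral_wm,
      ← r.tsum_eq fun y => 1 * s.indicator 1 y]
    rfl⟩

/-- the Hilbert space part -/
theorem norm_le {α M : Type*} [MeasurableSpace α] {ν : Measure α} [Fintype M] [Nonempty M]
    (ρ : M → α → α) (hρ : ∀ f, MeasurePreserving (ρ f) ν ν) {Ξ : α → ℝ} {x x₀ : Lp ℝ 2 ν} {η : ℝ}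
    (hx : x =ᵐ[ν] Ξ) (hΞ : ∀ p, ∑ f, Ξ (ρ f p) = 0) (h0 : ∀ f, ∀ᵐ p ∂ν, x₀ (ρ f p) = x₀ p)
    (h1 : ‖x₀ - x‖ ≤ η) : ‖x‖ ≤ η := by
  let U : M → Lp ℝ 2 ν →ₗᵢ[ℝ] Lp ℝ 2 ν := fun f => Lp.compMeasurePreservingₗᵢ ℝ _ (hρ f)
  have hU : ∀ f ξ, U f ξ =ᵐ[ν] ξ ∘ ρ f := fun f ξ => Lp.coeFn_compMeasurePreserving ξ (hρ f)
  have e0 : ∀ f, U f x₀ = x₀ := fun f => Lp.ext ((hU f x₀).trans (h0 f))
  have e1 : ∑ f, U f x = 0 := by
    refine Lp.ext ?_
    filter_upwards [Lp.coeFn_finsetSum Finset.univ fun f => U f x, Lp.coeFn_zero ℝ 2 ν,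
      ae_all_iff.2 fun f => (hU f x).trans ((hρ f).quasiMeasurePreserving.ae_eq_comp hx)]
      with p a b c
    rw [a, b, Finset.sum_apply, Finset.sum_congr rfl fun f _ => c f]
    exact hΞ p
  have e2 : ⟪x₀, x⟫ = 0 := by
    have : ∑ _f : M, ⟪x₀, x⟫ = 0 := by
      rw [← inner_zero_right (𝕜 := ℝ) x₀, ← e1, inner_sum]
      exact Finset.sum_congr rfl fun f _ => by rw [← (U f).inner_map_map, e0]
    simpa using this
  have e3 : ‖x‖ ^ 2 ≤ η * ‖x‖ := by
    have := abs_real_inner_le_norm (x₀ - x) x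
    rw [inner_sub_left, e2, zero_sub, abs_neg, real_inner_self_eq_norm_sq,
      abs_of_nonneg (sq_nonneg _)] at this
    exact this.trans (by gcongr)
  by_contra h
  nlinarith [norm_nonneg x, norm_nonneg (x₀ - x)]

end S53

/-- JC-SG -/
theorem sgStmt : SgStmt.{u, v, w} := by
  intro F _ _ _ _ _ _ d G₂ _ _ _ _ _ _ _ _ Γ _ _ Y _ _ _ _ ι c h μ _ _ _ M _ _ r Ξ x η hx hΞ hr hη
  obtain ⟨x₀, h0, h1⟩ := Pj.exists_fix (h.kp μ (wm fun _ : Y => 1)) (jS G₂).range (u := x) (η := η)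
    (by rintro _ ⟨s, rfl⟩; exact hη s)
  refine S53.norm_le (fun f => Prod.map id (r f))
    (fun f => (MeasurePreserving.id _).prod (S53.mp_wm (r f))) hx (fun p => hΞ p.1 p.2)
    (fun f => ?_) h1
  have hm := (Lp.stronglyMeasurable x₀).measurable
  refine (Measure.ae_prod_iff_ae_ae (measurableSet_eq_fun
    (hm.comp (measurable_id.prodMap (Measurable.of_discrete (f := r f)))) hm)).2 ?_
  filter_upwards [ae_restrict_of_ae (s := Fd c) (ae_all_iff.2 fun y =>
    h.ind0_near μ (wm fun _ : Y => 1) (fun s => h0 _ ⟨s, rfl⟩) (by simp [wm_singleton]) (hr f y)),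
    ae_restrict_mem h.mFd] with g a b
  refine Eventually.of_forall fun y => ?_
  have := a y
  rw [Pj_of_mem (p := (g, y)) b, Pj_of_mem (p := (g, r f y)) b] at this
  exact this.symm

end Crest.Agent.T24.Na.J52
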