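import Crest.Agent.T24.NaJcC_62

/-!
# Row 24, the `J`-component: the abstract counting core (helper62)
-/

set_option autoImplicit false
set_option linter.unusedSectionVars false

noncomputable section

namespace Crest.Agent.T24.Na.J62

open Topology Filter MeasureTheory K39 J52 Set
open scoped ENNReal NNReal Pointwise

universe u v w

theorem cpt_smul {G Z : Type*} [TopologicalSpace G] [TopologicalSpace Z] [SMul G Z]
    (hc : Continuous fun p : G × Z => p.1 • p.2) {C : Set G} {D : Set Z} (hC : IsCompact C)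
    (hD : IsCompact D) : IsCompact (C • D) := by
  rw [← image_smul_prod]; exact (hC.prod hD).image hc

theorem cpt_sub {Z : Type*} [TopologicalSpace Z] [AddGroup Z] [IsTopologicalAddGroup Z]
    {C D : Set Z} (hC : IsCompact C) (hD : IsCompact D) : IsCompact (C - D) := by
  rw [sub_eq_add_neg]; exact hC.add hD.neg

theorem fin_div {v x y z : ℝ≥0∞} (h0 : v ≠ 0) (h1 : v ≠ ∞) (h : v * x ≤ y + v * z) :
    x ≤ v⁻¹ * y + z := by
  have := mul_le_mul_right h v⁻¹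
  rwa [mul_add, ← mul_assoc, ← mul_assoc, ENNReal.inv_mul_cancel h0 h1, one_mul, one_mul] at this

theorem coreStmt : CoreStmt.{u, w} := by
  intro G Γ Z X Q _ _ _ _ _ _ _ _ _ _ _ _ _ _ _ _ _ _ _ _ _ ι c μ _ _ cq iJ L L₀ sc O Zs hco hfr hO
    hOs hgp K hK hKO
  classical
  borelize Z
  let _ : MeasurableSpace X := ⊤
  have : DiscreteMeasurableSpace X := ⟨fun _ => trivial⟩
  have hc := hfr.cont
  obtain ⟨D, hD, hcov⟩ := hfr.cov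
  obtain ⟨β, hβm, hβ⟩ := exists_sel (fun (b : X) (z : Z) => b ∈ L ∧ z - iJ b ∈ D) (fun b => by
    by_cases hb : b ∈ L
    · simp only [hb, true_and]
      exact (hD.isClosed.preimage (continuous_id.sub continuous_const)).measurableSet
    · simp [hb]) hcov 0
  obtain ⟨V, hV, hV1⟩ := exists_compact_mem_nhds (1 : G)
  have hVK := cpt_smul hc hV.inv hK
  obtain ⟨W₀, hW₀, hWO⟩ := compact_open_separated_add_right hVK hO (by
    rintro _ ⟨g, -, z, hz, rfl⟩; exact hOs g z (hKO hz))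
  obtain ⟨W, hW, hWW, hWc⟩ := local_compact_nhds hW₀
  have hΩ := hVK.add hWc
  obtain ⟨𝒞, C₀, h𝒞, hC₀, hgp⟩ := hgp _ hΩ ((add_subset_add_left hWW).trans hWO)
  obtain ⟨Cm, Γm, hCm, hmv⟩ := Co.move_le.{w} hco h𝒞
  obtain ⟨Γv, hvol⟩ := Co.vol_le.{w} hco hV
  obtain ⟨CF, hCF, hFd⟩ := hco.Fd_cpt
  obtain ⟨Cb, hCb, hCi, hC1, hC2, hC3, hC4, hC5, hC6⟩ : ∃ Cb : Set G, IsCompact Cb ∧
      (∀ g ∈ Cb, g⁻¹ ∈ Cb) ∧ CF ⊆ Cb ∧ CF * 𝒞 ⊆ Cb ∧ Cm ⊆ Cb ∧ V ⊆ Cb ∧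
      (∀ γ ∈ Γm ∪ Γv, ι γ ∈ Cb) ∧ (1 : G) ∈ Cb := by
    have h1 := (((hCF.union (hCF.mul h𝒞)).union hCm).union hV).union
      ((Γm ∪ Γv).finite_toSet.image ι).isCompact
    refine ⟨_, h1.union h1.inv, fun g hg => ?_, fun g hg => .inl (.inl (.inl (.inl (.inl hg)))),
      fun g hg => .inl (.inl (.inl (.inl (.inr hg)))), fun g hg => .inl (.inl (.inl (.inr hg))),
      fun g hg => .inl (.inl (.inr hg)), fun γ hγ => .inl (.inr ⟨γ, hγ, rfl⟩),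
      .inl (.inl (.inr (mem_of_mem_nhds hV1)))⟩
    exact hg.elim (fun h => .inr (inv_mem_inv.2 h)) fun h => .inl h
  obtain ⟨D₀, hD₀, hD₀0⟩ := exists_compact_mem_nhds (0 : Z)
  have hCD := cpt_smul hc hCb hD
  have hDb := ((((hCD.add hD).union (cpt_sub hCD hD)).union ((cpt_sub hD₀ hD).add hD)).union
    (hCD.add hD).neg).union hD
  set Db := Cb • D + D ∪ (Cb • D - D) ∪ (D₀ - D + D) ∪ -(Cb • D + D) ∪ D
  obtain ⟨H, hH, hHL, hlnk⟩ := hfr.lnk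
  obtain ⟨n₀, hn₀, hnH, hlnk⟩ := hlnk Db hDb (-W) (neg_mem_nhds_zero Z hW)
  have hE := hfr.fin Db hDb
  have hK' := (cpt_smul hc hCb hΩ).add hWc
  set K' := Cb • (V⁻¹ • K + W) + W
  have hK₁ := cpt_smul hc hCb (hK.union hK')
  set K₁ := Cb • (K ∪ K')
  have hKK : K ∪ K' ⊆ K₁ := fun z hz => ⟨1, hC6, z, hz, one_smul _ _⟩
  have hμ0 : μ V ≠ 0 := (Measure.measure_pos_of_mem_nhds μ hV1).ne'
  have hμ1 : μ V ≠ ∞ := hV.measure_lt_top.ne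
  have hμ2 : μ Cb ≠ ∞ := hCb.measure_lt_top.ne
  have hμ3 : (μ V)⁻¹ ≠ ∞ := ENNReal.inv_ne_top.2 hμ0
  refine ⟨K₁, Γm ∪ Γv, (μ V)⁻¹ * (2 * (hE.toFinset.card * (40 * (Γm ∪ Γv).card * C₀ *
    (μ Cb * hE.toFinset.card)))), hK₁, by finiteness, fun m₁ hm₁ => ?_⟩
  obtain ⟨f₁, hf₁, -, hf₁'⟩ := hfr.dv m₁ hm₁
  obtain ⟨C₁, hC₁, hgp⟩ := hgp _ (unif hc hCb (inter_mem hD₀0
    (hf₁.continuousAt.preimage_mem_nhds (by rwa [map_zero]) : f₁ ⁻¹' H ∈ 𝓝 0)))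
  refine ⟨(μ V)⁻¹ * (2 * (hE.toFinset.card * ((2 * (Γm ∪ Γv).card * (4 * C₀ + 6 * C₁) + 4) *
    (μ Cb * (hE.toFinset.card * ((Γm ∪ Γv).card + 1)))))) + 2, by finiteness, fun m₂ hm₂ => ?_⟩
  have hm : m₁ * m₂ * n₀ ≠ 0 := by positivity
  set m := m₁ * m₂ * n₀ with hmd
  obtain ⟨f, hf, hf1, hf2⟩ := hfr.dv m hm
  replace hgp := hgp _ (unif hc hCb
    (hf.continuousAt.preimage_mem_nhds (by rwa [map_zero]) : f ⁻¹' D₀ ∈ 𝓝 0))
  have : Fact (St Γ (mL L m)) := ⟨by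
    rintro γ _ ⟨b, hb, rfl⟩
    exact ⟨γ • b, hfr.L_smul γ b hb, (smul_comm γ m b).symm⟩⟩
  obtain ⟨rd, hrd⟩ := exists_rd hβm hβ hf hf1
  have hcx : Cx ι iJ L m D D₀ Cb hE.toFinset f β rd := ⟨hfr.eqv, hf1, hf2, hβ, hrd, hCi,
    fun b hb g hg d hd d' hd' e => hE.mem_toFinset.2 ⟨hb, .inl (.inl (.inl (.inl
      (e ▸ add_mem_add (smul_mem_smul hg hd) hd'))))⟩,
    fun b hb g hg d hd d' hd' e => hE.mem_toFinset.2 ⟨hb, .inl (.inl (.inl (.inr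
      (e ▸ sub_mem_sub (smul_mem_smul hg hd) hd'))))⟩,
    fun b hb g hg d hd d' hd' e => hE.mem_toFinset.2 ⟨hb, .inl (.inl (.inr
      (e ▸ add_mem_add (sub_mem_sub hg hd') hd)))⟩,
    fun b hb g hg d hd d' hd' e => hE.mem_toFinset.2 ⟨hb, .inl (.inr
      (e ▸ neg_mem_neg.2 (add_mem_add (smul_mem_smul hg hd) hd')))⟩⟩
  have hmD := hD.image (continuous_nsmul m)
  have hE₁ := (hfr.fin _ ((cpt_sub hD₀ hmD).add hmD)).inter_of_left {e | ∃ b ∈ L₀, e = m₁ • b}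
  refine ⟨hE₁.toFinset, hE.toFinset.image (m • ·), fun e he => (hE₁.mem_toFinset.1 he).2,
    fun e he => ?_, ?_⟩
  · obtain ⟨b, hb, rfl⟩ := Finset.mem_image.1 he
    obtain ⟨hb, hb'⟩ := hE.mem_toFinset.1 hb
    refine ⟨m₁ • n₀ • b, hHL _ (L.nsmul_mem (L.nsmul_mem hb _) _) ?_, by
      rw [smul_smul, smul_smul, hmd, mul_comm m₁]⟩
    rw [map_nsmul, map_nsmul]
    exact H.nsmul_mem (hnH _ hb') _
  filter_upwards [hlnk (m₁ * m₂)] with R hR ξ₁ ξ₂ hZ hfin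
  set I : Set X := {b | b ∈ L ∧ sc R (iJ (m • b)) ∈ V⁻¹ • K + W}
  have hP : ∀ g ∈ Cb, ∀ b ∈ I, ∀ α, rd α (g • iJ (m • b)) ∈ {a | sc R (iJ a) ∈ K'} := by
    intro g hg b hb α
    obtain ⟨d, hd, e⟩ := hrd.near α (g • iJ (m • b))
    rw [mem_ofPred_eq, e, map_sub, hfr.sc_smul, sub_eq_add_neg]
    exact add_mem_add (smul_mem_smul hg hb.2) (hR d (.inr hd))
  have hI : ∀ g ∈ V, ∀ a ∈ {a | sc R (iJ a) ∈ K}, β (f (g⁻¹ • iJ a)) ∈ I := by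
    intro g hg a ha
    refine ⟨(hβ _).1, ?_⟩
    have : iJ (m • β (f (g⁻¹ • iJ a))) =
        g⁻¹ • iJ a - m • (f (g⁻¹ • iJ a) - iJ (β (f (g⁻¹ • iJ a)))) := by
      rw [smul_sub, hf1, map_nsmul]; abel
    rw [this, map_sub, hfr.sc_smul, sub_eq_add_neg]
    exact add_mem_add (smul_mem_smul (inv_mem_inv.2 hg) ha) (hR _ (.inr (hβ _).2))
  have hsum := hcx.sumJ cq μ hc hCb.measurableSet (fun b hb => hb.1) hP
  have hPP : {a | sc R (iJ a) ∈ K'} ⊆ {a | sc R (iJ a) ∈ K₁} := fun a ha => hKK (.inr ha)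
  have hone : ∀ b : I, ∫⁻ p in V ×ˢ univ, ‖Ps (G := G) cq rd (iJ (m • b.1)) ξ₂ p‖ₑ ^ 2
      ∂μ.prod (wm fun _ => 1) ≤ 40 * (Γm ∪ Γv).card * C₀ * ∫⁻ p in Cb ×ˢ univ,
        Ps cq rd (iJ (m • b.1)) (FS hE₁.toFinset ξ₁ ξ₂) p ∂μ.prod (wm fun _ => 1) +
      (2 * (Γm ∪ Γv).card * (4 * C₀ + 6 * C₁) + 4) * ∫⁻ p in Cb ×ˢ univ,
        Ps cq rd (iJ (m • b.1)) (FT cq (Γm ∪ Γv) (hE.toFinset.image (m • ·)) ξ₂) p
          ∂μ.prod (wm fun _ => 1) := fun b => by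
    obtain ⟨τ, hτ, hτ', hg⟩ := hgp R _ b.2.2
    refine one cq μ hco hcx hc hCb.measurableSet (hFd.trans hC1)
      (fun κ hκ x hx => hC2 (mul_mem_mul (hFd hx) hκ)) hC5 (fun Ψ g hg => (hmv _ μ _ Ψ g hg).trans
        ((Finset.sum_le_sum fun γ _ => lintegral_mono_set (prod_mono_left hC3)).trans
          (Finset.sum_le_sum_of_subset Finset.subset_union_left)))
      (fun F => (hvol _ μ _ F).trans (Finset.sum_le_sum_of_subset Finset.subset_union_right))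
      hτ hτ' (E₁ := hE₁.toFinset) (fun v hv g hg α w => ?_) ξ₁ ξ₂ fun Δ => hg (mL L m) m hm
        (fun b hb => ⟨b, hb, rfl⟩) _ Δ (meas_Ps cq hc hrd.meas _ _) (fun g α => hZ (rd α (g • iJ (m • b.1)))) ?_
    · obtain ⟨b, hb, d, hd, d', hd', e1, e2⟩ := hcx.mv α w (g • v)
      have e3 : iJ (m • b) = g • v - m • d' + m • d := by
        rw [map_nsmul, e1, smul_add, smul_sub, hf1]
      refine ⟨m • b, hE₁.mem_toFinset.2 ⟨⟨L.nsmul_mem hb _, e3 ▸ add_mem_add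
        (sub_mem_sub (hv g hg).1 ⟨d', hd', rfl⟩) ⟨d, hd, rfl⟩⟩, m₂ • n₀ • b,
        hHL _ (L.nsmul_mem (L.nsmul_mem hb _) _) ?_, by rw [smul_smul, smul_smul]⟩, e2⟩
      have e4 : ∀ x : Z, f₁ (m • x) = m₂ • n₀ • x := fun x => by
        rw [hmd, mul_smul, mul_smul, hf₁']
      rw [map_nsmul, map_nsmul, ← e4, ← map_nsmul, e3, map_add, map_sub, e4, e4]
      exact H.add_mem (H.sub_mem (hv g hg).2 (H.nsmul_mem (hnH _ (.inr hd')) _))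
        (H.nsmul_mem (hnH _ (.inr hd)) _)
    · refine ne_top_of_le_ne_top ?_ ((fd_le μ _ (hFd.trans hC1) _).trans
        ((ENNReal.le_tsum b).trans (hsum fun a q => ‖ξ₂ a q‖ₑ ^ 2)))
      have := ne_top_of_le_ne_top hfin (nn_mono hPP ξ₂)
      rw [← nn_eq]
      finiteness
  have h1 := (ENNReal.tsum_le_tsum hone).trans_eq (by
    rw [ENNReal.tsum_add, ENNReal.tsum_mul_left, ENNReal.tsum_mul_left])
  have h2 := (hsum _).trans (mul_le_mul_right (mul_le_mul_right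
    (ns_FS hPP hE₁.toFinset ξ₁ ξ₂) _) _)
  have h3 := (hsum _).trans (mul_le_mul_right (mul_le_mul_right (ns_FT cq hPP (Γ₁ := Γm ∪ Γv)
    (fun γ hγ a ha => by
      rw [mem_ofPred_eq, hfr.eqv, hfr.sc_smul]; exact smul_mem_smul (hC5 γ hγ) (.inr ha))
    (hE.toFinset.image (m • ·)) ξ₂) _) _)
  have h4 := fin_div hμ0 hμ1 (hcx.lowI cq μ hc hV.measurableSet hC4 hI ξ₂)
  have h5 : ∑ e ∈ hE.toFinset.image (m • ·), ns {a | sc R (iJ a) ∈ K} (dl ξ₂ e) ≤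
      ∑ γ ∈ Γm ∪ Γv, nn {a | sc R (iJ a) ∈ K₁} (fun a q => ξ₂ (γ • a) (cq γ * q) - ξ₂ a q) +
        ∑ e ∈ hE.toFinset.image (m • ·),
          nn {a | sc R (iJ a) ∈ K₁} fun a q => ξ₂ (a + e) q - ξ₂ a q :=
    le_add_left (Finset.sum_le_sum fun e _ => ns_mono (P := {a | sc R (iJ a) ∈ K})
      (P' := {a | sc R (iJ a) ∈ K₁}) (fun a ha => hKK (.inl ha)) _)
  refine h4.trans ((add_le_add (mul_le_mul_right (mul_le_mul_right (mul_le_mul_right (h1.trans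
    (add_le_add (mul_le_mul_right h2 _) (mul_le_mul_right h3 _))) _) _) _)
    (mul_le_mul_right h5 _)).trans_eq ?_)
  ring

end Crest.Agent.T24.Na.J62
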