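import Crest.Agent.T24.HnRecA_7
import Crest.Agent.T24.HilA_56

/-!
# Row 24: Hilbert reciprocity and prescribed symbols
-/

set_option autoImplicit false
set_option linter.unusedSectionVars false

noncomputable section

open scoped NumberField
open IsDedekindDomain

namespace Crest.Agent.T24.Hil

namespace R7

open Hn Crest.Agent.R018.Selmerx380 Crest.Agent.R018.SLatx824

/-- an isotropic subgroup of a non-degenerate pairing is small -/
theorem iso_bound {W V : Type*} [CommGroup W] [CommGroup V] (β : W →* V →* ℤˣ) (Q : Subgroup W)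
    (hQ : Q.index ≠ 0) (hQβ : Q ≤ β.ker) (j : V →* W) (hj : ∀ u, β (j u) = 1) (K : Subgroup V)
    (h1 : ∀ u, (∀ w, β w u = 1) → u ∈ K) (h2 : ∀ u, j u ∈ Q → u ∈ K) :
    K.index * K.index ≤ Q.index := by
  have e1 : Q.relIndex β.ker * β.ker.index = Q.index := Subgroup.relIndex_mul_index hQβ
  have e2 : Q.relIndex β.ker ≠ 0 := fun h => hQ (by rw [← e1, h, zero_mul])
  have e3 : β.ker.index ≠ 0 := fun h => hQ (by rw [← e1, h, mul_zero])
  have e4 : K.index ≤ Q.relIndex β.ker := by
    have h3 : Q.relIndex j.range ≤ Q.relIndex β.ker :=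
      Subgroup.relIndex_le_of_le_right (by rintro _ ⟨u, rfl⟩; exact hj u) e2
    refine le_trans ?_ h3
    rw [← Subgroup.index_comap]
    refine Nat.le_of_dvd (Nat.pos_of_ne_zero ?_) (Subgroup.index_dvd_of_le h2)
    rw [Subgroup.index_comap]
    exact fun h => hQ (Subgroup.index_eq_zero_of_relIndex_eq_zero h)
  have e5 : K.index ≤ β.ker.index := by
    have : β.ker.FiniteIndex := ⟨e3⟩
    let ι : ℤˣ →* ℂˣ := Units.map (Int.castRingHom ℂ : ℤ →* ℂ)
    have hι : Function.Injective ι := Units.map_injective Int.cast_injective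
    let γ : V →* (W ⧸ β.ker →* ℂˣ) :=
      (MonoidHom.compHom ι).comp (QuotientGroup.kerLift β).flip
    have h3 : γ.ker ≤ K := fun u hu => h1 u fun w => hι (by
      have := DFunLike.congr_fun (MonoidHom.mem_ker.mp hu) (QuotientGroup.mk w)
      rw [map_one]
      exact this)
    have h4 : Nat.card (W ⧸ β.ker →* ℂˣ) = Nat.card (W ⧸ β.ker) :=
      CommGroup.card_monoidHom_of_hasEnoughRootsOfUnity _ ℂ
    have h5 : Finite (W ⧸ β.ker →* ℂˣ) := Nat.finite_of_card_ne_zero (h4 ▸ e3)
    have h6 : γ.ker.index ≤ β.ker.index := by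
      rw [Subgroup.index_ker]
      exact (Nat.card_le_card_of_injective _ Subtype.val_injective).trans h4.le
    refine le_trans (Nat.le_of_dvd (Nat.pos_of_ne_zero ?_) (Subgroup.index_dvd_of_le h3)) h6
    rw [Subgroup.index_ker]
    exact Nat.card_pos.ne'
  rw [← e1]
  exact Nat.mul_le_mul e4 e5

universe u

variable {F : Type u} [Field F] [NumberField F]

/-- badness of a place does not depend on the quadratic extension -/
theorem Bad.indep {d c : Fˣ} {p : Pc F} (h : Bad d p) (hc : c ∉ SqP p) : Bad c p := by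
  classical
  obtain ⟨a, ha⟩ := h
  have ha' : ∀ q, hil q a d = dl {p} q := congrFun ha
  have hp : hil p a d = -1 := (ha' p).trans (by simp [dl])
  obtain ⟨n, ⟨x, y, hn⟩, hn'⟩ := hm4 (a * c) d (c * d) (fun q => by
    by_cases hq : q = p
    · subst hq
      obtain ⟨b, hb⟩ := exists_hil hc
      suffices h1 : ∃ t, hil q t d = -1 ∧ hil q t c = -hil q c (c * d) by
        obtain ⟨t, h1, h2⟩ := h1
        refine ⟨t / c, hil_eq_one.mp ?_, hil_eq_one.mp ?_⟩
        · rw [R7.hil_div, hil_mul' q c d t, h1, h2]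
          rcases hil_or q c (c * d) with e | e <;> simp [e]
        · rw [mul_assoc, mul_div_cancel, hil_mul, hp, h1]; simp
      by_contra h1
      push Not at h1
      have h2 := h1 a hp
      have h3 := h1 b
      have h4 := h1 (a * b)
      have h5 := h1 c
      have h6 := h1 (a * c)
      rw [hil_mul, hil_mul, hp, hb] at h4
      rw [hil_mul, hil_mul, hp] at h6
      rw [hb] at h3
      rw [hil_mul' q c d c] at h2 h3 h4 h5 h6
      rcases hil_or q a c with e1 | e1 <;> rcases hil_or q b d with e2 | e2 <;>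
        rcases hil_or q c c with e3 | e3 <;> rcases hil_or q c d with e4 | e4 <;> simp_all
    · refine ⟨-(c * d), Subgroup.mem_sup_left (neg_mem_Nr _), ?_⟩
      have : a * c * -(c * d) = a * (c ^ 2 * -d) := by
        rw [mul_neg, mul_neg, mul_neg, pow_two]; simp only [mul_assoc]
      rw [this]
      exact mul_mem (hil_eq_one.mp ((ha' q).trans (by simp [dl, hq])))
        (Subgroup.mem_sup_left (mul_mem (sq_mem_Nr _ c) (neg_mem_Nr d))))
  have h1 : ∀ q, hil q a d = hil q (c * n) d := by
    intro q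
    have := hil_of_Nr q hn'
    rw [mul_assoc, hil_mul] at this
    rcases hil_or q a d with e1 | e1 <;> rcases hil_or q (c * n) d with e2 | e2 <;> simp_all
  have h2 : ((c * n : Fˣ) : F) = c * x ^ 2 - d * (c * y) ^ 2 := by
    rw [Units.val_mul, hn, Units.val_mul]; ring
  have hx : x ≠ 0 := by
    rintro rfl
    rw [h1, hil_of_Nr p ⟨0, c * y, by rw [h2]; ring⟩] at hp
    exact absurd hp (by decide)
  have h3 : ∀ (q : Pc F) (s t r : Fˣ), hil q s (t * r ^ 2) = hil q s t := fun q s t r => by
    rw [hil_mul', hil_of_SqP' (sq_mem_SqP q r), mul_one]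
  by_cases hy : y = 0
  · refine ⟨d, funext fun q => ?_⟩
    have h4 : c * n = c * Units.mk0 x hx ^ 2 := Units.ext (by rw [h2, hy]; simp)
    change hil q d c = _
    rw [← ha', h1, h4, R7.hil_comm q _ d, h3]
  · refine ⟨-(c * n * (d * (c * Units.mk0 y hy) ^ 2)), funext fun q => ?_⟩
    change hil q _ c = _
    rw [← ha', h1, ← h3 q _ d (c * Units.mk0 y hy), ← h3 q _ c (Units.mk0 x hx)]
    exact (hil_add q (by rw [h2]; simp)).symm

/-- no quaternion algebra is ramified at exactly one place -/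
theorem not_bad (d : Fˣ) (p : Pc F) : ¬ Bad d p := by
  classical
  intro hbad
  obtain ⟨S₀, hS₀⟩ := exists_al {p}
  obtain ⟨S, hS, h2, hK, -⟩ := exists_big S₀ d
  have hpS : p ∈ al S := al_mono hS (hS₀ (by simp))
  set U := (S : Set (Pl F)).unit F with hU
  set G := (al S).filter fun q => ¬ ∃ e : Fˣ, Bad e q with hG
  have hGm : ∀ {q : Pc F} {e : Fˣ}, e ∉ SqP q → (¬ Bad e q ↔ ¬ ∃ e' : Fˣ, Bad e' q) := fun he =>
    ⟨fun h ⟨_, h'⟩ => h (h'.indep he), fun h h' => h ⟨_, h'⟩⟩
  have hinj : ∀ u ∈ U, (∀ q ∈ G, u ∈ SqP q) → u ∈ sqr U := by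
    intro u hu h
    refine mem_sqr_unit hu (not_not.mp fun h0 => ?_)
    have h3 : ∀ q, u ∉ SqP q → ¬ Bad u q → q ∉ al S := fun q h4 h5 h6 =>
      h4 (h q (Finset.mem_filter.mpr ⟨h6, (hGm h4).mp h5⟩))
    obtain ⟨q, h4, h5⟩ := exists_good h0
    obtain ⟨v, hv, rfl⟩ := notMem_al (h3 q h4 h5)
    obtain ⟨c, hc, hc'⟩ := exists_unif hK v hv
    have h6 := even_good c u
    have h7 : ((rm c u).filter fun q => ¬ Bad u q) = {.inl v} := by
      refine Finset.eq_singleton_iff_unique_mem.mpr ⟨Finset.mem_filter.mpr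
        ⟨mem_rm.mpr (hil_unif (h2 v hv) (hu v hv) h4 hc), h5⟩, fun q hq => ?_⟩
      obtain ⟨h8, h9⟩ := Finset.mem_filter.mp hq
      rw [mem_rm] at h8
      obtain ⟨w, hw, rfl⟩ := notMem_al (h3 q (notMem_of_hil h8) h9)
      by_contra h10
      rw [R7.hil_unit (h2 w hw) (hu w hw) (hc' w hw fun h => h10 (by rw [h]))] at h8
      exact absurd h8 (by decide)
    rw [h7, Finset.card_singleton] at h6
    exact absurd h6 (by decide)
  let β : (G → Fˣ) →* U →* ℤˣ :=
    { toFun := fun w =>
        { toFun := fun u => ∏ q : G, hil q.1 (w q) u.1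
          map_one' := Finset.prod_eq_one fun q _ => hil_of_SqP' (one_mem _) _
          map_mul' := fun a b => by
            rw [← Finset.prod_mul_distrib]
            exact Finset.prod_congr rfl fun q _ => hil_mul' _ _ _ _ }
      map_one' := MonoidHom.ext fun u => Finset.prod_eq_one fun q _ => R7.hil_one _ _
      map_mul' := fun a b => MonoidHom.ext fun u => by
        change ∏ q : G, hil q.1 (a q * b q) u.1 =
          (∏ q : G, hil q.1 (a q) u.1) * ∏ q : G, hil q.1 (b q) u.1
        rw [← Finset.prod_mul_distrib]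
        exact Finset.prod_congr rfl fun q _ => hil_mul _ _ _ _ }
  let Q : Subgroup (G → Fˣ) := ⨅ q : G, (SqP q.1).comap (Pi.evalMonoidHom (fun _ => Fˣ) q)
  have hQi : ∀ q : G, ((SqP q.1).comap (Pi.evalMonoidHom (fun _ : G => Fˣ) q)).index =
      (SqP q.1).index := fun q =>
    Subgroup.index_comap_of_surjective _ fun x => ⟨fun _ => x, rfl⟩
  have h3 := iso_bound β Q
    (Subgroup.index_iInf_ne_zero fun q => by rw [hQi]; exact index_SqP_ne _)
    (fun w hw => MonoidHom.ext fun u => Finset.prod_eq_one fun q _ =>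
      hil_of_SqP (Subgroup.mem_iInf.mp hw q) _)
    (MonoidHom.pi fun _ => U.subtype)
    (fun u => MonoidHom.ext fun u' => by
      change ∏ q : G, hil q.1 u.1 u'.1 = 1
      rw [Finset.prod_coe_sort G fun q => hil q u.1 u'.1, prod_hil]
      have h4 : (G.filter fun q => q ∈ rm u.1 u'.1) =
          (rm u.1 u'.1).filter fun q => ¬ Bad u'.1 q := by
        ext q
        simp only [hG, Finset.mem_filter]
        constructor
        · rintro ⟨⟨-, h5⟩, h6⟩
          exact ⟨h6, fun h7 => h5 ⟨_, h7⟩⟩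
        · rintro ⟨h5, h6⟩
          refine ⟨⟨?_, (hGm (notMem_of_hil (mem_rm.mp h5))).mp h6⟩, h5⟩
          by_contra h7
          rw [mem_rm, hil_out h2 u.2 u'.2 h7] at h5
          exact absurd h5 (by decide)
      rw [h4]
      exact (even_good _ _).neg_one_pow)
    ((sqr U).subgroupOf U)
    (fun u h => hinj u.1 u.2 fun q hq => by
      by_contra h4
      obtain ⟨t, ht⟩ := exists_hil h4
      have h5 : ∏ r : G, hil r.1 (Pi.mulSingle (M := fun _ : G => Fˣ) ⟨q, hq⟩ t r) u.1 = 1 := h _
      rw [Finset.prod_eq_single ⟨q, hq⟩ (fun r _ hr => by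
        rw [Pi.mulSingle_eq_of_ne hr, R7.hil_one]) (by simp), Pi.mulSingle_eq_same, ht] at h5
      exact absurd h5 (by decide))
    (fun u h => hinj u.1 u.2 fun q hq => Subgroup.mem_iInf.mp h ⟨q, hq⟩)
  have sU : ((sqr U).subgroupOf U).index =
      2 ^ (S.card + Fintype.card (NumberField.InfinitePlace F)) := suStmt F S
  have h4 : Q.index ≤ ∏ q ∈ G, (SqP q).index := by
    refine (Subgroup.index_iInf_le _).trans (le_of_eq ?_)
    simp only [hQi]
    exact Finset.prod_coe_sort G fun q => (SqP q).index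
  have h5 : ∏ q ∈ al S, (SqP q).index ≤
      2 ^ (2 * (S.card + Fintype.card (NumberField.InfinitePlace F))) := by
    rw [al, Finset.prod_disjSum]
    change (∏ v ∈ S, (Sq v).index) * ∏ φ : F →+* ℝ, (Pos φ).index ≤ _
    simp only [index_Pos, Finset.prod_const, Finset.card_univ]
    refine (Nat.mul_le_mul_right _ (l1Stmt F S).2).trans (le_of_eq ?_)
    rw [mul_add, two_card_inf, pow_add, pow_add, pow_mul]
    ring
  have h6 : ∏ q ∈ G, (SqP q).index ≤ ∏ q ∈ (al S).erase p, (SqP q).index := by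
    refine Finset.prod_le_prod_of_subset_of_one_le' (fun q hq => ?_)
      fun q _ _ => Nat.pos_of_ne_zero (index_SqP_ne q)
    obtain ⟨h7, h8⟩ := Finset.mem_filter.mp hq
    exact Finset.mem_erase.mpr ⟨by rintro rfl; exact h8 ⟨d, hbad⟩, h7⟩
  have h7 : 2 ≤ (SqP p).index := by
    have e0 := index_SqP_ne p
    have e1 : (SqP p).index ≠ 1 := fun h =>
      hbad.notMem (by rw [Subgroup.index_eq_one.mp h]; trivial)
    omega
  rw [← Finset.mul_prod_erase _ _ hpS] at h5
  rw [sU, ← pow_add, ← two_mul] at h3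
  have h8 := (Nat.mul_le_mul h7 (h3.trans (h4.trans h6))).trans h5
  have h9 : 0 < 2 ^ (2 * (S.card + Fintype.card (NumberField.InfinitePlace F))) := by positivity
  omega

/-- a finite set of non-split places is a ramification set iff it is even -/
theorem exists_rm_iff {d : Fˣ} {B : Finset (Pc F)} (hB : ∀ p ∈ B, d ∉ SqP p) :
    (∃ a, ∀ p, hil p a d = -1 ↔ p ∈ B) ↔ Even B.card := by
  classical
  rw [← even_of_mem (d := d) fun p hp => ⟨hB p hp, not_bad d p⟩]
  refine exists_congr fun a => ⟨fun h => ?_, fun h p => ?_⟩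
  · rw [hv_eq]
    congr 1
    ext p
    rw [mem_rm, h]
  · have : hil p a d = dl B p := congrFun h p
    rw [this, dl]
    split_ifs with h1 <;> simp [h1]

theorem even_rm (a d : Fˣ) : Even (rm a d).card :=
  (exists_rm_iff fun _ hp => notMem_of_hil (mem_rm.mp hp)).mp ⟨a, fun _ => mem_rm.symm⟩

end R7

open Hn R7

universe u

/-- **Hilbert reciprocity** -/
theorem recStmt7 : RecStmt.{u} := by
  classical
  intro F _ _ a b S h
  rw [prod_hil, Finset.filter_mem_eq_inter, Finset.inter_eq_right.mpr fun p hp => ?_]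
  · exact (even_rm a b).neg_one_pow
  · by_contra h1
    rw [mem_rm, h p h1] at hp
    exact absurd hp (by decide)

/-- **prescribed symbols** -/
theorem preStmt7 : PreStmt.{u} := by
  classical
  intro F _ _ d S c h
  obtain ⟨a, ha⟩ := wa_sq S c
  have h1 : ∏ p ∈ S, hil p a d = 1 := by
    rw [← h]
    refine Finset.prod_congr rfl fun p hp => ?_
    rw [← div_mul_cancel a (c p), hil_mul, hil_of_SqP (ha p hp), one_mul]
  have h2 : Even ((rm a d).filter fun p => p ∉ S).card := by
    have h3 := even_rm a d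
    rw [← Finset.card_filter_add_card_filter_not (fun p => p ∈ S)] at h3
    rw [prod_hil, neg_one_pow_eq_one_iff_even (by decide), Finset.filter_mem_eq_inter,
      Finset.inter_comm, ← Finset.filter_mem_eq_inter] at h1
    exact (Nat.even_add.mp h3).mp h1
  obtain ⟨b, hb⟩ := (exists_rm_iff (d := d) fun p hp =>
    notMem_of_hil (mem_rm.mp (Finset.mem_filter.mp hp).1)).mpr h2
  obtain ⟨n, hn, hn'⟩ := wa_nr (d : F) S (fun _ => b) fun p hp => by
    by_contra h3
    exact (Finset.mem_filter.mp ((hb p).mp (R7.hil_eq_neg.mpr h3))).2 hp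
  refine ⟨a * (n / b), fun p hp => ?_, fun p hp => ?_⟩
  · rw [mul_div_right_comm]
    exact mul_mem (ha p hp) (hn' p hp)
  · rw [hil_mul, R7.hil_div, hil_of_Nr p hn, one_mul]
    have h3 := hb p
    rw [Finset.mem_filter, mem_rm] at h3
    rcases hil_or p a d with e1 | e1 <;> rcases hil_or p b d with e2 | e2 <;> simp_all

end Crest.Agent.T24.Hil
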