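import Crest.Agent.T24.HilC_56
import Crest.Agent.T24.HnRec_7

/-! Row 24, Hilbert symbols, part D: norm functoriality (helper56). -/

set_option autoImplicit false
set_option linter.unusedSectionVars false

noncomputable section

open scoped NumberField Topology Valued
open IsDedekindDomain WithZero Filter Module

namespace Crest.Agent.T24.Hil

open Hn

universe u

theorem isSquare_of_even (k K : Type*) [Field k] [Field K] [Finite K] [Algebra k K]
    (h2 : (2 : K) ≠ 0) (h : Even (finrank k K)) (a : k) : IsSquare (algebraMap k K a) := by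
  have : Finite k := Finite.of_injective _ (algebraMap k K).injective
  have := Fintype.ofFinite k
  have := Fintype.ofFinite K
  by_cases ha : a = 0
  · simp [ha]
  have hK : ringChar K ≠ 2 := fun h => h2 (by simpa [h] using ringChar.Nat.cast_ringChar (R := K))
  have hk : ringChar k ≠ 2 := by rwa [Algebra.ringChar_eq k K]
  rw [FiniteField.isSquare_iff hK (by simpa using ha), ← map_pow, Module.card_eq_pow_finrank (K := k)]
  obtain ⟨g, hg⟩ := h
  obtain ⟨m, hm⟩ := Nat.odd_iff.2 (FiniteField.odd_card_of_char_ne_two hk)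
  have key : ∀ x g : ℕ, ∃ t, (x + 1) ^ g = x * t + 1 := fun x g => by
    induction g with
    | zero => exact ⟨0, by simp⟩
    | succ g ih => obtain ⟨t, ht⟩ := ih; exact ⟨x * t + t + 1, by rw [pow_succ, ht]; ring⟩
  obtain ⟨t, ht⟩ := key (2 * (2 * m * (m + 1))) g
  have e : Fintype.card k ^ finrank k K / 2 = (Fintype.card k - 1) * ((m + 1) * t) := by
    have : (2 * m + 1) ^ 2 = 2 * (2 * m * (m + 1)) + 1 := by ring
    rw [hg, ← two_mul, pow_mul, hm, this, ht, Nat.add_sub_cancel, mul_assoc 2, mul_assoc (2 * m)]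
    omega
  rw [e, pow_mul, FiniteField.pow_card_sub_one_eq_one a ha, one_pow, map_one]

theorem val_prod_sub_one {K Γ ι : Type*} [Field K] [LinearOrderedCommGroupWithZero Γ]
    (W : Valuation K Γ) {γ : Γ} (h0 : 0 < γ) (h1 : γ ≤ 1) (s : Finset ι) (a : ι → K)
    (h : ∀ i ∈ s, W (a i - 1) < γ) : W (∏ i ∈ s, a i - 1) < γ := by
  refine Finset.prod_induction a (fun x => W (x - 1) < γ) (fun x y hx hy => ?_) (by simpa) h
  have e : x * y - 1 = (x - 1) * (y - 1) + ((x - 1) + (y - 1)) := by ring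
  rw [e]
  refine W.map_add_lt ?_ (W.map_add_lt hx hy)
  rw [map_mul]
  exact (mul_le_of_le_one_right' (hy.le.trans h1)).trans_lt hx

variable {F E : Type u} [Field F] [NumberField F] [Field E] [NumberField E] [Algebra F E]

/-- the norm on units -/
abbrev nm (F : Type*) {E : Type*} [Field F] [Field E] [Algebra F E] : Eˣ →* Fˣ :=
  Units.map (Algebra.norm F : E →* F)

theorem nm_mem_Nr {d : F} {b : Eˣ} (h : b ∈ Nr (algebraMap F E d)) : nm F b ∈ Nr d := by
  obtain ⟨x, y, h⟩ := h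
  let e := Module.finBasis F E
  let A := QuadraticAlgebra F d 0
  let ψ : E →ₐ[F] Matrix _ _ A := (Algebra.ofId F A).mapMatrix.comp (Algebra.leftMulMatrix e)
  let ω : A := QuadraticAlgebra.omega
  have hω : ω * ω = algebraMap F A d := by
    rw [QuadraticAlgebra.omega_mul_omega_eq_mk]; rfl
  have h1 : star (ψ x + ω • ψ y).det = (ψ x - ω • ψ y).det := by
    refine ((qconj d).toAlgHom.map_det _).trans (congrArg _ ?_)
    ext i j <;> simp [ψ, ω, qconj, A]
  have h2 : (ψ x + ω • ψ y) * (ψ x - ω • ψ y) = ψ b := by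
    have : ψ (algebraMap F E d * (y * y)) = (ω * ω) • (ψ y * ψ y) := by
      rw [← Algebra.smul_def, map_smul, map_mul, hω, algebraMap_smul]
    rw [h, sq, sq, map_sub, this, map_mul, add_mul, mul_sub, mul_sub, smul_mul_smul_comm,
      mul_smul_comm, smul_mul_assoc, ← map_mul ψ x y, ← map_mul ψ y x, mul_comm x y]
    abel
  have h3 : (ψ b).det = algebraMap F A (Algebra.norm F (b : E)) := by
    rw [Algebra.norm_eq_matrix_det e]
    exact ((Algebra.ofId F A).map_det _).symm
  have h4 := congrArg (fun M => M.det.re) h2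
  simp only [Matrix.det_mul, ← h1, h3] at h4
  refine ⟨(ψ x + ω • ψ y).det.re, (ψ x + ω • ψ y).det.im, ?_⟩
  generalize (ψ x + ω • ψ y).det = D at h4
  simp [A] at h4
  change Algebra.norm F (b : E) = _
  linear_combination -h4

theorem pl_ext {v v' : Pl F} (h : ∀ x : F, v.valuation F x < 1 ↔ v'.valuation F x < 1) : v = v' :=
  HeightOneSpectrum.ext (Ideal.ext fun a => by
    rw [← Loc.val_int_lt_iff, ← Loc.val_int_lt_iff, h])

theorem exists_val {Ω : Type*} [Field Ω] [NumberField Ω] (σ : E →+* Ω) (W : Pl Ω) :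
    ∃ (w : Pl E) (e : ℕ), e ≠ 0 ∧ ∀ x, W.valuation Ω (σ x) = w.valuation E x ^ e := by
  let _ := σ.toAlgebra
  exact ⟨un E W, val_un W⟩

theorem val_norm_lt {v : Pl F} {z : E}
    (h : ∀ w : Pl E, un F w = v → w.valuation E (z - 1) < w.valuation E 4) :
    v.valuation F (Algebra.norm F z - 1) < v.valuation F 4 := by
  let Ω := IntermediateField.normalClosure F E (AlgebraicClosure F)
  have : NumberField Ω := NumberField.of_module_finite F _
  have h1 : algebraMap F Ω (Algebra.norm F z) = ∏ σ : E →ₐ[F] Ω, σ z := Subtype.ext (by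
    refine (Algebra.norm_eq_prod_embeddings F (AlgebraicClosure F) z).trans ?_
    rw [IntermediateField.coe_prod]
    exact (Fintype.prod_equiv (normalClosure.algHomEquiv F E _) _ _ fun _ => rfl).symm)
  obtain ⟨W, rfl⟩ := exists_un Ω v
  obtain ⟨e, he, hW⟩ := val_un (F := F) W
  have h2 := val_prod_sub_one (W.valuation Ω) (Loc.val_four_pos W) (Loc.val_four_le W) Finset.univ
    (fun σ : E →ₐ[F] Ω => σ z) fun σ _ => by
      obtain ⟨w, e', he', hw⟩ := exists_val σ.toRingHom W
      obtain ⟨e'', he'', hw'⟩ := val_un (F := F) w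
      have h3 := pow_lt_pow_left₀ (h w (pl_ext fun x => ?_)) zero_le he'
      · simpa [← hw, map_ofNat] using h3
      · have h4 := hw (algebraMap F E x)
        rw [hw', AlgHom.toRingHom_eq_coe, RingHom.coe_coe, σ.commutes, hW] at h4
        symm
        rw [← pow_lt_one_iff_of_nonneg zero_le he, h4, pow_lt_one_iff_of_nonneg zero_le he',
          pow_lt_one_iff_of_nonneg zero_le he'']
  rw [← h1, ← map_one (algebraMap F Ω), ← map_sub, ← map_ofNat (algebraMap F Ω) 4, hW, hW] at h2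
  exact lt_of_pow_lt_pow_left₀ e zero_le h2

theorem norm_pos {φ : F →+* ℝ} {b : E} (hb : b ≠ 0)
    (h : ∀ ψ : E →+* ℝ, ψ.comp (algebraMap F E) = φ → 0 < ψ b) : 0 < φ (Algebra.norm F b) := by
  let _ : Algebra F ℂ := (Complex.ofRealHom.comp φ).toAlgebra
  let c : ℂ →ₐ[F] ℂ := { starRingEnd ℂ with commutes' := fun x => Complex.conj_ofReal _ }
  have h0 : ∀ σ : E →ₐ[F] ℂ, (‖σ b‖ : ℂ) ≠ 0 := fun σ => by simpa using hb
  have h1 : ∏ σ : E →ₐ[F] ℂ, σ b / ‖σ b‖ = 1 := by
    refine Finset.prod_involution (fun σ _ => c.comp σ) (fun σ _ => ?_) (fun σ _ hσ hc => hσ ?_)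
      (fun _ _ => Finset.mem_univ _) fun σ _ => AlgHom.ext fun x => Complex.conj_conj _
    · change σ b / _ * (starRingEnd ℂ (σ b) / (‖starRingEnd ℂ (σ b)‖ : ℝ)) = 1
      rw [div_mul_div_comm, Complex.mul_conj', RCLike.norm_conj, ← sq, div_self (pow_ne_zero 2 (h0 σ))]
    · have hr : NumberField.ComplexEmbedding.IsReal σ.toRingHom :=
        NumberField.ComplexEmbedding.isReal_iff.2 (RingHom.ext fun x => AlgHom.congr_fun hc x)
      have e : ∀ x, (hr.embedding x : ℂ) = σ x := fun x => hr.coe_embedding_apply x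
      have h3 := h hr.embedding (RingHom.ext fun x => Complex.ofReal_injective
        ((e _).trans (σ.commutes x)))
      rw [div_eq_one_iff_eq (h0 σ), ← e, Complex.norm_real, Real.norm_of_nonneg h3.le]
  have h2 : (φ (Algebra.norm F b) : ℂ) = (∏ σ : E →ₐ[F] ℂ, ‖σ b‖ : ℝ) := by
    rw [Finset.prod_div_distrib, div_eq_one_iff_eq (Finset.prod_ne_zero_iff.2 fun σ _ => h0 σ)] at h1
    exact (Algebra.norm_eq_prod_embeddings F ℂ b).trans (by rw [h1, Complex.ofReal_prod])
  rw [Complex.ofReal_injective h2]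
  exact Finset.prod_pos fun σ _ => by simpa using hb

theorem nm_mem_SqP {p : Pc F} {b : Eˣ} (h : ∀ q, unP F q = p → b ∈ SqP q) : nm F b ∈ SqP p := by
  rcases p with v | φ
  · have h1 : ∀ w : Pl E, ∃ y : w.adicCompletion E, un F w = v →
        ‖algebraMap E _ b * y ^ 2 - 1‖ < ‖algebraMap E (w.adicCompletion E) 4‖ := fun w => by
      by_cases hw : un F w = v
      · obtain ⟨y, hy⟩ := h (.inl w) (congrArg _ hw)
        exact ⟨algebraMap E _ y, fun _ => by simpa using (Loc.norm_lt_iff w _ _).2 hy⟩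
      · exact ⟨0, fun h => absurd h hw⟩
    choose y hy using h1
    obtain ⟨x, hx, -⟩ := wa1 (up E {v}) y
      (fun w => {y | ‖algebraMap E _ b * y ^ 2 - 1‖ < ‖algebraMap E (w.adicCompletion E) 4‖})
      (fun w hw => (isOpen_lt (by fun_prop) continuous_const).mem_nhds
        (hy w (Finset.mem_singleton.1 (mem_up.1 hw)))) 0 (fun _ => Set.univ) fun _ => univ_mem
    refine ⟨Algebra.norm F x, ?_⟩
    have := val_norm_lt (v := v) (z := b * x ^ 2) fun w hw => (Loc.norm_lt_iff w _ _).1 (by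
      simpa using hx w (mem_up.2 (Finset.mem_singleton.2 hw)))
    simpa using this
  · exact norm_pos b.ne_zero fun ψ hψ => h (.inr ψ) (congrArg _ hψ)

theorem exists_fibre (p : Pc F) : ∃ S : Finset (Pc E), ∀ q, q ∈ S ↔ unP F q = p := by
  classical
  rcases p with v | φ
  · exact ⟨(up E {v}).disjSum ∅, by rintro (w | ψ) <;> simp [unP, mem_up]⟩
  · exact ⟨(∅ : Finset (Pl E)).disjSum (Finset.univ.filter fun ψ => ψ.comp (algebraMap F E) = φ),
      by rintro (w | ψ) <;> simp [unP]⟩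

theorem hil_nm_eq_one {p : Pc F} {b : Eˣ} {d : Fˣ} (h : ∀ q, unP F q = p → hil q b (io F E d) = 1) :
    hil p (nm F b) d = 1 := by
  obtain ⟨S, hS⟩ := exists_fibre (E := E) p
  obtain ⟨n, hn, h1⟩ := wa_nr _ S (fun _ => b) fun q hq => hil_eq_one.1 (h q ((hS q).1 hq))
  rw [← hil_congr_left (a := nm F n) (by
    rw [← map_div]; exact nm_mem_SqP fun q hq => h1 q ((hS q).2 hq))]
  exact hil_of_nr (nm_mem_Nr hn)

/-- the computation at a good place -/
theorem exists_good {w : Pl E} {d : Fˣ} {a : 𝓞 F} (hd : (d : F) = a)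
    (h2 : (un F w).valuation F 2 = 1) (ha : (un F w).valuation F (d : F) = 1)
    (hw : io F E d ∉ Sq w) : ∃ b : Eˣ, hil (.inl w) b (io F E d) = -1 ∧
      (∀ q, q ≠ .inl w → unP F q = .inl (un F w) → hil q b (io F E d) = 1) ∧
      hil (.inl (un F w)) (nm F b) d = -1 := by
  set v := un F w with hv
  have hu : ∀ (w' : Pl E) {x : F}, un F w' = v → v.valuation F x = 1 →
      w'.valuation E (algebraMap F E x) = 1 := fun w' x h hx => by
    obtain ⟨e, -, he⟩ := val_un (F := F) w'
    rw [he, h, hx, one_pow]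
  have hu2 : ∀ w' : Pl E, un F w' = v → w'.valuation E 2 = 1 := fun w' h => by
    simpa [map_ofNat] using hu w' h h2
  have := v.isMaximal
  have hN : ∀ w' : Pl E, un F w' = v →
      Ideal.relNorm (𝓞 F) w'.asIdeal = v.asIdeal ^ w'.asIdeal.inertiaDeg (𝓞 F) := fun w' h => by
    have := w'.isMaximal
    have : w'.asIdeal.LiesOver v.asIdeal := ⟨h ▸ rfl⟩
    exact Ideal.relNorm_eq_pow_of_isMaximal _ _
  set f := w.asIdeal.inertiaDeg (𝓞 F) with hf
  obtain ⟨b, hb, hb'⟩ : ∃ b ∈ w.asIdeal, Algebra.intNorm (𝓞 F) (𝓞 E) b ∉ v.asIdeal ^ (f + 1) := by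
    by_contra h
    push Not at h
    refine (Ideal.pow_succ_lt_pow v.ne_bot f).not_ge ?_
    rw [← hN w rfl, Ideal.relNorm_apply, Ideal.span_le]
    rintro _ ⟨b, hb, rfl⟩
    exact h b hb
  have h3 : ∀ w' : Pl E, un F w' = v → b ∉ w.asIdeal * w'.asIdeal := fun w' h hm => hb' (by
    have h4 := Ideal.intNorm_mem_spanNorm (𝓞 F) hm
    rw [Ideal.spanNorm_eq, map_mul, hN w rfl, hN w' h, ← pow_add] at h4
    have := w'.isPrime
    exact Ideal.pow_le_pow_right (Nat.add_le_add_left (w'.asIdeal.inertiaDeg_pos (𝓞 F)) f) h4)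
  have hb0 : (b : E) ≠ 0 := fun h0 => h3 w rfl (by
    rw [NumberField.RingOfIntegers.coe_eq_zero_iff.1 h0]; exact zero_mem _)
  have exact_val : ∀ {K : Type u} [Field K] [NumberField K] (v : Pl K) (x : 𝓞 K) (k : ℕ),
      x ∈ v.asIdeal ^ k → x ∉ v.asIdeal ^ (k + 1) → v.valuation K (x : K) = exp (-(k : ℤ)) := by
    intro K _ _ v x k h1 h2
    rw [← Loc.val_int_le_pow_iff] at h1 h2
    refine le_antisymm h1 (not_lt.1 fun h => h2 ?_)
    convert Loc.lt_exp_iff.1 h using 2
    push_cast; ring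
  have hodd : Odd f := by
    have := w.isMaximal
    have : w.asIdeal.LiesOver v.asIdeal := ⟨rfl⟩
    by_contra he
    rw [Nat.not_odd_iff_even, hf, Ideal.inertiaDeg_eq_of_isMaximal v.asIdeal] at he
    let _ : Field (𝓞 F ⧸ v.asIdeal) := Ideal.Quotient.field _
    let _ : Field (𝓞 E ⧸ w.asIdeal) := Ideal.Quotient.field _
    obtain ⟨y, hy⟩ := isSquare_of_even _ _ (fun h0 => by
      have := (Loc.val_int_lt_iff w 2).2 (Ideal.Quotient.eq_zero_iff_mem.1 (by simpa [map_ofNat] using h0))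
      simp [map_ofNat, hu2 w rfl] at this) he (Ideal.Quotient.mk _ a)
    obtain ⟨y, rfl⟩ := Ideal.Quotient.mk_surjective y
    have e : ((io F E d : Eˣ) : E) = (algebraMap (𝓞 F) (𝓞 E) a : 𝓞 E) := congrArg (algebraMap F E) hd
    refine hw ((Loc.mem_Sq_iff_int w (hu2 w rfl) e fun h => ?_).2 ⟨y, Ideal.Quotient.eq.1 ?_⟩)
    · exact ((Loc.val_int_lt_iff w _).2 h).ne (e ▸ hu w rfl ha)
    · rw [sq, map_mul, ← hy]; rfl
  have neg : ∀ {x : ℤˣ}, x ≠ 1 → x = -1 := fun h => (Int.units_eq_one_or _).resolve_left h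
  refine ⟨Units.mk0 _ hb0, neg fun h => ?_, ?_, neg fun h => ?_⟩
  · obtain ⟨n, hn⟩ := (hil_unram (hu2 w rfl) (hu w rfl ha) hw).1 h
    rw [Units.val_mk0, exact_val w b 1 (by simpa) (by simpa [pow_succ] using h3 w rfl), exp_inj] at hn
    omega
  · rintro (w' | ψ) hq h
    · have h4 : un F w' = v := Sum.inl_injective h
      refine hil_unit (hu2 w' h4) (Loc.val_int_eq_one w' fun h5 => h3 w' h4 ?_) (hu w' h4 ha)
      rw [Ideal.mul_eq_inf_of_isCoprime (Ideal.isCoprime_iff_sup_eq.2 (w.isMaximal.coprime_of_ne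
        w'.isMaximal fun h6 => hq (congrArg _ (HeightOneSpectrum.ext h6.symm))))]
      exact ⟨hb, h5⟩
    · exact absurd h (by simp [unP])
  · obtain ⟨n, hn⟩ := (hil_unram h2 ha fun h' => hw (io_mem_SqP (q := .inl w) h')).1 h
    have e : ((nm F (Units.mk0 _ hb0) : Fˣ) : F) = Algebra.intNorm (𝓞 F) (𝓞 E) b :=
      (Algebra.algebraMap_intNorm (K := F) (L := E) b).symm
    rw [e, exact_val v _ f (hN w rfl ▸ Ideal.intNorm_mem_spanNorm (𝓞 F) hb) hb', exp_inj] at hn
    obtain ⟨m, hm⟩ := hodd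
    omega

theorem hil_nm_eq_neg (hR : RecStmt.{u}) (hP : PreStmt.{u}) {q : Pc E} {b : Eˣ} {d : Fˣ}
    (h : hil q b (io F E d) = -1) (h' : ∀ q', q' ≠ q → unP F q' = unP F q → hil q' b (io F E d) = 1) :
    hil (unP F q) (nm F b) d = -1 := by
  classical
  obtain ⟨c, a, hd⟩ := Loc.exists_mul_sq_int d
  have e1 : ∀ (q : Pc E) (b : Eˣ), hil q b (io F E (d * c ^ 2)) = hil q b (io F E d) := fun q b => by
    rw [map_mul, map_pow, hil_mul_right, hil_of_sq_right b (sq_mem_SqP q _), mul_one]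
  have e2 : ∀ (p : Pc F) (b : Fˣ), hil p b (d * c ^ 2) = hil p b d := fun q b => by
    rw [hil_mul_right, hil_of_sq_right b (sq_mem_SqP q _), mul_one]
  have wd : ∀ {q : Pc E} {b b' : Eˣ}, hil q b (io F E d) = -1 → hil q b' (io F E d) = -1 →
      (∀ q', q' ≠ q → unP F q' = unP F q → hil q' b (io F E d) = 1) →
      (∀ q', q' ≠ q → unP F q' = unP F q → hil q' b' (io F E d) = 1) →
      hil (unP F q) (nm F b) d = hil (unP F q) (nm F b') d := by
    intro q b b' h1 h2 h3 h4
    have := hil_nm_eq_one (p := unP F q) (b := b / b') (d := d) fun q' hq' => by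
      rw [hil_div_left]
      by_cases h5 : q' = q
      · rw [h5, h1, h2]; rfl
      · rw [h3 q' h5 hq', h4 q' h5 hq', one_mul]
    rwa [map_div, ← hilL_apply, map_div, div_eq_one] at this
  obtain ⟨S, hS, h2, -, hu⟩ := exists_big (Finset.toLeft {unP F q}) (d * c ^ 2)
  have hns : io F E (d * c ^ 2) ∉ Sqs E := fun h' =>
    notMem_of_hil_neg ((e1 q b).trans h) (Sqs_le q h')
  obtain ⟨w, hw, hwS⟩ := (l4Stmt E 1 _ hns (by rwa [one_mul])).exists_notMem_finset (up E S)
  rw [mem_up] at hwS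
  obtain ⟨b₀, h3, h4, h5⟩ := exists_good hd (h2 _ hwS) (hu _ hwS) hw.2
  simp only [e1, e2] at h3 h4 h5
  have hp : unP F q ≠ unP F (.inl w) := fun h6 => hwS (hS (by
    rw [Finset.mem_toLeft, Finset.mem_singleton]; exact h6.symm))
  have hq : q ≠ .inl w := fun h6 => hp (h6 ▸ rfl)
  obtain ⟨t, h6, h7⟩ := hP E (io F E d) {q, .inl w} (fun q' => if q' = q then b else b₀) (by
    rw [Finset.prod_pair hq, if_pos rfl, if_neg hq.symm, h, h3]; rfl)
  have h8 : hil q t (io F E d) = -1 := by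
    rw [hil_congr_left (h6 q (by simp)), if_pos rfl, h]
  have h9 : hil (.inl w) t (io F E d) = -1 := by
    rw [hil_congr_left (h6 (.inl w) (by simp)), if_neg hq.symm, h3]
  have h10 := hR F (nm F t) d {unP F q, unP F (.inl w)} fun p hp => hil_nm_eq_one fun q' hq' =>
    h7 q' fun h11 => hp (by
      rcases Finset.mem_insert.1 h11 with rfl | h11
      · simp [hq']
      · simp [← hq', Finset.mem_singleton.1 h11])
  rw [Finset.prod_pair hp, wd h9 h3 (fun q' h11 h12 => h7 q' (by
      simp only [Finset.mem_insert, Finset.mem_singleton, not_or]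
      exact ⟨fun h13 => hp (h13 ▸ h12), h11⟩)) h4,
    wd h8 h (fun q' h11 h12 => h7 q' (by
      simp only [Finset.mem_insert, Finset.mem_singleton, not_or]
      exact ⟨h11, fun h13 => hp (h13 ▸ h12).symm⟩)) h'] at h10
  change _ * hil (.inl (un F w)) _ _ = _ at h10
  rwa [h5, mul_neg, mul_one, neg_eq_iff_eq_neg] at h10

/-- **norm functoriality** -/
theorem nrmStmt_of (hR : RecStmt.{u}) (hP : PreStmt.{u}) : NrmStmt.{u} := by
  classical
  intro F E _ _ _ _ _ p b d S hS
  choose t ht using fun q : Pc E => wa_sq S fun q' => if q' = q then b else 1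
  have h1 : ∀ q q', q' ∈ S → hil q' (t q) (io F E d) = if q' = q then hil q' b (io F E d) else 1 :=
    fun q q' h => by rw [hil_congr_left (ht q q' h)]; split_ifs <;> simp
  have h2 := hil_nm_eq_one (p := p) (b := b / ∏ q ∈ S, t q) (d := d) fun q' hq' => by
    have := (hS q').2 hq'
    rw [hil_div_left, hil_prod_left, Finset.prod_congr rfl fun q _ => h1 q q' this,
      Finset.prod_ite_eq, if_pos this, Int.units_mul_self]
  rw [map_div, ← hilL_apply, map_div, div_eq_one, map_prod, map_prod] at h2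
  refine h2.trans (Finset.prod_congr rfl fun q hq => ?_)
  have hq' := (hS q).1 hq
  rcases Int.units_eq_one_or (hil q b (io F E d)) with h | h
  · rw [h]
    refine hil_nm_eq_one fun q' h3 => ?_
    rw [h1 q q' ((hS q').2 h3)]
    split_ifs with h4
    · rw [h4, h]
    · rfl
  · rw [h, ← hq']
    exact hil_nm_eq_neg hR hP (by rw [h1 q q hq, if_pos rfl, h]) fun q' h3 h4 => by
      rw [h1 q q' ((hS q').2 (h4.trans hq')), if_neg h3]

theorem recStmt : RecStmt.{u} := recStmt7

theorem preStmt : PreStmt.{u} := preStmt7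

theorem nrmStmt : NrmStmt.{u} := nrmStmt_of recStmt preStmt

end Crest.Agent.T24.Hil
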