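import Crest.Agent.T24.AbDef_13

/-!
# Row 24 (helper13): superlattices of an order in a division algebra
-/

set_option autoImplicit false
set_option linter.unusedSectionVars false

noncomputable section

namespace Crest.Agent.T24.Ab.Unf

open Module LinearMap

variable {D : Type*} [DivisionRing D] [CharZero D]

/-- the module of left multiplication -/
def nm (x : D) : ℚ := |LinearMap.det (mulLeft ℚ x)|

theorem nm_mul (x y : D) : nm (x * y) = nm x * nm y := by
  unfold nm
  rw [mulLeft_mul, LinearMap.det_comp, abs_mul]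

theorem nm_one : nm (1 : D) = 1 := by
  unfold nm
  rw [mulLeft_one, LinearMap.det_id, abs_one]

theorem nm_pos {x : D} (hx : x ≠ 0) : 0 < nm x := by
  have h := nm_mul x x⁻¹
  rw [mul_inv_cancel₀ hx, nm_one] at h
  refine lt_of_le_of_ne (abs_nonneg _) fun h0 => ?_
  have : nm x = 0 := h0.symm
  rw [this, zero_mul] at h
  exact one_ne_zero h

theorem det_mulRight [FiniteDimensional ℚ D] (x : D) :
    LinearMap.det (mulRight ℚ x) = LinearMap.det (mulLeft ℚ x) := by
  let τ : D →ₗ[ℚ] ℚ := (LinearMap.trace ℚ D).comp (LinearMap.mul ℚ D)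
  let Φ : D →ₗ[ℚ] Dual ℚ D := (LinearMap.mul ℚ D).compr₂ τ
  have hΦ : ∀ a c, Φ a c = τ (a * c) := fun _ _ => rfl
  have hi : Function.Injective Φ := by
    refine (injective_iff_map_eq_zero Φ).2 fun a ha => ?_
    by_contra h0
    have h1 := hΦ a a⁻¹
    rw [ha, mul_inv_cancel₀ h0] at h1
    have h2 : τ 1 = finrank ℚ D := by
      have : LinearMap.mul ℚ D 1 = LinearMap.id := by ext; simp
      simp only [τ, LinearMap.comp_apply, this, LinearMap.trace_id]
    rw [h2, LinearMap.zero_apply] at h1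
    exact (Nat.cast_ne_zero.2 (finrank_pos (R := ℚ) (M := D)).ne') h1.symm
  let Φ' := Φ.linearEquivOfInjective hi Subspace.dual_finrank_eq.symm
  have h3 : (mulLeft ℚ x).dualMap = Φ'.toLinearMap ∘ₗ mulRight ℚ x ∘ₗ Φ'.symm.toLinearMap := by
    refine LinearMap.ext fun f => ?_
    obtain ⟨a, rfl⟩ := Φ'.surjective f
    refine LinearMap.ext fun c => ?_
    simp only [LinearMap.comp_apply, LinearEquiv.coe_coe, LinearEquiv.symm_apply_apply,
      dualMap_apply, mulLeft_apply, mulRight_apply]
    change Φ a (x * c) = Φ (a * x) c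
    rw [hΦ, hΦ, mul_assoc]
  rw [← LinearMap.det_conj (mulRight ℚ x) Φ', ← h3, LinearMap.det_dualMap]

/-- `x⁻¹ I` -/
def mv (I : AddSubgroup D) (x : D) : AddSubgroup D := I.comap (AddMonoidHom.mulLeft x)

@[simp] theorem mem_mv {I : AddSubgroup D} {x y : D} : y ∈ mv I x ↔ x * y ∈ I := Iff.rfl

theorem mv_mv (I : AddSubgroup D) (x y : D) : mv (mv I x) y = mv I (x * y) := by
  ext z; simp [mul_assoc]

theorem mv_one (I : AddSubgroup D) : mv I 1 = I := by ext z; simp

variable {N : ℕ} {b : Basis (Fin N) ℚ D} {O : Subring D}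

theorem closure_eq (c : Fin N → D) :
    AddSubgroup.closure (Set.range c) = (Submodule.span ℤ (Set.range c)).toAddSubgroup :=
  (Submodule.span_int_eq_addSubgroupClosure _).symm

theorem mem_closure_iff {c : Fin N → D} {x : D} :
    x ∈ AddSubgroup.closure (Set.range c) ↔ ∃ z : Fin N → ℤ, ∑ i, z i • c i = x := by
  rw [closure_eq, Submodule.mem_toAddSubgroup, Submodule.mem_span_range_iff_exists_fun]

/-- multiplication by a nonzero element as a linear equivalence -/
def lmul (x : D) (hx : x ≠ 0) : D ≃ₗ[ℚ] D :=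
  LinearEquiv.ofLinearMap (mulLeft ℚ x) (mulLeft ℚ x⁻¹)
    (by ext y; simp [← mul_assoc, mul_inv_cancel₀ hx])
    (by ext y; simp [← mul_assoc, inv_mul_cancel₀ hx])

theorem mv_closure (c : Basis (Fin N) ℚ D) {x : D} (hx : x ≠ 0) :
    mv (AddSubgroup.closure (Set.range c)) x =
      AddSubgroup.closure (Set.range (c.map (lmul x hx).symm)) := by
  ext y
  rw [mem_mv, mem_closure_iff, mem_closure_iff]
  refine exists_congr fun z => ?_
  have : ∑ i, z i • (c.map (lmul x hx).symm) i = x⁻¹ * ∑ i, z i • c i := by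
    rw [Finset.mul_sum]
    refine Finset.sum_congr rfl fun i _ => ?_
    rw [mul_smul_comm]; rfl
  rw [this, inv_mul_eq_iff_eq_mul₀ hx]

theorem exists_basis (hO : O.toAddSubgroup = AddSubgroup.closure (Set.range b))
    {I : AddSubgroup D} (hI : I ∈ Sup O) :
    ∃ c : Basis (Fin N) ℚ D, I = AddSubgroup.closure (Set.range c) := by
  obtain ⟨h1, -, h3⟩ := hI
  set r := O.toAddSubgroup.relIndex I with hr
  have hr0 : (r : D) ≠ 0 := Nat.cast_ne_zero.2 h3
  have hle : I ≤ mv O.toAddSubgroup (r : D) := fun x hx => by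
    rw [mem_mv, ← nsmul_eq_mul]
    exact AddSubgroup.nsmul_relIndex_mem _ hx
  rw [hO, mv_closure b hr0, closure_eq] at hle
  let P : Submodule ℤ D := I.toIntSubmodule
  have hP : P ≤ Submodule.span ℤ (Set.range (b.map (lmul (r : D) hr0).symm)) := hle
  have hfg : P.FG := Submodule.FG.of_le (Submodule.fg_span (Set.finite_range _)) hP
  have : Module.Finite ℤ P := Module.Finite.iff_fg.2 hfg
  let β := Module.finBasis ℤ P
  let c : Fin (finrank ℤ P) → D := fun i => β i
  have hli : LinearIndependent ℤ c := β.linearIndependent.map' P.subtype P.ker_subtype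
  have hsp : Submodule.span ℤ (Set.range c) = P := by
    have := congrArg (Submodule.map P.subtype) β.span_eq
    rwa [Submodule.map_span, ← Set.range_comp, Submodule.map_top, Submodule.range_subtype] at this
  have hli' : LinearIndependent ℚ c := (LinearIndependent.iff_fractionRing ℤ ℚ).1 hli
  have hsp' : ⊤ ≤ Submodule.span ℚ (Set.range c) := by
    rw [← b.span_eq, Submodule.span_le]
    rintro _ ⟨i, rfl⟩
    refine Submodule.span_subset_span ℤ ℚ _ ?_
    rw [hsp]
    exact h1 (hO ▸ AddSubgroup.subset_closure ⟨i, rfl⟩)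
  let c' := Basis.mk hli' hsp'
  have hN : finrank ℤ P = N := by
    have e1 := finrank_eq_card_basis c'
    have e2 := finrank_eq_card_basis b
    rw [Fintype.card_fin] at e1 e2
    rw [← e1, e2]
  refine ⟨c'.reindex (finCongr hN), ?_⟩
  rw [Basis.range_reindex, Basis.coe_mk, ← Submodule.span_int_eq_addSubgroupClosure, hsp]
  rfl

open Classical in
/-- a basis of a superlattice -/
def bas (b : Basis (Fin N) ℚ D) (I : AddSubgroup D) : Basis (Fin N) ℚ D :=
  if h : ∃ c : Basis (Fin N) ℚ D, I = AddSubgroup.closure (Set.range c) then h.choose else b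

theorem bas_spec (hO : O.toAddSubgroup = AddSubgroup.closure (Set.range b))
    {I : AddSubgroup D} (hI : I ∈ Sup O) : I = AddSubgroup.closure (Set.range (bas b I)) := by
  have h := exists_basis hO hI
  unfold bas
  rw [dif_pos h]
  exact h.choose_spec

/-- the index -/
def idx (O : Subring D) (I : AddSubgroup D) : ℕ := O.toAddSubgroup.relIndex I

theorem idx_eq (hO : O.toAddSubgroup = AddSubgroup.closure (Set.range b))
    {I : AddSubgroup D} (hI : I ∈ Sup O) : (idx O I : ℚ) = |(bas b I).det b| :=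
  AddSubgroup.relIndex_eq_abs_det _ _ hI.1 b (bas b I) hO (bas_spec hO hI)

theorem idx_pos {I : AddSubgroup D} (hI : I ∈ Sup O) : 0 < idx O I := Nat.pos_of_ne_zero hI.2.2

theorem le_mv {I : AddSubgroup D} (hI : I ∈ Sup O) {x : D} (hx : x ∈ I) :
    O.toAddSubgroup ≤ mv I x := fun o ho => hI.2.1 x hx o ho

theorem idx_mv (hO : O.toAddSubgroup = AddSubgroup.closure (Set.range b))
    {I : AddSubgroup D} (hI : I ∈ Sup O) {x : D} (hx : x ∈ I) (h0 : x ≠ 0) :
    (idx O (mv I x) : ℚ) = nm x * idx O I := by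
  have h1 : mv I x = AddSubgroup.closure (Set.range ((bas b I).map (lmul x h0).symm)) := by
    rw [← mv_closure, ← bas_spec hO hI]
  have h2 := AddSubgroup.relIndex_eq_abs_det _ _ (le_mv hI hx) b _ hO h1
  rw [idx_eq hO hI, idx, h2, Basis.det_map, LinearEquiv.symm_symm, nm, ← abs_mul,
    ← Basis.det_comp]
  rfl

theorem mv_mem (hO : O.toAddSubgroup = AddSubgroup.closure (Set.range b))
    {I : AddSubgroup D} (hI : I ∈ Sup O) {x : D} (hx : x ∈ I) (h0 : x ≠ 0) : mv I x ∈ Sup O := by
  refine ⟨le_mv hI hx, fun y hy o ho => ?_, ?_⟩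
  · rw [mem_mv, ← mul_assoc]
    exact hI.2.1 _ hy o ho
  · have h := idx_mv hO hI hx h0
    have h2 : (0 : ℚ) < nm x * idx O I := mul_pos (nm_pos h0) (Nat.cast_pos.2 (idx_pos hI))
    rw [← h] at h2
    exact (Nat.cast_pos.1 h2).ne'

theorem self_mem (O : Subring D) : O.toAddSubgroup ∈ Sup O :=
  ⟨le_rfl, fun _ hx _ ho => O.mul_mem hx ho, by simp⟩

theorem one_mem {I : AddSubgroup D} (hI : I ∈ Sup O) : (1 : D) ∈ I := hI.1 O.one_mem

theorem countable_D (b : Basis (Fin N) ℚ D) : Countable D := b.equivFun.injective.countable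

theorem countable_sup (hO : O.toAddSubgroup = AddSubgroup.closure (Set.range b)) :
    Countable (Sup O) := by
  have := countable_D b
  refine Function.Injective.countable (f := fun I : Sup O => (bas b I.1 : Fin N → D)) ?_
  intro I J h
  refine Subtype.ext ?_
  rw [bas_spec hO I.2, bas_spec hO J.2]
  exact congrArg (fun c : Fin N → D => AddSubgroup.closure (Set.range c)) h

theorem finite_sup (hO : O.toAddSubgroup = AddSubgroup.closure (Set.range b)) (M : ℕ) :
    {I | I ∈ Sup O ∧ idx O I ≤ M}.Finite := by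
  have h0 : ((M.factorial : ℕ) : D) ≠ 0 := Nat.cast_ne_zero.2 M.factorial_ne_zero
  set B := mv O.toAddSubgroup ((M.factorial : ℕ) : D) with hB
  have hBS : B ∈ Sup O := mv_mem hO (self_mem O) (natCast_mem O _) h0
  let K := O.toAddSubgroup.addSubgroupOf B
  have : K.FiniteIndex := ⟨hBS.2.2⟩
  have : Finite (AddSubgroup (B ⧸ K)) := Finite.of_injective _ SetLike.coe_injective
  refine Set.Finite.of_finite_image (f := fun I : AddSubgroup D =>
    (I.addSubgroupOf B).map (QuotientAddGroup.mk' K)) (Set.toFinite _) ?_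
  have key : ∀ I ∈ {I | I ∈ Sup O ∧ idx O I ≤ M}, I ≤ B ∧ K ≤ I.addSubgroupOf B := by
    rintro I ⟨h1, h2⟩
    refine ⟨fun x hx => ?_, fun x hx => h1.1 hx⟩
    rw [hB, mem_mv, ← nsmul_eq_mul]
    obtain ⟨k, hk⟩ := Nat.dvd_factorial (idx_pos h1) h2
    rw [hk, mul_comm, mul_smul]
    exact O.toAddSubgroup.nsmul_mem (AddSubgroup.nsmul_relIndex_mem _ hx) k
  intro I hI J hJ h
  have h1 := congrArg (AddSubgroup.comap (QuotientAddGroup.mk' K)) h
  simp only [AddSubgroup.comap_map_eq, QuotientAddGroup.ker_mk'] at h1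
  rw [sup_eq_left.2 (key I hI).2, sup_eq_left.2 (key J hJ).2] at h1
  have h2 := congrArg (AddSubgroup.map B.subtype) h1
  rwa [AddSubgroup.addSubgroupOf_map_subtype, AddSubgroup.addSubgroupOf_map_subtype,
    inf_eq_left.2 (key I hI).1, inf_eq_left.2 (key J hJ).1] at h2

theorem bas_injective (c : Basis (Fin N) ℚ D) :
    Function.Injective fun z : Fin N → ℤ => ∑ i, z i • c i := by
  intro z w h
  have hli : LinearIndependent ℤ c := (LinearIndependent.iff_fractionRing ℤ ℚ).2 c.linearIndependent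
  have := Fintype.linearIndependent_iffₛ.1 hli z w h
  exact funext this

end Crest.Agent.T24.Ab.Unf
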