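import Crest.Agent.T24.AbLat_13

/-!
# Row 24 (helper13): unfolding of the theta integral of a division algebra
-/

set_option autoImplicit false
set_option linter.unusedSectionVars false

noncomputable section

namespace Crest.Agent.T24.Ab.Unf

open Module LinearMap MeasureTheory
open scoped ENNReal
open Crest.Agent.T49.Gau (rho continuous_rho rho_pos)
open Crest.Agent.T49.Lat (cast cast_apply)

variable {D : Type*} [DivisionRing D] [CharZero D] {N : ℕ} {b : Basis (Fin N) ℚ D}
  {O : Subring D}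
variable {A : Type*} [Ring A] [Algebra ℝ A] {j : D →+* A} {e : Basis (Fin N) ℝ A}
variable {E : Type*} [NormedAddCommGroup E] [NormedSpace ℝ E] [FiniteDimensional ℝ E]
  [MeasurableSpace E] [BorelSpace E] {μ : Measure E} [μ.IsAddHaarMeasure] {c : A ≃ₗ[ℝ] E}

theorem j_smul (j : D →+* A) (q : ℚ) (x : D) : j (q • x) = (q : ℝ) • j x := by
  let _ : Module ℚ A := Module.compHom A (Rat.castHom ℝ)
  exact map_rat_smul j q x

theorem repr_j (he : ∀ i, e i = j (b i)) (x : D) (i : Fin N) :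
    e.repr (j x) i = (b.repr x i : ℝ) := by
  conv_lhs => rw [← b.sum_repr x, map_sum]
  simp only [j_smul, ← he]
  rw [e.repr_sum_self]

theorem det_j (he : ∀ i, e i = j (b i)) (f : D →ₗ[ℚ] D) (g : A →ₗ[ℝ] A)
    (h : ∀ x, g (j x) = j (f x)) : LinearMap.det g = ((LinearMap.det f : ℚ) : ℝ) := by
  rw [← LinearMap.det_toMatrix e, ← LinearMap.det_toMatrix b]
  change _ = Rat.castHom ℝ _
  rw [RingHom.map_det]
  congr 1
  ext i k
  rw [RingHom.mapMatrix_apply, Matrix.map_apply, toMatrix_apply, toMatrix_apply, he, h,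
    repr_j he]
  rfl

theorem bdet_j (he : ∀ i, e i = j (b i)) (v : Fin N → D) :
    e.det (fun i => j (v i)) = ((b.det v : ℚ) : ℝ) := by
  rw [Basis.det_apply, Basis.det_apply]
  change _ = Rat.castHom ℝ _
  rw [RingHom.map_det]
  congr 1
  ext i k
  rw [RingHom.mapMatrix_apply, Matrix.map_apply, Basis.toMatrix_apply, Basis.toMatrix_apply,
    repr_j he]
  rfl

/-- the module of `g` -/
def Dl (c : A ≃ₗ[ℝ] E) (g : E) : ℝ := |LinearMap.det (mulLeft ℝ (c.symm g))|

/-- right multiplication -/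
def act (j : D →+* A) (c : A ≃ₗ[ℝ] E) (x : D) : E →ₗ[ℝ] E :=
  c.toLinearMap ∘ₗ mulRight ℝ (j x) ∘ₗ c.symm.toLinearMap

theorem act_apply (x : D) (g : E) : act j c x g = c (c.symm g * j x) := rfl

theorem act_act (x y : D) (g : E) : act j c y (act j c x g) = act j c (x * y) g := by
  simp only [act_apply, LinearEquiv.symm_apply_apply, map_mul, mul_assoc]

theorem act_one (g : E) : act j c 1 g = g := by
  simp only [act_apply, map_one, mul_one, LinearEquiv.apply_symm_apply]

theorem act_smul (x : D) (t : ℝ) (g : E) : act j c x (t • g) = t • act j c x g := map_smul _ _ _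

theorem continuous_act (x : D) : Continuous (act j c x) := (act j c x).continuous_of_finiteDimensional

theorem Dl_nonneg (g : E) : 0 ≤ Dl c g := abs_nonneg _

theorem det_act (he : ∀ i, e i = j (b i)) (x : D) : |LinearMap.det (act j c x)| = (nm x : ℝ) := by
  have : FiniteDimensional ℚ D := b.finiteDimensional_of_finite
  unfold act
  rw [LinearMap.det_conj, det_j he (mulRight ℚ x) _ (fun y => by simp), det_mulRight, nm,
    Rat.cast_abs]

theorem Dl_act (he : ∀ i, e i = j (b i)) (x : D) (g : E) :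
    Dl c (act j c x g) = nm x * Dl c g := by
  unfold Dl
  rw [act_apply, LinearEquiv.symm_apply_apply, mulLeft_mul, LinearMap.det_comp,
    det_j he (mulLeft ℚ x) (mulLeft ℝ (j x)) (fun y => by simp), abs_mul, nm, Rat.cast_abs,
    mul_comm]

theorem finrank_A (e : Basis (Fin N) ℝ A) : finrank ℝ A = N := by
  rw [finrank_eq_card_basis e, Fintype.card_fin]

theorem Dl_smul (e : Basis (Fin N) ℝ A) (t : ℝ) (g : E) : Dl c (t • g) = |t| ^ N * Dl c g := by
  have : Module.Finite ℝ A := Module.Finite.of_basis e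
  unfold Dl
  have h : mulLeft ℝ (c.symm (t • g)) = t • mulLeft ℝ (c.symm g) := by
    ext y; simp
  rw [h, LinearMap.det_smul, finrank_A e, abs_mul, abs_pow]

theorem continuous_Dl (e : Basis (Fin N) ℝ A) : Continuous (Dl c) := by
  let L : E →ₗ[ℝ] Matrix (Fin N) (Fin N) ℝ :=
    (toMatrix e e).toLinearMap ∘ₗ LinearMap.mul ℝ A ∘ₗ c.symm.toLinearMap
  have h : Dl c = fun g => |(L g).det| := by
    funext g
    unfold Dl
    rw [← LinearMap.det_toMatrix e]
    rfl
  rw [h]
  exact (L.continuous_of_finiteDimensional.matrix_det).abs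

theorem Dl_one : Dl c (c 1) = 1 := by
  unfold Dl
  rw [LinearEquiv.symm_apply_apply, mulLeft_one, LinearMap.det_id, abs_one]

/-- the invariant measure -/
def ms (μ : Measure E) (c : A ≃ₗ[ℝ] E) : Measure E :=
  μ.withDensity fun g => ENNReal.ofReal (Dl c g)⁻¹

instance : SFinite (ms μ c) := by unfold ms; infer_instance

theorem lint_ms (e : Basis (Fin N) ℝ A) {F : E → ℝ≥0∞} (hF : Measurable F) :
    ∫⁻ g, F g ∂ms μ c = ∫⁻ g, ENNReal.ofReal (Dl c g)⁻¹ * F g ∂μ :=
  lintegral_withDensity_eq_lintegral_mul _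
    ((continuous_Dl e).measurable.inv.ennreal_ofReal) hF

theorem inv_ms (e : Basis (Fin N) ℝ A) (L : E →ₗ[ℝ] E) {κ : ℝ} (hκ : 0 < κ)
    (h1 : |LinearMap.det L| = κ) (h2 : ∀ g, Dl c (L g) = κ * Dl c g) {F : E → ℝ≥0∞}
    (hF : Measurable F) : ∫⁻ g, F (L g) ∂ms μ c = ∫⁻ g, F g ∂ms μ c := by
  have hL : Measurable L := L.continuous_of_finiteDimensional.measurable
  have hd : LinearMap.det L ≠ 0 := fun h => by rw [h, abs_zero] at h1; exact hκ.ne h1
  have hm : Measurable fun g => ENNReal.ofReal (Dl c g)⁻¹ * F g :=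
    ((continuous_Dl e).measurable.inv.ennreal_ofReal).mul hF
  rw [lint_ms e (F := fun g => F (L g)) (hF.comp hL), lint_ms e hF]
  have h3 : ∀ g, ENNReal.ofReal (Dl c g)⁻¹ * F (L g) =
      ENNReal.ofReal κ * (ENNReal.ofReal (Dl c (L g))⁻¹ * F (L g)) := fun g => by
    rw [← mul_assoc, ← ENNReal.ofReal_mul hκ.le, h2, mul_inv, ← mul_assoc, mul_inv_cancel₀ hκ.ne',
      one_mul]
  rw [lintegral_congr h3, lintegral_const_mul _ (f := fun g => ENNReal.ofReal (Dl c (L g))⁻¹ * F (L g))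
    (hm.comp hL), ← lintegral_map hm hL,
    Measure.map_linearMap_addHaar_eq_smul_addHaar μ hd, lintegral_smul_measure, abs_inv, h1,
    smul_eq_mul, ← mul_assoc, ← ENNReal.ofReal_mul hκ.le, mul_inv_cancel₀ hκ.ne',
    ENNReal.ofReal_one, one_mul]

theorem inv_act (he : ∀ i, e i = j (b i)) {x : D} (hx : x ≠ 0) {F : E → ℝ≥0∞}
    (hF : Measurable F) : ∫⁻ g, F (act j c x g) ∂ms μ c = ∫⁻ g, F g ∂ms μ c :=
  inv_ms e _ (Rat.cast_pos.2 (nm_pos hx)) (det_act he x) (Dl_act he x) hF

theorem inv_smul (e : Basis (Fin N) ℝ A) {t : ℝ} (ht : 0 < t) {F : E → ℝ≥0∞}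
    (hF : Measurable F) : ∫⁻ g, F (t • g) ∂ms μ c = ∫⁻ g, F g ∂ms μ c := by
  refine inv_ms (μ := μ) (c := c) e (t • LinearMap.id) (pow_pos ht N) ?_ (fun g => ?_) hF
  · rw [LinearMap.det_smul, LinearMap.det_id, mul_one, ← c.finrank_eq, finrank_A e, abs_pow,
      abs_of_pos ht]
  · rw [LinearMap.smul_apply, LinearMap.id_apply, Dl_smul e, abs_of_pos ht]

/-! ### the lattice `g I` -/

/-- the covolume -/
def cv (O : Subring D) (c : A ≃ₗ[ℝ] E) (I : AddSubgroup D) (g : E) : ℝ := Dl c g / idx O I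

theorem cv_mv (hO : O.toAddSubgroup = AddSubgroup.closure (Set.range b))
    (he : ∀ i, e i = j (b i)) {I : AddSubgroup D} (hI : I ∈ Sup O) {x : D} (hx : x ∈ I)
    (h0 : x ≠ 0) (g : E) : cv O c (mv I x) (act j c x g) = cv O c I g := by
  have h1 : (idx O (mv I x) : ℝ) = nm x * idx O I := by exact_mod_cast idx_mv hO hI hx h0
  have h2 : (nm x : ℝ) ≠ 0 := (Rat.cast_pos.2 (nm_pos h0)).ne'
  unfold cv
  rw [h1, Dl_act he, mul_div_mul_left _ _ h2]

theorem det_lat (hO : O.toAddSubgroup = AddSubgroup.closure (Set.range b))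
    (he : ∀ i, e i = j (b i)) {I : AddSubgroup D} (hI : I ∈ Sup O) (g : E) :
    |(e.map c).det fun i => act j c (bas b I i) g| = cv O c I g := by
  have h1 : (c.symm ∘ fun i => act j c (bas b I i) g) =
      mulLeft ℝ (c.symm g) ∘ fun i => j (bas b I i) := by
    funext i; simp [act_apply]
  have h2 : |b.det (bas b I)| * idx O I = 1 := by
    rw [idx_eq hO hI, ← abs_mul, Basis.det_mul_det, Basis.det_self, abs_one]
  have h3 : |((b.det (bas b I) : ℚ) : ℝ)| * idx O I = 1 := by exact_mod_cast h2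
  rw [Basis.det_map, h1, Basis.det_comp, bdet_j he, abs_mul, cv, div_eq_mul_inv,
    eq_inv_of_mul_eq_one_left h3]
  rfl

theorem exists_lat (hO : O.toAddSubgroup = AddSubgroup.closure (Set.range b))
    (he : ∀ i, e i = j (b i)) {I : AddSubgroup D} (hI : I ∈ Sup O) {g : E}
    (hg : cv O c I g ≠ 0) : ∃ β : Basis (Fin N) ℝ E, ∀ i, β i = act j c (bas b I i) g := by
  have h1 : (e.map c).det (fun i => act j c (bas b I i) g) ≠ 0 := fun h => by
    have := det_lat (c := c) hO he hI g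
    rw [h, abs_zero] at this
    exact hg this.symm
  obtain ⟨h2, h3⟩ := ((e.map c).is_basis_iff_det).2 (isUnit_iff_ne_zero.2 h1)
  exact ⟨Basis.mk h2 h3.ge, fun i => by rw [Basis.coe_mk]⟩

theorem act_sum (v : Fin N → D) (z : Fin N → ℤ) (g : E) :
    act j c (∑ i, z i • v i) g = ∑ i, z i • act j c (v i) g := by
  simp only [act_apply, map_sum, map_zsmul, Finset.mul_sum, mul_smul_comm]

theorem mink (μ : Measure E) [μ.IsAddHaarMeasure]
    (hO : O.toAddSubgroup = AddSubgroup.closure (Set.range b)) (he : ∀ i, e i = j (b i)) :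
    ∃ R : ℝ, ∀ I ∈ Sup O, ∀ g : E, cv O c I g ≠ 0 → cv O c I g < 2 →
      ∃ x ∈ I, x ≠ 0 ∧ ‖act j c x g‖ ≤ R := by
  have hV : μ (ZSpan.fundamentalDomain (e.map c)) < ⊤ :=
    (ZSpan.fundamentalDomain_isBounded _).measure_lt_top
  have hfin : ENNReal.ofReal 2 * μ (ZSpan.fundamentalDomain (e.map c)) * 2 ^ finrank ℝ E < ⊤ :=
    ENNReal.mul_lt_top (ENNReal.mul_lt_top ENNReal.ofReal_lt_top hV)
      (ENNReal.pow_lt_top ENNReal.ofNat_lt_top)
  have hN : Nonempty (Fin N) := b.index_nonempty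
  have : Nontrivial E := by
    obtain ⟨i⟩ := hN
    exact nontrivial_of_ne _ _ ((e.map c).ne_zero i)
  have h1 : Filter.Tendsto (fun r : ℕ => μ (Metric.closedBall (0 : E) r)) Filter.atTop
      (nhds (μ (⋃ r : ℕ, Metric.closedBall (0 : E) r))) :=
    tendsto_measure_iUnion_atTop fun r s h => Metric.closedBall_subset_closedBall (by exact_mod_cast h)
  rw [Metric.iUnion_closedBall_nat, measure_univ_of_isAddLeftInvariant] at h1
  obtain ⟨r, hr⟩ := (h1.eventually (lt_mem_nhds hfin)).exists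
  refine ⟨r, fun I hI g h0 h2 => ?_⟩
  obtain ⟨β, hβ⟩ := exists_lat hO he hI h0
  have hb : (β : Fin N → E) = fun i => act j c (bas b I i) g := funext hβ
  have h3 : μ (ZSpan.fundamentalDomain β) * 2 ^ finrank ℝ E < μ (Metric.closedBall (0 : E) r) := by
    refine lt_of_le_of_lt ?_ hr
    rw [ZSpan.measure_fundamentalDomain β μ (e.map c), hb, det_lat hO he hI]
    gcongr
  have : Countable (Submodule.span ℤ (Set.range β)).toAddSubgroup :=
    inferInstanceAs (Countable (Submodule.span ℤ (Set.range β)))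
  obtain ⟨⟨y, hy⟩, h4, h5⟩ := exists_ne_zero_mem_lattice_of_measure_mul_two_pow_lt_measure
    (ZSpan.isAddFundamentalDomain' β μ) (fun x hx => by simpa using hx)
    (convex_closedBall (0 : E) r) h3
  obtain ⟨z, hz⟩ := (Submodule.mem_span_range_iff_exists_fun ℤ).1 hy
  have h6 : act j c (∑ i, z i • bas b I i) g = y := by
    rw [act_sum, ← hz]; simp only [hβ]
  refine ⟨∑ i, z i • bas b I i, ?_, fun h => h4 (Subtype.ext ?_), ?_⟩
  · rw [bas_spec hO hI]
    exact mem_closure_iff.2 ⟨z, by rw [← bas_spec hO hI]⟩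
  · change y = 0
    rw [← h6, h, act_apply, map_zero, mul_zero, map_zero]
  · rw [h6]; simpa using h5

theorem finite_short (hO : O.toAddSubgroup = AddSubgroup.closure (Set.range b))
    (he : ∀ i, e i = j (b i)) {I : AddSubgroup D} (hI : I ∈ Sup O) {g : E}
    (hg : cv O c I g ≠ 0) (R : ℝ) : {x | x ∈ I ∧ ‖act j c x g‖ ≤ R}.Finite := by
  obtain ⟨β, hβ⟩ := exists_lat hO he hI hg
  have h1 := ZSpan.setFinite_inter β (Metric.isBounded_closedBall (x := (0 : E)) (r := R))
  have hD : Dl c g ≠ 0 := fun h => hg (by rw [cv, h, zero_div])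
  refine Set.Finite.of_finite_image (f := fun x => act j c x g) (h1.subset ?_) ?_
  · rintro _ ⟨x, ⟨h2, h3⟩, rfl⟩
    refine ⟨by simpa using h3, ?_⟩
    rw [bas_spec hO hI] at h2
    obtain ⟨z, rfl⟩ := mem_closure_iff.1 h2
    refine (Submodule.mem_span_range_iff_exists_fun ℤ).2 ⟨z, ?_⟩
    simp only [act_sum, hβ]
  · intro x _ y _ h
    by_contra hne
    have h2 : act j c (x - y) g = 0 := by
      have h' : act j c x g = act j c y g := h
      rw [act_apply, map_sub, mul_sub, map_sub, ← act_apply, ← act_apply, h', sub_self]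
    have h3 := act_act (j := j) (c := c) (x - y) (x - y)⁻¹ g
    rw [h2, map_zero, mul_inv_cancel₀ (sub_ne_zero.2 hne), act_one] at h3
    have hN : 0 < N := Fin.pos_iff_nonempty.2 b.index_nonempty
    have h4 := Dl_smul (c := c) e 0 g
    rw [zero_smul, abs_zero, zero_pow hN.ne', zero_mul, h3] at h4
    exact hD h4

end Crest.Agent.T24.Ab.Unf
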