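import Crest.Agent.T24.AbUnf_13

/-!
# Row 24 (helper13): continuation of the zeta function of a division algebra
-/

set_option autoImplicit false
set_option linter.unusedSectionVars false

noncomputable section

namespace Crest.Agent.T24.Ab.Unf

open Module LinearMap MeasureTheory
open scoped ENNReal
open Crest.Agent.T49.Gau (rho continuous_rho rho_pos)
open Crest.Agent.T49.Lat (cast cast_apply)

variable {D : Type*} [DivisionRing D] [CharZero D] {N : ℕ} {b : Basis (Fin N) ℚ D}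
  {O : Subring D}
variable {A : Type*} [Ring A] [Algebra ℝ A] {j : D →+* A} {e : Basis (Fin N) ℝ A}
variable {E : Type*} [NormedAddCommGroup E] [NormedSpace ℝ E] [FiniteDimensional ℝ E]
  [MeasurableSpace E] [BorelSpace E] {μ : Measure E} [μ.IsAddHaarMeasure] {c : A ≃ₗ[ℝ] E}

/-- nonzero elements -/
def nzs (I : AddSubgroup D) : Set D := {x | x ∈ I ∧ x ≠ 0}

/-- the ball -/
def bl (R : ℝ) (g : E) : ℝ≥0∞ := (Metric.closedBall (0 : E) R).indicator 1 g

/-- the window on the covolume -/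
def wn (κ : ℝ) : ℝ≥0∞ := (Set.Ico (1 : ℝ) 2).indicator 1 κ

open Classical in
/-- the window -/
def win (O : Subring D) (c : A ≃ₗ[ℝ] E) (I : AddSubgroup D) (g : E) : ℝ≥0∞ :=
  if I ∈ Sup O then wn (cv O c I g) else 0

/-- the number of short vectors -/
def cnt (j : D →+* A) (c : A ≃ₗ[ℝ] E) (R : ℝ) (I : AddSubgroup D) (g : E) : ℝ≥0∞ :=
  ∑' x : D, (nzs I).indicator (fun x => bl R (act j c x g)) x

/-- the weight -/
def ph (O : Subring D) (j : D →+* A) (c : A ≃ₗ[ℝ] E) (R : ℝ) (I : AddSubgroup D) (g : E) : ℝ≥0∞ :=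
  win O c I g * bl R g / cnt j c R I g

theorem meas_bl (R : ℝ) : Measurable (bl R : E → ℝ≥0∞) :=
  measurable_one.indicator measurableSet_closedBall

theorem meas_wn : Measurable wn := measurable_one.indicator measurableSet_Ico

theorem meas_win (e : Basis (Fin N) ℝ A) (I : AddSubgroup D) : Measurable (win O c I) := by
  unfold win
  split_ifs
  · exact meas_wn.comp ((continuous_Dl e).measurable.div_const _)
  · exact measurable_const

theorem meas_sum (b : Basis (Fin N) ℚ D) (I : AddSubgroup D) {F : E → ℝ≥0∞} (hF : Measurable F) :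
    Measurable fun g => ∑' x : D, (nzs I).indicator (fun x => F (act j c x g)) x := by
  have := countable_D b
  refine Measurable.tsum fun x => ?_
  by_cases h : x ∈ nzs I
  · simp only [Set.indicator_of_mem h]
    exact hF.comp (continuous_act x).measurable
  · simp only [Set.indicator_of_notMem h]
    exact measurable_const

theorem meas_ph (b : Basis (Fin N) ℚ D) (e : Basis (Fin N) ℝ A) (R : ℝ) (I : AddSubgroup D) :
    Measurable (ph O j c R I) :=
  ((meas_win e I).mul (meas_bl R)).div (meas_sum b I (meas_bl R))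

theorem cnt_mv (R : ℝ) (I : AddSubgroup D) {x : D} (hx : x ≠ 0) (g : E) :
    cnt j c R (mv I x) (act j c x g) = cnt j c R I g := by
  unfold cnt
  rw [← (Equiv.mulLeft₀ x hx).tsum_eq fun y => (nzs I).indicator (fun x => bl R (act j c x g)) y]
  refine tsum_congr fun y => ?_
  have h : y ∈ nzs (mv I x) ↔ x * y ∈ nzs I := by simp [nzs, hx]
  rw [Equiv.mulLeft₀_apply]
  by_cases hy : x * y ∈ nzs I
  · rw [Set.indicator_of_mem hy, Set.indicator_of_mem (h.2 hy), act_act]
  · rw [Set.indicator_of_notMem hy, Set.indicator_of_notMem (mt h.1 hy)]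

theorem win_mv (hO : O.toAddSubgroup = AddSubgroup.closure (Set.range b))
    (he : ∀ i, e i = j (b i)) {I : AddSubgroup D} (hI : I ∈ Sup O) {x : D} (hx : x ∈ nzs I)
    (g : E) : win O c (mv I x) (act j c x g) = win O c I g := by
  unfold win
  rw [if_pos hI, if_pos (mv_mem hO hI hx.1 hx.2), cv_mv hO he hI hx.1 hx.2]

theorem win_ne {I : AddSubgroup D} {g : E} (h : win O c I g ≠ 0) :
    I ∈ Sup O ∧ 1 ≤ cv O c I g ∧ cv O c I g < 2 := by
  unfold win at h
  split_ifs at h with h1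
  · exact ⟨h1, (Set.mem_of_indicator_ne_zero h : cv O c I g ∈ Set.Ico (1 : ℝ) 2)⟩
  · exact absurd rfl h

theorem win_le (I : AddSubgroup D) (g : E) : win O c I g ≤ 1 := by
  unfold win
  split_ifs
  · exact Set.indicator_le_self' (fun _ _ => zero_le_one) _
  · exact zero_le_one

theorem cnt_ne_top (hO : O.toAddSubgroup = AddSubgroup.closure (Set.range b))
    (he : ∀ i, e i = j (b i)) {I : AddSubgroup D} (hI : I ∈ Sup O) {g : E}
    (hg : cv O c I g ≠ 0) (R : ℝ) : cnt j c R I g ≠ ⊤ := by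
  unfold cnt
  rw [tsum_eq_sum (s := (finite_short hO he hI hg R).toFinset) ?_]
  · refine ENNReal.sum_ne_top.2 fun x _ => ne_top_of_le_ne_top ENNReal.one_ne_top ?_
    refine Set.indicator_apply_le' (fun _ => ?_) (fun _ => zero_le_one)
    exact Set.indicator_le_self' (fun _ _ => zero_le_one) _
  · intro x hx
    rw [Set.Finite.mem_toFinset] at hx
    refine Set.indicator_apply_eq_zero.2 fun h => Set.indicator_of_notMem (fun h' => hx ⟨h.1, ?_⟩) _
    simpa using h'

theorem one_le_cnt {R : ℝ} {I : AddSubgroup D} {g : E} {x : D} (hx : x ∈ nzs I)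
    (h : ‖act j c x g‖ ≤ R) : 1 ≤ cnt j c R I g := by
  refine le_trans ?_ (ENNReal.le_tsum x)
  rw [Set.indicator_of_mem hx, bl, Set.indicator_of_mem (by simpa using h)]
  rfl

/-- the Minkowski property of the radius -/
def Mk (O : Subring D) (j : D →+* A) (c : A ≃ₗ[ℝ] E) (R : ℝ) : Prop :=
  ∀ I ∈ Sup O, ∀ g : E, cv O c I g ≠ 0 → cv O c I g < 2 → ∃ x ∈ I, x ≠ 0 ∧ ‖act j c x g‖ ≤ R

theorem sum_ph (hO : O.toAddSubgroup = AddSubgroup.closure (Set.range b))
    (he : ∀ i, e i = j (b i)) {R : ℝ} (hR : Mk O j c R) {I : AddSubgroup D} (hI : I ∈ Sup O)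
    (g : E) :
    ∑' x : D, (nzs I).indicator (fun x => ph O j c R (mv I x) (act j c x g)) x = win O c I g := by
  have h1 : ∀ x : D, (nzs I).indicator (fun x => ph O j c R (mv I x) (act j c x g)) x =
      win O c I g * (cnt j c R I g)⁻¹ * (nzs I).indicator (fun x => bl R (act j c x g)) x := by
    intro x
    by_cases hx : x ∈ nzs I
    · rw [Set.indicator_of_mem hx, Set.indicator_of_mem hx, ph, win_mv hO he hI hx,
        cnt_mv R I hx.2, div_eq_mul_inv, mul_right_comm]
    · rw [Set.indicator_of_notMem hx, Set.indicator_of_notMem hx, mul_zero]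
  rw [tsum_congr h1, ENNReal.tsum_mul_left]
  by_cases hw : win O c I g = 0
  · rw [hw, zero_mul, zero_mul]
  obtain ⟨-, h2, h3⟩ := win_ne hw
  have h4 : cv O c I g ≠ 0 := by linarith
  obtain ⟨x, h5, h6, h7⟩ := hR I hI g h4 h3
  have h8 : cnt j c R I g ≠ 0 := (lt_of_lt_of_le zero_lt_one (one_le_cnt ⟨h5, h6⟩ h7)).ne'
  change win O c I g * (cnt j c R I g)⁻¹ * cnt j c R I g = _
  rw [mul_assoc, ENNReal.inv_mul_cancel h8 (cnt_ne_top hO he hI h4 R), mul_one]

theorem ph_eq_zero {R : ℝ} {I : AddSubgroup D} (hI : I ∉ Sup O) (g : E) : ph O j c R I g = 0 := by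
  rw [ph, win, if_neg hI, zero_mul, ENNReal.zero_div]

open Classical in
/-- the involution `(I, x) ↦ (x⁻¹ I, x⁻¹)` -/
def sw (p : AddSubgroup D × D) : AddSubgroup D × D := if p.2 = 0 then p else (mv p.1 p.2, p.2⁻¹)

theorem sw_sw : Function.Involutive (sw : AddSubgroup D × D → _) := by
  rintro ⟨I, x⟩
  by_cases hx : x = 0
  · simp [sw, hx]
  · simp [sw, hx, mv_mv, mv_one]

/-- **unfolding** -/
theorem unfold (hO : O.toAddSubgroup = AddSubgroup.closure (Set.range b))
    (he : ∀ i, e i = j (b i)) {R : ℝ} (hR : Mk O j c R) {F : E → ℝ≥0∞} (hF : Measurable F) :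
    ∑' I : Sup O, ∫⁻ g, ph O j c R I g *
        ∑' x : D, (nzs I.1).indicator (fun x => F (act j c x g)) x ∂ms μ c =
      ∑' I : Sup O, ∫⁻ g, win O c I g * F g ∂ms μ c := by
  have := countable_D b
  let h : AddSubgroup D × D → ℝ≥0∞ := fun p =>
    (nzs p.1).indicator (fun x => ∫⁻ g, ph O j c R p.1 g * F (act j c x g) ∂ms μ c) p.2
  let k : AddSubgroup D × D → ℝ≥0∞ := fun p =>
    (Sup O).indicator (fun I => (nzs I).indicator
      (fun x => ∫⁻ g, ph O j c R (mv I x) (act j c x g) * F g ∂ms μ c) p.2) p.1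
  have h1 : ∀ I : AddSubgroup D, ∫⁻ g, ph O j c R I g *
      ∑' x : D, (nzs I).indicator (fun x => F (act j c x g)) x ∂ms μ c = ∑' x, h (I, x) := by
    intro I
    simp only [← ENNReal.tsum_mul_left]
    rw [lintegral_tsum]
    · refine tsum_congr fun x => ?_
      by_cases hx : x ∈ nzs I
      · simp only [h, Set.indicator_of_mem hx]
      · simp only [h, Set.indicator_of_notMem hx, mul_zero, lintegral_zero]
    · intro x
      refine ((meas_ph b e R I).mul ?_).aemeasurable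
      by_cases hx : x ∈ nzs I
      · simp only [Set.indicator_of_mem hx]
        exact hF.comp (continuous_act x).measurable
      · simp only [Set.indicator_of_notMem hx]
        exact measurable_const
  have h2 : ∀ I : Sup O, ∫⁻ g, win O c I g * F g ∂ms μ c = ∑' x, k (I, x) := by
    intro I
    simp only [← sum_ph hO he hR I.2, ← ENNReal.tsum_mul_right]
    rw [lintegral_tsum]
    · refine tsum_congr fun x => ?_
      by_cases hx : x ∈ nzs I.1
      · simp only [k, Set.indicator_of_mem hx, Set.indicator_of_mem I.2]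
      · simp only [k, Set.indicator_of_notMem hx, zero_mul, lintegral_zero,
          Set.indicator_of_mem I.2]
    · intro x
      refine (Measurable.mul ?_ hF).aemeasurable
      by_cases hx : x ∈ nzs I.1
      · simp only [Set.indicator_of_mem hx]
        exact (meas_ph b e R _).comp (continuous_act x).measurable
      · simp only [Set.indicator_of_notMem hx]
        exact measurable_const
  have h3 : ∀ p, h (sw p) = k p := by
    rintro ⟨I, x⟩
    by_cases hx : x = 0
    · have : ∀ J : AddSubgroup D, (0 : D) ∉ nzs J := fun J h => h.2 rfl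
      simp only [sw, hx, if_true, h, k, Set.indicator_of_notMem (this _)]
      simp
    simp only [sw, hx, if_false, h, k]
    by_cases hI : I ∈ Sup O ∧ x ∈ I
    · have h4 : x⁻¹ ∈ nzs (mv I x) := ⟨by simp [hx, one_mem hI.1], inv_ne_zero hx⟩
      rw [Set.indicator_of_mem h4, Set.indicator_of_mem hI.1,
        Set.indicator_of_mem (show x ∈ nzs I from ⟨hI.2, hx⟩),
        ← inv_act (μ := μ) he hx (F := fun g => ph O j c R (mv I x) g * F (act j c x⁻¹ g))
          ((meas_ph b e R _).mul (hF.comp (continuous_act x⁻¹).measurable))]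
      refine lintegral_congr fun g => ?_
      simp only [act_act, mul_inv_cancel₀ hx, act_one]
    · have h5 : (Sup O).indicator (fun I => (nzs I).indicator
          (fun x => ∫⁻ g, ph O j c R (mv I x) (act j c x g) * F g ∂ms μ c) x) I = 0 :=
        Set.indicator_apply_eq_zero.2 fun h6 =>
          Set.indicator_of_notMem (fun h7 => hI ⟨h6, h7.1⟩) _
      rw [h5]
      refine Set.indicator_apply_eq_zero.2 fun h6 => ?_
      have h7 : mv I x ∉ Sup O := fun h8 => by
        have h9 := mv_mem hO h8 h6.1 h6.2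
        have h10 : (x : D) ∈ mv (mv I x) x⁻¹ := by
          rw [mem_mv, inv_mul_cancel₀ hx]; exact one_mem h8
        rw [mv_mv, mul_inv_cancel₀ hx, mv_one] at h9 h10
        exact hI ⟨h9, h10⟩
      simp only [ph_eq_zero h7, zero_mul, lintegral_zero]
  rw [tsum_congr fun I : Sup O => h1 I, tsum_congr h2,
    tsum_subtype_eq_of_support_subset (f := fun I => ∑' x, h (I, x)),
    tsum_subtype_eq_of_support_subset (f := fun I => ∑' x, k (I, x)),
    ← ENNReal.tsum_prod, ← ENNReal.tsum_prod, ← sw_sw.toPerm.tsum_eq]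
  · exact tsum_congr h3
  · intro I hI
    by_contra h4
    exact hI (by simp only [k, Set.indicator_of_notMem h4, tsum_zero])
  · intro I hI
    by_contra h4
    refine hI ?_
    simp [h, ph_eq_zero h4]

/-! ### the measure on lattices -/

variable {H : Type*} [NormedAddCommGroup H] [InnerProductSpace ℝ H] [FiniteDimensional ℝ H]
  [MeasurableSpace H] [BorelSpace H] {Q : E →ₗ[ℝ] H}

/-- the basis of the lattice `g I` -/
def tup (b : Basis (Fin N) ℚ D) (j : D →+* A) (c : A ≃ₗ[ℝ] E) (Q : E →ₗ[ℝ] H) (I : AddSubgroup D)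
    (g : E) : Fin N → H := fun i => Q (act j c (bas b I i) g)

theorem continuous_tup (I : AddSubgroup D) : Continuous (tup b j c Q I) :=
  continuous_pi fun _ => Q.continuous_of_finiteDimensional.comp (continuous_act _)

/-- the measure on lattices -/
def nu (μ : Measure E) (b : Basis (Fin N) ℚ D) (O : Subring D) (j : D →+* A) (c : A ≃ₗ[ℝ] E)
    (Q : E →ₗ[ℝ] H) (R : ℝ) : Measure (Fin N → H) :=
  Measure.sum fun I : Sup O => ((ms μ c).withDensity (ph O j c R I)).map (tup b j c Q I)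

theorem lint_nu (e : Basis (Fin N) ℝ A) (R : ℝ) {G : (Fin N → H) → ℝ≥0∞} (hG : Measurable G) :
    ∫⁻ ω, G ω ∂nu μ b O j c Q R =
      ∑' I : Sup O, ∫⁻ g, ph O j c R I g * G (tup b j c Q I g) ∂ms μ c := by
  unfold nu
  rw [lintegral_sum_measure]
  refine tsum_congr fun I => ?_
  rw [lintegral_map hG (continuous_tup _).measurable,
    lintegral_withDensity_eq_lintegral_mul _ (meas_ph b e R _)
      (g := fun g => G (tup b j c Q I g)) (hG.comp (continuous_tup _).measurable)]
  rfl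

theorem ph_ne {R : ℝ} {I : AddSubgroup D} {g : E} (h : ph O j c R I g ≠ 0) :
    I ∈ Sup O ∧ 1 ≤ cv O c I g ∧ ‖g‖ ≤ R := by
  have h1 : win O c I g * bl R g ≠ 0 := fun h0 => h (by rw [ph, h0, ENNReal.zero_div])
  obtain ⟨h2, h3, -⟩ := win_ne (left_ne_zero_of_mul h1)
  have h4 : g ∈ Metric.closedBall (0 : E) R := Set.mem_of_indicator_ne_zero (right_ne_zero_of_mul h1)
  exact ⟨h2, h3, by simpa using h4⟩

theorem idx_le {I : AddSubgroup D} (hI : I ∈ Sup O) {g : E} (h : 1 ≤ cv O c I g) :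
    (idx O I : ℝ) ≤ Dl c g := by
  have h1 : (0 : ℝ) < idx O I := Nat.cast_pos.2 (idx_pos hI)
  rwa [cv, le_div_iff₀ h1, one_mul] at h

theorem one_le_Dl {I : AddSubgroup D} (hI : I ∈ Sup O) {g : E} (h : 1 ≤ cv O c I g) :
    1 ≤ Dl c g := le_trans (Nat.one_le_cast.2 (idx_pos hI)) (idx_le hI h)

theorem ph_le (R : ℝ) (I : AddSubgroup D) (g : E) :
    ENNReal.ofReal (Dl c g)⁻¹ * ph O j c R I g ≤ bl R g := by
  by_cases h : ph O j c R I g = 0
  · rw [h, mul_zero]; exact zero_le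
  obtain ⟨h1, h2, h3⟩ := ph_ne h
  have h4 : 1 ≤ cnt j c R I g :=
    one_le_cnt (x := 1) ⟨one_mem h1, one_ne_zero⟩ (by rwa [act_one])
  have h5 : ENNReal.ofReal (Dl c g)⁻¹ ≤ 1 :=
    ENNReal.ofReal_le_one.2 (inv_le_one_of_one_le₀ (one_le_Dl h1 h2))
  calc _ ≤ 1 * (1 * bl R g / 1) := by
        unfold ph
        gcongr
        exact win_le I g
    _ = _ := by simp

theorem finite_supp (hO : O.toAddSubgroup = AddSubgroup.closure (Set.range b))
    (e : Basis (Fin N) ℝ A) (R : ℝ) : {I | ∃ g, ph O j c R I g ≠ 0}.Finite := by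
  obtain ⟨M, hM⟩ := (isCompact_closedBall (0 : E) R).bddAbove_image
    (continuous_Dl (c := c) e).continuousOn
  refine (finite_sup hO ⌈M⌉₊).subset ?_
  rintro I ⟨g, hg⟩
  obtain ⟨h1, h2, h3⟩ := ph_ne hg
  refine ⟨h1, ?_⟩
  have h4 : Dl c g ≤ M := hM ⟨g, by simpa using h3, rfl⟩
  exact_mod_cast ((idx_le h1 h2).trans h4).trans (Nat.le_ceil M)

theorem finite_nu (hO : O.toAddSubgroup = AddSubgroup.closure (Set.range b))
    (e : Basis (Fin N) ℝ A) (R : ℝ) : IsFiniteMeasure (nu μ b O j c Q R) := by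
  refine ⟨?_⟩
  rw [← lintegral_one, lint_nu e R measurable_const]
  have hf : {I : Sup O | ∃ g, ph O j c R I g ≠ 0}.Finite :=
    Set.Finite.preimage (f := Subtype.val) (s := {I | ∃ g, ph O j c R I g ≠ 0})
      Subtype.val_injective.injOn (finite_supp (j := j) (c := c) hO e R)
  rw [tsum_eq_sum (s := hf.toFinset) ?_]
  · refine ENNReal.sum_lt_top.2 fun I _ => ?_
    simp only [mul_one]
    rw [lint_ms e (meas_ph b e R _)]
    refine lt_of_le_of_lt (lintegral_mono (g := bl R) fun g => ph_le (O := O) (j := j) R I.1 g) ?_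
    exact (lintegral_indicator_one measurableSet_closedBall).trans_lt measure_closedBall_lt_top
  · intro I hI
    have : ∀ g, ph O j c R I g = 0 := fun g => by
      by_contra h
      exact hI (hf.mem_toFinset.2 ⟨g, h⟩)
    simp [this]

theorem lc_tup (I : AddSubgroup D) (g : E) (y : Fin N → ℝ) :
    Fintype.linearCombination ℝ (tup b j c Q I g) y = Q (∑ i, y i • act j c (bas b I i) g) := by
  rw [Fintype.linearCombination_apply, map_sum]
  simp only [map_smul, tup]

theorem bounds_one (hO : O.toAddSubgroup = AddSubgroup.closure (Set.range b))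
    (he : ∀ i, e i = j (b i)) (hQ : Function.Injective Q) (R : ℝ) {I : AddSubgroup D}
    (hI : I ∈ Sup O) : ∃ a : ℝ, 0 < a ∧ ∃ a' : ℝ, ∀ g : E, ‖g‖ ≤ R → 1 ≤ Dl c g →
      ∀ y : Fin N → ℝ, a * ‖y‖ ≤ ‖Fintype.linearCombination ℝ (tup b j c Q I g) y‖ ∧
        ‖Fintype.linearCombination ℝ (tup b j c Q I g) y‖ ≤ a' * ‖y‖ := by
  let f : E × (Fin N → ℝ) → ℝ := fun p => ‖Fintype.linearCombination ℝ (tup b j c Q I p.1) p.2‖
  have hf : Continuous f := by
    simp only [f, Fintype.linearCombination_apply]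
    refine (continuous_finsetSum _ fun i _ => ?_).norm
    exact ((continuous_apply i).comp continuous_snd).smul
      ((continuous_apply i).comp ((continuous_tup I).comp continuous_fst))
  have hK : IsCompact ((Metric.closedBall (0 : E) R ∩ {g | 1 ≤ Dl c g}) ×ˢ
      Metric.sphere (0 : Fin N → ℝ) 1) :=
    ((isCompact_closedBall _ _).inter_right
      (isClosed_le continuous_const (continuous_Dl e))).prod (isCompact_sphere _ _)
  obtain ⟨a, ha, h1⟩ := hK.exists_forall_le' hf.continuousOn (a := 0) (by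
    rintro ⟨g, y⟩ ⟨⟨-, h2⟩, h3⟩
    have h4 : cv O c I g ≠ 0 :=
      (div_pos (lt_of_lt_of_le zero_lt_one h2) (Nat.cast_pos.2 (idx_pos hI))).ne'
    obtain ⟨β, hβ⟩ := exists_lat hO he hI h4
    refine norm_pos_iff.2 fun h5 => ?_
    rw [lc_tup, map_eq_zero_iff Q hQ] at h5
    simp only [← hβ] at h5
    have h6 : y = 0 := funext (Fintype.linearIndependent_iff.1 β.linearIndependent y h5)
    simp [h6] at h3)
  obtain ⟨a', h2⟩ := hK.bddAbove_image hf.continuousOn
  refine ⟨a, ha, a', fun g h3 h4 y => ?_⟩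
  by_cases hy : y = 0
  · simp [hy]
  have h5 : 0 < ‖y‖ := norm_pos_iff.2 hy
  have h6 : (g, ‖y‖⁻¹ • y) ∈ (Metric.closedBall (0 : E) R ∩ {g | 1 ≤ Dl c g}) ×ˢ
      Metric.sphere (0 : Fin N → ℝ) 1 :=
    ⟨⟨by simpa using h3, h4⟩, by simp [norm_smul, h5.ne']⟩
  have h7 : f (g, ‖y‖⁻¹ • y) = ‖y‖⁻¹ * ‖Fintype.linearCombination ℝ (tup b j c Q I g) y‖ := by
    simp only [f, map_smul, norm_smul, norm_inv, norm_norm]
  have h8 := h1 _ h6
  have h9 := h2 ⟨_, h6, rfl⟩
  rw [h7] at h8 h9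
  rw [le_inv_mul_iff₀ h5] at h8
  rw [inv_mul_le_iff₀ h5] at h9
  exact ⟨by rwa [mul_comm], by rwa [mul_comm]⟩

theorem bounds (hO : O.toAddSubgroup = AddSubgroup.closure (Set.range b))
    (he : ∀ i, e i = j (b i)) (hQ : Function.Injective Q) (R : ℝ) :
    ∃ a a' : ℝ, 0 < a ∧ ∀ᵐ ω ∂nu μ b O j c Q R, ∀ y : Fin N → ℝ,
      a * ‖y‖ ≤ ‖Fintype.linearCombination ℝ ω y‖ ∧
        ‖Fintype.linearCombination ℝ ω y‖ ≤ a' * ‖y‖ := by
  have hf : {I : Sup O | ∃ g, ph O j c R I g ≠ 0}.Finite :=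
    Set.Finite.preimage (f := Subtype.val) (s := {I | ∃ g, ph O j c R I g ≠ 0})
      Subtype.val_injective.injOn (finite_supp (j := j) (c := c) hO e R)
  choose a ha a' h using fun I : Sup O => bounds_one (c := c) hO he hQ R I.2
  obtain ⟨M, hM⟩ := (hf.image fun I => (a I)⁻¹).bddAbove
  obtain ⟨M', hM'⟩ := (hf.image a').bddAbove
  refine ⟨(max M 1)⁻¹, M', by positivity, ?_⟩
  have hc : IsClosed {ω : Fin N → H | ∀ y : Fin N → ℝ,
      (max M 1)⁻¹ * ‖y‖ ≤ ‖Fintype.linearCombination ℝ ω y‖ ∧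
        ‖Fintype.linearCombination ℝ ω y‖ ≤ M' * ‖y‖} := by
    rw [Set.ofPred_forall]
    refine isClosed_iInter fun y => ?_
    have : Continuous fun ω : Fin N → H => ‖Fintype.linearCombination ℝ ω y‖ := by
      simp only [Fintype.linearCombination_apply]
      fun_prop
    exact (isClosed_le continuous_const this).inter (isClosed_le this continuous_const)
  unfold nu
  refine Measure.ae_sum_iff' hc.measurableSet |>.2 fun I => ?_
  rw [ae_map_iff (continuous_tup _).measurable.aemeasurable hc.measurableSet,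
    ae_withDensity_iff (meas_ph b e R _)]
  refine Filter.Eventually.of_forall fun g hg y => ?_
  obtain ⟨h1, h2, h3⟩ := ph_ne hg
  obtain ⟨h4, h5⟩ := h I g h3 (one_le_Dl h1 h2) y
  have h6 : (a I)⁻¹ ≤ max M 1 := (hM ⟨I, ⟨g, hg⟩, rfl⟩).trans (le_max_left _ _)
  have h7 : a' I ≤ M' := hM' ⟨I, ⟨g, hg⟩, rfl⟩
  refine ⟨le_trans ?_ h4, h5.trans ?_⟩
  · exact mul_le_mul_of_nonneg_right (inv_le_of_inv_le₀ (ha I) h6) (norm_nonneg _)
  · exact mul_le_mul_of_nonneg_right h7 (norm_nonneg _)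

theorem sum_lat (hO : O.toAddSubgroup = AddSubgroup.closure (Set.range b))
    {I : AddSubgroup D} (hI : I ∈ Sup O) (f : D → ℝ≥0∞) :
    ∑' z : {z : Fin N → ℤ // z ≠ 0}, f (∑ i, z.1 i • bas b I i) =
      ∑' x : D, (nzs I).indicator f x := by
  rw [← tsum_subtype]
  have h0 : ∀ z : Fin N → ℤ, z ≠ 0 → ∑ i, z i • bas b I i ∈ nzs I := fun z hz => by
    refine ⟨?_, fun h => hz (bas_injective (bas b I) ?_)⟩
    · have := (mem_closure_iff (c := bas b I)).2 ⟨z, rfl⟩
      rwa [← bas_spec hO hI] at this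
    · simpa using h
  let k : {z : Fin N → ℤ // z ≠ 0} → nzs I := fun z => ⟨_, h0 z.1 z.2⟩
  have hk : Function.Bijective k := by
    refine ⟨fun z w h => Subtype.ext (bas_injective (bas b I) (congrArg Subtype.val h)), ?_⟩
    rintro ⟨x, h1, h2⟩
    have h3 := h1
    rw [bas_spec hO hI] at h3
    obtain ⟨z, hz⟩ := mem_closure_iff.1 h3
    exact ⟨⟨z, fun h => h2 (by rw [← hz, h]; simp)⟩, Subtype.ext hz⟩
  exact (Equiv.ofBijective k hk).tsum_eq fun x => f x

theorem meas_rho (t : ℝ) : Measurable fun g : E => ENNReal.ofReal (rho (t • Q g)) :=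
  (continuous_rho.comp (Q.continuous_of_finiteDimensional.const_smul t)).measurable.ennreal_ofReal

theorem theta_nu (hO : O.toAddSubgroup = AddSubgroup.closure (Set.range b))
    (he : ∀ i, e i = j (b i)) {R : ℝ} (hR : Mk O j c R) {t : ℝ} (ht : 0 < t) :
    ∫⁻ ω, ∑' x : {x : Fin N → ℤ // x ≠ 0},
        ENNReal.ofReal (rho (t • Fintype.linearCombination ℝ ω (cast x.1))) ∂nu μ b O j c Q R =
      ∑' I : Sup O, ∫⁻ g, win O c I (t⁻¹ • g) * ENNReal.ofReal (rho (Q g)) ∂ms μ c := by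
  rw [lint_nu e]
  · have h1 : ∀ (I : Sup O) (g : E), ∑' x : {x : Fin N → ℤ // x ≠ 0}, ENNReal.ofReal
        (rho (t • Fintype.linearCombination ℝ (tup b j c Q I g) (cast x.1))) =
        ∑' x : D, (nzs I.1).indicator (fun x => ENNReal.ofReal (rho (t • Q (act j c x g)))) x := by
      intro I g
      rw [← sum_lat hO I.2]
      refine tsum_congr fun z => ?_
      rw [lc_tup, act_sum]
      simp only [cast_apply, Int.cast_smul_eq_zsmul]
    simp only [h1]
    rw [unfold hO he hR (meas_rho t)]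
    refine tsum_congr fun I => ?_
    rw [← inv_smul e (inv_pos.2 ht) (F := fun g => win O c I g * ENNReal.ofReal (rho (t • Q g)))
      ((meas_win e _).mul (meas_rho t))]
    refine lintegral_congr fun g => ?_
    rw [map_smul, smul_smul, mul_inv_cancel₀ ht.ne', one_smul]
  · refine Measurable.tsum fun x => ?_
    refine (continuous_rho.comp (Continuous.const_smul ?_ t)).measurable.ennreal_ofReal
    simp only [Fintype.linearCombination_apply]
    fun_prop

theorem inner_mel (hN : 0 < N) {s : ℝ} (hs : 0 < s) {κ : ℝ} (hκ : 0 ≤ κ) :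
    ∫⁻ t in Set.Ioi (0 : ℝ), ENNReal.ofReal (t ^ ((N : ℝ) * s - 1)) * wn (t⁻¹ ^ N * κ) =
      ENNReal.ofReal (κ ^ s * ((1 - 2 ^ (-s)) / (N * s))) := by
  rcases hκ.eq_or_lt with rfl | hκ
  · have : wn 0 = 0 := Set.indicator_of_notMem (by simp) _
    simp [this, Real.zero_rpow hs.ne']
  have hN' : (0 : ℝ) < N := Nat.cast_pos.2 hN
  set u := (κ / 2) ^ (N : ℝ)⁻¹ with hu
  set w := κ ^ (N : ℝ)⁻¹ with hw
  have hu0 : 0 < u := by positivity
  have huw : u ≤ w := Real.rpow_le_rpow (by positivity) (by linarith) (by positivity)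
  have h1 : ∀ t ∈ Set.Ioi (0 : ℝ), ENNReal.ofReal (t ^ ((N : ℝ) * s - 1)) * wn (t⁻¹ ^ N * κ) =
      (Set.Ioc u w).indicator (fun t => ENNReal.ofReal (t ^ ((N : ℝ) * s - 1))) t := by
    intro t ht
    have ht' : 0 < t := ht
    have htN : 0 < t ^ N := pow_pos ht' N
    have h2 : t⁻¹ ^ N * κ ∈ Set.Ico (1 : ℝ) 2 ↔ t ∈ Set.Ioc u w := by
      rw [Set.mem_Ico, Set.mem_Ioc, inv_pow, le_inv_mul_iff₀ htN, inv_mul_lt_iff₀ htN, mul_one, hu,
        hw, Real.rpow_inv_lt_iff_of_pos (by positivity) ht'.le hN',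
        Real.le_rpow_inv_iff_of_pos ht'.le hκ.le hN', Real.rpow_natCast, and_comm,
        div_lt_iff₀ two_pos]
    by_cases h3 : t ∈ Set.Ioc u w
    · rw [Set.indicator_of_mem h3, wn, Set.indicator_of_mem (h2.2 h3), Pi.one_apply, mul_one]
    · rw [Set.indicator_of_notMem h3, wn, Set.indicator_of_notMem (mt h2.1 h3), mul_zero]
  have h4 : -1 < (N : ℝ) * s - 1 := by nlinarith [mul_pos hN' hs]
  rw [setLIntegral_congr_fun measurableSet_Ioi h1, lintegral_indicator measurableSet_Ioc,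
    Measure.restrict_restrict measurableSet_Ioc,
    Set.inter_eq_left.2 (show Set.Ioc u w ⊆ Set.Ioi 0 from fun t ht => lt_trans hu0 ht.1),
    ← ofReal_integral_eq_lintegral_ofReal, ← intervalIntegral.integral_of_le huw,
    integral_rpow (Or.inl h4), sub_add_cancel]
  · congr 1
    have e1 : w ^ ((N : ℝ) * s) = κ ^ s := by
      rw [hw, ← Real.rpow_mul hκ.le, ← mul_assoc, inv_mul_cancel₀ hN'.ne', one_mul]
    have e2 : u ^ ((N : ℝ) * s) = κ ^ s * 2 ^ (-s) := by
      rw [hu, ← Real.rpow_mul (by positivity), ← mul_assoc, inv_mul_cancel₀ hN'.ne', one_mul,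
        Real.div_rpow hκ.le zero_le_two, Real.rpow_neg zero_le_two, div_eq_mul_inv]
    rw [e1, e2]; ring
  · exact (intervalIntegral.intervalIntegrable_rpow' h4 (a := u) (b := w)).1
  · refine (ae_restrict_iff' measurableSet_Ioc).2 (Filter.Eventually.of_forall fun t ht => ?_)
    exact Real.rpow_nonneg (lt_trans hu0 ht.1).le _

theorem mel_nu (hO : O.toAddSubgroup = AddSubgroup.closure (Set.range b))
    (he : ∀ i, e i = j (b i)) {R : ℝ} (hR : Mk O j c R) {s : ℝ} (hs : 1 < s) :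
    mel (nu μ b O j c Q R) s =
      ENNReal.ofReal ((1 - 2 ^ (-s)) / (N * s)) * (zeta O s * Gam μ c Q s) := by
  have := countable_sup hO
  have hN : 0 < N := Fin.pos_iff_nonempty.2 b.index_nonempty
  have hs0 : 0 < s := by linarith
  have hw : 0 ≤ (1 - 2 ^ (-s)) / ((N : ℝ) * s) :=
    div_nonneg (sub_nonneg.2 (Real.rpow_le_one_of_one_le_of_nonpos one_le_two (by linarith)))
      (by positivity)
  have hρ : Measurable fun g : E => ENNReal.ofReal (rho (Q g)) := by simpa using meas_rho (Q := Q) 1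
  have hm : ∀ I : Sup O, Measurable fun p : ℝ × E => ENNReal.ofReal (p.1 ^ ((N : ℝ) * s - 1)) *
      (win O c I (p.1⁻¹ • p.2) * ENNReal.ofReal (rho (Q p.2))) := fun I =>
    ((measurable_fst.pow_const _).ennreal_ofReal).mul
      (((meas_win e _).comp (measurable_fst.inv.smul measurable_snd)).mul (hρ.comp measurable_snd))
  have h1 : ∀ t ∈ Set.Ioi (0 : ℝ), ENNReal.ofReal (t ^ ((Fintype.card (Fin N) : ℝ) * s - 1)) *
      ∫⁻ ω, ∑' x : {x : Fin N → ℤ // x ≠ 0},
        ENNReal.ofReal (rho (t • Fintype.linearCombination ℝ ω (cast x.1))) ∂nu μ b O j c Q R =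
      ∑' I : Sup O, ∫⁻ g, ENNReal.ofReal (t ^ ((N : ℝ) * s - 1)) *
        (win O c I (t⁻¹ • g) * ENNReal.ofReal (rho (Q g))) ∂ms μ c := by
    intro t ht
    rw [theta_nu hO he hR ht, ← ENNReal.tsum_mul_left, Fintype.card_fin]
    exact tsum_congr fun I => (lintegral_const_mul' _ _ ENNReal.ofReal_ne_top).symm
  unfold mel
  rw [setLIntegral_congr_fun measurableSet_Ioi h1,
    lintegral_tsum fun I => (hm I).lintegral_prod_right'.aemeasurable, zeta,
    ← ENNReal.tsum_mul_right, ← ENNReal.tsum_mul_left]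
  refine tsum_congr fun I => ?_
  have hi : (0 : ℝ) < idx O I := Nat.cast_pos.2 (idx_pos I.2)
  rw [lintegral_lintegral_swap (hm I).aemeasurable,
    lint_ms e (hm I).lintegral_prod_left', Gam, ← lintegral_const_mul' _ _ ENNReal.ofReal_ne_top,
    ← lintegral_const_mul' _ _ ENNReal.ofReal_ne_top]
  refine lintegral_congr fun g => ?_
  have h2 : ∀ t ∈ Set.Ioi (0 : ℝ), ENNReal.ofReal (t ^ ((N : ℝ) * s - 1)) *
      (win O c I (t⁻¹ • g) * ENNReal.ofReal (rho (Q g))) =
      ENNReal.ofReal (t ^ ((N : ℝ) * s - 1)) * wn (t⁻¹ ^ N * cv O c I g) *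
        ENNReal.ofReal (rho (Q g)) := by
    intro t ht
    have ht' : 0 < t := ht
    rw [win, if_pos I.2, cv, cv, Dl_smul e, abs_of_pos (inv_pos.2 ht'), mul_div_assoc, mul_assoc]
  have h3 : 0 ≤ cv O c I g := div_nonneg (Dl_nonneg g) hi.le
  rw [setLIntegral_congr_fun measurableSet_Ioi h2, lintegral_mul_const' _ _ ENNReal.ofReal_ne_top,
    inner_mel hN hs0 h3, ← ENNReal.ofReal_mul (mul_nonneg (Real.rpow_nonneg h3 _) hw),
    ← ENNReal.ofReal_mul (inv_nonneg.2 (Dl_nonneg g)),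
    ← ENNReal.ofReal_mul (Real.rpow_nonneg (Nat.cast_nonneg _) _), ← ENNReal.ofReal_mul hw]
  congr 1
  change _ = _ * ((idx O I : ℝ) ^ (-s) * (rho (Q g) * Dl c g ^ (s - 1)))
  rw [cv, Real.div_rpow (Dl_nonneg g) hi.le, Real.rpow_neg hi.le,
    Real.rpow_sub_one' (Dl_nonneg g) (by linarith)]
  ring

theorem zeta_ne_zero (O : Subring D) (s : ℝ) : zeta O s ≠ 0 := by
  refine (lt_of_lt_of_le ?_ (ENNReal.le_tsum (⟨_, self_mem O⟩ : Sup O))).ne'
  simp

theorem gam_ne_zero (e : Basis (Fin N) ℝ A) (s : ℝ) : Gam μ c Q s ≠ 0 := by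
  have hm : Measurable fun g : E => ENNReal.ofReal (rho (Q g) * Dl c g ^ (s - 1)) :=
    ((continuous_rho.comp Q.continuous_of_finiteDimensional).measurable.mul
      ((continuous_Dl e).measurable.pow_const _)).ennreal_ofReal
  refine ((lintegral_pos_iff_support hm).2 ?_).ne'
  have ho : IsOpen {g : E | 0 < Dl c g} := isOpen_lt continuous_const (continuous_Dl e)
  refine lt_of_lt_of_le (ho.measure_pos μ ⟨c 1, by simp [Dl_one]⟩) (measure_mono fun g hg => ?_)
  exact (ENNReal.ofReal_pos.2 (mul_pos (rho_pos _) (Real.rpow_pos_of_pos hg _))).ne'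

theorem QE_injective (W₁ W₂ : Type*) (n : ℕ) : Function.Injective (QE W₁ W₂ n) := by
  intro g h hgh
  have key : ∀ p, QE W₁ W₂ n g p = QE W₁ W₂ n h p := fun p => by rw [hgh]
  refine Prod.ext ?_ ?_
  · funext w i k
    exact Complex.ofReal_injective (key (Sum.inl w, i, k))
  · funext w i k
    exact key (Sum.inr w, i, k)

theorem haar_EE (W₁ W₂ : Type*) [Fintype W₁] [Fintype W₂] (n : ℕ) :
    (volume : Measure (EE W₁ W₂ n)).IsAddHaarMeasure := by
  have : (volume : Measure (Fin n → ℂ)).IsAddHaarMeasure := Measure.pi.isAddHaarMeasure _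
  have : (volume : Measure (Fin n → Fin n → ℂ)).IsAddHaarMeasure := Measure.pi.isAddHaarMeasure _
  have : (volume : Measure (Fin n → Fin n → ℝ)).IsAddHaarMeasure := Measure.pi.isAddHaarMeasure _
  have : (volume : Measure (W₁ → Fin n → Fin n → ℝ)).IsAddHaarMeasure :=
    Measure.pi.isAddHaarMeasure _
  have : (volume : Measure (W₂ → Fin n → Fin n → ℂ)).IsAddHaarMeasure :=
    Measure.pi.isAddHaarMeasure _
  exact Measure.prod.instIsAddHaarMeasure volume volume

end Crest.Agent.T24.Ab.Unf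

namespace Crest.Agent.T24.Ab

open Unf MeasureTheory

universe u v

theorem zfStmt (hF : FeStmt.{0, v}) : ZfStmt.{u, v} := by
  intro D _ _ N b O hO W₁ W₂ _ _ n j e he
  have hN : 0 < N := Fin.pos_iff_nonempty.2 b.index_nonempty
  have hN' : (0 : ℝ) < N := Nat.cast_pos.2 hN
  have : Nonempty (Fin N) := b.index_nonempty
  let _ : MeasurableSpace (HH W₁ W₂ n) := borel _
  have : BorelSpace (HH W₁ W₂ n) := ⟨rfl⟩
  have := haar_EE W₁ W₂ n
  obtain ⟨R, hR⟩ := mink (c := cE W₁ W₂ n) volume hO he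
  have := finite_nu (μ := volume) (j := j) (c := cE W₁ W₂ n) (Q := QE W₁ W₂ n) hO e R
  have hpos : ∀ s : ℝ, 1 < s → 0 < (1 - 2 ^ (-s)) / ((N : ℝ) * s) := fun s hs =>
    div_pos (sub_pos.2 (Real.rpow_lt_one_of_one_lt_of_neg one_lt_two (by linarith)))
      (by positivity)
  have hne : ∀ s : ℝ, zeta O s * GamE W₁ W₂ n s ≠ 0 := fun s =>
    mul_ne_zero (zeta_ne_zero O s) (gam_ne_zero e s)
  have hν : nu volume b O j (cE W₁ W₂ n) (QE W₁ W₂ n) R ≠ 0 := fun h => by
    have h1 := mel_nu (μ := volume) (Q := QE W₁ W₂ n) hO he hR one_lt_two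
    rw [h] at h1
    refine mul_ne_zero (ENNReal.ofReal_pos.2 (hpos 2 one_lt_two)).ne' (hne 2) (h1.symm.trans ?_)
    simp [mel]
  obtain ⟨a, a', ha, hb⟩ := bounds (μ := volume) (c := cE W₁ W₂ n) hO he (QE_injective W₁ W₂ n) R
  obtain ⟨Z, h1, h2, h3, h4⟩ := hF (Fin N) (HH W₁ W₂ n) _ hν a a' ha hb
  have hNc : (N : ℂ) ≠ 0 := Nat.cast_ne_zero.2 hN.ne'
  refine ⟨fun s => N * Z s, h1.const_mul _, mul_ne_zero hNc h2, mul_ne_zero hNc h3, fun s hs => ?_⟩
  obtain ⟨h5, h6⟩ := h4 s hs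
  rw [mel_nu hO he hR hs] at h5 h6
  refine ⟨fun h => h5 ?_, hne s, ?_⟩
  · change _ * (zeta O s * GamE W₁ W₂ n s) = _
    rw [h, ENNReal.mul_top (ENNReal.ofReal_pos.2 (hpos s hs)).ne']
  · change (N : ℂ) * Z s = _
    rw [h6, ENNReal.toReal_mul, ENNReal.toReal_ofReal (hpos s hs).le, ← Complex.ofReal_natCast,
      ← Complex.ofReal_mul]
    congr 1
    have : s ≠ 0 := by linarith
    unfold GamE
    field_simp

end Crest.Agent.T24.Ab
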