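import Crest.Agent.T24.NaOrDef_18
import Crest.Agent.T24.NaAbs_56

/-! Row 24, module NA + TW: the elementary facts on an arithmetic system (helper91). -/

set_option autoImplicit false
set_option linter.unusedSectionVars false

noncomputable section

namespace Crest.Agent.T24.Na

open Topology Filter MeasureTheory

universe u v w

namespace A91

/-- uniform continuity of test functions -/
theorem uc {Z : Type*} [AddCommGroup Z] [TopologicalSpace Z] [IsTopologicalAddGroup Z] {F : Z → ℝ}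
    (hF : Cc F) {η : ℝ} (hη : 0 < η) : ∀ᶠ t in 𝓝 (0 : Z), ∀ z, |F (z + t) - F z| ≤ η := by
  let := IsTopologicalAddGroup.rightUniformSpace Z
  have h := hF.2.uniformContinuous_of_continuous hF.1
  have h1 := h (Metric.dist_mem_uniformity hη)
  rw [mem_map, uniformity_eq_comap_nhds_zero', mem_comap] at h1
  obtain ⟨U, hU, h2⟩ := h1
  filter_upwards [hU] with t ht z
  have h3 := h2 (a := (z, z + t)) (by simpa using ht)
  simp only [Set.mem_preimage, Set.mem_ofPred_eq, Real.dist_eq] at h3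
  rw [abs_sub_comm]
  exact h3.le

theorem uc' {Z : Type*} [AddCommGroup Z] [TopologicalSpace Z] [IsTopologicalAddGroup Z] {F : Z → ℝ}
    (hF : Cc F) {η : ℝ} (hη : 0 < η) {I : Type*} {l : Filter I} {x : I → Z} {t : Z}
    (hx : Tendsto x l (𝓝 t)) : ∀ᶠ i in l, ∀ z, |F (z + x i) - F (z + t)| ≤ η := by
  have h : Tendsto (fun i => x i - t) l (𝓝 0) := by simpa using hx.sub_const t
  filter_upwards [h.eventually (uc hF hη)] with i hi z
  have := hi (z + t)
  rwa [show z + t + (x i - t) = z + x i by abel] at this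

theorem uc_int {Z : Type*} [AddCommGroup Z] [TopologicalSpace Z] [IsTopologicalAddGroup Z]
    [LocallyCompactSpace Z] [T2Space Z] [MeasurableSpace Z] [BorelSpace Z] (μ : Measure Z)
    [IsFiniteMeasureOnCompacts μ] {F : Z → ℝ} (hF : Cc F) {η : ℝ} (hη : 0 < η) :
    ∀ᶠ t in 𝓝 (0 : Z), ∫ z, (F (z + t) - F z) ^ 2 ∂μ ≤ η := by
  obtain ⟨K₀, hK₀, h0⟩ := exists_compact_mem_nhds (0 : Z)
  set K : Set Z := tsupport F ∪ (fun p : Z × Z => p.1 - p.2) '' (tsupport F ×ˢ K₀) with hK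
  have hKc : IsCompact K := hF.2.isCompact.union ((hF.2.isCompact.prod hK₀).image (by fun_prop))
  have hm : 0 ≤ μ.real K := measureReal_nonneg
  set δ := min 1 (η / (μ.real K + 1)) with hδ
  have hδ0 : 0 < δ := lt_min one_pos (by positivity)
  filter_upwards [h0, uc hF hδ0] with t ht h
  rw [← setIntegral_eq_integral_of_forall_compl_eq_zero (s := K) fun z hz => ?_]
  · refine (Real.le_norm_self _).trans ((norm_setIntegral_le_of_norm_le_const (C := δ) hKc.measure_lt_top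
      fun z _ => ?_).trans ?_)
    · rw [Real.norm_eq_abs, abs_pow, sq]
      exact (mul_le_mul (h z) ((h z).trans (min_le_left _ _)) (abs_nonneg _) hδ0.le).trans (mul_one _).le
    · calc δ * μ.real K ≤ η / (μ.real K + 1) * (μ.real K + 1) := by
            gcongr
            · exact min_le_right _ _
            · linarith
        _ = η := by field_simp
  · have h1 : F z = 0 := image_eq_zero_of_notMem_tsupport fun h => hz (Or.inl h)
    have h2 : F (z + t) = 0 := image_eq_zero_of_notMem_tsupport fun h =>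
      hz (Or.inr ⟨(z + t, t), ⟨h, ht⟩, by simp⟩)
    simp [h1, h2]

variable {S : Sys.{u, v, w}}

theorem lc_Z (S : Sys.{u, v, w}) : LocallyCompactSpace S.Z :=
  have : LocallyCompactSpace (Mt S.d S.F) := Pi.locallyCompactSpace_of_finite
  inferInstance

theorem sc_Z (S : Sys.{u, v, w}) : SecondCountableTopology S.Z :=
  have : SecondCountableTopology (Mt S.d S.F) :=
    inferInstanceAs (SecondCountableTopology (Fin S.d → Fin S.d → S.F))
  have : SecondCountableTopology (selfAdjoint S.A) :=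
    TopologicalSpace.Subtype.secondCountableTopology _
  inferInstance

/-- the finite part of a point -/
def fin (h : S.Ok) (e : S.X) : S.Z :=
  (⟨S.ε * S.inc e, by
    rw [selfAdjoint.mem_iff, star_mul, h.eps_star, ← h.inc_star, e.2.star_eq, h.eps_comm]⟩, S.ψ e)

theorem tendsto_fin (h : S.Ok) (e : S.X) : Tendsto (fun R => S.pos R e) atTop (𝓝 (fin h e)) := by
  refine (Prod.tendsto_iff _ _).2 ⟨tendsto_subtype_rng.2 ?_, ?_⟩
  · simp only [Sys.pos, h.sc_fst, h.iJ_fst]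
    exact h.rho_tend.mul_const _
  · simp only [Sys.pos, h.sc_snd, h.iJ_snd]
    exact tendsto_const_nhds

theorem pos_add (R : ℕ) (a b : S.X) : S.pos R (a + b) = S.pos R a + S.pos R b := by
  simp only [Sys.pos, map_add]

theorem cj (h : S.Ok) (γ : S.Γ) : ∃ m : S.Z ≃ₜ S.Z, (∀ z, m z = ac (S.ιΓ γ) z) ∧
    ∀ R a, S.pos R (S.cjP γ a) = m (S.pos R a) := by
  refine ⟨(Homeomorph.smul (S.ιΓ γ).1).prodCongr (A56.afH 1 (S.ιΓ γ).2 (S.ιΓ γ).2⁻¹ 0),
    fun z => Prod.ext rfl (by simp [A56.afH, A56.afE, ac]), fun R a => Prod.ext (Subtype.ext ?_) ?_⟩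
  · change ((S.sc R (S.iJ (S.cjP γ a))).1 : S.A) = (((S.ι γ).1 : unitary S.A) : S.A) *
      (S.sc R (S.iJ a)).1 * star (((S.ι γ).1 : unitary S.A) : S.A)
    rw [h.sc_fst, h.sc_fst, h.iJ_fst, h.iJ_fst, h.ι_fst, ← h.inc_star, ← mul_assoc, ← h.rho_comm]
    change S.ρ R * S.inc (_ * a * _) = _
    simp only [map_mul, mul_assoc]
  · have e : (((S.ιΓ γ).2⁻¹ : GL (Fin S.d) S.F) : Mt S.d S.F) =
        S.ψ (star (((γ : S.U₀) : unitary S.B) : S.B)) := by
      rw [← Prod.snd_inv, ← map_inv]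
      exact h.ι_snd _
    change (S.sc R (S.iJ (S.cjP γ a))).2 = ((1 : GL (Fin S.d) S.F) : Mt S.d S.F) *
      (((S.ι γ).2 : Mt S.d S.F) * (S.sc R (S.iJ a)).2 * (((S.ιΓ γ).2⁻¹ : GL (Fin S.d) S.F) : Mt S.d S.F)) + 0
    rw [e, h.sc_snd, h.sc_snd, h.iJ_snd, h.iJ_snd, h.ι_snd, Units.val_one, one_mul, add_zero,
      ← map_mul, ← map_mul]
    rfl

theorem tr (h : S.Ok) (F : S.Z → ℝ) (hF : Cc F) (η : ℝ) (hη : 0 < η) : ∃ n : ℕ, ∀ b ∈ S.L₀, ∃ t : S.Z,
    S.Comp (fun a => a + S.N ^ n • b) (fun z => z + t) ∧ (∀ z, |F (z + t) - F z| ≤ η) ∧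
      ∫ z, (F (z + t) - F z) ^ 2 ∂S.lam ≤ η := by
  have := h.haar
  have := lc_Z S
  have := sc_Z S
  have h1 := (uc hF hη).and (uc_int S.lam hF hη)
  have h2 : IsInducing (Prod.map Subtype.val id : S.Z → S.A × Mt S.d S.F) :=
    IsInducing.subtypeVal.prodMap IsInducing.id
  rw [h2.nhds_eq_comap, Filter.Eventually, mem_comap] at h1
  obtain ⟨U, hU, h3⟩ := h1
  obtain ⟨n, hn⟩ := h.L_small U hU
  refine ⟨n, fun b hb => ⟨fin h (S.N ^ n • b), fun G hG η' hη' => ?_, h3 (hn b hb)⟩⟩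
  filter_upwards [uc' hG hη' (tendsto_fin h (S.N ^ n • b))] with R hR a
  rw [pos_add]
  exact hR _

theorem ap (h : S.Ok) (g : Aff S.k S.B) : ∃ (σ : Equiv.Perm S.X) (α : S.X ≃+ S.X) (m : S.Z ≃ₜ S.Z),
    (∀ a, (σ a : S.B) = g.ap a) ∧ (∀ b, (α b : S.B) = g.lin b) ∧ (∀ z, (m z).2 = S.ap₀ g z.2) ∧
      S.Comp σ m := by
  obtain ⟨e, E, he, hE, hi⟩ := A56.exists_ap h ⟨g.κ, g.p, 0, star_zero _⟩
  have he' : ∀ a, (e a : S.B) = g.lin a := fun a => (he a).trans (add_zero _)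
  let b : S.X := ⟨g.b, g.hb⟩
  have hc : ∀ R z, S.sc R (E z) = E (S.sc R z) := fun R z => by
    refine Prod.ext (Subtype.ext ?_) ?_
    · rw [h.sc_fst, (hE _).1, (hE _).1, h.sc_fst]
      simp only [Sys.ap₂, map_zero, add_zero]
      rw [← mul_assoc (S.inc (star _)), ← h.rho_comm, mul_assoc (S.ρ R), mul_assoc (S.ρ R),
        ← mul_assoc _ (S.ρ R), ← h.rho_comm, mul_assoc (S.ρ R)]
    · rw [h.sc_snd, (hE _).2, (hE _).2, h.sc_snd]
  refine ⟨e.trans (Equiv.addRight b), ⟨e, fun x y => Subtype.ext ?_⟩,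
    E.trans (Homeomorph.addRight (fin h b)), fun a => ?_, he', fun z => ?_, fun G hG η hη => ?_⟩
  · change (e (x + y) : S.B) = e x + e y
    simp only [he', Aff.lin, AddSubgroup.coe_add, mul_add, add_mul, smul_add]
  · change (e a : S.B) + g.b = _
    rw [he', Aff.ap]
  · change (E z).2 + S.ψ g.b = _
    rw [(hE _).2]
    simp only [Sys.ap₀, map_zero, add_zero]
  · filter_upwards [uc' hG hη (tendsto_fin h b)] with R hR a
    change |G (S.pos R (e a + b)) - G (E (S.pos R a) + fin h b)| ≤ η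
    rw [pos_add, Sys.pos, hi, hc]
    exact hR _

theorem haar (h : S.Ok) (R : ℕ) :
    ∃ κ : ℝ, 0 < κ ∧ ∀ φ : S.Z → ℝ, ∫ z, φ (S.sc R z) ∂S.lam = κ * ∫ z, φ z ∂S.lam := by
  have := h.haar
  have := lc_Z S
  have := sc_Z S
  have h1 : (S.lam.map (S.sc R)).IsAddHaarMeasure := (S.sc R).isAddHaarMeasure_map S.lam
  refine ⟨Measure.addHaarScalarFactor (S.lam.map (S.sc R)) S.lam,
    Measure.addHaarScalarFactor_pos_of_isAddHaarMeasure _ _, fun φ => ?_⟩
  have h2 := (S.sc R).toHomeomorph.measurableEmbedding.integral_map (μ := S.lam) φ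
  change ∫ z, φ z ∂(S.lam.map (S.sc R)) = ∫ z, φ (S.sc R z) ∂S.lam at h2
  rw [← h2]
  conv_lhs => rw [Measure.isAddLeftInvariant_eq_smul (S.lam.map (S.sc R)) S.lam]
  rw [integral_smul_nnreal_measure]
  rfl

end A91

theorem apiStmt : ApiStmt.{u, v, w} := fun _ h => ⟨A91.cj h, A91.tr h, A91.ap h, A91.haar h⟩

end Crest.Agent.T24.Na
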