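import Crest.Agent.T24.NaKoop_39

/-!
# Row 24, module NA: classes of continuous invariant functions in the Koopman representation
(helper84)
-/

set_option autoImplicit false
set_option linter.unusedSectionVars false

noncomputable section

namespace Crest.Agent.T24.Na.Cl84

open Topology Filter MeasureTheory Set K39
open scoped ENNReal

universe u v w

/-- invariant, continuous, and square summable on `C` -/
structure Gd {G Γ Y : Type*} [Group G] [TopologicalSpace G] [Group Γ] [MulAction Γ Y] (ι : Γ →* G)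
    (C : Set G) (Ψ : G × Y → ℝ) (b : ℝ) : Prop where
  inv : Inv ι Ψ
  cont : ∀ y, Continuous fun g => Ψ (g, y)
  nonneg : 0 ≤ b
  bd : ∀ g ∈ C, ∀ T : Finset Y, ∑ y ∈ T, Ψ (g, y) ^ 2 ≤ b ^ 2

/-- the Koopman representation on classes of good functions -/
structure Koop {G Γ Y V : Type*} [Group G] [TopologicalSpace G] [Group Γ] [MulAction Γ Y]
    [NormedAddCommGroup V] [InnerProductSpace ℝ V] (ι : Γ →* G) (C : Set G) (c₀ : ℝ)
    (π : G →* (V ≃ₗᵢ[ℝ] V)) (cl : (G × Y → ℝ) → V) : Prop where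
  nonneg : 0 ≤ c₀
  norm : ∀ {Ψ b}, Gd ι C Ψ b → ‖cl Ψ‖ ≤ c₀ * b
  add : ∀ {Ψ Ψ' b b'}, Gd ι C Ψ b → Gd ι C Ψ' b' → cl (Ψ + Ψ') = cl Ψ + cl Ψ'
  eqv : ∀ {Ψ b} (k : G), Gd ι C Ψ b → π k (cl Ψ) = cl fun p => Ψ (p.1 * k, p.2)
  inj : ∀ {Ψ Ψ' b b'}, Gd ι C Ψ b → Gd ι C Ψ' b' → cl Ψ = cl Ψ' → Ψ = Ψ'

theorem exists_koop {G : Type u} {Γ : Type w} [Group G] [TopologicalSpace G] [IsTopologicalGroup G]
    [LocallyCompactSpace G] [SecondCountableTopology G] [T2Space G] [Group Γ] (ι : Γ →* G)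
    (hd : ∃ U ∈ 𝓝 (1 : G), ∀ γ, ι γ ∈ U → γ = 1)
    (hc : ∃ C : Set G, IsCompact C ∧ ∀ g, ∃ γ, (ι γ)⁻¹ * g ∈ C) (Y : Type v) [Countable Y]
    [MulAction Γ Y] :
    ∃ (C : Set G) (c₀ : ℝ) (V : Type (max u v)) (_ : NormedAddCommGroup V)
      (_ : InnerProductSpace ℝ V) (_ : CompleteSpace V) (π : G →* (V ≃ₗᵢ[ℝ] V))
      (cl : (G × Y → ℝ) → V), IsCompact C ∧ Koop ι C c₀ π cl := by
  classical
  borelize G
  let : MeasurableSpace Y := ⊤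
  have : DiscreteMeasurableSpace Y := ⟨fun _ => trivial⟩
  obtain ⟨hΓ, ⟨c, h⟩, hμ⟩ := exists_co ι hd hc
  set μ : Measure G := Measure.haar
  have := hμ μ
  set ω : Measure Y := wm fun _ => 1
  have : SMulInvariantMeasure Γ Y ω := wm_inv fun _ _ => rfl
  obtain ⟨C, hC, hF⟩ := h.Fd_cpt
  have hfin : μ C ≠ ∞ := hC.measure_lt_top.ne
  have hm : ∀ {Ψ : G × Y → ℝ} {b}, Gd ι C Ψ b → Measurable Ψ := fun hΨ =>
    measurable_from_prod_countable_left fun y => (hΨ.cont y).measurable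
  have h1 : ∀ {Ψ : G × Y → ℝ} {b}, Gd ι C Ψ b →
      ∫⁻ p, ‖Ψ p‖ₑ ^ 2 ∂mX c μ ω ≤ ENNReal.ofReal (b ^ 2) * μ C := fun {Ψ b} hΨ => by
    rw [mX, lintegral_prod _ ((hm hΨ).enorm.pow_const 2).aemeasurable]
    refine (setLIntegral_mono' h.mFd (g := fun _ => ENNReal.ofReal (b ^ 2)) fun x hx => ?_).trans ?_
    · rw [lintegral_wm, ENNReal.tsum_eq_iSup_sum]
      refine iSup_le fun T => le_trans (le_of_eq ?_) (ENNReal.ofReal_le_ofReal (hΨ.bd x (hF hx) T))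
      rw [ENNReal.ofReal_sum_of_nonneg fun _ _ => sq_nonneg _]
      exact Finset.sum_congr rfl fun y _ => by
        rw [one_mul, ← ofReal_norm, ← ENNReal.ofReal_pow (norm_nonneg _), Real.norm_eq_abs, sq_abs]
    · rw [setLIntegral_const]
      gcongr
  have h2 : ∀ {Ψ : G × Y → ℝ} {b}, Gd ι C Ψ b → MemLp Ψ 2 (mX c μ ω) := fun hΨ =>
    memLp_two (hm hΨ).aestronglyMeasurable
      (ne_top_of_le_ne_top (ENNReal.mul_ne_top ENNReal.ofReal_ne_top hfin) (h1 hΨ))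
  set cl : (G × Y → ℝ) → Lp ℝ 2 (mX c μ ω) := fun Ψ =>
    if hΨ : MemLp Ψ 2 (mX c μ ω) then hΨ.toLp Ψ else 0 with hcl
  have h3 : ∀ {Ψ : G × Y → ℝ}, MemLp Ψ 2 (mX c μ ω) → cl Ψ =ᵐ[mX c μ ω] Ψ := fun hΨ => by
    simp only [hcl, dif_pos hΨ]
    exact hΨ.coeFn_toLp
  refine ⟨C, √(μ C).toReal, Lp ℝ 2 (mX c μ ω), inferInstance, inferInstance, inferInstance,
    h.kp μ ω, cl, hC, Real.sqrt_nonneg _, fun {Ψ b} hΨ => ?_, fun hΨ hΨ' => Lp.ext ?_,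
    fun {Ψ b} k hΨ => Lp.ext ?_, fun {Ψ Ψ' b b'} hΨ hΨ' e => ?_⟩
  · have h4 := (enorm_sq (h3 (h2 hΨ))).trans_le (h1 hΨ)
    rw [← ofReal_norm, ← ENNReal.ofReal_pow (norm_nonneg _), ← ENNReal.ofReal_toReal hfin,
      ← ENNReal.ofReal_mul (sq_nonneg _), ENNReal.ofReal_le_ofReal_iff (by positivity)] at h4
    refine (pow_le_pow_iff_left₀ (norm_nonneg _) (mul_nonneg (Real.sqrt_nonneg _) hΨ.nonneg)
      two_ne_zero).1 (h4.trans_eq ?_)
    rw [mul_pow, Real.sq_sqrt ENNReal.toReal_nonneg, mul_comm]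
  · filter_upwards [h3 ((h2 hΨ).add (h2 hΨ')), h3 (h2 hΨ), h3 (h2 hΨ'), Lp.coeFn_add (cl _) (cl _)]
      with p a1 a2 a3 a4
    rw [a1, a4, Pi.add_apply, Pi.add_apply, a2, a3]
  · have a := h.kp_inv μ ω k hΨ.inv (h3 (h2 hΨ))
    exact a.trans (h3 ((memLp_congr_ae a).1 (Lp.memLp _))).symm
  · have a : ∀ᵐ p ∂mX c μ ω, Ψ p = Ψ' p := (h3 (h2 hΨ)).symm.trans (e ▸ h3 (h2 hΨ'))
    have a2 := Measure.ae_ae_of_ae_prod (h.ae_of_mX μ ω (q := fun p => Ψ p = Ψ' p)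
      (fun γ p => by simp only [hΨ.inv γ p, hΨ'.inv γ p]) a)
    funext ⟨g, y⟩
    refine congrFun (((hΨ.cont y).ae_eq_iff_eq μ (hΨ'.cont y)).1 ?_) g
    filter_upwards [a2] with x hx
    by_contra hne
    have := measure_mono_null (singleton_subset_iff.2 hne) (ae_iff.1 hx)
    rw [wm_singleton] at this
    exact one_ne_zero this

end Crest.Agent.T24.Na.Cl84
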