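import Crest.Agent.T24.NaPos_84
import Crest.Agent.T24.NaCl_84
import Crest.Agent.T24.NaInd_39
import Crest.Agent.T24.NaMx_52

/-!
# Row 24, module NA: `EscStmt` (helper84)
-/

set_option autoImplicit false
set_option linter.unusedSectionVars false

noncomputable section

namespace Crest.Agent.T24.Na

open Topology Filter Set P84 Cl84

universe u v w

namespace E84

variable {F : Type u} [Field F] [TopologicalSpace F] [IsTopologicalDivisionRing F] [T2Space F]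
  {O : Subring F} {π : F} {d : ℕ}

theorem dat (h : Lf O π) : ∃ t : Fin 5 → F, Kaz.Dat O π⁻¹ t := by
  obtain ⟨t, ht1, ht2⟩ := h.loc.res
  exact ⟨t, ht1, fun k l hkl => ⟨_, (ht2 l k hkl.symm).2,
    inv_mul_cancel₀ (sub_ne_zero.2 (ht2 l k hkl.symm).1)⟩, fun x => by
      obtain ⟨m, hm⟩ := h.loc.abs x
      exact ⟨m, _, hm, (inv_pow π m ▸ inv_mul_cancel_left₀ (pow_ne_zero m h.loc.ne) x).symm⟩⟩

theorem Lv_eq (j : ℕ) : Vm.Lv O π (Fin d) j = cell d O π j := AddSubgroup.ext fun _ => Iff.rfl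

/-- conjugation -/
def cj (h : GL (Fin d) F) : Mt d F ≃ₜ Mt d F where
  toFun y := (h : Mt d F) * y * ((h⁻¹ : GL (Fin d) F) : Mt d F)
  invFun y := ((h⁻¹ : GL (Fin d) F) : Mt d F) * y * (h : Mt d F)
  left_inv y := by simp only [← mul_assoc, Units.inv_mul, one_mul]; rw [mul_assoc, Units.inv_mul, mul_one]
  right_inv y := by simp only [← mul_assoc, Units.mul_inv, one_mul]; rw [mul_assoc, Units.mul_inv, mul_one]
  continuous_toFun := by fun_prop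
  continuous_invFun := by fun_prop

theorem cj_apply (h : GL (Fin d) F) (y : Mt d F) :
    cj h y = (h : Mt d F) * y * ((h⁻¹ : GL (Fin d) F) : Mt d F) := rfl

theorem cj_mul (g h : GL (Fin d) F) (y : Mt d F) : cj (g * h) y = cj g (cj h y) := by
  simp only [cj_apply, mul_inv_rev, Units.val_mul, mul_assoc]

theorem cj_one (y : Mt d F) : cj (1 : GL (Fin d) F) y = y := by simp [cj_apply]

theorem cj_smul (h : GL (Fin d) F) (l : F) (y : Mt d F) : cj h (l • y) = l • cj h y := by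
  simp only [cj_apply, smul_mul_assoc, mul_smul_comm]

theorem dom_of_cj {h : GL (Fin d) F} {y : Mt d F} (hy : Dom O π (cj h y)) : Dom O π y := by
  obtain ⟨i, k, l, e⟩ := hy
  exact ⟨i, k * h, l, by rwa [← cj_apply, cj_mul]⟩

/-- compact open sets of dominant matrices -/
structure Good (O : Subring F) (π : F) (β : Set (Mt d F)) : Prop where
  cpt : IsCompact β
  opn : IsOpen β
  dom : ∀ y ∈ β, Dom O π y

theorem Good.conj {β : Set (Mt d F)} (hβ : Good O π β) (h : GL (Fin d) F) : Good O π (cj h ⁻¹' β) :=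
  ⟨(Homeomorph.isCompact_preimage _).2 hβ.cpt, hβ.opn.preimage (cj h).continuous,
    fun _ hy => dom_of_cj (hβ.dom _ hy)⟩

theorem good_sat (hL : Lf O π) {i : Fin d} {l : F} (hl : l ≠ 0) {j : ℕ} {s : Set (Mt d F)}
    (hs : s ⊆ Vm.cell (cell d O π 1) (Matrix.single i i 1)) (hj : Vm.Sat (cell d O π j) s) :
    Good O π {y | l • y ∈ s} := by
  have hn : ∀ x : Mt d F, {y | y - x ∈ cell d O π j} ∈ 𝓝 x := fun x =>
    ((cell_open hL j).preimage (continuous_sub_right x)).mem_nhds (by simp)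
  have ho : IsOpen s := isOpen_iff_mem_nhds.2 fun x hx =>
    mem_of_superset (hn x) fun y hy => by simpa using hj x hx _ hy
  have hc : IsClosed s := isOpen_compl_iff.1 (isOpen_iff_mem_nhds.2 fun x hx =>
    mem_of_superset (hn x) fun y hy hy' => hx (by simpa using hj y hy' _ (neg_mem hy)))
  have hk : IsCompact (Vm.cell (cell d O π 1) (Matrix.single i i (1 : F))) :=
    (Homeomorph.isCompact_preimage (Homeomorph.addLeft (-Matrix.single i i (1 : F)))).2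
      (cell_compact hL 1)
  exact ⟨(Homeomorph.isCompact_preimage (Homeomorph.smulOfNeZero l hl)).2
    (hk.of_isClosed_subset hc hs), ho.preimage (continuous_const_smul l),
    fun y hy => ⟨i, 1, l, by simpa using Vm.mem_cell.1 (hs hy)⟩⟩

/-- the enlarged cells -/
def big (d : ℕ) (O : Subring F) (π : F) (c j : ℕ) : AddSubgroup (Mt d F) :=
  (cell d O π j).comap (DistribSMul.toAddMonoidHom _ (π ^ c))

theorem mem_big {c j : ℕ} {y : Mt d F} : y ∈ big d O π c j ↔ π ^ c • y ∈ cell d O π j := Iff.rfl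

theorem big_compact (hL : Lf O π) (c j : ℕ) : IsCompact (big d O π c j : Set (Mt d F)) :=
  (Homeomorph.isCompact_preimage (Homeomorph.smulOfNeZero _ (pow_ne_zero c hL.loc.ne))).2
    (cell_compact hL j)

theorem big_open (hL : Lf O π) (c j : ℕ) : IsOpen (big d O π c j : Set (Mt d F)) :=
  (cell_open hL j).preimage (continuous_const_smul (π ^ c))

theorem big_index (hL : Lf O π) (c j : ℕ) :
    (big d O π c j).relIndex (big d O π c 0) = ncell d O π j := by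
  rw [big, big, AddSubgroup.relIndex_comap, AddSubgroup.map_comap_eq_self_of_surjective
    (fun x => ⟨(π ^ c)⁻¹ • x, smul_inv_smul₀ (pow_ne_zero c hL.loc.ne) x⟩), ncell]

variable {G₂ : Type v} [Group G₂] [TopologicalSpace G₂] [IsTopologicalGroup G₂]
  {Z₂ : Type v} [TopologicalSpace Z₂] [LocallyCompactSpace Z₂] [T2Space Z₂] [MulAction G₂ Z₂]
  [ContinuousSMul G₂ Z₂]

theorem ac_mul (g h : G₂ × GL (Fin d) F) (z : Z₂ × Mt d F) : ac (g * h) z = ac g (ac h z) :=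
  Prod.ext (mul_smul _ _ _) (cj_mul _ _ _)

theorem ac_one (z : Z₂ × Mt d F) : ac (1 : G₂ × GL (Fin d) F) z = z :=
  Prod.ext (one_smul _ _) (cj_one _)

theorem continuous_ac :
    Continuous fun p : (G₂ × GL (Fin d) F) × (Z₂ × Mt d F) => ac p.1 p.2 := by
  have h1 : Continuous fun p : (G₂ × GL (Fin d) F) × (Z₂ × Mt d F) => (p.1.2 : Mt d F) :=
    Units.continuous_val.comp (by fun_prop)
  have h2 : Continuous fun p : (G₂ × GL (Fin d) F) × (Z₂ × Mt d F) =>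
      ((p.1.2⁻¹ : GL (Fin d) F) : Mt d F) := Units.continuous_coe_inv.comp (by fun_prop)
  exact Continuous.prodMk (by fun_prop) ((h1.mul (by fun_prop)).mul h2)

/-- the action as a homeomorphism -/
def acH (g : G₂ × GL (Fin d) F) : Z₂ × Mt d F ≃ₜ Z₂ × Mt d F :=
  (Homeomorph.smul g.1).prodCongr (cj g.2)

theorem cc_ac {φ : Z₂ × Mt d F → ℝ} (h : Cc φ) (g : G₂ × GL (Fin d) F) : Cc fun z => φ (ac g z) :=
  cc_comp h (acH g)

variable [LocallyCompactSpace F] [LocallyCompactSpace G₂] {Γ : Type w} [Group Γ]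
  {ι : Γ →* G₂ × GL (Fin d) F} {Y : Type w} [MulAction Γ Y] {μ : Y → (Z₂ × Mt d F → ℝ) → ℝ}
  {Λ : (Z₂ × Mt d F → ℝ) → ℝ}

instance : LocallyCompactSpace (Mt d F) := inferInstanceAs (LocallyCompactSpace (Fin d → Fin d → F))

/-- the hypotheses -/
structure Hyp (O : Subring F) (π : F) (ι : Γ →* G₂ × GL (Fin d) F)
    (μ : Y → (Z₂ × Mt d F → ℝ) → ℝ) (Λ : (Z₂ × Mt d F → ℝ) → ℝ) : Prop where
  lf : Lf O π
  pos : ∀ y, PosF (μ y)
  posL : PosF Λ
  tr : ∀ φ (t : Mt d F), Cc φ → Λ (fun z => φ (z.1, z.2 + t)) = Λ φ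
  eqv : ∀ γ y φ, Cc φ → μ (γ • y) φ = μ y fun z => φ (ac (ι γ) z)
  sum : ∀ (T : Finset Y) φ, Cc φ → 0 ≤ φ → (∀ z ∈ tsupport φ, Dom O π z.2) → ∑ y ∈ T, μ y φ ≤ Λ φ

/-- the functions on `G × Y` -/
def Ps (μ : Y → (Z₂ × Mt d F → ℝ) → ℝ) (χ : Z₂ → ℝ) (β : Set (Mt d F))
    (p : (G₂ × GL (Fin d) F) × Y) : ℝ := μ p.2 fun z => tens χ β (ac p.1⁻¹ z)

theorem Ps_rt (χ : Z₂ → ℝ) (β : Set (Mt d F)) (k : GL (Fin d) F) (g : G₂ × GL (Fin d) F) (y : Y) :
    Ps μ χ β (g * (1, k), y) = Ps μ χ (cj k⁻¹ ⁻¹' β) (g, y) := by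
  simp only [Ps, mul_inv_rev, ac_mul]
  congr 1
  funext z
  simp only [tens, ac, Prod.inv_mk, inv_one, one_smul]
  rfl

theorem tens_ac (χ : Z₂ → ℝ) (β : Set (Mt d F)) (g : G₂ × GL (Fin d) F) :
    (fun z => tens χ β (ac g z)) = tens (fun x => χ (g.1 • x)) (cj g.2 ⁻¹' β) := rfl

theorem exists_bump_smul {K : Set G₂} (hK : IsCompact K) {χ : Z₂ → ℝ} (hχ : Cc χ) (h1 : χ ≤ 1) :
    ∃ χ₁ : Z₂ → ℝ, Cc χ₁ ∧ 0 ≤ χ₁ ∧ ∀ g ∈ K, (fun x => χ (g⁻¹ • x)) ≤ χ₁ := by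
  obtain ⟨χ₁, a, b, -, c⟩ := exists_bump ((hK.prod hχ.2.isCompact).image
    (continuous_smul : Continuous fun p : G₂ × Z₂ => p.1 • p.2))
  refine ⟨χ₁, a, b, fun g hg x => ?_⟩
  by_cases h : g⁻¹ • x ∈ tsupport χ
  · rw [c x ⟨(g, g⁻¹ • x), ⟨hg, h⟩, smul_inv_smul g x⟩]; exact h1 _
  · exact (image_eq_zero_of_notMem_tsupport h).trans_le (b x)

namespace Hyp
variable (h : Hyp O π ι μ Λ) {χ χ₁ : Z₂ → ℝ} {β : Set (Mt d F)}
include h

theorem sum_tens (hχ : Cc χ) (h0 : 0 ≤ χ) (hβ : Good O π β) (T : Finset Y) :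
    ∑ y ∈ T, μ y (tens χ β) ≤ Λ (tens χ β) :=
  h.sum T _ (cc_tens hχ hβ.cpt hβ.opn) (tens_nonneg h0 _)
    fun _ hz => hβ.dom _ (tsupport_tens hβ.cpt hz).2

theorem inv (hχ : Cc χ) (hβ : Good O π β) : K39.Inv ι (Ps μ χ β) := fun γ p => by
  simp only [Ps, K39.act]
  rw [h.eqv _ _ _ (cc_ac (cc_tens hχ hβ.cpt hβ.opn) _)]
  simp only [← ac_mul, mul_inv_rev, inv_mul_cancel_right]

theorem gd (hχ : Cc χ) (h0 : 0 ≤ χ) (hβ : Good O π β) {C : Set (G₂ × GL (Fin d) F)} (h1 : Cc χ₁)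
    (h2 : 0 ≤ χ₁) (h3 : ∀ g ∈ Prod.fst '' C, (fun x => χ (g⁻¹ • x)) ≤ χ₁) {H : Set (Mt d F)}
    (hc : IsCompact H) (ho : IsOpen H) (h4 : ∀ g ∈ C, ∃ t, ∀ y ∈ β, cj g.2 y + t ∈ H) :
    Gd ι C (Ps μ χ β) (Λ (tens χ₁ H)) where
  inv := h.inv hχ hβ
  cont y := by
    have hφ := cc_tens hχ hβ.cpt hβ.opn
    refine pos_cont (h.pos y) (f := fun g z => tens χ β (ac g⁻¹ z))
      (hφ.1.comp (continuous_ac.comp (continuous_fst.inv.prodMk continuous_snd))) fun g₀ => ?_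
    obtain ⟨N, hN, hg⟩ := exists_compact_mem_nhds g₀
    refine ⟨_, (hN.prod hφ.2.isCompact).image continuous_ac, mem_of_superset hg fun g hg z hz => ?_⟩
    exact image_eq_zero_of_notMem_tsupport fun h' => hz ⟨(g, ac g⁻¹ z), ⟨hg, h'⟩, by
      simp only [← ac_mul, mul_inv_cancel, ac_one]⟩
  nonneg := h.posL.pos _ (cc_tens h1 hc ho) (tens_nonneg h2 _)
  bd g hg T := by
    obtain ⟨t, ht⟩ := h4 g hg
    have hχ' : Cc fun x => χ (g⁻¹.1 • x) := cc_comp hχ (Homeomorph.smul _)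
    have hβ' := hβ.conj g⁻¹.2
    have a : ∀ y, 0 ≤ Ps μ χ β (g, y) := fun y =>
      (h.pos y).pos _ (cc_tens hχ' hβ'.cpt hβ'.opn) fun z => tens_nonneg h0 β (ac g⁻¹ z)
    refine (Finset.sum_sq_le_sq_sum_of_nonneg fun y _ => a y).trans
      (pow_le_pow_left₀ (Finset.sum_nonneg fun y _ => a y) ?_ 2)
    refine (h.sum_tens hχ' (fun x => h0 (g⁻¹.1 • x)) hβ' T).trans ?_
    rw [← tens_shift h.tr h1 hc ho t]
    refine pos_mono h.posL (cc_tens hχ' hβ'.cpt hβ'.opn) (cc_tens h1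
      ((Homeomorph.isCompact_preimage (Homeomorph.addRight t)).2 hc)
      (ho.preimage (continuous_add_const t))) (tens_mono h2 (h3 _ ⟨g, hg, rfl⟩) fun y hy => ?_)
    have := ht _ hy
    rwa [← cj_mul, Prod.snd_inv, mul_inv_cancel, cj_one] at this

theorem gd' (hχ : Cc χ) (h0 : 0 ≤ χ) (h1 : χ ≤ 1) (hβ : Good O π β) {C : Set (G₂ × GL (Fin d) F)}
    (hC : IsCompact C) : ∃ b, Gd ι C (Ps μ χ β) b := by
  obtain ⟨χ₁, a, b, c⟩ := exists_bump_smul (hC.image continuous_fst) hχ h1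
  obtain ⟨m, hm⟩ := bounded h.lf hβ.cpt
  obtain ⟨n, hn⟩ := bounded_gl h.lf (hC.image continuous_snd)
  refine ⟨_, h.gd hχ h0 hβ a b c (big_compact h.lf (n + m) 0) (big_open h.lf _ _)
    fun g hg => ⟨0, fun y hy => ?_⟩⟩
  have := (hn _ ⟨g, hg, rfl⟩ _ ⟨g, hg, rfl⟩ 0 _ (hm y hy)).1
  rwa [← cj_apply, cj_smul, smul_smul, ← pow_add, ← add_zero (cj _ _)] at this

variable [SecondCountableTopology F] [SecondCountableTopology G₂] [T2Space G₂] [Countable Y]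

/-- invariance under `SL_d (F)` -/
theorem fixed (hd : 3 ≤ d) (hι : Latt ι) (hχ : Cc χ) (h0 : 0 ≤ χ) (h1 : χ ≤ 1) (i : Fin d) {l : F}
    (hl : l ≠ 0) (k : Matrix.SpecialLinearGroup (Fin d) F) (g : G₂ × GL (Fin d) F) (y : Y) :
    Ps μ χ {y | l • y ∈ Vm.cell (cell d O π 1) (Matrix.single i i 1)} (g * K39.jS G₂ k, y) =
      Ps μ χ {y | l • y ∈ Vm.cell (cell d O π 1) (Matrix.single i i 1)} (g, y) := by
  obtain ⟨C, c₀, V, _, _, _, ρ, cl, hC, hK⟩ := exists_koop ι hι.disc hι.coc Y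
  obtain ⟨t, ht⟩ := dat h.lf
  obtain ⟨χ₁, a, b, c⟩ := exists_bump_smul (hC.image continuous_fst) hχ h1
  obtain ⟨m, hm⟩ := h.lf.loc.abs l⁻¹
  obtain ⟨n, hn⟩ := bounded_gl h.lf (hC.image continuous_snd)
  have hsub : ∀ j, ∀ z ∈ Vm.cell (cell d O π 1) (Matrix.single i i 1),
      Vm.cell (cell d O π (1 + j)) z ⊆ Vm.cell (cell d O π 1) (Matrix.single i i 1) :=
    fun j z hz x hx => by
      rw [Vm.mem_cell] at *
      simpa using add_mem (cell_anti h.lf.pi_mem (Nat.le_add_right 1 j) hx) hz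
  have e : ∀ (s : Set (Mt d F)) (k : Matrix.SpecialLinearGroup (Fin d) F),
      (fun p : (G₂ × GL (Fin d) F) × Y => Ps μ χ {y | l • y ∈ s} (p.1 * K39.jS G₂ k, p.2)) =
        Ps μ χ (cj (Matrix.SpecialLinearGroup.toGL k)⁻¹ ⁻¹' {y | l • y ∈ s}) := fun s k =>
    funext fun p => Ps_rt χ _ _ p.1 p.2
  have key := Vm.vm_conj ht h.lf.pi_mem (inv_mul_cancel₀ h.lf.loc.ne) (by simp) (by simpa using hd)
    (fun j => by simp only [Lv_eq]; exact ncell_ne h.lf j) (ρ.comp (K39.jS G₂)) i le_rfl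
    (z₀ := Matrix.single i i 1) (by simp) (fun s => cl (Ps μ χ {y | l • y ∈ s}))
    (C := c₀ * Λ (tens χ₁ (big d O π (n + m) 0 : Set (Mt d F))))
  simp only [Lv_eq] at key
  have g0 := good_sat h.lf hl (subset_refl _) (Vm.sat_cell (cell d O π 1) (Matrix.single i i 1))
  obtain ⟨b₁, k1⟩ := h.gd' hχ h0 h1 g0 hC
  obtain ⟨b₂, k2⟩ := h.gd' hχ h0 h1 (g0.conj (Matrix.SpecialLinearGroup.toGL k)⁻¹) hC
  refine (congrFun (e _ k) (g, y)).trans (congrFun (hK.inj k2 k1 ?_) _)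
  rw [← e, ← hK.eqv _ k1]
  refine key (fun j s s' hs hs' h2 h3 h4 => ?_) (fun j z hz => ?_) (fun k j z hz => ?_) k
  · have g1 := good_sat h.lf hl hs h2
    have g2 := good_sat h.lf hl hs' h3
    obtain ⟨_, k3⟩ := h.gd' hχ h0 h1 g1 hC
    obtain ⟨_, k4⟩ := h.gd' hχ h0 h1 g2 hC
    rw [← hK.add k3 k4]
    congr 1
    funext p
    simp only [Ps, Pi.add_apply]
    rw [← (h.pos _).add _ _ (cc_ac (cc_tens hχ g1.cpt g1.opn) _) (cc_ac (cc_tens hχ g2.cpt g2.opn) _),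
      show {y | l • y ∈ s ∪ s'} = {y | l • y ∈ s} ∪ {y | l • y ∈ s'} from rfl,
      tens_union χ (β := {y | l • y ∈ s}) (β' := {y | l • y ∈ s'}) (h4.preimage _)]
    rfl
  · have k3 := hK.norm (h.gd hχ h0 (good_sat h.lf hl (hsub j z hz) (Vm.sat_cell _ _)) a b c
      (big_compact h.lf (n + m) j) (big_open h.lf _ _) fun g hg => ⟨-cj g.2 (l⁻¹ • z), fun y hy => ?_⟩)
    · rw [tens_index h.posL h.tr a (H := big d O π (n + m) 0) (H' := big d O π (n + m) j)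
        (AddSubgroup.comap_mono (cell_anti h.lf.pi_mem (Nat.zero_le j))) (big_compact h.lf _ _)
        (big_open h.lf _ _), big_index h.lf, mul_left_comm]
      exact mul_le_mul_of_nonneg_left k3 (Nat.cast_nonneg _)
    · have := (hn _ ⟨g, hg, rfl⟩ _ ⟨g, hg, rfl⟩ j _ (o_smul_mem hm
        (cell_anti h.lf.pi_mem (Nat.le_add_left j 1) (Vm.mem_cell.1 hy)))).1
      rw [mul_smul, smul_sub, inv_smul_smul₀ hl, ← cj_apply, cj_smul, smul_smul, ← pow_add] at this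
      refine mem_big.2 (by convert this using 2; simp only [cj_apply, mul_sub, sub_mul, ← sub_eq_add_neg])
  · obtain ⟨_, k3⟩ := h.gd' hχ h0 h1 (good_sat h.lf hl (hsub j z hz) (Vm.sat_cell _ _)) hC
    rw [MonoidHom.comp_apply, hK.eqv _ k3, e]
    congr 2
    ext y
    have : (fun x : Mt d F => (k : Mt d F) * x * ((k⁻¹ : Matrix.SpecialLinearGroup (Fin d) F) : Mt d F)) =
        cj (Matrix.SpecialLinearGroup.toGL k) := by
      funext x
      rw [cj_apply, ← map_inv]; rfl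
    rw [this, Homeomorph.image_eq_preimage_symm, mem_preimage, mem_ofPred_eq, mem_ofPred_eq,
      mem_preimage, ← cj_smul]
    simp only [cj_apply, inv_inv]
    rfl

theorem zero (hd : 3 ≤ d) (hι : Latt ι) (hχ : Cc χ) (h0 : 0 ≤ χ) (h1 : χ ≤ 1) (i : Fin d) {l : F}
    (hl : l ≠ 0) (k : GL (Fin d) F) {y : Y} (hy : Esc ι y) :
    μ y (tens χ (cj k ⁻¹' {y | l • y ∈ Vm.cell (cell d O π 1) (Matrix.single i i 1)})) = 0 := by
  have g0 := good_sat h.lf hl (subset_refl _) (Vm.sat_cell (cell d O π 1) (Matrix.single i i 1))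
  set Ω := {y | l • y ∈ Vm.cell (cell d O π 1) (Matrix.single i i (1 : F))}
  have g1 := g0.conj k
  obtain ⟨W, hW, hW'⟩ := exists_compact_mem_nhds (1 : G₂)
  obtain ⟨χ₁, a, b, c⟩ := exists_bump_smul hW.inv hχ h1
  have key : ∀ y' ∈ {y' | ∃ γ, Near ι W γ ∧ γ • y' = y},
      μ y (tens χ (cj k ⁻¹' Ω)) ≤ μ y' (tens χ₁ (cj k ⁻¹' Ω)) := by
    rintro y' ⟨γ, hγ, rfl⟩
    obtain ⟨s, hs⟩ := K39.exists_conj k⁻¹ (⟨_, hγ.1⟩ : Matrix.SpecialLinearGroup (Fin d) F)⁻¹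
    have e1 : μ (γ • y') (tens χ (cj k ⁻¹' Ω)) = Ps μ χ Ω ((((1 : G₂), k⁻¹)), γ • y') := by
      simp only [Ps, tens_ac, Prod.inv_mk, inv_one, one_smul, inv_inv]
    have e2 : (((1 : G₂), k⁻¹) : G₂ × GL (Fin d) F) = ι γ * (((ι γ).1⁻¹, k⁻¹) * K39.jS G₂ s) := by
      refine Prod.ext (by simp) ?_
      rw [K39.jS_apply, Prod.snd_mul, Prod.snd_mul, ← hs, map_inv]
      rw [show Matrix.SpecialLinearGroup.toGL (⟨_, hγ.1⟩ : Matrix.SpecialLinearGroup (Fin d) F) =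
        (ι γ).2 from Units.ext rfl, mul_inv_cancel_left]
    rw [e1, e2, show Ps μ χ Ω (ι γ * _, γ • y') = _ from h.inv hχ g0 γ (_, y'),
      h.fixed hd hι hχ h0 h1 i hl]
    simp only [Ps, tens_ac, Prod.inv_mk, inv_inv]
    exact pos_mono (h.pos _) (cc_tens (cc_comp hχ (Homeomorph.smul _)) g1.cpt g1.opn)
      (cc_tens a g1.cpt g1.opn) (tens_mono b
        (by simpa using c (ι γ).1⁻¹ (Set.inv_mem_inv.2 hγ.2)) subset_rfl)
  refine le_antisymm (not_lt.1 fun hp => ?_)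
    ((h.pos y).pos _ (cc_tens hχ g1.cpt g1.opn) (tens_nonneg h0 _))
  obtain ⟨n, hn⟩ := exists_lt_nsmul hp (Λ (tens χ₁ (cj k ⁻¹' Ω)))
  obtain ⟨T, hT, rfl⟩ := (hy W hW').exists_subset_card_eq n
  exact (hn.trans_le (T.card_nsmul_le_sum _ _ fun y' hy' => key y' (hT hy'))).not_ge
    (h.sum_tens a b g1 T)

end Hyp

end E84

open E84 in
/-- **ESC** -/
theorem escStmt : EscStmt.{u, v, w} := by
  intro F _ _ _ _ _ _ O π d G₂ _ _ _ _ _ _ Z₂ _ _ _ _ _ _ Γ _ ι Y _ _ μ Λ h1 hd hι h2 h3 h4 h5 h6 h7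
    y φ hφ hD
  have h : Hyp O π ι μ Λ := ⟨h1, h2, h3, h4, h5, h6⟩
  obtain ⟨χ, a, b, c, e⟩ := exists_bump (hφ.2.isCompact.image continuous_fst)
  obtain ⟨M, hM⟩ := hφ.1.bounded_above_of_compact_support hφ.2
  set Ω : Fin d × GL (Fin d) F × Fˣ → Set (Mt d F) := fun q =>
    cj q.2.1 ⁻¹' {y | (q.2.2 : F) • y ∈ Vm.cell (cell d O π 1) (Matrix.single q.1 q.1 1)}
  have hΩ : ∀ q, Good O π (Ω q) := fun q =>
    (good_sat h1 q.2.2.ne_zero (subset_refl _) (Vm.sat_cell _ _)).conj _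
  obtain ⟨s, hs⟩ := hφ.2.isCompact.elim_finite_subcover (fun q => Prod.snd ⁻¹' Ω q)
    (fun q => (hΩ q).opn.preimage continuous_snd) fun z hz => by
      obtain ⟨i, k, l, hl⟩ := hD z hz
      exact mem_iUnion.2 ⟨(i, k, Units.mk0 l (ne_zero_of_dom h1 hl)), Vm.mem_cell.2 hl⟩
  have hc : ∀ q ∈ s, Cc (tens χ (Ω q)) := fun q _ => cc_tens a (hΩ q).cpt (hΩ q).opn
  have := pos_abs_le (h2 y) hφ (cc_smul M (cc_sum s hc)) fun z => by
    have h0 : 0 ≤ M := (norm_nonneg _).trans (hM z)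
    have hn : ∀ q ∈ s, 0 ≤ tens χ (Ω q) z := fun q _ => tens_nonneg b _ z
    rw [Pi.smul_apply, Finset.sum_apply, smul_eq_mul]
    by_cases hz : z ∈ tsupport φ
    · obtain ⟨q, hq, hq'⟩ := mem_iUnion₂.1 (hs hz)
      refine (hM z).trans (le_mul_of_one_le_right h0 (le_trans ?_ (Finset.single_le_sum hn hq)))
      simp [tens, e _ ⟨z, hz, rfl⟩, indicator_of_mem (show z.2 ∈ Ω q from hq')]
    · rw [image_eq_zero_of_notMem_tsupport hz, abs_zero]
      exact mul_nonneg h0 (Finset.sum_nonneg hn)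
  rw [(h2 y).smul _ _ (cc_sum s hc), pos_sum (h2 y) s hc, Finset.sum_eq_zero fun q _ =>
    h.zero hd hι a b c q.1 q.2.2.ne_zero q.2.1 (h7 y), mul_zero] at this
  exact abs_nonpos_iff.1 this

end Crest.Agent.T24.Na
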