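import Crest.Agent.T24.NaOrDef_18
import Crest.Agent.T24.NaPos_84

/-!
# Row 24, module NA + TW (helper33): the full type vanishes, `JgStmt`.
-/

set_option autoImplicit false
set_option linter.unusedSectionVars false

noncomputable section

namespace Crest.Agent.T24.Na

open Topology Filter Finset

universe u v w

namespace J33

section
variable {X H : Type*} [AddCommGroup X] [NormedAddCommGroup H] [InnerProductSpace ℝ H]
  [CompleteSpace H] (T : Multiplicative X →* (H ≃ₗᵢ[ℝ] H)) {L : AddSubgroup X}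
  {Q : Type} [Group Q] [Finite Q] (M : Subgroup Q)

theorem mem_closure {ξ : Q → H} (h : ∀ q, ξ q ∈ Pj.Sm T L) (h0 : ∀ q, ∑ᶠ f : M, ξ (q * f) = 0) :
    ξ ∈ closure {ζ : Q → H | ∃ m : ℕ, m ≠ 0 ∧ (∀ q, ζ q ∈ Pj.Fx T m L) ∧
      ∀ q, ∑ᶠ f : M, ζ (q * f) = 0} := by
  classical
  have := Fintype.ofFinite Q
  have h1 : ξ ∈ closure {ζ : Q → H | ∃ m : ℕ, m ≠ 0 ∧ ∀ q, ζ q ∈ Pj.Fx T m L} := by
    refine Metric.mem_closure_iff.2 fun ε hε => ?_
    choose m hm ζ h1 h2 using fun q => Pj.Sm_approx T (h q) (half_pos hε)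
    refine ⟨ζ, ⟨∏ q, m q, prod_ne_zero_iff.2 fun q _ => hm q, fun q e he => ?_⟩,
      (dist_pi_lt_iff hε).2 fun q => ?_⟩
    · rw [← mul_prod_erase _ _ (mem_univ q), mul_smul]
      exact h1 q _ (L.nsmul_mem he _)
    · rw [dist_comm, dist_eq_norm]; exact (h2 q).trans_lt (half_lt_self hε)
  simp only [finsum_eq_sum_of_fintype] at h0 ⊢
  let p : (Q → H) → Q → H := fun ζ q => ζ q - (Fintype.card M : ℝ)⁻¹ • ∑ f : M, ζ (q * f)
  have h2 : p ξ = ξ := funext fun q => by simp [p, h0]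
  rw [← h2]
  refine map_mem_closure (by fun_prop) h1 ?_
  rintro ζ ⟨m, hm, h3⟩
  refine ⟨m, hm, fun q => sub_mem (h3 q) (Submodule.smul_mem _ _ (sum_mem fun f _ => h3 _)), fun q => ?_⟩
  have h4 : ∀ g : M, ∑ f : M, ζ (q * g * f) = ∑ f : M, ζ (q * f) := fun g => by
    rw [← Equiv.sum_comp (Equiv.mulLeft g) fun f : M => ζ (q * f)]
    simp [mul_assoc]
  have h5 : (Fintype.card M : ℝ) ≠ 0 := by exact_mod_cast Fintype.card_ne_zero
  simp only [p, h4, sum_sub_distrib, sum_const, card_univ, ← Nat.cast_smul_eq_nsmul ℝ, smul_smul,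
    mul_inv_cancel₀ h5, one_smul, sub_self]

end

variable {S : Sys.{u, v, w}} {H : Type w} [NormedAddCommGroup H] [InnerProductSpace ℝ H]
  [CompleteSpace H] (m : Mod S H)

theorem vec_zero {F : S.Z → ℝ} (hF : Cc F) : m.vec F 0 = 0 := by
  have := m.vec_add' F 0 0 hF ⟨0, by simp⟩ ⟨0, by simp⟩
  simpa using this

theorem vec_sum {F : S.Z → ℝ} (hF : Cc F) {I : Type*} (s : Finset I) (h : I → S.X → ℝ)
    (hb : ∀ i, Bd (h i)) : Bd (∑ i ∈ s, h i) ∧ m.vec F (∑ i ∈ s, h i) = ∑ i ∈ s, m.vec F (h i) := by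
  classical
  induction s using Finset.induction_on with
  | empty => exact ⟨⟨0, by simp⟩, by simpa using vec_zero m hF⟩
  | insert i s hi ih =>
    rw [sum_insert hi, sum_insert hi, m.vec_add' F _ _ hF (hb i) ih.1, ih.2]
    obtain ⟨C, hC⟩ := hb i
    obtain ⟨C', hC'⟩ := ih.1
    exact ⟨⟨C + C', fun a => (abs_add_le _ _).trans (add_le_add (hC a) (hC' a))⟩, rfl⟩

theorem E_M (hS : S.Ok) {F : S.Z → ℝ} (hF : Cc F) (x : H) :
    Pj.E m.T S.L₀ (m.M F x) = m.M F (Pj.E m.T S.L₀ x) :=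
  Pj.E_comm m.T _ (m.M_adj F hF) (fun η hη => by
    obtain ⟨n, hn⟩ := m.M_T F hF η hη
    exact ⟨S.N ^ n, pow_ne_zero _ hS.N_ne, hn⟩) x

theorem E_J (hS : S.Ok) (γ : S.Γ) (x : H) :
    Pj.E m.T S.L₀ (m.J γ x) = m.J γ (Pj.E m.T S.L₀ x) := by
  let σ : S.X ≃+ S.X := { S.cjP γ with
    map_add' := fun a b => Subtype.ext (by
      change _ * ((a : S.B) + b) * _ = _ * (a : S.B) * _ + _ * (b : S.B) * _
      rw [mul_add, add_mul]) }
  refine Pj.E_conj m.T (m.J γ) σ.symm (fun e y => ?_)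
    (Pj.Le.of_fg ?_ fun e _ => hS.full e) (Pj.Le.of_fg hS.fg fun e _ => ?_) x
  · rw [← m.J_T γ (σ.symm e) y]
    exact congrArg (fun b => m.J γ (Pj.tr m.T b y)) (σ.apply_symm_apply e).symm
  · classical
    obtain ⟨s, hs⟩ := hS.fg
    exact ⟨s.image σ.symm, by rw [← hs, AddMonoidHom.map_closure]; simp⟩
  · obtain ⟨n, hn, h⟩ := hS.full (σ e)
    exact ⟨n, hn, _, h, by simp⟩

end J33

open J33 P84

theorem jgStmt : JgStmt.{u, v, w} := by
  intro S hS H _ _ _ m T _ _ At hA φ hφ F hF hD q₀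
  classical
  have := Fintype.ofFinite S.Q
  obtain ⟨χ, Γ₁, C, hχ, hJ⟩ := m.jl F hF hD
  choose e he using m.ac_cc
  have : LocallyCompactSpace (Mt S.d S.F) := inferInstanceAs (LocallyCompactSpace (_ → _ → S.F))
  obtain ⟨χ', h1, -, -, h2⟩ := exists_bump (K := tsupport F ∪ (tsupport χ ∪ ⋃ γ ∈ Γ₁, e γ '' tsupport χ))
    (hF.2.isCompact.union (hχ.2.isCompact.union
      (Γ₁.isCompact_biUnion fun γ _ => hχ.2.isCompact.image (e γ).continuous)))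
  have one : ∀ G G' : S.Z → ℝ, (∀ z ∈ tsupport G, G' z = 1) → G * G' = G := fun G G' h => by
    funext z
    by_cases hz : z ∈ tsupport G
    · rw [Pi.mul_apply, h z hz, mul_one]
    · rw [Pi.mul_apply, image_eq_zero_of_notMem_tsupport hz, zero_mul]
  let f : S.Q → S.X → ℝ := fun q a => φ (q⁻¹ • At a)
  have hf : ∀ q, Bd (f q) := fun q => by
    obtain ⟨C, hC⟩ := (Set.finite_range fun t => |φ t|).bddAbove
    exact ⟨C, fun a => hC ⟨_, rfl⟩⟩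
  let ξ : S.Q → H := fun q => Pj.E m.T S.L₀ (m.vec χ' (f q))
  have h3 : ∀ q, ∑ᶠ g : S.M, ξ (q * g) = 0 := fun q => by
    have : ∑ g : S.M, f (q * g) = 0 := funext fun a => by
      have := hφ (q⁻¹ • At a)
      rw [finsum_eq_sum_of_fintype, ← Equiv.sum_comp (Equiv.inv S.M)] at this
      simpa [f, mul_smul] using this
    rw [finsum_eq_sum_of_fintype, ← map_sum, ← (vec_sum m h1 _ _ fun g : S.M => hf _).2, this,
      vec_zero m h1, map_zero]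
  have h4 : ∀ γ ∈ Γ₁, ∀ q, m.M χ (m.J γ (ξ (S.c γ * q)) - ξ q) = 0 := fun γ hγ q => by
    have e1 : (fun a => f (S.c γ * q) (S.cjP γ a)) = f q := funext fun a => by
      change φ (_ • At (((γ : S.U₀) : unitary S.B) • a : S.X)) = _
      rw [hA.cj, mul_inv_rev, mul_smul, inv_smul_smul]
    simp only [ξ]
    rw [← E_J m hS, ← map_sub, ← E_M m hS hχ, map_sub, m.J_vec _ _ _ h1 (hf _), e1]
    simp only [← he]
    rw [m.M_vec _ _ _ hχ (cc_comp h1 _) (hf _), m.M_vec _ _ _ hχ h1 (hf _),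
      one _ _ fun z hz => h2 _ (.inr (.inr (Set.mem_biUnion hγ ⟨z, hz, rfl⟩))),
      one _ _ fun z hz => h2 _ (.inr (.inl hz)), sub_self, map_zero]
  have h5 := mem_closure m.T S.M (ξ := ξ) (fun q => Pj.E_mem m.T S.L₀ _) h3
  simp only [finsum_eq_sum_of_fintype (α := S.Q)] at hJ
  have h6 : ‖m.M F (ξ q₀)‖ ^ 2 ≤ C * ∑ q, ‖ξ q - ξ q‖ ^ 2 := by
    refine closure_minimal (t := {ζ₁ : S.Q → H | ‖m.M F (ξ q₀)‖ ^ 2 ≤ C * ∑ q, ‖ζ₁ q - ξ q‖ ^ 2}) ?_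
      (isClosed_le continuous_const (by fun_prop)) h5
    rintro ζ₁ ⟨m₁, hm₁, g1, -⟩
    obtain ⟨C', hC'⟩ := hJ m₁ hm₁
    have := closure_minimal (t := {ζ₂ : S.Q → H | ‖m.M F (ζ₂ q₀)‖ ^ 2 ≤ C * ∑ q, ‖ζ₁ q - ζ₂ q‖ ^ 2 +
      C' * ∑ γ ∈ Γ₁, ∑ q, ‖m.M χ (m.J γ (ζ₂ (S.c γ * q)) - ζ₂ q)‖ ^ 2})
      (s := {ζ : S.Q → H | ∃ n : ℕ, n ≠ 0 ∧ (∀ q, ζ q ∈ Pj.Fx m.T n S.L₀) ∧
        ∀ q, ∑ᶠ f : S.M, ζ (q * f) = 0})
      (fun ζ₂ ⟨m₂, hm₂, g2, g3⟩ => hC' m₂ hm₂ ζ₁ ζ₂ g3 g1 g2 q₀)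
      (isClosed_le (by fun_prop) (by fun_prop)) h5
    rwa [Set.mem_ofPred_eq, sum_eq_zero fun γ hγ => sum_eq_zero fun q _ => by rw [h4 γ hγ q]; simp,
      mul_zero, add_zero] at this
  simp only [sub_self, norm_zero, ne_eq, OfNat.ofNat_ne_zero, not_false_eq_true, zero_pow,
    sum_const_zero, mul_zero, sq_nonpos_iff, norm_eq_zero, ξ] at h6
  rw [← E_M m hS hF, m.M_vec _ _ _ hF h1 (hf _), one _ _ fun z hz => h2 _ (.inl hz)] at h6
  rw [top_inf_eq]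
  exact h6

end Crest.Agent.T24.Na
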