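import Crest.Agent.T24.NaOrDef_18
import Crest.Agent.T24.NaPos_84

/-!
# Row 24, NA/TW: the Poincaré inequality passes to the ultrapower.
-/

set_option autoImplicit false
set_option linter.unusedSectionVars false
set_option linter.style.haveILetI false

noncomputable section

namespace Crest.Agent.T24.Na

open Topology Filter MeasureTheory Set
open scoped ENNReal NNReal RealInnerProductSpace

universe u v w

namespace J98

section Bf
variable {I X : Type*} {𝒱 : Filter I} {ξ η : I → X → ℝ}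

theorem summ_mul {f g : X → ℝ} (hf : Summable fun a => f a ^ 2) (hg : Summable fun a => g a ^ 2) :
    Summable fun a => f a * g a :=
  Summable.of_norm_bounded (hf.add hg) fun a => by
    rw [Real.norm_eq_abs, abs_le]; constructor <;> nlinarith [sq_nonneg (f a + g a), sq_nonneg (f a - g a)]

theorem bf_zero : Bf 𝒱 (0 : I → X → ℝ) := ⟨0, by simp⟩

theorem bf_add (h : Bf 𝒱 ξ) (h' : Bf 𝒱 η) : Bf 𝒱 (ξ + η) := by
  obtain ⟨C, h⟩ := h
  obtain ⟨C', h'⟩ := h'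
  refine ⟨2 * C + 2 * C', ?_⟩
  filter_upwards [h, h'] with i ⟨h1, h2⟩ ⟨h3, h4⟩
  have h5 := (h1.mul_left 2).add (h3.mul_left 2)
  have h6 : ∀ a, (ξ + η) i a ^ 2 ≤ 2 * ξ i a ^ 2 + 2 * η i a ^ 2 := fun a => by
    simp only [Pi.add_apply]; nlinarith [sq_nonneg (ξ i a - η i a)]
  have h7 := h5.of_nonneg_of_le (fun a => sq_nonneg _) h6
  refine ⟨h7, (h7.tsum_le_tsum h6 h5).trans ?_⟩
  rw [(h1.mul_left 2).tsum_add (h3.mul_left 2), tsum_mul_left, tsum_mul_left]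
  linarith

theorem bf_mul {μ : I → X → ℝ} {A : ℝ} (hμ : ∀ i a, |μ i a| ≤ A) (h : Bf 𝒱 ξ) :
    Bf 𝒱 fun i a => μ i a * ξ i a := by
  obtain ⟨C, h⟩ := h
  refine ⟨A ^ 2 * C, ?_⟩
  filter_upwards [h] with i ⟨h1, h2⟩
  have h5 := h1.mul_left (A ^ 2)
  have h6 : ∀ a, (μ i a * ξ i a) ^ 2 ≤ A ^ 2 * ξ i a ^ 2 := fun a => by
    rw [mul_pow]
    exact mul_le_mul_of_nonneg_right (sq_le_sq' (abs_le.1 (hμ i a)).1 (abs_le.1 (hμ i a)).2)
      (sq_nonneg _)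
  have h7 := h5.of_nonneg_of_le (fun a => sq_nonneg _) h6
  refine ⟨h7, (h7.tsum_le_tsum h6 h5).trans ?_⟩
  rw [tsum_mul_left]
  exact mul_le_mul_of_nonneg_left h2 (sq_nonneg _)

theorem bf_smul (c : ℝ) (h : Bf 𝒱 ξ) : Bf 𝒱 (c • ξ) :=
  bf_mul (μ := fun _ _ => c) (fun _ _ => le_rfl) h

theorem bf_sub (h : Bf 𝒱 ξ) (h' : Bf 𝒱 η) : Bf 𝒱 (ξ - η) := by
  rw [sub_eq_add_neg, ← neg_one_smul ℝ η]; exact bf_add h (bf_smul _ h')

theorem bf_sum {ι : Type*} (s : Finset ι) {f : ι → I → X → ℝ} (h : ∀ j, Bf 𝒱 (f j)) :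
    Bf 𝒱 (∑ j ∈ s, f j) :=
  Finset.sum_induction _ _ (fun _ _ => bf_add) bf_zero fun j _ => h j

theorem bf_perm (σ : X ≃ X) (h : Bf 𝒱 ξ) : Bf 𝒱 fun i a => ξ i (σ a) := by
  obtain ⟨C, h⟩ := h
  refine ⟨C, ?_⟩
  filter_upwards [h] with i ⟨h1, h2⟩
  exact ⟨(σ.summable_iff (f := fun a => ξ i a ^ 2)).2 h1,
    (σ.tsum_eq fun a => ξ i a ^ 2).trans_le h2⟩

theorem bf_ev (h : Bf 𝒱 ξ) : ∀ᶠ i in 𝒱, Summable fun a => ξ i a ^ 2 :=
  h.choose_spec.mono fun _ h => h.1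

end Bf

section Cl
variable {I : Type} {X H : Type w} {𝒱 : Ultrafilter I} [NormedAddCommGroup H]
  [InnerProductSpace ℝ H] (u : Ult X 𝒱 H) {ξ η : I → X → ℝ}

theorem cl_add (h : Bf 𝒱 ξ) (h' : Bf 𝒱 η) : u.cl (ξ + η) = u.cl ξ + u.cl η := by
  refine u.dense.eq_of_inner_left (𝕜 := ℝ) ?_
  rintro _ ⟨ρ, hρ, rfl⟩
  rw [inner_add_left]
  refine tendsto_nhds_unique (u.inn _ _ (bf_add h h') hρ)
    (((u.inn _ _ h hρ).add (u.inn _ _ h' hρ)).congr' ?_)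
  filter_upwards [bf_ev h, bf_ev h', bf_ev hρ] with i h1 h2 h3
  rw [← (summ_mul h1 h3).tsum_add (summ_mul h2 h3)]
  simp only [Pi.add_apply, add_mul]

theorem cl_smul (c : ℝ) (h : Bf 𝒱 ξ) : u.cl (c • ξ) = c • u.cl ξ := by
  refine u.dense.eq_of_inner_left (𝕜 := ℝ) ?_
  rintro _ ⟨ρ, hρ, rfl⟩
  rw [real_inner_smul_left]
  refine tendsto_nhds_unique (u.inn _ _ (bf_smul c h) hρ)
    (((u.inn _ _ h hρ).const_mul c).congr fun i => ?_)
  rw [← tsum_mul_left]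
  simp only [Pi.smul_apply, smul_eq_mul, mul_assoc]

theorem cl_zero : u.cl 0 = 0 := by
  have := cl_smul u 0 (bf_zero (𝒱 := (𝒱 : Filter I)) (X := X))
  rwa [zero_smul, zero_smul] at this

theorem cl_sub (h : Bf 𝒱 ξ) (h' : Bf 𝒱 η) : u.cl (ξ - η) = u.cl ξ - u.cl η := by
  rw [sub_eq_add_neg, ← neg_one_smul ℝ η, cl_add u h (bf_smul _ h'), cl_smul u _ h', neg_one_smul,
    sub_eq_add_neg]

theorem cl_sum {ι : Type*} (s : Finset ι) {f : ι → I → X → ℝ} (h : ∀ j, Bf 𝒱 (f j)) :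
    u.cl (∑ j ∈ s, f j) = ∑ j ∈ s, u.cl (f j) := by
  classical
  induction s using Finset.induction_on with
  | empty => simpa using cl_zero u
  | insert a s ha ih => rw [Finset.sum_insert ha, Finset.sum_insert ha, cl_add u (h a) (bf_sum s h), ih]

theorem lim_sq (h : Bf 𝒱 ξ) : Tendsto (fun i => ∑' a, ξ i a ^ 2) 𝒱 (𝓝 (‖u.cl ξ‖ ^ 2)) := by
  have := u.inn _ _ h h
  rw [real_inner_self_eq_norm_sq] at this
  simpa only [sq] using this

theorem tr_cl [AddCommGroup X] (e : X) (h : Bf 𝒱 ξ) :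
    Pj.tr u.T e (u.cl ξ) = u.cl fun i a => ξ i (a + e) := by
  refine (u.P_cl (Equiv.addRight (-e)) ξ h).trans ?_
  simp

theorem J_cl (σ : Equiv.Perm X) (h : Bf 𝒱 ξ) : u.J σ (u.cl ξ) = u.cl fun i a => ξ i (σ a) :=
  u.P_cl σ⁻¹ ξ h

end Cl

section N2
variable (S : Sys.{u, v, w}) [Fintype S.Q] {R : ℕ} {K : Set S.Z} {η : S.X → S.Q → ℝ}

theorem n2_le {μ : S.X → ℝ} (hμ : ∀ a, S.pos R a ∈ K → μ a = 1)
    (hs : ∀ q, Summable fun a => (μ a * η a q) ^ 2) :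
    S.n2 R K η ≤ ENNReal.ofReal (∑ q, ∑' a, (μ a * η a q) ^ 2) := by
  rw [Sys.n2, tsum_fintype,
    ENNReal.ofReal_sum_of_nonneg fun q _ => tsum_nonneg fun a => sq_nonneg _]
  refine Finset.sum_le_sum fun q _ => ?_
  rw [ENNReal.ofReal_tsum_of_nonneg (fun a => sq_nonneg _) (hs q)]
  refine ENNReal.tsum_le_tsum fun a => ?_
  split_ifs with h
  · rw [hμ a h, one_mul]
  · exact zero_le

theorem n2_le' (hs : ∀ q, Summable fun a => η a q ^ 2) :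
    S.n2 R K η ≤ ENNReal.ofReal (∑ q, ∑' a, η a q ^ 2) := by
  simpa using n2_le S (R := R) (K := K) (η := η) (μ := fun _ => 1) (fun _ _ => rfl) (by simpa using hs)

theorem le_n2 {μ : S.X → ℝ} {A : ℝ} (hμ : ∀ a, S.pos R a ∉ K → μ a = 0) (hA : ∀ a, |μ a| ≤ A)
    (q : S.Q) (hs : Summable fun a => (μ a * η a q) ^ 2) :
    ENNReal.ofReal (∑' a, (μ a * η a q) ^ 2) ≤ ENNReal.ofReal (A ^ 2) * S.n2 R K η := by
  refine le_trans ?_ (mul_le_mul_right (ENNReal.le_tsum q) _)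
  rw [ENNReal.ofReal_tsum_of_nonneg (fun a => sq_nonneg _) hs, ← ENNReal.tsum_mul_left]
  refine ENNReal.tsum_le_tsum fun a => ?_
  split_ifs with h
  · rw [← ENNReal.ofReal_mul (sq_nonneg _), mul_pow]
    exact ENNReal.ofReal_le_ofReal (mul_le_mul_of_nonneg_right
      (sq_le_sq' (abs_le.1 (hA a)).1 (abs_le.1 (hA a)).2) (sq_nonneg _))
  · simp [hμ a h]

end N2

theorem conv {α β γ : Type*} {L A a : ℝ} {C C' : ℝ≥0} {s : Finset α} {t : Finset β} {r : Finset γ}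
    {b : α → ℝ} {c : β → ℝ} {d : γ → ℝ} {x a' : ℝ≥0∞} {b' : α → ℝ≥0∞} {c' : β → ℝ≥0∞}
    {d' : γ → ℝ≥0∞} (ha : 0 ≤ a) (hb : ∀ e, 0 ≤ b e) (hc : ∀ e, 0 ≤ c e) (hd : ∀ e, 0 ≤ d e)
    (h0 : ENNReal.ofReal L ≤ ENNReal.ofReal (A ^ 2) * x)
    (h : x ≤ C * (a' + ∑ e ∈ s, b' e) + C' * (∑ e ∈ t, c' e + ∑ e ∈ r, d' e))
    (h1 : a' ≤ ENNReal.ofReal a) (h2 : ∀ e ∈ s, b' e ≤ ENNReal.ofReal (b e))
    (h3 : ∀ e ∈ t, c' e ≤ ENNReal.ofReal (c e)) (h4 : ∀ e ∈ r, d' e ≤ ENNReal.ofReal (d e)) :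
    L ≤ A ^ 2 * (C * (a + ∑ e ∈ s, b e) + C' * (∑ e ∈ t, c e + ∑ e ∈ r, d e)) := by
  have sb : 0 ≤ ∑ e ∈ s, b e := Finset.sum_nonneg fun _ _ => hb _
  have sc : 0 ≤ ∑ e ∈ t, c e := Finset.sum_nonneg fun _ _ => hc _
  have sd : 0 ≤ ∑ e ∈ r, d e := Finset.sum_nonneg fun _ _ => hd _
  refine (ENNReal.ofReal_le_ofReal_iff (by positivity)).1
    (h0.trans ((mul_le_mul_right h _).trans ?_))
  rw [ENNReal.ofReal_mul (sq_nonneg _), ENNReal.ofReal_add (by positivity) (by positivity),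
    ENNReal.ofReal_mul C.coe_nonneg, ENNReal.ofReal_mul C'.coe_nonneg, ENNReal.ofReal_add ha sb,
    ENNReal.ofReal_add sc sd, ENNReal.ofReal_sum_of_nonneg fun _ _ => hb _,
    ENNReal.ofReal_sum_of_nonneg fun _ _ => hc _, ENNReal.ofReal_sum_of_nonneg fun _ _ => hd _]
  exact mul_le_mul_right (add_le_add (mul_le_mul' (by simp) (add_le_add h1 (Finset.sum_le_sum h2)))
    (mul_le_mul' (by simp) (add_le_add (Finset.sum_le_sum h3) (Finset.sum_le_sum h4)))) _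

/-- remove the mean along `M` -/
def mz {Q : Type} [Group Q] (M : Subgroup Q) [Fintype M] {V : Type*} [AddCommGroup V] [Module ℝ V]
    (ζ : Q → V) (q : Q) : V := ζ q - (Fintype.card M : ℝ)⁻¹ • ∑ f : M, ζ (q * f)

theorem sum_mz {Q : Type} [Group Q] (M : Subgroup Q) [Fintype M] {V : Type*} [AddCommGroup V]
    [Module ℝ V] (ζ : Q → V) (q : Q) : ∑ f : M, mz M ζ (q * f) = 0 := by
  have : ∀ f : M, ∑ f' : M, ζ (q * f * f') = ∑ f' : M, ζ (q * f') := fun f => by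
    rw [← Equiv.sum_comp (Equiv.mulLeft f) fun f' : M => ζ (q * f')]
    simp [mul_assoc]
  simp only [mz, this, Finset.sum_sub_distrib, Finset.sum_const, Finset.card_univ]
  rw [← Nat.cast_smul_eq_nsmul ℝ, smul_smul, mul_inv_cancel₀ (by simp), one_smul, sub_self]

end J98

open J98

theorem jlStmt (hJ : JcStmt.{u, v, w}) : JlStmt.{u, v, w} := by
  intro S hS _ 𝒱 h𝒱 H _ _ _ u F hF hD
  classical
  letI : Fintype S.Q := Fintype.ofFinite _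
  obtain ⟨K₁, Γ₁, C, hK₁, h⟩ := hJ S hS _ hF.2 hD
  haveI : LocallyCompactSpace (Mt S.d S.F) :=
    inferInstanceAs (LocallyCompactSpace (Fin S.d → Fin S.d → S.F))
  obtain ⟨χ, hχ, χ0, χ1, hχ1⟩ := P84.exists_bump hK₁
  obtain ⟨A, hA⟩ := hF.1.bounded_above_of_compact_support hF.2
  have hχA : ∀ z, |χ z| ≤ 1 := fun z => abs_le.2 ⟨neg_one_lt_zero.le.trans (χ0 z), χ1 z⟩
  refine ⟨χ, Γ₁, A ^ 2 * C, hχ, fun m₁ hm₁ => ?_⟩
  obtain ⟨C', h⟩ := h m₁ hm₁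
  refine ⟨A ^ 2 * C', fun m₂ hm₂ ζ₁ ζ₂ h0 h1 h2 q => ?_⟩
  obtain ⟨E₁, E₂, hE₁, hE₂, h⟩ := h m₂ hm₂
  have ht : Tendsto Prod.fst (𝒱 : Filter (ℕ × ℝ)) atTop := fun s hs =>
    h𝒱 (eventually_curry_iff (p := fun i : ℕ × ℝ => i.1 ∈ s).2
      (Eventually.mono hs fun R hR => Eventually.of_forall fun _ => hR))
  have hev' := ht.eventually h
  -- the inequality with the translation terms
  let P : (S.Q → H) → (S.Q → H) → Prop := fun ζ₁ ζ₂ =>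
    ‖u.Mu (fun i a => F (S.pos i.1 a)) (ζ₂ q)‖ ^ 2 ≤ A ^ 2 * (C * (∑ q, ‖ζ₁ q - ζ₂ q‖ ^ 2 +
      ∑ e ∈ E₁, ∑ q, ‖Pj.tr u.T e (ζ₁ q) - ζ₁ q‖ ^ 2) + C' * (∑ γ ∈ Γ₁, ∑ q,
        ‖u.Mu (fun i a => χ (S.pos i.1 a)) (u.J (S.cjP γ) (ζ₂ (S.c γ * q)) - ζ₂ q)‖ ^ 2 +
      ∑ e ∈ E₂, ∑ q, ‖Pj.tr u.T e (ζ₂ q) - ζ₂ q‖ ^ 2))
  have key : ∀ ξ₁ ξ₂ : S.Q → ℕ × ℝ → S.X → ℝ, (∀ q, Bf 𝒱 (ξ₁ q)) → (∀ q, Bf 𝒱 (ξ₂ q)) →
      (∀ q, ∑ f : S.M, ξ₂ (q * f) = 0) → P (fun q => u.cl (ξ₁ q)) fun q => u.cl (ξ₂ q) := by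
    intro ξ₁ ξ₂ b1 b2 hm
    have bF := bf_mul (μ := fun i a => F (S.pos i.1 a)) (fun _ _ => hA _) (b2 q)
    have b12 := fun q => bf_sub (b1 q) (b2 q)
    have bt1 := fun e q => bf_sub (bf_perm (Equiv.addRight e) (b1 q)) (b1 q)
    have bt2 := fun e q => bf_sub (bf_perm (Equiv.addRight e) (b2 q)) (b2 q)
    have bj := fun (γ : S.Γ) q => bf_sub (bf_perm (S.cjP γ) (b2 (S.c γ * q))) (b2 q)
    have bχ := fun (γ : S.Γ) q =>
      bf_mul (μ := fun i a => χ (S.pos i.1 a)) (fun _ _ => hχA _) (bj γ q)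
    simp only [P]
    simp only [tr_cl u _ (b1 _), tr_cl u _ (b2 _), J_cl u _ (b2 _), ← cl_sub u (b1 _) (b2 _)]
    have e1 : ∀ e q, (u.cl fun i a => ξ₁ q i (a + e)) - u.cl (ξ₁ q) = _ := fun e q =>
      (cl_sub u (bf_perm (Equiv.addRight e) (b1 q)) (b1 q)).symm
    have e2 : ∀ e q, (u.cl fun i a => ξ₂ q i (a + e)) - u.cl (ξ₂ q) = _ := fun e q =>
      (cl_sub u (bf_perm (Equiv.addRight e) (b2 q)) (b2 q)).symm
    have e3 := fun (γ : S.Γ) q => (cl_sub u (bf_perm (S.cjP γ) (b2 (S.c γ * q))) (b2 q)).symm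
    have e4 := fun (γ : S.Γ) q => u.Mu_cl (fun i a => χ (S.pos i.1 a)) 1 _
      (Eventually.of_forall fun _ _ => hχA _) (bj γ q)
    simp only [e1, e2, e3, e4]
    rw [u.Mu_cl _ A _ (Eventually.of_forall fun _ _ => hA _) (b2 q)]
    refine le_of_tendsto_of_tendsto (lim_sq u bF) (Tendsto.const_mul _ (Tendsto.add
      (Tendsto.const_mul _ (Tendsto.add (tendsto_finsetSum _ fun q _ => lim_sq u (b12 q))
        (tendsto_finsetSum _ fun e _ => tendsto_finsetSum _ fun q _ => lim_sq u (bt1 e q))))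
      (Tendsto.const_mul _ (Tendsto.add
        (tendsto_finsetSum _ fun γ _ => tendsto_finsetSum _ fun q _ => lim_sq u (bχ γ q))
        (tendsto_finsetSum _ fun e _ => tendsto_finsetSum _ fun q _ => lim_sq u (bt2 e q)))))) ?_
    filter_upwards [hev', bf_ev bF, eventually_all.2 fun q => bf_ev (b2 q),
      eventually_all.2 fun q => bf_ev (b12 q),
      (eventually_all_finset E₁).2 fun e _ => eventually_all.2 fun q => bf_ev (bt1 e q),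
      (eventually_all_finset E₂).2 fun e _ => eventually_all.2 fun q => bf_ev (bt2 e q),
      (eventually_all_finset Γ₁).2 fun γ _ => eventually_all.2 fun q => bf_ev (bχ γ q)]
      with i hi s0 s2 s12 st1 st2 sχ
    have hi' := hi (fun a q => ξ₁ q i a) (fun a q => ξ₂ q i a) (fun a q => by
      rw [finsum_eq_sum_of_fintype]
      simpa using congrFun (congrFun (hm q) i) a)
      (ne_top_of_le_ne_top ENNReal.ofReal_ne_top (n2_le' S s2))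
    have nn : ∀ f : S.Q → S.X → ℝ, 0 ≤ ∑ q, ∑' a, f q a ^ 2 := fun f =>
      Finset.sum_nonneg fun _ _ => tsum_nonneg fun _ => sq_nonneg _
    have g0 := le_n2 S (R := i.1) (K := tsupport F) (η := fun a q => ξ₂ q i a)
      (μ := fun a => F (S.pos i.1 a)) (fun a ha => image_eq_zero_of_notMem_tsupport ha)
      (fun _ => hA _) q s0
    exact conv (nn _) (fun _ => nn _) (fun _ => nn _) (fun _ => nn _) g0 hi' (n2_le' S s12)
      (fun e he => n2_le' S (st1 e he)) (fun γ hγ => n2_le S (μ := fun a => χ (S.pos i.1 a))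
        (fun a ha => hχ1 _ ha) (sχ γ hγ)) fun e he => n2_le' S (st2 e he)
  have hd := dense_pi (univ : Set S.Q) fun _ _ => u.dense
  have all : ∀ z : (S.Q → H) × (S.Q → H), P z.1 (mz S.M z.2) := fun z => by
    refine (hd.prod hd).induction (P := fun z => P z.1 (mz S.M z.2)) ?_ ?_ z
    · rintro ⟨z₁, z₂⟩ ⟨g1, g2⟩
      choose ξ₁ b1 e1 using fun q => g1 q (mem_univ q)
      choose ξ₂ b2 e2 using fun q => g2 q (mem_univ q)
      have b3 := fun q => bf_smul (Fintype.card S.M : ℝ)⁻¹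
        (bf_sum Finset.univ fun f : S.M => b2 (q * f))
      have := key ξ₁ (mz S.M ξ₂) b1 (fun q => bf_sub (b2 q) (b3 q)) (sum_mz S.M ξ₂)
      convert this using 2 with q q
      · exact (e1 q).symm
      · rw [mz, mz, cl_sub u (b2 q) (b3 q), cl_smul u _ (bf_sum _ fun f : S.M => b2 (q * f)),
          cl_sum u _ fun f : S.M => b2 (q * f), e2]
        simp only [e2]
    · simp only [P, mz]
      exact isClosed_le (by fun_prop) (by fun_prop)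
  have e0 : mz S.M ζ₂ = ζ₂ := funext fun q => by
    rw [mz, ← finsum_eq_sum_of_fintype, h0, smul_zero, sub_zero]
  have := all (ζ₁, ζ₂)
  rw [e0] at this
  have z1 : ∑ e ∈ E₁, ∑ q, ‖Pj.tr u.T e (ζ₁ q) - ζ₁ q‖ ^ 2 = 0 :=
    Finset.sum_eq_zero fun e he => Finset.sum_eq_zero fun q _ => by
      obtain ⟨b, hb, rfl⟩ := hE₁ e he
      simp [h1 q b hb]
  have z2 : ∑ e ∈ E₂, ∑ q, ‖Pj.tr u.T e (ζ₂ q) - ζ₂ q‖ ^ 2 = 0 :=
    Finset.sum_eq_zero fun e he => Finset.sum_eq_zero fun q _ => by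
      obtain ⟨b, hb, rfl⟩ := hE₂ e he
      simp [h2 q b hb]
  simp only [P, z1, z2, add_zero] at this
  simp only [finsum_eq_sum_of_fintype]
  linarith

end Crest.Agent.T24.Na
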