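import Crest.Agent.T24.NaOrDef_18
import Crest.Agent.T24.NaPos_84

/-!
# Row 24, module NA (helper23): calculus in an ultrapower; the limit model exists
-/

set_option autoImplicit false
set_option linter.unusedSectionVars false

noncomputable section

namespace Crest.Agent.T24.Na

open Topology Filter MeasureTheory
open scoped RealInnerProductSpace

universe u v w

namespace M23

section Ult
variable {I : Type} {X H : Type w} {𝒱 : Ultrafilter I} [NormedAddCommGroup H]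
  [InnerProductSpace ℝ H] (u : Ult X 𝒱 H) {ξ η μ : I → X → ℝ}

theorem summable_mul {x y : X → ℝ} (hx : Summable fun a => x a ^ 2)
    (hy : Summable fun a => y a ^ 2) : Summable fun a => x a * y a :=
  (hx.add hy).of_norm_bounded fun a => by
    rw [Real.norm_eq_abs, abs_le]
    constructor <;> nlinarith [sq_nonneg (x a + y a), sq_nonneg (x a - y a)]

theorem bf_le (h : Bf 𝒱 ξ) (h' : Bf 𝒱 η) (C : ℝ)
    (hle : ∀ᶠ i in 𝒱, ∀ a, μ i a ^ 2 ≤ C ^ 2 * (ξ i a ^ 2 + η i a ^ 2)) : Bf 𝒱 μ := by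
  obtain ⟨D, h⟩ := h
  obtain ⟨D', h'⟩ := h'
  refine ⟨C ^ 2 * (D + D'), ?_⟩
  filter_upwards [h, h', hle] with i h1 h2 h3
  have h4 := (h1.1.add h2.1).mul_left (C ^ 2)
  have h5 := h4.of_nonneg_of_le (fun a => sq_nonneg _) h3
  refine ⟨h5, (h5.tsum_le_tsum h3 h4).trans ?_⟩
  rw [tsum_mul_left, h1.1.tsum_add h2.1]
  gcongr
  exacts [h1.2, h2.2]

theorem bf_add (h : Bf 𝒱 ξ) (h' : Bf 𝒱 η) : Bf 𝒱 (ξ + η) :=
  bf_le h h' 2 (.of_forall fun i a => by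
    simp only [Pi.add_apply]
    nlinarith [sq_nonneg (ξ i a - η i a), sq_nonneg (ξ i a), sq_nonneg (η i a)])

theorem sq_le {x y C : ℝ} (h : |x| ≤ C) : (x * y) ^ 2 ≤ C ^ 2 * y ^ 2 := by
  rw [mul_pow, ← sq_abs x]; gcongr

theorem bf_mul (h : Bf 𝒱 ξ) {C : ℝ} (hμ : ∀ᶠ i in 𝒱, ∀ a, |μ i a| ≤ C) :
    Bf 𝒱 fun i a => μ i a * ξ i a :=
  bf_le h h C (hμ.mono fun i hi a => (sq_le (hi a)).trans (by gcongr; nlinarith [sq_nonneg (ξ i a)]))

theorem bf_smul (c : ℝ) (h : Bf 𝒱 ξ) : Bf 𝒱 (c • ξ) :=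
  bf_mul (μ := fun _ _ => c) h (.of_forall fun _ _ => le_rfl)

theorem bf_comp (h : Bf 𝒱 ξ) (σ : Equiv.Perm X) : Bf 𝒱 fun i a => ξ i (σ a) :=
  h.imp fun _ hC => hC.mono fun i hi => ⟨(σ.summable_iff (f := fun a => ξ i a ^ 2)).2 hi.1,
    (σ.tsum_eq fun a => ξ i a ^ 2).trans_le hi.2⟩

theorem norm_cl (h : Bf 𝒱 ξ) : Tendsto (fun i => ∑' a, ξ i a ^ 2) 𝒱 (𝓝 (‖u.cl ξ‖ ^ 2)) := by
  simpa only [real_inner_self_eq_norm_sq, ← sq] using u.inn ξ ξ h h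

theorem ind {p : H → Prop} (hp : IsClosed {x | p x}) (h : ∀ ξ, Bf 𝒱 ξ → p (u.cl ξ)) (x : H) : p x :=
  u.dense.induction (by rintro _ ⟨ξ, hξ, rfl⟩; exact h ξ hξ) hp x

theorem cl_add (h : Bf 𝒱 ξ) (h' : Bf 𝒱 η) : u.cl (ξ + η) = u.cl ξ + u.cl η := by
  refine ext_inner_right ℝ (ind u (isClosed_eq (by fun_prop) (by fun_prop)) fun ζ hζ => ?_)
  rw [inner_add_left]
  refine tendsto_nhds_unique (u.inn _ _ (bf_add h h') hζ)
    (((u.inn _ _ h hζ).add (u.inn _ _ h' hζ)).congr' ?_)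
  obtain ⟨_, h⟩ := h
  obtain ⟨_, h'⟩ := h'
  obtain ⟨_, hζ⟩ := hζ
  filter_upwards [h, h', hζ] with i h1 h2 h3
  simp only [Pi.add_apply, add_mul]
  exact ((summable_mul h1.1 h3.1).tsum_add (summable_mul h2.1 h3.1)).symm

theorem cl_smul (c : ℝ) (h : Bf 𝒱 ξ) : u.cl (c • ξ) = c • u.cl ξ := by
  refine ext_inner_right ℝ (ind u (isClosed_eq (by fun_prop) (by fun_prop)) fun ζ hζ => ?_)
  rw [real_inner_smul_left]
  refine tendsto_nhds_unique (u.inn _ _ (bf_smul c h) hζ)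
    (((u.inn _ _ h hζ).const_mul c).congr fun i => ?_)
  simp only [Pi.smul_apply, smul_eq_mul, mul_assoc, tsum_mul_left]

theorem bf_sub (h : Bf 𝒱 ξ) (h' : Bf 𝒱 η) : Bf 𝒱 (ξ - η) := by
  simpa [sub_eq_add_neg] using bf_add h (bf_smul (-1) h')

theorem cl_sub (h : Bf 𝒱 ξ) (h' : Bf 𝒱 η) : u.cl (ξ - η) = u.cl ξ - u.cl η := by
  rw [eq_sub_iff_add_eq, ← cl_add u (bf_sub h h') h', sub_add_cancel]

theorem norm_mul_le (h : Bf 𝒱 ξ) {C : ℝ} (hC : 0 ≤ C) (hμ : ∀ᶠ i in 𝒱, ∀ a, |μ i a| ≤ C) :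
    ‖u.cl fun i a => μ i a * ξ i a‖ ≤ C * ‖u.cl ξ‖ := by
  refine (pow_le_pow_iff_left₀ (norm_nonneg _) (by positivity) two_ne_zero).1 ?_
  rw [mul_pow]
  refine le_of_tendsto_of_tendsto (norm_cl u (bf_mul h hμ)) ((norm_cl u h).const_mul _) ?_
  obtain ⟨_, h1⟩ := bf_mul h hμ
  obtain ⟨_, h⟩ := h
  filter_upwards [h, h1, hμ] with i h2 h3 h4
  rw [← tsum_mul_left]
  exact h3.1.tsum_le_tsum (fun a => sq_le (h4 a)) (h2.1.mul_left _)

theorem Mu_adj {C : ℝ} (hμ : ∀ᶠ i in 𝒱, ∀ a, |μ i a| ≤ C) (x y : H) :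
    ⟪u.Mu μ x, y⟫ = ⟪x, u.Mu μ y⟫ := by
  refine ind u (p := fun x => ⟪u.Mu μ x, y⟫ = ⟪x, u.Mu μ y⟫) (isClosed_eq (by fun_prop)
    (by fun_prop)) (fun ξ hξ => ?_) x
  refine ind u (p := fun y => ⟪u.Mu μ (u.cl ξ), y⟫ = ⟪u.cl ξ, u.Mu μ y⟫) (isClosed_eq (by fun_prop)
    (by fun_prop)) (fun η hη => ?_) y
  rw [u.Mu_cl _ _ _ hμ hξ, u.Mu_cl _ _ _ hμ hη]
  exact tendsto_nhds_unique (u.inn _ _ (bf_mul hξ hμ) hη)
    ((u.inn _ _ hξ (bf_mul hη hμ)).congr fun i => tsum_congr fun a => by ring)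

theorem J_cl (σ : Equiv.Perm X) (h : Bf 𝒱 ξ) : u.J σ (u.cl ξ) = u.cl fun i a => ξ i (σ a) :=
  u.P_cl _ _ h

variable [AddCommGroup X]

theorem T_eq (b : X) : Pj.tr u.T b = u.J (Equiv.addRight b) :=
  congrArg u.P (Equiv.ext fun _ => rfl)

theorem J_T {σ : Equiv.Perm X} {b b' : X} (h : ∀ a, σ (a + b) = σ a + b') (x : H) :
    u.J σ (Pj.tr u.T b' x) = Pj.tr u.T b (u.J σ x) := by
  have : σ⁻¹ * (Equiv.addRight b')⁻¹ = (Equiv.addRight b)⁻¹ * σ⁻¹ := by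
    rw [← mul_inv_rev, ← mul_inv_rev]; exact congrArg _ (Equiv.ext fun a => (h a).symm)
  rw [T_eq, T_eq]
  change (u.P _ * u.P _) x = (u.P _ * u.P _) x
  rw [← map_mul, ← map_mul, this]

theorem Mu_T {C η : ℝ} (b : X) (hη : 0 ≤ η) (hμ : ∀ᶠ i in 𝒱, ∀ a, |μ i a| ≤ C)
    (h : ∀ᶠ i in 𝒱, ∀ a, |μ i (a + b) - μ i a| ≤ η) (x : H) :
    ‖Pj.tr u.T b (u.Mu μ x) - u.Mu μ (Pj.tr u.T b x)‖ ≤ η * ‖x‖ := by
  rw [T_eq]
  refine ind u (p := fun x => ‖u.J (Equiv.addRight b) (u.Mu μ x) -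
    u.Mu μ (u.J (Equiv.addRight b) x)‖ ≤ η * ‖x‖) (isClosed_le (by fun_prop) (by fun_prop))
    (fun ξ hξ => ?_) x
  have h1 := bf_comp hξ (Equiv.addRight b)
  rw [← (u.J (Equiv.addRight b)).norm_map (u.cl ξ), u.Mu_cl _ _ _ hμ hξ, J_cl u _ (bf_mul hξ hμ),
    J_cl u _ hξ, u.Mu_cl _ _ _ hμ h1, ← cl_sub u (bf_comp (bf_mul hξ hμ) _) (bf_mul h1 hμ)]
  refine le_of_eq_of_le ?_ (norm_mul_le u h1 hη h)
  congr 2
  ext i a
  simp [sub_mul]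

end Ult

section Sy
variable {S : Sys.{u, v, w}} (β₀ : S.Z → ℝ)

/-- the normalised weights -/
def wt (i : ℕ × ℝ) (a : S.X) : ℝ := S.w i.2 a / ∫ z, β₀ (S.sc i.1 z) ∂S.lam

/-- the family `√w · F ∘ pos · h` -/
def fam (F : S.Z → ℝ) (h : S.X → ℝ) (i : ℕ × ℝ) (a : S.X) : ℝ :=
  √(wt β₀ i a) * (F (S.pos i.1 a) * h a)

variable {β₀} (hS : S.Ok) (hA : S.Api) (h0 : 0 ≤ β₀) {𝒱 : Ultrafilter (ℕ × ℝ)}
  (hV : (𝒱 : Filter (ℕ × ℝ)) ≤ lim₂) {H : Type w} [NormedAddCommGroup H] [InnerProductSpace ℝ H]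
  (u : Ult S.X 𝒱 H) {F G φ : S.Z → ℝ} {h h' : S.X → ℝ}

include hV in
theorem ev_fst {p : ℕ → Prop} (hp : ∀ᶠ R in atTop, p R) : ∀ᶠ i : ℕ × ℝ in 𝒱, p i.1 :=
  hV (eventually_curry_iff.2 (hp.mono fun _ hR => .of_forall fun _ => hR))

theorem cc_bd (hF : Cc F) : ∃ C, ∀ z, |F z| ≤ C := hF.1.bounded_above_of_compact_support hF.2

include hS h0 in
theorem wt_nonneg (i : ℕ × ℝ) (a : S.X) : 0 ≤ wt β₀ i a :=
  div_nonneg (hS.w_nonneg _ _) (integral_nonneg fun z => h0 (S.sc i.1 z))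

include hS hA h0 hV

theorem dom (hφ : Cc φ) {ξ : ℕ × ℝ → S.X → ℝ}
    (hξ : ∀ᶠ i in 𝒱, ∀ a, ξ i a ^ 2 ≤ wt β₀ i a * φ (S.pos i.1 a)) :
    Bf 𝒱 ξ ∧ ‖u.cl ξ‖ ^ 2 ≤ (∫ z, β₀ z ∂S.lam)⁻¹ * ∫ z, φ z ∂S.lam := by
  have e : ∀ i : ℕ × ℝ, (fun a => wt β₀ i a * φ (S.pos i.1 a)) = fun a : S.X =>
      S.w i.2 a * φ (S.sc i.1 (S.iJ a)) / ∫ z, β₀ (S.sc i.1 z) ∂S.lam := fun i =>
    funext fun a => div_mul_eq_mul_div _ _ _
  have h1 : ∀ᶠ i : ℕ × ℝ in 𝒱, Summable fun a => wt β₀ i a * φ (S.pos i.1 a) :=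
    hV (eventually_curry_iff.2 (.of_forall fun R => eventually_mem_nhdsWithin.mono fun s hs => by
      rw [e]; exact (hS.w_sum _ (P84.cc_comp hφ (S.sc R).toHomeomorph) s hs).div_const _))
  have h2 : Tendsto (fun i : ℕ × ℝ => ∑' a, wt β₀ i a * φ (S.pos i.1 a)) 𝒱
      (𝓝 ((∫ z, β₀ z ∂S.lam)⁻¹ * ∫ z, φ z ∂S.lam)) := fun U hU =>
    hV (eventually_curry_iff.2 (.of_forall fun R => by
      obtain ⟨κ, hκ, hk⟩ := hA.haar R
      have := (hS.w_eq _ (P84.cc_comp hφ (S.sc R).toHomeomorph)).div_const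
        (∫ z, β₀ (S.sc R z) ∂S.lam)
      rw [show ∫ z, φ ((S.sc R).toHomeomorph z) ∂S.lam = _ from hk φ, show (κ * ∫ z, φ z ∂S.lam) /
        ∫ z, β₀ (S.sc R z) ∂S.lam = _ by rw [hk, mul_div_mul_left _ _ hκ.ne', div_eq_inv_mul]] at this
      simp only [e, tsum_div_const]
      exact this hU))
  have h3 : ∀ᶠ i in 𝒱, Summable (fun a => ξ i a ^ 2) ∧
      ∑' a, ξ i a ^ 2 ≤ ∑' a, wt β₀ i a * φ (S.pos i.1 a) := by
    filter_upwards [h1, hξ] with i h1 h2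
    have := h1.of_nonneg_of_le (fun a => sq_nonneg _) h2
    exact ⟨this, this.tsum_le_tsum h2 h1⟩
  have h4 : Bf 𝒱 ξ := ⟨_, (h3.and (h2.eventually (gt_mem_nhds (lt_add_one _)))).mono
    fun i hi => ⟨hi.1.1, hi.1.2.trans hi.2.le⟩⟩
  exact ⟨h4, le_of_tendsto_of_tendsto (norm_cl u h4) h2 (h3.mono fun i hi => hi.2)⟩

theorem fam_bd {C : ℝ} (hF : Cc F) (hh : ∀ a, |h a| ≤ C) : Bf 𝒱 (fam β₀ F h) ∧
    ‖u.cl (fam β₀ F h)‖ ^ 2 ≤ (∫ z, β₀ z ∂S.lam)⁻¹ * C ^ 2 * ∫ z, F z ^ 2 ∂S.lam := by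
  have := dom hS hA h0 hV u (P84.cc_smul (C ^ 2) (P84.cc_mul hF hF.1)) (ξ := fam β₀ F h)
    (.of_forall fun i a => by
      have := wt_nonneg hS h0 i a
      rw [fam, mul_pow, Real.sq_sqrt this, mul_comm (F _)]
      exact mul_le_mul_of_nonneg_left ((sq_le (hh a)).trans_eq (by simp [sq])) this)
  simpa only [Pi.smul_apply, Pi.mul_apply, smul_eq_mul, integral_const_mul, sq, mul_assoc]
    using this

include u in
theorem bf_fam (hF : Cc F) (hh : Bd h) : Bf 𝒱 (fam β₀ F h) :=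
  (fam_bd hS hA h0 hV u hF hh.choose_spec).1

theorem comp_vec (σ : Equiv.Perm S.X) (m : S.Z ≃ₜ S.Z) (hw : ∀ s a, S.w s (σ a) = S.w s a)
    (hc : S.Comp σ m) (hF : Cc F) (hh : Bd h) :
    u.J σ (u.cl (fam β₀ F h)) = u.cl (fam β₀ (fun z => F (m z)) fun a => h (σ a)) := by
  have : LocallyCompactSpace (Mt S.d S.F) :=
    inferInstanceAs (LocallyCompactSpace (Fin S.d → Fin S.d → S.F))
  have b1 := bf_fam hS hA h0 hV u hF hh
  have b2 := bf_fam hS hA h0 hV u (P84.cc_comp hF m) (hh.imp fun C hC a => hC (σ a))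
  obtain ⟨C, hC⟩ := hh
  obtain ⟨χ, hχ, χ0, -, χ1⟩ := P84.exists_bump (K := tsupport F) hF.2
  rw [J_cl u _ b1, ← sub_eq_zero, ← cl_sub u (bf_comp b1 σ) b2, ← norm_eq_zero, ← sq_eq_zero_iff]
  have ht : ∀ K : ℝ, Tendsto (fun η : ℝ => η ^ 2 * K) (𝓝[>] 0) (𝓝 0) := fun K =>
    (Continuous.tendsto' (by fun_prop) 0 0 (by simp)).mono_left nhdsWithin_le_nhds
  refine le_antisymm (ge_of_tendsto (ht ((∫ z, β₀ z ∂S.lam)⁻¹ * (C ^ 2 * 2 *
    ∫ z, χ (m z) ∂S.lam))) (eventually_mem_nhdsWithin.mono fun η hη => ?_)) (sq_nonneg _)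
  refine (dom hS hA h0 hV u (P84.cc_smul (η ^ 2 * (C ^ 2 * 2)) (P84.cc_comp hχ m)) ?_).2.trans_eq ?_
  · filter_upwards [ev_fst hV (hc F hF η hη), ev_fst hV (hc χ hχ (1 / 2) one_half_pos)]
      with i h1 h2 a
    have h3 := wt_nonneg hS h0 i a
    have h4 : wt β₀ i (σ a) = wt β₀ i a := by rw [wt, hw, wt]
    have h5 : ((F (S.pos i.1 (σ a)) - F (m (S.pos i.1 a))) * h (σ a)) ^ 2 ≤
        η ^ 2 * (C ^ 2 * 2) * χ (m (S.pos i.1 a)) := by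
      have h6 : (h (σ a) * 1) ^ 2 ≤ C ^ 2 * 1 ^ 2 := sq_le (hC _)
      have h7 := (sq_le (h1 a)).trans (mul_le_mul_of_nonneg_left (mul_one (h _) ▸ h6) (sq_nonneg η))
      have h8 := abs_le.1 (h2 a)
      have h9 : 0 ≤ η ^ 2 * C ^ 2 := by positivity
      by_cases e1 : F (S.pos i.1 (σ a)) = 0
      · by_cases e2 : F (m (S.pos i.1 a)) = 0
        · have := χ0 (m (S.pos i.1 a))
          rw [e1, e2, sub_zero, zero_mul, sq, zero_mul]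
          exact mul_nonneg (by positivity) this
        · rw [χ1 _ (subset_tsupport _ e2)]
          nlinarith
      · rw [χ1 _ (subset_tsupport _ e1)] at h8
        nlinarith
    simp only [Pi.sub_apply, fam, h4, ← mul_sub, ← sub_mul, mul_pow (√_), Real.sq_sqrt h3]
    exact mul_le_mul_of_nonneg_left h5 h3
  · simp only [Pi.smul_apply, smul_eq_mul, integral_const_mul]
    ring

end Sy

end M23

open M23

theorem modStmt (hU : UltStmt.{w}) (hA : ApiStmt.{u, v, w}) (hJ : JlStmt.{u, v, w}) :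
    ModStmt.{u, v, w} := by
  intro S hS β₀ _ h0 _ 𝒱 hV
  obtain ⟨H, _, _, _, ⟨u⟩⟩ := hU (ℕ × ℝ) S.X 𝒱
  replace hA := hA S hS
  have bf : ∀ {F h}, Cc F → Bd h → Bf 𝒱 (fam β₀ F h) := bf_fam hS hA h0 hV u
  have bd : ∀ {F}, Cc F → ∃ C, ∀ᶠ i : ℕ × ℝ in 𝒱, ∀ a, |F (S.pos i.1 a)| ≤ C := fun hF =>
    (cc_bd hF).imp fun C hC => .of_forall fun _ _ => hC _
  have hc : 0 ≤ (∫ z, β₀ z ∂S.lam)⁻¹ := inv_nonneg.2 (integral_nonneg h0)
  refine ⟨H, _, _, ‹_›,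
    { T := u.T
      J := fun γ => u.J (S.cjP γ)
      M := fun F => u.Mu fun i a => F (S.pos i.1 a)
      vec := fun F h => u.cl (fam β₀ F h)
      c₀ := (∫ z, β₀ z ∂S.lam)⁻¹
      c₀_nonneg := hc
      M_adj := fun F hF => Mu_adj u (bd hF).choose_spec
      M_vec := fun F G h hF hG hh => (u.Mu_cl _ _ _ (bd hF).choose_spec (bf hG hh)).trans
        (congrArg u.cl (by ext i a; simp only [fam, Pi.mul_apply]; ring))
      M_T := fun F hF η hη => ?_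
      vec_add := fun F G h hF hG hh => (congrArg u.cl (by
        ext i a; simp only [fam, Pi.add_apply]; ring)).trans (cl_add u (bf hF hh) (bf hG hh))
      vec_smul := fun c F h hF hh => (congrArg u.cl (by
        ext i a; simp only [fam, Pi.smul_apply, smul_eq_mul]; ring)).trans (cl_smul u c (bf hF hh))
      vec_add' := fun F h h' hF hh hh' => (congrArg u.cl (by
        ext i a; simp only [fam, Pi.add_apply]; ring)).trans (cl_add u (bf hF hh) (bf hF hh'))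
      vec_norm := fun F h C hF hh => (fam_bd hS hA h0 hV u hF hh).2
      vec_T := fun F h hF hh η hη => ?_
      J_T := fun γ b => J_T u fun a => Subtype.ext (by
        simp [Sys.cjP, coe_cj, mul_add, add_mul])
      J_vec := fun γ F h hF hh => ?_
      ac_cc := fun γ => (hA.cj γ).imp fun m hm => hm.1
      W := fun g hg => ?_
      jl := hJ S hS hA 𝒱 hV H u }, fun F G h h' hF hG hh hh' => ?_⟩
  · obtain ⟨n, hn⟩ := hA.tr F hF (η / 2) (half_pos hη)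
    refine ⟨n, fun b hb => ?_⟩
    obtain ⟨t, h1, h2, -⟩ := hn b hb
    refine Mu_T u _ hη.le (bd hF).choose_spec
      ((ev_fst hV (h1 F hF _ (half_pos hη))).mono fun i hi a => ?_)
    exact (abs_sub_le _ _ _).trans ((add_le_add (hi a) (h2 _)).trans_eq (add_halves η))
  · obtain ⟨C, hC⟩ := id hh
    have hp : 0 < (∫ z, β₀ z ∂S.lam)⁻¹ * C ^ 2 + 1 := by positivity
    obtain ⟨n, hn⟩ := hA.tr F hF (η ^ 2 / ((∫ z, β₀ z ∂S.lam)⁻¹ * C ^ 2 + 1)) (by positivity)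
    refine ⟨n, fun b hb hp => ?_⟩
    obtain ⟨t, h1, -, h2⟩ := hn b hb
    have hF' := P84.cc_comp hF (Homeomorph.addRight t)
    have hL : S.N ^ n • b ∈ S.L :=
      (hS.L_iff _).2 ⟨0, by rw [pow_zero, one_smul]; exact S.L₀.nsmul_mem hb _⟩
    rw [T_eq, comp_vec hS hA h0 hV u (Equiv.addRight (S.N ^ n • b)) (Homeomorph.addRight t)
      (fun s a => hS.w_add s a _ hL) h1 hF hh,
      show (fun a => h (Equiv.addRight (S.N ^ n • b) a)) = h from funext hp,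
      ← cl_sub u (bf hF' hh) (bf hF hh), show fam β₀ (fun z => F (Homeomorph.addRight t z)) h -
        fam β₀ F h = fam β₀ ((fun z => F (Homeomorph.addRight t z)) - F) h by
          ext i a; simp only [fam, Pi.sub_apply]; ring]
    refine (pow_le_pow_iff_left₀ (norm_nonneg _) hη.le two_ne_zero).1
      ((fam_bd hS hA h0 hV u (P84.cc_sub hF' hF) hC).2.trans
        ((mul_le_mul_of_nonneg_left h2 (by positivity)).trans ?_))
    rw [mul_div_assoc', div_le_iff₀ (by positivity)]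
    nlinarith [sq_nonneg η]
  · obtain ⟨m, h1, h2⟩ := hA.cj γ
    rw [comp_vec hS hA h0 hV u _ m (fun s a => hS.w_cj s γ a)
      (fun F _ η hη => .of_forall fun R a => by simpa [h2] using hη.le) hF hh]
    simp only [h1]
  · obtain ⟨σ, α, m, h1, h2, h3, h4⟩ := hA.ap g
    refine ⟨u.J σ, σ, α, m, h1, h2, h3, fun b => J_T u fun a => Subtype.ext ?_, fun F h =>
      comp_vec hS hA h0 hV u σ m (fun s a => by rw [h1, hg.w_ap]) h4⟩
    simp only [h1, h2, AddSubgroup.coe_add, Aff.ap, Aff.lin, mul_add, add_mul, smul_add]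
    abel
  · refine (u.inn _ _ (bf hF hh) (bf hG hh')).congr fun i => ?_
    rw [← tsum_div_const]
    refine tsum_congr fun a => ?_
    rw [fam, fam, mul_mul_mul_comm, Real.mul_self_sqrt (wt_nonneg hS h0 i a), wt]
    ring

end Crest.Agent.T24.Na
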