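import Crest.Agent.T24.NaUl2_34
import Crest.Agent.T24.NaPos_84

/-!
# Row 24, module NA: the intermediate types vanish (`TypStmt`).
-/

set_option autoImplicit false
set_option linter.unusedSectionVars false

noncomputable section

namespace Crest.Agent.T24.Na

open Filter Topology MeasureTheory Module
open scoped RealInnerProductSpace

universe u v w

namespace T34

section Cj
variable {k R : Type*} [Field k] [Ring R] [StarRing R] [Algebra k R]

/-- conjugation as a linear equivalence -/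
def cjE (u : unitary R) : R ≃ₗ[k] R :=
  { (LinearMap.mulRight k (star (u : R))).comp (LinearMap.mulLeft k (u : R)) with
    invFun := fun y => star (u : R) * y * u
    left_inv := fun y => by
      change star (u : R) * ((u : R) * y * star (u : R)) * u = y
      rw [← mul_assoc, ← mul_assoc, u.2.1, one_mul, mul_assoc, u.2.1, mul_one]
    right_inv := fun y => by
      change (u : R) * (star (u : R) * y * u) * star (u : R) = y
      rw [← mul_assoc, ← mul_assoc, u.2.2, one_mul, mul_assoc, u.2.2, mul_one] }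

theorem cjE_apply (u : unitary R) (y : R) : cjE (k := k) u y = (u : R) * y * star (u : R) := rfl

theorem cjV_eq (u : unitary R) (V : Submodule k R) : cjV u V = V.map (cjE u).toLinearMap := rfl

theorem cj_mem {u : unitary R} {V : Submodule k R} {y : R} :
    (u : R) * y * star (u : R) ∈ cjV u V ↔ y ∈ V :=
  ⟨fun ⟨_, hz, e⟩ => (cjE (k := k) u).injective e ▸ hz, fun h => ⟨y, h, rfl⟩⟩

theorem cjV_one (V : Submodule k R) : cjV 1 V = V := by
  ext y
  simpa using cj_mem (u := (1 : unitary R)) (V := V) (y := y)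

theorem cjV_mul (u u' : unitary R) (V : Submodule k R) : cjV (u * u') V = cjV u (cjV u' V) := by
  ext y
  obtain ⟨y, rfl⟩ := (cjE (k := k) (u * u')).surjective y
  rw [cjE_apply, cj_mem, show ((u * u' : unitary R) : R) * y * star ((u * u' : unitary R) : R) =
    u * (u' * y * star (u' : R)) * star (u : R) by simp [mul_assoc], cj_mem, cj_mem]

/-- hermitian subspaces which strictly contain the scalars -/
structure Gd (V : Submodule k R) : Prop where
  herm : ∀ y ∈ V, star y = y
  one : 1 ∈ V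
  ns : ∃ y ∈ V, ∀ r : k, y ≠ r • 1

theorem Gd.sup {V W : Submodule k R} (h : Gd V) (h' : Gd W) : Gd (V ⊔ W) where
  herm y hy := by
    obtain ⟨a, ha, b, hb, rfl⟩ := Submodule.mem_sup.1 hy
    rw [star_add, h.herm a ha, h'.herm b hb]
  one := Submodule.mem_sup_left h.one
  ns := let ⟨y, hy, h1⟩ := h.ns; ⟨y, Submodule.mem_sup_left hy, h1⟩

theorem star_cj (u : unitary R) {y : R} (h : star y = y) :
    star ((u : R) * y * star (u : R)) = (u : R) * y * star (u : R) := by
  simp [h, mul_assoc]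

theorem Gd.cj {V : Submodule k R} (h : Gd V) (u : unitary R) : Gd (cjV u V) where
  herm := by rintro _ ⟨y, hy, rfl⟩; exact star_cj u (h.herm y hy)
  one := by simpa [u.2.2] using (cj_mem (u := u)).2 h.one
  ns := by
    obtain ⟨y, hy, h1⟩ := h.ns
    refine ⟨_, cj_mem.2 hy, fun r e => h1 r ((cjE (k := k) u).injective ?_)⟩
    rw [cjE_apply, e, map_smul, cjE_apply, mul_one, u.2.2]

variable (k R) in
/-- the proper types of dimension `r` -/
def Ty (r : ℕ) : Type _ :=
  {V : Submodule k R // Gd V ∧ (∃ y, star y = y ∧ y ∉ V) ∧ finrank k V = r}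

instance (r : ℕ) : MulAction (unitary R) (Ty k R r) where
  smul u V := ⟨cjV u V.1, V.2.1.cj u,
    let ⟨_, h1, h2⟩ := V.2.2.1; ⟨_, star_cj u h1, fun h => h2 (cj_mem.1 h)⟩,
    ((cjE u).finrank_map_eq V.1).trans V.2.2.2⟩
  one_smul V := Subtype.ext (cjV_one V.1)
  mul_smul u u' V := Subtype.ext (cjV_mul u u' V.1)

theorem smul_val {r : ℕ} (u : unitary R) (V : Ty k R r) : (u • V).1 = cjV u V.1 := rfl

instance [FiniteDimensional k R] [Countable R] (r : ℕ) : Countable (Ty k R r) := by
  have : Countable (Submodule k R) :=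
    Function.Surjective.countable (f := fun s : Finset R => Submodule.span k (s : Set R))
      fun V => IsNoetherian.noetherian V
  exact Subtype.countable

end Cj

theorem cc_sqrt {X : Type*} [TopologicalSpace X] {φ : X → ℝ} (h : Cc φ) : Cc fun x => √(φ x) :=
  ⟨h.1.sqrt, h.2.mono fun x hx h0 => hx (by simp [h0])⟩

theorem tsupport_sqrt {X : Type*} [TopologicalSpace X] (φ : X → ℝ) :
    tsupport (fun x => √(φ x)) ⊆ tsupport φ :=
  closure_mono fun x hx h0 => hx (by simp [h0])

theorem sqrt_mul {X : Type*} {φ : X → ℝ} (h : 0 ≤ φ) :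
    (fun x => √(φ x)) * (fun x => √(φ x)) = φ := funext fun x => Real.mul_self_sqrt (h x)

variable {S : Sys.{u, v, w}} {H : Type w} [NormedAddCommGroup H] [InnerProductSpace ℝ H]
  [CompleteSpace H]

instance : LocallyCompactSpace (Mt S.d S.F) :=
  inferInstanceAs (LocallyCompactSpace (Fin S.d → Fin S.d → S.F))

theorem exists_one {K : Set S.Z} (hK : IsCompact K) :
    ∃ G : S.Z → ℝ, Cc G ∧ ∀ F : S.Z → ℝ, tsupport F ⊆ K → G * F = F := by
  obtain ⟨χ, h1, -, -, h2⟩ := P84.exists_bump hK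
  refine ⟨χ, h1, fun F hF => funext fun z => ?_⟩
  by_cases hz : F z = 0
  · simp [hz]
  · simp [h2 z (hF (subset_tsupport _ hz))]

open Classical in
/-- a test function equal to one on the support of `F` -/
def bmp (F : S.Z → ℝ) : S.Z → ℝ :=
  if h : Cc F then (exists_one h.2.isCompact).choose else 0

theorem bmp_spec {F : S.Z → ℝ} (h : Cc F) : Cc (bmp F) ∧ bmp F * F = F := by
  rw [bmp, dif_pos h]
  exact ⟨(exists_one h.2.isCompact).choose_spec.1,
    (exists_one h.2.isCompact).choose_spec.2 F subset_rfl⟩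

variable (m : Mod S H) (f : S.Q → S.X → ℝ)

/-- the bilinear form of type `V` -/
def Bl [Fintype S.Q] (V : AddSubgroup S.X) (F G : S.Z → ℝ) : ℝ :=
  ∑ q, ⟪Pj.EV m.T S.L₀ V (m.vec F (f q)), m.vec G (f q)⟫

/-- the functional of type `V` -/
def mu [Fintype S.Q] (V : AddSubgroup S.X) (F : S.Z → ℝ) : ℝ := Bl m f V F (bmp F)

variable {m f} [Fintype S.Q] (h : S.Ok) (hf : ∀ q, Bd (f q))
include h hf

theorem Bl_mul (V : AddSubgroup S.X) {ρ F G : S.Z → ℝ} (hρ : Cc ρ) (hF : Cc F) (hG : Cc G) :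
    Bl m f V (ρ * F) G = Bl m f V F (ρ * G) :=
  Finset.sum_congr rfl fun q _ => by
    rw [← m.M_vec ρ F _ hρ hF (hf q), Pj.EV_M h m hρ, m.M_adj ρ hρ, m.M_vec ρ G _ hρ hG (hf q)]

theorem mu_eq (V : AddSubgroup S.X) {F G : S.Z → ℝ} (hF : Cc F) (hG : Cc G) (e : G * F = F) :
    mu m f V F = Bl m f V F G := by
  obtain ⟨h1, h2⟩ := bmp_spec hF
  have a := Bl_mul (m := m) h hf V hG hF h1
  have b := Bl_mul (m := m) h hf V h1 hF hG
  rw [e] at a
  rw [h2] at b
  rw [mu, a, b, mul_comm]

theorem mu_sq (V : AddSubgroup S.X) {F : S.Z → ℝ} (hF : Cc F) :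
    mu m f V (F * F) = ∑ q, ‖Pj.EV m.T S.L₀ V (m.vec F (f q))‖ ^ 2 := by
  obtain ⟨h1, h2⟩ := bmp_spec hF
  rw [mu_eq h hf V (P84.cc_mul hF hF.1) h1 (by rw [← mul_assoc, h2]), Bl_mul h hf V hF hF h1,
    mul_comm, h2]
  exact Finset.sum_congr rfl fun q _ => Pj.inner_E_self _ _ _

theorem posF_mu (V : AddSubgroup S.X) : PosF (mu m f V) where
  add F F' hF hF' := by
    obtain ⟨G, hG, e⟩ := exists_one (hF.2.isCompact.union hF'.2.isCompact)
    have e1 := e F Set.subset_union_left
    have e2 := e F' Set.subset_union_right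
    rw [mu_eq h hf V (P84.cc_add hF hF') hG (by rw [mul_add, e1, e2]), mu_eq h hf V hF hG e1,
      mu_eq h hf V hF' hG e2, Bl, Bl, Bl, ← Finset.sum_add_distrib]
    exact Finset.sum_congr rfl fun q _ => by
      rw [m.vec_add _ _ _ hF hF' (hf q), map_add, inner_add_left]
  smul c F hF := by
    obtain ⟨h1, h2⟩ := bmp_spec hF
    rw [mu_eq h hf V (P84.cc_smul c hF) h1 (by rw [mul_smul_comm, h2]), mu, Bl, Bl, Finset.mul_sum]
    exact Finset.sum_congr rfl fun q _ => by
      rw [m.vec_smul _ _ _ hF (hf q), map_smul, real_inner_smul_left]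
  pos F hF h0 := by
    rw [← sqrt_mul h0, mu_sq h hf V (cc_sqrt hF)]
    exact Finset.sum_nonneg fun _ _ => sq_nonneg _

theorem mu_cj (γ : S.Γ) (hγ : ∀ q a, f q (S.cjP γ a) = f ((S.c γ)⁻¹ * q) a)
    {V V' : AddSubgroup S.X} (hV : ∀ b, S.cjP γ b ∈ V' ↔ b ∈ V) {F : S.Z → ℝ} (hF : Cc F) :
    mu m f V' F = mu m f V fun z => F (ac (S.ιΓ γ) z) := by
  obtain ⟨h1, h2⟩ := bmp_spec hF
  obtain ⟨e, he⟩ := m.ac_cc γ
  have cc : ∀ {G : S.Z → ℝ}, Cc G → Cc fun z => G (ac (S.ιΓ γ) z) := fun hG => by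
    simpa only [he] using P84.cc_comp hG e
  rw [mu_eq h hf V (cc hF) (cc h1) (funext fun z => congrFun h2 _), mu, Bl, Bl]
  refine Fintype.sum_equiv (Equiv.mulLeft (S.c γ)⁻¹) _ _ fun q => ?_
  rw [← (m.J γ).inner_map_map, ← Pj.EV_J h m γ hV, m.J_vec γ _ _ hF (hf q), m.J_vec γ _ _ h1 (hf q)]
  simp only [hγ, Equiv.coe_mulLeft]

end T34

open T34 in
theorem typStmt (hE : EscStmt.{u, v, w}) : TypStmt.{u, v, w} := by
  intro S h H _ _ _ m T _ _ At hL φ htop
  classical
  let _ : Fintype S.Q := Fintype.ofFinite _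
  have := h.haar
  have : SecondCountableTopology (unitary S.A) := Topology.IsInducing.subtypeVal.secondCountableTopology
  have : SecondCountableTopology (selfAdjoint S.A) :=
    Topology.IsInducing.subtypeVal.secondCountableTopology
  have : SecondCountableTopology S.G₂ := Topology.IsInducing.subtypeVal.secondCountableTopology
  obtain ⟨C, hC⟩ := Pj.bd_lab φ
  set f : S.Q → S.X → ℝ := fun q a => φ (q⁻¹ • At a) with hfd
  have hf : ∀ q, Bd (f q) := fun q => ⟨C, fun a => hC _⟩
  have main : ∀ n : ℕ, ∀ V : Submodule S.k S.B, Gd V → finrank S.k S.B ≤ finrank S.k V + n →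
      Van m At φ (S.Vx V) := by
    intro n
    induction n using Nat.strong_induction_on with
    | _ n ih =>
    intro V hV hn
    by_cases hp : ∃ y, star y = y ∧ y ∉ V
    swap
    · have : S.Vx V = ⊤ := eq_top_iff.2 fun b _ => by
        by_contra hb; exact hp ⟨b, b.2, hb⟩
      rwa [this]
    let Y := Ty S.k S.B (finrank S.k V)
    let _ : MulAction S.Γ Y := MulAction.compHom Y (S.U₀.subtype.comp S.Γ.subtype)
    have hsm : ∀ (γ : S.Γ) (W : Y), (γ • W).1 = cjV ((γ : S.U₀) : unitary S.B) W.1 := fun _ _ => rfl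
    have hint : ∀ {F : S.Z → ℝ}, Cc F → Integrable F S.lam := fun hF =>
      hF.1.integrable_of_hasCompactSupport hF.2
    have hc0 : 0 ≤ (Fintype.card S.Q : ℝ) * (m.c₀ * C ^ 2) := by
      have := m.c₀_nonneg; positivity
    have key := hE S.F S.O S.π S.d S.G₂ (selfAdjoint S.A) S.Γ S.ιΓ Y
      (fun W => mu m f (S.Vx W.1))
      (fun F => Fintype.card S.Q * (m.c₀ * C ^ 2) * ∫ z, F z ∂S.lam) h.lf h.hd h.latt
      (fun W => posF_mu h hf _)
      ⟨fun F G hF hG => by
          simp only [Pi.add_apply]; rw [integral_add (hint hF) (hint hG), mul_add],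
        fun c F _ => by
          simp only [Pi.smul_apply, smul_eq_mul]; rw [integral_const_mul]; ring,
        fun F _ h0 => mul_nonneg hc0 (integral_nonneg h0)⟩
      (fun F t _ => by
        rw [← integral_add_right_eq_self F ((0 : selfAdjoint S.A), t)]
        simp only [Prod.add_def, add_zero])
      (fun γ W F hF => mu_cj h hf γ (fun q a => by
          simp only [hfd]
          rw [show ((S.cjP γ a : S.X) : S.B) = (((γ : S.U₀) : unitary S.B) • a : S.X) from rfl,
            hL.cj, mul_inv_rev, inv_inv, mul_smul])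
        (fun b => by rw [hsm]; exact cj_mem) hF)
      (fun s F hF h0 hD => by
        have hs := cc_sqrt hF
        rw [← sqrt_mul h0]
        simp only [mu_sq h hf _ hs]
        rw [Finset.sum_comm]
        refine (Finset.sum_le_card_nsmul _ _ (m.c₀ * C ^ 2 * ∫ z, √(F z) ^ 2 ∂S.lam)
          fun q _ => ?_).trans (le_of_eq ?_)
        · refine (Pj.sum_EV_le m.T (Pj.lt_of h) s (fun W => S.Vx W.1) _ fun W _ W' _ hne => ?_).trans
            (m.vec_norm _ _ C hs fun a => hC _)
          have e : S.Vx W.1 ⊔ S.Vx W'.1 = S.Vx (W.1 ⊔ W'.1) := by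
            refine le_antisymm (sup_le (fun b hb => Submodule.mem_sup_left hb)
              fun b hb => Submodule.mem_sup_right hb) fun b hb => ?_
            obtain ⟨x, hx, y, hy, e⟩ := Submodule.mem_sup.1 hb
            exact AddSubgroup.mem_sup.2 ⟨⟨x, W.2.1.herm x hx⟩, hx, ⟨y, W'.2.1.herm y hy⟩, hy,
              Subtype.ext e⟩
          have lt : W.1 < W.1 ⊔ W'.1 := lt_of_le_of_ne le_sup_left fun e' => hne (Subtype.ext
            (Submodule.eq_of_le_of_finrank_eq (e' ▸ le_sup_right) (W'.2.2.2.trans W.2.2.2.symm)).symm)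
          have h1 := Submodule.finrank_lt_finrank_of_lt lt
          have h2 := Submodule.finrank_le (W.1 ⊔ W'.1)
          have h3 := W.2.2.2
          rw [e]
          exact ih (n - 1) (by omega) _ (W.2.1.sup W'.2.1) (by omega) _ hs
            (fun z hz => hD z (tsupport_sqrt F hz)) q
        · simp only [Pi.mul_apply, sq, Finset.card_univ, nsmul_eq_mul]; ring)
      (fun W U hU => by
        have := h.esc W.1 W.2.1.herm W.2.1.one W.2.1.ns W.2.2.1 U hU
        refine Set.Infinite.of_image Subtype.val (this.mono ?_)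
        rintro V' ⟨γ, h1, h2⟩
        refine ⟨γ⁻¹ • W, ⟨γ, h1, smul_inv_smul γ W⟩, ?_⟩
        rw [hsm, ← h2, ← cjV_mul]
        simp [cjV_one])
    intro F hF hD q
    have h0 := key ⟨V, hV, hp, rfl⟩ (F * F) (P84.cc_mul hF hF.1)
      fun z hz => hD z (tsupport_mul_subset_left hz)
    rw [mu_sq h hf _ hF, Finset.sum_eq_zero_iff_of_nonneg fun _ _ => sq_nonneg _] at h0
    simpa using h0 q (Finset.mem_univ q)
  intro V h1 h2 h3
  exact main (finrank S.k S.B) V ⟨h1, h2, h3⟩ (by omega)

end Crest.Agent.T24.Na
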