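import Mathlib

/-!
# Row 24, module NA: the ultrapower of a real inner product space.
-/

set_option autoImplicit false
set_option linter.unusedSectionVars false

noncomputable section

namespace Crest.Agent.T24.Na.Ul

open Filter Topology UniformSpace
open scoped RealInnerProductSpace

variable {J : Type*} (𝒰 : Ultrafilter J) {V : Type*} [NormedAddCommGroup V] [InnerProductSpace ℝ V]

/-- eventually bounded families -/
def Bd (ξ : J → V) : Prop := ∃ C : ℝ, ∀ᶠ j in 𝒰, ‖ξ j‖ ≤ C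

variable {𝒰}

theorem Bd.zero : Bd 𝒰 (0 : J → V) := ⟨0, Eventually.of_forall fun _ => by simp⟩

theorem Bd.add {ξ η : J → V} (h : Bd 𝒰 ξ) (h' : Bd 𝒰 η) : Bd 𝒰 (ξ + η) := by
  obtain ⟨C, h⟩ := h
  obtain ⟨C', h'⟩ := h'
  exact ⟨C + C', by
    filter_upwards [h, h'] with j a b using (norm_add_le _ _).trans (add_le_add a b)⟩

theorem Bd.smul (c : ℝ) {ξ : J → V} (h : Bd 𝒰 ξ) : Bd 𝒰 (c • ξ) := by
  obtain ⟨C, h⟩ := h
  exact ⟨‖c‖ * C, by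
    filter_upwards [h] with j a
    rw [Pi.smul_apply, norm_smul]; exact mul_le_mul_of_nonneg_left a (norm_nonneg _)⟩

theorem Bd.sub {ξ η : J → V} (h : Bd 𝒰 ξ) (h' : Bd 𝒰 η) : Bd 𝒰 (ξ - η) := by
  obtain ⟨C, h⟩ := h
  obtain ⟨C', h'⟩ := h'
  exact ⟨C + C', by
    filter_upwards [h, h'] with j a b using (norm_sub_le _ _).trans (add_le_add a b)⟩

theorem Bd.of_le {ξ η : J → V} (h : Bd 𝒰 ξ) (C : ℝ) (h' : ∀ᶠ j in 𝒰, ‖η j‖ ≤ C * ‖ξ j‖) :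
    Bd 𝒰 η := by
  obtain ⟨D, h⟩ := h
  exact ⟨|C| * D, by
    filter_upwards [h, h'] with j a b
    exact b.trans ((mul_le_mul_of_nonneg_right (le_abs_self C) (norm_nonneg _)).trans
      (mul_le_mul_of_nonneg_left a (abs_nonneg _)))⟩

theorem Bd.of_tendsto {ξ : J → V} {f : J → ℝ} {r : ℝ} (h : ∀ᶠ j in 𝒰, ‖ξ j‖ ^ 2 ≤ f j)
    (hf : Tendsto f 𝒰 (𝓝 r)) : Bd 𝒰 ξ :=
  ⟨|r| + 2, by
    filter_upwards [h, hf.eventually (gt_mem_nhds (show r < |r| + 1 by linarith [le_abs_self r]))]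
      with j a b
    nlinarith [norm_nonneg (ξ j), abs_nonneg r]⟩

theorem exists_lim {f : J → ℝ} {C : ℝ} (h : ∀ᶠ j in 𝒰, |f j| ≤ C) :
    ∃ r, Tendsto f 𝒰 (𝓝 r) := by
  obtain ⟨r, -, hr⟩ := (isCompact_Icc (a := -C) (b := C)).ultrafilter_le_nhds (𝒰.map f)
    (le_principal_iff.2 (by
      change ∀ᶠ j in 𝒰, f j ∈ Set.Icc (-C) C
      filter_upwards [h] with j a using abs_le.1 a))
  exact ⟨r, hr⟩

theorem exists_lim_inner {ξ η : J → V} (h : Bd 𝒰 ξ) (h' : Bd 𝒰 η) :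
    ∃ r, Tendsto (fun j => ⟪ξ j, η j⟫) 𝒰 (𝓝 r) := by
  obtain ⟨C, h⟩ := h
  obtain ⟨C', h'⟩ := h'
  refine exists_lim (C := C * C') ?_
  filter_upwards [h, h'] with j a b
  exact (abs_real_inner_le_norm _ _).trans
    (mul_le_mul a b (norm_nonneg _) ((norm_nonneg _).trans a))

variable (𝒰 V) in
/-- the space of eventually bounded families -/
def sub : Submodule ℝ (J → V) where
  carrier := {ξ | Bd 𝒰 ξ}
  zero_mem' := Bd.zero
  add_mem' := Bd.add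
  smul_mem' c _ h := Bd.smul c h

variable (𝒰 V) in
/-- the pre-Hilbert space -/
def Pre : Type _ := sub 𝒰 V

instance : AddCommGroup (Pre 𝒰 V) := inferInstanceAs (AddCommGroup (sub 𝒰 V))
instance : Module ℝ (Pre 𝒰 V) := inferInstanceAs (Module ℝ (sub 𝒰 V))

/-- a bounded family as an element -/
def pm (ξ : J → V) (h : Bd 𝒰 ξ) : Pre 𝒰 V := ⟨ξ, h⟩

/-- the limit inner product -/
def ip (ξ η : Pre 𝒰 V) : ℝ := limUnder 𝒰 fun j => ⟪ξ.1 j, η.1 j⟫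

theorem tendsto_ip (ξ η : Pre 𝒰 V) : Tendsto (fun j => ⟪ξ.1 j, η.1 j⟫) 𝒰 (𝓝 (ip ξ η)) :=
  tendsto_nhds_limUnder (exists_lim_inner ξ.2 η.2)

instance core : PreInnerProductSpace.Core ℝ (Pre 𝒰 V) where
  inner := ip
  conj_inner_symm x y := by
    simp only [conj_trivial]
    exact tendsto_nhds_unique (tendsto_ip y x)
      ((tendsto_ip x y).congr fun j => real_inner_comm _ _)
  re_inner_nonneg x := ge_of_tendsto' (tendsto_ip x x) fun _ => real_inner_self_nonneg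
  add_left x y z := tendsto_nhds_unique (tendsto_ip (x + y) z)
    (((tendsto_ip x z).add (tendsto_ip y z)).congr fun j => (inner_add_left _ _ _).symm)
  smul_left x y r := tendsto_nhds_unique (tendsto_ip (r • x) y)
    (((tendsto_ip x y).const_mul r).congr fun j => (real_inner_smul_left _ _ _).symm)

instance : SeminormedAddCommGroup (Pre 𝒰 V) :=
  InnerProductSpace.Core.toSeminormedAddCommGroup (𝕜 := ℝ)
instance : InnerProductSpace ℝ (Pre 𝒰 V) := InnerProductSpace.ofCore core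

variable (𝒰 V) in
/-- the ultrapower -/
def UP : Type _ := Completion (Pre 𝒰 V)

instance : NormedAddCommGroup (UP 𝒰 V) := inferInstanceAs (NormedAddCommGroup (Completion (Pre 𝒰 V)))
instance : InnerProductSpace ℝ (UP 𝒰 V) :=
  inferInstanceAs (InnerProductSpace ℝ (Completion (Pre 𝒰 V)))
instance : CompleteSpace (UP 𝒰 V) := inferInstanceAs (CompleteSpace (Completion (Pre 𝒰 V)))

/-- the class of an element of the pre-Hilbert space -/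
def co (ξ : Pre 𝒰 V) : UP 𝒰 V := ((ξ : Pre 𝒰 V) : Completion (Pre 𝒰 V))

theorem co_add (ξ η : Pre 𝒰 V) : co (ξ + η) = co ξ + co η := Completion.coe_add ξ η
theorem co_smul (c : ℝ) (ξ : Pre 𝒰 V) : co (c • ξ) = c • co ξ := Completion.coe_smul c ξ
theorem inner_co (ξ η : Pre 𝒰 V) : ⟪co ξ, co η⟫ = ip ξ η := Completion.inner_coe ξ η
theorem norm_co (ξ : Pre 𝒰 V) : ‖co ξ‖ = ‖ξ‖ := Completion.norm_coe ξ
theorem dense_co : DenseRange (co : Pre 𝒰 V → UP 𝒰 V) := Completion.denseRange_coe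

variable (𝒰) in
open Classical in
/-- the class of a family (zero if it is not eventually bounded) -/
def mk (ξ : J → V) : UP 𝒰 V := if h : Bd 𝒰 ξ then co (pm ξ h) else 0

theorem mk_eq {ξ : J → V} (h : Bd 𝒰 ξ) : mk 𝒰 ξ = co (pm ξ h) := dif_pos h

theorem mk_val (ξ : Pre 𝒰 V) : mk 𝒰 ξ.1 = co ξ := mk_eq ξ.2

theorem mk_add {ξ η : J → V} (h : Bd 𝒰 ξ) (h' : Bd 𝒰 η) : mk 𝒰 (ξ + η) = mk 𝒰 ξ + mk 𝒰 η := by
  rw [mk_eq h, mk_eq h', mk_eq (h.add h'), ← co_add]; rfl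

theorem mk_smul (c : ℝ) {ξ : J → V} (h : Bd 𝒰 ξ) : mk 𝒰 (c • ξ) = c • mk 𝒰 ξ := by
  rw [mk_eq h, mk_eq (h.smul c), ← co_smul]; rfl

theorem mk_sub {ξ η : J → V} (h : Bd 𝒰 ξ) (h' : Bd 𝒰 η) : mk 𝒰 (ξ - η) = mk 𝒰 ξ - mk 𝒰 η := by
  rw [eq_sub_iff_add_eq, ← mk_add (h.sub h') h', sub_add_cancel]

theorem mk_zero : mk 𝒰 (0 : J → V) = 0 := by
  have := mk_sub (Bd.zero (𝒰 := 𝒰) (V := V)) Bd.zero
  rwa [sub_self, sub_self] at this

theorem tendsto_inner {ξ η : J → V} (h : Bd 𝒰 ξ) (h' : Bd 𝒰 η) :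
    Tendsto (fun j => ⟪ξ j, η j⟫) 𝒰 (𝓝 ⟪mk 𝒰 ξ, mk 𝒰 η⟫) := by
  rw [mk_eq h, mk_eq h', inner_co]; exact tendsto_ip (pm ξ h) (pm η h')

theorem tendsto_norm_sq {ξ : J → V} (h : Bd 𝒰 ξ) :
    Tendsto (fun j => ‖ξ j‖ ^ 2) 𝒰 (𝓝 (‖mk 𝒰 ξ‖ ^ 2)) := by
  simpa only [real_inner_self_eq_norm_sq] using tendsto_inner h h

theorem tendsto_norm {ξ : J → V} (h : Bd 𝒰 ξ) :
    Tendsto (fun j => ‖ξ j‖) 𝒰 (𝓝 ‖mk 𝒰 ξ‖) := by
  simpa only [Real.sqrt_sq (norm_nonneg _)] using (tendsto_norm_sq h).sqrt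

theorem norm_mk_le {ξ : J → V} {C : ℝ} (h : ∀ᶠ j in 𝒰, ‖ξ j‖ ≤ C) : ‖mk 𝒰 ξ‖ ≤ C :=
  le_of_tendsto (tendsto_norm ⟨C, h⟩) h

theorem norm_mk_le_mul {ξ η : J → V} (h : Bd 𝒰 ξ) {C : ℝ} (h' : ∀ᶠ j in 𝒰, ‖η j‖ ≤ C * ‖ξ j‖) :
    ‖mk 𝒰 η‖ ≤ C * ‖mk 𝒰 ξ‖ :=
  le_of_tendsto_of_tendsto (tendsto_norm (h.of_le C h')) ((tendsto_norm h).const_mul C) h'

theorem norm_sq_mk_le {ξ : J → V} {f : J → ℝ} {r : ℝ} (h : ∀ᶠ j in 𝒰, ‖ξ j‖ ^ 2 ≤ f j)
    (hf : Tendsto f 𝒰 (𝓝 r)) : ‖mk 𝒰 ξ‖ ^ 2 ≤ r :=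
  le_of_tendsto_of_tendsto (tendsto_norm_sq (Bd.of_tendsto h hf)) hf h

/-- families which are asymptotically equal have the same class -/
theorem mk_eq_of_tendsto {ξ η : J → V} (h : Bd 𝒰 ξ)
    (h' : Tendsto (fun j => ‖η j - ξ j‖) 𝒰 (𝓝 0)) : Bd 𝒰 η ∧ mk 𝒰 η = mk 𝒰 ξ := by
  have h1 : Bd 𝒰 (η - ξ) := ⟨1, by
    filter_upwards [h'.eventually (gt_mem_nhds one_pos)] with j a using a.le⟩
  have h2 : Bd 𝒰 η := by simpa using h1.add h
  refine ⟨h2, ?_⟩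
  rw [← sub_eq_zero, ← mk_sub h2 h, ← norm_eq_zero]
  exact tendsto_nhds_unique (tendsto_norm h1) h'

theorem mk_congr {ξ η : J → V} (h : ∀ᶠ j in 𝒰, ξ j = η j) : mk 𝒰 ξ = mk 𝒰 η := by
  by_cases hb : Bd 𝒰 η
  · refine (mk_eq_of_tendsto hb (tendsto_const_nhds.congr' ?_)).2
    filter_upwards [h] with j a; simp [a]
  · rw [mk, mk, dif_neg hb, dif_neg]
    exact fun hb' => hb (hb'.of_le 1 (by filter_upwards [h] with j a; simp [a]))

theorem exists_mk (v : UP 𝒰 V) {η : ℝ} (hη : 0 < η) : ∃ ξ, Bd 𝒰 ξ ∧ ‖mk 𝒰 ξ - v‖ < η := by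
  obtain ⟨ξ, h⟩ := dense_co.exists_dist_lt v hη
  exact ⟨ξ.1, ξ.2, by rw [mk_val, ← dist_eq_norm, dist_comm]; exact h⟩

/-- closed properties are checked on classes of families -/
@[elab_as_elim] theorem ind {p : UP 𝒰 V → Prop} (v : UP 𝒰 V) (hp : IsClosed {v | p v})
    (h : ∀ ξ, Bd 𝒰 ξ → p (mk 𝒰 ξ)) : p v :=
  dense_co.induction_on v hp fun ξ => by have := h ξ.1 ξ.2; rwa [mk_val] at this

variable (𝒰) in
/-- an eventually bounded family of linear maps -/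
def Ob (S : J → V →ₗ[ℝ] V) : Prop := ∃ C : ℝ, ∀ᶠ j in 𝒰, ∀ v, ‖S j v‖ ≤ C * ‖v‖

theorem Ob.bd {S : J → V →ₗ[ℝ] V} (hS : Ob 𝒰 S) {ξ : J → V} (h : Bd 𝒰 ξ) :
    Bd 𝒰 fun j => S j (ξ j) := by
  obtain ⟨C, hC⟩ := hS
  exact h.of_le C (by filter_upwards [hC] with j a using a _)

/-- the operator on the pre-Hilbert space -/
def opP {S : J → V →ₗ[ℝ] V} (hS : Ob 𝒰 S) : Pre 𝒰 V →L[ℝ] Pre 𝒰 V :=
  LinearMap.mkContinuousOfExistsBound
    { toFun := fun ξ => pm (fun j => S j (ξ.1 j)) (hS.bd ξ.2)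
      map_add' := fun ξ η => Subtype.ext (funext fun j => map_add (S j) _ _)
      map_smul' := fun c ξ => Subtype.ext (funext fun j => map_smul (S j) _ _) }
    (by
      obtain ⟨C, hC⟩ := id hS
      refine ⟨C, fun ξ => ?_⟩
      have := norm_mk_le_mul (η := fun j => S j (ξ.1 j)) ξ.2 (C := C)
        (by filter_upwards [hC] with j a using a _)
      rwa [mk_eq (hS.bd ξ.2), mk_val, norm_co, norm_co] at this)

/-- the operator on the completion -/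
def opC {S : J → V →ₗ[ℝ] V} (hS : Ob 𝒰 S) : UP 𝒰 V →L[ℝ] UP 𝒰 V := (opP hS).completion

variable (𝒰) in
open Classical in
/-- the operator defined by a family (zero if it is not eventually bounded) -/
def op (S : J → V →ₗ[ℝ] V) : UP 𝒰 V →L[ℝ] UP 𝒰 V :=
  if h : Ob 𝒰 S then opC h else 0

theorem op_mk {S : J → V →ₗ[ℝ] V} (hS : Ob 𝒰 S) {ξ : J → V} (h : Bd 𝒰 ξ) :
    op 𝒰 S (mk 𝒰 ξ) = mk 𝒰 fun j => S j (ξ j) := by
  rw [op, dif_pos hS, mk_eq h, mk_eq (hS.bd h)]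
  exact ContinuousLinearMap.completion_apply_coe (opP hS) (pm ξ h)

theorem norm_op_le {S : J → V →ₗ[ℝ] V} {C : ℝ} (hC : ∀ᶠ j in 𝒰, ∀ v, ‖S j v‖ ≤ C * ‖v‖)
    (v : UP 𝒰 V) : ‖op 𝒰 S v‖ ≤ C * ‖v‖ := by
  refine ind v (isClosed_le (by fun_prop) (by fun_prop)) fun ξ h => ?_
  rw [op_mk ⟨C, hC⟩ h]
  exact norm_mk_le_mul h (by filter_upwards [hC] with j a using a _)

theorem op_symm {S : J → V →ₗ[ℝ] V} (hS : Ob 𝒰 S) (h : ∀ j x y, ⟪S j x, y⟫ = ⟪x, S j y⟫)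
    (x y : UP 𝒰 V) : ⟪op 𝒰 S x, y⟫ = ⟪x, op 𝒰 S y⟫ := by
  refine ind x (isClosed_eq (by fun_prop) (by fun_prop)) fun ξ hξ => ?_
  refine ind y (isClosed_eq (by fun_prop) (by fun_prop)) fun η hη => ?_
  rw [op_mk hS hξ, op_mk hS hη]
  exact tendsto_nhds_unique (tendsto_inner (hS.bd hξ) hη)
    ((tendsto_inner hξ (hS.bd hη)).congr fun j => (h j _ _).symm)

theorem ob_iso (U : V ≃ₗᵢ[ℝ] V) : Ob 𝒰 fun _ => U.toLinearEquiv.toLinearMap :=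
  ⟨1, Eventually.of_forall fun _ v => by simp⟩

theorem Bd.iso (U : V ≃ₗᵢ[ℝ] V) {ξ : J → V} (h : Bd 𝒰 ξ) : Bd 𝒰 fun j => U (ξ j) :=
  (ob_iso U).bd h

variable (𝒰) in
/-- a fixed isometry acts on the ultrapower -/
def iso (U : V ≃ₗᵢ[ℝ] V) : UP 𝒰 V ≃ₗᵢ[ℝ] UP 𝒰 V where
  toFun := op 𝒰 fun _ => U.toLinearEquiv.toLinearMap
  invFun := op 𝒰 fun _ => U.symm.toLinearEquiv.toLinearMap
  map_add' := map_add _
  map_smul' := map_smul _
  left_inv v := by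
    refine ind v (isClosed_eq (by fun_prop) (by fun_prop)) fun ξ h => ?_
    rw [op_mk (ob_iso U) h, op_mk (ob_iso U.symm) ((ob_iso U).bd h)]
    simp
  right_inv v := by
    refine ind v (isClosed_eq (by fun_prop) (by fun_prop)) fun ξ h => ?_
    rw [op_mk (ob_iso U.symm) h, op_mk (ob_iso U) ((ob_iso U.symm).bd h)]
    simp
  norm_map' v := by
    change ‖op 𝒰 (fun _ => U.toLinearEquiv.toLinearMap) v‖ = ‖v‖
    refine ind v (isClosed_eq (by fun_prop) (by fun_prop)) fun ξ h => ?_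
    rw [op_mk (ob_iso U) h]
    exact tendsto_nhds_unique (tendsto_norm ((ob_iso U).bd h))
      ((tendsto_norm h).congr fun j => by simp)

theorem iso_mk (U : V ≃ₗᵢ[ℝ] V) {ξ : J → V} (h : Bd 𝒰 ξ) :
    iso 𝒰 U (mk 𝒰 ξ) = mk 𝒰 fun j => U (ξ j) := op_mk (ob_iso U) h

variable (𝒰) in
/-- isometries act on the ultrapower -/
def isoHom : (V ≃ₗᵢ[ℝ] V) →* (UP 𝒰 V ≃ₗᵢ[ℝ] UP 𝒰 V) where
  toFun := iso 𝒰
  map_one' := by
    ext v
    refine ind v (isClosed_eq (by fun_prop) (by fun_prop)) fun ξ h => ?_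
    rw [iso_mk _ h]; rfl
  map_mul' U U' := by
    ext v
    refine ind v (isClosed_eq (by fun_prop) (by fun_prop)) fun ξ h => ?_
    rw [LinearIsometryEquiv.coe_mul, Function.comp_apply, iso_mk _ h, iso_mk _ h,
      iso_mk _ (h.iso U')]
    rfl

theorem isoHom_mk (U : V ≃ₗᵢ[ℝ] V) {ξ : J → V} (h : Bd 𝒰 ξ) :
    isoHom 𝒰 U (mk 𝒰 ξ) = mk 𝒰 fun j => U (ξ j) := iso_mk U h

/-- commutators of an isometry with an operator family -/
theorem norm_comm_le (U : V ≃ₗᵢ[ℝ] V) {S : J → V →ₗ[ℝ] V} (hS : Ob 𝒰 S) {η : ℝ}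
    (h : ∀ᶠ j in 𝒰, ∀ v, ‖U (S j v) - S j (U v)‖ ≤ η * ‖v‖) (v : UP 𝒰 V) :
    ‖isoHom 𝒰 U (op 𝒰 S v) - op 𝒰 S (isoHom 𝒰 U v)‖ ≤ η * ‖v‖ := by
  refine ind v (isClosed_le (by fun_prop) (by fun_prop)) fun ξ hξ => ?_
  rw [op_mk hS hξ, isoHom_mk _ hξ, isoHom_mk _ (hS.bd hξ), op_mk hS (hξ.iso U),
    ← mk_sub ((hS.bd hξ).iso U) (hS.bd (hξ.iso U))]
  exact norm_mk_le_mul hξ (by filter_upwards [h] with j a using a _)

/-! ### square summable functions -/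

section L2
variable {Y : Type*}

/-- square summable real functions -/
abbrev L2 (Y : Type*) : Type _ := lp (fun _ : Y => ℝ) 2

theorem mem_iff {f : Y → ℝ} : Memℓp f 2 ↔ Summable fun y => f y ^ 2 := by
  rw [memℓp_gen_iff (by norm_num)]
  simp

theorem summable_sq (f : L2 Y) : Summable fun y => f y ^ 2 := mem_iff.1 f.2

theorem norm_sq_eq (f : L2 Y) : ‖f‖ ^ 2 = ∑' y, f y ^ 2 := by
  have := lp.norm_rpow_eq_tsum (p := 2) (by norm_num) f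
  simpa using this

theorem inner_eq (f g : L2 Y) : ⟪f, g⟫ = ∑' y, f y * g y := by
  rw [lp.inner_eq_tsum]; simp [mul_comm]

theorem norm_le_of {f g : L2 Y} {C : ℝ} (hC : 0 ≤ C) (h : ∀ y, |f y| ≤ C * |g y|) :
    ‖f‖ ≤ C * ‖g‖ := by
  refine abs_le_of_sq_le_sq' ?_ (by positivity) |>.2
  rw [mul_pow, norm_sq_eq, norm_sq_eq, ← tsum_mul_left]
  refine (summable_sq f).tsum_le_tsum (fun y => ?_) ((summable_sq g).mul_left _)
  rw [← mul_pow, ← sq_abs (f y), ← sq_abs (C * g y), abs_mul, abs_of_nonneg hC]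
  exact pow_le_pow_left₀ (abs_nonneg _) (h y) 2

open Classical in
/-- a function as a vector (zero if it is not square summable) -/
def vc (f : Y → ℝ) : L2 Y := if h : Summable fun y => f y ^ 2 then ⟨f, mem_iff.2 h⟩ else 0

theorem vc_apply {f : Y → ℝ} (h : Summable fun y => f y ^ 2) (y : Y) : vc f y = f y := by
  rw [vc, dif_pos h]

theorem summable_of_le {f : Y → ℝ} (g : L2 Y) (C : ℝ) (h : ∀ y, |f y| ≤ C * |g y|) :
    Summable fun y => f y ^ 2 :=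
  ((summable_sq g).mul_left (C ^ 2)).of_nonneg_of_le (fun _ => sq_nonneg _) fun y => by
    rw [← mul_pow, ← sq_abs (f y), ← sq_abs (C * g y), abs_mul]
    exact pow_le_pow_left₀ (abs_nonneg _)
      ((h y).trans (mul_le_mul_of_nonneg_right (le_abs_self C) (abs_nonneg _))) 2

/-- multiplication by a bounded function -/
def mulL (m : Y → ℝ) (C : ℝ) (h : ∀ y, |m y| ≤ C) : L2 Y →ₗ[ℝ] L2 Y where
  toFun f := ⟨fun y => m y * f y, mem_iff.2 (summable_of_le f C fun y => by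
    rw [abs_mul]; exact mul_le_mul_of_nonneg_right (h y) (abs_nonneg _))⟩
  map_add' f g := by ext y; exact mul_add _ _ _
  map_smul' c f := by ext y; exact mul_left_comm _ _ _

@[simp] theorem mulL_apply (m : Y → ℝ) (C : ℝ) (h : ∀ y, |m y| ≤ C) (f : L2 Y) (y : Y) :
    mulL m C h f y = m y * f y := rfl

theorem norm_mulL_le (m : Y → ℝ) {C : ℝ} (hC : 0 ≤ C) (h : ∀ y, |m y| ≤ C) (f : L2 Y) :
    ‖mulL m C h f‖ ≤ C * ‖f‖ :=
  norm_le_of hC fun y => by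
    rw [mulL_apply, abs_mul]; exact mul_le_mul_of_nonneg_right (h y) (abs_nonneg _)

theorem mulL_symm (m : Y → ℝ) (C : ℝ) (h : ∀ y, |m y| ≤ C) (f g : L2 Y) :
    ⟪mulL m C h f, g⟫ = ⟪f, mulL m C h g⟫ := by
  rw [inner_eq, inner_eq]
  exact tsum_congr fun y => by simp only [mulL_apply]; ring

/-- composition with a bijection -/
def cmp (σ : Y ≃ Y) : L2 Y ≃ₗᵢ[ℝ] L2 Y where
  toFun f := ⟨fun y => f (σ y), mem_iff.2 ((σ.summable_iff (f := fun y => f y ^ 2)).2 (summable_sq f))⟩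
  invFun f := ⟨fun y => f (σ.symm y),
    mem_iff.2 ((σ.symm.summable_iff (f := fun y => f y ^ 2)).2 (summable_sq f))⟩
  map_add' f g := by ext y; rfl
  map_smul' c f := by ext y; rfl
  left_inv f := by ext y; simp
  right_inv f := by ext y; simp
  norm_map' f := by
    refine (sq_eq_sq₀ (norm_nonneg _) (norm_nonneg _)).1 ?_
    rw [norm_sq_eq, norm_sq_eq]
    exact σ.tsum_eq fun y => f y ^ 2

@[simp] theorem cmp_apply (σ : Y ≃ Y) (f : L2 Y) (y : Y) : cmp σ f y = f (σ y) := rfl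

end L2

end Crest.Agent.T24.Na.Ul
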