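import Crest.Agent.T24.NaOrDef_18
import Crest.Agent.T24.NaUlt_34

/-!
# Row 24, module NA: ultrapowers exist; the calculus of the projections `EV`.
-/

set_option autoImplicit false
set_option linter.unusedSectionVars false

noncomputable section

namespace Crest.Agent.T24.Na

open Filter Topology MeasureTheory
open scoped RealInnerProductSpace

universe u v w

namespace Ul

theorem vc_coe {Y : Type*} (f : L2 Y) : vc (f : Y → ℝ) = f := by
  ext y; exact vc_apply (summable_sq f) y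

/-- permutations act on `ℓ²` -/
def cmpHom (Y : Type*) : Equiv.Perm Y →* (L2 Y ≃ₗᵢ[ℝ] L2 Y) where
  toFun σ := cmp σ.symm
  map_one' := by ext f y; rfl
  map_mul' σ τ := by ext f y; rfl

open Classical in
/-- multiplication by a function (zero if it is not bounded) -/
def mulF {Y : Type*} (m : Y → ℝ) : L2 Y →ₗ[ℝ] L2 Y :=
  if h : ∃ C, ∀ y, |m y| ≤ C then mulL m h.choose h.choose_spec else 0

theorem mulF_eq {Y : Type*} {m : Y → ℝ} {C : ℝ} (h : ∀ y, |m y| ≤ C) : mulF m = mulL m C h := by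
  rw [mulF, dif_pos ⟨C, h⟩]; rfl

theorem bd_vc {I X : Type*} {𝒱 : Ultrafilter I} {ξ : I → X → ℝ} (h : Bf 𝒱 ξ) :
    Bd 𝒱 fun i => vc (ξ i) := by
  obtain ⟨C, h⟩ := h
  refine Bd.of_tendsto (f := fun _ => C) ?_ tendsto_const_nhds
  filter_upwards [h] with i a
  rw [norm_sq_eq]
  simpa only [vc_apply a.1] using a.2

end Ul

open Ul in
theorem ultStmt : UltStmt.{w} := fun I X 𝒱 => by
  refine ⟨UP 𝒱 (L2 X), inferInstance, inferInstance, inferInstance, ⟨{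
    cl := fun ξ => mk 𝒱 fun i => vc (ξ i)
    P := (isoHom 𝒱).comp (cmpHom X)
    Mu := fun μ => op 𝒱 fun i => mulF (μ i)
    inn := fun ξ η hξ hη => ?_
    dense := ?_
    P_cl := fun σ ξ hξ => ?_
    Mu_cl := fun μ C ξ hμ hξ => ?_ }⟩⟩
  · refine (tendsto_inner (bd_vc hξ) (bd_vc hη)).congr' ?_
    obtain ⟨C, hξ⟩ := hξ
    obtain ⟨C', hη⟩ := hη
    filter_upwards [hξ, hη] with i a b
    rw [inner_eq]
    simp only [vc_apply a.1, vc_apply b.1]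
  · refine Metric.dense_iff.2 fun v η hη => ?_
    obtain ⟨ξ, ⟨C, hC⟩, h⟩ := exists_mk v hη
    refine ⟨mk 𝒱 ξ, by rwa [Metric.mem_ball, dist_eq_norm], fun i => ξ i, ⟨C ^ 2, ?_⟩, ?_⟩
    · filter_upwards [hC] with i a
      exact ⟨summable_sq _, by rw [← norm_sq_eq]; exact pow_le_pow_left₀ (norm_nonneg _) a 2⟩
    · simp only [vc_coe]
  · rw [MonoidHom.comp_apply, isoHom_mk _ (bd_vc hξ)]
    obtain ⟨C, hξ⟩ := hξ
    refine mk_congr ?_
    filter_upwards [hξ] with i a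
    ext y
    rw [vc_apply ((σ.symm.summable_iff (f := fun y => ξ i y ^ 2)).2 a.1)]
    exact vc_apply a.1 _
  · have hO : Ob 𝒱 fun i => mulF (μ i) := ⟨|C|, by
      filter_upwards [hμ] with i a v
      rw [mulF_eq fun y => (a y).trans (le_abs_self C)]
      exact norm_mulL_le _ (abs_nonneg C) _ v⟩
    rw [op_mk hO (bd_vc hξ)]
    obtain ⟨C', hξ⟩ := hξ
    refine mk_congr ?_
    filter_upwards [hξ, hμ] with i a b
    ext y
    rw [mulF_eq b, mulL_apply, vc_apply a.1, vc_apply]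
    refine summable_of_le (vc (ξ i)) C fun y => ?_
    rw [vc_apply a.1, abs_mul]
    exact mul_le_mul_of_nonneg_right (b y) (abs_nonneg _)

namespace Pj

section
variable {H : Type*} [NormedAddCommGroup H] [InnerProductSpace ℝ H] [CompleteSpace H]
  {X : Type*} [AddCommGroup X] (T : Multiplicative X →* (H ≃ₗᵢ[ℝ] H)) {L₀ : AddSubgroup X}

/-- a finitely generated full subgroup -/
structure Lt (L₀ : AddSubgroup X) : Prop where
  fg : L₀.FG
  full : ∀ b : X, ∃ m : ℕ, m ≠ 0 ∧ m • b ∈ L₀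

theorem fg_map {L : AddSubgroup X} (h : L.FG) (f : X →+ X) : (L.map f).FG := by
  classical
  obtain ⟨s, rfl⟩ := h
  exact ⟨s.image f, by rw [Finset.coe_image, AddMonoidHom.map_closure]⟩

theorem Lt.fg_inf (h : Lt L₀) (V : AddSubgroup X) : (V ⊓ L₀).FG := fg_of_le h.fg inf_le_right

/-- the projection of type `V` -/
abbrev EV (L₀ V : AddSubgroup X) : H →L[ℝ] H := E T (V ⊓ L₀)

theorem EV_mul (h : Lt L₀) (V W : AddSubgroup X) (v : H) :
    EV T L₀ V (EV T L₀ W v) = EV T L₀ (V ⊔ W) v := by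
  refine E_mul' T (.of_le (sup_le (inf_le_inf_right _ le_sup_left) (inf_le_inf_right _ le_sup_right)))
    (Le.of_fg (h.fg_inf _) fun e he => ?_) v
  obtain ⟨x, hx, y, hy, rfl⟩ := AddSubgroup.mem_sup.1 he.1
  obtain ⟨m, hm, h1⟩ := h.full x
  obtain ⟨n, hn, h2⟩ := h.full y
  refine ⟨m * n, mul_ne_zero hm hn, ?_⟩
  rw [smul_add]
  refine AddSubgroup.add_mem_sup ⟨V.nsmul_mem hx _, ?_⟩ ⟨W.nsmul_mem hy _, ?_⟩
  · rw [mul_comm, mul_smul]; exact L₀.nsmul_mem h1 n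
  · rw [mul_smul]; exact L₀.nsmul_mem h2 m

/-- vectors of types `V`, `W` are orthogonal when the `V + W` component of one vanishes -/
theorem inner_eq_zero_EV (h : Lt L₀) {V W : AddSubgroup X} {x y : H} (hx : x ∈ Sm T (V ⊓ L₀))
    (hy : y ∈ Sm T (W ⊓ L₀)) (h0 : EV T L₀ (V ⊔ W) x = 0) : ⟪x, y⟫ = 0 := by
  rw [← E_eq T hx, ← E_eq T hy, E_symm, EV_mul T h, ← E_symm, h0, inner_zero_left]

theorem sum_EV_le (h : Lt L₀) {ι : Type*} (s : Finset ι) (V : ι → AddSubgroup X) (v : H)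
    (h0 : ∀ i ∈ s, ∀ j ∈ s, i ≠ j → EV T L₀ (V i ⊔ V j) v = 0) :
    ∑ i ∈ s, ‖EV T L₀ (V i) v‖ ^ 2 ≤ ‖v‖ ^ 2 :=
  bessel s (fun i => EV T L₀ (V i) v) v (fun i _ => inner_E_self T _ v) fun i hi j hj hne => by
    rw [E_symm, EV_mul T h, h0 i hi j hj hne, inner_zero_right]

theorem EV_comm (S : H →L[ℝ] H) (hS : ∀ x y, ⟪S x, y⟫ = ⟪x, S y⟫)
    (hc : ∀ η : ℝ, 0 < η → ∃ n : ℕ, n ≠ 0 ∧ ∀ e ∈ L₀, ∀ v,
      ‖tr T (n • e) (S v) - S (tr T (n • e) v)‖ ≤ η * ‖v‖) (V : AddSubgroup X) (v : H) :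
    EV T L₀ V (S v) = S (EV T L₀ V v) := by
  refine E_comm T S hS (fun η hη => ?_) v
  obtain ⟨n, hn, hc⟩ := hc η hη
  exact ⟨n, hn, fun e he => hc e he.2⟩

theorem EV_conj (h : Lt L₀) (U : H ≃ₗᵢ[ℝ] H) (α : X ≃+ X)
    (hU : ∀ b x, U (tr T (α b) x) = tr T b (U x)) {V V' : AddSubgroup X}
    (hV : ∀ b, α b ∈ V' ↔ b ∈ V) (v : H) : EV T L₀ V (U v) = U (EV T L₀ V' v) := by
  refine E_conj T U α.symm (fun e x => ?_) (Le.of_fg (fg_map (h.fg_inf V') _) ?_)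
    (Le.of_fg (h.fg_inf V) fun e he => ?_) v
  · have := hU (α.symm e) x
    rwa [α.apply_symm_apply] at this
  · rintro _ ⟨e, he, rfl⟩
    obtain ⟨n, hn, h1⟩ := h.full (α.symm e)
    exact ⟨n, hn, V.nsmul_mem ((hV _).1 (by simpa using he.1)) n, h1⟩
  · obtain ⟨n, hn, h1⟩ := h.full (α e)
    exact ⟨n, hn, n • α e, ⟨V'.nsmul_mem ((hV e).2 he.1) n, h1⟩, by simp⟩

end

variable {S : Sys.{u, v, w}} {H : Type w} [NormedAddCommGroup H] [InnerProductSpace ℝ H]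
  [CompleteSpace H]

theorem lt_of (h : S.Ok) : Lt S.L₀ := ⟨h.fg, h.full⟩

/-- conjugation as an additive automorphism -/
def cjA (γ : S.Γ) : S.X ≃+ S.X :=
  { S.cjP γ with
    map_add' := fun a b => Subtype.ext (by
      change ((((γ : S.U₀) : unitary S.B) • (a + b) : S.X) : S.B) =
        ((((γ : S.U₀) : unitary S.B) • a : S.X) : S.B) + ((((γ : S.U₀) : unitary S.B) • b : S.X) : S.B)
      simp only [coe_cj, AddSubgroup.coe_add, mul_add, add_mul]) }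

theorem cjA_apply (γ : S.Γ) (a : S.X) : cjA γ a = S.cjP γ a := rfl

theorem EV_M (h : S.Ok) (m : Mod S H) {F : S.Z → ℝ} (hF : Cc F) (V : AddSubgroup S.X) (x : H) :
    EV m.T S.L₀ V (m.M F x) = m.M F (EV m.T S.L₀ V x) :=
  EV_comm m.T _ (m.M_adj F hF) (fun η hη => by
    obtain ⟨n, hn⟩ := m.M_T F hF η hη
    exact ⟨_, pow_ne_zero n h.N_ne, hn⟩) V x

theorem EV_J (h : S.Ok) (m : Mod S H) (γ : S.Γ) {V V' : AddSubgroup S.X}
    (hV : ∀ b, S.cjP γ b ∈ V' ↔ b ∈ V) (x : H) : EV m.T S.L₀ V (m.J γ x) = m.J γ (EV m.T S.L₀ V' x) :=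
  EV_conj m.T (lt_of h) _ (cjA γ) (m.J_T γ) hV x

theorem vec_mem_Sm (h : S.Ok) (m : Mod S H) {F : S.Z → ℝ} (hF : Cc F) {f : S.X → ℝ} (hf : Bd f)
    {V : AddSubgroup S.X} (hV : ∀ a, ∀ b ∈ V, f (a + b) = f a) : m.vec F f ∈ Sm m.T (V ⊓ S.L₀) := by
  intro η hη
  obtain ⟨n, hn⟩ := m.vec_T F f hF hf η hη
  exact ⟨_, pow_ne_zero n h.N_ne, fun e he => hn e he.2 fun a => hV a _ (V.nsmul_mem he.1 _)⟩

theorem bd_lab {T : Type} [Finite T] (φ : T → ℝ) : ∃ C, ∀ t, |φ t| ≤ C := by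
  obtain ⟨C, hC⟩ := (Set.finite_range fun t => |φ t|).bddAbove
  exact ⟨C, fun t => hC ⟨t, rfl⟩⟩

end Pj

end Crest.Agent.T24.Na
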