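import Crest.Agent.T24.NaOrth_18
import Crest.Agent.T24.NaUl2_34
import Crest.Agent.T24.NaTyp_34
import Crest.Agent.T24.NaMod_23
import Crest.Agent.T24.NaApi_91
import Crest.Agent.T24.NaJl_98
import Crest.Agent.T24.NaJg_33
import Crest.Agent.T24.NaEsc_84

/-! Row 24, module NA + TW: orthogonality from the Poincaré inequality (helper18). -/

set_option autoImplicit false

namespace Crest.Agent.T24.Na

universe u v w

theorem orth_of (h : JcStmt.{u, v, w}) : OrthStmt.{u, v, w} :=
  orthStmt (modStmt ultStmt apiStmt (jlStmt h)) jgStmt (typStmt escStmt)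

end Crest.Agent.T24.Na
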