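import Crest.Agent.T24.EvIndB_15
import Crest.Agent.T24.NaInstAll_3
import Crest.Agent.T24.NaOrAll_18
import Crest.Agent.T24.Sa_92
import Crest.Agent.T24.Heis_83
import Crest.Agent.T24.HolTop_95
import Crest.Agent.T24.Ct2_10
import Crest.Agent.T24.EvBr_21
import Crest.Agent.T24.EvnLam_42
import Crest.Agent.T24.EvnTh_62
import Crest.Agent.T24.EvnGd_7
import Crest.Agent.T24.EvnKap_42
import Crest.Agent.T24.EvnSpq_22
import Crest.Agent.T24.EvnAdj_67
import Crest.Agent.T24.EvnTw_13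

/-!
# Row 24 (text helper63): the row from the Poincaré inequality `JcStmt`
-/

set_option autoImplicit false

namespace Crest.Agent.T24

universe u v w

theorem lam63 : Evn.LamStmt.{u, v, w} :=
  Evn.lamStmt42 Ct2.ct2Stmt Evn.th0Stmt Evn.eisStmt62
    (Evn.gdStmt Evn.kapStmt Evn.spqStmt Evn.adjStmt Evn.twStmt)

theorem mp63 (h : Na.JcStmt.{u, max u w, w}) : MPStmt.{u, v, w} :=
  mp_of₃ Sa.saStmt (Na.indep_of (Na.orth_of h) Sa.saStmt)
    (Heis.cenOddStmt_of (Ev.waNStmt Sa.saStmt) Hol.holStmt) Ct2.ct2Stmt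
    (Ev.ct2CStmt' Ct2.ct2Stmt) lam63

end Crest.Agent.T24
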