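import Mathlib

/-!
# T24 / CONFIG, part A (helper24): rich centres and the affine trick on a torus

* `rich`: every colouring of `ℕ` by a finite set has many centres `σ ≤ D` with `r` pairs
  `(i, σ - i)` of equal colour.
* `Per`: periods of a multiplicative colour `G (cay θ)` on the Cayley chart of a norm-one torus;
  they are stable under multiplication by `((η+α)^2-δ)/(η^2-δ)`.
-/

set_option autoImplicit false
set_option linter.unusedSectionVars false

namespace Crest.Agent.T24.Cfg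

open Finset

/-- `σ` is a rich centre: `r` pairs `(i, σ - i)`, `2 i < σ`, of equal colour. -/
def Rich {Q : Type*} (col : ℕ → Q) (r σ : ℕ) : Prop :=
  ∃ A : Finset ℕ, r ≤ A.card ∧ ∀ i ∈ A, 2 * i < σ ∧ col i = col (σ - i)

theorem rich (Q : Type*) [Finite Q] (r t : ℕ) : ∃ D : ℕ, ∀ col : ℕ → Q,
    ∃ S : Finset ℕ, t ≤ S.card ∧ ∀ σ ∈ S, σ ≤ D ∧ Rich col r σ := by
  classical
  have := Fintype.ofFinite Q
  set q := Fintype.card Q with hq
  set n := 2 * q * (t + 2 * r) + 2 with hn
  set L := q * n with hL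
  refine ⟨2 * L, fun col => ?_⟩
  have : Nonempty Q := ⟨col 0⟩
  obtain ⟨c, -, hc⟩ := Finset.exists_le_card_fiber_of_mul_le_card_of_maps_to
    (s := range L) (t := (univ : Finset Q)) (f := col) (n := n) (fun _ _ => mem_univ _)
    univ_nonempty (by simp [hL, hq])
  set C := (range L).filter (fun i => col i = c) with hC
  set P := (C ×ˢ C).filter (fun x => x.1 < x.2) with hP
  have hPc : P.card = C.card.choose 2 := Finset.card_product_filter_lt
  set S := (range (2 * L)).filter (fun σ => Rich col r σ) with hS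
  refine ⟨S, ?_, fun σ hσ => ⟨(mem_range.1 (mem_filter.1 hσ).1).le, (mem_filter.1 hσ).2⟩⟩
  by_contra hlt
  push Not at hlt
  have hmaps : ∀ p ∈ P, p.1 + p.2 ∈ range (2 * L) := by
    intro p hp
    have h := mem_product.1 (mem_filter.1 hp).1
    have h1 := mem_range.1 (mem_filter.1 h.1).1
    have h2 := mem_range.1 (mem_filter.1 h.2).1
    rw [mem_range]; omega
  have hsum : P.card = ∑ σ ∈ range (2 * L), (P.filter (fun p => p.1 + p.2 = σ)).card :=
    Finset.card_eq_sum_card_fiberwise hmaps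
  have hinj : ∀ σ, Set.InjOn (fun p : ℕ × ℕ => p.1) (P.filter (fun p => p.1 + p.2 = σ)) := by
    intro σ p hp p' hp' h
    have h1 := (mem_filter.1 (mem_coe.1 hp)).2
    have h2 := (mem_filter.1 (mem_coe.1 hp')).2
    simp only at h
    ext <;> omega
  have hle : ∀ σ ∈ range (2 * L), (P.filter (fun p => p.1 + p.2 = σ)).card ≤
      (if σ ∈ S then L else 0) + r := by
    intro σ hσ
    rw [← card_image_of_injOn (hinj σ)]
    by_cases hs : σ ∈ S
    · rw [if_pos hs]
      refine le_trans ?_ (Nat.le_add_right _ _)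
      refine le_trans (card_le_card (t := range L) ?_) (by simp)
      intro i hi
      obtain ⟨p, hp, rfl⟩ := mem_image.1 hi
      exact (mem_filter.1 (mem_product.1 (mem_filter.1 (mem_filter.1 hp).1).1).1).1
    · rw [if_neg hs, zero_add]
      by_contra hr
      push Not at hr
      refine hs (mem_filter.2 ⟨hσ, _, hr.le, ?_⟩)
      intro i hi
      obtain ⟨p, hp, rfl⟩ := mem_image.1 hi
      have h0 := (mem_filter.1 hp).2
      have h1 := mem_filter.1 (mem_filter.1 hp).1
      have h2 := mem_product.1 h1.1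
      have h3 := h1.2
      refine ⟨by omega, ?_⟩
      have : σ - p.1 = p.2 := by omega
      rw [this, (mem_filter.1 h2.1).2, (mem_filter.1 h2.2).2]
  have hb : P.card ≤ t * L + 2 * L * r := by
    rw [hsum]
    refine le_trans (sum_le_sum hle) ?_
    rw [sum_add_distrib, sum_const, card_range, smul_eq_mul, ← sum_filter, sum_const, smul_eq_mul]
    have : (range (2 * L)).filter (fun σ => σ ∈ S) = S := by
      ext σ; simp only [mem_filter, hS]; tauto
    rw [this]
    exact Nat.add_le_add_right (Nat.mul_le_mul_right _ hlt.le) _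
  have hch : n.choose 2 ≤ P.card := by rw [hPc]; exact Nat.choose_le_choose 2 hc
  have h2 : 2 * n.choose 2 = n * (n - 1) := by
    rw [Nat.choose_two_right]; exact Nat.two_mul_div_two_of_even (Nat.even_mul_pred_self n)
  have hn1 : n - 1 = 2 * q * (t + 2 * r) + 1 := by omega
  rw [hn1] at h2
  have hpos : 0 < n := by omega
  have : 2 * (t * L + 2 * L * r) = n * (2 * q * (t + 2 * r)) := by rw [hL]; ring
  nlinarith

/-! ### The Cayley chart of a norm-one torus -/

section Torus

variable {L : Type*} [Field L] {Λ : Type*} [Group Λ]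

/-- Cayley transform in a field. -/
def cay (s θ : L) : L := (θ + s) / (θ - s)

/-- Data: an involution `ι`, a skew `s`, a subgroup `W` of the norm-one torus and a
homomorphism `G` on `W`. -/
structure Tor (ι : L →+* L) (s : L) (W : Set L) (G : L → Λ) : Prop where
  skew : ι s = -s
  two : 2 * s ≠ 0
  one : (1 : L) ∈ W
  mul : ∀ x ∈ W, ∀ y ∈ W, x * y ∈ W
  inv : ∀ x ∈ W, x⁻¹ ∈ W
  hom : ∀ x ∈ W, ∀ y ∈ W, G (x * y) = G x * G y

variable {ι : L →+* L} {s : L} {W : Set L} {G : L → Λ}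

theorem sub_ne (h : ι s = -s) (h2 : 2 * s ≠ 0) {θ : L} (hθ : ι θ = θ) : θ - s ≠ 0 := by
  intro h0
  have h1 : θ = s := sub_eq_zero.1 h0
  rw [h1, h] at hθ
  exact h2 (by linear_combination -hθ)

theorem add_ne (h : ι s = -s) (h2 : 2 * s ≠ 0) {θ : L} (hθ : ι θ = θ) : θ + s ≠ 0 := by
  have := sub_ne (θ := -θ) h h2 (by rw [map_neg, hθ])
  intro h0; exact this (by linear_combination -h0)

theorem sq_ne (h : ι s = -s) (h2 : 2 * s ≠ 0) {θ : L} (hθ : ι θ = θ) : θ ^ 2 - s ^ 2 ≠ 0 := by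
  have := mul_ne_zero (add_ne h h2 hθ) (sub_ne h h2 hθ)
  intro h0; exact this (by linear_combination h0)

theorem cay_neg (s θ : L) : cay s (-θ) = (cay s θ)⁻¹ := by
  unfold cay
  rw [inv_div, show -θ + s = -(θ - s) by ring, show -θ - s = -(θ + s) by ring, neg_div_neg_eq]

theorem Tor.G_one (h : Tor ι s W G) : G 1 = 1 := by
  have := h.hom 1 h.one 1 h.one
  rw [mul_one] at this
  exact left_eq_mul.1 this

theorem Tor.cay_ne (h : Tor ι s W G) {θ : L} (hθ : ι θ = θ) : cay s θ ≠ 0 :=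
  div_ne_zero (add_ne h.skew h.two hθ) (sub_ne h.skew h.two hθ)

theorem Tor.G_inv (h : Tor ι s W G) {x : L} (hx : x ∈ W) (h0 : x ≠ 0) : G x⁻¹ = (G x)⁻¹ := by
  have := h.hom x hx _ (h.inv x hx)
  rw [mul_inv_cancel₀ h0, h.G_one] at this
  exact (inv_eq_of_mul_eq_one_right this.symm).symm

/-- `θ ↦ a θ + b` preserves the chart of `W` and the colour. -/
def Aff (ι : L →+* L) (s : L) (W : Set L) (G : L → Λ) (a b : L) : Prop :=
  ι a = a ∧ ι b = b ∧ ∀ θ, ι θ = θ → cay s θ ∈ W →
    cay s (a * θ + b) ∈ W ∧ G (cay s (a * θ + b)) = G (cay s θ)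

/-- Periods. -/
def Per (ι : L →+* L) (s : L) (W : Set L) (G : L → Λ) (β : L) : Prop :=
  Aff ι s W G 1 β ∧ Aff ι s W G 1 (-β)

theorem Aff.comp {a b a' b' : L} (h : Aff ι s W G a b) (h' : Aff ι s W G a' b') :
    Aff ι s W G (a * a') (a * b' + b) := by
  refine ⟨by rw [map_mul, h.1, h'.1], by rw [map_add, map_mul, h.1, h.2.1, h'.2.1], ?_⟩
  intro θ hθ hW
  obtain ⟨h1, h2⟩ := h'.2.2 θ hθ hW
  obtain ⟨h3, h4⟩ := h.2.2 (a' * θ + b') (by rw [map_add, map_mul, h'.1, h'.2.1, hθ]) h1
  have e : a * a' * θ + (a * b' + b) = a * (a' * θ + b') + b := by ring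
  rw [e]
  exact ⟨h3, h4.trans h2⟩

theorem Per.zero : Per ι s W G 0 := by
  have : Aff ι s W G 1 0 := ⟨map_one _, map_zero _, fun θ _ hW => by simpa using hW⟩
  exact ⟨this, by simpa using this⟩

theorem Per.neg {β : L} (h : Per ι s W G β) : Per ι s W G (-β) := ⟨h.2, by simpa using h.1⟩

theorem Per.add {β γ : L} (h : Per ι s W G β) (h' : Per ι s W G γ) : Per ι s W G (β + γ) := by
  constructor
  · have := h.1.comp h'.1
    simpa [add_comm] using this
  · have := h.2.comp h'.2
    simpa [add_comm] using this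

/-- The periods form an additive subgroup. -/
def perGrp (ι : L →+* L) (s : L) (W : Set L) (G : L → Λ) : AddSubgroup L where
  carrier := {β | Per ι s W G β}
  zero_mem' := Per.zero
  add_mem' := fun h h' => Per.add h h'
  neg_mem' := fun h => Per.neg h

/-- The multiplier. -/
def mu (s η α : L) : L := ((η + α) ^ 2 - s ^ 2) / (η ^ 2 - s ^ 2)

/-- The translation part. -/
def nu (s η α : L) : L := α * (η ^ 2 + s ^ 2 + α * η) / (η ^ 2 - s ^ 2)

theorem Tor.aff_mu (h : Tor ι s W G) {η α : L} (hη : ι η = η) (hW : cay s η ∈ W)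
    (hα : Aff ι s W G 1 α) : Aff ι s W G (mu s η α) (nu s η α) := by
  have ha := hα.2.1
  have hs2 : ι (s ^ 2) = s ^ 2 := by rw [map_pow, h.skew]; ring
  have hq := sq_ne h.skew h.two hη
  have hηα : ι (η + α) = η + α := by rw [map_add, hη, ha]
  have hm : ι (mu s η α) = mu s η α := by
    simp only [mu, map_div₀, map_sub, hs2, map_pow, hηα, hη]
  have hn : ι (nu s η α) = nu s η α := by
    simp only [nu, map_div₀, map_sub, map_add, map_mul, map_pow, ha, hη, h.skew, neg_sq]
  refine ⟨hm, hn, fun θ hθ hθW => ?_⟩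
  obtain ⟨h1, h2⟩ := hα.2.2 η hη hW
  rw [one_mul] at h1 h2
  have hc := h.cay_ne hηα
  by_cases h0 : η + θ = 0
  · have hθe : θ = -η := by linear_combination h0
    have e : mu s η α * θ + nu s η α = -(η + α) := by
      rw [hθe]; unfold mu nu; field_simp; ring
    rw [e, cay_neg, hθe, cay_neg, h.G_inv h1 hc, h.G_inv hW (h.cay_ne hη), h2]
    exact ⟨h.inv _ h1, rfl⟩
  · set θ' := (η * θ + s ^ 2) / (η + θ) with hθ'
    have hi' : ι θ' = θ' := by
      simp only [hθ', map_div₀, map_add, map_mul, map_pow, hη, hθ, h.skew, neg_sq]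
    have a1 := add_ne h.skew h.two hη
    have a2 := sub_ne h.skew h.two hη
    have a3 := add_ne h.skew h.two hθ
    have a4 := sub_ne h.skew h.two hθ
    have a5 := add_ne h.skew h.two hηα
    have a6 := sub_ne h.skew h.two hηα
    have e1 : cay s θ' = cay s η * cay s θ := by
      have p1 : θ' + s = (η + s) * (θ + s) / (η + θ) := by rw [hθ']; field_simp; ring
      have p2 : θ' - s = (η - s) * (θ - s) / (η + θ) := by rw [hθ']; field_simp; ring
      unfold cay
      rw [p1, p2]; field_simp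
    have hW' : cay s θ' ∈ W := e1 ▸ h.mul _ hW _ hθW
    obtain ⟨h3, h4⟩ := hα.2.2 θ' hi' hW'
    rw [one_mul] at h3 h4
    have hi2 : ι (θ' + α) = θ' + α := by rw [map_add, hi', ha]
    have a7 := sub_ne h.skew h.two hi2
    have e2 : cay s (mu s η α * θ + nu s η α) = (cay s (η + α))⁻¹ * cay s (θ' + α) := by
      have p1 : mu s η α * θ + nu s η α + s =
          (η + α - s) * (θ' + α + s) * ((η + θ) / (η ^ 2 - s ^ 2)) := by
        rw [hθ']; unfold mu nu; field_simp; ring
      have p2 : mu s η α * θ + nu s η α - s =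
          (η + α + s) * (θ' + α - s) * ((η + θ) / (η ^ 2 - s ^ 2)) := by
        rw [hθ']; unfold mu nu; field_simp; ring
      unfold cay
      rw [p1, p2]; field_simp
    rw [e2]
    refine ⟨h.mul _ (h.inv _ h1) _ h3, ?_⟩
    rw [h.hom _ (h.inv _ h1) _ h3, h.G_inv h1 hc, h4, h2, e1, h.hom _ hW _ hθW,
      inv_mul_cancel_left]

theorem Tor.aff_mul (h : Tor ι s W G) {η α β : L} (hη : ι η = η) (hW : cay s η ∈ W)
    (hα : Per ι s W G α) (hβ : Aff ι s W G 1 β) : Aff ι s W G 1 (mu s η α * β) := by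
  have ha := hα.1.2.1
  have hηα : ι (η + α) = η + α := by rw [map_add, hη, ha]
  have h1 := (hα.1.2.2 η hη hW).1
  rw [one_mul] at h1
  have A := h.aff_mu hη hW hα.1
  have A' := h.aff_mu hηα h1 hα.2
  have q1 := sq_ne h.skew h.two hη
  have q2 := sq_ne h.skew h.two hηα
  have := (A.comp hβ).comp A'
  have e1 : mu s η α * 1 * mu s (η + α) (-α) = 1 := by
    unfold mu; rw [show η + α + -α = η by ring]; field_simp
  have e2 : mu s η α * 1 * nu s (η + α) (-α) + (mu s η α * β + nu s η α) = mu s η α * β := by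
    unfold mu nu; field_simp; ring
  rwa [e1, e2] at this

theorem Tor.per_mul (h : Tor ι s W G) {η α β : L} (hη : ι η = η) (hW : cay s η ∈ W)
    (hα : Per ι s W G α) (hβ : Per ι s W G β) : Per ι s W G (mu s η α * β) :=
  ⟨h.aff_mul hη hW hα hβ.1, by rw [← mul_neg]; exact h.aff_mul hη hW hα hβ.2⟩

/-- Periods are stable under `2 α² ξ` and `4 α η ξ`, `ξ = (η² - δ)⁻¹`. -/
theorem Tor.per_mul' (h : Tor ι s W G) {η α β : L} (hη : ι η = η) (hW : cay s η ∈ W)
    (hα : Per ι s W G α) (hβ : Per ι s W G β) :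
    Per ι s W G (2 * α ^ 2 * (η ^ 2 - s ^ 2)⁻¹ * β) ∧
      Per ι s W G (4 * α * η * (η ^ 2 - s ^ 2)⁻¹ * β) := by
  have p1 := h.per_mul hη hW hα hβ
  have p2 := h.per_mul hη hW hα.neg hβ
  have q1 := sq_ne h.skew h.two hη
  constructor
  · have := (p1.add p2).add (hβ.add hβ).neg
    convert this using 1
    unfold mu; field_simp; ring
  · have := p1.add p2.neg
    convert this using 1
    unfold mu; field_simp; ring

theorem Tor.per_pow (h : Tor ι s W G) {η α β : L} (hη : ι η = η) (hW : cay s η ∈ W)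
    (hα : Per ι s W G α) (hβ : Per ι s W G β) (i j : ℕ) :
    Per ι s W G ((2 * α ^ 2 * (η ^ 2 - s ^ 2)⁻¹) ^ i * (4 * α * η * (η ^ 2 - s ^ 2)⁻¹) ^ j * β) := by
  induction i with
  | zero =>
    induction j with
    | zero => simpa using hβ
    | succ j ih =>
      have := (h.per_mul' hη hW hα ih).2
      convert this using 1; ring
  | succ i ih =>
    have := (h.per_mul' hη hW hα ih).1
    convert this using 1; ring

/-- A full lattice of periods: if all `κ α`, `κ ∈ O`, are periods, so is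
`α (4 α²)^n ξ^n ∑_{j ≤ n} κ_j η^j`. -/
theorem Tor.per_lat (h : Tor ι s W G) {η α : L} (hη : ι η = η) (hW : cay s η ∈ W)
    (O : Subring L) (hα : α ∈ O) (hO : ∀ κ ∈ O, Per ι s W G (κ * α)) (n : ℕ) (κ : ℕ → L)
    (hκ : ∀ j, κ j ∈ O) :
    Per ι s W G (α * (4 * α ^ 2) ^ n * ((η ^ 2 - s ^ 2)⁻¹) ^ n *
      ∑ j ∈ range (n + 1), κ j * η ^ j) := by
  rw [mul_sum]
  refine (perGrp ι s W G).sum_mem (fun j hj => ?_)
  have hj' : j ≤ n := Nat.lt_succ_iff.1 (mem_range.1 hj)
  obtain ⟨i, rfl⟩ := Nat.exists_eq_add_of_le hj'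
  have hm : κ j * 2 ^ i * α ^ j ∈ O :=
    O.mul_mem (O.mul_mem (hκ j) (O.pow_mem (by simp) i)) (O.pow_mem hα j)
  have := h.per_pow hη hW (by simpa using hO 1 O.one_mem) (hO _ hm) i j
  change Per ι s W G _
  convert this using 1
  have h4 : (4 : L) ^ i = 2 ^ (i * 2) := by
    rw [show (4 : L) = 2 ^ 2 by norm_num, ← pow_mul, mul_comm]
  generalize (η ^ 2 - s ^ 2)⁻¹ = ξ
  ring_nf
  rw [h4]
  ring

end Torus

end Crest.Agent.T24.Cfg
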