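import Crest.Agent.T24.Def_26
import Crest.Agent.T24.Csa4_50
import Crest.Agent.T24.Csa5_56
import Crest.Agent.T24.CfgA_24

/-!
# T24 / CONFIG, part B (helper24): Moebius points of a hermitian element, the affine trick
-/

set_option autoImplicit false
set_option linter.unusedSectionVars false

noncomputable section

namespace Crest.Agent.T24.Cfg

open Module Csa

variable {K B : Type*} [Field K] [CharZero K] [StarRing K] [Ring B] [StarRing B] [Algebra K B]
  [StarModule K B] [FiniteDimensional K B]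

local notation "ι" => algebraMap K B

/-- normalise scalars and close the goal by linear algebra -/
macro "cfg24_sc" : tactic => `(tactic| (
  simp only [Algebra.algebraMap_eq_smul_one, mul_add, add_mul, mul_sub, sub_mul, mul_smul_comm,
    smul_mul_assoc, mul_one, one_mul, mul_neg, neg_mul, mul_assoc, star_add, star_sub, star_neg,
    star_mul, star_pow, star_star, smul_neg, neg_smul]
  module))

theorem unit_add (ha : Aniso B) {θ : B} (hθ : star θ = θ) {c : K} (hc : star c ≠ c) :
    IsUnit (θ + ι c) := by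
  refine isUnit_of_mul_inj (K := K) fun v hv => ha v ?_
  have h1 : star v * ((θ + ι c) * v) = 0 := by rw [hv, mul_zero]
  have h2 := congrArg star h1
  rw [star_mul, star_mul, star_star, star_add, hθ, Csa.star_algebraMap, star_zero] at h2
  have h3 : (c - star c) • (star v * v) = 0 := by
    rw [← sub_zero (0 : B)]
    nth_rewrite 1 [← h1]
    rw [← h2]
    cfg24_sc
  exact (smul_eq_zero.1 h3).resolve_left (sub_ne_zero.2 hc.symm)

theorem star_ne {c : K} (hc : star c ≠ c) : star (star c) ≠ star c := by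
  rw [star_star]; exact hc.symm

theorem exists_mb (ha : Aniso B) {θ : B} (hθ : star θ = θ) {c : K} (hc : star c ≠ c) :
    ∃ u : unitary B, (u : B) * (θ + ι (star c)) = θ + ι c := by
  obtain ⟨v, hv⟩ := unit_add ha hθ hc
  have h1 : star (v : B) = θ + ι (star c) := by rw [hv, star_add, hθ, Csa.star_algebraMap]
  have h2 : (v : B) * star (v : B) = star (v : B) * v := by rw [h1, hv]; cfg24_sc
  refine ⟨⟨_, unitary_of_normal v h2⟩, ?_⟩
  change star (((v⁻¹ : Bˣ) : B)) * v * _ = _
  rw [← h1, mul_assoc, h2, ← mul_assoc, ← star_mul, v.mul_inv, star_one, one_mul, hv]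

open scoped Classical in
/-- the Moebius point `(θ + c) (θ + star c)⁻¹` -/
def mb (θ : B) (c : K) : unitary B :=
  if h : ∃ u : unitary B, (u : B) * (θ + ι (star c)) = θ + ι c then h.choose else 1

theorem mb_spec (ha : Aniso B) {θ : B} (hθ : star θ = θ) {c : K} (hc : star c ≠ c) :
    (mb θ c : B) * (θ + ι (star c)) = θ + ι c := by
  have h := exists_mb ha hθ hc
  rw [mb, dif_pos h]; exact h.choose_spec

theorem mb_eq (ha : Aniso B) {θ : B} (hθ : star θ = θ) {c : K} (hc : star c ≠ c) {u : unitary B}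
    (h : (u : B) * (θ + ι (star c)) = θ + ι c) : mb θ c = u :=
  Subtype.ext ((unit_add ha hθ (star_ne hc)).mul_right_cancel ((mb_spec ha hθ hc).trans h.symm))

theorem inv_mul_eq {u : unitary B} {x y : B} (h : (u : B) * x = y) : ((u⁻¹ : unitary B) : B) * y = x := by
  rw [← h, ← mul_assoc, ← Submonoid.coe_mul, inv_mul_cancel]; simp

/-- the basic identity: `x = mb θ c` times the point `star c` of `star p * z * p + θ` is the point
`c` of `θ + z⁻¹` -/
theorem mob (ha : Aniso B) {θ z z' : B} (hθ : star θ = θ) (hz : star z = z) (h1 : z * z' = 1)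
    (h2 : z' * z = 1) {c : K} (hc : star c ≠ c) :
    mb θ c * mb ((θ + ι (star c)) * z * (θ + ι c) + θ) (star c) = mb (θ + z') c := by
  have hz' : star z' = z' := by
    rw [← one_mul (star z'), ← h2, mul_assoc, ← hz, ← star_mul, h2, star_one, mul_one]
  have hw : star ((θ + ι (star c)) * z * (θ + ι c) + θ) = (θ + ι (star c)) * z * (θ + ι c) + θ := by
    simp only [star_add, star_mul, hθ, hz, Csa.star_algebraMap, star_star, mul_assoc]
  have hX := mb_spec ha hθ hc
  have hY := mb_spec ha hw (star_ne hc)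
  rw [star_star] at hY
  refine (mb_eq ha (by rw [star_add, hθ, hz']) hc ?_).symm
  have hu : IsUnit (z * (θ + ι c)) := IsUnit.mul ⟨⟨z, z', h1, h2⟩, rfl⟩ (unit_add ha hθ hc)
  refine hu.mul_right_cancel ?_
  set p := θ + ι c with hp
  set q := θ + ι (star c) with hq
  have e1 : (θ + z' + ι (star c)) * (z * p) = q * z * p + θ + ι c := by
    rw [add_right_comm, ← hq, add_mul, ← mul_assoc z', h2, one_mul, mul_assoc, add_assoc]
  have e2 : (θ + z' + ι c) * (z * p) = p * (z * p + 1) := by
    rw [add_right_comm, ← hp, add_mul, ← mul_assoc z', h2, one_mul, mul_add p _ 1, mul_one]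
  have e3 : q * z * p + θ + ι (star c) = q * (z * p + 1) := by
    rw [add_assoc, ← hq, mul_add q _ 1, mul_one, mul_assoc]
  rw [Submonoid.coe_mul, mul_assoc, e1, mul_assoc, hY, e2, e3, ← mul_assoc, hX]

section Skew
variable {s : K} (hs : star s = -s) (h0 : s ≠ 0)
include hs h0

theorem skew_ne : star s ≠ s := fun h => h0 (by
  have : (2 : K) * s = 0 := by linear_combination hs - h
  simpa using this)

theorem mb_neg (ha : Aniso B) {θ : B} (hθ : star θ = θ) : mb θ (star s) = mb (-θ) s := by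
  refine (mb_eq ha (by rw [star_neg, hθ]) (skew_ne hs h0) ?_).symm
  have := mb_spec ha hθ (star_ne (skew_ne hs h0))
  rw [star_star] at this
  generalize mb θ (star s) = u at this ⊢
  rw [hs, map_neg, ← neg_add, mul_neg, this, hs, map_neg, neg_add, neg_neg]

theorem sq_star_ne {a : K} (ha : star a = a) (ha0 : a ≠ 0) : star (-(a + s) ^ 2) ≠ -(a + s) ^ 2 := by
  intro h
  rw [star_neg, star_pow, star_add, ha, hs] at h
  have : 4 * a * s = 0 := by linear_combination h
  simp [ha0, h0] at this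

/-- the squaring trick -/
theorem mb_sq (ha : Aniso B) {θ : B} (hθ : star θ = θ) {a : K} (h : star a = a) (ha0 : a ≠ 0) :
    mb (θ * θ) (-(a + s) ^ 2) = mb (θ + ι a) s * (mb (θ - ι a) s)⁻¹ := by
  have hA := mb_spec ha (θ := θ + ι a) (by rw [star_add, hθ, Csa.star_algebraMap, h]) (skew_ne hs h0)
  have hB := inv_mul_eq
    (mb_spec ha (θ := θ - ι a) (by rw [star_sub, hθ, Csa.star_algebraMap, h]) (skew_ne hs h0))
  refine mb_eq ha (by rw [star_mul, hθ]) (sq_star_ne hs h0 h ha0) ?_
  have e1 : θ * θ + ι (star (-(a + s) ^ 2)) = (θ - ι a + ι s) * (θ + ι a + ι (star s)) := by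
    simp only [star_neg, star_pow, star_add, h, hs]; cfg24_sc
  have e2 : (θ - ι a + ι (star s)) * (θ + ι a + ι (star s)) =
      (θ + ι a + ι (star s)) * (θ - ι a + ι (star s)) := by cfg24_sc
  rw [Submonoid.coe_mul, mul_assoc, e1, ← mul_assoc _ _ (θ + ι a + ι (star s)), hB, e2,
    ← mul_assoc, hA, hs]
  cfg24_sc

end Skew

/-- all but finitely many translates are units -/
theorem finite_nonunit [Nontrivial B] (x : B) : {c : K | ¬ IsUnit (x + ι c)}.Finite := by
  have h := minpoly.ne_zero (Algebra.IsIntegral.isIntegral (R := K) (-x))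
  refine (Polynomial.finite_setOfPred_isRoot h).subset fun c hc => ?_
  have h1 : c ∈ spectrum K (-x) := by
    rw [spectrum.mem_iff, sub_neg_eq_add, add_comm]; exact hc
  have h2 := spectrum.subset_polynomial_aeval (-x) (minpoly K (-x)) ⟨c, h1, rfl⟩
  rwa [minpoly.aeval, spectrum.zero_eq] at h2

theorem exists_nat_unit [Nontrivial B] (x y : B) {a : K} (ha : a ≠ 0) :
    ∃ n : ℕ, IsUnit (x + ι (n * a)) ∧ IsUnit (y + ι (n * a)) := by
  have hi : Function.Injective fun n : ℕ => (n : K) * a := fun n n' h =>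
    Nat.cast_injective (mul_right_cancel₀ ha h)
  obtain ⟨n, hn⟩ := (((finite_nonunit (K := K) x).union (finite_nonunit y)).preimage
    hi.injOn).exists_notMem
  simp only [Set.mem_preimage, Set.mem_union, Set.mem_ofPred_eq, not_or, not_not] at hn
  exact ⟨n, hn⟩

section Per
variable {Y : Type*}

/-- periods of a colour in the Cayley chart -/
def perG (Γ : unitary B → Y) (s : K) : AddSubgroup B where
  carrier := {β | star β = β ∧ ∀ θ, star θ = θ → Γ (mb (θ + β) s) = Γ (mb θ s)}
  zero_mem' := ⟨star_zero _, fun θ _ => by rw [add_zero]⟩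
  add_mem' {a b} ha hb := ⟨by rw [star_add, ha.1, hb.1], fun θ hθ => by
    rw [← add_assoc, hb.2 _ (by rw [star_add, hθ, ha.1]), ha.2 _ hθ]⟩
  neg_mem' {a} ha := ⟨by rw [star_neg, ha.1], fun θ hθ => by
    rw [← ha.2 _ (by rw [star_add, star_neg, hθ, ha.1]), neg_add_cancel_right]⟩

/-- cancellation -/
def Canc (Γ : unitary B → Y) (W : Set (unitary B)) : Prop :=
  ∀ x ∈ W, ∀ x' y y', Γ x = Γ x' → Γ (x * y) = Γ (x' * y') → Γ y = Γ y'

/-- `b ↦ (η - s) b (η + s)` -/
def phi (s : K) (η : B) : B →ₗ[K] B :=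
  (LinearMap.mulRight K (η + ι s)).comp (LinearMap.mulLeft K (η + ι (star s)))

theorem phi_apply (s : K) (η b : B) : phi s η b = (η + ι (star s)) * b * (η + ι s) := rfl

theorem star_phi (s : K) {η : B} (hη : star η = η) (b : B) :
    star (phi s η b) = phi s η (star b) := by
  simp only [phi_apply, star_add, star_mul, hη, Csa.star_algebraMap, star_star, mul_assoc]

variable {Γ : unitary B → Y} {W : Set (unitary B)} {s : K} (hs : star s = -s) (h0 : s ≠ 0)
  (ha : Aniso B)
include hs h0 ha

theorem phi_inj {η : B} (hη : star η = η) : Function.Injective (phi s η) := fun _ _ h =>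
  (unit_add ha hη (star_ne (skew_ne hs h0))).mul_left_cancel
    ((unit_add ha hη (skew_ne hs h0)).mul_right_cancel h)

theorem phi_unit {η b : B} (hη : star η = η) (h : IsUnit (phi s η b)) : IsUnit b := by
  obtain ⟨u, hu⟩ := unit_add ha hη (star_ne (skew_ne hs h0))
  obtain ⟨v, hv⟩ := unit_add ha hη (skew_ne hs h0)
  rw [phi_apply, ← hu, ← hv] at h
  exact (Units.isUnit_units_mul _ _).1 ((Units.isUnit_mul_units _ _).1 h)

theorem mob' {η y y' : B} (hη : star η = η) (hy : star y = y) (h1 : y * y' = 1) (h2 : y' * y = 1) :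
    mb η s * mb (phi s η y - η) s = mb (η - y') s := by
  have := mob ha hη (z := -y) (z' := -y') (by rw [star_neg, hy]) (by simpa using h1)
    (by simpa using h2) (skew_ne hs h0)
  rw [mb_neg hs h0 ha, ← sub_eq_add_neg] at this
  · rw [← this, phi_apply]; congr 2; noncomm_ring
  · simp only [star_add, star_mul, star_neg, hη, hy, Csa.star_algebraMap, star_star, mul_assoc]

/-- the affine trick -/
theorem aff (hc : Canc Γ W) {η y α : B} (hη : star η = η) (hW : mb η s ∈ W) (hα : α ∈ perG Γ s)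
    (hy : star y = y) (hu : IsUnit y) :
    Γ (mb (phi s η y - η) s) = Γ (mb (phi s (η + α) y - (η + α)) s) := by
  obtain ⟨v, rfl⟩ := hu
  have hv : star ((v⁻¹ : Bˣ) : B) = (v⁻¹ : Bˣ) := by
    rw [← one_mul (star _), ← v.inv_mul, mul_assoc, ← hy, ← star_mul, v.inv_mul, star_one, mul_one]
  refine hc _ hW (mb (η + α) s) _ _ (hα.2 η hη).symm ?_
  rw [mob' hs h0 ha hη hy v.mul_inv v.inv_mul,
    mob' hs h0 ha (by rw [star_add, hη, hα.1]) hy v.mul_inv v.inv_mul, add_sub_right_comm]
  exact (hα.2 _ (by rw [star_sub, hη, hv])).symm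

theorem per_phi [Nontrivial B] (hc : Canc Γ W) {η b : B} (hη : star η = η) (hW : mb η s ∈ W) {a : K}
    (ha0 : a ≠ 0) (hα : ι a ∈ perG Γ s) (hb : phi s η b ∈ perG Γ s) :
    phi s (η + ι a) b ∈ perG Γ s := by
  have hη' : star (η + ι a) = η + ι a := by rw [star_add, hη, hα.1]
  have hb' : star b = b := phi_inj hs h0 ha hη (by rw [← star_phi s hη, hb.1])
  refine ⟨by rw [star_phi s hη', hb'], fun θ hθ => ?_⟩
  obtain ⟨n, h1, h2⟩ := exists_nat_unit (θ + (η + ι a)) (θ + (η + ι a) + phi s (η + ι a) b) ha0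
  have hn : ι (n * a) ∈ perG Γ s := by
    rw [map_mul, map_natCast, ← nsmul_eq_mul]; exact nsmul_mem hα n
  obtain ⟨y, hy⟩ := LinearMap.injective_iff_surjective.1 (phi_inj hs h0 ha hη')
    (θ + (η + ι a) + ι (n * a))
  have hy' : star y = y := phi_inj hs h0 ha hη' (by
    rw [← star_phi s hη', hy, star_add, star_add, hθ, hη', hn.1])
  have u1 : IsUnit y := phi_unit hs h0 ha hη' (hy ▸ h1)
  have u2 : IsUnit (y + b) := phi_unit hs h0 ha hη' (by rw [map_add, hy, add_right_comm]; exact h2)
  have e1 := aff hs h0 ha hc hη hW hα hy' u1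
  have e2 := aff hs h0 ha hc hη hW hα (by rw [star_add, hy', hb']) u2
  have e3 := hb.2 (phi s η y - η) (by rw [star_sub, star_phi s hη, hy', hη])
  rw [map_add, map_add, hy, add_sub_right_comm, e3, e1, hy] at e2
  rw [← hn.2 θ hθ, ← hn.2 _ (by rw [star_add, hθ, star_phi s hη', hb'])]
  convert e2.symm using 3 <;> abel

/-- the periods span every point of the chart -/
theorem mem_span [Nontrivial B] (hc : Canc Γ W) (O : Set K) (h1 : 1 ∈ O)
    {a : K} (ha0 : a ≠ 0) (hα : ∀ κ ∈ O, κ • ι a ∈ perG Γ s) {η : B} (hη : star η = η)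
    (hW : mb η s ∈ W) :
    η ∈ Submodule.span K {β : B | ∀ κ ∈ O, κ • β ∈ perG Γ s} ∧
      (1 : B) ∈ Submodule.span K {β : B | ∀ κ ∈ O, κ • β ∈ perG Γ s} := by
  set V := Submodule.span K {β : B | ∀ κ ∈ O, κ • β ∈ perG Γ s} with hV
  have hα1 : ι a ∈ perG Γ s := by simpa using hα 1 h1
  have one : (1 : B) ∈ V := by
    have := V.smul_mem a⁻¹ (Submodule.subset_span hα)
    rwa [Algebra.smul_def, ← map_mul, inv_mul_cancel₀ ha0, map_one] at this
  let e := LinearEquiv.ofInjectiveEndo _ (phi_inj hs h0 ha hη)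
  have he : ∀ x, phi s η (e.symm x) = x := e.apply_symm_apply
  have key : ∀ a' : K, a' ≠ 0 → ι a' ∈ perG Γ s → ∀ x ∈ V, phi s (η + ι a') (e.symm x) ∈ V := by
    intro a' h0' h' x hx
    refine (Submodule.span_le (p := V.comap ((phi s (η + ι a')).comp e.symm.toLinearMap))).2 ?_ hx
    intro β hβ
    refine Submodule.subset_span fun κ hκ => ?_
    change κ • phi s (η + ι a') (e.symm β) ∈ _
    rw [← map_smul]
    exact per_phi hs h0 ha hc hη hW h0' h' (by rw [map_smul, he]; exact hβ κ hκ)
  have hneg : ι (-a) ∈ perG Γ s := by rw [map_neg]; exact neg_mem hα1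
  have hle : V.map e.symm.toLinearMap ≤ V := by
    rintro _ ⟨x, hx, rfl⟩
    have p1 := key a ha0 hα1 x hx
    have p2 := key (-a) (neg_ne_zero.2 ha0) hneg x hx
    have p3 := he x ▸ hx
    have := V.smul_mem (2 * a ^ 2)⁻¹ (V.sub_mem (V.add_mem p1 p2) (V.add_mem p3 p3))
    convert this using 1
    rw [eq_inv_smul_iff₀ (by simpa using ha0)]
    simp only [phi_apply, LinearEquiv.coe_coe]
    cfg24_sc
  have heq := Submodule.eq_of_le_of_finrank_eq hle (LinearEquiv.finrank_map_eq _ _)
  refine ⟨?_, one⟩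
  obtain ⟨x, hx, hx1⟩ := heq.ge one
  have p1 := key a ha0 hα1 x hx
  have p2 := key (-a) (neg_ne_zero.2 ha0) hneg x hx
  rw [show e.symm x = 1 from hx1] at p1 p2
  have := V.smul_mem (4 * a)⁻¹ (V.sub_mem p1 p2)
  convert this using 1
  rw [eq_inv_smul_iff₀ (by simpa using ha0)]
  simp only [phi_apply, hs]
  cfg24_sc

end Per

end Crest.Agent.T24.Cfg
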