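import Crest.Agent.T24.CfgB_24
import Crest.Agent.T24.LocG_59

/-!
# T24 / CONFIG (helper24): configurations of Moebius points in the kernel of a finite colouring
-/

set_option autoImplicit false
set_option linter.unusedSectionVars false

noncomputable section

namespace Crest.Agent.T24

open Module Csa Asa NumberField IsDedekindDomain WithZero Filter

variable {K B : Type*} [Field K] [NumberField K] [StarRing K] [Ring B] [StarRing B]
  [Algebra K B] [StarModule K B] [Algebra.IsCentral K B] [IsSimpleRing B] [FiniteDimensional K B]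

local notation "ι" => algebraMap K B

/-- `r` Moebius points of one hermitian element in the kernel of `c`, on distinct lines -/
structure Cfg {m : ℕ} {Q : Type} [Group Q] (c : Um K B m →* Q) (r : ℕ) where
  /-- the base point -/
  th : B
  /-- the parameters -/
  a : Fin r → K
  /-- the points -/
  x : Fin r → Um K B m
  herm : star th = th
  ne : ∀ j, star (a j) ≠ a j
  eq : ∀ j, ((x j : unitary B) : B) * (th + algebraMap K B (star (a j))) = th + algebraMap K B (a j)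
  ker : ∀ j, c (x j) = 1
  line : ∀ i j, i ≠ j → ∀ t : K,
    (th + algebraMap K B (star (a i))) * (th + algebraMap K B (a i)) ≠
      t • ((th + algebraMap K B (star (a j))) * (th + algebraMap K B (a j)))

namespace Cfg

/-- at most two points on a line -/
theorem line_two {x : B} (hx : ∀ t : K, x ≠ ι t) (s : K) (N : B) {a b c : K}
    (hab : a ^ 2 ≠ b ^ 2) (hac : a ^ 2 ≠ c ^ 2) (hbc : b ^ 2 ≠ c ^ 2)
    (h : ∀ e ∈ ({a, b, c} : Set K), (x + ι (-(e - s) ^ 2)) * (x + ι (-(e + s) ^ 2)) ∈ K ∙ N) :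
    False := by
  have ha := h a (by simp)
  have hb := h b (by simp)
  have hc := h c (by simp)
  have key : ∀ a b : K, a ^ 2 ≠ b ^ 2 → (x + ι (-(a - s) ^ 2)) * (x + ι (-(a + s) ^ 2)) ∈ K ∙ N →
      (x + ι (-(b - s) ^ 2)) * (x + ι (-(b + s) ^ 2)) ∈ K ∙ N →
      (-2 : K) • x + ι (a ^ 2 + b ^ 2 - 2 * s ^ 2) ∈ K ∙ N := fun a b hab ha hb => by
    have := (K ∙ N).smul_mem (a ^ 2 - b ^ 2)⁻¹ ((K ∙ N).sub_mem ha hb)
    convert this using 1
    rw [eq_inv_smul_iff₀ (sub_ne_zero.2 hab)]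
    cfg24_sc
  have h1 := key a b hab ha hb
  have h2 := (K ∙ N).sub_mem h1 (key a c hac ha hc)
  rw [add_sub_add_left_eq_sub, ← map_sub] at h2
  obtain ⟨t, ht⟩ := Submodule.mem_span_singleton.1 h2
  obtain ⟨t', ht'⟩ := Submodule.mem_span_singleton.1 h1
  have ht0 : t ≠ 0 := by
    rintro rfl
    rw [zero_smul, eq_comm, map_eq_zero] at ht
    exact hbc (by linear_combination ht)
  have hN : N = t⁻¹ • _ := (eq_inv_smul_iff₀ ht0).2 ht
  refine hx ((-2)⁻¹ * (t' * t⁻¹ * (b ^ 2 - c ^ 2) - (a ^ 2 + b ^ 2 - 2 * s ^ 2))) ?_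
  rw [map_mul, ← Algebra.smul_def, eq_inv_smul_iff₀ (by norm_num), eq_sub_of_add_eq ht'.symm, hN]
  cfg24_sc

section Chart
variable {s : K} (hs : star s = -s) (h0 : s ≠ 0) (ha : Aniso B) {m : ℕ} {Q : Type} [Group Q]
  (c : Um K B m →* Q)

open scoped Classical in
/-- extension of a colour by `none` -/
def ext {Λ : Type} (W : Subgroup (unitary B)) (l : W → Λ) (u : unitary B) : Option Λ :=
  if h : u ∈ W then some (l ⟨u, h⟩) else none

theorem ext_of_mem {Λ : Type} {W : Subgroup (unitary B)} (l : W → Λ) {u : unitary B} (h : u ∈ W) :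
    ext W l u = some (l ⟨u, h⟩) := dif_pos h

theorem ext_of_notMem {Λ : Type} {W : Subgroup (unitary B)} (l : W → Λ) {u : unitary B}
    (h : u ∉ W) : ext W l u = none := dif_neg h

theorem ext_mem {Λ : Type} {W : Subgroup (unitary B)} {l : W → Λ} {u u' : unitary B}
    (e : ext W l u = ext W l u') (h : u ∈ W) : u' ∈ W := by
  by_contra h'
  rw [ext_of_mem l h, ext_of_notMem l h'] at e
  cases e

theorem canc {Λ : Type} [Group Λ] (W : Subgroup (unitary B)) (l : W →* Λ) : Canc (ext W l) W := by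
  intro x hx x' y y' e1 e2
  have hx' := ext_mem e1 hx
  by_cases hy : y ∈ W
  · have hy' : y' ∈ W := (W.mul_mem_cancel_left hx').1 (ext_mem e2 (W.mul_mem hx hy))
    rw [ext_of_mem l hx, ext_of_mem l hx', Option.some_inj] at e1
    rw [ext_of_mem l (W.mul_mem hx hy), ext_of_mem l (W.mul_mem hx' hy'), Option.some_inj] at e2
    rw [ext_of_mem l hy, ext_of_mem l hy', Option.some_inj]
    have p := l.map_mul ⟨x, hx⟩ ⟨y, hy⟩
    have p' := l.map_mul ⟨x', hx'⟩ ⟨y', hy'⟩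
    exact mul_left_cancel ((e1 ▸ p.symm).trans (e2.trans p'))
  · rw [ext_of_notMem l hy, ext_of_notMem l fun hy' =>
      hy ((W.mul_mem_cancel_left hx).1 (ext_mem e2.symm (W.mul_mem hx' hy')))]

include hs h0 ha

/-- a configuration at a rich centre -/
theorem of_rich {θ : B} (hθ : star θ = θ) {β : K} (hβ : star β = β) (hβ0 : β ≠ 0)
    (hW : ∀ n : ℕ, mb (θ + ι (n * β)) s ∈ Um K B m) {r σ : ℕ}
    (hR : Rich (fun n => c ⟨_, hW n⟩) (2 * r) σ)
    (hx : ∀ t : K, (θ + ι (σ / 2 * β)) * (θ + ι (σ / 2 * β)) ≠ ι t) :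
    ∃ C : Cfg c r, C.th = (θ + ι (σ / 2 * β)) * (θ + ι (σ / 2 * β)) := by
  classical
  obtain ⟨A, hA, hA'⟩ := hR
  set θ₀ := θ + ι (σ / 2 * β) with hθ₀
  have hθ0 : star θ₀ = θ₀ := by rw [hθ₀, star_add, hθ, Csa.star_algebraMap]; simp [hβ]
  let a : ℕ → K := fun i => (σ / 2 - i) * β
  have a1 : ∀ i, star (a i) = a i := fun i => by simp [a, hβ]
  have a2 : ∀ i ∈ A, ∀ j ∈ A, a i + a j ≠ 0 := fun i hi j hj h => by
    have h1 : ((σ : K) - ((i + j : ℕ) : K)) * β = 0 := by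
      rw [← h]; simp only [a]; push_cast; ring
    have h2 : σ = i + j := Nat.cast_injective (sub_eq_zero.1 ((mul_eq_zero.1 h1).resolve_right hβ0))
    have := (hA' i hi).1
    have := (hA' j hj).1
    omega
  have a3 : ∀ i ∈ A, ∀ j ∈ A, i ≠ j → a i ^ 2 ≠ a j ^ 2 := fun i hi j hj hij h => by
    have h1 : (a i + a j) * (((j : K) - i) * β) = 0 := by
      simp only [a] at h ⊢; linear_combination h
    exact hij (Nat.cast_injective (sub_eq_zero.1 ((mul_eq_zero.1
      ((mul_eq_zero.1 h1).resolve_left (a2 i hi j hj))).resolve_right hβ0))).symm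
  have a0 : ∀ i ∈ A, a i ≠ 0 := fun i hi h => a2 i hi i hi (by rw [h, add_zero])
  have st : ∀ i, star (-(a i + s) ^ 2) = -(a i - s) ^ 2 := fun i => by
    rw [star_neg, star_pow, star_add, a1, hs, sub_eq_add_neg]
  let N : ℕ → B := fun i => (θ₀ * θ₀ + ι (-(a i - s) ^ 2)) * (θ₀ * θ₀ + ι (-(a i + s) ^ 2))
  let f : ℕ → Submodule K B := fun i => K ∙ N i
  have hc : A.card ≤ 2 * (A.image f).card := by
    refine Finset.card_le_mul_card_image A 2 fun ℓ hℓ => ?_
    obtain ⟨i₀, -, rfl⟩ := Finset.mem_image.1 hℓ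
    by_contra hlt
    obtain ⟨i, hi, j, hj, l, hl, hij, hil, hjl⟩ := Finset.two_lt_card.1 (not_le.1 hlt)
    rw [Finset.mem_filter] at hi hj hl
    refine line_two hx s (N i₀) (a3 i hi.1 j hj.1 hij) (a3 i hi.1 l hl.1 hil)
      (a3 j hj.1 l hl.1 hjl) ?_
    rintro e (rfl | rfl | rfl)
    · exact hi.2.le (Submodule.mem_span_singleton_self _)
    · exact hj.2.le (Submodule.mem_span_singleton_self _)
    · exact hl.2.le (Submodule.mem_span_singleton_self _)
  obtain ⟨T, hT, hTc⟩ := Finset.exists_subset_card_eq (s := A.image f) (n := r) (by omega)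
  let e : Fin r → T := fun j => T.equivFin.symm (j.cast hTc.symm)
  have he : Function.Injective e := fun i j h => Fin.cast_injective _ (T.equivFin.symm.injective h)
  choose g hg hg' using fun j => Finset.mem_image.1 (hT (e j).2)
  have hm : ∀ i ∈ A, mb (θ₀ * θ₀) (-(a i + s) ^ 2) =
      mb (θ + ι ((σ - i : ℕ) * β)) s * (mb (θ + ι (i * β)) s)⁻¹ := fun i hi => by
    have := (hA' i hi).1
    rw [mb_sq hs h0 ha hθ0 (a1 i) (a0 i hi), Nat.cast_sub (by omega)]
    rw [show θ₀ + ι (a i) = θ + ι ((σ - i) * β) by simp only [hθ₀, a]; cfg24_sc,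
      show θ₀ - ι (a i) = θ + ι (i * β) by simp only [hθ₀, a]; cfg24_sc]
  have hsq : star (θ₀ * θ₀) = θ₀ * θ₀ := by rw [star_mul, hθ0]
  refine ⟨⟨θ₀ * θ₀, fun j => -(a (g j) + s) ^ 2, fun j => ⟨_, hW (σ - g j)⟩ * ⟨_, hW (g j)⟩⁻¹, hsq,
    fun j => sq_star_ne hs h0 (a1 _) (a0 _ (hg j)), fun j => ?_, fun j => ?_,
    fun i j hij t ht => hij (he (Subtype.ext ?_))⟩, rfl⟩
  · have := mb_spec ha hsq (sq_star_ne hs h0 (a1 _) (a0 _ (hg j)))
    rwa [hm _ (hg j)] at this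
  · rw [map_mul, map_inv, mul_inv_eq_one]; exact (hA' _ (hg j)).2.symm
  · rw [← hg', ← hg']
    rw [st, st] at ht
    have hn := sq_star_ne hs h0 (a1 _) (a0 _ (hg i))
    have hu : IsUnit (N (g i)) := (st _ ▸ unit_add ha hsq (star_ne hn)).mul (unit_add ha hsq hn)
    have ht0 : t ≠ 0 := by
      rintro rfl
      exact hu.ne_zero (ht.trans (zero_smul _ _))
    change K ∙ N (g i) = K ∙ N (g j)
    rw [show N (g i) = t • N (g j) from ht, Submodule.span_singleton_smul_eq ht0.isUnit]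

/-- two centres carrying configurations -/
theorem centres [Finite Q] (r : ℕ) : ∃ D : ℕ, ∀ θ : B, star θ = θ → (∀ t : K, θ ≠ ι t) →
    ∀ β : K, star β = β → β ≠ 0 → (∀ n : ℕ, mb (θ + ι (n * β)) s ∈ Um K B m) →
    ∃ σ σ' : ℕ, σ < σ' ∧ σ' ≤ D ∧
      (∃ C : Cfg c r, C.th = (θ + ι (σ / 2 * β)) * (θ + ι (σ / 2 * β))) ∧
      ∃ C : Cfg c r, C.th = (θ + ι (σ' / 2 * β)) * (θ + ι (σ' / 2 * β)) := by
  classical
  obtain ⟨D, hD⟩ := rich Q (2 * r) 3
  refine ⟨D, fun θ hθ hθ' β hβ hβ0 hW => ?_⟩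
  obtain ⟨S, hS, hS'⟩ := hD (fun n => c ⟨_, hW n⟩)
  let P : ℕ → Prop := fun σ => ∀ t : K, (θ + ι (σ / 2 * β)) * (θ + ι (σ / 2 * β)) ≠ ι t
  have h1 : (S.filter fun σ => ¬ P σ).card ≤ 1 := by
    refine Finset.card_le_one.2 fun i hi j hj => ?_
    obtain ⟨t, ht⟩ := not_forall.1 (Finset.mem_filter.1 hi).2
    obtain ⟨t', ht'⟩ := not_forall.1 (Finset.mem_filter.1 hj).2
    rw [not_not] at ht ht'
    by_contra hij
    have hn : ((i : K) - j) * β ≠ 0 :=
      mul_ne_zero (sub_ne_zero.2 fun h => hij (Nat.cast_injective h)) hβ0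
    refine hθ' ((((i : K) - j) * β)⁻¹ * (t - t' - ((i / 2 * β) ^ 2 - (j / 2 * β) ^ 2))) ?_
    rw [map_mul, ← Algebra.smul_def, eq_inv_smul_iff₀ hn, map_sub, map_sub, ← ht, ← ht']
    cfg24_sc
  have h2 := Finset.card_filter_add_card_filter_not (s := S) P
  obtain ⟨i, hi, j, hj, hij⟩ := Finset.one_lt_card.1 (show 1 < (S.filter P).card by omega)
  rw [Finset.mem_filter] at hi hj
  have ci := of_rich hs h0 ha c hθ hβ hβ0 hW (hS' i hi.1).2 hi.2
  have cj := of_rich hs h0 ha c hθ hβ hβ0 hW (hS' j hj.1).2 hj.2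
  rcases lt_or_gt_of_ne hij with h | h
  · exact ⟨i, j, h, (hS' j hj.1).1, ci, cj⟩
  · exact ⟨j, i, h, (hS' i hi.1).1, cj, ci⟩

end Chart

/-! ### valuations -/

theorem ev_small (δ : ℤᵐ⁰) {γ : ℤᵐ⁰} (h : γ ≠ 0) : ∀ᶠ n : ℕ in atTop, δ * exp (-(n : ℤ)) < γ := by
  rcases eq_or_ne δ 0 with rfl | hδ
  · exact .of_forall fun n => by rw [zero_mul]; exact zero_lt_iff.2 h
  lift δ to ℤ using hδ with a
  lift γ to ℤ using h with b
  filter_upwards [eventually_gt_atTop (a - b).toNat] with n hn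
  rw [← exp_add, exp_lt_exp]; omega

theorem val_add_eq {w : Pl K} (h : Ultra B w) {x y : B} (hy : val w y < val w x) :
    val w (x + y) = val w x := by
  refine le_antisymm ((h x y).trans (max_le le_rfl hy.le)) ?_
  have := h (x + y) (-y)
  rw [add_neg_cancel_right, val_neg] at this
  exact (le_max_iff.1 this).resolve_right (not_le.2 hy)

theorem val_ne {w : Pl K} {x : B} (h : IsUnit x) : val w x ≠ 0 :=
  val_ne_zero w ((isUnit_iff_Nrd x).1 h)

theorem val_alg (w : Pl K) (a : K) : val w (ι a) = w.valuation K a ^ deg K B := by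
  rw [val, Nrd_algebraMap, map_pow]

theorem exists_large (hd : 2 ≤ deg K B) (γ : Pl K → ℤᵐ⁰) :
    ∃ κ : K, star κ = κ ∧ ∀ w ∈ TT K B, γ w < val w (ι κ) := by
  have hT := Loc.finite_TT (K := K) (B := B) hd
  obtain ⟨n, hn⟩ := ((eventually_all_finite hT).2 fun w _ => ev_small (γ w) one_ne_zero).exists
  obtain ⟨c, hc0, hc⟩ := exists_deep hT.toFinset n
  have hc1 : (c : K) ≠ 0 := by simpa using hc0
  refine ⟨((c : K) * star (c : K))⁻¹, by simp [mul_comm], fun w hw => ?_⟩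
  obtain ⟨w', hw', h1, -⟩ := Loc.TT_star hw
  have h2 : w.valuation K ((c : K) * star (c : K)) ≤ exp (-(n : ℤ)) := by
    rw [map_mul, ← h1]
    exact (mul_le_mul' (hc w (hT.mem_toFinset.2 hw)) (val_int w' c)).trans (mul_one _).le
  have h3 : w.valuation K ((c : K) * star (c : K)) ≠ 0 := val_ne_zero w (by simpa using hc1)
  rw [val_alg, map_inv₀, inv_pow, ← one_mul (_⁻¹), lt_mul_inv_iff₀ (pow_pos (zero_lt_iff.2 h3) _)]
  refine lt_of_le_of_lt (mul_le_mul_right ?_ _) (hn w hw)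
  exact (pow_le_of_le_one zero_le (h2.trans (exp_neg_le_one n)) (by omega)).trans h2

section Main
variable {s : K} (hs : star s = -s) (h0 : s ≠ 0) (ha : Aniso B)
include hs h0 ha

theorem mb_sub_one {θ : B} (hθ : star θ = θ) :
    ((mb θ s : B) - 1) * (θ + ι (star s)) = ι (2 * s) := by
  rw [sub_mul, mb_spec ha hθ (skew_ne hs h0), hs]; cfg24_sc

theorem mb_mem {θ : B} (hθ : star θ = θ) {m : ℕ} : mb θ s ∈ Um K B m ↔
    ∀ w ∈ TT K B, val w (ι (2 * s)) < exp (-(m : ℤ)) * val w (θ + ι (star s)) := by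
  refine forall₂_congr fun w _ => ?_
  rw [← mb_sub_one hs h0 ha hθ, val_mul,
    mul_lt_mul_iff_left₀ (zero_lt_iff.2 (val_ne (unit_add ha hθ (star_ne (skew_ne hs h0)))))]

theorem exists_chart (hd : 2 ≤ deg K B) {x : B} (hx : star x = x) (m : ℕ) :
    ∃ κ : K, star κ = κ ∧ mb (x + ι κ) s ∈ Um K B m := by
  obtain ⟨κ, h1, h2⟩ := exists_large hd fun w =>
    max (val w (x + ι (star s))) (exp (m : ℤ) * val w (ι (2 * s)))
  refine ⟨κ, h1, (mb_mem hs h0 ha (by rw [star_add, hx, Csa.star_algebraMap, h1])).2 fun w hw => ?_⟩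
  have h3 := max_lt_iff.1 (h2 w hw)
  rw [add_right_comm, add_comm _ (ι κ), val_add_eq hw.2 h3.1, exp_neg,
    lt_inv_mul_iff₀ (zero_lt_iff.2 exp_ne_zero)]
  exact h3.2

theorem val_transl {m : ℕ} (hm : ∀ w ∈ TT K B, exp (-(m : ℤ)) ≤ val w (ι (2 * s))) {θ : B}
    (hθ : star θ = θ) (h : mb θ s ∈ Um K B m) {κ : K} (hκ : ∀ w ∈ TT K B, w.valuation K κ ≤ 1)
    {w : Pl K} (hw : w ∈ TT K B) : val w (θ + ι κ + ι (star s)) = val w (θ + ι (star s)) := by
  have h1 := ((hm w hw).trans_lt ((mb_mem hs h0 ha hθ).1 h w hw))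
  rw [lt_mul_iff_one_lt_right (zero_lt_iff.2 exp_ne_zero)] at h1
  rw [add_right_comm, val_add_eq hw.2 (lt_of_le_of_lt _ h1)]
  rw [val_alg]; exact pow_le_one₀ zero_le (hκ w hw)

theorem transl {m : ℕ} (hm : ∀ w ∈ TT K B, exp (-(m : ℤ)) ≤ val w (ι (2 * s))) {θ : B}
    (hθ : star θ = θ) (h : mb θ s ∈ Um K B m) {κ : K} (hκ' : star κ = κ)
    (hκ : ∀ w ∈ TT K B, w.valuation K κ ≤ 1) : mb (θ + ι κ) s ∈ Um K B m :=
  (mb_mem hs h0 ha (by rw [star_add, hθ, Csa.star_algebraMap, hκ'])).2 fun w hw => by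
    rw [val_transl hs h0 ha hm hθ h hκ hw]; exact (mb_mem hs h0 ha hθ).1 h w hw

omit hs ha in
theorem exists_depth (hd : 2 ≤ deg K B) (m : ℕ) :
    ∃ m', m ≤ m' ∧ ∀ w ∈ TT K B, exp (-(m' : ℤ)) ≤ val w (ι (2 * s)) := by
  have h : IsUnit (ι (2 * s)) := (IsUnit.mk0 _ (mul_ne_zero two_ne_zero h0)).map _
  obtain ⟨n, h1, h2⟩ := ((eventually_ge_atTop m).and ((eventually_all_finite
    (Loc.finite_TT (K := K) (B := B) hd)).2 fun w _ => ev_small 1 (val_ne (w := w) h))).exists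
  exact ⟨n, h1, fun w hw => by simpa using (h2 w hw).le⟩

theorem mb_scalar {t : K} (ht : star t = t) : (mb (ι t) s : B) = ι ((t + s) / (t - s)) := by
  have h1 : star (ι t) = ι t := by rw [Csa.star_algebraMap, ht]
  refine (unit_add ha h1 (star_ne (skew_ne hs h0))).mul_right_cancel ?_
  have h2 : t - s ≠ 0 := @sub_ne K _ (starRingEnd K) s hs (mul_ne_zero two_ne_zero h0) t ht
  rw [mb_spec ha h1 (skew_ne hs h0), hs, ← map_add, ← map_add, ← map_mul, ← sub_eq_add_neg,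
    div_mul_cancel₀ _ h2]

theorem exists_cay {u : unitary B} (h : IsUnit ((u : B) - 1)) : ∃ θ, star θ = θ ∧ mb θ s = u := by
  obtain ⟨v, hv⟩ := h
  have h1 : (u : B) * (v⁻¹ : Bˣ) = 1 + (v⁻¹ : Bˣ) := by
    rw [← v.mul_inv, hv]; noncomm_ring
  have h2 : star ((v⁻¹ : Bˣ) : B) = -(1 + (v⁻¹ : Bˣ)) := by
    have h3 : star (v : B) * -(1 + (v⁻¹ : Bˣ)) = 1 := by
      rw [hv, star_sub, star_one, sub_mul, one_mul, mul_neg, ← h1, ← mul_assoc, u.2.1, h1]
      noncomm_ring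
    rw [← one_mul (-_), ← star_one B, ← v.mul_inv, star_mul, mul_assoc, ← star_mul, v.mul_inv,
      star_one, h3, mul_one]
  have h4 : star (ι s + (2 * s) • ((v⁻¹ : Bˣ) : B)) = ι s + (2 * s) • ((v⁻¹ : Bˣ) : B) := by
    rw [star_add, star_smul, h2, Csa.star_algebraMap, star_mul, hs, star_ofNat]; cfg24_sc
  refine ⟨_, h4, mb_eq ha h4 (skew_ne hs h0) ?_⟩
  rw [hs, map_neg, add_neg_cancel_comm, mul_smul_comm, h1]; cfg24_sc

end Main

theorem val_intCast (w : Pl K) (n : ℤ) : w.valuation K (n : K) ≤ 1 := by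
  simpa using val_int w (n : 𝓞 K)

/-- **CONFIG** for an arbitrary finite colouring -/
theorem cfgNA (hne : ∃ c : K, star c ≠ c) (ha : Aniso B) (hd : 2 ≤ deg K B) {m : ℕ} {Q : Type}
    [Group Q] [Finite Q] (c : Um K B m →* Q) (r : ℕ) : Nonempty (Cfg c r) := by
  obtain ⟨s, h0, hs⟩ := exists_skew hne
  obtain ⟨m₁, h1, hm⟩ := exists_depth (B := B) h0 hd m
  obtain ⟨x, hx, hx'⟩ : ∃ x : B, star x = x ∧ ∀ t : K, x ≠ ι t := by
    by_contra h
    push Not at h
    obtain ⟨e, he⟩ := exists_herm_basis (K := K) (B := B) hne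
    have h2 : (⊤ : Submodule K B) ≤ K ∙ (1 : B) := by
      rw [← e.span_eq, Submodule.span_le]
      rintro _ ⟨i, rfl⟩
      obtain ⟨t, ht⟩ := h _ (he i)
      exact Submodule.mem_span_singleton.2 ⟨t, by rw [ht, Algebra.algebraMap_eq_smul_one]⟩
    have h3 := Submodule.finrank_mono h2
    rw [finrank_top, finrank_span_singleton one_ne_zero, finrank_eq_deg_sq] at h3
    nlinarith
  obtain ⟨κ, hκ, hW⟩ := exists_chart hs h0 ha hd hx m₁
  have hθ : star (x + ι κ) = x + ι κ := by rw [star_add, hx, Csa.star_algebraMap, hκ]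
  obtain ⟨D, hD⟩ := centres hs h0 ha c r
  obtain ⟨σ, σ', -, -, ⟨C, -⟩, -⟩ := hD (x + ι κ) hθ
    (fun t ht => hx' (t - κ) (by rw [map_sub, ← ht, add_sub_cancel_right])) 1 (star_one _)
    one_ne_zero fun n => Um_anti h1 (transl hs h0 ha hm hθ hW (by simp)
      fun w _ => by simpa using val_intCast w n)
  exact ⟨C⟩

section TW
variable {s : K} (hs : star s = -s) (h0 : s ≠ 0) (ha : Aniso B) {m m₁ : ℕ} {Q : Type} [Group Q]
  [Finite Q] (c : Um K B m →* Q) (M : Subgroup Q) [M.Normal] (h1 : m ≤ m₁)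

/-- the colour modulo `M` on the deeper group -/
def lam : Um K B m₁ →* Q ⧸ M :=
  (QuotientGroup.mk' M).comp (c.comp (Subgroup.inclusion (Um_anti h1)))

theorem lam_eq {x y : unitary B} (hx : x ∈ Um K B m₁) (hy : y ∈ Um K B m₁)
    (h : c (⟨x, Um_anti h1 hx⟩ * ⟨y, Um_anti h1 hy⟩⁻¹) ∈ M) :
    ext _ (lam c M h1) x = ext _ (lam c M h1) y := by
  rw [ext_of_mem _ hx, ext_of_mem _ hy, Option.some_inj, ← mul_inv_eq_one, ← map_inv, ← map_mul]
  exact (QuotientGroup.eq_one_iff _).2 h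

include hs h0 ha

/-- without a configuration, the scalars `κ D!` are periods -/
theorem per_scalar (hm : ∀ w ∈ TT K B, exp (-(m₁ : ℤ)) ≤ val w (ι (2 * s)))
    (hz : ∀ (u : Um K B m) (t : K), ((u : unitary B) : B) = ι t → c u ∈ M) {r : ℕ}
    (hno : ∀ (C : Cfg c r) (a' : K) (x' : Um K B m), star a' ≠ a' →
      ((x' : unitary B) : B) * (C.th + ι (star a')) = C.th + ι a' → c x' ∈ M) :
    ∃ a : K, a ≠ 0 ∧ ∀ κ : K, star κ = κ → (∀ w ∈ TT K B, w.valuation K κ ≤ 1) →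
      κ • ι a ∈ perG (ext _ (lam c M h1)) s := by
  obtain ⟨D, hD⟩ := centres hs h0 ha c r
  refine ⟨D.factorial, Nat.cast_ne_zero.2 D.factorial_ne_zero, fun κ hκ hκ' => ?_⟩
  rw [Algebra.smul_def, ← map_mul, mul_comm]
  have hi : ∀ n : ℤ, star (n * κ) = n * κ := fun n => by simp [hκ]
  have hv : ∀ n : ℤ, ∀ w ∈ TT K B, w.valuation K (n * κ) ≤ 1 := fun n w hw => by
    rw [map_mul]; exact mul_le_one' (val_intCast w n) (hκ' w hw)
  have hst : ∀ θ : B, star θ = θ → ∀ n : ℤ, star (θ + ι (n * κ)) = θ + ι (n * κ) := fun θ hθ n => by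
    rw [star_add, hθ, Csa.star_algebraMap, hi]
  refine ⟨by simpa using hst 0 (star_zero _) D.factorial, fun θ hθ => ?_⟩
  by_cases hW : mb θ s ∈ Um K B m₁
  swap
  · rw [ext_of_notMem _ hW, ext_of_notMem _ fun h => hW ?_]
    have := transl hs h0 ha hm (hst θ hθ D.factorial) (by simpa using h) (hi (-D.factorial))
      (hv (-D.factorial))
    simpa using this
  have hn : ∀ n : ℤ, mb (θ + ι (n * κ)) s ∈ Um K B m₁ := fun n =>
    transl hs h0 ha hm hθ hW (hi n) (hv n)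
  let g : ℤ → Option (Q ⧸ M) := fun n => ext _ (lam c M h1) (mb (θ + ι (n * κ)) s)
  suffices h : g D.factorial = g 0 by simpa [g] using h
  by_cases hsc : ∃ t : K, θ = ι t
  · obtain ⟨t, rfl⟩ := hsc
    have ht : star t = t := (algebraMap K B).injective (by rw [← Csa.star_algebraMap, hθ])
    have key : ∀ n : ℤ, c ⟨_, Um_anti h1 (hn n)⟩ ∈ M := fun n => hz _ _ (by
      change (mb (ι t + ι (n * κ)) s : B) = _
      rw [← map_add, mb_scalar hs h0 ha (by rw [star_add, ht, hi])])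
    exact lam_eq c M h1 (hn _) (hn _) (by
      rw [map_mul, map_inv]; exact M.mul_mem (key _) (M.inv_mem (key _)))
  rcases eq_or_ne κ 0 with rfl | hκ0
  · simp [g]
  obtain ⟨σ, σ', hlt, hle, hC, hC'⟩ := hD θ hθ (fun t ht => hsc ⟨t, ht⟩) κ hκ hκ0
    fun n => Um_anti h1 (by simpa using hn n)
  have sym : ∀ σ : ℕ, (∃ C : Cfg c r, C.th = (θ + ι (σ / 2 * κ)) * (θ + ι (σ / 2 * κ))) →
      ∀ j : ℤ, g (σ + j) = g (-j) := by
    rintro σ ⟨C, hC⟩ j
    have e1 : θ + ι (σ / 2 * κ) + ι ((σ / 2 + j) * κ) = θ + ι ((σ + j : ℤ) * κ) := by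
      rw [add_assoc, ← map_add]; congr 2; push_cast; ring
    have e2 : θ + ι (σ / 2 * κ) - ι ((σ / 2 + j) * κ) = θ + ι ((-j : ℤ) * κ) := by
      rw [add_sub_assoc, ← map_sub]; congr 2; push_cast; ring
    rcases eq_or_ne (((σ : K) / 2 + j) * κ) 0 with h | h
    · simp only [g, ← e1, ← e2, h, map_zero, add_zero, sub_zero]
    have h2 : star (θ + ι (σ / 2 * κ)) = θ + ι (σ / 2 * κ) := by
      rw [star_add, hθ, Csa.star_algebraMap]; simp [hκ]
    have h3 : star (((σ : K) / 2 + j) * κ) = (σ / 2 + j) * κ := by simp [hκ]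
    have h4 := sq_star_ne hs h0 h3 h
    have h5 := mb_spec ha (by rw [star_mul, h2] : star ((θ + ι (σ / 2 * κ)) * (θ + ι (σ / 2 * κ))) = _) h4
    rw [mb_sq hs h0 ha h2 h3 h, e1, e2, ← hC] at h5
    exact lam_eq c M h1 (hn _) (hn _) (hno C _ _ h4 h5)
  have per : Function.Periodic g ((σ' - σ : ℕ) : ℤ) := fun n => by
    have := (sym σ' hC' (n - σ)).trans (sym σ hC (n - σ)).symm
    rw [Nat.cast_sub hlt.le]
    convert this using 2 <;> ring
  obtain ⟨q, hq⟩ := Nat.dvd_factorial (Nat.sub_pos_of_lt hlt) ((Nat.sub_le σ' σ).trans hle)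
  rw [hq, mul_comm, Nat.cast_mul]
  exact per.nat_mul_eq q

/-- all small hermitian elements are periods -/
theorem per_small (hd : 2 ≤ deg K B) {Y : Type} {Γ : unitary B → Y} (hc : Canc Γ (Um K B m₁))
    {a : K} (ha0 : a ≠ 0) (hα : ∀ κ : K, star κ = κ → (∀ w ∈ TT K B, w.valuation K κ ≤ 1) →
      κ • ι a ∈ perG Γ s) :
    ∃ n : ℕ, ∀ β : B, star β = β → (∀ w ∈ TT K B, val w β ≤ exp (-(n : ℤ))) → β ∈ perG Γ s := by
  classical
  let O : Set K := {κ | star κ = κ ∧ ∀ w ∈ TT K B, w.valuation K κ ≤ 1}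
  have hO : 1 ∈ O := ⟨star_one _, fun w _ => by simp⟩
  let P : Set B := {β | ∀ κ ∈ O, κ • β ∈ perG Γ s}
  have htop : ⊤ ≤ Submodule.span K P := fun x _ => by
    have key : ∀ y : B, star y = y → y ∈ Submodule.span K P := fun y hy => by
      obtain ⟨κ, hκ, hW⟩ := exists_chart hs h0 ha hd hy m₁
      obtain ⟨p1, p2⟩ := mem_span hs h0 ha hc O hO ha0 (fun κ h => hα κ h.1 h.2)
        (by rw [star_add, hy, Csa.star_algebraMap, hκ]) hW
      simpa [Algebra.algebraMap_eq_smul_one] using sub_mem p1 (Submodule.smul_mem _ κ p2)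
    obtain ⟨y, z, hy, hz, rfl⟩ := herm_decomp h0 hs x
    exact add_mem (key y hy) (Submodule.smul_mem _ _ (key z hz))
  obtain ⟨b, hb, hsp, hli⟩ := exists_linearIndependent K P
  let e : Basis b K B := Basis.mk hli (by rw [Subtype.range_coe, hsp]; exact htop)
  have he : ∀ i, e i ∈ P := fun i => by simpa [e] using hb i.2
  have he' : ∀ i, star (e i) = e i := fun i => by simpa using (he i 1 hO).1
  obtain ⟨n, hn⟩ := (Loc.cofinal_all hd e 0).exists
  refine ⟨n, fun β hβ hv => ?_⟩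
  have := FiniteDimensional.fintypeBasisIndex e
  rw [← e.sum_repr β]
  refine sum_mem fun i _ => he i _ ⟨(herm_iff_repr e he' β).1 hβ i, fun w hw => ?_⟩
  simpa using (hn w (Loc.ultra_iff.1 hw.2) β).2 (hv w hw) i

/-- a colour whose small translations are periods is constant on cosets of a deep subgroup -/
theorem deep_const (hd : 2 ≤ deg K B) (hm : ∀ w ∈ TT K B, exp (-(m₁ : ℤ)) ≤ val w (ι (2 * s)))
    {Y : Type} {Γ : unitary B → Y} {n : ℕ}
    (hn : ∀ β : B, star β = β → (∀ w ∈ TT K B, val w β ≤ exp (-(n : ℤ))) → β ∈ perG Γ s) :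
    ∃ m₂, ∀ t ∈ Um K B m₂, ∃ z ∈ Um K B m₁, Γ (z * t) = Γ z := by
  obtain ⟨κ, hκ, hW⟩ := exists_chart hs h0 ha hd (star_zero B) m₁
  rw [zero_add] at hW
  have hθ : star (ι κ) = ι κ := by rw [Csa.star_algebraMap, hκ]
  have h2s : IsUnit (ι (2 * s)) := (IsUnit.mk0 _ (mul_ne_zero two_ne_zero h0)).map _
  let A : Pl K → ℤᵐ⁰ := fun w => val w ((mb (ι κ) s : B) - 1)
  have hA : ∀ w, A w * val w (ι κ + ι (star s)) = val w (ι (2 * s)) := fun w => by
    rw [← val_mul, mb_sub_one hs h0 ha hθ]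
  have hA0 : ∀ w, A w ≠ 0 := fun w h => val_ne (w := w) h2s (by rw [← hA, h, zero_mul])
  obtain ⟨m₂, h2⟩ := ((eventually_all_finite (Loc.finite_TT (K := K) (B := B) hd)).2 fun w _ =>
    (ev_small 1 (hA0 w)).and (ev_small (val w (ι (2 * s)))
      (mul_ne_zero (mul_ne_zero (hA0 w) (exp_ne_zero (a := -(n : ℤ)))) (hA0 w)))).exists
  refine ⟨m₂, fun t ht => ?_⟩
  have hj : ∀ j : ℕ, star (κ + j) = κ + j := fun j => by simp [hκ]
  have p1 : ∀ j : ℕ, κ + j + s ≠ 0 := fun j =>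
    @add_ne K _ (starRingEnd K) s hs (mul_ne_zero two_ne_zero h0) _ (hj j)
  have p2 : ∀ j : ℕ, κ + j - s ≠ 0 := fun j =>
    @sub_ne K _ (starRingEnd K) s hs (mul_ne_zero two_ne_zero h0) _ (hj j)
  have hi : Function.Injective fun j : ℕ => -((κ + j - s) / (κ + j + s)) := fun j j' h => by
    have h' := neg_injective h
    rw [div_eq_div_iff (p1 j) (p1 j')] at h'
    have : 2 * s * ((j : K) - j') = 0 := by linear_combination h'
    exact Nat.cast_injective (sub_eq_zero.1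
      ((mul_eq_zero.1 this).resolve_left (mul_ne_zero two_ne_zero h0)))
  obtain ⟨j, hu⟩ := ((finite_nonunit (K := K) (t : B)).preimage hi.injOn).exists_notMem
  simp only [Set.mem_preimage, Set.mem_ofPred_eq, not_not] at hu
  have hv : ∀ w ∈ TT K B, w.valuation K (j : K) ≤ 1 := fun w _ => by simpa using val_intCast w j
  have hz := transl hs h0 ha hm hθ hW (κ := j) (by simp) hv
  have hv' := fun w hw => val_transl hs h0 ha hm hθ hW hv (w := w) hw
  rw [← map_add] at hz hv'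
  have hθj : star (ι (κ + j)) = ι (κ + j) := by rw [Csa.star_algebraMap, hj]
  have hz1 := mb_scalar hs h0 ha (hj j)
  have hz2 := mb_sub_one hs h0 ha hθj
  set z := mb (ι (κ + j)) s with hzd
  obtain ⟨θ, hθ', hzt⟩ := exists_cay hs h0 ha (u := z * t) (by
    have : ((z * t : unitary B) : B) - 1 =
        ι ((κ + j + s) / (κ + j - s)) * (t + ι (-((κ + j - s) / (κ + j + s)))) := by
      rw [Submonoid.coe_mul, hz1, mul_add, ← map_mul, mul_neg, div_mul_div_cancel₀ (p2 j),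
        div_self (p1 j), map_neg, map_one, sub_eq_add_neg]
    rw [this]
    exact ((IsUnit.mk0 _ (div_ne_zero (p1 j) (p2 j))).map _).mul hu)
  refine ⟨z, hz, ?_⟩
  have hβ : θ - ι (κ + j) ∈ perG Γ s := by
    refine hn _ (by rw [star_sub, hθ', hθj]) fun w hw => ?_
    have q1 : val w ((z : B) - 1) = A w := mul_right_cancel₀
      (val_ne (unit_add ha hθ (star_ne (skew_ne hs h0)))) (by rw [hA, ← hv' w hw, ← val_mul, hz2])
    have q2 : val w (z : B) = 1 := Deep.val_eq_one hz hw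
    have q3 : val w ((t : B) - 1) < exp (-(m₂ : ℤ)) := ht w hw
    have q4 : val w (((z * t : unitary B) : B) - 1) = A w := by
      rw [show ((z * t : unitary B) : B) - 1 = (z - 1) + z * (t - 1) by
        rw [Submonoid.coe_mul]; noncomm_ring, val_add_eq hw.2, q1]
      rw [val_mul, q1, q2]
      exact (mul_lt_mul_of_pos_left q3 one_pos).trans (h2 w hw).1
    have q5 := mb_sub_one hs h0 ha hθ'
    rw [hzt] at q5
    have q6 : (((z * t : unitary B) : B) - 1) * (θ - ι (κ + j)) * (z - 1) =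
        -(ι (2 * s) * (z * (t - 1))) := by
      have c1 : (ι (κ + j) + ι (star s)) * ((z : B) - 1) = ι (2 * s) := by
        rw [← hz2, ← map_add, Algebra.commutes]
      rw [show θ - ι (κ + j) = (θ + ι (star s)) - (ι (κ + j) + ι (star s)) by abel, mul_sub _ (θ + _), q5,
        sub_mul, mul_assoc, c1, ← Algebra.commutes, Submonoid.coe_mul]
      noncomm_ring
    have q7 := congrArg (val (K := K) w) q6
    rw [val_mul, val_mul, q1, q4, val_neg, val_mul, val_mul, q2, one_mul] at q7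
    have q8 := (q7.le.trans (mul_le_mul_right q3.le _)).trans (h2 w hw).2.le
    have hp := zero_lt_iff.2 (hA0 w)
    exact le_of_mul_le_mul_left (le_of_mul_le_mul_right q8 hp) hp
  have := hβ.2 _ hθj
  rwa [add_sub_cancel, hzt] at this

end TW

/-- **CONFIG** with an extra point of colour outside `M` -/
theorem cfgTW (hne : ∃ c : K, star c ≠ c) (ha : Aniso B) (hd : 2 ≤ deg K B) {m : ℕ} {Q : Type}
    [Group Q] [Finite Q] {c : Um K B m →* Q} {M : Subgroup Q} (hc : Col m c M) (hM : M ≠ ⊤)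
    (hF : ∀ q : Q, q ∉ M → ∀ x ∈ M, q * x = x * q → x = 1) (r : ℕ) :
    ∃ (C : Cfg c r) (a' : K) (x' : Um K B m), star a' ≠ a' ∧
      ((x' : unitary B) : B) * (C.th + ι (star a')) = C.th + ι a' ∧ c x' ∉ M := by
  by_contra hno
  push Not at hno
  obtain ⟨s, h0, hs⟩ := exists_skew hne
  obtain ⟨m₁, h1, hm⟩ := exists_depth (B := B) h0 hd m
  have : M.Normal := hc.im m le_rfl ▸ Subgroup.Normal.map inferInstance c hc.surj
  have hz : ∀ (u : Um K B m) (t : K), ((u : unitary B) : B) = ι t → c u ∈ M := fun u t ht => by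
    by_contra h
    refine hc.ne (M.eq_bot_iff_forall.2 fun x hx => hF _ h x hx ?_)
    obtain ⟨y, rfl⟩ := hc.surj x
    rw [← map_mul, ← map_mul]
    congr 1
    exact Subtype.ext (Subtype.ext (by
      change ((u : unitary B) : B) * ((y : unitary B) : B) = ((y : unitary B) : B) * ((u : unitary B) : B)
      rw [ht, Algebra.commutes]))
  obtain ⟨a, ha0, hα⟩ := per_scalar hs h0 ha c M h1 hm hz hno
  obtain ⟨n, hn⟩ := per_small hs h0 ha hd (canc _ (lam c M h1)) ha0 hα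
  obtain ⟨m₂, h2⟩ := deep_const hs h0 ha hd hm hn
  refine hM (top_le_iff.1 ((hc.deep (max m₁ m₂)).ge.trans ?_))
  rintro _ ⟨t, ht, rfl⟩
  have ht1 : (t : unitary B) ∈ Um K B m₁ := Um_anti (le_max_left _ _) ht
  obtain ⟨z, hz1, hz2⟩ := h2 t (Um_anti (le_max_right _ _) ht)
  rw [ext_of_mem _ (mul_mem hz1 ht1), ext_of_mem _ hz1, Option.some_inj] at hz2
  have := (lam c M h1).map_mul ⟨z, hz1⟩ ⟨t, ht1⟩
  exact (QuotientGroup.eq_one_iff _).1 (left_eq_mul.1 (hz2.symm.trans this))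

end Cfg

end Crest.Agent.T24
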