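import Crest.Agent.T24.Def_26

/-!
# Row 24: the chief-factor reduction and the reduction of the central step (pure group theory)
-/

set_option autoImplicit false
set_option linter.unusedSectionVars false

noncomputable section

namespace Crest.Agent.T24

namespace Ch29

open Subgroup

section Grp
variable {E : Type*} [Group E]

/-- a finite quotient in `Type` -/
theorem quo (N : Subgroup E) [N.Normal] (h : N.index ≠ 0) :
    ∃ (Q : Type) (_ : Group Q) (_ : Finite Q) (κ : E →* Q), Function.Surjective κ ∧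
      ∀ e, κ e = 1 ↔ e ∈ N := by
  have : N.FiniteIndex := ⟨h⟩
  obtain ⟨Q, hQ, hF, ⟨φ⟩⟩ := Finite.exists_type_univ_nonempty_mulEquiv.{_, 0} (E ⧸ N)
  refine ⟨Q, hQ, inferInstance, φ.toMonoidHom.comp (QuotientGroup.mk' N),
    φ.surjective.comp (QuotientGroup.mk'_surjective N), fun e => ?_⟩
  simp

theorem eq_of_ker {Q : Type*} [Group Q] {κ : E →* Q} {a b : E} (h : κ (a⁻¹ * b) = 1) :
    κ a = κ b := by
  rwa [map_mul, map_inv, inv_mul_eq_one] at h

/-- a minimal normal subgroup with trivial centraliser has no normal `p`-subgroup -/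
theorem noP {Q : Type*} [Group Q] [Finite Q] (M : Subgroup Q) [hM : M.Normal] (hne : M ≠ ⊥)
    (hmin : ∀ N : Subgroup Q, N.Normal → N ≤ M → N = ⊥ ∨ N = M)
    (hC : ∀ q : Q, (∀ x ∈ M, q * x = x * q) → q = 1) : Zen.NoP M := by
  intro p O hp hO hle hn
  have : Fact p.Prime := ⟨hp⟩
  let 𝒮 : Set (Subgroup Q) := {P | IsPGroup p P ∧ P ≤ M ∧ ∀ h ∈ M, ∀ y ∈ P, h * y * h⁻¹ ∈ P}
  obtain ⟨P, hOP, hP⟩ := (Set.toFinite 𝒮).exists_le_maximal (a := O) ⟨hO, hle, hn⟩
  obtain ⟨⟨hP1, hP2, hP3⟩, hmax⟩ := hP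
  have hPn : P.Normal := ⟨fun y hy g => by
    let P' : Subgroup Q := P.map (MulAut.conj g).toMonoidHom
    have h1 : IsPGroup p P' := hP1.map _
    have h2 : P' ≤ M := by
      rintro _ ⟨z, hz, rfl⟩
      exact hM.conj_mem z (hP2 hz) g
    have h3 : ∀ h ∈ M, ∀ z ∈ P', h * z * h⁻¹ ∈ P' := by
      rintro h hh _ ⟨z, hz, rfl⟩
      refine ⟨(g⁻¹ * h * g⁻¹⁻¹) * z * (g⁻¹ * h * g⁻¹⁻¹)⁻¹, hP3 _ (hM.conj_mem h hh g⁻¹) z hz, ?_⟩
      simp [mul_assoc]
    have h4 : IsPGroup p (P ⊔ P' : Subgroup Q) := hP1.to_sup_of_normal_left' h1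
      fun z hz => mem_normalizer_fintype fun w hw => hP3 z (h2 hz) w hw
    have h5 : ∀ h ∈ M, ∀ z ∈ P ⊔ P', h * z * h⁻¹ ∈ P ⊔ P' := fun h hh z hz => by
      have : P ⊔ P' ≤ (P ⊔ P').comap (MulAut.conj h).toMonoidHom :=
        sup_le (fun w hw => mem_sup_left (hP3 h hh w hw)) fun w hw => mem_sup_right (h3 h hh w hw)
      exact this hz
    have h6 := hmax (y := P ⊔ P') ⟨h4, sup_le hP2 h2, h5⟩ le_sup_left
    exact h6 (mem_sup_right ⟨y, hy, rfl⟩)⟩
  rcases hmin P hPn hP2 with h | h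
  · exact le_bot_iff.1 (h ▸ hOP)
  · subst h
    have : Nontrivial P := (nontrivial_iff_ne_bot P).2 hne
    obtain ⟨z, hz, hz1⟩ := (center P).bot_or_exists_ne_one.resolve_left hP1.bot_lt_center.ne'
    refine absurd (Subtype.ext (hC z fun x hx => ?_)) hz1
    exact (congrArg Subtype.val (mem_center_iff.1 hz ⟨x, hx⟩)).symm

/-- the conclusion of the chief-factor analysis -/
def Out (M : Subgroup E) : Prop :=
  ∃ (Q : Type) (_ : Group Q) (_ : Finite Q) (κ : E →* Q), Function.Surjective κ ∧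
    (∀ D : Subgroup E, M ≤ D → (∀ e : E, ∃ d ∈ D, ∀ x ∈ M, d * x * d⁻¹ = e * x * e⁻¹) →
      D.map κ = ⊤) ∧ M.map κ ≠ ⊥ ∧
    ((Zen.NoP (M.map κ) ∧ ∀ q : Q, (∀ x ∈ M.map κ, q * x = x * q) → q = 1) ∨
      ((∀ x ∈ M.map κ, ∀ y ∈ M.map κ, x * y = y * x) ∧ M.map κ ≠ ⊤ ∧
        ∀ q : Q, q ∉ M.map κ → ∀ x ∈ M.map κ, q * x = x * q → x = 1))

theorem cen_index (M : Subgroup E) [M.Normal] [Finite M] :
    (centralizer (M : Set E)).index ≠ 0 := by
  have h : (MulAut.conjNormal : E →* MulAut M).ker ≤ centralizer (M : Set E) := fun e he x hx => by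
    have := congrArg Subtype.val (DFunLike.congr_fun (MonoidHom.mem_ker.1 he) ⟨x, hx⟩)
    rw [MulAut.conjNormal_apply] at this
    exact (mul_inv_eq_iff_eq_mul.1 this).symm
  have := finiteIndex_of_le h
  exact FiniteIndex.index_ne_zero

theorem cen_of_conj {M : Subgroup E} {d e : E} (h : ∀ x ∈ M, d * x * d⁻¹ = e * x * e⁻¹) :
    d⁻¹ * e ∈ centralizer (M : Set E) := fun x hx => by
  have := h x hx
  calc x * (d⁻¹ * e) = d⁻¹ * (d * x * d⁻¹) * e := by group
    _ = d⁻¹ * e * x := by rw [this]; group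

theorem out_na (M : Subgroup E) [hM : M.Normal] [Finite M] (hne : M ≠ ⊥)
    (hmin : ∀ N : Subgroup E, N.Normal → N ≤ M → N = ⊥ ∨ N = M)
    (hA : M ⊓ centralizer (M : Set E) = ⊥) : Out M := by
  obtain ⟨Q, iQ, fQ, κ, hs, hk⟩ := quo (centralizer (M : Set E)) (cen_index M)
  have h1 : M.map κ ≠ ⊥ := fun h => hne (by
    rw [← hA]
    refine le_antisymm (le_inf le_rfl fun x hx => (hk x).1 ?_) inf_le_left
    exact mem_bot.1 (h ▸ mem_map_of_mem κ hx))
  have h2 : ∀ q : Q, (∀ x ∈ M.map κ, q * x = x * q) → q = 1 := fun q hq => by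
    obtain ⟨e, rfl⟩ := hs q
    refine (hk e).2 fun x hx => ?_
    have h3 : e * x * e⁻¹ * x⁻¹ ∈ M ⊓ centralizer (M : Set E) :=
      ⟨M.mul_mem (hM.conj_mem x hx e) (M.inv_mem hx), (hk _).1 (by
        simp only [map_mul, map_inv]
        rw [hq _ (mem_map_of_mem κ hx)]; group)⟩
    rw [hA, mem_bot, mul_inv_eq_one, mul_inv_eq_iff_eq_mul] at h3
    exact h3.symm
  have : (M.map κ).Normal := hM.map κ hs
  refine ⟨Q, iQ, fQ, κ, hs, fun D _ hD => ?_, h1, Or.inl ⟨noP _ h1 (fun N hN hle => ?_) h2, h2⟩⟩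
  · refine eq_top_iff.2 fun q _ => ?_
    obtain ⟨e, rfl⟩ := hs q
    obtain ⟨d, hd, hde⟩ := hD e
    exact ⟨d, hd, eq_of_ker ((hk _).2 (cen_of_conj hde))⟩
  · have := hN.comap κ
    rcases hmin (N.comap κ ⊓ M) inferInstance inf_le_right with h | h
    · refine Or.inl (eq_bot_iff.2 fun y hy => ?_)
      obtain ⟨x, hx, rfl⟩ := hle hy
      have : x ∈ N.comap κ ⊓ M := ⟨hy, hx⟩
      rw [h, mem_bot] at this
      simp [this]
    · refine Or.inr (le_antisymm hle ?_)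
      rintro _ ⟨x, hx, rfl⟩
      have : x ∈ N.comap κ ⊓ M := h.symm ▸ hx
      exact this.1

theorem out_tw (M : Subgroup E) [hM : M.Normal] [Finite M]
    (hmin : ∀ N : Subgroup E, N.Normal → N ≤ M → N = ⊥ ∨ N = M)
    (hc : ∀ a b : E, a * b * a⁻¹ * b⁻¹ ∈ M) (hz : ∃ e : E, ∃ x ∈ M, e * x ≠ x * e)
    (hA : ∀ x ∈ M, ∀ y ∈ M, x * y = y * x) : Out M := by
  have key : ∀ e : E, e ∉ centralizer (M : Set E) → ∀ x ∈ M, e * x = x * e → x = 1 := by
    intro e he x hx hex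
    have hn : (M ⊓ centralizer {e}).Normal := ⟨fun y hy g => ⟨hM.conj_mem y hy.1 g, ?_⟩⟩
    · rcases hmin _ hn inf_le_left with h | h
      · have : x ∈ M ⊓ centralizer {e} := ⟨hx, by simpa [mem_centralizer_iff] using hex⟩
        rwa [h, mem_bot] at this
      · refine absurd (fun y hy => ?_) he
        have : y ∈ M ⊓ centralizer {e} := h.symm ▸ hy
        exact (this.2 e rfl).symm
    · have h1 : e * y = y * e := hy.2 e rfl
      have h2 := hA _ (hc g⁻¹ e) y hy.1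
      rintro e' rfl
      have h3 : g⁻¹ * e' * g * y = y * (g⁻¹ * e' * g) := by
        calc g⁻¹ * e' * g * y = g⁻¹ * e' * g⁻¹⁻¹ * e'⁻¹ * (e' * y) := by group
          _ = g⁻¹ * e' * g⁻¹⁻¹ * e'⁻¹ * y * e' := by rw [h1]; group
          _ = _ := by rw [h2]; group
      calc e' * (g * y * g⁻¹) = g * (g⁻¹ * e' * g * y) * g⁻¹ := by group
        _ = _ := by rw [h3]; group
  obtain ⟨e₀, x₀, hx₀, hex₀⟩ := hz
  have he₀ : e₀ ∉ centralizer (M : Set E) := fun h => hex₀ (h x₀ hx₀).symm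
  have aux : ∀ a b : E, e₀ * a * e₀⁻¹ * a⁻¹ = e₀ * b * e₀⁻¹ * b⁻¹ →
      e₀ * (a⁻¹ * b) = a⁻¹ * b * e₀ := fun a b h => by
    calc e₀ * (a⁻¹ * b) = (e₀ * a * e₀⁻¹ * a⁻¹ * a)⁻¹ * (e₀ * b * e₀⁻¹ * b⁻¹) * b * e₀ := by group
      _ = _ := by rw [← h]; group
  let β : M → M := fun x => ⟨e₀ * x * e₀⁻¹ * (x : E)⁻¹, hc e₀ x⟩
  have hβ : Function.Surjective β := Finite.injective_iff_surjective.1 fun a b hab => by
    have := key e₀ he₀ _ (M.mul_mem (M.inv_mem a.2) b.2) (aux a b (congrArg Subtype.val hab))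
    exact Subtype.ext (inv_mul_eq_one.1 this)
  have dec : ∀ c ∈ centralizer (M : Set E), ∃ x ∈ M, x⁻¹ * c ∈ center E := fun c hcC => by
    obtain ⟨x, hx⟩ := hβ ⟨_, hc e₀ c⟩
    refine ⟨x, x.2, mem_center_iff.2 fun g => ?_⟩
    have h1 := aux x c (congrArg Subtype.val hx)
    have h2 : (x : E)⁻¹ * c ∈ centralizer (M : Set E) :=
      mul_mem (inv_mem fun y hy => hA y hy x x.2) hcC
    generalize (x : E)⁻¹ * c = z at h1 h2
    have h3 := h2 _ (hc g⁻¹ e₀)
    have h4 : g⁻¹ * e₀ * g * z = z * (g⁻¹ * e₀ * g) := by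
      calc g⁻¹ * e₀ * g * z = g⁻¹ * e₀ * g⁻¹⁻¹ * e₀⁻¹ * (e₀ * z) := by group
        _ = g⁻¹ * e₀ * g⁻¹⁻¹ * e₀⁻¹ * z * e₀ := by rw [h1]; group
        _ = _ := by rw [h3]; group
    have h5 : e₀ * (g * z * g⁻¹ * z⁻¹) = g * z * g⁻¹ * z⁻¹ * e₀ := by
      calc e₀ * (g * z * g⁻¹ * z⁻¹) = g * (g⁻¹ * e₀ * g * z) * g⁻¹ * z⁻¹ := by group
        _ = g * z * g⁻¹ * z⁻¹ * (z * e₀) * z⁻¹ := by rw [h4]; group
        _ = _ := by rw [← h1]; group
    have h6 := key e₀ he₀ _ (hc g z) h5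
    rwa [mul_inv_eq_one, mul_inv_eq_iff_eq_mul] at h6
  have hZ : (center E).index ≠ 0 := by
    rw [← relIndex_mul_index (center_le_centralizer (M : Set E))]
    refine mul_ne_zero ?_ (cen_index M)
    have h1 := relIndex_ker (K := centralizer (M : Set E)) (QuotientGroup.mk' (center E))
    rw [QuotientGroup.ker_mk'] at h1
    rw [h1]
    have h2 : (centralizer (M : Set E)).map (QuotientGroup.mk' (center E)) ≤
        M.map (QuotientGroup.mk' (center E)) := by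
      rintro _ ⟨c, hcC, rfl⟩
      obtain ⟨x, hx, hxc⟩ := dec c hcC
      exact ⟨x, hx, eq_of_ker ((QuotientGroup.eq_one_iff _).2 hxc)⟩
    have : Finite (M.map (QuotientGroup.mk' (center E))) :=
      Finite.of_surjective _ (MonoidHom.subgroupMap_surjective _ M)
    have : Finite ((centralizer (M : Set E)).map (QuotientGroup.mk' (center E))) :=
      Finite.of_injective _ (inclusion_injective h2)
    exact Nat.card_pos.ne'
  obtain ⟨Q, iQ, fQ, κ, hs, hk⟩ := quo (center E) hZ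
  have hin : ∀ e : E, κ e ∈ M.map κ ↔ e ∈ centralizer (M : Set E) := fun e => by
    refine ⟨fun ⟨x, hx, h⟩ => ?_, fun h => ?_⟩
    · have h1 : x⁻¹ * e ∈ center E := (hk _).1 (by rw [map_mul, map_inv, h, inv_mul_cancel])
      have := (centralizer (M : Set E)).mul_mem (fun y hy => hA y hy x hx)
        (center_le_centralizer _ h1)
      simpa using this
    · obtain ⟨x, hx, hxc⟩ := dec e h
      exact ⟨x, hx, eq_of_ker ((hk _).2 hxc)⟩
  refine ⟨Q, iQ, fQ, κ, hs, fun D hMD hD => ?_, fun h => ?_, Or.inr ⟨?_, fun h => ?_, ?_⟩⟩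
  · refine eq_top_iff.2 fun q _ => ?_
    obtain ⟨e, rfl⟩ := hs q
    obtain ⟨d, hd, hde⟩ := hD e
    obtain ⟨x, hx, hxc⟩ := dec _ (cen_of_conj hde)
    refine ⟨d * x, D.mul_mem hd (hMD hx), eq_of_ker ((hk _).2 ?_)⟩
    rwa [mul_inv_rev, mul_assoc]
  · have : κ x₀ = 1 := mem_bot.1 (h ▸ mem_map_of_mem κ hx₀)
    exact hex₀ (mem_center_iff.1 ((hk _).1 this) e₀)
  · rintro _ ⟨x, hx, rfl⟩ _ ⟨y, hy, rfl⟩
    rw [← map_mul, ← map_mul, hA x hx y hy]
  · exact he₀ ((hin e₀).1 (h ▸ mem_top _))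
  · rintro q hq _ ⟨x, hx, rfl⟩ hqx
    obtain ⟨e, rfl⟩ := hs q
    have h1 : e * x * e⁻¹ * x⁻¹ ∈ center E := (hk _).1 (by
      simp only [map_mul, map_inv]
      rw [hqx]; group)
    have h2 := key e₀ he₀ _ (hc e x) (mem_center_iff.1 h1 e₀)
    rw [mul_inv_eq_one, mul_inv_eq_iff_eq_mul] at h2
    rw [key e (fun h => hq ((hin e).2 h)) x hx h2, map_one]

theorem out (M : Subgroup E) [hM : M.Normal] [Finite M] (hne : M ≠ ⊥)
    (hmin : ∀ N : Subgroup E, N.Normal → N ≤ M → N = ⊥ ∨ N = M)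
    (hc : ∀ a b : E, a * b * a⁻¹ * b⁻¹ ∈ M) (hz : ∃ e : E, ∃ x ∈ M, e * x ≠ x * e) : Out M := by
  rcases hmin (M ⊓ centralizer (M : Set E)) inferInstance inf_le_left with h | h
  · exact out_na M hne hmin h
  · refine out_tw M hmin hc hz fun x hx y hy => ?_
    have : y ∈ M ⊓ centralizer (M : Set E) := h.symm ▸ hy
    exact this.2 x hx

/-- images of an antitone sequence in a finite group stabilise -/
theorem stab {F : Type*} [Group F] (φ : E →* F) (A : ℕ → Subgroup E) (hA : Antitone A)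
    [Finite ((A 0).map φ)] : ∃ m, ∀ m', m ≤ m' → ∀ a ∈ A m, ∃ b ∈ A m', φ b = φ a := by
  have hf : ∀ m, Finite ((A m).map φ) := fun m =>
    Finite.of_injective _ (inclusion_injective (map_mono (f := φ) (hA (Nat.zero_le m))))
  let m := Function.argmin fun m => Nat.card ((A m).map φ)
  refine ⟨m, fun m' hm a ha => ?_⟩
  have := hf m
  have := eq_of_le_of_card_ge (map_mono (f := φ) (hA hm))
    (Function.argmin_le (fun m => Nat.card ((A m).map φ)) m')
  exact mem_map.1 (this ▸ mem_map_of_mem φ ha)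

/-- a maximal normal subgroup strictly below `T` -/
theorem exists_max (W T : Subgroup E) [W.Normal] (hlt : W < T) (hi : W.relIndex T ≠ 0) :
    ∃ N : Subgroup E, N.Normal ∧ W ≤ N ∧ N < T ∧
      ∀ P : Subgroup E, P.Normal → N ≤ P → P ≤ T → P = N ∨ P = T := by
  let 𝒮 : Set (Subgroup E) := {N | N.Normal ∧ W ≤ N ∧ N < T}
  have hne : 𝒮.Nonempty := ⟨W, inferInstance, le_rfl, hlt⟩
  obtain ⟨N, ⟨h1, h2, h3⟩, hmin⟩ : ∃ N ∈ 𝒮, ∀ P ∈ 𝒮, N.relIndex T ≤ P.relIndex T :=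
    ⟨_, Function.argminOn_mem (fun N : Subgroup E => N.relIndex T) 𝒮 hne,
      fun P hP => Function.argminOn_le (fun N : Subgroup E => N.relIndex T) 𝒮 hP⟩
  refine ⟨N, h1, h2, h3, fun P hP h4 h5 => ?_⟩
  refine (eq_or_ne P T).symm.imp_left fun h6 => le_antisymm ?_ h4
  have h7 := hmin P ⟨hP, h2.trans h4, lt_of_le_of_ne h5 h6⟩
  have h8 := relIndex_mul_relIndex _ _ _ h4 h5
  have h9 : N.relIndex T ≠ 0 := fun h => hi (relIndex_eq_zero_of_le_left h2 h)
  refine relIndex_eq_one.1 ?_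
  have h10 : P.relIndex T ≠ 0 := fun h => h9 (by rw [← h8, h, mul_zero])
  have h11 : N.relIndex P ≠ 0 := fun h => h9 (by rw [← h8, h, zero_mul])
  by_contra h12
  have : 2 ≤ N.relIndex P := by omega
  have h13 := Nat.mul_le_mul_right (P.relIndex T) this
  omega

theorem min_map {F : Type*} [Group F] {ρ : E →* F} (hρ : Function.Surjective ρ) {T : Subgroup E}
    (hT : ρ.ker ≤ T) (hmax : ∀ P : Subgroup E, P.Normal → ρ.ker ≤ P → P ≤ T → P = ρ.ker ∨ P = T)
    (P : Subgroup F) (hP : P.Normal) (hle : P ≤ T.map ρ) : P = ⊥ ∨ P = T.map ρ := by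
  have h1 : (P.comap ρ).map ρ = P := map_comap_eq_self_of_surjective hρ P
  refine (hmax (P.comap ρ) (hP.comap ρ) (ker_le_comap ρ P) ?_).imp (fun h => ?_) fun h => ?_
  · refine (comap_mono hle).trans ?_
    rw [comap_map_eq]; exact sup_le le_rfl hT
  · rw [← h1, h, Subgroup.map_eq_bot_iff]
  · rw [← h1, h]

end Grp

section Glob
variable {K : Type*} [Field K] [NumberField K] [StarRing K] {B : Type*} [Ring B] [StarRing B]
  [Algebra K B] [StarModule K B] [Algebra.IsCentral K B] [IsSimpleRing B] [FiniteDimensional K B]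

open Csa

variable (K B) in
/-- the set of `n`-th powers of `SU` -/
def pw (n : ℕ) : Set (unitary B) := {y | ∃ g ∈ SU K B, g ^ n = y}

theorem pw_le (n : ℕ) : closure (pw K B n) ≤ SU K B :=
  (closure_le _).2 fun _ ⟨_, hg, h⟩ => h ▸ pow_mem hg n

instance (n : ℕ) : (closure (pw K B n)).Normal := ⟨fun y hy g => by
  have : closure (pw K B n) ≤ (closure (pw K B n)).comap (MulAut.conj g).toMonoidHom :=
    (closure_le _).2 fun _ ⟨a, ha, h⟩ => subset_closure
      ⟨g * a * g⁻¹, Normal.conj_mem inferInstance a ha g, by rw [← h, conj_pow]; rfl⟩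
  exact this hy⟩

theorem pw_idx (hP : Pow K B) (hN : NstK K B) {n : ℕ} (hn : n ≠ 0) :
    (closure (pw K B n)).relIndex (SU K B) ≠ 0 := by
  obtain ⟨-, x, hx, g, hg, h⟩ := hP 0 n hn
  exact hN _ ⟨pw_le n, fun g _ x hx => Normal.conj_mem inferInstance x hx g,
    x ^ n, subset_closure ⟨x, hx.1, rfl⟩, g, hg, h⟩

theorem pw_sub {N : Subgroup (unitary B)} (h : N.relIndex (SU K B) ≠ 0) :
    pw K B (N.relIndex (SU K B)).factorial ⊆ N := fun _ ⟨_, hg, e⟩ =>
  e ▸ (pow_mem_of_relIndex_ne_zero_of_dvd h hg fun _ h1 h2 => Nat.dvd_factorial h1 h2).1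

/-- conjugation by a similitude -/
def cj (g : Bˣ) (c : K) (h : star (g : B) * g = algebraMap K B c) : unitary B →* unitary B where
  toFun x := ⟨g * x * (g⁻¹ : Bˣ), by
    have h1 : star ((g : B) * x * (g⁻¹ : Bˣ)) * (g * x * (g⁻¹ : Bˣ)) = 1 := by
      have h2 : star (x : B) * x = 1 := x.2.1
      have h3 : star ((g⁻¹ : Bˣ) : B) * star (g : B) = 1 := by rw [← star_mul]; simp
      calc _ = star ((g⁻¹ : Bˣ) : B) * (star (x : B) * ((star (g : B) * g) * x)) * (g⁻¹ : Bˣ) := by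
            simp only [star_mul, mul_assoc]
        _ = star ((g⁻¹ : Bˣ) : B) * (star (g : B) * g) * (g⁻¹ : Bˣ) := by
            rw [h, Algebra.commutes, ← mul_assoc (star (x : B)), h2, one_mul]
        _ = 1 := by rw [← mul_assoc, h3]; simp
    exact ((g.isUnit.mul Unitary.isUnit_coe).mul (g⁻¹).isUnit).mem_unitary_of_star_mul_self h1⟩
  map_one' := Subtype.ext (by simp)
  map_mul' a b := Subtype.ext (by simp [mul_assoc])

theorem cj_SU {g : Bˣ} {c : K} (h : star (g : B) * g = algebraMap K B c) {x : unitary B}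
    (hx : x ∈ SU K B) : cj g c h x ∈ SU K B := by
  have h1 : Nrd K (g : B) * Nrd K ((g⁻¹ : Bˣ) : B) = 1 := by rw [← map_mul]; simp
  change Nrd K ((g : B) * x * (g⁻¹ : Bˣ)) = 1
  rw [map_mul, map_mul, mem_SU.1 hx, mul_one, h1]

theorem cen (hP : Pow K B) (hN : NstK K B) (hC : Cont K B) (hU : CenU K B) : Cen K B := by
  intro m N hi hc
  obtain ⟨m', hm⟩ := hC m
  let n := (N.relIndex (SU K B)).factorial
  let S : Set (unitary B) :=
    pw K B n ∪ {y | ∃ u : unitary B, ∃ g ∈ SUm K B m', u * g * u⁻¹ * g⁻¹ = y}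
  have h1 : closure S ≤ N := (closure_le _).2 <| Set.union_subset (pw_sub hi)
    fun _ ⟨u, g, hg, e⟩ => e ▸ (commutator_le.2 fun a ha b hb => hc a ha b hb) (hm u g hg)
  obtain ⟨m'', h⟩ := hU m' (closure S)
    ((closure_le _).2 <| Set.union_subset (subset_closure.trans (pw_le n))
      fun _ ⟨u, g, _, e⟩ => e ▸ comm_mem_SU K u g)
    (fun h => pw_idx hP hN (Nat.factorial_ne_zero _)
      (relIndex_eq_zero_of_le_left (closure_mono Set.subset_union_left) h))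
    (fun g c h x hx y hy => by
      have h2 : closure S ≤ (closure S).comap (cj g c h) := (closure_le _).2 <| by
        rintro _ (⟨a, ha, rfl⟩ | ⟨u, a, ha, rfl⟩)
        · exact subset_closure (Or.inl ⟨_, cj_SU h ha, (map_pow _ _ _).symm⟩)
        · exact subset_closure (Or.inr ⟨cj g c h u, cj g c h a,
            ⟨cj_SU h ha.1, Deep.conj ha.2 g.mul_inv⟩, by simp only [map_mul, map_inv]⟩)
      exact (Subtype.ext hy : y = cj g c h x) ▸ h2 hx)
    fun u g hg => subset_closure (Or.inr ⟨u, g, hg, rfl⟩)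
  exact ⟨m'', h.trans h1⟩

/-- both stabilisations -/
theorem stab2 (V : Subgroup (unitary B)) [V.Normal] (hV : V.relIndex (SU K B) ≠ 0) :
    ∃ m, ∀ m', m ≤ m' → (∀ a ∈ SUm K B m, ∃ b ∈ SUm K B m', b⁻¹ * a ∈ V) ∧
      ∀ a ∈ Um K B m, ∃ b ∈ Um K B m', ∀ g ∈ SU K B, (b * g * b⁻¹)⁻¹ * (a * g * a⁻¹) ∈ V := by
  let π := QuotientGroup.mk' V
  have hF : Finite ((SU K B).map π) := Nat.finite_of_card_ne_zero (by
    rw [← relIndex_ker, QuotientGroup.ker_mk']; exact hV)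
  have : ((SU K B).map π).Normal := Normal.map inferInstance _ (QuotientGroup.mk'_surjective V)
  have : Finite ((SUm K B 0).map π) :=
    Finite.of_injective _ (inclusion_injective (map_mono (f := π) inf_le_left))
  obtain ⟨m₁, h₁⟩ := stab π (SUm K B) fun _ _ => SUm_anti
  obtain ⟨m₂, h₂⟩ := stab ((MulAut.conjNormal (H := (SU K B).map π)).comp π) (Um K B)
    fun _ _ => Um_anti
  refine ⟨max m₁ m₂, fun m' hm => ⟨fun a ha => ?_, fun a ha => ?_⟩⟩
  · obtain ⟨b, hb, e⟩ := h₁ m' (le_of_max_le_left hm) a (SUm_anti (le_max_left _ _) ha)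
    exact ⟨b, hb, QuotientGroup.eq.1 e⟩
  · obtain ⟨b, hb, e⟩ := h₂ m' (le_of_max_le_right hm) a (Um_anti (le_max_right _ _) ha)
    refine ⟨b, hb, fun g hg => QuotientGroup.eq.1 ?_⟩
    exact congrArg Subtype.val (DFunLike.congr_fun e ⟨π g, mem_map_of_mem π hg⟩)

theorem chief (hP : Pow K B) (hN : NstK K B) (hA : NA K B) (hT : TW K B) (hC : Cen K B) :
    MP K B := by
  intro N₀ hN₀
  have hi := hN N₀ hN₀
  have hV := pw_idx hP hN (Nat.factorial_ne_zero (N₀.relIndex (SU K B)))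
  have hVN : closure (pw K B (N₀.relIndex (SU K B)).factorial) ≤ N₀ := (closure_le _).2 (pw_sub hi)
  have hVn : (closure (pw K B (N₀.relIndex (SU K B)).factorial)).Normal := inferInstance
  generalize closure (pw K B (N₀.relIndex (SU K B)).factorial) = V at hV hVN hVn
  obtain ⟨m, hm⟩ := stab2 V hV
  refine ⟨m, le_trans ?_ hVN⟩
  by_contra hne
  let T : ℕ → Subgroup (Um K B m) := fun m' => (SUm K B m').subgroupOf (Um K B m)
  have hVS : (V ⊓ SUm K B m).relIndex (SU K B) ≠ 0 := relIndex_inf_ne_zero hV (hP m 1 one_ne_zero).1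
  have hWT : ((V ⊓ SUm K B m).subgroupOf (Um K B m)).relIndex (T m) ≠ 0 := by
    rw [relIndex_subgroupOf (show SUm K B m ≤ Um K B m from inf_le_right)]
    exact fun h => hVS (relIndex_eq_zero_of_le_right inf_le_left h)
  obtain ⟨N, hNn, hWN, hNT, hmax⟩ := exists_max ((V ⊓ SUm K B m).subgroupOf (Um K B m)) (T m)
    (lt_of_le_of_ne (subgroupOf_mono _ inf_le_right) fun h => hne fun x hx => by
      have : (⟨x, hx.2⟩ : Um K B m) ∈ (V ⊓ SUm K B m).subgroupOf (Um K B m) := h ▸ hx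
      exact this.1) hWT
  have hSn : (SUm K B m).Normal := inferInstance
  let ρ := QuotientGroup.mk' N
  have hρ : Function.Surjective ρ := QuotientGroup.mk'_surjective N
  have hk : ρ.ker = N := QuotientGroup.ker_mk' N
  have hMn : ((T m).map ρ).Normal := Normal.map inferInstance _ hρ
  have hMf : Finite ((T m).map ρ) := Nat.finite_of_card_ne_zero (by
    rw [← relIndex_ker, hk]
    exact fun h => hWT (relIndex_eq_zero_of_le_left hWN h))
  have hbot : ∀ P : Subgroup (Um K B m), P.map ρ = ⊥ ↔ P ≤ N := fun P => by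
    rw [Subgroup.map_eq_bot_iff, hk]
  have hM0 : (T m).map ρ ≠ ⊥ := fun h => hNT.not_ge ((hbot _).1 h)
  have hst : ∀ m', m ≤ m' → (T m').map ρ = (T m).map ρ := fun m' h => by
    refine le_antisymm (map_mono (subgroupOf_mono _ (SUm_anti h))) ?_
    rintro _ ⟨a, ha, rfl⟩
    obtain ⟨b, hb, e⟩ := (hm m' h).1 a ha
    have hb' := SUm_anti h hb
    exact ⟨⟨b, hb'.2⟩, hb, QuotientGroup.eq.2 (hWN ⟨e, (SUm K B m).mul_mem ((SUm K B m).inv_mem hb') ha⟩)⟩
  by_cases hz : ∃ e : Um K B m ⧸ N, ∃ x ∈ (T m).map ρ, e * x ≠ x * e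
  · have hc : ∀ a b : Um K B m ⧸ N, a * b * a⁻¹ * b⁻¹ ∈ (T m).map ρ := fun a b => by
      obtain ⟨a, rfl⟩ := hρ a
      obtain ⟨b, rfl⟩ := hρ b
      have h1 : a * b * a⁻¹ * b⁻¹ ∈ T m :=
        mem_subgroupOf.2 ⟨comm_mem_SU K (a : unitary B) b, (a * b * a⁻¹ * b⁻¹).2⟩
      simpa only [map_mul, map_inv] using mem_map_of_mem ρ h1
    obtain ⟨Q, iQ, fQ, κ, hs, hD, h0, hcase⟩ := out ((T m).map ρ) hM0
      (min_map hρ (hk.le.trans hNT.le) (by rw [hk]; exact hmax)) hc hz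
    have hcol : Col m (κ.comp ρ) (((T m).map ρ).map κ) := ⟨hs.comp hρ, fun m' h => by
      rw [← map_map]; exact congrArg _ (hst m' h), fun m' => by
      rw [← map_map]
      refine hD _ ?_ fun e => ?_
      · rw [← hst (max m m') (le_max_left _ _)]
        exact map_mono (subgroupOf_mono _ (inf_le_right.trans (Um_anti (le_max_right _ _))))
      · obtain ⟨a, rfl⟩ := hρ e
        obtain ⟨b, hb, e⟩ := (hm (max m m') (le_max_left _ _)).2 a a.2
        refine ⟨ρ ⟨b, Um_anti (le_max_left _ _) hb⟩,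
          mem_map_of_mem ρ (Um_anti (le_max_right _ _) hb), ?_⟩
        rintro _ ⟨t, ht, rfl⟩
        simp only [← map_mul, ← map_inv]
        exact QuotientGroup.eq.2 (hWN ⟨e t ht.1, (SUm K B m).mul_mem ((SUm K B m).inv_mem
          (hSn.conj_mem (t : unitary B) ht b)) (hSn.conj_mem (t : unitary B) ht a)⟩), h0⟩
    rcases hcase with h | h
    · exact hA m Q _ _ hcol h.1 h.2
    · exact hT m Q _ _ hcol h.1 h.2.1 h.2.2
  · push Not at hz
    obtain ⟨m', h⟩ := hC m (N.map (Um K B m).subtype)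
      (fun h => hVS (relIndex_eq_zero_of_le_left (K := N.map (Um K B m).subtype)
        (fun x hx => ⟨⟨x, hx.2.2⟩, hWN hx, rfl⟩) h))
      fun u hu g hg => ⟨⟨u, hu⟩ * ⟨g, hg.2⟩ * ⟨u, hu⟩⁻¹ * ⟨g, hg.2⟩⁻¹, by
        rw [← hk]
        change ρ _ = 1
        simp only [map_mul, map_inv]
        rw [hz _ _ (mem_map_of_mem ρ (x := ⟨g, hg.2⟩) hg)]; group, rfl⟩
    refine hM0 ?_
    rw [← hst (max m m') (le_max_left _ _), hbot]
    intro x hx
    obtain ⟨y, hy, e⟩ := h (SUm_anti (le_max_right _ _) hx)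
    exact Subtype.ext e ▸ hy

end Glob

end Ch29

universe u v w

theorem chiefStmt : ChiefStmt.{u, v, w} := fun _ => Ch29.chief

theorem cenRedStmt : CenRedStmt.{u, v, w} := fun _ => Ch29.cen

end Crest.Agent.T24
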