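import Mathlib

/-!
# Row 24 (helper98): cocompactness of anisotropic unitary groups, abstract form

`A` a locally compact ring with a continuous anti-involution `τ`, `Λ` a discrete cocompact subring
on which `τ x * x = 0` forces `x = 0`.  Then `U (Λ)` is cocompact in `U (A)`, and `SU (Λ)` in
`SU (A)`.  No determinants, no Mahler criterion: the lattices `g Λ` have no short vectors, so a
packing argument bounds their covering radius.
-/

set_option autoImplicit false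

namespace Crest.Agent.T24.Coc

open MeasureTheory Set Filter Topology
open scoped Pointwise ENNReal NNReal

section Group

variable {V : Type*} [AddCommGroup V] [TopologicalSpace V] [IsTopologicalAddGroup V]

/-- a discrete subgroup meets compact sets in finite sets -/
theorem finite_inter (Λ : AddSubgroup V) (hd : ∃ N ∈ 𝓝 (0 : V), ∀ l ∈ Λ, l ∈ N → l = 0)
    {K : Set V} (hK : IsCompact K) : (K ∩ Λ).Finite := by
  obtain ⟨N, hN, h⟩ := hd
  obtain ⟨N', hN', h'⟩ := exists_nhds_half_neg hN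
  refine hK.induction_on (p := fun s => (s ∩ Λ).Finite) (by simp)
    (fun s t hst ht => ht.subset (inter_subset_inter_left _ hst))
    (fun s t hs ht => by rw [union_inter_distrib_right]; exact hs.union ht) fun x _ => ?_
  refine ⟨(fun y => y - x) ⁻¹' N', mem_nhdsWithin_of_mem_nhds
    ((continuous_sub_right x).continuousAt.preimage_mem_nhds (by simpa using hN')), ?_⟩
  refine Set.Subsingleton.finite fun a ha b hb => sub_eq_zero.1 (h _ (sub_mem ha.2 hb.2) ?_)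
  simpa using h' _ ha.1 _ hb.1

theorem isCompact_nsmul {U : Set V} (hU : IsCompact U) (k : ℕ) : IsCompact (k • U) := by
  induction k with
  | zero => rw [zero_nsmul]; exact isCompact_singleton
  | succ k ih => rw [succ_nsmul]; exact ih.add hU

variable [T2Space V] [MeasurableSpace V] [BorelSpace V]

/-- packing: a set that injects modulo the lattice is not larger than a set that surjects -/
theorem pack (μ : Measure V) [μ.IsAddLeftInvariant] (Λ : AddSubgroup V)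
    (hd : ∃ N ∈ 𝓝 (0 : V), ∀ l ∈ Λ, l ∈ N → l = 0) {C s : Set V} (hC : IsCompact C)
    (hc : ∀ a, ∃ l ∈ Λ, a - l ∈ C) (hs : IsCompact s)
    (h : ∀ x ∈ s, ∀ y ∈ s, x - y ∈ Λ → x = y) : μ s ≤ μ C := by
  have hT := finite_inter Λ hd (hs.add hC.neg)
  have h1 : s ⊆ ⋃ l ∈ hT.toFinset, (fun x => -l + x) ⁻¹' ((fun x => l + x) ⁻¹' s ∩ C) := by
    intro x hx
    obtain ⟨l, hl, hxl⟩ := hc x
    refine mem_iUnion₂.2 ⟨l, hT.mem_toFinset.2 ⟨⟨x, hx, -(x - l), by simpa using hxl, by simp⟩, hl⟩,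
      by simpa using hx, ?_⟩
    rwa [sub_eq_neg_add] at hxl
  refine (measure_mono h1).trans ((measure_biUnion_finset_le _ _).trans ?_)
  simp only [measure_preimage_add]
  rw [← measure_biUnion_finset]
  · exact measure_mono (iUnion₂_subset fun l _ => inter_subset_right)
  · intro l hl l' hl' hne
    rw [Function.onFun, disjoint_left]
    intro x hx hx'
    refine hne (add_right_cancel (h _ hx.1 _ hx'.1 ?_))
    rw [add_sub_add_right_eq_sub]
    exact sub_mem (hT.mem_toFinset.1 hl).2 (hT.mem_toFinset.1 hl').2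
  · intro l _
    exact ((hs.isClosed.preimage (continuous_const_add l)).inter hC.isClosed).measurableSet

end Group

section Radius

variable {V : Type*} [AddCommGroup V] [TopologicalSpace V] [IsTopologicalAddGroup V] [T2Space V]
  [LocallyCompactSpace V]

/-- lattices without short vectors have a bounded covering radius -/
theorem radius (Λ : AddSubgroup V) (hd : ∃ N ∈ 𝓝 (0 : V), ∀ l ∈ Λ, l ∈ N → l = 0)
    {C : Set V} (hC : IsCompact C) (hc : ∀ a, ∃ l ∈ Λ, a - l ∈ C)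
    (hsa : ∀ H : AddSubgroup V, IsOpen (H : Set V) → ∀ a, ∃ l ∈ Λ, a - l ∈ H)
    {N : Set V} (hN : N ∈ 𝓝 (0 : V)) :
    ∃ C' : Set V, IsCompact C' ∧ ∀ φ : V ≃ₜ+ V, (∀ l ∈ Λ, φ l ∈ N → l = 0) →
      (∀ l ∈ Λ, φ.symm l ∈ N → l = 0) → ∀ a, ∃ l ∈ Λ, a - φ l ∈ C' := by
  borelize V
  obtain ⟨N', hN', h'⟩ := exists_nhds_half_neg hN
  obtain ⟨K, hK, hKN, hKc⟩ := local_compact_nhds hN'
  obtain ⟨U, hU0, hUc, hUs, hUN⟩ : ∃ U ∈ 𝓝 (0 : V), IsCompact U ∧ (∀ x ∈ U, -x ∈ U) ∧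
      ∀ x ∈ U, ∀ y ∈ U, x - y ∈ N :=
    ⟨K ∩ -K, inter_mem hK (neg_mem_nhds_zero V hK), hKc.inter_right hKc.neg.isClosed,
      fun x hx => ⟨hx.2, by simpa using hx.1⟩, fun x hx y hy => h' _ (hKN hx.1) _ (hKN hy.1)⟩
  have h0 : (0 : V) ∈ U := mem_of_mem_nhds hU0
  let μ : Measure V := Measure.addHaar
  have hu0 : μ U ≠ 0 := (Measure.measure_pos_of_mem_nhds μ hU0).ne'
  have huT : μ U ≠ ⊤ := hUc.measure_lt_top.ne
  have hcT : μ C ≠ ⊤ := hC.measure_lt_top.ne
  obtain ⟨M, hM⟩ : ∃ M : ℕ, μ C * μ C < M * (μ U * μ U) :=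
    ENNReal.exists_nat_mul_gt (mul_ne_zero hu0 hu0) (ENNReal.mul_ne_top hcT hcT)
  refine ⟨(3 * M) • U, isCompact_nsmul hUc _, fun φ hφ hφ' => ?_⟩
  have hpre : ∀ (ψ : V ≃ₜ+ V) (s : Set V), IsCompact s →
      (∀ x ∈ s, ∀ y ∈ s, ∀ l ∈ Λ, x - y = ψ l → x = y) → μ s ≤ addEquivAddHaarChar ψ • μ C := by
    intro ψ s hs h
    rw [← addEquivAddHaarChar_smul_preimage μ ψ, ENNReal.smul_def, ENNReal.smul_def, smul_eq_mul,
      smul_eq_mul]
    refine mul_le_mul_right (pack μ Λ hd hC hc (ψ.toHomeomorph.isCompact_preimage.2 hs)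
      fun x hx y hy hxy => ψ.injective (h _ hx _ hy _ hxy (map_sub ψ x y).symm)) _
  have hχ : addEquivAddHaarChar φ • μ U ≤ μ C := by
    have h1 := hpre φ.symm U hUc fun x hx y hy l hl e => by
      have := hφ' l hl (e ▸ hUN x hx y hy)
      rw [this, map_zero] at e
      exact sub_eq_zero.1 e
    rw [addEquivAddHaarChar_symm] at h1
    have h2 := (addEquivAddHaarChar_pos φ).ne'
    calc _ ≤ addEquivAddHaarChar φ • (addEquivAddHaarChar φ)⁻¹ • μ C := by
          rw [ENNReal.smul_def, ENNReal.smul_def _ (_ • _), smul_eq_mul, smul_eq_mul]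
          exact mul_le_mul_right h1 _
      _ = μ C := smul_inv_smul₀ h2 _
  let P : ℕ → V → Prop := fun k a => ∃ l ∈ Λ, a - φ l ∈ k • U
  have hstep : ∀ k a u, P k a → u ∈ U → P (k + 1) (a + u) := by
    rintro k a u ⟨l, hl, h⟩ hu
    exact ⟨l, hl, by rw [succ_nsmul, add_sub_right_comm]; exact add_mem_add h hu⟩
  have hmono : ∀ j k a, j ≤ k → P j a → P k a := by
    intro j k a hjk h
    induction hjk with
    | refl => exact h
    | step _ ih => simpa using hstep _ a 0 ih h0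
  have hlat : ∀ k a l, l ∈ Λ → P k a → P k (a + φ l) := by
    rintro k a l hl ⟨l', hl', h⟩
    exact ⟨l' + l, add_mem hl' hl, by rwa [map_add, add_sub_add_right_eq_sub]⟩
  have hj : ∃ j < M, ∀ a, P (3 * j + 1) a → P (3 * j) a := by
    by_contra hcon
    push Not at hcon
    choose! a ha hna using hcon
    have hlt : ∀ i < M, ∀ j < M, i < j → ∀ x ∈ U, ∀ y ∈ U, ∀ l ∈ Λ,
        a j + x - (a i + y) ≠ φ l := by
      intro i hi j hj hij x hx y hy l hl e
      refine hna j hj (hmono (3 * i + 1 + 1 + 1) _ _ (by omega) ?_)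
      have := hlat _ _ l hl (hstep _ _ _ (hstep _ _ _ (ha i hi) hy) (hUs x hx))
      rwa [← e, show a i + y + -x + (a j + x - (a i + y)) = a j by abel] at this
    have hinj : ∀ i < M, ∀ j < M, ∀ x ∈ U, ∀ y ∈ U, ∀ l ∈ Λ,
        a j + x - (a i + y) = φ l → i = j ∧ x = y := by
      intro i hi j hj x hx y hy l hl e
      rcases lt_trichotomy i j with h | h | h
      · exact absurd e (hlt i hi j hj h x hx y hy l hl)
      · subst h
        rw [add_sub_add_left_eq_sub] at e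
        have := hφ l hl (e ▸ hUN x hx y hy)
        rw [this, map_zero] at e
        exact ⟨rfl, sub_eq_zero.1 e⟩
      · exact absurd (by rw [map_neg, ← e, neg_sub]) (hlt j hj i hi h y hy x hx (-l) (neg_mem hl))
    have hcp : ∀ i, IsCompact ((fun x => -a i + x) ⁻¹' U) := fun i =>
      (Homeomorph.addLeft (-a i)).isCompact_preimage.2 hUc
    have h1 := hpre φ (⋃ i ∈ Finset.range M, (fun x => -a i + x) ⁻¹' U)
      ((Finset.range M).isCompact_biUnion fun i _ => hcp i) fun x hx y hy l hl e => by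
        obtain ⟨j, hj, hx⟩ := mem_iUnion₂.1 hx
        obtain ⟨i, hi, hy⟩ := mem_iUnion₂.1 hy
        obtain ⟨rfl, h⟩ := hinj i (Finset.mem_range.1 hi) j (Finset.mem_range.1 hj) _ hx _ hy l hl
          (by simpa using e)
        exact add_left_cancel h
    rw [measure_biUnion_finset _ fun i _ => (hcp i).measurableSet] at h1
    · simp only [measure_preimage_add, Finset.sum_const, Finset.card_range, nsmul_eq_mul] at h1
      refine hM.not_ge ?_
      rw [ENNReal.smul_def, smul_eq_mul] at h1 hχ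
      calc (M : ℝ≥0∞) * (μ U * μ U) = M * μ U * μ U := by ring
        _ ≤ addEquivAddHaarChar φ * μ C * μ U := mul_le_mul_left h1 _
        _ = addEquivAddHaarChar φ * μ U * μ C := by ring
        _ ≤ μ C * μ C := mul_le_mul_left hχ _
    · intro i hi j hj hne
      rw [Function.onFun, disjoint_left]
      intro x hx hx'
      exact hne (hinj i (Finset.mem_range.1 hi) j (Finset.mem_range.1 hj) _ hx' _ hx 0 (zero_mem _)
        (by simp)).1
  obtain ⟨j, hjM, hj⟩ := hj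
  have hH : ∀ h ∈ AddSubgroup.closure U, ∀ a, P (3 * j) a ↔ P (3 * j) (a + h) := by
    intro h hh
    induction hh using AddSubgroup.closure_induction with
    | mem u hu =>
      exact fun a => ⟨fun h => hj _ (hstep _ _ _ h hu),
        fun h => by simpa using hj _ (hstep _ _ _ h (hUs u hu))⟩
    | zero => simp
    | add x y _ _ hx hy => exact fun a => by rw [← add_assoc, ← hy, ← hx]
    | neg x _ hx => exact fun a => by rw [hx (a + -x)]; simp
  intro a
  obtain ⟨l, hl, h⟩ := hsa ((AddSubgroup.closure U).comap (φ : V →+ V))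
    (((AddSubgroup.closure U).isOpen_of_mem_nhds
      (mem_of_superset hU0 AddSubgroup.subset_closure)).preimage φ.continuous) (φ.symm a)
  have h1 : a - φ l ∈ AddSubgroup.closure U := by simpa using AddSubgroup.mem_comap.1 h
  have h2 : P (3 * j) 0 := hmono 0 _ _ (Nat.zero_le _) ⟨0, zero_mem _, by simp⟩
  have h3 := hlat _ _ l hl ((hH _ h1 0).1 h2)
  rw [zero_add, sub_add_cancel] at h3
  exact hmono _ _ _ (by omega) h3

end Radius

section Ring

variable {A : Type*} [Ring A] [TopologicalSpace A] [IsTopologicalRing A]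

/-- the data of the cocompactness theorem -/
structure Lat (τ : A →+ A) (Λ : Subring A) : Prop where
  cont : Continuous τ
  mul : ∀ x y, τ (x * y) = τ y * τ x
  inv : ∀ x, τ (τ x) = x
  mem : ∀ x ∈ Λ, τ x ∈ Λ
  /-- discrete -/
  disc : ∃ N ∈ 𝓝 (0 : A), ∀ l ∈ Λ, l ∈ N → l = 0
  /-- cocompact -/
  coc : ∃ C, IsCompact C ∧ ∀ a, ∃ l ∈ Λ, a - l ∈ C
  /-- additive strong approximation -/
  sa : ∀ H : AddSubgroup A, IsOpen (H : Set A) → ∀ a, ∃ l ∈ Λ, a - l ∈ H
  /-- anisotropic -/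
  ani : ∀ x ∈ Λ, τ x * x = 0 → x = 0
  /-- far out there is room for invertible elements (for example: invertible at one place) -/
  big : ∃ W : Set A, (∀ g a, IsUnit g → a ∈ W → g * a ∈ W) ∧ (∀ x ∈ Λ, x ∈ W → IsUnit x) ∧
    ∀ C, IsCompact C → ∃ t, ∀ c ∈ C, t - c ∈ W

/-- left multiplication by a unit -/
def lm (g h : A) (h1 : h * g = 1) (h2 : g * h = 1) : A ≃ₜ+ A where
  toFun x := g * x
  invFun x := h * x
  left_inv x := by simp [← mul_assoc, h1]
  right_inv x := by simp [← mul_assoc, h2]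
  map_add' := mul_add g
  continuous_toFun := continuous_const_mul g
  continuous_invFun := continuous_const_mul h

variable {τ : A →+ A} {Λ : Subring A}

omit [IsTopologicalRing A] in
theorem Lat.one (h : Lat τ Λ) : τ 1 = 1 := by
  have := h.mul (τ 1) 1
  rwa [mul_one, h.inv, mul_one, eq_comm] at this

omit [IsTopologicalRing A] in
theorem Lat.isUnit (h : Lat τ Λ) {x : A} (hx : IsUnit x) : IsUnit (τ x) := by
  obtain ⟨x, rfl⟩ := hx
  exact ⟨⟨τ x, τ (x⁻¹ : Aˣ), by rw [← h.mul, Units.inv_mul, h.one],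
    by rw [← h.mul, Units.mul_inv, h.one]⟩, rfl⟩

theorem Lat.finite (h : Lat τ Λ) {K : Set A} (hK : IsCompact K) : (K ∩ Λ).Finite :=
  finite_inter Λ.toAddSubgroup h.disc hK

omit [IsTopologicalRing A] in
theorem Lat.sq (h : Lat τ Λ) {g : A} (hg : τ g * g = 1) (x : A) :
    τ (g * x) * (g * x) = τ x * x := by
  rw [h.mul, mul_assoc, ← mul_assoc (τ g), hg, one_mul]

variable [T2Space A] [LocallyCompactSpace A]

/-- every `g Λ` contains a bounded invertible element -/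
theorem Lat.exists_unit (h : Lat τ Λ) : ∃ C : Set A, IsCompact C ∧
    ∀ g, τ g * g = 1 → g * τ g = 1 → ∃ x ∈ Λ, IsUnit x ∧ g * x ∈ C := by
  obtain ⟨C, hC, hc⟩ := h.coc
  obtain ⟨N, hN, hd⟩ := h.disc
  obtain ⟨W, hW, hWu, hWc⟩ := h.big
  have hq : Continuous fun x => τ x * x := h.cont.mul continuous_id
  obtain ⟨C', hC', hr⟩ := radius Λ.toAddSubgroup h.disc hC hc h.sa
    (N := (fun x => τ x * x) ⁻¹' N) (hq.continuousAt.preimage_mem_nhds (by simpa using hN))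
  obtain ⟨t, ht⟩ := hWc C' hC'
  have hs : ∀ g, τ g * g = 1 → ∀ l ∈ Λ, τ (g * l) * (g * l) ∈ N → l = 0 := fun g hg l hl e =>
    h.ani l hl (hd _ (mul_mem (h.mem l hl) hl) (h.sq hg l ▸ e))
  refine ⟨(fun c => t - c) '' C', hC'.image (continuous_sub_left t), fun g h1 h2 => ?_⟩
  obtain ⟨l, hl, e⟩ := hr (lm g (τ g) h1 h2) (hs g h1) (hs (τ g) (by rwa [h.inv])) t
  refine ⟨l, hl, hWu l hl ?_, _, e, sub_sub_cancel t (g * l)⟩
  have := hW (τ g) _ ⟨⟨τ g, g, h1, h2⟩, rfl⟩ (ht _ e)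
  change τ g * (t - (t - g * l)) ∈ W at this
  rwa [sub_sub_cancel, ← mul_assoc, h1, one_mul] at this

/-- **cocompactness of the unitary group** -/
theorem Lat.unitary (h : Lat τ Λ) : ∃ C : Set A, IsCompact C ∧
    ∀ g, τ g * g = 1 → g * τ g = 1 → ∃ u ∈ Λ, τ u * u = 1 ∧ u * τ u = 1 ∧ g * u ∈ C := by
  obtain ⟨C, hC, hc⟩ := h.coc
  obtain ⟨C₁, hC₁, h₁⟩ := h.exists_unit
  have hq : Continuous fun x => τ x * x := h.cont.mul continuous_id
  have hr : ∀ x : A, IsUnit x → ∃ l ∈ Λ, ∃ c ∈ C, x - l * (τ x * x) = c * (τ x * x) := by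
    intro x hx
    obtain ⟨f, hf⟩ := (h.isUnit hx).mul hx
    obtain ⟨l, hl, e⟩ := hc (x * (f⁻¹ : Aˣ))
    exact ⟨l, hl, _, e, by rw [← hf, sub_mul, Units.inv_mul_cancel_right]⟩
  choose! l hl hlc using hr
  let S : Set A := {x | x ∈ Λ ∧ IsUnit x ∧ τ x * x ∈ (fun x => τ x * x) '' C₁}
  let cl : A → A × A := fun x => (τ x * x, x - l x * (τ x * x))
  have hfin : (cl '' S).Finite := by
    refine ((h.finite (hC₁.image hq)).biUnion fun f _ =>
      (h.finite (hC.image (continuous_mul_const f))).image (Prod.mk f)).subset ?_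
    rintro _ ⟨x, ⟨hx, hu, hx1⟩, rfl⟩
    have hf := mul_mem (h.mem x hx) hx
    obtain ⟨c, hc, e⟩ := hlc x hu
    exact mem_iUnion₂.2 ⟨_, ⟨hx1, hf⟩, _, ⟨⟨c, hc, e.symm⟩, sub_mem hx (mul_mem (hl x hu) hf)⟩, rfl⟩
  obtain ⟨T, hTS, hT, hTe⟩ := hfin.exists_subset_finite_image_eq subset_rfl
  refine ⟨⋃ y ∈ T, (fun c => c * Ring.inverse y) '' C₁,
    hT.isCompact_biUnion fun y _ => hC₁.image (continuous_mul_const _), fun g h1 h2 => ?_⟩
  obtain ⟨x, hx, hu, hgx⟩ := h₁ g h1 h2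
  obtain ⟨y, hy, e⟩ : cl x ∈ cl '' T := hTe ▸ ⟨x, ⟨hx, hu, _, hgx, h.sq h1 x⟩, rfl⟩
  obtain ⟨hyΛ, hyu, -⟩ := hTS hy
  obtain ⟨e1, e2⟩ := Prod.mk.inj e
  have hyi := Ring.mul_inverse_cancel y hyu
  have hu1 : τ (x * Ring.inverse y) * (x * Ring.inverse y) = 1 := by
    rw [h.mul, mul_assoc, ← mul_assoc (τ x), ← e1, mul_assoc, hyi, mul_one, ← h.mul, hyi, h.one]
  refine ⟨x * Ring.inverse y, ?_, hu1, ?_, mem_iUnion₂.2 ⟨y, hy, _, hgx, mul_assoc _ _ _⟩⟩
  · have : x = y + (l x - l y) * (τ y * y) := by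
      rw [← e1] at e2
      rw [sub_mul, ← add_sub_assoc, add_sub_right_comm, e2, sub_add_cancel]
    rw [this, add_mul, hyi, mul_assoc, mul_assoc, hyi, mul_one]
    exact add_mem (one_mem _) (mul_mem (sub_mem (hl x hu) (hl y hyu)) (h.mem y hyΛ))
  · obtain ⟨v, hv⟩ := hu.mul hyu.ringInverse
    rw [← hv] at hu1 ⊢
    rw [Units.eq_inv_of_mul_eq_one_right hu1, Units.mul_inv]

/-- **cocompactness of the special unitary group** -/
theorem Lat.special (h : Lat τ Λ) {Z : Type*} [Monoid Z] [TopologicalSpace Z] (ν : A →* Z)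
    (hν : Continuous ν) (hf : ∀ K : Set Z, IsCompact K → (K ∩ ν '' Λ).Finite) :
    ∃ C : Set A, IsCompact C ∧ ∀ g, τ g * g = 1 → g * τ g = 1 → ν g = 1 →
      ∃ u ∈ Λ, τ u * u = 1 ∧ u * τ u = 1 ∧ ν u = 1 ∧ g * u ∈ C := by
  obtain ⟨C, hC, hc⟩ := h.unitary
  let S : Set A := {u | u ∈ Λ ∧ τ u * u = 1 ∧ u * τ u = 1 ∧ ν u ∈ ν '' C}
  have hfin : (ν '' S).Finite := by
    refine (hf _ (hC.image hν)).subset ?_
    rintro _ ⟨u, hu, rfl⟩
    exact ⟨hu.2.2.2, u, hu.1, rfl⟩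
  obtain ⟨T, hTS, hT, hTe⟩ := hfin.exists_subset_finite_image_eq subset_rfl
  refine ⟨⋃ y ∈ T, (fun c => c * τ y) '' C,
    hT.isCompact_biUnion fun y _ => hC.image (continuous_mul_const _), fun g h1 h2 h3 => ?_⟩
  obtain ⟨u, hu, u1, u2, hgu⟩ := hc g h1 h2
  obtain ⟨y, hy, e⟩ : ν u ∈ ν '' T :=
    hTe ▸ ⟨u, ⟨hu, u1, u2, _, hgu, by rw [map_mul, h3, one_mul]⟩, rfl⟩
  obtain ⟨hyΛ, y1, y2, -⟩ := hTS hy
  refine ⟨u * τ y, mul_mem hu (h.mem y hyΛ), ?_, ?_, ?_,
    mem_iUnion₂.2 ⟨y, hy, _, hgu, mul_assoc _ _ _⟩⟩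
  · rw [h.sq u1, h.inv, y2]
  · rw [h.mul, h.inv, mul_assoc, ← mul_assoc (τ y), y1, one_mul, u2]
  · rw [map_mul, ← e, ← map_mul, y2, map_one]

/-- the same with the lattice on the left: `g = u * c` -/
theorem Lat.special' (h : Lat τ Λ) {Z : Type*} [Monoid Z] [TopologicalSpace Z] [T1Space Z]
    (ν : A →* Z) (hν : Continuous ν) (hf : ∀ K : Set Z, IsCompact K → (K ∩ ν '' Λ).Finite) :
    ∃ C : Set A, IsCompact C ∧ (∀ c ∈ C, τ c * c = 1 ∧ c * τ c = 1 ∧ ν c = 1) ∧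
      ∀ g, τ g * g = 1 → g * τ g = 1 → ν g = 1 →
        ∃ u ∈ Λ, τ u * u = 1 ∧ u * τ u = 1 ∧ ν u = 1 ∧ ∃ c ∈ C, g = u * c := by
  obtain ⟨C, hC, hc⟩ := h.special ν hν hf
  have hν' : ∀ g, τ g * g = 1 → ν g = 1 → ν (τ g) = 1 := fun g h1 h2 => by
    have := congrArg ν h1
    rwa [map_mul, h2, mul_one, map_one] at this
  refine ⟨τ '' C ∩ {c | τ c * c = 1 ∧ c * τ c = 1 ∧ ν c = 1}, (hC.image h.cont).inter_right
    ((isClosed_singleton.preimage (h.cont.mul continuous_id)).inter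
      ((isClosed_singleton.preimage (continuous_id.mul h.cont)).inter
        (isClosed_singleton.preimage hν))), fun c hc => hc.2, fun g h1 h2 h3 => ?_⟩
  obtain ⟨u, hu, u1, u2, u3, e⟩ := hc (τ g) (by rwa [h.inv]) (by rwa [h.inv]) (hν' g h1 h3)
  refine ⟨u, hu, u1, u2, u3, τ u * g, ⟨⟨_, e, by rw [h.mul, h.inv]⟩, ?_, ?_, ?_⟩,
    by rw [← mul_assoc, u2, one_mul]⟩
  · rw [h.sq (by rwa [h.inv]), h1]
  · rw [h.mul, h.inv, mul_assoc, ← mul_assoc g, h2, one_mul, u1]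
  · rw [map_mul, h3, hν' u u1 u3, one_mul]

/-- group form: `G` any topological group embedded onto `SU (A)`; `G = G (Λ) * C` -/
theorem Lat.group (h : Lat τ Λ) {Z : Type*} [Monoid Z] [TopologicalSpace Z] [T1Space Z]
    (ν : A →* Z) (hν : Continuous ν) (hf : ∀ K : Set Z, IsCompact K → (K ∩ ν '' Λ).Finite)
    {G : Type*} [Group G] [TopologicalSpace G] (i : G →* A) (hi : IsEmbedding i)
    (hr : ∀ a, a ∈ range i ↔ τ a * a = 1 ∧ a * τ a = 1 ∧ ν a = 1) :
    ∃ C : Set G, IsCompact C ∧ ∀ g, ∃ γ, i γ ∈ Λ ∧ ∃ c ∈ C, g = γ * c := by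
  obtain ⟨C, hC, hCU, hc⟩ := h.special' ν hν hf
  refine ⟨i ⁻¹' C, (hi.isInducing.isCompact_preimage_iff fun c hc => (hr c).2 (hCU c hc)).2 hC,
    fun g => ?_⟩
  obtain ⟨h1, h2, h3⟩ := (hr (i g)).1 ⟨g, rfl⟩
  obtain ⟨u, hu, u1, u2, u3, c, hcC, e⟩ := hc _ h1 h2 h3
  obtain ⟨γ, rfl⟩ := (hr u).2 ⟨u1, u2, u3⟩
  obtain ⟨c, rfl⟩ := (hr c).2 (hCU c hcC)
  exact ⟨γ, hu, c, hcC, hi.injective (by rw [map_mul, e])⟩

omit [T2Space A] [LocallyCompactSpace A] in
/-- `G (Λ)` is discrete -/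
theorem Lat.group_disc (h : Lat τ Λ) {G : Type*} [Group G] [TopologicalSpace G] (i : G →* A)
    (hi : Continuous i) (hi' : Function.Injective i) :
    ∃ N ∈ 𝓝 (1 : G), ∀ γ, i γ ∈ Λ → γ ∈ N → γ = 1 := by
  obtain ⟨N, hN, hd⟩ := h.disc
  refine ⟨(fun γ => i γ - 1) ⁻¹' N, (hi.sub continuous_const).continuousAt.preimage_mem_nhds
    (by simpa using hN), fun γ h1 h2 => hi' ?_⟩
  rw [map_one]
  exact sub_eq_zero.1 (hd _ (sub_mem h1 (one_mem _)) h2)

end Ring

end Crest.Agent.T24.Coc
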