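import Mathlib

/-! Central simple algebras, part 1: density, tensor products, splittings. -/

set_option autoImplicit false

noncomputable section

namespace Crest.Agent.T24.Csa

open scoped TensorProduct
open Module

section Dens

variable {K B : Type*} [Field K] [Ring B] [Algebra K B] [Algebra.IsCentral K B] [IsSimpleRing B]

/-- Jacobson density for the bimodule `B`. -/
theorem dens0 (f : B →ₗ[K] B) (s : Finset B) :
    ∃ t : B ⊗[K] Bᵐᵒᵖ, ∀ x ∈ s, f x = AlgHom.mulLeftRight K B t x := by
  let _ : Module (B ⊗[K] Bᵐᵒᵖ) B := TensorProduct.Algebra.module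
  have hsm : ∀ (t : B ⊗[K] Bᵐᵒᵖ) (x : B), t • x = AlgHom.mulLeftRight K B t x := fun _ _ => rfl
  have : IsSimpleModule (B ⊗[K] Bᵐᵒᵖ) B := by
    refine (isSimpleModule_iff _ _).2 ⟨fun N => ?_⟩
    let I : TwoSidedIdeal B := TwoSidedIdeal.mk' (N : Set B) N.zero_mem
      (fun hx hy => N.add_mem hx hy) (fun hx => N.neg_mem hx)
      (fun {x y} hy => by
        have := N.smul_mem (x ⊗ₜ[K] (1 : Bᵐᵒᵖ)) hy
        rw [hsm] at this; simpa using this)
      (fun {x y} hx => by
        have := N.smul_mem ((1 : B) ⊗ₜ[K] MulOpposite.op y) hx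
        rw [hsm] at this; simpa using this)
    have hI : ∀ x, x ∈ I ↔ x ∈ N := fun x => TwoSidedIdeal.mem_mk' _ _ _ _ _ _ x
    rcases eq_bot_or_eq_top I with h | h
    · left
      rw [eq_bot_iff]
      intro x hx
      have := (hI x).2 hx
      rw [h] at this
      simpa using this
    · right
      rw [eq_top_iff]
      intro x _
      exact (hI x).1 (h ▸ TwoSidedIdeal.mem_top _)
  have key : ∀ g : End (B ⊗[K] Bᵐᵒᵖ) B, ∃ c : K, ∀ x, g x = c • x := by
    intro g
    have h1 : ∀ x, g x = x * g 1 := fun x => by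
      have := g.map_smul (x ⊗ₜ[K] (1 : Bᵐᵒᵖ)) 1
      rw [hsm, hsm] at this; simpa using this
    have h2 : ∀ x, g x = g 1 * x := fun x => by
      have := g.map_smul ((1 : B) ⊗ₜ[K] MulOpposite.op x) 1
      rw [hsm, hsm] at this; simpa using this
    have hc : g 1 ∈ Subalgebra.center K B := by
      rw [Subalgebra.mem_center_iff]
      intro b; rw [← h1, ← h2]
    obtain ⟨c, hc⟩ := (Algebra.IsCentral.mem_center_iff K).1 hc
    exact ⟨c, fun x => by rw [h2, hc, Algebra.smul_def]⟩
  let F : End (End (B ⊗[K] Bᵐᵒᵖ) B) B :=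
    { toFun := f
      map_add' := f.map_add
      map_smul' := fun g x => by
        obtain ⟨c, hc⟩ := key g
        simp only [End.smul_def, RingHom.id_apply, hc, map_smul] }
  obtain ⟨t, ht⟩ := jacobson_density F s
  exact ⟨t, fun x hx => ht x hx⟩

/-- Every `K`-linear map of `B` is, on a finite set, a sum of two-sided multiplications. -/
theorem dens (f : B →ₗ[K] B) (s : Finset B) :
    ∃ S : Finset (B × B), ∀ x ∈ s, f x = ∑ p ∈ S, p.1 * x * p.2 := by
  classical
  obtain ⟨t, ht⟩ := dens0 f s
  obtain ⟨S, rfl⟩ := TensorProduct.exists_finset t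
  refine ⟨S.image fun p => (p.1, p.2.unop), fun x hx => ?_⟩
  rw [ht x hx, Finset.sum_image, map_sum, LinearMap.sum_apply]
  · simp
  · intro p _ q _ h
    simp only [Prod.mk.injEq] at h
    exact Prod.ext h.1 (MulOpposite.unop_injective h.2)

/-- Picking out one coordinate of an independent family. -/
theorem dens_coord {ι : Type*} [DecidableEq ι] {b : ι → B} (hb : LinearIndependent K b)
    (s : Finset ι) (i : ι) (y : B) :
    ∃ S : Finset (B × B), ∀ j ∈ s, ∑ p ∈ S, p.1 * b j * p.2 = if j = i then y else 0 := by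
  classical
  obtain ⟨f, hf⟩ : ∃ f : B →ₗ[K] B, ∀ j, f (b j) = if j = i then y else 0 := by
    obtain ⟨g, hg⟩ := LinearMap.exists_extend
      (((Finsupp.lapply i : (ι →₀ K) →ₗ[K] K) ∘ₗ hb.repr).smulRight y)
    refine ⟨g, fun j => ?_⟩
    have := LinearMap.congr_fun hg ⟨b j, Submodule.subset_span (Set.mem_range_self j)⟩
    simp only [LinearMap.comp_apply, Submodule.subtype_apply, LinearMap.smulRight_apply,
      Finsupp.lapply_apply] at this
    rw [this, hb.repr_eq_single j _ rfl, Finsupp.single_apply]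
    split_ifs <;> simp
  obtain ⟨S, hS⟩ := dens f (s.image b)
  exact ⟨S, fun j hj => by rw [← hS _ (Finset.mem_image_of_mem b hj), hf]⟩

/-- Coefficients commuting with the image of `B` are determined: the basic independence lemma. -/
theorem coeff_eq_zero {C : Type*} [Ring C] (φ : B →+* C) {ι : Type*} {b : ι → B}
    (hb : LinearIndependent K b) (s : Finset ι) (c : ι → C)
    (hc : ∀ j ∈ s, ∀ x, φ x * c j = c j * φ x) (h : ∑ j ∈ s, c j * φ (b j) = 0) :
    ∀ i ∈ s, c i = 0 := by
  classical
  intro i hi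
  obtain ⟨S, hS⟩ := dens_coord hb s i 1
  have h1 : ∑ p ∈ S, φ p.1 * (∑ j ∈ s, c j * φ (b j)) * φ p.2 =
      ∑ j ∈ s, c j * φ (∑ p ∈ S, p.1 * b j * p.2) := by
    simp only [Finset.mul_sum, Finset.sum_mul, map_sum, map_mul]
    rw [Finset.sum_comm]
    refine Finset.sum_congr rfl fun j hj => Finset.sum_congr rfl fun p _ => ?_
    rw [← mul_assoc, hc j hj]; simp only [mul_assoc]
  rw [h] at h1
  simp only [mul_zero, zero_mul, Finset.sum_const_zero] at h1
  rw [Finset.sum_congr rfl fun j hj => by rw [hS j hj]] at h1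
  rw [Finset.sum_eq_single i (fun j _ hj => by simp [hj]) (fun h => absurd hi h)] at h1
  simpa using h1.symm

/-- A ring map `φ : B → C` into an `R`-algebra sends `K`-independent families to `R`-independent
ones. -/
theorem linInd_map {R C : Type*} [CommRing R] [Ring C] [Algebra R C] [FaithfulSMul R C]
    (φ : B →+* C) {ι : Type*} {b : ι → B} (hb : LinearIndependent K b) :
    LinearIndependent R (fun i => φ (b i)) := by
  rw [linearIndependent_iff']
  intro s g h i hi
  have := coeff_eq_zero φ hb s (fun j => algebraMap R C (g j))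
    (fun j _ x => (Algebra.commutes _ _).symm) (by simpa only [← Algebra.smul_def] using h) i hi
  exact FaithfulSMul.algebraMap_injective R C (by simpa using this)

end Dens

section Tensor

variable {K A B : Type*} [Field K] [Ring A] [Algebra K A] [Ring B] [Algebra K B]

theorem exists_basis_sum {ι : Type*} (b : Basis ι K B) (z : A ⊗[K] B) :
    ∃ (s : Finset ι) (c : ι → A), z = ∑ j ∈ s, c j ⊗ₜ[K] b j := by
  classical
  obtain ⟨c, rfl⟩ := TensorProduct.eq_repr_basis_right b z
  exact ⟨c.support, c, rfl⟩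

/-- simple ⊗ central simple is simple. -/
theorem isSimpleRing_tensor [IsSimpleRing A] [Algebra.IsCentral K B] [IsSimpleRing B] :
    IsSimpleRing (A ⊗[K] B) := by
  classical
  have : Nontrivial (A ⊗[K] B) := inferInstance
  refine IsSimpleRing.of_eq_bot_or_eq_top fun I => ?_
  rw [or_iff_not_imp_left, ← I.one_mem_iff]
  intro hI
  obtain ⟨z, hz, hz0⟩ : ∃ z ∈ I, z ≠ 0 := by
    by_contra h
    push Not at h
    exact hI (eq_bot_iff.2 fun z hz => by simpa using h z hz)
  let b := Basis.ofVectorSpace K B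
  obtain ⟨s, c, rfl⟩ := exists_basis_sum b z
  obtain ⟨i, hi, hci⟩ : ∃ i ∈ s, c i ≠ 0 := by
    by_contra h
    push Not at h
    exact hz0 (Finset.sum_eq_zero fun j hj => by simp [h j hj])
  obtain ⟨S, hS⟩ := dens_coord b.linearIndependent s i 1
  have h1 : ∑ p ∈ S, ((1 : A) ⊗ₜ[K] p.1) * (∑ j ∈ s, c j ⊗ₜ[K] b j) * ((1 : A) ⊗ₜ[K] p.2) =
      c i ⊗ₜ[K] (1 : B) := by
    simp only [Finset.mul_sum, Finset.sum_mul, Algebra.TensorProduct.tmul_mul_tmul, one_mul,
      mul_one]
    rw [Finset.sum_comm, Finset.sum_congr rfl fun j hj => by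
      rw [← TensorProduct.tmul_sum, hS j hj]]
    rw [Finset.sum_eq_single i (fun j _ hj => by simp [hj]) (fun h => absurd hi h)]
    simp
  have h2 : c i ⊗ₜ[K] (1 : B) ∈ I := by
    rw [← h1]
    exact I.finsetSum_mem _ _ fun p _ => I.mul_mem_right _ _ (I.mul_mem_left _ _ hz)
  let J : TwoSidedIdeal A := TwoSidedIdeal.comap
    (Algebra.TensorProduct.includeLeftRingHom : A →+* A ⊗[K] B) I
  have h3 : (1 : A) ∈ J := IsSimpleRing.one_mem_of_ne_zero_mem J hci
    (by rw [TwoSidedIdeal.mem_comap]; exact h2)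
  rw [TwoSidedIdeal.mem_comap, map_one] at h3
  exact h3

theorem isSimpleRing_tensor' [IsSimpleRing A] [Algebra.IsCentral K B] [IsSimpleRing B] :
    IsSimpleRing (B ⊗[K] A) :=
  have := isSimpleRing_tensor (K := K) (A := A) (B := B)
  IsSimpleRing.of_ringEquiv (Algebra.TensorProduct.comm K A B).toRingEquiv this

/-- An element of `A ⊗ B` commuting with `1 ⊗ B` lies in `A ⊗ 1` (`B` central). -/
theorem mem_left_of_commute [Algebra.IsCentral K B] (z : A ⊗[K] B)
    (hz : ∀ x : B, ((1 : A) ⊗ₜ[K] x) * z = z * ((1 : A) ⊗ₜ[K] x)) :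
    ∃ a : A, z = a ⊗ₜ[K] (1 : B) := by
  classical
  let e := Basis.ofVectorSpace K A
  obtain ⟨c, rfl⟩ := TensorProduct.eq_repr_basis_left e z
  have hc : ∀ i, ∃ t : K, c i = algebraMap K B t := by
    intro i
    rw [← Algebra.IsCentral.mem_center_iff K, Subalgebra.mem_center_iff]
    intro x
    have h := hz x
    simp only [Finsupp.sum, Finset.mul_sum, Finset.sum_mul, Algebra.TensorProduct.tmul_mul_tmul,
      one_mul, mul_one] at h
    have h' := congrArg (TensorProduct.lift (LinearMap.lsmul K B ∘ₗ e.coord i)) h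
    simp only [map_sum, TensorProduct.lift.tmul, LinearMap.comp_apply, Basis.coord_apply,
      Basis.repr_self, LinearMap.lsmul_apply, Finsupp.single_apply, ite_smul, one_smul,
      zero_smul, Finset.sum_ite_eq', Finsupp.mem_support_iff] at h'
    by_cases h0 : c i = 0
    · simp [h0]
    · simpa [h0] using h'
  choose t ht using hc
  refine ⟨∑ i ∈ c.support, t i • e i, ?_⟩
  rw [Finsupp.sum, TensorProduct.sum_tmul]
  refine Finset.sum_congr rfl fun i _ => ?_
  rw [ht i, Algebra.algebraMap_eq_smul_one, TensorProduct.tmul_smul, TensorProduct.smul_tmul']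

/-- Base change (and tensor products) of central algebras. -/
theorem isCentral_tensor {F : Type*} [Field F] [Algebra K F] [Algebra F A] [IsScalarTower K F A]
    [Algebra.IsCentral F A] [Algebra.IsCentral K B] [Nontrivial B] :
    Algebra.IsCentral F (A ⊗[K] B) := by
  refine ⟨fun z hz => ?_⟩
  rw [Subalgebra.mem_center_iff] at hz
  obtain ⟨a, rfl⟩ := mem_left_of_commute z fun x => hz _
  have ha : a ∈ Subalgebra.center F A := by
    rw [Subalgebra.mem_center_iff]
    intro x
    have := hz (x ⊗ₜ[K] 1)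
    simp only [Algebra.TensorProduct.tmul_mul_tmul, mul_one] at this
    exact Algebra.TensorProduct.includeLeft_injective (R := K) (S := K) (A := A) (B := B)
      (FaithfulSMul.algebraMap_injective K B) this
  obtain ⟨t, rfl⟩ := (Algebra.IsCentral.mem_center_iff F).1 ha
  exact ⟨t, rfl⟩

end Tensor

section Split

variable {K B : Type*} [Field K] [Ring B] [Algebra K B] [Algebra.IsCentral K B] [IsSimpleRing B]

/-- `B ⊗ Bᵒᵖ = End B`. -/
theorem mulLeftRight_bij [FiniteDimensional K B] :
    Function.Bijective (AlgHom.mulLeftRight K B) := by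
  have := isSimpleRing_tensor (K := K) (A := B) (B := Bᵐᵒᵖ)
  have hinj : Function.Injective (AlgHom.mulLeftRight K B) :=
    RingHom.injective (AlgHom.mulLeftRight K B).toRingHom
  refine ⟨hinj, ?_⟩
  have hd : finrank K (B ⊗[K] Bᵐᵒᵖ) = finrank K (End K B) := by
    rw [Module.finrank_tensorProduct, Module.finrank_linearMap,
      (MulOpposite.opLinearEquiv K : B ≃ₗ[K] Bᵐᵒᵖ).finrank_eq.symm]
  exact (LinearMap.injective_iff_surjective_of_finrank_eq_finrank hd
    (f := (AlgHom.mulLeftRight K B).toLinearMap)).1 hinj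

variable {L C : Type*} [Field L] [Ring C] [Algebra L C] [Nontrivial C]

/-- The image of a basis of `B` under a ring map into an `L`-algebra of the same dimension. -/
def mapBasis {ι : Type*} [Fintype ι] (b : Basis ι K B) (φ : B →+* C)
    (h : finrank L C = finrank K B) : Basis ι L C :=
  haveI : Nonempty ι := b.index_nonempty
  basisOfLinearIndependentOfCardEqFinrank (linInd_map (R := L) φ b.linearIndependent)
    (by rw [h, Module.finrank_eq_card_basis b])

@[simp] theorem mapBasis_apply {ι : Type*} [Fintype ι] (b : Basis ι K B) (φ : B →+* C)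
    (h : finrank L C = finrank K B) (i : ι) : mapBasis b φ h i = φ (b i) := by
  simp [mapBasis]

/-- Coordinates of images. -/
theorem mapBasis_repr {ι : Type*} [Fintype ι] (b : Basis ι K B) (φ : B →+* C)
    (h : finrank L C = finrank K B) (f : K →+* L)
    (hf : ∀ c, φ (algebraMap K B c) = algebraMap L C (f c)) (x : B) (i : ι) :
    (mapBasis b φ h).repr (φ x) i = f (b.repr x i) := by
  classical
  conv_lhs => rw [← b.sum_repr x]
  simp only [map_sum, Algebra.smul_def, map_mul, hf, ← mapBasis_apply b φ h]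
  simp only [← Algebra.smul_def, map_smul, Basis.repr_self, Finsupp.coe_finsetSum,
    Finsupp.coe_smul, Finset.sum_apply, Pi.smul_apply, Finsupp.single_apply, smul_eq_mul,
    mul_ite, mul_one, mul_zero, Finset.sum_ite_eq', Finset.mem_univ, if_true]

variable [Algebra K L] [Algebra K C] [IsScalarTower K L C]

/-- The extension `L ⊗ B → C` of `φ`. -/
def bcHom (L : Type*) [Field L] [Algebra L C] [Algebra K L] [IsScalarTower K L C]
    (φ : B →ₐ[K] C) : L ⊗[K] B →ₐ[L] C :=
  Algebra.TensorProduct.lift (Algebra.ofId L C) φ fun x y => Algebra.commutes x (φ y)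

omit [Algebra.IsCentral K B] [IsSimpleRing B] [Nontrivial C] in
@[simp] theorem bcHom_tmul (φ : B →ₐ[K] C) (l : L) (x : B) :
    bcHom L φ (l ⊗ₜ[K] x) = l • φ x := by
  rw [Algebra.smul_def]
  exact Algebra.TensorProduct.lift_tmul _ _ _ _ _

theorem bcHom_bij [FiniteDimensional K B] (φ : B →ₐ[K] C) (h : finrank L C = finrank K B) :
    Function.Bijective (bcHom L φ) := by
  have := isSimpleRing_tensor (K := K) (A := L) (B := B)
  have hinj : Function.Injective (bcHom L φ) := RingHom.injective (bcHom L φ).toRingHom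
  have : FiniteDimensional L C := Module.finite_of_finrank_pos (h ▸ Module.finrank_pos)
  refine ⟨hinj, ?_⟩
  exact (LinearMap.injective_iff_surjective_of_finrank_eq_finrank
    (by rw [Module.finrank_baseChange, h]) (f := (bcHom L φ).toLinearMap)).1 hinj

/-- Any `φ : B → C` with `dim_L C = dim_K B` identifies `C` with `L ⊗ B`. -/
def bcEquiv [FiniteDimensional K B] (φ : B →ₐ[K] C) (h : finrank L C = finrank K B) :
    L ⊗[K] B ≃ₐ[L] C := AlgEquiv.ofBijective (bcHom L φ) (bcHom_bij φ h)

@[simp] theorem bcEquiv_tmul [FiniteDimensional K B] (φ : B →ₐ[K] C)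
    (h : finrank L C = finrank K B) (l : L) (x : B) : bcEquiv φ h (l ⊗ₜ[K] x) = l • φ x :=
  bcHom_tmul φ l x

variable (K B) in
/-- A splitting over any algebraically closed extension. -/
theorem exists_split [FiniteDimensional K B] (Ω : Type*) [Field Ω] [Algebra K Ω] [IsAlgClosed Ω] :
    ∃ n : ℕ, 0 < n ∧ finrank K B = n ^ 2 ∧ Nonempty (B →ₐ[K] Matrix (Fin n) (Fin n) Ω) := by
  have := isSimpleRing_tensor (K := K) (A := Ω) (B := B)
  obtain ⟨n, hn, ⟨e⟩⟩ := IsSimpleRing.exists_algEquiv_matrix_of_isAlgClosed Ω (Ω ⊗[K] B)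
  refine ⟨n, Nat.pos_of_neZero n, ?_, ⟨(e.toAlgHom.restrictScalars K).comp
    Algebra.TensorProduct.includeRight⟩⟩
  have := e.toLinearEquiv.finrank_eq
  rw [Module.finrank_baseChange, Module.finrank_matrix] at this
  simp [this, sq]

end Split

end Crest.Agent.T24.Csa
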