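import Crest.Agent.T24.HilC_56

/-!
# Row 24, CT(2), part A (helper10): the arithmetic core (two quadrics)
-/

set_option autoImplicit false
set_option linter.unusedSectionVars false

noncomputable section

open scoped NumberField Topology Valued
open IsDedekindDomain WithZero Filter

namespace Crest.Agent.T24.Ct2

open Hn Hil
open scoped Classical

universe u

section Fld

variable {L : Type*} [Field L]

/-- the ternary form -/
def Qf (D c a : L) (x : Fin 3 → L) : L := D * x 0 ^ 2 - c * x 1 ^ 2 + a * c * x 2 ^ 2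

/-- the polar of the point `p` -/
def Bf (D c a : L) (p x : Fin 3 → L) : L :=
  D * x 0 * p 0 - c * x 1 * p 1 + a * c * x 2 * p 2 - 1

/-- denominator of the stereographic projection -/
def den (D c a : L) (p x : Fin 3 → L) : L := 2 * Bf D c a p x - (Qf D c a x - 1)

/-- stereographic projection from `p` -/
def Phi (D c a : L) (p x : Fin 3 → L) : Fin 3 → L := fun i =>
  (2 * Bf D c a p x * x i - (Qf D c a x - 1) * p i) / den D c a p x

theorem Qf_Phi {D c a : L} {p x : Fin 3 → L} (hp : Qf D c a p = 1) (h : den D c a p x ≠ 0) :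
    Qf D c a (Phi D c a p x) = 1 := by
  simp only [Qf, Phi] at hp ⊢
  field_simp
  simp only [den, Bf, Qf]
  linear_combination (D * x 0 ^ 2 - c * x 1 ^ 2 + a * c * x 2 ^ 2 - 1) ^ 2 * hp

theorem den_of {D c a : L} (p : Fin 3 → L) {x : Fin 3 → L} (hx : Qf D c a x = 1) :
    den D c a p x = 2 * Bf D c a p x := by simp [den, hx]

theorem Phi_self [CharZero L] {D c a : L} {p x : Fin 3 → L} (hx : Qf D c a x = 1)
    (h : Bf D c a p x ≠ 0) : Phi D c a p x = x := by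
  funext i
  simp only [Phi, den_of p hx, hx]
  field_simp
  ring

section Map
variable {L' : Type*} [Field L'] (f : L →+* L') (D c a : L) (p x : Fin 3 → L)

theorem map_Qf : f (Qf D c a x) = Qf (f D) (f c) (f a) fun i => f (x i) := by simp [Qf]

theorem map_den : f (den D c a p x) = den (f D) (f c) (f a) (fun i => f (p i)) fun i => f (x i) := by
  simp [den, Qf, Bf, map_ofNat]

theorem map_Phi : (fun i => f (Phi D c a p x i)) =
    Phi (f D) (f c) (f a) (fun i => f (p i)) fun i => f (x i) := by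
  funext i
  simp [Phi, den, Qf, Bf, map_ofNat]

end Map

theorem phi_nhds [CharZero L] [TopologicalSpace L] [IsTopologicalDivisionRing L] [T1Space L]
    {D c a : L} {p x : Fin 3 → L} (hx : Qf D c a x = 1) (h : Bf D c a p x ≠ 0)
    {U : Set (Fin 3 → L)} (hU : U ∈ 𝓝 x) :
    {y | den D c a p y ≠ 0 ∧ Phi D c a p y ∈ U} ∈ 𝓝 x := by
  have h0 : den D c a p x ≠ 0 := by rw [den_of p hx]; simpa using h
  have h1 : Continuous (den D c a p) := by unfold den Bf Qf; fun_prop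
  have h2 : ContinuousAt (Phi D c a p) x := by
    refine continuousAt_pi.2 fun i => ContinuousAt.div₀ ?_ h1.continuousAt h0
    unfold Bf Qf; fun_prop
  refine (h1.continuousAt.eventually_ne h0).and (h2.eventually_mem ?_)
  rwa [Phi_self hx h]

/-- a binary form represents its values with both coordinates non-zero -/
theorem fix2 [CharZero L] {d e x y : L} (hd : d ≠ 0) (he : e ≠ 0) (h : x ≠ 0 ∨ y ≠ 0) :
    ∃ x' y', x' ≠ 0 ∧ y' ≠ 0 ∧ d * x' ^ 2 + e * y' ^ 2 = d * x ^ 2 + e * y ^ 2 := by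
  have key : ∀ {d e y : L}, d ≠ 0 → e ≠ 0 → y ≠ 0 →
      ∃ x' y', x' ≠ 0 ∧ y' ≠ 0 ∧ d * x' ^ 2 + e * y' ^ 2 = e * y ^ 2 := by
    intro d e y hd he hy
    have : ∃ l : L, l ≠ 0 ∧ d * l ^ 2 + e ≠ 0 ∧ d * l ^ 2 - e ≠ 0 := by
      by_cases h1 : d * 1 ^ 2 + e ≠ 0 ∧ d * 1 ^ 2 - e ≠ 0
      · exact ⟨1, one_ne_zero, h1⟩
      · refine ⟨2, two_ne_zero, fun h2 => ?_, fun h2 => ?_⟩ <;>
        rcases not_and_or.1 h1 with h1 | h1 <;> rw [not_not] at h1 <;> apply hd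
        · linear_combination (1 / 3) * h2 - (1 / 3) * h1
        · linear_combination (1 / 5) * h2 + (1 / 5) * h1
        · linear_combination (1 / 5) * h2 + (1 / 5) * h1
        · linear_combination (1 / 3) * h2 - (1 / 3) * h1
    obtain ⟨l, h0, h1, h2⟩ := this
    refine ⟨2 * e * y * l / (d * l ^ 2 + e), y * (d * l ^ 2 - e) / (d * l ^ 2 + e),
      by simp [*], by simp [*], ?_⟩
    field_simp
    ring
  by_cases hx : x = 0
  · obtain ⟨x', y', h1, h2, h3⟩ := key hd he (h.resolve_left (not_not.2 hx))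
    exact ⟨x', y', h1, h2, by rw [h3, hx]; ring⟩
  by_cases hy : y = 0
  · obtain ⟨y', x', h1, h2, h3⟩ := key he hd hx
    exact ⟨x', y', h2, h1, by rw [hy]; linear_combination h3⟩
  exact ⟨x, y, hx, hy, rfl⟩

/-- an affine point with non-zero middle coordinate -/
theorem exists_pt [CharZero L] {D c a : L} (hD : D ≠ 0) (hc : c ≠ 0) (ha : a ≠ 0)
    (h : Iso (F := L) (RingHom.id L) ![D, -c, a * c, -1]) :
    ∃ p, Qf D c a p = 1 ∧ p 1 ≠ 0 := by
  obtain ⟨x, hx, h⟩ := h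
  simp only [Fin.sum_univ_four, RingHom.id_apply, Matrix.cons_val] at h
  have h1 : ∃ x0 x1 x2 x3 : L, (x1 ≠ 0 ∨ x3 ≠ 0) ∧
      D * x0 ^ 2 + -c * x1 ^ 2 + a * c * x2 ^ 2 + -1 * x3 ^ 2 = 0 := by
    by_cases h0 : x 0 ≠ 0 ∨ x 1 ≠ 0
    · obtain ⟨y0, y1, -, h2, h3⟩ := fix2 hD (neg_ne_zero.2 hc) h0
      exact ⟨y0, y1, x 2, x 3, .inl h2, by linear_combination h + h3⟩
    · have h0' : x 2 ≠ 0 ∨ x 3 ≠ 0 := by
        by_contra h5
        push Not at h0 h5
        exact hx (funext fun i => by fin_cases i <;> simp [h0.1, h0.2, h5.1, h5.2])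
      obtain ⟨y2, y3, -, h2, h3⟩ := fix2 (mul_ne_zero ha hc) (neg_ne_zero.2 one_ne_zero) h0'
      exact ⟨x 0, x 1, y2, y3, .inr h2, by linear_combination h + h3⟩
  obtain ⟨x0, x1, x2, x3, h2, h3⟩ := h1
  obtain ⟨y1, y3, h4, h5, h6⟩ := fix2 (neg_ne_zero.2 hc) (neg_ne_zero.2 one_ne_zero) h2
  refine ⟨![x0 / y3, y1 / y3, x2 / y3], ?_, by simp [*]⟩
  simp only [Qf, Matrix.cons_val]
  field_simp
  linear_combination h3 + h6

theorem iso_of_pt {F : Type*} [Field F] (f : F →+* L) {D c a : F} {x : Fin 3 → L}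
    (hx : Qf (f D) (f c) (f a) x = 1) :
    ∃ y : Fin 4 → L, y ≠ 0 ∧ ∑ i, f (![D, -c, a * c, -1] i) * y i ^ 2 = 0 := by
  refine ⟨![x 0, x 1, x 2, 1], fun h => by simpa using congrFun h 3, ?_⟩
  simp only [Fin.sum_univ_four, Matrix.cons_val, map_neg, map_mul, map_one]
  simp only [Qf] at hx
  linear_combination hx

/-- non-zero square -/
def NS (x : L) : Prop := x ≠ 0 ∧ IsSquare x

/-- the good values of the first coordinate -/
def Gd (D t : L) : Prop :=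
  NS (t ^ 2 - 1) ∨ NS (D * (1 - t ^ 2 * D)) ∨ NS (D * (1 - t ^ 2 * D) * (1 - t ^ 2))

theorem Gd.neg {D t : L} (h : Gd D t) : Gd D (-t) := by simpa [Gd] using h

/-- a point at a place where the quaternion algebra splits -/
theorem pt_split [CharZero L] {c a s : L} (hc : c ≠ 0) (h : ∃ X Y, c = X ^ 2 - a * Y ^ 2) :
    ∃ x, Qf (1 - s ^ 2 * a) c a x = 1 ∧ Gd (1 - s ^ 2 * a) (x 0) := by
  obtain ⟨X, Y, h⟩ := h
  refine ⟨![5 / 4, (3 / 4 * X - a * (5 / 4 * s) * Y) / c, (5 / 4 * s * X - 3 / 4 * Y) / c], ?_,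
    .inl ⟨by norm_num, 3 / 4, by norm_num⟩⟩
  simp only [Qf, Matrix.cons_val]
  field_simp
  linear_combination (9 - 25 * s ^ 2 * a) * h

theorem pt_real {c a s : ℝ} (hc : c < 0) (ha : a < 0) :
    ∃ x, Qf (1 - s ^ 2 * a) c a x = 1 ∧ Gd (1 - s ^ 2 * a) (x 0) := by
  have hD : 0 < 1 - s ^ 2 * a := by nlinarith [sq_nonneg s]
  generalize 1 - s ^ 2 * a = D at hD
  have h1 : √(1 / (2 * D)) ^ 2 = 1 / (2 * D) := Real.sq_sqrt (by positivity)
  have h2 : √(1 / (2 * -c)) ^ 2 = 1 / (2 * -c) := Real.sq_sqrt (by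
    have : 0 < -c := by linarith
    positivity)
  refine ⟨![√(1 / (2 * D)), √(1 / (2 * -c)), 0], ?_, .inr (.inl ?_)⟩
  · simp only [Qf, Matrix.cons_val, h1, h2]
    field_simp [hc.ne]
    ring
  · simp only [Matrix.cons_val, h1]
    have : D * (1 - 1 / (2 * D) * D) = D / 2 := by field_simp; ring
    rw [this]
    exact ⟨by positivity, √(D / 2), (Real.mul_self_sqrt (by positivity)).symm⟩

theorem sign_neg [CharZero L] (D c a : L) (p x : Fin 3 → L) :
    Bf D c a p x ≠ 0 ∨ Bf D c a p (-x) ≠ 0 := by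
  by_contra h
  push Not at h
  obtain ⟨h1, h2⟩ := h
  simp only [Bf, Pi.neg_apply] at h1 h2
  exact two_ne_zero (α := L) (by linear_combination -h1 - h2)

theorem sign_flip [CharZero L] (D a t : L) {c e : L} {p : Fin 3 → L} (hc : c ≠ 0) (he : e ≠ 0)
    (hp : p 1 ≠ 0) : Bf D c a p ![t, e, 0] ≠ 0 ∨ Bf D c a p ![t, -e, 0] ≠ 0 := by
  by_contra h
  push Not at h
  obtain ⟨h1, h2⟩ := h
  simp only [Bf, Matrix.cons_val] at h1 h2
  exact mul_ne_zero two_ne_zero (mul_ne_zero (mul_ne_zero hc he) hp) (by linear_combination h2 - h1)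

/-- the norm identity -/
theorem nm_aux [CharZero L] {a c s t u w : L} (hs : s ≠ 0) (ht : t ≠ 0)
    (h : ∃ X Y, c = X ^ 2 - a * Y ^ 2) (hq : Qf (1 - s ^ 2 * a) c a ![t, u, w] = 1) :
    ∃ x y, a * (1 - t ^ 2 * (1 - s ^ 2 * a)) = x ^ 2 - (t ^ 2 - 1) * y ^ 2 := by
  obtain ⟨X, Y, h⟩ := h
  simp only [Qf, Matrix.cons_val] at hq
  have key : ∀ U W : L, 1 - t ^ 2 * (1 - s ^ 2 * a) = a * W ^ 2 - U ^ 2 → t * s + W ≠ 0 →
      ∃ x y, a * (1 - t ^ 2 * (1 - s ^ 2 * a)) = x ^ 2 - (t ^ 2 - 1) * y ^ 2 := by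
    intro U W h1 h2
    refine ⟨(a * (t * s) * W + (a * W ^ 2 - U ^ 2)) / (t * s + W), U / (t * s + W), ?_⟩
    field_simp
    linear_combination (a * (t * s + W) ^ 2 - U ^ 2) * h1
  have h1 : 1 - t ^ 2 * (1 - s ^ 2 * a) = a * (X * w + Y * u) ^ 2 - (X * u + a * Y * w) ^ 2 := by
    linear_combination -hq - (u ^ 2 - a * w ^ 2) * h
  by_cases h2 : t * s + (X * w + Y * u) = 0
  · refine key (X * u + a * Y * w) (-(X * w + Y * u)) (by rw [h1]; ring) fun h3 => ?_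
    exact mul_ne_zero two_ne_zero (mul_ne_zero ht hs) (by linear_combination h2 + h3)
  · exact key _ _ h1 h2

end Fld

section Norm

variable {L : Type*} [NormedField L]

theorem sqrt_near (op : {x : L | IsSquare x} ∈ 𝓝 (1 : L)) {V : Set L} (hV : V ∈ 𝓝 (1 : L)) :
    ∀ᶠ x in 𝓝 (1 : L), ∃ y ∈ V, y ^ 2 = x := by
  obtain ⟨η, hη, h⟩ := Metric.mem_nhds_iff.1 hV
  filter_upwards [op, Metric.ball_mem_nhds (1 : L) (mul_pos hη hη)] with x ⟨y, hy⟩ hx
  rw [mem_ball_iff_norm, hy, show y * y - 1 = (y - 1) * (-(-y - 1)) by ring, norm_mul,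
    norm_neg] at hx
  by_cases h1 : ‖y - 1‖ < η
  · exact ⟨y, h (mem_ball_iff_norm.2 h1), by rw [hy, sq]⟩
  · refine ⟨-y, h (mem_ball_iff_norm.2 (lt_of_not_ge fun h2 => ?_)), by rw [hy]; ring⟩
    exact absurd hx (not_lt.2 (mul_le_mul (not_lt.1 h1) h2 hη.le (norm_nonneg _)))

/-- the local points near the identity -/
theorem pt_near (op : {x : L | IsSquare x} ∈ 𝓝 (1 : L)) (a : L) {c : L} (hc : c ≠ 0) {V : Set L}
    (hV : V ∈ 𝓝 (1 : L)) : ∀ᶠ e in 𝓝 (0 : L), e ≠ 0 → ∀ᶠ s in 𝓝 (0 : L), ∃ t ∈ V,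
      (1 - s ^ 2 * a) * t ^ 2 - c * e ^ 2 = 1 ∧
      NS ((1 - s ^ 2 * a) * (1 - t ^ 2 * (1 - s ^ 2 * a)) * (1 - t ^ 2)) := by
  have h1 := (sqrt_near op hV).eventually_nhds
  have h2 : Tendsto (fun e : L => 1 + c * e ^ 2) (𝓝 0) (𝓝 1) :=
    Continuous.tendsto' (by fun_prop) _ _ (by simp)
  filter_upwards [h2.eventually h1] with e he he0
  have h3 : Tendsto (fun s : L => 1 - s ^ 2 * a) (𝓝 0) (𝓝 1) :=
    Continuous.tendsto' (by fun_prop) _ _ (by simp)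
  have h4 : Tendsto (fun s : L => (1 + c * e ^ 2) / (1 - s ^ 2 * a)) (𝓝 0) (𝓝 (1 + c * e ^ 2)) := by
    have := (tendsto_const_nhds (x := 1 + c * e ^ 2)).div h3 one_ne_zero
    rwa [div_one] at this
  have h5 : Tendsto (fun s : L => (1 - s ^ 2 * a) + (1 + c * e ^ 2) * s ^ 2 * a / (c * e ^ 2))
      (𝓝 0) (𝓝 1) := Continuous.tendsto' (by fun_prop) _ _ (by simp)
  filter_upwards [h4.eventually he, h3.eventually_ne one_ne_zero, h5.eventually op,
    h5.eventually_ne one_ne_zero] with s ⟨t, ht, h6⟩ h7 ⟨z, h8⟩ h9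
  have h10 : (1 - s ^ 2 * a) * (1 - t ^ 2 * (1 - s ^ 2 * a)) * (1 - t ^ 2) =
      (c * e ^ 2) ^ 2 * ((1 - s ^ 2 * a) + (1 + c * e ^ 2) * s ^ 2 * a / (c * e ^ 2)) := by
    rw [h6]; field_simp; ring
  refine ⟨t, ht, by rw [h6]; field_simp; ring, ?_⟩
  rw [h10]
  exact ⟨mul_ne_zero (by simp [*]) h9, c * e ^ 2 * z, by rw [h8]; ring⟩

end Norm

variable {F : Type u} [Field F] [NumberField F]

section Lc

variable {p : Pc F} {L : Type*} [Field L] [TopologicalSpace L] [IsTopologicalRing L] [T1Space L]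
  {f : F →+* L}

theorem ns_ev (h : Lc p f) {X : Type*} [TopologicalSpace X] {g : X → L} {z : X}
    (hg : ContinuousAt g z) (h0 : NS (g z)) : ∀ᶠ x in 𝓝 z, NS (g x) := by
  filter_upwards [h.nhds hg h0.1] with x hx
  refine ⟨hx.1, ?_⟩
  have := hx.2.mul h0.2
  rwa [div_mul_cancel₀ _ h0.1] at this

theorem ns3_ev (h : Lc p f) {D : L} {x : Fin 3 → L}
    (h0 : NS (D * (1 - x 0 ^ 2 * D) * (1 - x 0 ^ 2))) :
    ∀ᶠ y : Fin 3 → L in 𝓝 x, NS (D * (1 - y 0 ^ 2 * D) * (1 - y 0 ^ 2)) :=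
  ns_ev h (g := fun y : Fin 3 → L => D * (1 - y 0 ^ 2 * D) * (1 - y 0 ^ 2))
    (Continuous.continuousAt (by fun_prop)) h0

theorem gd_ev (h : Lc p f) {D : L} {x : Fin 3 → L} (h0 : Gd D (x 0)) :
    {y : Fin 3 → L | Gd D (y 0)} ∈ 𝓝 x := by
  rcases h0 with h0 | h0 | h0
  · exact (ns_ev h (g := fun y : Fin 3 → L => y 0 ^ 2 - 1) (Continuous.continuousAt (by fun_prop)) h0).mono
      fun _ => .inl
  · exact (ns_ev h (g := fun y : Fin 3 → L => D * (1 - y 0 ^ 2 * D))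
      (Continuous.continuousAt (by fun_prop)) h0).mono
      fun _ h => .inr (.inl h)
  · exact (ns3_ev h h0).mono fun _ h => .inr (.inr h)

omit [IsTopologicalRing L] [T1Space L] in
theorem of_gd (h : Lc p f) {D t : F} (h0 : Gd (f D) (f t)) (d : F) {A e : Fˣ}
    (hA : (A : F) = D * (1 - t ^ 2 * D)) (he : (e : F) = t ^ 2 - 1) :
    ∃ c : Fˣ, c ∈ LNP (e : F) p ∧ A * c ∈ LNP d p := by
  rcases h0 with h0 | h0 | h0
  · refine ⟨A⁻¹, ?_, by simp⟩
    rw [LNP_eq_top ((h.sq e).2 (by simpa [he] using h0.2))]; trivial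
  · exact ⟨1, one_mem _, Subgroup.mem_sup_right ((h.sq _).2 (by simpa [hA] using h0.2))⟩
  · exact ⟨-e, Subgroup.mem_sup_left ⟨0, 1, by simp⟩,
      Subgroup.mem_sup_right ((h.sq _).2 (by
        have : ((A * -e : Fˣ) : F) = D * (1 - t ^ 2 * D) * (1 - t ^ 2) := by
          rw [Units.val_mul, Units.val_neg, hA, he]; ring
        rw [this]
        simpa using h0.2))⟩

end Lc

theorem exists_ball (v : Pl F) {a : v.adicCompletion F} {U : Set (v.adicCompletion F)}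
    (hU : U ∈ 𝓝 a) : ∀ᶠ m : ℕ in atTop, ∀ y : v.adicCompletion F,
      Valued.v (y - a) ≤ exp (-(m : ℤ)) → y ∈ U := by
  obtain ⟨ε, hε, h⟩ := Metric.mem_nhds_iff.1 hU
  obtain ⟨c, hc⟩ := Loc.exists_val_eq v (-1)
  have hc1 : ‖algebraMap F (v.adicCompletion F) c‖ < 1 := by
    have := (Loc.norm_lt_iff v c 1).2 (by rw [hc, map_one, ← exp_zero, exp_lt_exp]; omega)
    rwa [map_one, norm_one] at this
  filter_upwards [(tendsto_pow_atTop_nhds_zero_of_lt_one (norm_nonneg _) hc1).eventually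
    (gt_mem_nhds hε)] with m hm y hy
  refine h (mem_ball_iff_norm.2 (lt_of_le_of_lt ?_ hm))
  rw [← norm_pow, Valued.toNormedField.norm_le_iff, map_pow, Loc.valued_algebraMap, hc,
    ← exp_nsmul]
  simpa using hy

theorem ball_mem (v : Pl F) (a : v.adicCompletion F) (m : ℕ) :
    {y : v.adicCompletion F | Valued.v (y - a) ≤ exp (-(m : ℤ))} ∈ 𝓝 a := by
  obtain ⟨c, hc⟩ := Loc.exists_val_eq v (-(m : ℤ))
  have h0 : 0 < ‖algebraMap F (v.adicCompletion F) c‖ := by simp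
  filter_upwards [Metric.closedBall_mem_nhds a h0] with y hy
  rwa [mem_closedBall_iff_norm, Valued.toNormedField.norm_le_iff, Loc.valued_algebraMap, hc] at hy

theorem isOpen_ball (v : Pl F) (a : v.adicCompletion F) (m : ℕ) :
    IsOpen {y : v.adicCompletion F | Valued.v (y - a) ≤ exp (-(m : ℤ))} :=
  isOpen_iff_mem_nhds.2 fun b hb => by
    filter_upwards [ball_mem v b m] with y hy
    have := Valuation.map_add_le _ hy hb
    rwa [sub_add_sub_cancel] at this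

/-- weak approximation on the affine quadric -/
theorem qwa {D c a : F} {p : Fin 3 → F} (hp : Qf D c a p = 1) (S : Finset (Pl F))
    (hS : S.Nonempty) (U : ∀ v : Pl F, Set (Fin 3 → v.adicCompletion F))
    (hU : ∀ v ∈ S, ∃ x, U v ∈ 𝓝 x ∧
      Qf (algebraMap F (v.adicCompletion F) D) (algebraMap F _ c) (algebraMap F _ a) x = 1 ∧
      Bf (algebraMap F (v.adicCompletion F) D) (algebraMap F _ c) (algebraMap F _ a)
        (fun i => algebraMap F _ (p i)) x ≠ 0)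
    (V : (F →+* ℝ) → Set (Fin 3 → ℝ))
    (hV : ∀ φ, ∃ x, V φ ∈ 𝓝 x ∧ Qf (φ D) (φ c) (φ a) x = 1 ∧
      Bf (φ D) (φ c) (φ a) (fun i => φ (p i)) x ≠ 0) :
    ∃ y, Qf D c a y = 1 ∧ (∀ v ∈ S, (fun i => algebraMap F (v.adicCompletion F) (y i)) ∈ U v) ∧
      ∀ φ : F →+* ℝ, (fun i => φ (y i)) ∈ V φ := by
  choose! x h1 h2 h3 using hU
  choose x' h1' h2' h3' using hV
  obtain ⟨z, h4, h5⟩ := wa S x _ (fun v hv =>
    haveI : CharZero (v.adicCompletion F) := algebraRat.charZero _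
    phi_nhds (h2 v hv) (h3 v hv) (h1 v hv)) x' _ fun φ => phi_nhds (h2' φ) (h3' φ) (h1' φ)
  obtain ⟨v₀, h₀⟩ := hS
  refine ⟨Phi D c a p z, Qf_Phi hp fun h => (h4 v₀ h₀).1 ?_, fun v hv => ?_, fun φ => ?_⟩
  · rw [← map_den, h, map_zero]
  · rw [map_Phi]; exact (h4 v hv).2
  · rw [map_Phi]; exact (h5 φ).2

theorem real_pt (φ : F →+* ℝ) (a c : Fˣ) (s : F) :
    ∃ x, Qf (φ (1 - s ^ 2 * a)) (φ c) (φ a) x = 1 ∧ Gd (φ (1 - s ^ 2 * a)) (x 0) := by
  have ha : φ a ≠ 0 := by simp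
  have hc : φ c ≠ 0 := by simp
  simp only [map_sub, map_mul, map_pow, map_one]
  rcases lt_or_gt_of_ne ha with ha' | ha'
  · rcases lt_or_gt_of_ne hc with hc' | hc'
    · exact pt_real hc' ha'
    · exact pt_split hc ⟨√(φ c), 0, by rw [Real.sq_sqrt hc'.le]; ring⟩
  · exact pt_split hc (nm_of_sq ha ⟨√(φ a), (Real.mul_self_sqrt ha'.le).symm⟩)

/-- the condition at a place of `S` -/
def Cl (v : Pl F) (m : ℕ) (D : v.adicCompletion F) (y : Fin 3 → v.adicCompletion F) : Prop :=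
  NS (D * (1 - y 0 ^ 2 * D) * (1 - y 0 ^ 2)) ∧ Valued.v (y 0 - 1) ≤ exp (-(m : ℤ)) ∧
    Valued.v (y 1 - 0) ≤ exp (-(m : ℤ)) ∧ Valued.v (y 2 - 0) ≤ exp (-(m : ℤ))

theorem Cl.ev {v : Pl F} {m : ℕ} {D : v.adicCompletion F} {x : Fin 3 → v.adicCompletion F}
    (h : Cl v m D x) : ∀ᶠ y in 𝓝 x, Cl v m D y := by
  have e1 := ns3_ev (lc_inl v) h.1
  have e2 : ∀ (i : Fin 3) (b : v.adicCompletion F), Valued.v (x i - b) ≤ exp (-(m : ℤ)) →
      ∀ᶠ y in 𝓝 x, Valued.v (y i - b) ≤ exp (-(m : ℤ)) := fun i b hb => by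
    have h1 : ∀ᶠ z in 𝓝 (x i), Valued.v (z - b) ≤ exp (-(m : ℤ)) :=
      (isOpen_ball v b m).mem_nhds hb
    exact (continuous_apply i).continuousAt.tendsto.eventually h1
  exact e1.and ((e2 _ _ h.2.1).and ((e2 _ _ h.2.2.1).and (e2 _ _ h.2.2.2)))

theorem exists_cl (S : Finset (Pl F)) (a c : Fˣ) (m : ℕ) : ∃ (e : F) (m' : ℕ), e ≠ 0 ∧
    ∀ s : F, (∀ v ∈ S, v.valuation F s ≤ exp (-(m' : ℤ))) → ∀ v ∈ S, ∃ t : v.adicCompletion F,
      ∀ ε : F, ε = e ∨ ε = -e →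
      Qf (algebraMap F (v.adicCompletion F) (1 - s ^ 2 * a)) (algebraMap F _ c) (algebraMap F _ a)
        ![t, algebraMap F _ ε, 0] = 1 ∧
      Cl v m (algebraMap F (v.adicCompletion F) (1 - s ^ 2 * a)) ![t, algebraMap F _ ε, 0] := by
  obtain ⟨k, hk⟩ := ((eventually_all_finset S).2 fun v _ => exists_ball v
    ((pt_near (lc_inl v).op (algebraMap F (v.adicCompletion F) a)
      (c := algebraMap F (v.adicCompletion F) c) (by simp) (ball_mem v 1 m)).and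
      (ball_mem v 0 m))).exists
  obtain ⟨e, he0, he⟩ := Asa.exists_deep S k
  have he0' : (e : F) ≠ 0 := by simpa using he0
  have h3 := fun v hv => hk v hv (algebraMap F (v.adicCompletion F) (e : F))
    (by rw [sub_zero, Loc.valued_algebraMap]; exact he v hv)
  obtain ⟨m', hm'⟩ := ((eventually_all_finset S).2 fun v hv => exists_ball v
    ((h3 v hv).1 ((map_ne_zero _).2 he0'))).exists
  refine ⟨e, m', he0', fun s hs v hv => ?_⟩
  obtain ⟨t, h4, h5, h6⟩ := hm' v hv (algebraMap F (v.adicCompletion F) s)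
    (by rw [sub_zero, Loc.valued_algebraMap]; exact hs v hv)
  have h7 := (h3 v hv).2
  refine ⟨t, fun ε hε => ?_⟩
  simp only [map_sub, map_mul, map_pow, map_one]
  refine ⟨?_, h6, h4, ?_, by simp⟩
  · simp only [Qf, Matrix.cons_val]
    rcases hε with rfl | rfl
    · linear_combination h5
    · rw [map_neg]; linear_combination h5
  · rcases hε with rfl | rfl
    · exact h7
    · simpa using h7

theorem first (S : Finset (Pl F)) (hS : S.Nonempty) (a c : Fˣ)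
    (hc : ∀ v ∉ S, c ∈ LN (a : F) v) (m : ℕ) :
    ∃ m' : ℕ, ∀ s : F, (∀ v ∈ S, v.valuation F s ≤ exp (-(m' : ℤ))) → 1 - s ^ 2 * a ≠ 0 ∧
      ∀ S' : Finset (Pl F), ∃ y : Fin 3 → F, Qf (1 - s ^ 2 * a : F) (c : F) (a : F) y = 1 ∧
        (∀ v ∈ S, Cl v m (algebraMap F _ (1 - s ^ 2 * a)) fun i => algebraMap F _ (y i)) ∧
        (∀ v ∈ S ∪ S', Gd (algebraMap F (v.adicCompletion F) (1 - s ^ 2 * a))
          (algebraMap F _ (y 0))) ∧
        ∀ φ : F →+* ℝ, Gd (φ (1 - s ^ 2 * a)) (φ (y 0)) := by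
  have cz : ∀ v : Pl F, CharZero (v.adicCompletion F) := fun v => algebraRat.charZero _
  obtain ⟨e, m', he, h1⟩ := exists_cl S a c m
  refine ⟨m', fun s hs => ?_⟩
  choose! t ht using h1 s hs
  have h5 : ∀ v ∉ S, ∃ x, Qf (algebraMap F (v.adicCompletion F) (1 - s ^ 2 * a)) (algebraMap F _ c)
      (algebraMap F _ a) x = 1 ∧ Gd (algebraMap F (v.adicCompletion F) (1 - s ^ 2 * a)) (x 0) :=
    fun v hv => by
      simp only [map_sub, map_mul, map_pow, map_one]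
      exact pt_split (by simp) ((Loc.mem_LN_iff v _ _).1 (hc v hv))
  have h6 := fun φ => real_pt φ a c s
  generalize 1 - s ^ 2 * a = D at *
  obtain ⟨v₀, h₀⟩ := id hS
  have hD0 : D ≠ 0 := fun h => (ht v₀ h₀ e (.inl rfl)).2.1.1 (by simp [h])
  refine ⟨hD0, fun S' => ?_⟩
  obtain ⟨p, hp, hp1⟩ := exists_pt hD0 c.ne_zero a.ne_zero (hmStmt F 4 _ (fun v => by
    by_cases hv : v ∈ S
    · exact iso_of_pt _ (ht v hv e (.inl rfl)).1
    · exact (h5 v hv).elim fun x hx => iso_of_pt _ hx.1)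
    fun φ => (h6 φ).elim fun x hx => iso_of_pt _ hx.1)
  obtain ⟨y, hy, h7, h8⟩ := qwa hp (S ∪ S') (hS.mono Finset.subset_union_left)
    (fun v => {y | Gd (algebraMap F (v.adicCompletion F) D) (y 0) ∧ (v ∈ S →
      Cl v m (algebraMap F _ D) y)})
    (fun v _ => by
      by_cases hv : v ∈ S
      · rcases sign_flip (algebraMap F (v.adicCompletion F) D) (algebraMap F _ a) (t v)
          (c := algebraMap F _ c) (e := algebraMap F _ e)
          (p := fun i => algebraMap F _ (p i)) (by simp) ((map_ne_zero _).2 he)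
          ((map_ne_zero _).2 hp1) with h | h
        · exact ⟨_, (ht v hv e (.inl rfl)).2.ev.mono fun y hy => ⟨.inr (.inr hy.1), fun _ => hy⟩,
            (ht v hv e (.inl rfl)).1, h⟩
        · rw [← map_neg] at h
          exact ⟨_, (ht v hv _ (.inr rfl)).2.ev.mono fun y hy => ⟨.inr (.inr hy.1), fun _ => hy⟩,
            (ht v hv _ (.inr rfl)).1, h⟩
      · obtain ⟨x, hx1, hx2⟩ := h5 v hv
        rcases sign_neg (algebraMap F (v.adicCompletion F) D) (algebraMap F _ c) (algebraMap F _ a)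
          (fun i => algebraMap F _ (p i)) x with h | h
        · exact ⟨x, mem_of_superset (gd_ev (lc_inl v) hx2) fun y hy => ⟨hy, fun h => absurd h hv⟩,
            hx1, h⟩
        · exact ⟨-x, mem_of_superset (gd_ev (lc_inl v) hx2.neg)
            fun y hy => ⟨hy, fun h => absurd h hv⟩, by simpa [Qf] using hx1, h⟩)
    (fun φ => {y | Gd (φ D) (y 0)})
    (fun φ => by
      obtain ⟨x, hx1, hx2⟩ := h6 φ
      rcases sign_neg (φ D) (φ c) (φ a) (fun i => φ (p i)) x with h | h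
      · exact ⟨x, gd_ev (lc_inr φ) hx2, hx1, h⟩
      · exact ⟨-x, gd_ev (lc_inr φ) hx2.neg, by simpa [Qf] using hx1, h⟩)
  exact ⟨y, hy, fun v hv => (h7 v (Finset.mem_union_left _ hv)).2 hv, fun v hv => (h7 v hv).1, h8⟩

/-- **the arithmetic core** -/
theorem core (S : Finset (Pl F)) (hS : S.Nonempty) (a c d : Fˣ)
    (h2 : ∀ v ∉ S, v.valuation F 2 = 1) (hd : ∀ v ∉ S, v.valuation F (d : F) = 1)
    (hc : ∀ v ∉ S, c ∈ LN (a : F) v) (m : ℕ) :
    ∃ m' : ℕ, ∀ s : F, s ≠ 0 → (∀ v ∈ S, v.valuation F s ≤ exp (-(m' : ℤ))) →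
      ∃ t u w p q z₁ z₂ : F, (1 - s ^ 2 * a) * t ^ 2 - c * u ^ 2 + a * c * w ^ 2 = 1 ∧
        (1 - s ^ 2 * a) * (1 - t ^ 2 * (1 - s ^ 2 * a)) * (p ^ 2 + (1 - t ^ 2) * q ^ 2) =
          z₁ ^ 2 - d * z₂ ^ 2 ∧ z₁ ^ 2 - d * z₂ ^ 2 ≠ 0 ∧
        ∀ v ∈ S, v.valuation F (t - 1) ≤ exp (-(m : ℤ)) ∧ v.valuation F u ≤ exp (-(m : ℤ)) ∧
          v.valuation F w ≤ exp (-(m : ℤ)) := by
  have cz : ∀ v : Pl F, CharZero (v.adicCompletion F) := fun v => algebraRat.charZero _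
  obtain ⟨m', hm'⟩ := first S hS a c hc (m + 1)
  refine ⟨m', fun s hs0 hs => ?_⟩
  obtain ⟨hD0, h1⟩ := hm' s hs
  have hf := Asa.finite_ne_one (mul_ne_zero a.ne_zero hD0)
  obtain ⟨y, hy, h9, h7, h8⟩ := h1 hf.toFinset
  obtain ⟨v₀, h₀⟩ := id hS
  have h3 : ∀ v ∉ S, y 0 ≠ 0 → ∃ X Y : v.adicCompletion F,
      algebraMap F (v.adicCompletion F) (a * (1 - y 0 ^ 2 * (1 - s ^ 2 * a))) =
        X ^ 2 - algebraMap F (v.adicCompletion F) (y 0 ^ 2 - 1) * Y ^ 2 := fun v hv ht0 => by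
    have h4 := congrArg (algebraMap F (v.adicCompletion F)) hy
    rw [map_Qf] at h4
    simp only [map_sub, map_mul, map_pow, map_one] at h4 ⊢
    exact nm_aux (u := algebraMap F _ (y 1)) (w := algebraMap F _ (y 2))
      ((map_ne_zero _).2 hs0) ((map_ne_zero _).2 ht0) ((Loc.mem_LN_iff v _ _).1 (hc v hv)) h4
  generalize 1 - s ^ 2 * a = D at *
  have h10 : ∀ v ∈ S, v.valuation F (y 0 - 1) ≤ exp (-((m + 1 : ℕ) : ℤ)) ∧
      v.valuation F (y 1) ≤ exp (-((m + 1 : ℕ) : ℤ)) ∧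
      v.valuation F (y 2) ≤ exp (-((m + 1 : ℕ) : ℤ)) := fun v hv => by
    simpa only [← Loc.valued_algebraMap, map_sub, map_one, sub_zero] using (h9 v hv).2
  have h11 : D * (1 - y 0 ^ 2 * D) * (1 - y 0 ^ 2) ≠ 0 := fun h => (h9 v₀ h₀).1.1 (by
    simpa using congrArg (algebraMap F (v₀.adicCompletion F)) h)
  have ht0 : y 0 ≠ 0 := fun h => by
    have := (h10 v₀ h₀).1
    rw [h, zero_sub, Valuation.map_neg, map_one] at this
    exact absurd this (not_le.2 (Asa.exp_neg_lt_one (by omega)))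
  have hA : D * (1 - y 0 ^ 2 * D) ≠ 0 := left_ne_zero_of_mul h11
  have hn : 1 - y 0 ^ 2 * D ≠ 0 := right_ne_zero_of_mul hA
  have hE : y 0 ^ 2 - 1 ≠ 0 := fun h => right_ne_zero_of_mul h11 (by linear_combination -h)
  obtain ⟨c', ⟨p', q', h12⟩, z₁, z₂, h13⟩ := hm4 (Units.mk0 _ hA) d (Units.mk0 _ hE) (by
    rintro (v | φ)
    · by_cases hv : v ∈ S ∪ hf.toFinset
      · exact of_gd (lc_inl v) (h7 v hv) _ rfl rfl
      · rw [Finset.mem_union, not_or, Set.Finite.mem_toFinset, Set.mem_ofPred_eq, not_not] at hv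
        refine ⟨a * Units.mk0 _ hn, ((lc_inl v).nm _ _).2 (h3 v hv.1 ht0), ?_⟩
        have : Units.mk0 _ hA * (a * Units.mk0 _ hn) =
            a * Units.mk0 _ hD0 * Units.mk0 _ hn ^ 2 := by
          ext; simp only [Units.val_mul, Units.val_mk0, Units.val_pow_eq_pow_val]; ring
        rw [this]
        exact mul_mem (Loc.mem_LN_of_odd v (h2 v hv.1) (hd v hv.1) hv.2)
          (Subgroup.mem_sup_right (sq_mem_SqP (.inl v) _))
    · exact of_gd (lc_inr φ) (h8 φ) _ rfl rfl)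
  simp only [Units.val_mul, Units.val_mk0] at h12 h13
  refine ⟨y 0, y 1, y 2, p', q', z₁, z₂, hy, ?_, ?_, fun v hv => ?_⟩
  · rw [← h13, h12]; ring
  · rw [← h13]; exact mul_ne_zero hA c'.ne_zero
  · have := Asa.exp_neg_anti (show m ≤ m + 1 by omega)
    exact ⟨(h10 v hv).1.trans this, (h10 v hv).2.1.trans this, (h10 v hv).2.2.trans this⟩

end Crest.Agent.T24.Ct2
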