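import Crest.Agent.T24.Def_26
import Crest.Agent.T24.InA_71
import Crest.Agent.T24.HnDef_7

/-!
# Row 24, central step for a quaternion subalgebra (helper10): words and statement
-/

set_option autoImplicit false

noncomputable section

namespace Crest.Agent.T24.Ct2

open NumberField Filter

universe u v w t

/-- a quaternion algebra `(a, c)_F` inside `B` on which `star` is the canonical involution -/
structure Quat (F B : Type*) [Field F] [Ring B] [StarRing B] where
  /-- the centre -/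
  i : F →+* B
  /-- first generator -/
  j : B
  /-- second generator -/
  r : B
  /-- `j ^ 2` -/
  a : Fˣ
  /-- `r ^ 2` -/
  c : Fˣ
  star_i : ∀ f, star (i f) = i f
  star_j : star j = -j
  star_r : star r = -r
  jj : j * j = i a
  rr : r * r = i c
  jr : j * r = -(r * j)
  ij : ∀ f, i f * j = j * i f
  ir : ∀ f, i f * r = r * i f

/-- the element with given coordinates -/
def Quat.el {F B : Type*} [Field F] [Ring B] [StarRing B] (q : Quat F B) (x₀ x₁ x₂ x₃ : F) : B :=
  q.i x₀ + q.i x₁ * q.j + q.i x₂ * q.r + q.i x₃ * (q.j * q.r)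

/-- CT(2): `M`-adically deep elements of `SL₁(Q)` lie in `N`, uniformly in all the quaternion
subalgebras `Q` that are split at the finite places prime to `M` (no condition at infinity). -/
def Ct (k K B : Type*) [Field k] [NumberField k] [Field K] [NumberField K] [Algebra k K]
    [StarRing K] [Ring B] [StarRing B] [Algebra K B] [StarModule K B] [Algebra.IsCentral K B]
    [IsSimpleRing B] [FiniteDimensional K B] [Algebra k B] [Algebra ℚ B] : Prop :=
  ∀ (M : ℕ) (θ : K) (δ : k), 2 ∣ M → M ≠ 0 → (∀ w ∈ TT K B, (M : 𝓞 K) ∈ w.asIdeal) →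
    star θ = -θ → θ ≠ 0 → θ ^ 2 = algebraMap k K δ →
    (∀ v : Hn.Pl k, (M : 𝓞 k) ∉ v.asIdeal → v.valuation k δ = 1) →
    ∀ (m : ℕ) (N : Subgroup (unitary B)), N.relIndex (SU K B) ≠ 0 →
    (∀ u : unitary B, ∀ g ∈ SUm K B m, u * g * u⁻¹ * g⁻¹ ∈ N) →
    ∀ᶠ x in In.nr M (1 : B), ∀ (F : Type t) [Field F] [NumberField F] [Algebra k F]
      (q : Quat F B), (∀ y : k, q.i (algebraMap k F y) = algebraMap k B y) →
      (∀ v : Hn.Pl F, (M : 𝓞 F) ∉ v.asIdeal → q.c ∈ Hn.LN (q.a : F) v) →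
      (∃ x₀ x₁ x₂ x₃, x = q.el x₀ x₁ x₂ x₃) → ∀ hx : x ∈ unitary B, (⟨x, hx⟩ : unitary B) ∈ N

def Ct2Stmt : Prop :=
  ∀ (D : Dat.{u, v, w}) [Algebra ℚ D.B], Aniso D.B → Ct.{t} D.k D.K D.B

end Crest.Agent.T24.Ct2
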