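import Mathlib
import Crest.Agent.T24.LanB_73

/-!
# Row 24, Landherr's theorem, part C (helper73): the core theorem
-/

set_option autoImplicit false
set_option linter.unusedSectionVars false

noncomputable section

open NumberField IsDedekindDomain Module WithZero Polynomial Matrix
open NumberField.mixedEmbedding (mixedSpace normAtPlace)
open Crest.Agent.T24.Asa Crest.NumberTheoryR.UnitaryMP

namespace Crest.Agent.T24.Lan

universe u

variable {k : Type u} {K : Type*} [Field k] [NumberField k] [Field K] [NumberField K] [Algebra k K]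
  {σ : K ≃ₐ[k] K} {B : Type*} [Ring B] [Algebra K B] {τ : B →+ B}
  (hτ : IsUnitaryInvolution σ τ)

include hτ in
theorem tau_one : τ 1 = 1 := by simpa using hτ.2.2 1

include hτ in
theorem tau_smul (c : K) (x : B) : τ (c • x) = σ c • τ x := by
  rw [Algebra.smul_def, hτ.1, hτ.2.2, Algebra.smul_def, Algebra.commutes]

variable [Algebra k B] [IsScalarTower k K B]

/-- the involution as a `k`-linear map -/
def tauk : B →ₗ[k] B where
  toFun := τ
  map_add' := τ.map_add
  map_smul' c x := by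
    rw [← algebraMap_smul K c x, tau_smul hτ, AlgEquiv.commutes, algebraMap_smul, RingHom.id_apply]

include hτ in
theorem tau_aeval {x : B} (hx : τ x = x) (p : k[X]) : τ (aeval x p) = aeval x p := by
  have hp : ∀ n : ℕ, τ (x ^ n) = x ^ n := by
    intro n
    induction n with
    | zero => simpa using tau_one hτ
    | succ n ih => rw [pow_succ, hτ.1, ih, hx, ← pow_succ, ← pow_succ']
  induction p using Polynomial.induction_on' with
  | add p q hp hq => rw [map_add, map_add, hp, hq]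
  | monomial n c =>
    rw [aeval_monomial, ← Algebra.smul_def]
    exact ((tauk hτ).map_smul c _).trans (congrArg _ (hp n))

include hτ in
/-- a hermitian element all of whose eigenvalues are norms is a norm -/
theorem norm_of_eig {κ : Type*} [Fintype κ] [DecidableEq κ] (b : Basis κ k B) {θ : K} {δ : k}
    (hθ : σ θ = -θ) (hδ : θ ^ 2 = algebraMap k K δ) {x : B} (hx : τ x = x)
    (h : ∀ (F : Type u) [Field F] [NumberField F] [Algebra k F] (l : F),
      aeval l (Algebra.leftMulMatrix b x).charpoly = 0 →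
      l ≠ 0 ∧ ∃ s t : F, l = s ^ 2 - algebraMap k F δ * t ^ 2) :
    ∃ z : B, x = τ z * z ∧ z * x = x * z := by
  obtain ⟨p, q, c, hc⟩ := norm_of_roots _ (charpoly_monic _) δ h
  have h1 := congrArg (aeval x) hc
  rw [map_mul, aeval_charpoly, zero_mul, map_sub, aeval_X, sub_eq_zero, map_sub, map_mul, map_pow,
    map_pow, aeval_C, ← Algebra.smul_def] at h1
  have h2 : aeval x q * aeval x p = aeval x p * aeval x q := by
    rw [← map_mul, mul_comm, map_mul]
  have h3 : ∀ r : k[X], aeval x r * x = x * aeval x r := fun r => by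
    have := congrArg (aeval x) (mul_comm r X)
    simpa only [map_mul, aeval_X] using this
  refine ⟨aeval x p + θ • aeval x q, ?_, ?_⟩
  · rw [map_add, tau_smul hτ, tau_aeval hτ hx, tau_aeval hτ hx, hθ]
    simp only [mul_add, add_mul, smul_mul_assoc, mul_smul_comm, h2, neg_smul, neg_mul, smul_neg,
      smul_add, smul_smul]
    rw [← sq θ, hδ, algebraMap_smul, ← sq, ← sq]
    conv_lhs => rw [h1]
    abel
  · simp only [mul_add, add_mul, smul_mul_assoc, mul_smul_comm, h3]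

section Gd

variable {κ : Type*} [Fintype κ] [DecidableEq κ] (b : Basis κ k B) {T : Type*} [NormedField T]
  (ι : k →+* T)

/-- `τ y * h * y` is close to `1` at the place `ι` -/
def Gd (τ : B →+ B) (h : B) (r : ℝ) (y : B) : Prop :=
  ∀ p q, ‖ι (Algebra.leftMulMatrix b (τ y * h * y - 1) p q)‖ < r

include hτ in
theorem gd_near {h : B} {r : ℝ} {z : B} (hz : Gd b ι τ h r z) :
    ∃ η > 0, ∀ y, (∀ i, ‖ι (b.repr (y - z) i)‖ < η) → Gd b ι τ h r y := by
  let g : κ × κ → B →ₗ[k] B →ₗ[k] k := fun j =>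
    ((LinearMap.mul k B).compl₁₂ ((LinearMap.mulRight k h).comp (tauk hτ))
      (LinearMap.mulRight k (b j.2))).compr₂ (b.coord j.1)
  have e : ∀ y p q, Algebra.leftMulMatrix b (τ y * h * y - 1) p q =
      g (p, q) y y - b.repr (b q) p := by
    intro y p q
    rw [Algebra.leftMulMatrix_eq_repr_mul, sub_mul, one_mul, map_sub, mul_assoc]
    rfl
  obtain ⟨η, hη, H⟩ := near_of_cts b ι (g := fun (j : κ × κ) y => g j y y - b.repr (b j.2) j.1)
    (fun j => cts_quad b ι _ _) (z := z) (r := r) fun j => by rw [← e]; exact hz _ _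
  exact ⟨η, hη, fun y hy p q => by rw [e]; exact H y hy (p, q)⟩

include hτ in
theorem gd_line {h : B} {r : ℝ} {z : B} (hz : Gd b ι τ h r z) (x : B) :
    ∃ η > 0, ∀ s : k, ‖ι s‖ < η → Gd b ι τ h r (z + s • x) := by
  obtain ⟨η, hη, H⟩ := gd_near hτ b ι hz
  obtain ⟨η', hη', H'⟩ := small_smul b ι x hη
  exact ⟨η', hη', fun s hs => H _ (by simpa only [add_sub_cancel_left] using H' s hs)⟩

/-- closeness at all non-split places of `S` and all non-split real places -/
def GF (τ : B →+ B) (h : B) (δ : kˣ) (S : Finset (Pl k)) (y : B) : Prop :=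
  (∀ v ∈ S, δ ∉ Hn.Sq v → Gd b (iv v) τ h ‖iv v 4‖ y) ∧
    ∀ ρ : k →+* ℝ, ρ δ < 0 → Gd b ρ τ h (1 / (Fintype.card κ + 1)) y

include hτ in
theorem gf_step {h : B} {δ : kˣ} {S : Finset (Pl k)} {y : B} (hy : GF b τ h δ S y) (x : B) :
    ∃ (m : ℕ) (c : mixedSpace k) (ε : ℝ), 0 < ε ∧ ∀ s : k,
      (∀ v ∈ S, v.valuation k (s - 0) ≤ exp (-(m : ℤ))) →
      (∀ w, normAtPlace w (mixedEmbedding k s - c) < ε) → GF b τ h δ S (y + s • x) := by
  have h1 : ∀ v : Pl k, ∃ η > 0, v ∈ S → δ ∉ Hn.Sq v → ∀ s : k, ‖iv v s‖ < η →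
      Gd b (iv v) τ h ‖iv v 4‖ (y + s • x) := fun v => by
    by_cases hv : v ∈ S ∧ δ ∉ Hn.Sq v
    · obtain ⟨η, hη, H⟩ := gd_line hτ b (iv v) (hy.1 v hv.1 hv.2) x
      exact ⟨η, hη, fun _ _ => H⟩
    · exact ⟨1, one_pos, fun a a' => absurd ⟨a, a'⟩ hv⟩
  have h2 : ∀ ρ : k →+* ℝ, ∃ η > 0, ρ δ < 0 → ∀ s : k, ‖ρ s‖ < η →
      Gd b ρ τ h (1 / (Fintype.card κ + 1)) (y + s • x) := fun ρ => by
    by_cases hv : ρ δ < 0
    · obtain ⟨η, hη, H⟩ := gd_line hτ b ρ (hy.2 ρ hv) x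
      exact ⟨η, hη, fun _ => H⟩
    · exact ⟨1, one_pos, fun a => absurd a hv⟩
  choose η hη H using h1
  choose η' hη' H' using h2
  obtain ⟨m, c, ε, hε, h3, h4⟩ := conv S η hη (fun _ => 0) η' hη'
  exact ⟨m, c, ε, hε, fun s hs hs' => ⟨fun v hv hd => H v hv hd s (h3 v hv s (by
    simpa using hs v hv)), fun ρ hρ => H' ρ hρ s (by simpa using h4 s hs' ρ)⟩⟩

include hτ in
theorem gf_start {h : B} {δ : kˣ} (S : Finset (Pl k)) (v₀ : Pl k) (h₀ : v₀ ∉ S)
    (hfin : ∀ v : Pl k, δ ∉ Hn.Sq v → ∃ z, Gd b (iv v) τ h ‖iv v 4‖ z)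
    (hreal : ∀ ρ : k →+* ℝ, ρ δ < 0 → ∃ z, Gd b ρ τ h (1 / (Fintype.card κ + 1)) z) :
    ∃ y, GF b τ h δ S y ∧ ∀ v ∉ S, v ≠ v₀ → In b v y := by
  have h1 : ∀ v : Pl k, ∃ z : B, ∃ η > 0, δ ∉ Hn.Sq v → ∀ y,
      (∀ i, ‖iv v (b.repr (y - z) i)‖ < η) → Gd b (iv v) τ h ‖iv v 4‖ y := fun v => by
    by_cases hv : δ ∉ Hn.Sq v
    · obtain ⟨z, hz⟩ := hfin v hv
      obtain ⟨η, hη, H⟩ := gd_near hτ b (iv v) hz
      exact ⟨z, η, hη, fun _ => H⟩
    · exact ⟨0, 1, one_pos, fun a => absurd a hv⟩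
  have h2 : ∀ ρ : k →+* ℝ, ∃ z : B, ∃ η > 0, ρ δ < 0 → ∀ y,
      (∀ i, ‖ρ (b.repr (y - z) i)‖ < η) → Gd b ρ τ h (1 / (Fintype.card κ + 1)) y := fun ρ => by
    by_cases hv : ρ δ < 0
    · obtain ⟨z, hz⟩ := hreal ρ hv
      obtain ⟨η, hη, H⟩ := gd_near hτ b ρ hz
      exact ⟨z, η, hη, fun _ => H⟩
    · exact ⟨0, 1, one_pos, fun a => absurd a hv⟩
  choose z η hη H using h1
  choose z' η' hη' H' using h2
  have h3 : ∀ i : κ, ∃ x : k, (∀ v ∈ S, ‖iv v (x - b.repr (z v) i)‖ < η v) ∧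
      (∀ ρ : k →+* ℝ, ‖ρ (x - b.repr (z' ρ) i)‖ < η' ρ) ∧
      ∀ v ∉ S, v ≠ v₀ → v.valuation k x ≤ 1 := fun i => by
    obtain ⟨m, c, ε, hε, h3, h4⟩ := conv S η hη (fun ρ => b.repr (z' ρ) i) η' hη'
    obtain ⟨x, h5, h6, h7⟩ := approx S v₀ h₀ (fun v => b.repr (z v) i) m c hε
    exact ⟨x, fun v hv => h3 v hv _ (h5 v hv), h4 x h6, h7⟩
  choose x hx1 hx2 hx3 using h3
  have e : ∀ i, b.repr (b.equivFun.symm x) i = x i := fun i => by
    rw [← Basis.equivFun_apply, LinearEquiv.apply_symm_apply]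
  refine ⟨b.equivFun.symm x, ⟨fun v hv hd => H v hd _ fun i => ?_, fun ρ hρ => H' ρ hρ _ fun i => ?_⟩,
    fun v hv hv' i => ?_⟩
  · rw [map_sub, Finsupp.sub_apply, e]; exact hx1 i v hv
  · rw [map_sub, Finsupp.sub_apply, e]; exact hx2 i ρ
  · rw [e]; exact hx3 i v hv hv'

end Gd

section Good

variable {κ ι : Type*} [Fintype κ] [DecidableEq κ] [Fintype ι] [DecidableEq ι] (b : Basis κ k B)
  (e : Basis ι K B)

/-- all data are integral at `v` -/
structure Good (τ : B →+ B) (h h' : B) (θ : K) (δ : kˣ) (v : Pl k) : Prop where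
  two : v.valuation k 2 = 1
  del : v.valuation k δ = 1
  mul : ∀ i j, In b v (b i * b j)
  tau : ∀ j, In b v (τ (b j))
  one : In b v 1
  th : In b v (algebraMap K B θ)
  hh : In b v h
  hh' : In b v h'
  ee : ∀ i, In b v (e i)
  up : ∀ w : Pl K, below k w = v → (∀ l i j, w.valuation K (e.repr (b l * e j) i) ≤ 1) ∧
    (∀ i, w.valuation K (e.repr 1 i) ≤ 1) ∧
    ∀ i : ℕ, 0 < i → i ≤ Fintype.card ι → w.valuation K (i : K) = 1

theorem ev_good (τ : B →+ B) (h h' : B) (θ : K) (δ : kˣ) :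
    ∀ᶠ v in Filter.cofinite, Good b e τ h h' θ δ v := by
  have a1 : ∀ᶠ v : Pl k in Filter.cofinite, v.valuation k 2 = 1 := finite_ne_one two_ne_zero
  have a2 : ∀ᶠ v : Pl k in Filter.cofinite, v.valuation k δ = 1 := finite_ne_one δ.ne_zero
  have a3 := Filter.eventually_all.mpr fun i => Filter.eventually_all.mpr fun j =>
    ev_in b (b i * b j)
  have a4 := Filter.eventually_all.mpr fun j => ev_in b (τ (b j))
  have a5 := Filter.eventually_all.mpr fun j => ev_in b (e j)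
  have b1 : ∀ x : K, ∀ᶠ w : Pl K in Filter.cofinite, w.valuation K x ≤ 1 := fun x =>
    finite_not_le x
  have b2 := Filter.eventually_all.mpr fun l => Filter.eventually_all.mpr fun i =>
    Filter.eventually_all.mpr fun j => b1 (e.repr (b l * e j) i)
  have b3 := Filter.eventually_all.mpr fun i => b1 (e.repr 1 i)
  have b4 : ∀ᶠ w : Pl K in Filter.cofinite,
      ∀ i : ℕ, 0 < i → i ≤ Fintype.card ι → w.valuation K (i : K) = 1 :=
    (finite_small (k := K) (Fintype.card ι)).subset fun w hw => by simpa using hw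
  filter_upwards [a1, a2, a3, a4, ev_in b 1, ev_in b (algebraMap K B θ), ev_in b h, ev_in b h', a5,
    ev_below (k := k) (b2.and (b3.and b4))] with v c1 c2 c3 c4 c5 c6 c7 c8 c9 c10
  exact ⟨c1, c2, c3, c4, c5, c6, c7, c8, c9, c10⟩

variable {b e} {h h' : B} {θ : K} {δ : kˣ}

theorem Good.matK {w : Pl K} (hg : Good b e τ h h' θ δ (below k w)) {x : B}
    (hx : In b (below k w) x) (i j : ι) : w.valuation K (Algebra.leftMulMatrix e x i j) ≤ 1 := by
  rw [Algebra.leftMulMatrix_eq_repr_mul]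
  exact In.linK (((e.coord i).restrictScalars k).comp (LinearMap.mulRight k (e j)))
    (fun l => (hg.up w rfl).1 l i j) hx

theorem Good.in_of_K (hK : finrank k K = 2) (hσ : σ ≠ AlgEquiv.refl) (hθ : σ θ = -θ)
    (hδ : θ ^ 2 = algebraMap k K δ) {w : Pl K} (hw : ¬ SplitsBelow σ w)
    (hg : Good b e τ h h' θ δ (below k w)) {x : B} (hx : ∀ i, w.valuation K (e.repr x i) ≤ 1) :
    In b (below k w) x := by
  rw [← e.sum_repr x]
  refine In.sum fun i _ => ?_
  obtain ⟨a, a', ha, ha', H⟩ := decomp_int hK hσ hθ hδ hw hg.two hg.del (hx i)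
  rw [H, add_smul, mul_smul, algebraMap_smul, algebraMap_smul, Algebra.smul_def θ]
  exact (In.smul ha (hg.ee i)).add (In.smul ha' (In.mul hg.mul hg.th (hg.ee i)))

variable (e) in
theorem eval_charpoly_neg (y : B) (c : K) : (-Algebra.leftMulMatrix e y).charpoly.eval c =
    (Algebra.leftMulMatrix e (y + algebraMap K B c)).det := by
  rw [eval_charpoly, map_add, AlgHom.commutes, sub_neg_eq_add, add_comm]
  rfl

end Good

section Core

variable {κ ι : Type*} [Fintype κ] [DecidableEq κ] [Fintype ι] [DecidableEq ι] (b : Basis κ k B)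
  (e : Basis ι K B) (hK : finrank k K = 2) (hσ : σ ≠ AlgEquiv.refl) {θ : K} {δ : kˣ}
  (hθ : σ θ = -θ) (hδ : θ ^ 2 = algebraMap k K δ)

include hτ hK hσ hθ hδ in
/-- the transformation `y`: close to the local solutions at `S`, a unit at the inert places -/
theorem exists_y {h h' : B} (S : Finset (Pl k)) (hS : ∀ v ∉ S, Good b e τ h h' θ δ v) (v₀ : Pl k)
    (h₀ : v₀ ∉ S) (hfin : ∀ v : Pl k, δ ∉ Hn.Sq v → ∃ z, Gd b (iv v) τ h ‖iv v 4‖ z)
    (hreal : ∀ ρ : k →+* ℝ, ρ δ < 0 → ∃ z, Gd b ρ τ h (1 / (Fintype.card κ + 1)) z) :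
    ∃ y y' : B, y * y' = 1 ∧ GF b τ h δ S y ∧
      ∀ v ∉ S, v ≠ v₀ → δ ∉ Hn.Sq v → In b v y ∧ In b v y' := by
  obtain ⟨y₁, hy₁, hi₁⟩ := gf_start hτ b S v₀ h₀ hfin hreal
  obtain ⟨m, c, ε, hε, H⟩ := gf_step hτ b hy₁ (algebraMap K B θ)
  obtain ⟨s, ⟨hs1, hs2, hs3⟩, hs⟩ := (approx_infinite S v₀ h₀ (fun _ => 0) m c hε).exists_notMem_finite
    (finite_not_coprime σ (theta_ne hδ) hθ
      (charpoly_monic (-Algebra.leftMulMatrix e y₁)).ne_zero)
  have hy₂ := H s hs1 hs2
  set y₂ := y₁ + s • algebraMap K B θ with hy₂d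
  have hi₂ : ∀ v ∉ S, v ≠ v₀ → In b v y₂ := fun v hv hv' =>
    (hi₁ v hv hv').add (In.smul (hs3 v hv hv') (hS v hv).th)
  have hf : (-Algebra.leftMulMatrix e y₁).charpoly.comp (X + C (algebraMap k K s * θ)) =
      (-Algebra.leftMulMatrix e y₂).charpoly := by
    refine Polynomial.funext fun t => ?_
    rw [eval_comp, eval_charpoly_neg, eval_charpoly_neg, eval_add, eval_X, eval_C, hy₂d,
      map_add (algebraMap K B), map_mul, ← IsScalarTower.algebraMap_apply, ← Algebra.smul_def,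
      add_comm (algebraMap K B t), add_assoc]
  rw [Set.mem_ofPred_eq, not_not, hf] at hs
  obtain ⟨m', c', ε', hε', H'⟩ := gf_step hτ b hy₂ 1
  have hroot : {t : k | (-Algebra.leftMulMatrix e y₂).charpoly.eval (algebraMap k K t) = 0}.Finite :=
    (finite_setOfPred_isRoot (charpoly_monic (-Algebra.leftMulMatrix e y₂)).ne_zero).preimage
      (algebraMap k K).injective.injOn
  obtain ⟨t, ⟨ht1, ht2, ht3, ht4⟩, ht⟩ := (line1_sigma hK hσ _ hs S v₀ h₀ (fun w _ hw hw' =>
    ⟨val_charpoly _ fun i j => by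
        rw [Matrix.neg_apply, Valuation.map_neg]; exact (hS _ hw).matK (hi₂ _ hw hw') i j,
      ⟨_, by rw [(charpoly_monic _).coeff_natDegree, map_one]⟩,
      by rw [charpoly_natDegree_eq_dim]; exact ((hS _ hw).up w rfl).2.2⟩)
    (fun _ => 0) m' c' hε').exists_notMem_finite hroot
  have hy := H' t ht1 ht2
  have ey : y₂ + algebraMap K B (algebraMap k K t) = y₂ + t • 1 := by
    rw [← IsScalarTower.algebraMap_apply, Algebra.algebraMap_eq_smul_one]
  simp only [Set.mem_ofPred_eq, eval_charpoly_neg, ey] at ht ht4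
  obtain ⟨y', h1, h2⟩ := exists_inv e ht
  refine ⟨_, y', h1, hy, fun v hv hv' hd => ?_⟩
  have hiy : In b v (y₂ + t • 1) := (hi₂ v hv hv').add (In.smul (ht3 v hv hv') (hS v hv).one)
  refine ⟨hiy, ?_⟩
  obtain ⟨w, rfl⟩ := Hn.exists_un K v
  have hw := not_splits hK hσ hθ hδ hd
  refine (hS _ hv).in_of_K hK hσ hθ hδ hw fun i => ?_
  rw [h2, Pi.smul_apply, smul_eq_mul, map_mul, map_inv₀, ht4 w hw hv hv', inv_one, one_mul]
  refine Valuation.map_sum_le _ fun j _ => ?_
  rw [map_mul]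
  exact mul_le_one' (val_adjugate _ ((hS _ hv).matK hiy) i j) (((hS _ hv).up w rfl).2.1 j)

include hτ hK hσ hθ hδ e in
/-- **Landherr's theorem**, core form -/
theorem landherr_core {h h' : B} (hh : τ h = h) (hh' : h' * h = 1)
    (hfin : ∀ v : Pl k, δ ∉ Hn.Sq v → ∃ z, Gd b (iv v) τ h ‖iv v 4‖ z)
    (hreal : ∀ ρ : k →+* ℝ, ρ δ < 0 → ∃ z, Gd b ρ τ h (1 / (Fintype.card κ + 1)) z) :
    ∃ z : B, h = τ z * z := by
  have hev := ev_good b e τ h h' θ δ
  rw [Filter.eventually_cofinite] at hev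
  set S := hev.toFinset
  have hS : ∀ v ∉ S, Good b e τ h h' θ δ v := fun v hv => by simpa [S] using hv
  obtain ⟨v₀, h₀, hd₀⟩ := exists_split_Sq hK hσ hθ hδ S
  obtain ⟨y, y', hy, hG, hI⟩ := exists_y hτ b e hK hσ hθ hδ S hS v₀ h₀ hfin hreal
  have hy' := mul_eq_one_symm e hy
  have ht : τ y' * τ y = 1 := by rw [← hτ.1, hy, tau_one hτ]
  have hinv : (y' * h' * τ y') * (τ y * h * y) = 1 := by
    calc _ = y' * (h' * (τ y' * τ y) * h) * y := by simp only [mul_assoc]
      _ = 1 := by rw [ht, mul_one, hh', mul_one, hy']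
  obtain ⟨z, hz, -⟩ := norm_of_eig hτ b hθ hδ (x := τ y * h * y)
    (by rw [hτ.1, hτ.1, hτ.2.1, hh, mul_assoc]) fun F _ _ _ l hl => by
      obtain ⟨V, hV, hl⟩ := exists_eigvec _ hl
      obtain ⟨h0, hl'⟩ := eig_inv
        (N' := (Algebra.leftMulMatrix b (y' * h' * τ y')).map (algebraMap k F))
        (by rw [← Matrix.map_mul, ← map_mul, hinv, map_one, Matrix.map_one _ (map_zero _) (map_one _)])
        hV hl
      have hl1 : (Algebra.leftMulMatrix b (τ y * h * y - 1)).map (algebraMap k F) *ᵥ V =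
          (l - 1) • V := by
        rw [map_sub, map_one, Matrix.map_sub _ (map_sub _), Matrix.map_one _ (map_zero _) (map_one _)]
        exact eig_sub_one hl
      refine ⟨h0, Hn.hnStmt F (Units.map (algebraMap k F : k →* F) δ) (Units.mk0 l h0)
        (fun u => ?_) fun φ hφ => ?_⟩
      · by_cases hd : δ ∈ Hn.Sq (below k u)
        · rw [Hn.LN_eq_top u _ (map_mem_Sq u hd)]; trivial
        by_cases hv : below k u ∈ S
        · refine Subgroup.mem_sup_right ⟨1, ?_⟩
          obtain ⟨p, q, H⟩ := val_eig (u.valuation F) hV hl1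
          have := (below_lt u _ _).mpr ((Hn.Loc.norm_lt_iff _ _ _).mp (hG.1 _ hv hd p q))
          rw [map_ofNat] at this
          simpa using H.trans_lt this
        · have hg := hS _ hv
          obtain ⟨i1, i2⟩ := hI _ hv (fun h => hd (h ▸ hd₀)) hd
          have i3 := In.mul hg.mul (In.mul hg.mul (In.lin (tauk hτ) hg.tau i1) hg.hh) i1
          have i4 := In.mul hg.mul (In.mul hg.mul i2 hg.hh') (In.lin (tauk hτ) hg.tau i2)
          obtain ⟨p, q, H⟩ := val_eig (u.valuation F) hV hl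
          obtain ⟨p', q', H'⟩ := val_eig (u.valuation F) hV hl'
          have H1 := H.trans ((below_le_one u _).mpr (In.mat hg.mul i3 p q))
          have H2 := H'.trans ((below_le_one u _).mpr (In.mat hg.mul i4 p' q'))
          refine Hn.Loc.mem_LN_of_odd u ?_ ((below_eq_one u _).mpr hg.del) (le_antisymm H1 ?_)
          · simpa [map_ofNat] using (below_eq_one u (2 : k)).mpr hg.two
          · rwa [map_inv₀, inv_le_one₀ (zero_lt_iff.mpr (by simpa using h0))] at H2
      · obtain ⟨p, q, H⟩ := real_eig φ hV hl1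
        have H1 := hG.2 (φ.comp (algebraMap k F)) hφ p q
        rw [Real.norm_eq_abs, lt_div_iff₀ (by positivity)] at H1
        have H2 : |φ (l - 1)| < 1 := by
          have := abs_nonneg (φ (algebraMap k F (Algebra.leftMulMatrix b (τ y * h * y - 1) p q)))
          simp only [Matrix.map_apply, RingHom.comp_apply] at H H1
          nlinarith
        rw [map_sub, map_one, abs_lt] at H2
        change 0 < φ l
        linarith
  refine ⟨z * y', ?_⟩
  calc h = (τ y' * τ y) * h * (y * y') := by rw [ht, hy, one_mul, mul_one]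
    _ = τ y' * (τ y * h * y) * y' := by simp only [mul_assoc]
    _ = _ := by rw [hz, hτ.1]; simp only [mul_assoc]

end Core

end Crest.Agent.T24.Lan
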