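import Mathlib
import Crest.Agent.T24.LanC_73
import Crest.Agent.T24.DefS_26

/-!
# Row 24, Landherr's theorem, part D (helper73): the theorem in the words of `DefS_26`
-/

set_option autoImplicit false
set_option linter.unusedSectionVars false

noncomputable section

open NumberField IsDedekindDomain Module WithZero Polynomial Matrix
open Crest.Agent.T24.Asa Crest.NumberTheoryR.UnitaryMP

namespace Crest.Agent.T24.Lan

universe u

section Gen

variable (k K B : Type*) [Field k] [Field K] [Algebra k K] [StarRing K] [Quad k K] [Ring B]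
  [StarRing B] [Algebra K B] [StarModule K B] [Algebra k B] [IsScalarTower k K B]

/-- `star` as an additive map -/
def stA : B →+ B := (starAddEquiv (R := B)).toAddMonoidHom

@[simp] theorem stA_apply (x : B) : stA B x = star x := rfl

theorem isInv : IsUnitaryInvolution (sig k K) (stA B) :=
  ⟨star_mul, star_star, fun c => by
    rw [stA_apply, Algebra.algebraMap_eq_smul_one, Algebra.algebraMap_eq_smul_one, star_smul,
      star_one, sig_apply]⟩

variable (T : Type*) [CommRing T] [Algebra k T]

theorem repr_inc {κ : Type*} (b : Basis κ k B) (x : B) (p : κ) :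
    (BC.bas k K B T b).repr (BC.inc k K B T x) p = algebraMap k T (b.repr x p) := by
  have := Algebra.TensorProduct.basis_repr_tmul (A := T) b 1 x
  rw [one_smul] at this
  exact (DFunLike.congr_fun this p).trans (by simp)

variable [FiniteDimensional K B] [TopologicalSpace T] [IsTopologicalRing T]

theorem denseRange_inc (hT : DenseRange (algebraMap k T)) : DenseRange (BC.inc k K B T) := by
  have := finite_kB k K B
  let b := finBasis k B
  have h1 : DenseRange (Pi.map fun _ : Fin (finrank k B) => algebraMap k T) :=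
    DenseRange.piMap fun _ => hT
  have h2 := (BC.crd k K B T b).symm.surjective.denseRange.comp h1
    (BC.crd k K B T b).symm.continuous
  refine DenseRange.of_comp (g := b.equivFun.symm) ?_
  convert h2 using 1
  funext x
  apply (BC.crd k K B T b).injective
  simp only [Function.comp_apply, ContinuousLinearEquiv.apply_symm_apply]
  funext i
  refine (repr_inc k K B T b _ i).trans ?_
  rw [← Basis.equivFun_apply, LinearEquiv.apply_symm_apply]
  rfl

end Gen

variable {k : Type u} {K B : Type*} [Field k] [NumberField k] [Field K] [NumberField K]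
  [Algebra k K] [StarRing K] [Quad k K] [Ring B] [StarRing B] [Algebra K B] [StarModule K B]
  [Algebra k B] [IsScalarTower k K B] [FiniteDimensional K B]

theorem gd_of_bc {κ : Type*} [Fintype κ] [DecidableEq κ] (b : Basis κ k B) {T : Type*}
    [NormedField T] [Algebra k T] (hT : DenseRange (algebraMap k T)) {h h' : B} (hh' : h' * h = 1)
    {Z : BC k K B T} (hZ : BC.inc k K B T h = star Z * Z) {r : ℝ} (hr : 0 < r) :
    ∃ z, Gd b (algebraMap k T) (stA B) h r z := by
  let W := BC.inc k K B T h' * star Z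
  have h1 : Z * W = 1 := mul_eq_one_symm (BC.bas k K B T b) (by
    rw [mul_assoc, ← hZ, ← map_mul, hh', map_one])
  have h2 : star W * BC.inc k K B T h * W = 1 := by
    rw [hZ, ← mul_assoc (star W), ← star_mul Z W, mul_assoc, h1, star_one, one_mul]
  have ho : IsOpen (⋂ j : κ × κ, {Y : BC k K B T | ‖(BC.bas k K B T b).coord j.1
      ((star Y * BC.inc k K B T h * Y - 1) * BC.inc k K B T (b j.2))‖ < r}) :=
    isOpen_iInter_of_finite fun j => isOpen_lt
      ((IsModuleTopology.continuous_of_linearMap ((BC.bas k K B T b).coord j.1)).comp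
        (by fun_prop)).norm continuous_const
  obtain ⟨y, hy⟩ := (denseRange_inc k K B T hT).exists_mem_open ho
    ⟨W, Set.mem_iInter.mpr fun j => by simpa [h2] using hr⟩
  refine ⟨y, fun p q => ?_⟩
  have := Set.mem_iInter.mp hy (p, q)
  rw [Algebra.leftMulMatrix_eq_repr_mul, ← repr_inc k K B T]
  simpa using this

theorem dense_real (φ : k →+* ℝ) : DenseRange φ :=
  Rat.denseRange_cast.mono (by
    rintro _ ⟨q, rfl⟩
    exact ⟨q, map_ratCast φ q⟩)

variable (K) in
/-- **Landherr's theorem**, hypotheses only at the non-split places -/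
theorem landherr' {θ : K} {δ : kˣ} (hθ : star θ = -θ) (hδ : θ ^ 2 = algebraMap k K δ) {h : B}
    (hh : star h = h) (hu : IsUnit h)
    (hfin : ∀ v : Pl k, δ ∉ Hn.Sq v → ∃ Z : BC k K B (Kv v), BC.inc k K B _ h = star Z * Z)
    (hreal : ∀ φ : k →+* ℝ, φ δ < 0 →
      letI := φ.toAlgebra; ∃ Z : BC k K B ℝ, BC.inc k K B _ h = star Z * Z) :
    ∃ z : B, h = star z * z := by
  classical
  have := finite_kB k K B
  obtain ⟨u, rfl⟩ := hu
  refine landherr_core (isInv k K B) (finBasis k B) (finBasis K B) Quad.fr (sig_ne k K) hθ hδ hh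
    u.inv_mul (fun v hv => ?_) fun φ hφ => ?_
  · obtain ⟨Z, hZ⟩ := hfin v hv
    exact gd_of_bc _ (v.denseRange_algebraMap k) u.inv_mul hZ (by simp)
  · let _ := φ.toAlgebra
    obtain ⟨Z, hZ⟩ := hreal φ hφ
    exact gd_of_bc _ (dense_real φ) u.inv_mul hZ (by positivity)

variable (K) in
/-- **Landherr's theorem** -/
theorem landherr {h : B} (hh : star h = h) (hu : IsUnit h)
    (hfin : ∀ v : Pl k, ∃ Z : BC k K B (Kv v), BC.inc k K B _ h = star Z * Z)
    (hreal : ∀ φ : k →+* ℝ, letI := φ.toAlgebra; ∃ Z : BC k K B ℝ, BC.inc k K B _ h = star Z * Z) :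
    ∃ z : B, h = star z * z := by
  obtain ⟨θ, δ, hθ, hδ⟩ := exists_theta Quad.fr (sig_ne k K)
  exact landherr' K hθ hδ hh hu (fun v _ => hfin v) fun φ _ => hreal φ

theorem map_star {R R' : Type*} [CommRing R] [Algebra k R] [CommRing R'] [Algebra k R']
    (f : R →ₐ[k] R') (Z : BC k K B R) : BC.map k K B R f (star Z) = star (BC.map k K B R f Z) := by
  have e : ∀ (r : R) (x : B), BC.map k K B R f (r • BC.inc k K B R x) = f r • BC.inc k K B R' x :=
    fun r x => by rw [← BC.tm_eq, ← BC.tm_eq]; rfl
  refine BC.ind Z (by simp) (fun r x => ?_) fun x y hx hy => ?_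
  · rw [BC.star_rsmul, BC.star_inc, e, e, BC.star_rsmul, BC.star_inc]
  · rw [star_add, map_add, map_add, star_add, hx, hy]

theorem map_inc {R R' : Type*} [CommRing R] [Algebra k R] [CommRing R'] [Algebra k R']
    (f : R →ₐ[k] R') (x : B) : BC.map k K B R f (BC.inc k K B R x) = BC.inc k K B R' x := by
  change f 1 ⊗ₜ[k] x = (1 : R') ⊗ₜ[k] x
  rw [map_one]

theorem exists_proj (φ : k →+* ℝ) : letI := φ.toAlgebra; Nonempty (Inf k →ₐ[k] ℝ) := by
  let _ := φ.toAlgebra
  have hr : ComplexEmbedding.IsReal (Complex.ofRealHom.comp φ) :=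
    ComplexEmbedding.isReal_iff.mpr (RingHom.ext fun y => by simp)
  have hw : (InfinitePlace.mk (Complex.ofRealHom.comp φ)).IsReal := ⟨_, hr, rfl⟩
  have he : InfinitePlace.embedding_of_isReal hw = φ := RingHom.ext fun y => by
    apply Complex.ofReal_injective
    rw [InfinitePlace.embedding_of_isReal_apply, InfinitePlace.embedding_mk_eq_of_isReal hr]
    rfl
  exact ⟨⟨(Pi.evalRingHom (fun _ : {w : InfinitePlace k // w.IsReal} => ℝ) ⟨_, hw⟩).comp
    (RingHom.fst _ _), fun x => DFunLike.congr_fun he x⟩⟩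

variable (K) in
/-- **Landherr's theorem**, with the archimedean completion `Inf k` -/
theorem landherr_inf {h : B} (hh : star h = h) (hu : IsUnit h)
    (hfin : ∀ v : Pl k, ∃ Z : BC k K B (Kv v), BC.inc k K B _ h = star Z * Z)
    (hinf : ∃ Z : BC k K B (Inf k), BC.inc k K B _ h = star Z * Z) :
    ∃ z : B, h = star z * z := by
  refine landherr K hh hu hfin fun φ => ?_
  let _ := φ.toAlgebra
  obtain ⟨f⟩ := exists_proj φ
  obtain ⟨Z, hZ⟩ := hinf
  exact ⟨BC.map k K B _ f Z, by rw [← map_star, ← map_mul, ← hZ, map_inc]⟩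

end Crest.Agent.T24.Lan
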