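import Crest.Agent.T24.EmbDef_13
import Crest.Agent.T24.HsmB_23
import Crest.Agent.T24.Csa5_56
import Crest.Agent.T24.Csa4_50
import Crest.Agent.T24.LanD_73

/-! Row 24, embedding module, part B (helper13): local conjugacy of regular elements. -/

set_option autoImplicit false
set_option linter.unusedSectionVars false
set_option linter.style.haveILetI false

noncomputable section

namespace Crest.Agent.T24.Emb

open Module Polynomial Csa
open scoped TensorProduct

theorem minpoly_one_tmul {R A : Type*} (E : Type*) [Field R] [Field E] [Algebra R E] [Ring A]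
    [Algebra R A] [Module.Finite R A] (x : A) :
    minpoly E ((1 : E) ⊗ₜ[R] x) = (minpoly R x).map (algebraMap R E) := by
  have hm := minpoly.monic (Algebra.IsIntegral.isIntegral (R := R) x)
  refine (minpoly.unique' E _ (hm.map _) ?_ fun q hq => ?_).symm
  · rw [aeval_map_algebraMap]
    exact (aeval_algHom_apply (Algebra.TensorProduct.includeRight (R := R) (A := E) (B := A)) x
      _).trans (by rw [minpoly.aeval, map_zero])
  · rw [or_iff_not_imp_right, not_not]
    intro h0
    by_contra hq0
    rw [degree_map, degree_eq_natDegree hm.ne_zero, ← natDegree_lt_iff_degree_lt hq0] at hq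
    have hl := Module.Flat.linearIndependent_one_tmul (S := E) (linearIndependent_pow (K := R) x)
    rw [aeval_eq_sum_range' hq, Finset.sum_range] at h0
    have := Fintype.linearIndependent_iff.1 hl (fun i => q.coeff i) (by simpa using h0)
    exact hq0 (leadingCoeff_eq_zero.1 (this ⟨_, hq⟩))

variable {k K B : Type*} [Field k] [NumberField k] [Field K] [NumberField K] [Algebra k K]
  [StarRing K] [Quad k K] [Ring B] [StarRing B] [Algebra K B] [StarModule K B]
  [Algebra.IsCentral K B] [IsSimpleRing B] [FiniteDimensional K B] [Algebra k B]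
  [IsScalarTower k K B]

theorem star_aeval_bc {R : Type*} [CommRing R] [Algebra k R] (t : BC k K B R) (q : R[X]) :
    star (aeval t q) = aeval (star t) q := by
  simp only [aeval_eq_sum_range, star_sum, BC.star_rsmul, star_pow]

theorem inc_comm {R : Type*} [CommRing R] [Algebra k R] (c : K) (x : BC k K B R) :
    BC.inc k K B R (algebraMap K B c) * x = x * BC.inc k K B R (algebraMap K B c) := by
  refine BC.ind x (by simp) (fun r b => ?_) fun x y hx hy => by rw [mul_add, add_mul, hx, hy]
  rw [mul_smul_comm, smul_mul_assoc, ← map_mul, ← map_mul, Algebra.commutes]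

section Model

variable (k K B) (E : Type*) [Field E] [Algebra k E] [Algebra K E] [IsScalarTower k K E]

/-- the first component at a split place -/
def pr : BC k K B E →ₐ[E] E ⊗[K] B :=
  Algebra.TensorProduct.lift (Algebra.ofId E _)
    ((Algebra.TensorProduct.includeRight (R := K) (A := E) (B := B)).restrictScalars k)
    (fun r _ => Algebra.commutes r _)

variable {k K B E}

theorem pr_inc (b : B) : pr k K B E (BC.inc k K B E b) = (1 : E) ⊗ₜ[K] b := by
  refine (Algebra.TensorProduct.lift_tmul _ _ _ _ _).trans ?_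
  rw [map_one, one_mul]; rfl

theorem pr_surj : Function.Surjective (pr k K B E) := fun c => by
  induction c with
  | zero => exact ⟨0, map_zero _⟩
  | tmul r b => exact ⟨r • BC.inc k K B E b, by
      rw [map_smul, pr_inc, TensorProduct.smul_tmul', smul_eq_mul, mul_one]⟩
  | add x y hx hy =>
    obtain ⟨x, rfl⟩ := hx
    obtain ⟨y, rfl⟩ := hy
    exact ⟨x + y, map_add _ _ _⟩

theorem exists_pr (c₁ c₂ : E ⊗[K] B) :
    ∃ x : BC k K B E, pr k K B E x = c₁ ∧ pr k K B E (star x) = c₂ := by
  have : CharZero E := charZero_of_injective_algebraMap (algebraMap k E).injective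
  obtain ⟨θ, h0, hθ⟩ := exists_skew (Quad.ne (k := k) (K := K))
  have h1 : algebraMap K E θ ≠ 0 := (_root_.map_ne_zero _).2 h0
  have h2 : ∀ c : K, pr k K B E (BC.inc k K B E (algebraMap K B c)) = algebraMap K E c • 1 :=
    fun c => by
      rw [pr_inc, Algebra.algebraMap_eq_smul_one, ← TensorProduct.smul_tmul, algebraMap_smul]; rfl
  let e : BC k K B E :=
    (2⁻¹ : E) • (1 + (algebraMap K E θ)⁻¹ • BC.inc k K B E (algebraMap K B θ))
  have e1 : pr k K B E e = 1 := by
    rw [map_smul, map_add, map_smul, h2, smul_smul, inv_mul_cancel₀ h1, map_one, one_smul,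
      ← two_smul E, smul_smul, inv_mul_cancel₀ two_ne_zero, one_smul]
  have e2 : pr k K B E (star e) = 0 := by
    rw [BC.star_rsmul, star_add, BC.star_rsmul, BC.star_inc, star_algebraMap, hθ, map_smul, map_add,
      map_smul, h2, smul_smul, map_neg, mul_neg, inv_mul_cancel₀ h1, star_one, map_one]
    simp
  obtain ⟨x, rfl⟩ := pr_surj (k := k) c₁
  obtain ⟨y, rfl⟩ := pr_surj (k := k) c₂
  exact ⟨e * x + star (e * y), by simp [e1, e2], by simp [e1, e2]⟩

theorem pr_inj {x : BC k K B E} (h1 : pr k K B E x = 0) (h2 : pr k K B E (star x) = 0) : x = 0 := by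
  have := finite_kK k K
  have := finite_kB k K B
  let F : BC k K B E →ₗ[E] (E ⊗[K] B) × (E ⊗[K] B) :=
    (pr k K B E).toLinearMap.prod ((pr k K B E).toLinearMap.comp (BC.starR k K B E))
  have hs : Function.Surjective F := fun c => by
    obtain ⟨x, h1, h2⟩ := exists_pr (k := k) c.1 c.2
    exact ⟨x, Prod.ext h1 h2⟩
  have hd : finrank E (BC k K B E) = finrank E ((E ⊗[K] B) × (E ⊗[K] B)) := by
    rw [finrank_prod, finrank_baseChange, ← two_mul, ← Quad.fr (k := k) (K := K),
      finrank_mul_finrank]
    exact finrank_baseChange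
  exact (injective_iff_map_eq_zero F).1
    ((LinearMap.injective_iff_surjective_of_finrank_eq_finrank hd).2 hs) x (Prod.ext h1 h2)

theorem isUnit_of_pr {x : BC k K B E} (h1 : IsUnit (pr k K B E x))
    (h2 : IsUnit (pr k K B E (star x))) : IsUnit x := by
  obtain ⟨u, hu⟩ := h1
  obtain ⟨v, hv⟩ := h2
  obtain ⟨y, e1, e2⟩ := exists_pr (k := k) (↑u⁻¹ : E ⊗[K] B) ↑v⁻¹
  refine ⟨⟨x, y, sub_eq_zero.1 (pr_inj ?_ ?_), sub_eq_zero.1 (pr_inj ?_ ?_)⟩, rfl⟩ <;>
    simp [e1, e2, ← hu, ← hv]

theorem minpoly_pr {t : BC k K B E} (ht : star t = t) : minpoly E (pr k K B E t) = minpoly E t := by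
  refine eq_of_monic_of_associated (minpoly.monic (Algebra.IsIntegral.isIntegral _))
    (minpoly.monic (Algebra.IsIntegral.isIntegral _)) (associated_of_dvd_dvd
      (minpoly.dvd _ _ (by rw [aeval_algHom_apply, minpoly.aeval, map_zero]))
      (minpoly.dvd _ _ (pr_inj ?_ ?_)))
  · rw [← aeval_algHom_apply, minpoly.aeval]
  · rw [star_aeval_bc, ht, ← aeval_algHom_apply, minpoly.aeval]

theorem deg_bc : deg E (E ⊗[K] B) = deg K B := by rw [deg, deg, finrank_baseChange]

theorem HR.rch_pr {Q : E[X]} {t : BC k K B E} (h : HR Q t) (hd : Q.natDegree = deg K B) :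
    rch E (pr k K B E t) = Q := by
  have : CharZero E := charZero_of_injective_algebraMap (algebraMap k E).injective
  rw [rch_eq_minpoly (by rw [minpoly_pr h.1, h.2, hd, deg_bc]), minpoly_pr h.1, h.2]

theorem rch_pr_inc (y : B) :
    rch E (pr k K B E (BC.inc k K B E y)) = (rch K y).map (algebraMap K E) := by
  rw [pr_inc]
  exact rch_map (algebraMap K E)
    (Algebra.TensorProduct.includeRight (R := K) (A := E) (B := B)).toRingHom
    (fun c => (Algebra.TensorProduct.includeRight (R := K) (A := E) (B := B)).commutes c)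
    finrank_baseChange y

theorem conj_of_pr {x t : BC k K B E} (hs : (rch E (pr k K B E x)).Separable)
    (h1 : rch E (pr k K B E x) = rch E (pr k K B E t))
    (h2 : rch E (pr k K B E (star x)) = rch E (pr k K B E x))
    (h3 : rch E (pr k K B E (star t)) = rch E (pr k K B E x)) :
    ∃ z, IsUnit z ∧ z * x = t * z := by
  have : CharZero E := charZero_of_injective_algebraMap (algebraMap k E).injective
  obtain ⟨u, hu⟩ := conj_of_rch_eq hs.squarefree h1
  obtain ⟨v, hv⟩ := conj_of_rch_eq (h3 ▸ hs.squarefree) (h3.trans h2.symm)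
  obtain ⟨z, e1, e2⟩ := exists_pr (k := k) (u : E ⊗[K] B) v
  refine ⟨z, isUnit_of_pr (e1 ▸ u.isUnit) (e2 ▸ v.isUnit), sub_eq_zero.1 (pr_inj ?_ ?_)⟩
  · simp [e1, hu]
  · simp [e2, hv]

end Model

section Bc

variable (k K B) (R E : Type*) [Field R] [Algebra k R] [Field E] [Algebra k E] [Algebra R E]
  [IsScalarTower k R E]

/-- transitivity of base change -/
def bcE : E ⊗[R] BC k K B R ≃ₐ[E] BC k K B E :=
  show E ⊗[R] (R ⊗[k] B) ≃ₐ[E] E ⊗[k] B from AlgEquiv.symm <| AlgEquiv.ofLinearEquiv
    (TensorProduct.AlgebraTensorModule.cancelBaseChange k R E E B).symm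
    (by simp [Algebra.TensorProduct.one_def]) <|
      LinearMap.map_mul_of_map_mul_tmul (fun _ _ _ _ ↦ by simp)

variable {k K B R E}

theorem bcE_one (x : BC k K B R) :
    bcE k K B R E ((1 : E) ⊗ₜ[R] x) = BC.map k K B R (IsScalarTower.toAlgHom k R E) x := by
  refine TensorProduct.induction_on (motive := fun x : BC k K B R => bcE k K B R E ((1 : E) ⊗ₜ[R] x) =
    BC.map k K B R (IsScalarTower.toAlgHom k R E) x) x ?_ (fun r b => ?_) fun x y hx hy => ?_
  · exact (congrArg _ (TensorProduct.tmul_zero _ _)).trans ((map_zero _).trans (map_zero _).symm)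
  · exact (TensorProduct.AlgebraTensorModule.cancelBaseChange_tmul k R E (1 : E) b r).trans
      (by rw [← Algebra.algebraMap_eq_smul_one]; rfl)
  · exact (congrArg _ (TensorProduct.tmul_add _ _ _)).trans ((map_add _ _ _).trans
      ((congrArg₂ _ hx hy).trans (map_add _ _ _).symm))

theorem HR.map {Q : R[X]} {t : BC k K B R} (h : HR Q t) :
    HR (Q.map (algebraMap R E)) (BC.map k K B R (IsScalarTower.toAlgHom k R E) t) :=
  ⟨by rw [← Lan.map_star, h.1], by
    rw [← bcE_one, minpoly.algEquiv_eq, minpoly_one_tmul, h.2]⟩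

end Bc

section Conj

variable {R : Type*} [Field R] [Algebra k R]

/-- a local hermitian root is conjugate to a global root -/
theorem HR.conj {P : k[X]} (hs : P.Separable) {y : B} (hy : rch K y = P.map (algebraMap k K))
    {t : BC k K B R} (h : HR (P.map (algebraMap k R)) t) :
    ∃ z, IsUnit z ∧ z * BC.inc k K B R y = t * z := by
  have : CharZero R := charZero_of_injective_algebraMap (algebraMap k R).injective
  have := finite_kK k K
  let E := AlgebraicClosure R
  letI : Algebra K E := (IsAlgClosed.lift (R := k) (S := K) (M := E)).toRingHom.toAlgebra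
  haveI : IsScalarTower k K E := .of_algebraMap_eq fun c =>
    ((IsAlgClosed.lift (R := k) (S := K) (M := E)).commutes c).symm
  have hd : P.natDegree = deg K B := by
    rw [← natDegree_map (algebraMap k K), ← hy, rch_natDegree]
  have h' := h.map (E := E)
  rw [Polynomial.map_map, ← IsScalarTower.algebraMap_eq] at h'
  have e0 := h'.rch_pr (by rw [natDegree_map, hd])
  have e1 : rch E (pr k K B E (BC.inc k K B E y)) = P.map (algebraMap k E) := by
    rw [rch_pr_inc, hy, Polynomial.map_map, ← IsScalarTower.algebraMap_eq]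
  have e2 : rch E (pr k K B E (star (BC.inc k K B E y))) = P.map (algebraMap k E) := by
    rw [BC.star_inc, rch_pr_inc, T24.rch_star, hy, Polynomial.map_map, Polynomial.map_map]
    congr 1
    ext c
    simp only [RingHom.comp_apply, starRingEnd_apply, Quad.star_k,
      ← IsScalarTower.algebraMap_apply]
  obtain ⟨z, hz, hc⟩ := conj_of_pr (x := BC.inc k K B E y) (e1 ▸ hs.map) (e1.trans e0.symm)
    (e2.trans e1.symm) (by rw [h'.1, e0, e1])
  obtain ⟨u, hu⟩ := conj_of_baseChange (L := E) (fun _ : Unit => BC.inc k K B R y) (fun _ => t)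
    (hz.map (bcE k K B R E).symm) fun _ => (bcE k K B R E).injective (by
      simp only [map_mul, AlgEquiv.apply_symm_apply, bcE_one, Lan.map_inc, hc])
  exact ⟨u, u.isUnit, by rw [hu ()]; simp⟩

theorem HG.hr {P : k[X]} {th : B} (h : HG K P th) (hs : P.Separable) :
    HR (P.map (algebraMap k R)) (BC.inc k K B R th) := by
  have := finite_kK k K
  have := finite_kB k K B
  refine ⟨by rw [BC.star_inc, h.1], (minpoly_one_tmul R th).trans (congrArg _ ?_)⟩
  have h1 : minpoly K th = P.map (algebraMap k K) := by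
    rw [minpoly_eq_rch_of_squarefree (h.2 ▸ hs.map.squarefree), h.2]
  have hm : P.Monic := monic_of_injective (algebraMap k K).injective (h.2 ▸ rch_monic K th)
  refine eq_of_monic_of_associated (minpoly.monic (Algebra.IsIntegral.isIntegral _)) hm
    (associated_of_dvd_dvd (minpoly.dvd _ _ ?_) ?_)
  · rw [← aeval_map_algebraMap K, ← h.2, aeval_rch]
  · rw [← map_dvd_map' (algebraMap k K), ← h1]
    exact minpoly.dvd _ _ (by rw [aeval_map_algebraMap, minpoly.aeval])

end Conj

end Crest.Agent.T24.Emb
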