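import Crest.Agent.T24.EmbB_13
import Crest.Agent.T24.EmbN_13
import Crest.Agent.T24.BcA_98
import Crest.Agent.T24.HilD_56
import Crest.Agent.T24.OpnB_6

/-! Row 24, embedding module, part C (helper13): the local-global principle. -/

set_option autoImplicit false
set_option linter.unusedSectionVars false
set_option linter.style.haveILetI false

noncomputable section

namespace Crest.Agent.T24.Emb

open Module Polynomial Csa Topology Filter NumberField
open Hil (Pc SqP LNP hil unP Lc nm)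
open Asa (Pl below)
open scoped TensorProduct Valued

universe u v w

theorem comm_of_adj {A : Type*} [Ring A] {H H' y y' : A} (hu : IsUnit H) (h : y' * H = H * y)
    (h' : y' * H' = H' * y) : Commute (Ring.inverse H * H') y := by
  refine hu.mul_left_cancel ?_
  rw [mul_assoc, Ring.mul_inverse_cancel_left _ _ hu, ← mul_assoc, ← h, mul_assoc,
    Ring.mul_inverse_cancel_left _ _ hu, h']

theorem ctr_comm {k R B : Type*} [Field k] [Field R] [Algebra k R] [Ring B] [Algebra k B]
    (l : R →ₗ[k] k) {z : R ⊗[k] B} {y : B} (h : z * 1 ⊗ₜ y = 1 ⊗ₜ y * z) :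
    ctr B l z * y = y * ctr B l z := by
  have h1 := ctr_mul l z 1 y
  have h2 := ctr_mul l z y 1
  rw [← Algebra.TensorProduct.one_def, one_mul, one_mul] at h1
  rw [← Algebra.TensorProduct.one_def, mul_one, mul_one] at h2
  rw [← h1, ← h2, h]

variable {k : Type u} {K B : Type*} [Field k] [NumberField k] [Field K] [NumberField K]
  [Algebra k K] [StarRing K] [Quad k K] [Ring B] [StarRing B] [Algebra K B] [StarModule K B]
  [Algebra.IsCentral K B] [IsSimpleRing B] [FiniteDimensional K B] [Algebra k B]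
  [IsScalarTower k K B]

theorem up_rp (φ : k →+* ℝ) : Up (.inr φ) (Rp φ) := up_inr φ

theorem lc_rp (φ : k →+* ℝ) : Lc (.inr φ) (algebraMap k (Rp φ)) := Hil.lc_inr φ

variable (k K B) in
/-- a maximal subfield fixed by the twisted involution -/
structure Fr (L : Type u) [Field L] [Algebra k L] where
  /-- skew scalar -/
  θ : K
  /-- its square -/
  δ : kˣ
  hθ : star θ = -θ
  hδ : θ ^ 2 = algebraMap k K δ
  /-- the embedding -/
  j : L →ₐ[k] B
  /-- the generator -/
  a : L
  /-- the twist -/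
  h : Bˣ
  hh : star (h : B) = h
  /-- its norm -/
  ν : kˣ
  hν : Nrd K (h : B) = algebraMap k K ν
  adj : ∀ l, star (j l) * h = h * j l
  cen : ∀ x, x * j a = j a * x → ∃ l l', x = j l + algebraMap K B θ * j l'
  nrd : ∀ l, Nrd K (j l) = algebraMap k K (Algebra.norm k l)

namespace Fr

variable {L : Type u} [Field L] [NumberField L] [Algebra k L] (F : Fr k K B L)

theorem θ_ne : F.θ ≠ 0 := fun h => by
  have := F.hδ
  rw [h, zero_pow two_ne_zero, eq_comm, _root_.map_eq_zero] at this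
  exact F.δ.ne_zero this

theorem herm (l : L) : star ((F.h : B) * F.j l) = F.h * F.j l := by rw [star_mul, F.hh, F.adj]

theorem unit (c : Lˣ) : IsUnit ((F.h : B) * F.j c) := F.h.isUnit.mul (c.isUnit.map F.j)

section Alg

variable (R : Type*) [Field R] [Algebra k R]

/-- the local embedding -/
def jR : R ⊗[k] L →ₐ[R] BC k K B R := Algebra.TensorProduct.map (AlgHom.id R R) F.j

/-- the skew scalar -/
def t : BC k K B R := BC.inc k K B R (algebraMap K B F.θ)

/-- local data -/
def LD (x : BC k K B R) (c : L) : Prop :=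
  ∃ z : BC k K B R, z * BC.inc k K B R (F.j F.a) = x * z ∧ star z * z = BC.inc k K B R (F.h * F.j c)

variable {R}

theorem jR_tmul (r : R) (l : L) : F.jR R (r ⊗ₜ l) = r • BC.inc k K B R (F.j l) := BC.tm_eq r _

theorem jR_one (l : L) : F.jR R (1 ⊗ₜ l) = BC.inc k K B R (F.j l) := rfl

theorem t_comm (x : BC k K B R) : F.t R * x = x * F.t R := inc_comm _ _

theorem star_t : star (F.t R) = -F.t R := by
  rw [t, BC.star_inc, star_algebraMap, F.hθ, map_neg, map_neg]

theorem t_sq : F.t R * F.t R = F.jR R (1 ⊗ₜ algebraMap k L F.δ) := by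
  rw [jR_one, t, ← map_mul, ← map_mul, ← sq, F.hδ, AlgHom.commutes,
    ← IsScalarTower.algebraMap_apply]

theorem isUnit_t : IsUnit (F.t R) := ((F.θ_ne.isUnit).map _).map _

theorem adjR (x : R ⊗[k] L) :
    star (F.jR R x) * BC.inc k K B R F.h = BC.inc k K B R F.h * F.jR R x := by
  induction x with
  | zero => simp
  | tmul r l => rw [jR_tmul, BC.star_rsmul, BC.star_inc, smul_mul_assoc, mul_smul_comm, ← map_mul,
      ← map_mul, F.adj]
  | add x y hx hy => rw [map_add, star_add, add_mul, mul_add, hx, hy]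

theorem cenR {z : BC k K B R} (hz : z * BC.inc k K B R (F.j F.a) = BC.inc k K B R (F.j F.a) * z) :
    ∃ x x', z = F.jR R x + F.t R * F.jR R x' := by
  obtain ⟨s, c, l, e⟩ := exists_sum_ctr (K := k) (L := R) (B := B) z
  choose a b h using fun i => F.cen (ctr B (l i) z) (ctr_comm (l i) hz)
  refine ⟨∑ i ∈ s, c i ⊗ₜ a i, ∑ i ∈ s, c i ⊗ₜ b i, e.trans ?_⟩
  rw [map_sum, map_sum, Finset.mul_sum, ← Finset.sum_add_distrib]
  refine Finset.sum_congr rfl fun i _ => (BC.tm_eq (K := K) (c i) _).trans ?_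
  rw [h i, jR_tmul, jR_tmul, map_add, map_mul, smul_add, mul_smul_comm, t]

theorem adj_of_conj {x z : BC k K B R} (hx : star x = x)
    (hz : z * BC.inc k K B R (F.j F.a) = x * z) :
    star (BC.inc k K B R (F.j F.a)) * (star z * z) = star z * z * BC.inc k K B R (F.j F.a) := by
  rw [mul_assoc, hz, ← mul_assoc, ← mul_assoc, ← star_mul, hz, star_mul, hx]

theorem exists_jR {x z : BC k K B R} (hx : star x = x)
    (hz : z * BC.inc k K B R (F.j F.a) = x * z) :
    ∃ s, star z * z = BC.inc k K B R F.h * F.jR R s := by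
  have : CharZero R := charZero_of_injective_algebraMap (algebraMap k R).injective
  have hu := F.h.isUnit.map (BC.inc k K B R)
  have h0 : star (BC.inc k K B R F.h) = BC.inc k K B R F.h := by rw [BC.star_inc, F.hh]
  obtain ⟨a, b, e⟩ := F.cenR (comm_of_adj hu (F.adjR (1 ⊗ₜ F.a)) (F.adj_of_conj hx hz))
  replace e := congrArg (BC.inc k K B R F.h * ·) e
  simp only [Ring.mul_inverse_cancel_left _ _ hu, mul_add] at e
  have e' := congrArg star e
  rw [star_mul, star_star, star_add, star_mul, star_mul, star_mul, h0, star_t, adjR,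
    mul_neg, neg_mul, ← t_comm, mul_assoc, adjR, ← mul_assoc, t_comm, mul_assoc] at e'
  refine ⟨a, smul_right_injective _ (two_ne_zero' R) ?_⟩
  simp only [two_smul]
  nth_rw 1 [e]
  rw [e']
  abel

theorem LD.nm {p : Pc k} [TopologicalSpace R] (hp : Lc p (algebraMap k R)) {x : BC k K B R} {c : Lˣ}
    (h : F.LD R x c) : hil p (F.ν * nm k c) F.δ = 1 := by
  obtain ⟨z, -, hz⟩ := h
  have h1 := congrArg (BC.nrdK k K B R) hz
  obtain ⟨a, b, e⟩ := BC.exists_coordE k K R F.θ_ne F.hθ (BC.nrdK k K B R z)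
  rw [map_mul, BC.nrdK_star, BC.nrdK_inc, map_mul, F.hν, F.nrd, ← map_mul, AlgHom.commutes, e,
    star_add, BC.star_algebraMap, BC.star_rsmul, BC.star_inc, F.hθ, map_neg] at h1
  have h2 : BC.inc k K K R F.θ * BC.inc k K K R F.θ =
      algebraMap R (BC k K K R) (algebraMap k R F.δ) := by
    rw [← map_mul, ← sq, F.hδ, AlgHom.commutes, IsScalarTower.algebraMap_apply k R]
  have : Nontrivial (BC k K K R) := (BC.inc_injective k K K R).nontrivial
  refine Hil.hil_eq_one.2 ((hp.nm _ _).2 ⟨a, b, (algebraMap R (BC k K K R)).injective ?_⟩)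
  rw [← IsScalarTower.algebraMap_apply]
  refine h1.symm.trans ?_
  simp only [Algebra.smul_def, map_sub, map_mul, map_pow, ← h2]
  ring

theorem LD.mul {p : Pc k} (hp : Up p R) {x : BC k K B R} {c s : Lˣ} (h : F.LD R x c)
    (hs : ∀ Q : Pc L, unP k Q = p → s / c ∈ LNP (algebraMap k L F.δ) Q) : F.LD R x s := by
  obtain ⟨z, h1, h2⟩ := h
  obtain ⟨a, b, e⟩ := hp.nm hs
  have hc : ∀ x y, F.jR R x * F.jR R y = F.jR R y * F.jR R x := fun x y => by
    rw [← map_mul, mul_comm, map_mul]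
  refine ⟨z * (F.jR R a + F.t R * F.jR R b), ?_, ?_⟩
  · rw [← mul_assoc, ← h1, mul_assoc, mul_assoc, ← jR_one, add_mul, mul_add (F.jR R _), mul_assoc,
      hc a, hc b, ← mul_assoc (F.t R), t_comm, mul_assoc]
  · have e2 : (1 : R) ⊗ₜ[k] (s : L) = 1 ⊗ₜ[k] (c : L) * (a * a - 1 ⊗ₜ algebraMap k L F.δ * (b * b)) := by
      rw [← sq, ← sq, ← e, Algebra.TensorProduct.tmul_mul_tmul, mul_one, ← Units.val_mul,
        mul_div_cancel]
    rw [star_mul, mul_assoc, ← mul_assoc (star z), h2, map_mul, map_mul, ← jR_one, ← jR_one,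
      ← mul_assoc, ← mul_assoc, star_add, star_mul, star_t, add_mul, adjR, mul_neg, neg_mul,
      ← t_comm, mul_assoc (F.t R), adjR, ← mul_assoc (F.t R), t_comm, mul_assoc _ (F.t R),
      ← mul_neg, ← mul_add, mul_assoc, mul_assoc, e2]
    congr 1
    simp only [map_mul, map_sub, ← t_sq]
    generalize hu : F.jR R a = u
    generalize hv : F.jR R b = v
    generalize hw : F.jR R (1 ⊗ₜ (c : L)) = w
    have c1 : Commute u v := hu ▸ hv ▸ hc _ _
    have c2 : Commute u w := hu ▸ hw ▸ hc _ _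
    have c3 : Commute v w := hv ▸ hw ▸ hc _ _
    have c4 : ∀ y, Commute (F.t R) y := F.t_comm
    rw [← mul_assoc, ((c2.add_left ((c4 w).mul_left c3).neg_left)).eq, mul_assoc]
    congr 1
    simp only [add_mul, mul_add, neg_mul, mul_assoc]
    rw [← c1.eq, ← mul_assoc u, ← (c4 u).eq, ← mul_assoc v, ← (c4 v).eq]
    simp only [mul_assoc]
    abel

theorem LD.uc {x : BC k K B R} {s : L} (h : F.LD R x s) {z : Bˣ}
    (hz : (F.h : B) * F.j s = star (z : B) * z) :
    UC (BC.inc k K B R (z * F.j F.a * ↑z⁻¹)) x := by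
  obtain ⟨Z, h1, h2⟩ := h
  have := Opn.dedekind' R (A := BC k K B R)
  have h3 : star (Z * BC.inc k K B R ↑z⁻¹) * (Z * BC.inc k K B R ↑z⁻¹) = 1 := by
    rw [star_mul, mul_assoc, ← mul_assoc (star Z), h2, hz, BC.star_inc, ← map_mul, ← map_mul,
      mul_assoc, Units.mul_inv, mul_one, ← star_mul, Units.mul_inv, star_one, map_one]
  refine ⟨⟨_, h3, mul_eq_one_symm h3⟩, ?_⟩
  change Z * _ * _ = x * (Z * _)
  rw [← mul_assoc x, ← h1, mul_assoc Z, mul_assoc Z, ← map_mul, ← map_mul]
  simp [mul_assoc]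

end Alg

theorem exists_LD {R : Type*} [NontriviallyNormedField R] [CompleteSpace R] [Algebra k R]
    (hR : DenseRange (algebraMap k R)) {x z : BC k K B R} (hx : star x = x) (hu : IsUnit z)
    (hz : z * BC.inc k K B R (F.j F.a) = x * z) : ∃ c : Lˣ, F.LD R x c := by
  have : CharZero R := charZero_of_injective_algebraMap (algebraMap k R).injective
  have : FiniteDimensional k L := Module.Finite.of_restrictScalars_finite ℚ k L
  have : Nontrivial (BC k K B R) := (BC.inc_injective k K B R).nontrivial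
  obtain ⟨s, hs⟩ := F.exists_jR hx hz
  have hA : Opn.AntiL R (Lan.stA (BC k K B R)) := ⟨⟨star_mul, star_star⟩, BC.star_algebraMap⟩
  have hH : IsUnit (star z * z) := hu.star.mul hu
  have h1 := hA.cong_near two_ne_zero hH (ε := 1) Commute.one_left (by simp) univ_mem
  let e := finBasis k L
  let g : (Fin (finrank k L) → R) → BC k K B R := fun r =>
    BC.inc k K B R F.h * ∑ i, r i • BC.inc k K B R (F.j (e i))
  have hg : Continuous g := by fun_prop
  have h2 : g ((Algebra.TensorProduct.basis R e).repr s) = star z * z := by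
    rw [hs]
    conv_rhs => rw [← (Algebra.TensorProduct.basis R e).sum_repr s]
    simp only [g, map_sum, map_smul, Algebra.TensorProduct.basis_apply, jR_one]
  obtain ⟨c, hc⟩ := (DenseRange.piMap fun _ : Fin (finrank k L) => hR).mem_nhds
    (hg.continuousAt.preimage_mem_nhds ((congrArg 𝓝 h2).le h1))
  have h3 : g (Pi.map (fun _ => algebraMap k R) c) = BC.inc k K B R (F.h * F.j (∑ i, c i • e i)) := by
    simp only [g, map_sum, map_mul, map_smul, Pi.map_apply, algebraMap_smul]
  rw [Set.mem_preimage, h3] at hc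
  obtain ⟨n, hn, -, hnu, -, h4⟩ := hc (by rw [one_mul, Lan.stA_apply, BC.star_inc, F.herm])
  rw [Lan.stA_apply] at h4
  have h5 : ∑ i, c i • e i ≠ 0 := fun h => by
    rw [h, map_zero, mul_zero, map_zero] at h4
    exact ((hnu.star.mul hH).mul hnu).ne_zero h4
  have h6 := comm_of_adj hH (F.adj_of_conj hx hz)
    (H' := BC.inc k K B R (F.h * F.j (∑ i, c i • e i))) (by
      rw [BC.star_inc, ← map_mul, ← map_mul, ← mul_assoc, F.adj, mul_assoc, mul_assoc, ← map_mul,
        mul_comm F.a, map_mul F.j])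
  have h7 : Commute n (BC.inc k K B R (F.j F.a)) :=
    Algebra.commute_of_mem_adjoin_singleton_of_commute hn h6.symm |>.symm
  refine ⟨Units.mk0 _ h5, z * n, ?_, ?_⟩
  · rw [mul_assoc, h7.eq, ← mul_assoc, hz, mul_assoc]
  · rw [Units.val_mk0, ← h4, star_mul]
    simp only [mul_assoc]

/-- the global step -/
theorem core (S : Finset (Pl k)) (x : ∀ v : Pl k, BC k K B (Kv v))
    (xr : ∀ φ : k →+* ℝ, BC k K B (Rp φ)) (c : Pc k → Lˣ) (hc : ∀ v ∉ S, c (.inl v) = 1)
    (hv : ∀ v, F.LD _ (x v) (c (.inl v))) (hφ : ∀ φ, F.LD _ (xr φ) (c (.inr φ))) :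
    ∃ z : Bˣ, star (z * F.j F.a * ↑z⁻¹) = z * F.j F.a * ↑z⁻¹ ∧
      (∀ v, UC (BC.inc k K B _ (z * F.j F.a * ↑z⁻¹)) (x v)) ∧
      ∀ φ, UC (BC.inc k K B _ (z * F.j F.a * ↑z⁻¹)) (xr φ) := by
  classical
  choose T hT using fun p => Hil.exists_fibre (F := k) (E := L) p
  have h1 : ∀ p, hil p (F.ν * nm k (c p)) F.δ = 1 := by
    rintro (v | φ)
    exacts [(hv v).nm F (Hil.lc_inl v), (hφ φ).nm F (lc_rp φ)]
  have h0 : ∀ p, p ∉ Hil.full S → c p = 1 := by
    rintro (v | φ) h
    exacts [hc v (by simpa using h), absurd Hil.inr_mem_full h]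
  have h2 : ∏ Q ∈ (Hil.full S).biUnion T, hil Q (c (unP k Q)) (Hn.io k L F.δ) = 1 := by
    rw [Finset.prod_biUnion fun p _ q _ hpq => Finset.disjoint_left.2 fun Q h h' =>
      hpq (((hT p Q).1 h).symm.trans ((hT q Q).1 h')),
      ← Hil.recStmt k F.ν F.δ (Hil.full S) fun p hp => by simpa [h0 p hp] using h1 p]
    refine Finset.prod_congr rfl fun p _ => ?_
    rw [Finset.prod_congr rfl fun Q hQ => by rw [(hT p Q).1 hQ], ← Hil.nrmStmt k L p _ _ _ (hT p)]
    have := h1 p
    rw [Hil.hil_mul_left, mul_eq_one_iff_inv_eq, Int.units_inv_eq_self] at this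
    exact this.symm
  obtain ⟨s, hs, hs'⟩ := Hil.preStmt L _ _ _ h2
  have h3 : ∀ Q : Pc L, s / c (unP k Q) ∈ LNP (algebraMap k L F.δ) Q := fun Q => by
    by_cases h : unP k Q ∈ Hil.full S
    · exact Subgroup.mem_sup_right (hs Q (Finset.mem_biUnion.2 ⟨_, h, (hT _ _).2 rfl⟩))
    · rw [h0 _ h, div_one]
      refine (Hil.hil_eq_one (b := Hn.io k L F.δ)).1 (hs' Q fun h' => h ?_)
      obtain ⟨p, hp, hQ⟩ := Finset.mem_biUnion.1 h'
      rwa [(hT p Q).1 hQ]
  have h3' : ∀ p (Q : Pc L), unP k Q = p → s / c p ∈ LNP (algebraMap k L F.δ) Q := by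
    rintro _ Q rfl; exact h3 Q
  have hv' : ∀ v, F.LD (Kv v) (x v) s := fun v =>
    LD.mul (c := c (.inl v)) F (up_inl v) (hv v) (h3' (.inl v))
  have hφ' : ∀ φ, F.LD (Rp φ) (xr φ) s := fun φ =>
    LD.mul (c := c (.inr φ)) F (up_rp φ) (hφ φ) (h3' (.inr φ))
  obtain ⟨z, hz⟩ := Lan.landherr (k := k) K (F.herm s) (F.unit s)
    (fun v => (hv' v).imp fun _ h => h.2.symm) fun φ => (hφ' φ).imp fun _ h => h.2.symm
  have := Opn.dedekind' K (A := B)
  obtain ⟨z, rfl⟩ : IsUnit z := isUnit_of_mul_isUnit_right (hz ▸ F.unit s)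
  refine ⟨z, ?_, fun v => (hv' v).uc F hz, fun φ => (hφ' φ).uc F hz⟩
  have h4 : star (F.j F.a) * (star (z : B) * z) = star (z : B) * z * F.j F.a := by
    rw [← hz, ← mul_assoc, F.adj, mul_assoc, mul_assoc, ← map_mul, mul_comm, map_mul]
  rw [star_mul, star_mul, Units.eq_mul_inv_iff_mul_eq, mul_assoc, mul_assoc, h4, mul_assoc,
    ← mul_assoc, ← star_mul, Units.mul_inv, star_one, one_mul]

end Fr

theorem HG.natDegree {P : k[X]} {y : B} (hy : rch K y = P.map (algebraMap k K)) :
    P.natDegree = deg K B := by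
  rw [← natDegree_map (algebraMap k K), ← hy, rch_natDegree]

theorem HG.monic {P : k[X]} {y : B} (hy : rch K y = P.map (algebraMap k K)) : P.Monic :=
  monic_of_injective (algebraMap k K).injective (hy ▸ rch_monic K y)

include K in
theorem adj_aeval {y h : B} (hy : star y * h = h * y) (f : k[X]) :
    star (aeval y f) * h = h * aeval y f :=
  Opn.AntiL.adj (F := k) (τ := Lan.stA B) ⟨⟨star_mul, star_star⟩, fun c => by
    rw [Lan.stA_apply, Algebra.algebraMap_eq_smul_one, star_ksmul k K B, star_one]⟩ hy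
    (aeval_mem_adjoin_singleton k y)

theorem nrd_aeval {P : k[X]} [hP : Fact (Irreducible P)] {y : B}
    (hy : rch K y = P.map (algebraMap k K)) (f : k[X]) :
    Nrd K (aeval y f) = algebraMap k K (Algebra.norm k (AdjoinRoot.mk P f)) := by
  let pb := AdjoinRoot.powerBasis hP.out.ne_zero
  have := pb.finite
  have : Nonempty (Fin (deg K B)) := ⟨⟨0, deg_pos K B⟩⟩
  let Ω := AlgebraicClosure K
  let e : Basis (Fin (deg K B)) k (AdjoinRoot P) :=
    finBasisOfFinrankEq k _ (pb.finrank.trans (HG.natDegree hy))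
  let ψ : AdjoinRoot P →ₐ[k] Matrix (Fin (deg K B)) (Fin (deg K B)) Ω :=
    (Algebra.ofId k Ω).mapMatrix.comp (Algebra.leftMulMatrix e)
  have h1 : (Algebra.leftMulMatrix e (AdjoinRoot.root P)).charpoly = P := by
    refine eq_of_monic_of_dvd_of_natDegree_le (HG.monic hy) (Matrix.charpoly_monic _)
      (AdjoinRoot.mk_eq_zero.1 (Algebra.leftMulMatrix_injective e ?_))
      (by rw [Matrix.charpoly_natDegree_eq_dim, Fintype.card_fin, HG.natDegree hy])
    rw [← AdjoinRoot.aeval_eq, ← aeval_algHom_apply, Matrix.aeval_self_charpoly, map_zero]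
  have h2 : rch Ω (sp K B y) = P.map (algebraMap k Ω) := by
    rw [rch_mat, sp_charpoly, hy, Polynomial.map_map, ← IsScalarTower.algebraMap_eq]
  have h3 : rch Ω (ψ (AdjoinRoot.root P)) = P.map (algebraMap k Ω) := by
    rw [rch_mat]
    exact (Matrix.charpoly_map _ (algebraMap k Ω)).trans (congrArg _ h1)
  obtain ⟨u, hu⟩ := conj_of_rch_eq (h2 ▸ hP.out.separable.map.squarefree) (h2.trans h3.symm)
  have h4 : ψ (AdjoinRoot.mk P f) = u.val * sp K B (aeval y f) * u⁻¹.val := by
    rw [← AdjoinRoot.aeval_eq, ← aeval_algHom_apply, hu]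
    exact (aeval_algHom_apply ((MulSemiringAction.toAlgHom k _ (ConjAct.toConjAct u))) _ f).trans
      (congrArg (fun z => u.val * z * u⁻¹.val)
        (aeval_algHom_apply ((sp K B).restrictScalars k) y f))
  apply (algebraMap K Ω).injective
  rw [← det_eq (sp K B) sp_card, ← Matrix.det_units_conj u, ← h4, ← IsScalarTower.algebraMap_apply,
    Algebra.norm_eq_matrix_det e]
  exact ((algebraMap k Ω).map_det _).symm

theorem exists_fr {P : k[X]} [hP : Fact (Irreducible P)] {y : B}
    (hy : rch K y = P.map (algebraMap k K)) (h : Bˣ) (hh : star (h : B) = h)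
    (ha : star y * h = h * y) : ∃ F : Fr k K B (AdjoinRoot P), F.j F.a = y ∧ F.h = h := by
  obtain ⟨θ, δ, hθ, hδ⟩ := Lan.exists_theta Quad.fr (sig_ne k K)
  have hfix : ∀ c : K, star c = c → ∃ a : k, algebraMap k K a = c := fun c =>
    exists_of_star_eq Quad.fr Quad.star_k (Quad.ne (k := k))
  obtain ⟨ν, hν⟩ := hfix (Nrd K (h : B)) (by rw [← T24.Nrd_star, hh])
  have hν0 : ν ≠ 0 := fun h0 => (isUnit_iff_Nrd (K := K) _).1 h.isUnit (by rw [← hν, h0, map_zero])
  have hθ0 : θ ≠ 0 := fun h => by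
    rw [h, zero_pow two_ne_zero, eq_comm, _root_.map_eq_zero] at hδ
    exact δ.ne_zero hδ
  let j : AdjoinRoot P →ₐ[k] B := Ideal.Quotient.liftₐ _ (aeval y) fun q hq => by
    obtain ⟨c, rfl⟩ := Ideal.mem_span_singleton.1 hq
    rw [map_mul, ← aeval_map_algebraMap K y P, ← hy, aeval_rch, zero_mul]
  have hj : ∀ f, j (AdjoinRoot.mk P f) = aeval y f := fun _ => rfl
  have hy' : j (AdjoinRoot.root P) = y := (hj X).trans (aeval_X y)
  refine ⟨⟨θ, δ, hθ, hδ, j, AdjoinRoot.root P, h, hh, Units.mk0 ν hν0, hν.symm, fun l => ?_,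
    fun x hx => ?_, fun l => ?_⟩, hy', rfl⟩
  · obtain ⟨f, rfl⟩ := AdjoinRoot.mk_surjective l
    exact adj_aeval (K := K) ha f
  · rw [hy'] at hx
    obtain ⟨q, -, rfl⟩ := exists_aeval_of_commute
      (regular_of_squarefree (hy ▸ hP.out.separable.map.squarefree)) hx.symm
    clear hx
    induction q using Polynomial.induction_on' with
    | add p q hp hq =>
      obtain ⟨a, b, h1⟩ := hp
      obtain ⟨a', b', h2⟩ := hq
      exact ⟨a + a', b + b', by rw [map_add, h1, h2, map_add, map_add, mul_add]; abel⟩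
    | monomial n c =>
      obtain ⟨a, b, rfl⟩ := exists_coord (k := k) Quad.fr Quad.star_k hθ0 hθ c
      refine ⟨AdjoinRoot.mk P (monomial n a), AdjoinRoot.mk P (monomial n b), ?_⟩
      simp only [hj, aeval_monomial, map_add, map_mul, mul_comm _ θ, mul_assoc,
        ← IsScalarTower.algebraMap_apply]
  · obtain ⟨f, rfl⟩ := AdjoinRoot.mk_surjective l
    exact nrd_aeval hy f

theorem numberField_root (P : k[X]) [hP : Fact (Irreducible P)] : NumberField (AdjoinRoot P) :=
  have := (AdjoinRoot.powerBasis hP.out.ne_zero).finite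
  NumberField.of_module_finite k _

theorem HG.conj {P : k[X]} {y : B} (hy : rch K y = P.map (algebraMap k K)) {z : Bˣ}
    (h : star (z * y * ↑z⁻¹) = z * y * ↑z⁻¹) : HG K P (z * y * ↑z⁻¹) :=
  ⟨h, by rw [rch_units_conj, hy]⟩

section UC
variable {R : Type*} [CommRing R] [Algebra k R] {x y z : BC k K B R}

theorem UC.refl (x : BC k K B R) : UC x x := ⟨1, by simp⟩

theorem UC.symm (h : UC x y) : UC y x := by
  obtain ⟨u, hu⟩ := h
  refine ⟨star u, ?_⟩
  rw [Unitary.coe_star, ← mul_one (star (u : BC k K B R) * y), ← u.2.2, ← mul_assoc, mul_assoc _ y,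
    ← hu, ← mul_assoc, u.2.1, one_mul]

theorem UC.trans (h : UC x y) (h' : UC y z) : UC x z := by
  obtain ⟨u, hu⟩ := h
  obtain ⟨v, hv⟩ := h'
  exact ⟨v * u, by rw [Submonoid.coe_mul, mul_assoc, hu, ← mul_assoc, hv, mul_assoc]⟩

theorem UC.glob (g : unitary B) (b : B) :
    UC (BC.inc k K B R b) (BC.inc k K B R (g * b * star (g : B))) :=
  ⟨toU k K B R g, by rw [coe_toU, ← map_mul, ← map_mul, mul_assoc, g.2.1, mul_one]⟩

theorem UC.nhds [TopologicalSpace R] [IsTopologicalRing R] {u : Uc k K B R}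
    (h : (u : BC k K B R) * x = y * u) {V : Set (BC k K B R)} (hV : V ∈ 𝓝 y) :
    {g : Uc k K B R | (g : BC k K B R) * x * star (g : BC k K B R) ∈ V} ∈ 𝓝 u := by
  have hc : Continuous fun g : Uc k K B R => (g : BC k K B R) * x * star (g : BC k K B R) := by
    fun_prop
  exact hc.continuousAt.preimage_mem_nhds (by rwa [h, mul_assoc, u.2.2, mul_one])

end UC

theorem dense_rp (φ : k →+* ℝ) : DenseRange (algebraMap k (Rp φ)) := Lan.dense_real φ

theorem embMod_of (hW : WaU k K B) : EmbMod k K B := by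
  classical
  intro P th hP hth S t V tr W hS hr
  have := Fact.mk hP
  have := numberField_root P
  obtain ⟨F, hF, hF1⟩ := exists_fr hth.2 1 (star_one B) (by simp [hth.1])
  have h1 : ∀ v : Pl k, ∃ c : (AdjoinRoot P)ˣ, (v ∉ S → c = 1) ∧
      F.LD (Kv v) (if v ∈ S then t v else BC.inc k K B _ th) c := fun v => by
    by_cases hv : v ∈ S
    · obtain ⟨z, hz, hc⟩ := (hS v hv).1.conj hP.separable hth.2
      obtain ⟨c, hc⟩ := F.exists_LD (v.denseRange_algebraMap k) (hS v hv).1.1 hz (hF ▸ hc)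
      exact ⟨c, fun h => absurd hv h, by rwa [if_pos hv]⟩
    · exact ⟨1, fun _ => rfl, 1, by simp [hv, hF], by simp [hF1]⟩
  have h2 : ∀ φ : k →+* ℝ, ∃ c : (AdjoinRoot P)ˣ, F.LD (Rp φ) (tr φ) c := fun φ => by
    obtain ⟨z, hz, hc⟩ := (hr φ).1.conj hP.separable hth.2
    exact F.exists_LD (dense_rp φ) (hr φ).1.1 hz (hF ▸ hc)
  choose c hc hc' using h1
  choose c' hc'' using h2
  obtain ⟨z, hz, hv, hφ⟩ := F.core S _ tr (Sum.elim c c') hc hc' hc''
  rw [hF] at hz hv hφ
  choose u hu using id hv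
  choose u' hu' using id hφ
  obtain ⟨g, hg, hg'⟩ := hW S u _ u' _
    (fun v hv => UC.nhds (hu v) (V := V v) (by rw [if_pos hv]; exact (hS v hv).2))
    fun φ => UC.nhds (hu' φ) (hr φ).2
  refine ⟨g * (z * th * ↑z⁻¹) * star (g : B), ⟨?_, ?_⟩, fun v h => ⟨?_, ?_⟩, fun φ => ⟨?_, ?_⟩,
    fun v h => ?_⟩
  · rw [star_mul, star_mul, hz, star_star, mul_assoc (g : B)]
  · rw [rch_conj g.2.1, rch_units_conj, hth.2]
  · simpa using hg v h
  · simpa only [if_pos h] using (UC.glob g _).symm.trans (hv v)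
  · simpa using hg' φ
  · exact (UC.glob g _).symm.trans (hφ φ)
  · simpa only [if_neg h] using (UC.glob g _).symm.trans (hv v)

theorem HR.rch_up {P : k[X]} (hd : P.natDegree = deg K B) {R : Type*} [Field R] [Algebra k R]
    {t : BC k K B R} (h : HR (P.map (algebraMap k R)) t) (E : Type*) [Field E] [Algebra k E]
    [Algebra K E] [IsScalarTower k K E] (f : R →ₐ[k] E) :
    ∃ z : E ⊗[K] B, rch E z = (P.map (algebraMap k K)).map (algebraMap K E) := by
  letI : Algebra R E := f.toRingHom.toAlgebra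
  haveI : IsScalarTower k R E := .of_algebraMap_eq fun c => (f.commutes c).symm
  refine ⟨_, ((h.map (E := E)).rch_pr (by rw [natDegree_map, natDegree_map, hd])).trans ?_⟩
  rw [Polynomial.map_map, Polynomial.map_map, ← IsScalarTower.algebraMap_eq,
    ← IsScalarTower.algebraMap_eq]

theorem embEx_of (hA : LocAe k K B) : EmbEx k K B := by
  classical
  intro P hm hP hd hv hr
  have := Fact.mk hP
  have := numberField_root P
  choose t ht using hv
  choose tr htr using hr
  obtain ⟨y, -, hy⟩ := Hsm.interp_loc (finrank_eq_deg_sq K B) (hm.map (algebraMap k K))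
    (by rw [natDegree_map, hd]) hP.separable.map
    (fun w => Or.inr ((ht (below k w)).rch_up hd _ (Hsm.cmap k w))) fun ρ => by
      letI : Algebra K (Rp (ρ.comp (algebraMap k K))) := RingHom.toAlgebra (S := Rp _) ρ
      haveI : IsScalarTower k K (Rp (ρ.comp (algebraMap k K))) := .of_algebraMap_eq fun _ => rfl
      obtain ⟨z, hz⟩ := (htr (ρ.comp (algebraMap k K))).rch_up hd _ (AlgHom.id k _)
      refine or_iff_not_imp_right.2 fun h => ?_
      obtain ⟨a, ha⟩ := not_forall_not.1 h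
      exact (Hsm.spl_of_root (y := z) (f := RingHom.id _)
        (by rw [finrank_baseChange, finrank_eq_deg_sq K B]) (hz ▸ hP.separable.map.map) (a := a)
        (by rw [hz, Polynomial.map_id]; exact ha)).of_bc
  obtain ⟨g, hg⟩ := conj_of_rch_eq (x := y) (y := star y) (hy ▸ hP.separable.map.squarefree) (by
    rw [T24.rch_star, hy, Polynomial.map_map]
    congr 1
    ext c
    exact (Quad.star_k c).symm)
  let W : Submodule K B :=
    { carrier := {h | star y * h = h * y}
      add_mem' := fun ha hb => by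
        simp only [Set.mem_ofPred_eq] at *; rw [mul_add, add_mul, ha, hb]
      zero_mem' := by simp
      smul_mem' := fun c h ha => by
        simp only [Set.mem_ofPred_eq] at *; rw [mul_smul_comm, smul_mul_assoc, ha] }
  obtain ⟨_, hW, hh, h, rfl⟩ := exists_herm_unit (Quad.ne (k := k) (K := K)) W
    (fun h ha => by
      have := congrArg star (show star y * h = h * y from ha)
      rw [star_mul, star_mul, star_star] at this
      exact this.symm) (z := g) (show star y * g = g * y by rw [hg]; simp) g.isUnit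
  obtain ⟨F, hF, hF1⟩ := exists_fr hy h hh hW
  have hfin := hA h hh h.isUnit
  rw [eventually_cofinite] at hfin
  have h1 : ∀ v : Pl k, ∃ (x : BC k K B (Kv v)) (c : (AdjoinRoot P)ˣ),
      (v ∉ hfin.toFinset → c = 1) ∧ F.LD (Kv v) x c := fun v => by
    by_cases hv : v ∈ hfin.toFinset
    · obtain ⟨z, hz, hc⟩ := (ht v).conj hP.separable hy
      obtain ⟨c, hc⟩ := F.exists_LD (v.denseRange_algebraMap k) (ht v).1 hz (hF ▸ hc)
      exact ⟨_, c, fun h => absurd hv h, hc⟩
    · obtain ⟨Z, hZ⟩ : ∃ Z : BC k K B (Kv v), BC.inc k K B _ h = star Z * Z := by simpa using hv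
      have := Opn.dedekind' (Kv v) (A := BC k K B (Kv v))
      obtain ⟨Z, rfl⟩ : IsUnit Z := isUnit_of_mul_isUnit_right (hZ ▸ h.isUnit.map _)
      exact ⟨Z.val * BC.inc k K B _ y * Z⁻¹.val, 1, fun _ => rfl, Z, by simp [hF], by simp [hF1, hZ]⟩
  have h2 : ∀ φ : k →+* ℝ, ∃ c : (AdjoinRoot P)ˣ, F.LD (Rp φ) (tr φ) c := fun φ => by
    obtain ⟨z, hz, hc⟩ := (htr φ).conj hP.separable hy
    exact F.exists_LD (dense_rp φ) (htr φ).1 hz (hF ▸ hc)
  choose x c hc hc' using h1
  choose c' hc'' using h2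
  obtain ⟨z, hz, -⟩ := F.core _ x tr (Sum.elim c c') hc hc' hc''
  rw [hF] at hz
  exact ⟨_, HG.conj hy hz⟩

end Crest.Agent.T24.Emb
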