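import Crest.Agent.T24.LocC_59
import Crest.Agent.T24.HnLocD_73
import Crest.Agent.T24.LanA_73

/-! Row 24, embedding module (helper22): symmetric companion matrices, unit norms. -/

set_option autoImplicit false
set_option linter.unusedSectionVars false
set_option linter.style.haveILetI false

noncomputable section

namespace Crest.Agent.T24.Emb.L22

open Module Polynomial Matrix

/-- a matrix with given minimal polynomial, self-adjoint for a unimodular symmetric form -/
theorem exists_sym {F : Type*} [NontriviallyNormedField F] {Q : F[X]} (hQ : Q.Monic) {d : ℕ}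
    (hd : Q.natDegree = d) (h0 : 0 < d) : ∃ y S : Matrix (Fin d) (Fin d) F, minpoly F y = Q ∧
      Sᵀ = S ∧ S * y = yᵀ * S ∧ (∀ i j, ‖S i j‖ ≤ 1) ∧ ‖S.det‖ = 1 := by
  subst hd
  let L := AdjoinRoot Q
  let T : L := AdjoinRoot.root Q
  let b : Basis (Fin Q.natDegree) F L := (AdjoinRoot.powerBasis' hQ).basis
  have hb : ∀ i, b i = T ^ (i : ℕ) := (AdjoinRoot.powerBasis' hQ).basis_eq_pow
  let n := Q.natDegree - 1
  have hn : n < Q.natDegree := Nat.sub_lt h0 one_pos
  let l : L →ₗ[F] F := b.coord ⟨n, hn⟩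
  have hl : ∀ m, m ≤ n → l (T ^ m) = if m = n then 1 else 0 := fun m hm => by
    have := hb ⟨m, hm.trans_lt hn⟩
    rw [← this]
    simp [l, Finsupp.single_apply, Fin.ext_iff]
  let M : ℝ := 1 + ∑ p : Fin Q.natDegree × Fin Q.natDegree, ‖l (T ^ (p.1 + p.2 : ℕ))‖
  have hM1 : 1 ≤ M := le_add_of_nonneg_right (Finset.sum_nonneg fun _ _ => norm_nonneg _)
  have hM : ∀ i j : Fin Q.natDegree, ‖l (T ^ (i + j : ℕ))‖ ≤ M := fun i j =>
    (Finset.single_le_sum (f := fun p : Fin Q.natDegree × Fin Q.natDegree =>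
      ‖l (T ^ (p.1 + p.2 : ℕ))‖) (fun _ _ => norm_nonneg _) (Finset.mem_univ (i, j))).trans
      (le_add_of_nonneg_left zero_le_one)
  obtain ⟨c, hc0, hc⟩ := NormedField.exists_norm_lt F (inv_pos.2 (one_pos.trans_le hM1))
  have hc1 : ‖c‖ ≤ 1 := hc.le.trans (inv_le_one_of_one_le₀ hM1)
  have hc2 : c ≠ 0 := norm_pos_iff.1 hc0
  let b' := b.unitsSMul fun i => Units.mk0 c hc2 ^ (i : ℕ)
  let β : LinearMap.BilinForm F L := (LinearMap.mul F L).compr₂ ((c ^ n)⁻¹ • l)
  let S := LinearMap.BilinForm.toMatrix b' β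
  have hS : ∀ i j, S i j = c ^ (i + j : ℕ) / c ^ n * l (T ^ (i + j : ℕ)) := fun i j => by
    simp only [S, β, b', LinearMap.BilinForm.toMatrix_apply, Basis.unitsSMul_apply, hb,
      Units.smul_def, Units.val_pow_eq_pow_val, Units.val_mk0, LinearMap.compr₂_apply,
      LinearMap.mul_apply', map_smul, LinearMap.smul_apply, smul_eq_mul,
      pow_add]
    ring
  refine ⟨Algebra.leftMulMatrix b' T, S, ?_, ?_, ?_, fun i j => ?_, ?_⟩
  · rw [minpoly.algHom_eq _ (Algebra.leftMulMatrix_injective b')]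
    exact AdjoinRoot.minpoly_powerBasis_gen_of_monic hQ
  · ext i j; rw [transpose_apply, hS, hS, add_comm]
  · rw [Algebra.leftMulMatrix_apply, ← LinearMap.BilinForm.toMatrix_compRight,
      ← LinearMap.BilinForm.toMatrix_compLeft]
    congr 1
    ext x y
    simp [β, mul_comm, mul_left_comm]
  · rw [hS]
    rcases le_or_gt (i + j : ℕ) n with h | h
    · rw [hl _ h]
      split_ifs with h1
      · simp [h1, hc2]
      · simp
    · obtain ⟨m, hm⟩ := Nat.exists_eq_add_of_lt h
      have : c ^ (i + j : ℕ) / c ^ n = c ^ m * c := by rw [hm]; field_simp; ring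
      rw [this, norm_mul, norm_mul, norm_pow, mul_assoc]
      refine mul_le_one₀ (pow_le_one₀ hc0.le hc1) (by positivity) ?_
      refine (mul_le_mul hc.le (hM i j) (norm_nonneg _) (by positivity)).trans_eq ?_
      exact inv_mul_cancel₀ (by positivity)
  · have h1 := det_permute' Fin.revPerm S
    rw [det_of_isLowerTriangular _ (fun i j hij => ?_), Finset.prod_eq_one fun i _ => ?_] at h1
    · have := congrArg norm h1
      rcases Int.units_eq_one_or (Equiv.Perm.sign (Fin.revPerm (n := Q.natDegree))) with h | h <;>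
        simpa [h] using this.symm
    · have : (i + (Fin.rev i : ℕ) : ℕ) = n := by simp only [Fin.val_rev, n]; omega
      simp only [submatrix_apply, id, Fin.revPerm_apply, hS]
      rw [hl _ this.le, if_pos this, this, div_self (pow_ne_zero _ hc2), mul_one]
    · have hij' : (i : ℕ) < j := hij
      have : (i + (Fin.rev j : ℕ) : ℕ) < n := by simp only [Fin.val_rev, n]; omega
      simp only [submatrix_apply, id, Fin.revPerm_apply, hS]
      rw [hl _ this.le, if_neg this.ne, mul_zero]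

section Unit
variable {L : Type*} [NormedField L] [IsUltrametricDist L]

theorem sq_of_near [CompleteSpace L] (h2 : ‖(2 : L)‖ = 1) {u a : L} (ha : ‖u - a‖ < ‖a‖) :
    ∃ s, u = a * s ^ 2 := by
  have h0 : a ≠ 0 := norm_pos_iff.1 ((norm_nonneg _).trans_lt ha)
  have h3 : (2 : L) ≠ 0 := norm_pos_iff.1 (h2 ▸ one_pos)
  obtain ⟨t, ht⟩ := Hn.Loc.exists_sq_add (c := (u - a) / (2 ^ 2 * a)) (by
    rwa [norm_div, norm_mul, norm_pow, h2, one_pow, one_mul, div_lt_one (norm_pos_iff.2 h0)])
  refine ⟨1 + 2 * t, ?_⟩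
  field_simp at ht
  linear_combination -ht

/-- units are norms from an unramified quadratic algebra -/
theorem unit_norm [ProperSpace L] (h2 : ‖(2 : L)‖ = 1) {δ u : L} (hδ : ‖δ‖ = 1) (hu : ‖u‖ = 1) :
    ∃ x y, u = x ^ 2 - δ * y ^ 2 := by
  let O := Loc.OO L
  let κ := O ⧸ Loc.PP L
  letI : CommRing κ := Ideal.Quotient.commRing _
  letI : Field κ := (Finite.isField_of_domain κ).toField
  letI : Fintype κ := Fintype.ofFinite _
  let π := Ideal.Quotient.mk (Loc.PP L)
  have hchar : ringChar κ ≠ 2 := fun h => by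
    have h1 := ringChar.Nat.cast_ringChar (R := κ)
    rw [h] at h1
    have h3 : π 2 = π 0 := by rw [map_ofNat, map_zero]; exact_mod_cast h1
    have := Loc.mk_eq_iff.1 h3
    simp only [ZeroMemClass.coe_zero, sub_zero] at this
    exact this.ne h2
  let δ' : O := ⟨δ, hδ.le⟩
  let u' : O := ⟨u, hu.le⟩
  have hd2 : -π δ' ≠ 0 := neg_ne_zero.2 fun h => by
    have := (Loc.mk_eq_iff (y := 0)).1 h
    simp only [ZeroMemClass.coe_zero, sub_zero] at this
    exact this.ne hδ
  obtain ⟨x, y, hxy⟩ := FiniteField.exists_root_sum_quadratic (R := κ) (f := X ^ 2 - C (π u'))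
    (g := C (-π δ') * X ^ 2) (degree_X_pow_sub_C two_pos _) (degree_C_mul_X_pow 2 hd2)
    (FiniteField.odd_card_of_char_ne_two hchar)
  obtain ⟨x, rfl⟩ := Ideal.Quotient.mk_surjective x
  obtain ⟨y, rfl⟩ := Ideal.Quotient.mk_surjective y
  have h3 : π u' = π (x ^ 2 - δ' * y ^ 2) := by
    simp only [eval_sub, eval_pow, eval_X, eval_C, eval_mul] at hxy
    simp only [map_sub, map_pow, map_mul]
    linear_combination -hxy
  have h4 : ‖u - ((x : L) ^ 2 - δ * (y : L) ^ 2)‖ < 1 := by simpa using Loc.mk_eq_iff.1 h3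
  have h5 : ‖(x : L) ^ 2 - δ * (y : L) ^ 2‖ = ‖u‖ :=
    Loc.norm_eq_of_lt (by rwa [norm_sub_rev, hu])
  obtain ⟨s, hs⟩ := sq_of_near h2 (h4.trans_eq (h5.trans hu).symm)
  exact ⟨x * s, y * s, by rw [hs]; ring⟩

theorem norm_root {f : L[X]} (hf : f.Monic) (h1 : ∀ i, ‖f.coeff i‖ ≤ 1) (h0 : ‖f.coeff 0‖ = 1)
    {l : L} (hl : f.eval l = 0) : ‖l‖ = 1 := by
  refine le_antisymm (not_lt.1 fun h => ?_) (not_lt.1 fun h => ?_)
  · rw [eval_eq_sum_range, Finset.sum_range_succ, hf.coeff_natDegree, one_mul,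
      add_eq_zero_iff_eq_neg] at hl
    have h2 : ‖l‖ ^ f.natDegree ≤ ‖l‖ ^ f.natDegree / ‖l‖ := by
      conv_lhs => rw [← norm_pow, ← norm_neg, ← hl]
      refine IsUltrametricDist.norm_sum_le_of_forall_le_of_nonneg (by positivity) fun i hi => ?_
      rw [norm_mul, norm_pow, le_div_iff₀ (by positivity), mul_assoc, ← pow_succ]
      exact (mul_le_of_le_one_left (by positivity) (h1 i)).trans
        (pow_le_pow_right₀ h.le (Finset.mem_range.1 hi))
    exact absurd h2 (not_le.2 (div_lt_self (by positivity) h))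
  · rw [eval_eq_sum_range, Finset.sum_range_succ', pow_zero, mul_one,
      add_eq_zero_iff_eq_neg] at hl
    have h2 : ‖f.coeff 0‖ ≤ ‖l‖ := by
      rw [← norm_neg, ← hl]
      refine IsUltrametricDist.norm_sum_le_of_forall_le_of_nonneg (by positivity) fun i _ => ?_
      rw [norm_mul, norm_pow, pow_succ, ← mul_assoc]
      exact mul_le_of_le_one_left (by positivity)
        (mul_le_one₀ (h1 _) (by positivity) (pow_le_one₀ (norm_nonneg _) h.le))
    exact absurd (h0 ▸ h2) (not_le.2 h)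

end Unit

/-- the root of an integral polynomial with unit constant term is a norm -/
theorem norm_poly {F : Type*} [NontriviallyNormedField F] [IsUltrametricDist F] [ProperSpace F]
    [CharZero F] (h2 : ‖(2 : F)‖ = 1) {δ : F} (hδ : ‖δ‖ = 1) {f : F[X]} (hf : f.Monic)
    (h1 : ∀ i, ‖f.coeff i‖ ≤ 1) (h0 : ‖f.coeff 0‖ = 1) :
    ∃ p q : F[X], f ∣ X - (p ^ 2 - C δ * q ^ 2) := by
  have : Module.Finite F (AdjoinRoot f) := hf.finite_adjoinRoot
  obtain ⟨x, y, hxy⟩ := Lan.norm_of_residue (k := F) (algebraMap F (AdjoinRoot f) δ)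
    (AdjoinRoot.root f) fun m hm => by
      let L := AdjoinRoot f ⧸ m
      letI : Field L := Ideal.Quotient.field m
      letI := spectralNorm.normedField F L
      letI := spectralNorm.normedAlgebra F L
      haveI : IsUltrametricDist L := IsUltrametricDist.isUltrametricDist_of_isNonarchimedean_norm
        isNonarchimedean_spectralNorm
      haveI : ProperSpace L := FiniteDimensional.proper F L
      have hn : ∀ c : F, ‖algebraMap F L c‖ = ‖c‖ := spectralNorm_extends
      have hl : ‖Ideal.Quotient.mkₐ F m (AdjoinRoot.root f)‖ = 1 :=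
        norm_root (hf.map (algebraMap F L)) (fun i => by rw [coeff_map, hn]; exact h1 i)
          (by rw [coeff_map, hn, h0]) (by
            rw [eval_map_algebraMap, aeval_algHom_apply, AdjoinRoot.aeval_eq, AdjoinRoot.mk_self,
              map_zero])
      obtain ⟨x, y, hxy⟩ := unit_norm (by rw [← h2, ← hn, map_ofNat]) ((hn δ).trans hδ) hl
      obtain ⟨x, rfl⟩ := Ideal.Quotient.mk_surjective x
      obtain ⟨y, rfl⟩ := Ideal.Quotient.mk_surjective y
      refine ⟨fun h => ?_, x, y, Ideal.Quotient.eq.mp ?_⟩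
      · rw [show Ideal.Quotient.mkₐ F m (AdjoinRoot.root f) = 0 from
          Ideal.Quotient.eq_zero_iff_mem.mpr h, norm_zero] at hl
        exact zero_ne_one hl
      · rw [map_sub, map_mul, map_pow, map_pow]
        exact hxy
  obtain ⟨p, rfl⟩ := AdjoinRoot.mk_surjective x
  obtain ⟨q, rfl⟩ := AdjoinRoot.mk_surjective y
  refine ⟨p, q, AdjoinRoot.mk_eq_mk.mp ?_⟩
  rw [map_sub, map_mul, map_pow, map_pow, AdjoinRoot.mk_X, AdjoinRoot.mk_C]
  exact hxy

end Crest.Agent.T24.Emb.L22
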