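import Crest.Agent.T24.EmbLA_22
import Crest.Agent.T24.Csa4_50
import Crest.Agent.T24.Def_26

/-! Row 24, embedding module (helper22): hermitian roots in a unimodular order. -/

set_option autoImplicit false
set_option linter.unusedSectionVars false
set_option linter.style.haveILetI false

noncomputable section

namespace Crest.Agent.T24.Emb.L22

open Module Polynomial Matrix Csa
open scoped Valued NormedField

/-- integral coordinates in the basis `1, θ` -/
def It (F : Type*) {E : Type*} [NormedField F] [CommRing E] [Algebra F E] (θ c : E) : Prop :=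
  ∃ a b : F, ‖a‖ ≤ 1 ∧ ‖b‖ ≤ 1 ∧ c = algebraMap F E a + algebraMap F E b * θ

section Mat
variable {E n : Type*} [NormedField E] [IsUltrametricDist E] [Fintype n] [DecidableEq n]

theorem int_mul {M N : Matrix n n E} (hM : ∀ i j, ‖M i j‖ ≤ 1) (hN : ∀ i j, ‖N i j‖ ≤ 1) (i j : n) :
    ‖(M * N) i j‖ ≤ 1 := by
  rw [mul_apply]
  refine IsUltrametricDist.norm_sum_le_of_forall_le_of_nonneg zero_le_one fun l _ => ?_
  rw [norm_mul]
  exact mul_le_one₀ (hM _ _) (norm_nonneg _) (hN _ _)

theorem int_charpoly {M : Matrix n n E} (hM : ∀ i j, ‖M i j‖ ≤ 1) (i : ℕ) :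
    ‖M.charpoly.coeff i‖ ≤ 1 := by
  exact_mod_cast Lan.val_charpoly (NormedField.valuation (K := E)) (fun i j => by
    exact_mod_cast hM i j) i

theorem norm_coeff_zero (M : Matrix n n E) : ‖M.charpoly.coeff 0‖ = ‖M.det‖ := by
  rw [det_eq_sign_charpoly_coeff]; simp

theorem int_single (a b i j : n) : ‖(single a b (1 : E)) i j‖ ≤ 1 := by
  rw [single_apply]; split_ifs <;> simp

end Mat

section Norm
variable {F E : Type*} [NormedField F] [IsUltrametricDist F] [CompleteSpace F] [NormedField E]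
  [IsUltrametricDist E] [Algebra F E] (hn : ∀ c : F, ‖algebraMap F E c‖ = ‖c‖) {θ : E} {δ : F}
  (hδ : algebraMap F E δ = θ * θ) (h1 : ‖δ‖ = 1)
include hn hδ h1

theorem norm_theta : ‖θ‖ = 1 := by
  have : ‖θ‖ * ‖θ‖ = 1 := by rw [← norm_mul, ← hδ, hn, h1]
  nlinarith [norm_nonneg θ]

theorem norm_coord (h2 : ‖(2 : F)‖ = 1) (hs : ¬ IsSquare δ) (a b : F) :
    ‖algebraMap F E a + algebraMap F E b * θ‖ = max ‖a‖ ‖b‖ := by
  have ht := norm_theta hn hδ h1
  have hb : ‖algebraMap F E b * θ‖ = ‖b‖ := by rw [norm_mul, ht, hn, mul_one]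
  by_cases hab : ‖a‖ = ‖b‖
  swap
  · rw [IsUltrametricDist.norm_add_eq_max_of_norm_ne_norm (by rwa [hn, hb]), hn, hb]
  refine le_antisymm ((IsUltrametricDist.norm_add_le_max _ _).trans_eq (by rw [hn, hb]))
    (not_lt.1 fun h => hs ?_)
  rw [← hab, max_self] at h
  have h0 : 0 < ‖a‖ := (norm_nonneg _).trans_lt h
  have hb0 : b ≠ 0 := norm_pos_iff.1 (hab ▸ h0)
  have h3 : ‖δ * b ^ 2 - a ^ 2‖ < ‖a ^ 2‖ := by
    have e : algebraMap F E (δ * b ^ 2 - a ^ 2) = (algebraMap F E a + algebraMap F E b * θ) *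
        (algebraMap F E b * θ - algebraMap F E a) := by
      rw [map_sub, map_mul, hδ, map_pow, map_pow]; ring
    rw [← hn, e, norm_mul, norm_pow, sq]
    exact mul_lt_mul h (Loc.norm_sub_le_of (hb.trans hab.symm).le (hn a).le |>.trans le_rfl)
      (by
        refine norm_pos_iff.2 fun h4 => hs ⟨a / b, (algebraMap F E).injective ?_⟩
        have h5 : θ = algebraMap F E (a / b) := by
          rw [map_div₀, eq_div_iff ((_root_.map_ne_zero _).2 hb0), mul_comm]
          exact sub_eq_zero.1 h4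
        rw [hδ, map_mul, ← h5]) h0.le
  obtain ⟨s, hs⟩ := sq_of_near h2 h3
  exact ⟨a * s / b, by field_simp; linear_combination hs⟩

end Norm

section Core
variable {F E A ι : Type*} [NontriviallyNormedField F] [IsUltrametricDist F] [ProperSpace F]
  [CharZero F] [Field E] [CharZero E] [Algebra F E] [StarRing E] [Quad F E] [Ring A] [StarRing A]
  [Algebra E A] [StarModule E A] [Algebra F A] [IsScalarTower F E A]

variable (E) in
include E in
theorem star_aevalF (t : A) (ht : star t = t) (q : F[X]) : star (aeval t q) = aeval t q := by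
  simp only [aeval_eq_sum_range, star_sum]
  refine Finset.sum_congr rfl fun i _ => ?_
  rw [← algebraMap_smul E, star_smul, Quad.star_k, star_pow, ht]

/-- conjugating a twisted hermitian element -/
theorem conj_herm {h y : A} (hh : star h = h) (hu : IsUnit h) (hy : star y * h = h * y) {θ : E}
    {δ : F} (hθ : star θ = -θ) (hδ : algebraMap F E δ = θ * θ) {f p q : F[X]} (hf : aeval h f = 0)
    (hd : f ∣ X - (p ^ 2 - C δ * q ^ 2)) : ∃ t : A, star t = t ∧ minpoly F t = minpoly F y := by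
  obtain ⟨c, hc⟩ := hd
  have h1 := congrArg (aeval h) hc
  rw [map_mul, hf, zero_mul, map_sub, aeval_X, sub_eq_zero, map_sub, map_mul, map_pow,
    map_pow, aeval_C, ← Algebra.smul_def] at h1
  have h2 : aeval h q * aeval h p = aeval h p * aeval h q := by rw [← map_mul, mul_comm, map_mul]
  set Z := aeval h p + θ • aeval h q with hZ
  have h3 : star Z = aeval h p - θ • aeval h q := by
    rw [hZ, star_add, star_smul, star_aevalF E h hh, star_aevalF E h hh, hθ, neg_smul,
      sub_eq_add_neg]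
  have h4 : star Z * Z = h ∧ Z * star Z = h := by
    rw [h3, hZ]
    simp only [mul_add, add_mul, mul_sub, sub_mul, smul_mul_assoc, mul_smul_comm, h2, smul_add, smul_sub, smul_smul,
      ← hδ, algebraMap_smul, ← sq]
    constructor <;> conv_rhs => rw [h1]
    all_goals abel
  obtain ⟨-, u, hu⟩ := (Commute.isUnit_mul_iff (h4.1.trans h4.2.symm)).1 (h4.1 ▸ hu)
  refine ⟨u * y * ↑u⁻¹, ?_, ?_⟩
  · rw [← h4.1, ← hu] at hy
    rw [star_mul, star_mul, ← Units.coe_star_inv, Units.inv_mul_eq_iff_eq_mul, Units.coe_star,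
      ← mul_assoc, ← mul_assoc, ← hy, ← mul_assoc, Units.mul_inv_cancel_right]
  · exact minpoly.algEquiv_eq (MulSemiringAction.toAlgEquiv F A (ConjAct.toConjAct u)) y

variable [Algebra.IsCentral E A] [IsSimpleRing A] [FiniteDimensional E A] [Fintype ι]

theorem core {θ : E} {δ : F} (hθ : star θ = -θ) (hδ : algebraMap F E δ = θ * θ) (h1 : ‖δ‖ = 1)
    (h2 : ‖(2 : F)‖ = 1) (e : Basis ι E A) (g : ι → A)
    (hm : ∀ i j l, It F θ (e.repr (e i * e j) l)) (hg : ∀ i l, It F θ (e.repr (g i) l))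
    (hd : ∀ x, x = ∑ i, Trd E (x * e i) • g i) (hst : ∀ i l, It F θ (e.repr (star (e i)) l))
    {Q : F[X]} (hQ : Q.Monic) (hq : Q.natDegree = deg E A) :
    ∃ t : A, star t = t ∧ minpoly F t = Q := by
  have hfr := Quad.fr (k := F) (K := E)
  have hne := Quad.ne (k := F) (K := E)
  have hk := Quad.star_k (k := F) (K := E)
  haveI : FiniteDimensional F E := Module.finite_of_finrank_pos (by omega)
  letI := spectralNorm.nontriviallyNormedField F E
  letI := spectralNorm.normedAlgebra F E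
  haveI : IsUltrametricDist E := IsUltrametricDist.isUltrametricDist_of_isNonarchimedean_norm
    isNonarchimedean_spectralNorm
  haveI : ProperSpace E := FiniteDimensional.proper F E
  have hn : ∀ c : F, ‖algebraMap F E c‖ = ‖c‖ := spectralNorm_extends
  have ht := norm_theta hn hδ h1
  have h0 : θ ≠ 0 := norm_pos_iff.1 (ht ▸ one_pos)
  have hs : ¬ IsSquare δ := fun ⟨s, hs⟩ => by
    rw [hs, map_mul, mul_self_eq_mul_self_iff] at hδ
    have : star θ = θ := by
      rcases hδ with h | h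
      · rw [← h, hk]
      · rw [← neg_neg θ, star_neg, ← h, hk]
    exact h0 (self_eq_neg.1 (this.symm.trans hθ))
  have hc := norm_coord hn hδ h1 h2 hs
  have hI : ∀ {c}, It F θ c → ‖c‖ ≤ 1 := fun ⟨a, b, ha, hb, h⟩ => by rw [h, hc]; exact max_le ha hb
  have hsn : ∀ c : E, ‖star c‖ = ‖c‖ := fun c => by
    obtain ⟨a, b, rfl⟩ := exists_coord hfr hk h0 hθ c
    rw [star_add, star_mul', hk, hk, hθ, mul_neg, ← neg_mul, ← map_neg, hc, hc, norm_neg]
  have hval : ∀ c : E, ∃ a : F, ‖a‖ = ‖c‖ := fun c => by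
    obtain ⟨a, b, rfl⟩ := exists_coord hfr hk h0 hθ c
    rw [hc]
    rcases max_choice ‖a‖ ‖b‖ with h | h <;> exact ⟨_, h.symm⟩
  haveI : CompactSpace 𝒪[E] := isCompact_iff_compactSpace.1 <| by
    convert isCompact_closedBall (0 : E) 1 using 1
    ext x; simp [Valued.integer.mem_iff]
  haveI := Valued.integer.isPrincipalIdealRing_of_compactSpace (K := E)
  obtain ⟨ψ, hψ⟩ := Loc.Unim.split (e := e) ⟨fun i j l => hI (hm i j l), g, fun i l => hI (hg i l), hd⟩
    𝒪[E] (fun c => ⟨fun ⟨a, ha⟩ => ha ▸ Valued.integer.mem_iff.1 a.2,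
      fun h => ⟨⟨c, Valued.integer.mem_iff.2 h⟩, rfl⟩⟩) (finrank_eq_deg_sq E A)
  have hτ : ∀ M : Matrix _ _ E, (∀ i j, ‖M i j‖ ≤ 1) → ∀ i j, ‖ψ (star (ψ.symm M)) i j‖ ≤ 1 :=
    fun M hM => (hψ _ 1 zero_le_one).1 fun l => by
      have h3 := (hψ (ψ.symm M) 1 zero_le_one).2 (by simpa using hM)
      rw [← e.sum_repr (ψ.symm M), star_sum, map_sum, Finsupp.finsetSum_apply]
      refine IsUltrametricDist.norm_sum_le_of_forall_le_of_nonneg zero_le_one fun i _ => ?_
      rw [star_smul, map_smul, Finsupp.smul_apply, smul_eq_mul, norm_mul, hsn]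
      exact mul_le_one₀ (h3 i) (norm_nonneg _) (hI (hst i l))
  haveI : Nonempty (Fin (deg E A)) := ⟨⟨0, deg_pos E A⟩⟩
  obtain ⟨H, hH, hH'⟩ := exists_twist (K := E) (B := Matrix (Fin (deg E A)) (Fin (deg E A)) E) hne
    (AddMonoidHom.mk' (fun x => ψ (star (ψ.symm x))) fun x y => by simp)
    (fun x y => by simp) (fun x => by simp) fun c => by
      simp only [AddMonoidHom.mk'_apply]
      rw [AlgEquiv.commutes, Csa.star_algebraMap, AlgEquiv.commutes]
  simp only [AddMonoidHom.mk'_apply, star_eq_conjTranspose] at hH hH'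
  obtain ⟨⟨a, b⟩, hab⟩ := Finite.exists_max fun p : Fin (deg E A) × Fin (deg E A) => ‖H.1 p.1 p.2‖
  obtain ⟨c, hcn⟩ := hval (H.1 a b)
  have hab0 : 0 < ‖H.1 a b‖ := lt_of_not_ge fun h => H.ne_zero (by
    ext i j; exact norm_le_zero_iff.1 ((hab (i, j)).trans h))
  have hc0 : algebraMap F E c ≠ 0 := norm_pos_iff.1 (by rwa [hn, hcn])
  let N := ∑ i, ψ (star (ψ.symm (single a i 1))) * single b i (1 : E)
  have hN : H.1 * N = H.1 a b • 1 := by
    simp only [N, Finset.mul_sum, ← mul_assoc, hH', conjTranspose_single, star_one,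
      single_mul_mul_single, one_mul, mul_one]
    ext i j
    simp [Matrix.sum_apply, single_apply, one_apply, eq_comm, ite_and]
  let G : Matrix _ _ E := algebraMap F E c • (H⁻¹).1
  have hG1 : G = (algebraMap F E c / H.1 a b) • N := by
    have : N = H.1 a b • (H⁻¹).1 := by
      rw [← Units.inv_mul_cancel_left H N, hN, mul_smul_comm, mul_one]
    rw [this, smul_smul, div_mul_cancel₀ _ (norm_pos_iff.1 hab0)]
  have hG2 : ∀ i j, ‖G i j‖ ≤ 1 := fun i j => by
    rw [hG1, Matrix.smul_apply, smul_eq_mul, norm_mul, norm_div, hn, hcn, div_self hab0.ne', one_mul]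
    simp only [N, Matrix.sum_apply]
    exact IsUltrametricDist.norm_sum_le_of_forall_le_of_nonneg zero_le_one fun l _ =>
      int_mul (hτ _ (int_single _ _)) (int_single _ _) i j
  have hG3 : ‖G.det‖ = 1 := by
    have e1 : G * ((algebraMap F E c)⁻¹ • H.1) = 1 := by
      rw [mul_smul_comm, smul_mul_assoc, Units.inv_mul, smul_smul, inv_mul_cancel₀ hc0, one_smul]
    have e2 := int_charpoly (M := (algebraMap F E c)⁻¹ • H.1) (fun i j => by
      rw [Matrix.smul_apply, smul_eq_mul, norm_mul, norm_inv, hn, hcn, inv_mul_le_one₀ hab0]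
      exact hab (i, j)) 0
    have e3 := int_charpoly hG2 0
    have e4 := congrArg (fun M => ‖det M‖) e1
    simp only [det_mul, norm_mul, det_one, norm_one] at e4
    rw [norm_coeff_zero] at e2 e3
    nlinarith [norm_nonneg G.det]
  have hG4 : Gᴴ = G := by
    have : (H⁻¹).1ᴴ = (H⁻¹).1 := by
      rw [Matrix.coe_units_inv, conjTranspose_nonsing_inv, hH]
    rw [conjTranspose_smul, hk, this]
  obtain ⟨y, S, hy, hS, hSy, hS1, hS2⟩ := exists_sym hQ hq (deg_pos E A)
  let j : Matrix (Fin (deg E A)) (Fin (deg E A)) F →ₐ[F] Matrix _ _ E := (Algebra.ofId F E).mapMatrix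
  have hj : ∀ M, (j M)ᴴ = j Mᵀ := fun M => by ext s t; exact hk _
  have hjd : ‖(j S).det‖ = 1 := by
    rw [← hS2, ← hn]; exact congrArg norm ((algebraMap F E).map_det S).symm
  have hM1 := int_mul hG2 (N := j S) fun s t => (hn _).trans_le (hS1 s t)
  have hM2 : ‖(G * j S).det‖ = 1 := by rw [det_mul, norm_mul, hG3, hjd, one_mul]
  have hHG : H.1 * G = algebraMap F E c • 1 := by simp [G]
  have hGH : G * H.1 = algebraMap F E c • 1 := by simp [G]
  obtain ⟨f, hf1, -, hf2⟩ := lifts_and_natDegree_eq_and_monic (f := algebraMap F E)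
    ((lifts_iff_coeff_lifts _).2 fun n => exists_of_star_eq hfr hk hne (by
      have : (G * j S).charpoly.map (starRingEnd E) = (G * j S).charpoly := by
        rw [← charpoly_map, ← charpoly_transpose, charpoly_mul_comm G]
        congr 1
        exact (conjTranspose_mul G (j S)).trans (by rw [hj, hS, hG4])
      conv_rhs => rw [← this, coeff_map]
      rfl)) (charpoly_monic (G * j S))
  obtain ⟨p, q, hpq⟩ := norm_poly h2 h1 hf2
    (fun i => by rw [← hn, ← coeff_map, hf1]; exact int_charpoly hM1 i)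
    (by rw [← hn, ← coeff_map, hf1, norm_coeff_zero, hM2])
  obtain ⟨t, ht1, ht2⟩ := conj_herm (h := ψ.symm (G * j S)) (y := ψ.symm (j y))
    (ψ.injective (H.isUnit.mul_left_cancel (by
      rw [hH', AlgEquiv.apply_symm_apply, conjTranspose_mul, hj, hS, hG4, mul_assoc, ← mul_assoc H.1,
        hGH, hHG, mul_smul_comm, smul_mul_assoc, mul_one, one_mul])))
    (((isUnit_iff_isUnit_det _).2 (norm_pos_iff.1 (hM2 ▸ one_pos)).isUnit).map ψ.symm)
    (ψ.injective (H.isUnit.mul_left_cancel (by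
      simp only [map_mul, AlgEquiv.apply_symm_apply, ← mul_assoc, hH', hHG, hj]
      rw [mul_assoc _ H.1, hHG]
      simp only [mul_smul_comm, smul_mul_assoc, mul_one, one_mul, ← map_mul, hSy])))
    hθ hδ (by rw [← aeval_map_algebraMap E, hf1, aeval_algHom_apply, aeval_self_charpoly, map_zero])
    hpq
  refine ⟨t, ht1, ht2.trans (hy ▸ minpoly.algHom_eq ((ψ.symm.toAlgHom.restrictScalars F).comp j)
    (ψ.symm.injective.comp fun M N h => ?_) y)⟩
  ext s t
  exact (algebraMap F E).injective (congrFun (congrFun h s) t)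

end Core

end Crest.Agent.T24.Emb.L22
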