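import Crest.Agent.T24.LocI_53
import Crest.Agent.T24.HsmB_23
import Crest.Agent.T24.Csa4_50
import Crest.Agent.T24.Def_26

/-!
# Row 24 (helper53): `B` is split at the non-split places; the hermitian matrix model
-/

set_option autoImplicit false
set_option linter.unusedSectionVars false

noncomputable section

namespace Crest.Agent.T24.Loc

open Module NumberField IsDedekindDomain Csa Asa Filter
open scoped TensorProduct Topology Valued Matrix

variable {K : Type*} [Field K] [NumberField K] [StarRing K] {w : Pl K}

theorem val_star (hw : ¬ Split w) (x : K) : w.valuation K (star x) = w.valuation K x := by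
  by_contra h
  exact hw ⟨x, h⟩

theorem exists_sw (hw : ¬ Split w) : ∃ g : w.adicCompletion K →+* w.adicCompletion K,
    Continuous g ∧ ∀ x : K, g (algebraMap K _ x) = algebraMap K _ (star x) := by
  let _ : PseudoMetricSpace K :=
    PseudoMetricSpace.induced (algebraMap K (w.adicCompletion K)) inferInstance
  have ue : IsUniformInducing (algebraMap K (w.adicCompletion K)) := ⟨rfl⟩
  have dr := w.denseRange_algebraMap K
  have hv : ∀ x : K, Valued.v (algebraMap K (w.adicCompletion K) x) = w.valuation K x :=
    fun x => w.valuedAdicCompletion_eq_valuation' x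
  have hf : UniformContinuous ((algebraMap K (w.adicCompletion K)).comp (starRingEnd K)) := by
    rw [Metric.uniformContinuous_iff]
    refine fun ε hε => ⟨ε, hε, fun {a b} hab => ?_⟩
    change dist (algebraMap K (w.adicCompletion K) a) (algebraMap K _ b) < _ at hab
    rw [dist_eq_norm, ← map_sub] at hab ⊢
    refine lt_of_le_of_lt ?_ hab
    rw [Valued.toNormedField.norm_le_iff, RingHom.comp_apply, hv, hv]
    exact (val_star hw _).le
  exact ⟨IsDenseInducing.extendRingHom ue dr hf,
    (uniformContinuous_uniformly_extend ue dr hf).continuous,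
    fun x => (ue.isDenseInducing dr).extend_eq hf.continuous x⟩

/-- the continuous extension of `star` to the completion at a non-split place -/
def sw (hw : ¬ Split w) : w.adicCompletion K →+* w.adicCompletion K := (exists_sw hw).choose

theorem continuous_sw (hw : ¬ Split w) : Continuous (sw hw) := (exists_sw hw).choose_spec.1

theorem sw_algebraMap (hw : ¬ Split w) (x : K) :
    sw hw (algebraMap K _ x) = algebraMap K _ (star x) := (exists_sw hw).choose_spec.2 x

theorem sw_sw (hw : ¬ Split w) (x : w.adicCompletion K) : sw hw (sw hw x) = x :=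
  (w.denseRange_algebraMap K).induction_on x
    (isClosed_eq ((continuous_sw hw).comp (continuous_sw hw)) continuous_id) fun y => by
      rw [sw_algebraMap, sw_algebraMap, star_star]

theorem val_sw (hw : ¬ Split w) (x : w.adicCompletion K) : Valued.v (sw hw x) = Valued.v x := by
  by_cases hx : x = 0
  · simp [hx]
  have h1 : ∀ᶠ y in 𝓝 x, Valued.v y = Valued.v x := Valued.locally_const (by simpa using hx)
  have h2 : ∀ᶠ y in 𝓝 x, Valued.v (sw hw y) = Valued.v (sw hw x) :=
    (continuous_sw hw).continuousAt.eventually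
      (Valued.locally_const (x := sw hw x) (by simpa using hx))
  obtain ⟨_, ⟨y, rfl⟩, h3, h4⟩ := (w.denseRange_algebraMap K).inter_nhds_nonempty (h1.and h2)
  rw [← h3, ← h4, sw_algebraMap]
  exact (w.valuedAdicCompletion_eq_valuation' _).trans ((val_star hw y).trans
    (w.valuedAdicCompletion_eq_valuation' y).symm)

theorem sw_ne (hw : ¬ Split w) (hne : ∃ c : K, star c ≠ c) : ∃ c, sw hw c ≠ c := by
  obtain ⟨c, hc⟩ := hne
  exact ⟨algebraMap K _ c, fun h => hc ((algebraMap K (w.adicCompletion K)).injective
    (by rwa [sw_algebraMap] at h))⟩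

/-- `star` on the completion at a non-split place (use with `letI`) -/
abbrev starW (hw : ¬ Split w) : StarRing (w.adicCompletion K) where
  star := sw hw
  star_involutive := sw_sw hw
  star_mul x y := by rw [map_mul, mul_comm]
  star_add := map_add _

variable (B : Type*) [Ring B] [StarRing B] [Algebra K B] [StarModule K B]

/-- the involution of `K_w ⊗ B` -/
def tw (hw : ¬ Split w) : w.adicCompletion K ⊗[K] B →+ w.adicCompletion K ⊗[K] B :=
  TensorProduct.liftAddHom
    (AddMonoidHom.mk' (fun c => AddMonoidHom.mk' (fun b => sw hw c ⊗ₜ[K] star b)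
        fun a b => by rw [star_add, TensorProduct.tmul_add])
      fun a b => by ext x; simp [TensorProduct.add_tmul])
    fun r c b => by
      change sw hw (r • c) ⊗ₜ[K] star b = sw hw c ⊗ₜ[K] star (r • b)
      rw [star_smul, ← TensorProduct.smul_tmul, Algebra.smul_def, map_mul, sw_algebraMap,
        Algebra.smul_def]

variable {B} in
@[simp] theorem tw_tmul (hw : ¬ Split w) (c : w.adicCompletion K) (b : B) :
    tw B hw (c ⊗ₜ b) = sw hw c ⊗ₜ star b := rfl

theorem inv2_tw (hw : ¬ Split w) : Inv2 (sw hw) (tw B hw) where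
  mul x y := by
    induction x using TensorProduct.induction_on with
    | zero => simp
    | add a b ha hb => rw [add_mul, map_add, map_add, ha, hb, mul_add]
    | tmul c b =>
      induction y using TensorProduct.induction_on with
      | zero => simp
      | add a b ha hb => rw [mul_add, map_add, map_add, ha, hb, add_mul]
      | tmul c' b' => simp [mul_comm]
  inv x := by
    induction x using TensorProduct.induction_on with
    | zero => simp
    | add a b ha hb => rw [map_add, map_add, ha, hb]
    | tmul c b => simp [sw_sw]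
  alg c := by simp [Algebra.TensorProduct.algebraMap_apply]

variable [Algebra.IsCentral K B] [IsSimpleRing B] [FiniteDimensional K B]

/-- `K_w ⊗ B` is a matrix algebra at a non-split place -/
theorem bc_split (hne : ∃ c : K, star c ≠ c) (hw : ¬ Split w) :
    Nonempty (w.adicCompletion K ⊗[K] B ≃ₐ[w.adicCompletion K]
      Matrix (Fin (deg K B)) (Fin (deg K B)) (w.adicCompletion K)) := by
  have := proper_adic K w
  exact (inv2_tw B hw).split (by rw [finrank_baseChange, finrank_eq_deg_sq]) (continuous_sw hw)
    (sw_ne hw hne)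

theorem nonsplit_hom (hne : ∃ c : K, star c ≠ c) (hw : ¬ Split w) :
    Nonempty (B →ₐ[K] Matrix (Fin (deg K B)) (Fin (deg K B)) (w.adicCompletion K)) := by
  obtain ⟨q⟩ := bc_split B hne hw
  exact ⟨(q.toAlgHom.restrictScalars K).comp Algebra.TensorProduct.includeRight⟩

theorem spl_nonsplit (hne : ∃ c : K, star c ≠ c) (hw : ¬ Split w) :
    Hsm.Spl B (deg K B) (algebraMap K (w.adicCompletion K)) :=
  Hsm.spl_iff.2 (nonsplit_hom B hne hw)

/-- the hermitian matrix model at a non-split place -/
theorem exists_model (hne : ∃ c : K, star c ≠ c) (hw : ¬ Split w) :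
    ∃ (q : w.adicCompletion K ⊗[K] B ≃ₐ[w.adicCompletion K]
        Matrix (Fin (deg K B)) (Fin (deg K B)) (w.adicCompletion K))
      (H : (Matrix (Fin (deg K B)) (Fin (deg K B)) (w.adicCompletion K))ˣ),
      (H.1.map (sw hw))ᵀ = H.1 ∧ ∀ x, H.1 * q (tw B hw x) = ((q x).map (sw hw))ᵀ * H.1 := by
  obtain ⟨q⟩ := bc_split B hne hw
  let _ := starW hw
  have h := inv2_tw B hw
  have : Nonempty (Fin (deg K B)) := ⟨⟨0, deg_pos K B⟩⟩
  obtain ⟨H, h1, h2⟩ := exists_twist (K := w.adicCompletion K) (sw_ne hw hne)
    (q.toAddEquiv.toAddMonoidHom.comp ((tw B hw).comp q.symm.toAddEquiv.toAddMonoidHom))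
    (fun x y => by simp [h.mul]) (fun x => by simp [h.inv]) (fun c => by
      change q (tw B hw (q.symm _)) = _
      rw [AlgEquiv.commutes, h.alg, AlgEquiv.commutes]; rfl)
  refine ⟨q, H, h1, fun x => ?_⟩
  have := h2 (q x)
  change H.1 * q (tw B hw (q.symm (q x))) = _ at this
  rwa [AlgEquiv.symm_apply_apply] at this

/-- the model for the global points -/
theorem exists_model' (hne : ∃ c : K, star c ≠ c) (hw : ¬ Split w) :
    ∃ (φ : B →ₐ[K] Matrix (Fin (deg K B)) (Fin (deg K B)) (w.adicCompletion K))
      (H : (Matrix (Fin (deg K B)) (Fin (deg K B)) (w.adicCompletion K))ˣ),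
      (H.1.map (sw hw))ᵀ = H.1 ∧ ∀ x, H.1 * φ (star x) = ((φ x).map (sw hw))ᵀ * H.1 := by
  obtain ⟨q, H, h1, h2⟩ := exists_model B hne hw
  refine ⟨(q.toAlgHom.restrictScalars K).comp Algebra.TensorProduct.includeRight, H, h1,
    fun x => ?_⟩
  have := h2 (1 ⊗ₜ x)
  rw [tw_tmul, map_one] at this
  exact this

/-- no division algebra at a non-split place -/
theorem not_isDivisionAt (hne : ∃ c : K, star c ≠ c) (hw : ¬ Split w) (hd : 2 ≤ deg K B) :
    ¬ Crest.NumberTheoryR.UnitaryMP.IsDivisionAt B w := by
  intro h
  obtain ⟨q⟩ := bc_split B hne hw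
  let e : B ⊗[K] w.adicCompletion K ≃+* Matrix (Fin (deg K B)) (Fin (deg K B))
      (w.adicCompletion K) := (Algebra.TensorProduct.comm K B _).toRingEquiv.trans q.toRingEquiv
  let i : Fin (deg K B) := ⟨0, by omega⟩
  let j : Fin (deg K B) := ⟨1, by omega⟩
  have hij : j ≠ i := by simp [i, j]
  have h0 : Matrix.single i j (1 : w.adicCompletion K) ≠ 0 := fun h => by
    simpa using congrFun (congrFun h i) j
  obtain ⟨z, hz, -⟩ := h (e.symm (Matrix.single i j 1)) (by simpa using h0)
  have h1 := congrArg e hz
  rw [map_mul, map_one, RingEquiv.apply_symm_apply] at h1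
  have h2 := congrArg (Matrix.single i j (1 : w.adicCompletion K) * ·) h1
  simp only [← mul_assoc, Matrix.single_mul_single_of_ne _ _ _ _ hij, zero_mul, mul_one] at h2
  exact h0 h2.symm

end Crest.Agent.T24.Loc
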