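import Crest.Agent.T24.EmbA_16
import Crest.Agent.T24.BcB_98
import Crest.Agent.T24.SplEx_33
import Crest.Agent.T24.LocM_59
import Crest.Agent.T24.LocJ_53
import Crest.Agent.T24.LanB_73
import Crest.Agent.T24.LanE_73

/-! Row 24, embedding module (helper16): no local condition at almost all places. -/

set_option autoImplicit false
set_option linter.unusedSectionVars false
set_option linter.style.haveILetI false

noncomputable section

namespace Crest.Agent.T24.Emb

open Module Polynomial NumberField IsDedekindDomain Csa Asa Matrix WithZero Filter Topology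
open scoped NumberField TensorProduct Valued

universe u v w

namespace L16

section Alg

variable {F : Type*} [Field F]

theorem minpoly_eq {A : Type*} [Ring A] [Algebra F A] {x : A} {Q : F[X]} (hQ : Q.Monic)
    (h : ∀ p, aeval x p = 0 ↔ Q ∣ p) : minpoly F x = Q :=
  eq_of_monic_of_associated (minpoly.monic ⟨Q, hQ, (h Q).2 dvd_rfl⟩) hQ
    (associated_of_dvd_dvd (minpoly.dvd F x ((h Q).2 dvd_rfl)) ((h _).1 (minpoly.aeval F x)))

/-- companion matrix and Hankel form -/
theorem hankel {Q : F[X]} (hQ : Q.Monic) {n : ℕ} (hn : Q.natDegree = n) (h0 : 0 < n) :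
    ∃ C S : Matrix (Fin n) (Fin n) F, minpoly F C = Q ∧ Sᵀ = S ∧ S * C = Cᵀ * S ∧ S.det ^ 2 = 1 := by
  subst hn
  let pb := AdjoinRoot.powerBasis hQ.ne_zero
  let b : Basis (Fin Q.natDegree) F (AdjoinRoot Q) := pb.basis
  have hb : ∀ i, b i = pb.gen ^ (i : ℕ) := pb.basis_eq_pow
  let l : Fin Q.natDegree := ⟨Q.natDegree - 1, by omega⟩
  have key : ∀ y z, ∑ m, b.repr (y * b m) l * b.repr z m = b.repr (y * z) l := fun y z => by
    conv_rhs => rw [← b.sum_repr z, Finset.mul_sum, map_sum, Finsupp.finsetSum_apply]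
    exact Finset.sum_congr rfl fun m _ => by
      rw [mul_smul_comm, map_smul, Finsupp.smul_apply, smul_eq_mul, mul_comm]
  refine ⟨Algebra.leftMulMatrix b pb.gen, of fun i j => b.repr (b i * b j) l, ?_, ?_, ?_, ?_⟩
  · rw [minpoly.algHom_eq _ (Algebra.leftMulMatrix_injective b),
      AdjoinRoot.minpoly_powerBasis_gen_of_monic hQ]
  · ext i j
    simp [mul_comm]
  · ext i j
    simp only [mul_apply, of_apply, transpose_apply, Algebra.leftMulMatrix_eq_repr_mul]
    rw [key, Finset.sum_congr rfl fun m _ => by rw [mul_comm, mul_comm (b m)], key]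
    congr 2
    ring
  · have h1 := det_permute' Fin.revPerm (of fun i j => b.repr (b i * b j) l)
    rw [det_of_isLowerTriangular, Finset.prod_eq_one] at h1
    · have h2 : ((Equiv.Perm.sign (Fin.revPerm (n := Q.natDegree)) : ℤ) : F) ^ 2 = 1 := by
        rcases Int.units_eq_one_or (Equiv.Perm.sign (Fin.revPerm (n := Q.natDegree))) with h | h <;>
          simp [h]
      have h3 := congrArg (· ^ 2) h1
      simp only [mul_pow, h2, one_mul, one_pow] at h3
      exact h3.symm
    · intro i _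
      have e : b i * b (Fin.rev i) = b l := by
        rw [hb, hb, hb, ← pow_add]; congr 1; simp only [Fin.val_rev, l]; omega
      simp [e]
    · intro i j hij
      have hij' : (i : ℕ) < j := hij
      have e : b i * b (Fin.rev j) = b ⟨i + (Q.natDegree - (j + 1)), by omega⟩ := by
        rw [hb, hb, hb, ← pow_add]; rfl
      have hne : (⟨i + (Q.natDegree - (j + 1)), by omega⟩ : Fin Q.natDegree) ≠ l := fun h => by
        have := congrArg Fin.val h
        simp only [l] at this
        omega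
      simp [e, hne]

theorem mat {E : Type*} [Field E] [StarRing E] [Algebra F E] {n : Type} [Fintype n] [DecidableEq n]
    (hs : ∀ c : F, star (algebraMap F E c) = algebraMap F E c) {H : Matrix n n E} {C S : Matrix n n F}
    (hSC : S * C = Cᵀ * S) (h : Lan.Cg H (S.map (algebraMap F E))) :
    ∃ T : Matrix n n E, H * T = Tᴴ * H ∧ minpoly F T = minpoly F C := by
  obtain ⟨P, hP⟩ := h
  let f : Matrix n n F →ₐ[F] Matrix n n E := (Algebra.ofId F E).mapMatrix
  have h1 : (f C)ᴴ = f Cᵀ := by ext i j; exact hs _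
  have h2 : (P : Matrix n n E)ᴴ * H * P * f C = (f C)ᴴ * ((P : Matrix n n E)ᴴ * H * P) := by
    rw [hP, h1]; exact (map_mul f S C).symm.trans ((congrArg f hSC).trans (map_mul f _ _))
  refine ⟨(P : Matrix n n E) * f C * ((P⁻¹ : (Matrix n n E)ˣ) : Matrix n n E), ?_, ?_⟩
  · have h3 : (↑P⁻¹ : Matrix n n E)ᴴ * (P : Matrix n n E)ᴴ = 1 := by
      rw [← conjTranspose_mul, P.mul_inv, conjTranspose_one]
    calc H * ((P : Matrix n n E) * f C * ((P⁻¹ : (Matrix n n E)ˣ) : Matrix n n E))
        = (↑P⁻¹ : Matrix n n E)ᴴ * ((P : Matrix n n E)ᴴ * H * P * f C) *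
            ((P⁻¹ : (Matrix n n E)ˣ) : Matrix n n E) := by
          simp only [← mul_assoc, h3, one_mul]
      _ = _ := by
          rw [h2, conjTranspose_mul, conjTranspose_mul]
          simp only [mul_assoc, P.mul_inv, mul_one]
  · rw [← minpoly.algHom_eq f (map_injective (algebraMap F E).injective)]
    exact minpoly.algEquiv_eq (MulSemiringAction.toAlgEquiv F (Matrix n n E) (ConjAct.toConjAct P)) _

variable {Γ : Type*} [LinearOrderedCommGroupWithZero Γ] (u : Valuation F Γ) {n : Type*} [Fintype n]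
  [DecidableEq n]

theorem val_det {M : Matrix n n F} (h : ∀ i j, u (M i j) ≤ 1) : u M.det ≤ 1 := by
  obtain ⟨M0, rfl⟩ := Lan.exists_lift u h
  rw [← RingHom.mapMatrix_apply, ← RingHom.map_det]
  exact M0.det.2

theorem val_mul {M N : Matrix n n F} (h : ∀ i j, u (M i j) ≤ 1) (h' : ∀ i j, u (N i j) ≤ 1) (i j : n) :
    u ((M * N) i j) ≤ 1 := by
  rw [mul_apply]
  exact u.map_sum_le fun l _ => by rw [map_mul]; exact mul_le_one' (h _ _) (h' _ _)

theorem val_single (a b i j : n) : u (single a b (1 : F) i j) ≤ 1 := by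
  rw [single_apply]; split_ifs <;> simp

/-- a form whose adjoint preserves the integral matrices is a multiple of a unimodular one -/
theorem unimod [StarRing F] [Nonempty n] {H : Matrix n n F} (h0 : H.det ≠ 0)
    (h : ∀ X : Matrix n n F, (∀ i j, u (X i j) ≤ 1) →
      ∃ Y : Matrix n n F, (∀ i j, u (Y i j) ≤ 1) ∧ H * Y = Xᴴ * H) :
    ∃ l : F, l ≠ 0 ∧ u (l⁻¹ • H).det = 1 := by
  obtain ⟨⟨a, b⟩, hab⟩ := Finite.exists_max fun p : n × n => u (H p.1 p.2)
  have hl : H a b ≠ 0 := fun h1 => h0 (by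
    have : H = 0 := by
      ext i j
      simpa [h1] using hab (i, j)
    rw [this, det_zero])
  choose Y hY hY' using fun i => h (single a i 1) (val_single u a i)
  have h1 : (H a b)⁻¹ • H * ∑ i, Y i * single b i 1 = 1 := by
    rw [smul_mul_assoc, Finset.mul_sum, inv_smul_eq_iff₀ hl, ← sum_single_one, Finset.smul_sum]
    refine Finset.sum_congr rfl fun i _ => ?_
    rw [← mul_assoc, hY', conjTranspose_single, single_mul_mul_single]
    simp
  have h2 : u ((H a b)⁻¹ • H).det ≤ 1 := val_det u fun i j => by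
    rw [Matrix.smul_apply, smul_eq_mul, map_mul, map_inv₀,
      inv_mul_le_one₀ (zero_lt_iff.2 ((u.ne_zero_iff).2 hl))]
    exact hab (i, j)
  have h3 : u (∑ i, Y i * single b i 1).det ≤ 1 := val_det u fun i j => by
    rw [Matrix.sum_apply]
    exact u.map_sum_le fun l _ => val_mul u (hY l) (val_single u b l) i j
  have h4 := congrArg (fun M => u (det M)) h1
  simp only [det_mul, map_mul, det_one, map_one] at h4
  exact ⟨_, hl, le_antisymm h2 (h4.ge.trans (mul_le_of_le_one_right' h3))⟩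

end Alg

section Loc

variable {k K : Type*} [Field k] [NumberField k] [Field K] [NumberField K] [Algebra k K]
  [StarRing K] [Quad k K]

theorem nm_unit (v : Pl k) {δ : kˣ} (h2 : v.valuation k 2 = 1) (hd : v.valuation k δ = 1)
    {c : Kv v} (hc : Valued.v c = 1) : Lan.Nm (algebraMap k (Kv v) δ) c := by
  have h0 : c ≠ 0 := fun h => by simp [h] at hc
  have h1 : ∀ᶠ y in 𝓝 c, Valued.v y = Valued.v c := Valued.locally_const (by simp [hc])
  have h3 : ∀ᶠ y in 𝓝 c, IsSquare (y / c) :=
    (continuous_id.div_const c).continuousAt.eventually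
      (p := fun x => IsSquare x) (by
        change ∀ᶠ y in 𝓝 (c / c), IsSquare y
        rw [div_self h0]; exact (Hil.lc_inl v).op)
  obtain ⟨_, ⟨y, rfl⟩, h4, h5⟩ := (v.denseRange_algebraMap k).inter_nhds_nonempty (h1.and h3)
  rw [hc, Loc.val_alg] at h4
  have hy : y ≠ 0 := fun h => by simp [h] at h4
  exact (Lan.nm_iff v h0 (c' := Units.mk0 y hy) h5).2 (Hn.Loc.mem_LN_of_odd v h2 hd h4)

variable {w : Pl K} (hw : ¬ Split w)

theorem sw_cmap (s : Kv (below k w)) : Loc.sw hw (Hsm.cmap k w s) = Hsm.cmap k w s :=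
  ((below k w).denseRange_algebraMap k).induction_on s
    (isClosed_eq ((Loc.continuous_sw hw).comp (Hsm.continuous_cmap k w)) (Hsm.continuous_cmap k w))
    fun y => by
      rw [AlgHom.commutes, IsScalarTower.algebraMap_apply k K, Loc.sw_algebraMap, Quad.star_k]

theorem coord {θ : K} (h0 : θ ≠ 0) (hθ : star θ = -θ) (x : w.adicCompletion K) :
    ∃ s t, x = Hsm.cmap k w s + Hsm.cmap k w t * algebraMap K _ θ := by
  let := (Hsm.cmap k w).toRingHom.toAlgebra
  have : ContinuousSMul (Kv (below k w)) (w.adicCompletion K) :=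
    ⟨((Hsm.continuous_cmap k w).comp continuous_fst).mul continuous_snd⟩
  have hc := (Submodule.span (Kv (below k w))
    {(1 : w.adicCompletion K), algebraMap K _ θ}).closed_of_finiteDimensional
  have hx : x ∈ Submodule.span (Kv (below k w)) {(1 : w.adicCompletion K), algebraMap K _ θ} :=
    (w.denseRange_algebraMap K).induction_on x hc fun y => by
      obtain ⟨a, b, rfl⟩ := exists_coord (Quad.fr (k := k) (K := K)) Quad.star_k h0 hθ y
      refine Submodule.mem_span_pair.2 ⟨algebraMap k _ a, algebraMap k _ b, ?_⟩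
      change Hsm.cmap k w _ * _ + Hsm.cmap k w _ * _ = _
      rw [AlgHom.commutes, AlgHom.commutes, mul_one, map_add, map_mul,
        ← IsScalarTower.algebraMap_apply, ← IsScalarTower.algebraMap_apply]
  obtain ⟨s, t, rfl⟩ := Submodule.mem_span_pair.1 hx
  exact ⟨s, t, congrArg (· + _) (mul_one _)⟩

variable (k) in
theorem fix {x : w.adicCompletion K} (h : Loc.sw hw x = x) : ∃ s, Hsm.cmap k w s = x := by
  haveI := Loc.charZero_adic K w
  obtain ⟨θ, h0, hθ⟩ := exists_skew (Quad.ne (k := k) (K := K))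
  obtain ⟨s, t, rfl⟩ := coord (k := k) h0 hθ x
  rw [map_add, map_mul, sw_cmap, sw_cmap, Loc.sw_algebraMap, hθ, map_neg] at h
  exact ⟨s, by linear_combination h / 2⟩

theorem nm {θ : K} (hθ : star θ = -θ) {δ : k} (hδ : algebraMap k K δ = θ * θ) {s : Kv (below k w)}
    (h : Lan.Nm (algebraMap k _ δ) s) : ∃ z, Hsm.cmap k w s = Loc.sw hw z * z := by
  obtain ⟨a, b, rfl⟩ := h
  refine ⟨Hsm.cmap k w a + Hsm.cmap k w b * algebraMap K _ θ, ?_⟩
  rw [map_add, map_mul (Loc.sw hw), sw_cmap, sw_cmap, Loc.sw_algebraMap, hθ, map_neg, map_sub, map_mul,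
    map_pow, map_pow, AlgHom.commutes, IsScalarTower.algebraMap_apply k K, hδ, map_mul]
  ring

theorem univ {θ : K} (hθ : star θ = -θ) {δ : kˣ} (hδ : algebraMap k K δ = θ * θ)
    (hd : δ ∉ Hn.Sq (below k w)) : letI := Loc.starW hw; Lan.Univ (w.adicCompletion K) := by
  intro a b ha hb ha' hb'
  obtain ⟨a, rfl⟩ := fix k hw ha'
  obtain ⟨b, rfl⟩ := fix k hw hb'
  obtain ⟨x, y, hx, hy, h⟩ := Lan.univ_adic (below k w) hd (a := a) (b := b)
    (fun h => ha (by rw [h, map_zero])) fun h => hb (by rw [h, map_zero])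
  obtain ⟨x', hx⟩ := nm hw hθ hδ hx
  obtain ⟨y', hy⟩ := nm hw hθ hδ hy
  refine ⟨x', y', ?_⟩
  change _ * (Loc.sw hw x' * x') + _ * (Loc.sw hw y' * y') = 1
  rw [← hx, ← hy, ← map_mul, ← map_mul, ← map_add, h, map_one]

/-- no ramification: every valuation is the valuation of a fixed element -/
theorem exists_fixed {θ : K} (hθ : star θ = -θ) (h1 : w.valuation K θ = 1) (h2 : w.valuation K 2 = 1)
    (l : w.adicCompletion K) : ∃ c, Loc.sw hw c = c ∧ Valued.v c = Valued.v l := by
  by_cases h : Valued.v (l + Loc.sw hw l) = Valued.v l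
  · exact ⟨_, by rw [map_add, Loc.sw_sw, add_comm], h⟩
  · have h3 : Valued.v (l + Loc.sw hw l) < Valued.v (2 * l) := by
      rw [map_mul, ← map_ofNat (algebraMap K (w.adicCompletion K)), Loc.val_alg, h2, one_mul]
      exact lt_of_le_of_ne (Valued.v.map_add_le le_rfl (Loc.val_sw hw l).le) h
    refine ⟨algebraMap K _ θ * (2 * l - (l + Loc.sw hw l)), ?_, ?_⟩
    · rw [map_mul, Loc.sw_algebraMap, hθ, map_neg, map_sub, map_add, map_mul, map_ofNat, Loc.sw_sw]
      ring
    · rw [map_mul, Valuation.map_sub_eq_of_lt_left _ h3, map_mul,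
        ← map_ofNat (algebraMap K (w.adicCompletion K)), Loc.val_alg, Loc.val_alg, h1, h2, one_mul,
        one_mul]

variable {B : Type*} [Ring B] [StarRing B] [Algebra K B] [StarModule K B]
  [Algebra.IsCentral K B] [IsSimpleRing B] [FiniteDimensional K B] [Algebra k B]
  [IsScalarTower k K B]

/-- the unimodular model -/
theorem model {J : Type*} [Fintype J] (e : Basis J K B) {θ : K} (hθ : star θ = -θ)
    (h1 : w.valuation K θ = 1) (h2 : w.valuation K 2 = 1)
    (ψ : B →ₐ[K] Matrix (Fin (deg K B)) (Fin (deg K B)) (w.adicCompletion K))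
    (hψ : ∀ (c : J → w.adicCompletion K) (γ : ℤᵐ⁰),
      (∀ l, Valued.v (c l) ≤ γ) ↔ ∀ i j, Valued.v ((∑ l, c l • ψ (e l)) i j) ≤ γ)
    (hs : ∀ l m, w.valuation K (e.repr (star (e l)) m) ≤ 1) : letI := Loc.starW hw
    ∃ H : Matrix (Fin (deg K B)) (Fin (deg K B)) (w.adicCompletion K), Hᴴ = H ∧ Valued.v H.det = 1 ∧
      ∀ b, H * ψ (star b) = (ψ b)ᴴ * H := by
  letI := Loc.starW hw
  haveI := Loc.charZero_adic K w
  haveI : Nonempty (Fin (deg K B)) := ⟨⟨0, deg_pos K B⟩⟩
  have hne : ∃ c : K, star c ≠ c := ⟨θ, fun h => by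
    have : θ = 0 := by linear_combination (hθ - h) / 2
    simp [this] at h1⟩
  have hf : finrank (w.adicCompletion K) (Matrix (Fin (deg K B)) (Fin (deg K B)) (w.adicCompletion K)) =
      finrank K B := by rw [finrank_mat, Fintype.card_fin, finrank_eq_deg_sq]
  let q := bcEquiv (L := w.adicCompletion K) ψ hf
  have h := Loc.inv2_tw B hw
  obtain ⟨H, h3, h4⟩ := exists_twist (K := w.adicCompletion K) (Loc.sw_ne hw hne)
    (q.toAddEquiv.toAddMonoidHom.comp ((Loc.tw B hw).comp q.symm.toAddEquiv.toAddMonoidHom))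
    (fun x y => by simp [h.mul]) (fun x => by simp [h.inv]) (fun c => by
      change q (Loc.tw B hw (q.symm _)) = _
      rw [AlgEquiv.commutes, h.alg, AlgEquiv.commutes]; rfl)
  have h5 : ∀ b, H.1 * ψ (star b) = (ψ b)ᴴ * H.1 := fun b => by
    have := h4 (q (1 ⊗ₜ b))
    change H.1 * q (Loc.tw B hw (q.symm (q _))) = _ at this
    rw [AlgEquiv.symm_apply_apply, Loc.tw_tmul, map_one, bcEquiv_tmul, bcEquiv_tmul, one_smul,
      one_smul] at this
    exact this
  have h6 : ∀ l i j, Valued.v (ψ (star (e l)) i j) ≤ 1 := fun l => by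
    have := (hψ (fun m => algebraMap K _ (e.repr (star (e l)) m)) 1).1 fun m => by
      rw [Loc.val_alg]; exact hs l m
    simpa only [algebraMap_smul, ← map_smul, ← map_sum, e.sum_repr] using this
  obtain ⟨l, hl, h7⟩ := unimod Valued.v ((isUnit_iff_isUnit_det _).1 H.isUnit).ne_zero fun X hX => by
    let b := mapBasis (L := w.adicCompletion K) e ψ.toRingHom hf
    have hb : ∑ l, b.repr X l • ψ (e l) = X := by
      conv_rhs => rw [← b.sum_repr X]
      simp [b]
    have hc := (hψ (b.repr X) 1).2 (by rwa [hb])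
    refine ⟨∑ l, star (b.repr X l) • ψ (star (e l)), fun i j => ?_, ?_⟩
    · rw [Matrix.sum_apply]
      refine Valued.v.map_sum_le fun l _ => ?_
      rw [Matrix.smul_apply, smul_eq_mul, map_mul]
      exact mul_le_one' ((Loc.val_sw hw _).trans_le (hc l)) (h6 l i j)
    · conv_rhs => rw [← hb]
      simp only [Finset.mul_sum, mul_smul_comm, h5, conjTranspose_sum, conjTranspose_smul,
        Finset.sum_mul, smul_mul_assoc]
  obtain ⟨c, hc, hc'⟩ := exists_fixed hw hθ h1 h2 l
  refine ⟨c⁻¹ • H.1, ?_, ?_, fun b => by rw [smul_mul_assoc, h5, mul_smul_comm]⟩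
  · rw [conjTranspose_smul, star_inv₀, show star c = c from hc, show H.1ᴴ = H.1 from h3]
  · rw [det_smul, map_mul, map_pow, map_inv₀] at h7 ⊢
    rw [hc', h7]

theorem nonsplit {θ : K} (hθ : star θ = -θ) {δ : kˣ} (hδ : algebraMap k K δ = θ * θ)
    (hd : (below k w).valuation k δ = 1) (h2 : (below k w).valuation k 2 = 1)
    (ψ : B →ₐ[K] Matrix (Fin (deg K B)) (Fin (deg K B)) (w.adicCompletion K))
    (hH : letI := Loc.starW hw
      ∃ H : Matrix (Fin (deg K B)) (Fin (deg K B)) (w.adicCompletion K), Hᴴ = H ∧ Valued.v H.det = 1 ∧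
        ∀ b, H * ψ (star b) = (ψ b)ᴴ * H)
    {Q : (Kv (below k w))[X]} (hQ : Q.Monic) (hn : Q.natDegree = deg K B) :
    ∃ t : BC k K B (Kv (below k w)), HR Q t := by
  letI := Loc.starW hw
  haveI := Loc.charZero_adic K w
  haveI : Nonempty (Fin (deg K B)) := ⟨⟨0, deg_pos K B⟩⟩
  haveI := (Loc.isEmpty_iff (k := k)).2 hw
  letI := (Hsm.cmap k w).toRingHom.toAlgebra
  haveI : IsScalarTower k (Kv (below k w)) (w.adicCompletion K) :=
    IsScalarTower.of_algebraMap_eq fun c => ((Hsm.cmap k w).commutes c).symm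
  have ea : ∀ c, algebraMap (Kv (below k w)) (w.adicCompletion K) c = Hsm.cmap k w c := fun _ => rfl
  have h0 : θ ≠ 0 := fun h => δ.ne_zero ((algebraMap k K).injective (by simp [hδ, h]))
  obtain ⟨H, h3, h4, h5⟩ := hH
  obtain ⟨C, S, c1, c2, c3, c4⟩ := hankel hQ hn (deg_pos K B)
  obtain ⟨D, hD⟩ := fix k hw (x := H.det) (by
    change star H.det = _
    rw [← det_conjTranspose, h3])
  obtain ⟨r, hr, -, hr'⟩ := Hsm.val_cmap k w
  have d1 : Valued.v D = 1 := by
    rwa [← hD, hr', pow_eq_one_iff_of_nonneg zero_le hr] at h4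
  have d0 : D ≠ 0 := fun h => by simp [h] at d1
  have d2 : Valued.v S.det = 1 := by
    have := congrArg Valued.v c4
    rwa [map_pow, map_one, pow_eq_one_iff_of_nonneg zero_le two_ne_zero] at this
  obtain ⟨z, hz⟩ := nm hw hθ hδ (nm_unit _ h2 hd (c := S.det / D) (by rw [map_div₀, d1, d2, div_one]))
  have hz0 : z ≠ 0 := fun h => by
    rw [h, mul_zero, map_eq_zero, div_eq_zero_iff, or_iff_left d0] at hz
    simp [hz] at d2
  have hsq : δ ∉ Hn.Sq (below k w) := fun h =>
    IsEmpty.false ((BC.nonempty_emb_iff k K _ h0 hθ hδ).2 ((Hn.Loc.mem_Sq_iff _ δ).1 h)).some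
  obtain ⟨T, t1, t2⟩ := mat (sw_cmap hw) c3 (Lan.cg_of_det (univ hw hθ hδ hsq)
    (Loc.sw_ne hw (Quad.ne (k := k))) h3 (H' := S.map (algebraMap _ _))
    (Matrix.ext fun i j => (sw_cmap hw _).trans (congrArg _ (congrFun (congrFun c2 i) j)))
    (fun h => by simp [h] at h4) hz0 (by
      change _ = _ * (Loc.sw hw z * z)
      rw [← hz, ← hD, ← map_mul, mul_div_cancel₀ _ d0, ← RingHom.mapMatrix_apply, ← RingHom.map_det]
      rfl))
  let Φ := BC.lift k K B (Kv (below k w)) (ψ.restrictScalars k)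
  have hΦ : ∀ b, Φ (BC.inc k K B _ b) = ψ b := fun b => BC.lift_inc k K B _ _ b
  have hi : Function.Injective Φ := RingHom.injective Φ.toRingHom
  have h6 : ∀ x, H * Φ (star x) = (Φ x)ᴴ * H := fun x => by
    refine BC.ind x (by simp) (fun r b => ?_) fun x y hx hy => ?_
    · rw [BC.star_rsmul, BC.star_inc, map_smul, map_smul, hΦ, hΦ, ← algebraMap_smul (w.adicCompletion K),
        ← algebraMap_smul (w.adicCompletion K) r, conjTranspose_smul, mul_smul_comm, smul_mul_assoc, h5]
      exact congrArg (· • _) (sw_cmap hw r).symm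
    · rw [star_add, map_add, map_add, mul_add, conjTranspose_add, add_mul, hx, hy]
  obtain ⟨t, rfl⟩ : ∃ t, Φ t = T := by
    let e := finBasis K B
    let b := mapBasis (L := w.adicCompletion K) e ψ.toRingHom
      (by rw [finrank_mat, Fintype.card_fin, finrank_eq_deg_sq])
    choose s s' hs using fun l => coord (k := k) h0 hθ (b.repr T l)
    refine ⟨∑ l, (s l • BC.inc k K B _ (e l) + s' l • BC.inc k K B _ (θ • e l)), ?_⟩
    conv_rhs => rw [← b.sum_repr T]
    rw [map_sum]
    refine Finset.sum_congr rfl fun l _ => ?_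
    rw [map_add, map_smul, map_smul, hΦ, hΦ, map_smul, hs, add_smul, mul_smul, algebraMap_smul, ← ea, ← ea,
      algebraMap_smul, algebraMap_smul, mapBasis_apply]
    rfl
  refine ⟨t, hi (((isUnit_iff_isUnit_det H).2 (isUnit_iff_ne_zero.2 fun h => ?_)).mul_left_cancel ?_), ?_⟩
  · simp [h] at h4
  · rw [h6, t1]
  · rw [← minpoly.algHom_eq Φ hi, t2, c1]

theorem split {v : Pl k} (s : Spl K B v) {Q : (Kv v)[X]} (hQ : Q.Monic) (hn : Q.natDegree = deg K B) :
    ∃ t : BC k K B (Kv v), HR Q t := by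
  obtain ⟨C, -, c1, -⟩ := hankel hQ hn (deg_pos K B)
  obtain ⟨t, h1, h2⟩ := s.sm.exists_herm C
  refine ⟨t, h1, minpoly_eq hQ fun p => ?_⟩
  rw [← c1, minpoly.dvd_iff, ← h2, aeval_algHom_apply]
  exact ⟨fun h => by rw [h, map_zero], fun h =>
    s.sm.herm_ext (A16.star_aeval h1 p) (star_zero _) (by rw [h, map_zero])⟩

end Loc

end L16

open L16

theorem locEx16 (k K B : Type*) [Field k] [NumberField k] [Field K] [NumberField K]
    [Algebra k K] [StarRing K] [Quad k K] [Ring B] [StarRing B] [Algebra K B] [StarModule K B]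
    [Algebra.IsCentral K B] [IsSimpleRing B] [FiniteDimensional K B] [Algebra k B]
    [IsScalarTower k K B] : LocEx k K B := by
  obtain ⟨θ, δ, h0, hθ, hδ⟩ := BC.exists_delta k K
  have hδ0 : δ ≠ 0 := fun h => mul_ne_zero h0 h0 (by rw [← hδ, h, map_zero])
  let e := finBasis K B
  have one : ∀ {L : Type _} [Field L] [NumberField L] {x : L}, x ≠ 0 →
      ∀ᶠ w : Pl L in cofinite, w.valuation L x = 1 := fun hx => finite_ne_one hx
  have h1 := Lan.ev_below (k := k) ((Loc.split_ae e (finrank_eq_deg_sq K B)).and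
    ((eventually_all.2 fun l => eventually_all.2 fun m => Loc.int_ae (e.repr (star (e l)) m)).and
      ((show ∀ᶠ w : Pl K in cofinite, w.valuation K θ = 1 from finite_ne_one h0).and
        (show ∀ᶠ w : Pl K in cofinite, w.valuation K 2 = 1 from finite_ne_one two_ne_zero))))
  have h2 : ∀ᶠ v : Pl k in cofinite, ∀ Q : (Kv v)[X], Q.Monic → Q.natDegree = deg K B →
      ∃ t : BC k K B (Kv v), HR Q t := by
    filter_upwards [h1, SplE.spl_ae k e, one hδ0, one (two_ne_zero (α := k))] with v a1 a2 a3 a4 Q hQ hn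
    rcases isEmpty_or_nonempty (K →ₐ[k] Kv v) with h | ⟨⟨ι⟩⟩
    · obtain ⟨P, hP, hl⟩ := Ideal.exists_maximal_ideal_liesOver_of_isIntegral (S := 𝓞 K) v.asIdeal
      let w : Pl K := ⟨P, hP.isPrime, Ideal.ne_bot_of_liesOver_of_ne_bot v.ne_bot P⟩
      obtain hw : below k w = v := HeightOneSpectrum.ext hl.over.symm
      obtain ⟨⟨ψ, hψ⟩, b2, b3, b4⟩ := a1 w hw
      clear_value w
      subst hw
      have hw := Loc.isEmpty_iff.1 h
      exact nonsplit hw hθ (δ := Units.mk0 δ hδ0) hδ a3 a4 ψ (model hw e hθ b3 b4 ψ hψ b2) hQ hn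
    · obtain ⟨s, -⟩ := a2 ι
      exact split s hQ hn
  exact ⟨h2.toFinset, fun v hv Q hQ hn _ => not_not.1 (fun h => hv (h2.mem_toFinset.2 h)) Q hQ hn⟩

theorem locExStmt16 : LocExStmt.{u, v, w} := fun D => locEx16 D.k D.K D.B

end Crest.Agent.T24.Emb
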