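import Crest.Agent.T24.EvA_20

/-!
# Row 24, central step for even degree (helper62): weak approximation in the norm torsors
-/

set_option autoImplicit false
set_option linter.unusedSectionVars false

noncomputable section

namespace Crest.Agent.T24.Ev

open Module NumberField WithZero Csa Asa Topology Filter Polynomial
open scoped Valued

universe u v w

namespace T62

/-- what is used of the local algebras -/
structure Nice (A : Type*) [Ring A] [TopologicalSpace A] (mem : A → A → Prop) : Prop where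
  inv : ∀ x x' : A, x' * x = 1 → x * x' = 1 → ∀ V ∈ 𝓝 x', ∀ᶠ y in 𝓝 x,
    ∃ w ∈ V, w * y = 1 ∧ y * w = 1
  root : ∀ V ∈ 𝓝 (1 : A), ∀ᶠ x in 𝓝 (1 : A), ∃ y ∈ V, mem x y ∧ y * y = x
  pen : ∀ m I : A, Commute m I → IsUnit I →
    {t : ℕ | ¬IsUnit (1 + m + t * (I * (1 - m)))}.Finite

theorem lift_prod {X₁ X₂ Y₁ Y₂ : Type*} [TopologicalSpace X₁] [TopologicalSpace X₂]
    [TopologicalSpace Y₁] [TopologicalSpace Y₂] {a : X₁ × X₂} {b : Y₁ × Y₂}
    {p₁ : X₁ → Y₁ → Prop} {p₂ : X₂ → Y₂ → Prop}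
    (h₁ : ∀ V ∈ 𝓝 b.1, ∀ᶠ x in 𝓝 a.1, ∃ y ∈ V, p₁ x y)
    (h₂ : ∀ V ∈ 𝓝 b.2, ∀ᶠ x in 𝓝 a.2, ∃ y ∈ V, p₂ x y) :
    ∀ V ∈ 𝓝 b, ∀ᶠ x in 𝓝 a, ∃ y ∈ V, p₁ x.1 y.1 ∧ p₂ x.2 y.2 := by
  intro V hV
  rw [nhds_prod_eq, mem_prod_iff] at hV
  obtain ⟨V₁, hV₁, V₂, hV₂, hV⟩ := hV
  filter_upwards [continuous_fst.continuousAt.eventually (h₁ V₁ hV₁),
    continuous_snd.continuousAt.eventually (h₂ V₂ hV₂)] with x ⟨y₁, m₁, q₁⟩ ⟨y₂, m₂, q₂⟩
  exact ⟨(y₁, y₂), hV ⟨m₁, m₂⟩, q₁, q₂⟩

theorem lift_pi {ι : Type*} [Finite ι] {X Y : ι → Type*} [∀ i, TopologicalSpace (X i)]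
    [∀ i, TopologicalSpace (Y i)] {a : ∀ i, X i} {b : ∀ i, Y i} {p : ∀ i, X i → Y i → Prop}
    (h : ∀ i, ∀ V ∈ 𝓝 (b i), ∀ᶠ x in 𝓝 (a i), ∃ y ∈ V, p i x y) :
    ∀ V ∈ 𝓝 b, ∀ᶠ x in 𝓝 a, ∃ y ∈ V, ∀ i, p i (x i) (y i) := by
  intro V hV
  rw [nhds_pi, mem_pi'] at hV
  obtain ⟨I, t, ht, hV⟩ := hV
  filter_upwards [eventually_all.2 fun i =>
    (continuous_apply i).continuousAt.eventually (h i (t i) (ht i))] with x hx
  choose y m q using hx
  exact ⟨y, hV fun i _ => m i, q⟩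

theorem Nice.mono {A : Type*} [Ring A] [TopologicalSpace A] {m m' : A → A → Prop} (h : Nice A m)
    (hm : ∀ x y, m x y → m' x y) : Nice A m' :=
  ⟨h.inv, fun V hV => (h.root V hV).mono fun x ⟨y, h1, h2, h3⟩ => ⟨y, h1, hm x y h2, h3⟩, h.pen⟩

theorem Nice.prod {A₁ A₂ : Type*} [Ring A₁] [TopologicalSpace A₁] [Ring A₂] [TopologicalSpace A₂]
    {m₁ : A₁ → A₁ → Prop} {m₂ : A₂ → A₂ → Prop} (h₁ : Nice A₁ m₁) (h₂ : Nice A₂ m₂) :
    Nice (A₁ × A₂) fun x y => m₁ x.1 y.1 ∧ m₂ x.2 y.2 where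
  inv x x' e e' V hV := by
    filter_upwards [lift_prod (h₁.inv x.1 x'.1 (congrArg Prod.fst e) (congrArg Prod.fst e'))
      (h₂.inv x.2 x'.2 (congrArg Prod.snd e) (congrArg Prod.snd e')) V hV] with y ⟨w, hw, p₁, p₂⟩
    exact ⟨w, hw, Prod.ext p₁.1 p₂.1, Prod.ext p₁.2 p₂.2⟩
  root V hV := by
    filter_upwards [lift_prod (a := (1 : A₁ × A₂)) (b := (1 : A₁ × A₂)) h₁.root h₂.root V hV]
      with x ⟨y, hy, p₁, p₂⟩
    exact ⟨y, hy, ⟨p₁.1, p₂.1⟩, Prod.ext p₁.2 p₂.2⟩
  pen m I hc hu := by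
    refine ((h₁.pen m.1 I.1 (hc.map (RingHom.fst A₁ A₂)) (hu.map (RingHom.fst A₁ A₂))).union
      (h₂.pen m.2 I.2 (hc.map (RingHom.snd A₁ A₂)) (hu.map (RingHom.snd A₁ A₂)))).subset ?_
    intro t ht
    by_contra hn
    simp only [Set.mem_union, Set.mem_ofPred_eq, not_or, not_not] at hn
    exact ht (Prod.isUnit_iff.2 hn)

theorem Nice.pi {ι : Type*} [Finite ι] {A : ι → Type*} [∀ i, Ring (A i)]
    [∀ i, TopologicalSpace (A i)] {m : ∀ i, A i → A i → Prop} (h : ∀ i, Nice (A i) (m i)) :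
    Nice (∀ i, A i) fun x y => ∀ i, m i (x i) (y i) where
  inv x x' e e' V hV := by
    filter_upwards [lift_pi (fun i => (h i).inv (x i) (x' i) (congrFun e i) (congrFun e' i)) V hV]
      with y ⟨w, hw, p⟩
    exact ⟨w, hw, funext fun i => (p i).1, funext fun i => (p i).2⟩
  root V hV := by
    filter_upwards [lift_pi (a := (1 : ∀ i, A i)) (b := (1 : ∀ i, A i)) (fun i => (h i).root) V hV]
      with x ⟨y, hy, p⟩
    exact ⟨y, hy, fun i => (p i).1, funext fun i => (p i).2⟩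
  pen m I hc hu := by
    refine (Set.finite_iUnion fun i => (h i).pen (m i) (I i) (hc.map (Pi.evalRingHom A i))
      (hu.map (Pi.evalRingHom A i))).subset ?_
    intro t ht
    by_contra hn
    simp only [Set.mem_iUnion, Set.mem_ofPred_eq, not_exists, not_not] at hn
    exact ht (Pi.isUnit_iff.2 hn)

theorem nice_field (F : Type*) [NontriviallyNormedField F] [CompleteSpace F] [CharZero F]
    (A : Type*) [Ring A] [Algebra F A] [FiniteDimensional F A] [TopologicalSpace A]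
    [IsTopologicalAddGroup A] [ContinuousSMul F A] [T2Space A] :
    Nice A fun x y => y ∈ Algebra.adjoin F {x} where
  inv x x' e e' V hV := by
    have hu : IsUnit x := ⟨⟨x, x', e', e⟩, rfl⟩
    rw [← Opn.inverse_eq hu e] at hV
    filter_upwards [Opn.ev_isUnit F hu, (Opn.inverse_continuousAt F hu).eventually hV] with y h1 h2
    exact ⟨_, h2, Ring.inverse_mul_cancel _ h1, Ring.mul_inverse_cancel _ h1⟩
  root V hV := by
    filter_upwards [Opn.root_one F (n := 2) (by norm_num) hV] with x ⟨y, h1, h2, h3⟩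
    exact ⟨y, h2, h1, by rw [← h3, sq]⟩
  pen m I hc hu := by
    obtain ⟨I, rfl⟩ := hu
    have hs : ∀ x ∈ ({m, ↑I, ↑I⁻¹} : Set A), ∀ y ∈ ({m, ↑I, ↑I⁻¹} : Set A), Commute x y := by
      have h1 : Commute m ↑I⁻¹ := hc.units_inv_right
      have h2 : Commute (I : A) ↑I⁻¹ := (Commute.refl (I : A)).units_inv_right
      simp only [Set.mem_insert_iff, Set.mem_singleton_iff, forall_eq_or_imp, forall_eq]
      exact ⟨⟨.refl _, hc, h1⟩, ⟨hc.symm, .refl _, h2⟩, h1.symm, h2.symm, .refl _⟩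
    have hm : m ∈ Algebra.adjoin F ({m, ↑I, ↑I⁻¹} : Set A) := Algebra.subset_adjoin (by simp)
    have hI : (I : A) ∈ Algebra.adjoin F ({m, ↑I, ↑I⁻¹} : Set A) := Algebra.subset_adjoin (by simp)
    have hJ : (↑I⁻¹ : A) ∈ Algebra.adjoin F ({m, ↑I, ↑I⁻¹} : Set A) :=
      Algebra.subset_adjoin (by simp)
    have := Opn.finite_nonunit_of_coprime F (Algebra.adjoin F ({m, ↑I, ↑I⁻¹} : Set A))
      (fun x hx y hy => Algebra.commute_of_mem_adjoin_of_forall_mem_commute hy fun b hb =>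
        (Algebra.commute_of_mem_adjoin_of_forall_mem_commute hx fun c hc => hs b hb c hc).symm)
      (a := 1 + m) (b := I * (1 - m)) (u := (2⁻¹ : F) • 1) (v := (2⁻¹ : F) • ↑I⁻¹)
      (add_mem (one_mem _) hm) (mul_mem hI (sub_mem (one_mem _) hm))
      (Subalgebra.smul_mem _ (one_mem _) _) (Subalgebra.smul_mem _ hJ _) (by
        rw [smul_mul_assoc, smul_mul_assoc, one_mul, Units.inv_mul_cancel_left, ← smul_add,
          add_add_sub_cancel, ← two_smul F, smul_smul, inv_mul_cancel₀ two_ne_zero, one_smul])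
    refine (this.preimage (f := fun t : ℕ => (t : F)) Nat.cast_injective.injOn).subset ?_
    intro t ht
    simpa only [Set.mem_preimage, Set.mem_ofPred_eq, Nat.cast_smul_eq_nsmul, nsmul_eq_mul] using ht

section Alg
variable {k E : Type*} [Field k] [CommRing E] [Algebra k E]

/-- conjugate pairs -/
def Rel (ω i e e' : E) : Prop :=
  ∃ a b : k[X], e = aeval ω a + aeval ω b * i ∧ e' = aeval ω a - aeval ω b * i

variable {ω i : E} {ε : k}

theorem Rel.symm {e e' : E} (h : Rel (k := k) ω i e e') : Rel (k := k) ω i e' e := by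
  obtain ⟨a, b, rfl, rfl⟩ := h
  exact ⟨a, -b, by rw [map_neg]; ring, by rw [map_neg]; ring⟩

theorem Rel.add {e e' f f' : E} (h : Rel (k := k) ω i e e') (h' : Rel (k := k) ω i f f') :
    Rel (k := k) ω i (e + f) (e' + f') := by
  obtain ⟨a, b, rfl, rfl⟩ := h
  obtain ⟨c, d, rfl, rfl⟩ := h'
  exact ⟨a + c, b + d, by simp only [map_add]; ring, by simp only [map_add]; ring⟩

theorem Rel.mul (hi : i * i = algebraMap k E ε) {e e' f f' : E} (h : Rel (k := k) ω i e e')
    (h' : Rel (k := k) ω i f f') : Rel (k := k) ω i (e * f) (e' * f') := by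
  obtain ⟨a, b, rfl, rfl⟩ := h
  obtain ⟨c, d, rfl, rfl⟩ := h'
  refine ⟨a * c + C ε * (b * d), a * d + b * c, ?_, ?_⟩ <;>
    simp only [map_add, map_mul, aeval_C, ← hi] <;> ring

theorem Rel.self (a : k[X]) : Rel (k := k) ω i (aeval ω a) (aeval ω a) :=
  ⟨a, 0, by simp, by simp⟩

theorem Rel.nat (t : ℕ) : Rel (k := k) ω i (1 + t * i) (1 - t * i) :=
  ⟨1, t, by simp, by simp⟩

theorem norm_eq (hi : i * i = algebraMap k E ε) (a b : k[X]) :
    (aeval ω a + aeval ω b * i) * (aeval ω a - aeval ω b * i) = aeval ω (a ^ 2 - C ε * b ^ 2) := by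
  simp only [map_sub, map_mul, map_pow, aeval_C, ← hi]; ring

theorem exists_inv [FiniteDimensional k E] {n : k[X]} (h : IsUnit (aeval ω n)) :
    ∃ r : k[X], aeval ω n * aeval ω r = 1 := by
  have h1 : aeval ω n ∈ Algebra.adjoin k {ω} := aeval_mem_adjoin_singleton k ω
  have h2 : IsUnit (⟨_, h1⟩ : Algebra.adjoin k {ω}) :=
    Opn.isUnit_of_map k (Algebra.adjoin k {ω}).val.toRingHom Subtype.val_injective h
  obtain ⟨⟨y, hy⟩, e⟩ := h2.exists_right_inv
  rw [Algebra.adjoin_singleton_eq_range_aeval] at hy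
  obtain ⟨r, rfl⟩ := hy
  exact ⟨r, congrArg Subtype.val e⟩

theorem alg [FiniteDimensional k E] (hi : i * i = algebraMap k E ε) {μ μ' : E}
    (hμ : Rel (k := k) ω i μ μ') (hω : μ * μ' = ω) (P : k[X]) (t : ℕ) {w : E}
    (hw : w * ((1 + t * i) * aeval ω P + (1 - t * i) * μ) = 1)
    (hu : IsUnit (aeval ω P + (1 + t * i) * (ω - aeval ω P * aeval ω P) * w)) :
    ∃ p' q' : k[X], ω = aeval ω (p' ^ 2 - C ε * q' ^ 2) ∧ aeval ω p' + aeval ω q' * i =
      aeval ω P + (1 + t * i) * (ω - aeval ω P * aeval ω P) * w := by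
  have hz := ((Rel.nat (k := k) (ω := ω) (i := i) t).mul hi (Rel.self P)).add
    ((Rel.nat t).symm.mul hi hμ)
  generalize aeval ω P = l at *
  generalize hzz : (1 + t * i) * l + (1 - t * i) * μ = z at *
  generalize hzz' : (1 - t * i) * l + (1 + t * i) * μ' = z' at *
  have e1 : l + (1 + t * i) * (ω - l * l) * w = μ * z' * w := by
    rw [← hzz', ← hω]; rw [← hzz] at hw; linear_combination (-l) * hw
  rw [e1] at hu ⊢
  have hzu : IsUnit (z * z') := (IsUnit.of_mul_eq_one w (by rw [mul_comm, hw])).mul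
    (isUnit_of_mul_isUnit_right (isUnit_of_mul_isUnit_left hu))
  obtain ⟨a, b, ha, hb⟩ := id hz
  have hn : z * z' = aeval ω (a ^ 2 - C ε * b ^ 2) := by rw [ha, hb, norm_eq hi]
  obtain ⟨r, hr⟩ := exists_inv (hn ▸ hzu)
  rw [← hn] at hr
  obtain ⟨p', q', h1, h2⟩ := ((hμ.mul hi hz.symm).mul hi hz.symm).mul hi (Rel.self r)
  refine ⟨p', q', ?_, ?_⟩
  · rw [← norm_eq hi, ← h1, ← h2]
    conv_lhs => rw [← hω]
    linear_combination (-μ * μ' * (z * z' * aeval ω r + 1)) * hr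
  · rw [← h1]
    linear_combination (μ * z' * w) * hr - (μ * z' * z' * aeval ω r) * hw

end Alg

theorem core_comm {k E A : Type*} [Field k] [CommRing E] [Algebra k E] [FiniteDimensional k E]
    [Ring A] [Algebra k A] [TopologicalSpace A] [IsTopologicalRing A] [T2Space A]
    {mem : A → A → Prop} (hA : Nice A mem) (j : E →ₐ[k] A) (hj : Function.Injective j)
    {ε : k} {ω i : E} (hi : i * i = algebraMap k E ε) (hε : ε ≠ 0) {p q : k[X]}
    (hω : ω = aeval ω (p ^ 2 - C ε * q ^ 2)) {V : Set A} (hV : IsOpen V)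
    (hVu : ∀ x ∈ V, IsUnit x) {l : A} (hl : l ∈ V) (hl2 : l * l = j ω)
    (hcl : l ∈ closure (Set.range fun P : k[X] => aeval (j ω) P)) :
    ∃ p' q' : k[X], ω = aeval ω (p' ^ 2 - C ε * q' ^ 2) ∧ j (aeval ω p' + aeval ω q' * i) ∈ V := by
  have hμ : Rel (k := k) ω i (aeval ω p + aeval ω q * i) (aeval ω p - aeval ω q * i) :=
    ⟨p, q, rfl, rfl⟩
  have hμω := (norm_eq hi p q).trans hω.symm
  generalize aeval ω p + aeval ω q * i = μ at *
  generalize aeval ω p - aeval ω q * i = μ' at *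
  have hc : ∀ e : E, Commute l (j e) := fun e => by
    refine closure_minimal (t := {y : A | y * j e = j e * y}) ?_
      (isClosed_eq (by fun_prop) (by fun_prop)) hcl
    rintro _ ⟨P, rfl⟩
    simp only [Set.mem_ofPred_eq, aeval_algHom_apply, ← map_mul, mul_comm]
  obtain ⟨L, rfl⟩ := hVu l hl
  have hiu : IsUnit i := isUnit_of_mul_isUnit_left (y := i) (hi ▸ hε.isUnit.map _)
  obtain ⟨t, ht⟩ := (hA.pen (j μ * ↑L⁻¹) (j i) (((Commute.all μ i).map j).mul_left
    (hc i).units_inv_left) (hiu.map j)).infinite_compl.nonempty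
  simp only [Set.mem_compl_iff, Set.mem_ofPred_eq, not_not] at ht
  let z : A → A := fun y => j (1 + t * i) * y + j ((1 - t * i) * μ)
  have hz : IsUnit (z L) := by
    convert ht.mul L.isUnit using 1
    simp only [z, map_mul, map_add, map_sub, map_one, map_natCast, add_mul, mul_assoc, sub_mul,
      one_mul, Units.inv_mul, mul_one, mul_sub]
    abel
  obtain ⟨Z, hZ⟩ := hz
  let g : A × A → A := fun x => x.1 + j (1 + t * i) * (j ω - x.1 * x.1) * x.2
  have hg : Continuous g := by fun_prop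
  have h1 : g ⁻¹' V ∈ 𝓝 ((L : A), (↑Z⁻¹ : A)) :=
    (hV.preimage hg).mem_nhds (by simpa [g, hl2] using hl)
  rw [nhds_prod_eq, mem_prod_iff] at h1
  obtain ⟨V₁, hV₁, V₂, hV₂, h1⟩ := h1
  have h2 := hA.inv Z ↑Z⁻¹ Z.inv_mul Z.mul_inv V₂ hV₂
  rw [hZ] at h2
  have hzc : Continuous z := by fun_prop
  obtain ⟨_, ⟨hy, w, hw, e1, e2⟩, P, rfl⟩ :=
    mem_closure_iff_nhds.1 hcl _ (inter_mem hV₁ (hzc.continuousAt.eventually h2))
  have e3 : z (aeval (j ω) P) = j ((1 + t * i) * aeval ω P + (1 - t * i) * μ) := by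
    simp only [z, aeval_algHom_apply, map_add j, map_mul j]
  simp only [e3] at e1 e2
  obtain ⟨w', hw'⟩ := (Opn.isUnit_of_map k j.toRingHom hj ⟨⟨_, w, e2, e1⟩, rfl⟩).exists_left_inv
  have e4 : j w' = w := by
    rw [← mul_one (j w'), ← e2, ← mul_assoc, ← map_mul, hw', map_one, one_mul]
  have h3 : j (aeval ω P + (1 + t * i) * (ω - aeval ω P * aeval ω P) * w') ∈ V := by
    have := h1 (Set.mk_mem_prod hy hw)
    simpa only [Set.mem_preimage, g, aeval_algHom_apply, ← e4, ← map_mul, ← map_sub, ← map_add]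
      using this
  obtain ⟨p', q', h4, h5⟩ := alg hi hμ hμω P t hw'
    (Opn.isUnit_of_map k j.toRingHom hj (hVu _ h3))
  exact ⟨p', q', h4, h5 ▸ h3⟩

theorem core {k B A : Type*} [Field k] [Ring B] [Algebra k B] [FiniteDimensional k B]
    [Ring A] [Algebra k A] [TopologicalSpace A] [IsTopologicalRing A] [T2Space A]
    (hA : Nice A fun x y => y ∈ closure (Set.range fun P : k[X] => aeval x P))
    (j : B →ₐ[k] A) (hj : Function.Injective j) (ε : k) (i : B) (hi : i * i = algebraMap k B ε)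
    (hε : ε ≠ 0) : ∀ W ∈ comap j (𝓝 (j 1)), ∀ᶠ ω in comap j (𝓝 (j 1)), Commute ω i →
      ∀ p q : k[X], ω = aeval ω (p ^ 2 - C ε * q ^ 2) → ∃ p' q' : k[X],
        ω = aeval ω (p' ^ 2 - C ε * q' ^ 2) ∧ aeval ω p' + aeval ω q' * i ∈ W := by
  rintro W ⟨W₀, hW₀, hW⟩
  rw [map_one] at *
  have hu : {x : A | IsUnit x} ∈ 𝓝 (1 : A) :=
    (hA.inv 1 1 (mul_one _) (mul_one _) _ univ_mem).mono fun y ⟨w, _, h1, h2⟩ =>
      ⟨⟨y, w, h2, h1⟩, rfl⟩
  filter_upwards [preimage_mem_comap (hA.root _ (interior_mem_nhds.2 (inter_mem hW₀ hu)))]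
    with ω ⟨l, hl, hcl, hl2⟩ hc p q hω
  have hs : ∀ x ∈ ({ω, i} : Set B), ∀ y ∈ ({ω, i} : Set B), Commute x y := by
    simp only [Set.mem_insert_iff, Set.mem_singleton_iff, forall_eq_or_imp, forall_eq]
    exact ⟨⟨.refl _, hc⟩, hc.symm, .refl _⟩
  let E := Algebra.adjoin k ({ω, i} : Set B)
  let _ : CommRing E := { (inferInstance : Ring E) with
    mul_comm := fun x y => Subtype.ext
      (Algebra.commute_of_mem_adjoin_of_forall_mem_commute y.2 fun b hb =>
        (Algebra.commute_of_mem_adjoin_of_forall_mem_commute x.2 fun c hc =>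
          hs b hb c hc).symm).eq }
  let ω' : E := ⟨ω, Algebra.subset_adjoin (by simp)⟩
  let i' : E := ⟨i, Algebra.subset_adjoin (by simp)⟩
  have ha : ∀ P : k[X], ((aeval ω' P : E) : B) = aeval ω P := fun P =>
    (aeval_algHom_apply E.val ω' P).symm
  obtain ⟨p', q', h1, h2⟩ := core_comm hA (j.comp E.val) (hj.comp Subtype.val_injective)
    (ε := ε) (ω := ω') (i := i') (Subtype.ext hi) hε (p := p) (q := q)
    (Subtype.ext (hω.trans (ha _).symm)) isOpen_interior
    (fun x hx => (interior_subset hx).2) hl hl2 hcl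
  refine ⟨p', q', (congrArg Subtype.val h1).trans (ha _), hW ?_⟩
  have h3 := (interior_subset h2).1
  rw [← ha, ← ha]
  exact h3

section Loc
variable (k : Type u) (K B : Type*) [Field k] [NumberField k] [Field K] [NumberField K]
  [Algebra k K] [StarRing K] [Quad k K] [Ring B] [StarRing B] [Algebra K B] [StarModule K B]
  [Algebra.IsCentral K B] [IsSimpleRing B] [FiniteDimensional K B] [Algebra k B]
  [IsScalarTower k K B] (S : Finset (Pl k))

/-- scalars -/
def sc (r : RS k S) : AS k K B S := (algebraMap _ _ r.1, fun v => algebraMap _ _ (r.2 v))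

theorem continuous_sc : Continuous (sc k K B S) :=
  ((continuous_algebraMap _ _).comp continuous_fst).prodMk (continuous_pi fun v =>
    (continuous_algebraMap _ _).comp ((continuous_apply v).comp continuous_snd))

theorem sc_alg (c : k) : sc k K B S (algebraMap k _ c) = algebraMap k _ c :=
  Prod.ext (IsScalarTower.algebraMap_apply k (Inf k) _ c).symm
    (funext fun v => (IsScalarTower.algebraMap_apply k (Kv v.1) _ c).symm)

variable {k K B S} in
theorem mem_cl {x y : AS k K B S} (h1 : y.1 ∈ Algebra.adjoin ℝ {x.1})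
    (h2 : ∀ v, y.2 v ∈ Algebra.adjoin (Kv v.1) {x.2 v}) :
    y ∈ closure (Set.range fun P : k[X] => aeval x P) := by
  classical
  let C : Subring (AS k K B S) := (aeval x : k[X] →ₐ[k] _).toRingHom.range.topologicalClosure
  change y ∈ C
  have hx : x ∈ C := subset_closure ⟨X, aeval_X x⟩
  have hs : ∀ r, sc k K B S r ∈ C := fun r => by
    refine (dense_RS S).induction_on (p := fun r => sc k K B S r ∈ C) r
      (isClosed_closure.preimage (continuous_sc k K B S)) fun c => ?_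
    rw [sc_alg]
    exact subset_closure ⟨Polynomial.C c, aeval_C x c⟩
  have a1 : ∀ z ∈ Algebra.adjoin ℝ {x.1}, ((z, 0) : AS k K B S) ∈ C := fun z hz => by
    induction hz using Algebra.adjoin_induction with
    | mem z hz =>
      convert mul_mem (hs (1, 0)) hx using 1
      exact Prod.ext (by simp [sc, Set.mem_singleton_iff.1 hz]) (funext fun v => by simp [sc])
    | algebraMap r =>
      convert hs (algebraMap ℝ (Inf k) r, 0) using 1
      exact Prod.ext rfl (funext fun v => by simp [sc])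
    | add a b _ _ ha hb => simpa using add_mem ha hb
    | mul a b _ _ ha hb => simpa using mul_mem ha hb
  have a2 : ∀ v : S, ∀ z ∈ Algebra.adjoin (Kv v.1) {x.2 v},
      ((0, Pi.single v z) : AS k K B S) ∈ C := fun v z hz => by
    induction hz using Algebra.adjoin_induction with
    | mem z hz =>
      convert mul_mem (hs (0, Pi.single v 1)) hx using 1
      refine Prod.ext (by simp [sc]) (funext fun w => ?_)
      rcases eq_or_ne w v with rfl | h
      · simp [sc, Set.mem_singleton_iff.1 hz]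
      · simp [sc, h]
    | algebraMap r =>
      convert hs (0, Pi.single v r) using 1
      refine Prod.ext (by simp [sc]) (funext fun w => ?_)
      rcases eq_or_ne w v with rfl | h
      · simp [sc]
      · simp [sc, h]
    | add a b _ _ ha hb => simpa [Pi.single_add] using add_mem ha hb
    | mul a b _ _ ha hb => simpa [Pi.single_mul] using mul_mem ha hb
  have e : y = (y.1, 0) + ∑ v : S, ((0, Pi.single v (y.2 v)) : AS k K B S) := by
    refine Prod.ext (by simp [Prod.fst_sum]) ?_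
    rw [Prod.snd_add, Prod.snd_sum, zero_add, Finset.univ_sum_single]
  rw [e]
  exact add_mem (a1 _ h1) (sum_mem fun v _ => a2 v _ (h2 v))

theorem nice_AS :
    Nice (AS k K B S) fun x y => y ∈ closure (Set.range fun P : k[X] => aeval x P) :=
  ((nice_field ℝ (BC k K B (Inf k))).prod (Nice.pi fun v : S =>
    haveI : CharZero (Kv v.1) := algebraRat.charZero _
    nice_field (Kv v.1) (BC k K B (Kv v.1)))).mono fun _ _ h => mem_cl h.1 h.2

theorem tor : Tor k K B := fun ε i hi hε S =>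
  haveI := finite_kB k K B
  core (nice_AS k K B S) (jA k K B S)
    (fun _ _ h => BC.inc_injective k K B (Inf k) (congrArg Prod.fst h)) ε i hi hε

end Loc

end T62

theorem torStmt : TorStmt.{u, v, w} := fun D => T62.tor D.k D.K D.B

end Crest.Agent.T24.Ev
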