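import Crest.Agent.T24.EvBrDef_21
import Crest.Agent.T24.EvTor_62
import Crest.Agent.T24.HolZ_56

/-!
# Row 24, even step (helper21): the algebra `k[ω]⟨i, κ⟩` and the root trick
-/

set_option autoImplicit false
set_option linter.unusedSectionVars false

noncomputable section

namespace Crest.Agent.T24.Ev.B21

open Module NumberField WithZero Csa Asa Topology Filter Polynomial
open scoped Valued

universe u

section Alg
variable {k B : Type*} [Field k] [Ring B] [Algebra k B]

theorem comm_aeval {a b : B} (h : Commute a b) (P : k[X]) : Commute (aeval a P) b := by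
  rw [aeval_eq_sum_range]
  exact Commute.sum_left _ _ _ fun j _ => (h.pow_left j).smul_left _

theorem inverse_mem [FiniteDimensional k B] (C : Subalgebra k B) {x : B} (hx : x ∈ C)
    (hu : IsUnit x) : Ring.inverse x ∈ C := by
  have hinj : Function.Injective (LinearMap.mulLeft k (⟨x, hx⟩ : C)) := fun a b h =>
    Subtype.ext (hu.mul_left_cancel (congrArg Subtype.val h))
  obtain ⟨y, hy⟩ := LinearMap.surjective_of_injective hinj 1
  have h1 : x * y = 1 := congrArg Subtype.val hy
  rw [← mul_one (Ring.inverse x), ← h1, Ring.inverse_mul_cancel_left _ _ hu]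
  exact y.2

/-- the element with given coordinates -/
def el (i κ ω : B) (a b c d : k[X]) : B :=
  aeval ω a + aeval ω b * i + aeval ω c * κ + aeval ω d * (i * κ)

variable {ε : kˣ} {i κ ω : B} {β : k[X]}

theorem el_add (a b c d a' b' c' d' : k[X]) : el i κ ω a b c d + el i κ ω a' b' c' d' =
    el i κ ω (a + a') (b + b') (c + c') (d + d') := by
  simp only [el, map_add, add_mul]; abel

theorem aeval_mul_el (g a b c d : k[X]) : aeval ω g * el i κ ω a b c d =
    el i κ ω (g * a) (g * b) (g * c) (g * d) := by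
  simp only [el, map_mul, mul_add, mul_assoc]

variable [StarRing B]

variable (ε i κ ω β) in
/-- the data of `InQ` -/
structure QD : Prop where
  sω : star ω = ω
  si : star i = -i
  sκ : star κ = -κ
  ii : i * i = algebraMap k B ε
  κκ : κ * κ = aeval ω β
  uκ : IsUnit κ
  κi : κ * i = -(i * κ)
  ωi : Commute ω i
  ωκ : Commute ω κ

theorem QD.i_mul (h : QD ε i κ ω β) (a b c d : k[X]) : i * el i κ ω a b c d =
    el i κ ω (C (ε : k) * b) a (C (ε : k) * d) c := by
  have h1 : ∀ (g : k[X]) (y : B), i * (aeval ω g * y) = aeval ω g * (i * y) := fun g y =>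
    (comm_aeval h.ωi g).symm.left_comm y
  have h2 : i * i = (ε : k) • (1 : B) := by rw [h.ii, Algebra.algebraMap_eq_smul_one]
  have h3 : i * (i * κ) = (ε : k) • κ := by rw [← mul_assoc, h2, smul_mul_assoc, one_mul]
  simp only [el, mul_add, h1, ← (comm_aeval h.ωi a).eq, h2, h3, map_mul, aeval_C,
    ← Algebra.smul_def, mul_smul_comm, smul_mul_assoc, mul_one]
  abel

theorem QD.κ_mul (h : QD ε i κ ω β) (a b c d : k[X]) : κ * el i κ ω a b c d =
    el i κ ω (c * β) (-(d * β)) a (-b) := by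
  have h1 : ∀ (g : k[X]) (y : B), κ * (aeval ω g * y) = aeval ω g * (κ * y) := fun g y =>
    (comm_aeval h.ωκ g).symm.left_comm y
  have h2 : κ * (i * κ) = -(aeval ω β * i) := by
    rw [← mul_assoc, h.κi, neg_mul, mul_assoc, h.κκ, (comm_aeval h.ωi β).eq]
  simp only [el, mul_add, h1, h2, ← (comm_aeval h.ωκ a).eq, h.κκ, h.κi, map_mul, map_neg,
    mul_neg, neg_mul, mul_assoc]
  abel

theorem QD.el_mul (h : QD ε i κ ω β) (a b c d a' b' c' d' : k[X]) :
    el i κ ω a b c d * el i κ ω a' b' c' d' =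
      el i κ ω (a * a' + C (ε : k) * b * b' + β * c * c' - C (ε : k) * β * d * d')
        (a * b' + b * a' - β * c * d' + β * d * c')
        (a * c' + c * a' + C (ε : k) * b * d' - C (ε : k) * d * b')
        (a * d' + d * a' + b * c' - c * b') := by
  conv_lhs => rw [el.eq_def i κ ω a b c d]
  simp only [add_mul, mul_assoc, h.κ_mul, h.i_mul, aeval_mul_el, el_add]
  congr 1 <;> ring

/-- the algebra -/
def QD.alg (h : QD ε i κ ω β) : Subalgebra k B where
  carrier := {x | ∃ a b c d : k[X], x = el i κ ω a b c d}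
  mul_mem' := by
    rintro _ _ ⟨a, b, c, d, rfl⟩ ⟨a', b', c', d', rfl⟩
    exact ⟨_, _, _, _, h.el_mul ..⟩
  add_mem' := by
    rintro _ _ ⟨a, b, c, d, rfl⟩ ⟨a', b', c', d', rfl⟩
    exact ⟨_, _, _, _, el_add ..⟩
  algebraMap_mem' r := ⟨C r, 0, 0, 0, by simp [el]⟩

theorem QD.comm (h : QD ε i κ ω β) (g : k[X]) {x : B} (hx : x ∈ h.alg) : Commute (aeval ω g) x := by
  obtain ⟨a, b, c, d, rfl⟩ := hx
  have h1 : ∀ f : k[X], Commute ω (aeval ω f) := fun f => (comm_aeval (Commute.refl ω) f).symm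
  exact comm_aeval ((((h1 a).add_right ((h1 b).mul_right h.ωi)).add_right
    ((h1 c).mul_right h.ωκ)).add_right ((h1 d).mul_right (h.ωi.mul_right h.ωκ))) g

theorem QD.ui (h : QD ε i κ ω β) : IsUnit i :=
  (isUnit_pow_iff two_ne_zero).1 (by rw [pow_two, h.ii]; exact ε.isUnit.map _)

end Alg

section Words
variable {k : Type u} (K : Type*) {B : Type*} [Field k] [NumberField k] [Field K] [NumberField K]
  [Algebra k K] [StarRing K] [Quad k K] [Ring B] [StarRing B] [Algebra K B] [StarModule K B]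
  [Algebra.IsCentral K B] [IsSimpleRing B] [FiniteDimensional K B] [Algebra k B]
  [IsScalarTower k K B] {ε : kˣ} {i κ ω : B} {β : k[X]}

include K in
theorem star_aeval (x : B) (P : k[X]) : star (aeval x P) = aeval (star x) P := by
  simp only [aeval_eq_sum_range, star_sum, star_ksmul k K B, star_pow]

include K in
theorem QD.star_el (h : QD ε i κ ω β) (a b c d : k[X]) :
    star (el i κ ω a b c d) = el i κ ω a (-b) (-c) (-d) := by
  simp only [el, star_add, star_mul, star_aeval K, h.sω, h.si, h.sκ, neg_mul, mul_neg, neg_neg,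
    h.κi, map_neg, (comm_aeval h.ωi b).eq, (comm_aeval h.ωκ c).eq,
    (comm_aeval (h.ωi.mul_right h.ωκ) d).eq]

include K in
theorem QD.star_mem (h : QD ε i κ ω β) {x : B} (hx : x ∈ h.alg) : star x ∈ h.alg := by
  obtain ⟨a, b, c, d, rfl⟩ := hx
  exact ⟨_, _, _, _, h.star_el K ..⟩

theorem nrd_line (a : B) {u : B} (hu : IsUnit u) :
    ∃ P : K[X], P ≠ 0 ∧ ∀ t : k, Nrd K (a + t • u) = P.eval (algebraMap k K t) := by
  obtain ⟨u, rfl⟩ := hu
  refine ⟨rch K (-(a * (u⁻¹ : Bˣ))) * C (Nrd K (u : B)), mul_ne_zero (rch_monic K _).ne_zero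
    (C_ne_zero.2 ((isUnit_iff_Nrd _).1 u.isUnit)), fun t => ?_⟩
  rw [eval_mul, eval_C, eval_rch, ← map_mul, sub_neg_eq_add, add_mul, Units.inv_mul_cancel_right,
    ← IsScalarTower.algebraMap_apply, ← Algebra.smul_def, add_comm]

theorem QD.nrd_star (h : QD ε i κ ω β) {x : B} (hx : x ∈ h.alg) : Nrd K (star x) = Nrd K x := by
  obtain ⟨a, b, c, d, rfl⟩ := hx
  obtain ⟨P₁, -, h1⟩ := nrd_line (k := k) K (el i κ ω a b c d) h.uκ
  obtain ⟨P₂, -, h2⟩ := nrd_line (k := k) K (star (el i κ ω a b c d)) h.uκ.neg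
  obtain ⟨P₃, h0, h3⟩ := nrd_line (k := k) K (el i κ ω 0 0 (C (ε : k) * d) c) (h.ui.mul h.uκ)
  have key : ∀ t : k, ((P₁ - P₂) * P₃).IsRoot (algebraMap k K t) := fun t => by
    have e1 : el i κ ω a b c d + t • κ = el i κ ω a b (c + C t) d := by
      simp only [el, map_add, aeval_C, add_mul, ← Algebra.smul_def]; abel
    have e2 : star (el i κ ω a b c d) + t • -κ = el i κ ω a (-b) (-(c + C t)) (-d) := by
      rw [← h.star_el K, ← e1, star_add, star_ksmul k K B, h.sκ]
    have e3 : el i κ ω 0 0 (C (ε : k) * d) c + t • (i * κ) =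
        el i κ ω 0 0 (C (ε : k) * d) (c + C t) := by
      simp only [el, map_add, aeval_C, add_mul, ← Algebra.smul_def]; abel
    have e4 : el i κ ω 0 0 (C (ε : k) * d) (c + C t) * el i κ ω a b (c + C t) d =
        el i κ ω a (-b) (-(c + C t)) (-d) * el i κ ω 0 0 (C (ε : k) * d) (c + C t) := by
      rw [h.el_mul, h.el_mul]; congr 1 <;> ring
    have e5 := congrArg (Nrd K) e4
    rw [map_mul, map_mul, ← e1, ← e2, ← e3, h1, h2, h3] at e5
    rw [IsRoot.def, eval_mul, eval_sub]
    linear_combination e5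
  have h4 : (P₁ - P₂) * P₃ = 0 := eq_zero_of_infinite_isRoot _
    ((Set.infinite_range_of_injective (algebraMap k K).injective).mono (by
      rintro _ ⟨t, rfl⟩; exact key t))
  have h5 := sub_eq_zero.1 ((mul_eq_zero.1 h4).resolve_right h0)
  have a1 := h1 0
  have a2 := h2 0
  rw [zero_smul, add_zero] at a1 a2
  rw [a1, a2, h5]

/-- roots, approximated by polynomials -/
theorem root_nb {n : ℕ} (hn : n ≠ 0) (S : Finset (Pl k)) : ∀ᶠ x in nb k K B S 1,
    ∀ V ∈ nb k K B S x, ∃ P : k[X], aeval x P ^ n ∈ V := by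
  have h1 := T62.lift_prod (a := (1 : AS k K B S)) (b := (1 : AS k K B S))
    (p₁ := fun x y => y ∈ Algebra.adjoin ℝ {x} ∧ y ^ n = x)
    (p₂ := fun x y => ∀ v : S, y v ∈ Algebra.adjoin (Kv v.1) {x v} ∧ y v ^ n = x v)
    (fun V hV => (Opn.root_one ℝ (Nat.cast_ne_zero.2 hn) hV).mono
      fun x ⟨y, a, b, c⟩ => ⟨y, b, a, c⟩)
    (T62.lift_pi (p := fun v : S => fun x y => y ∈ Algebra.adjoin (Kv v.1) {x} ∧ y ^ n = x)
      fun v V hV =>
        haveI : CharZero (Kv v.1) := algebraRat.charZero _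
        (Opn.root_one (Kv v.1) (Nat.cast_ne_zero.2 hn) hV).mono
          fun x ⟨y, a, b, c⟩ => ⟨y, b, a, c⟩) Set.univ univ_mem
  rw [← map_one (jA k K B S)] at h1
  filter_upwards [(tendsto_nb.1 tendsto_id).eventually h1] with x ⟨y, _, p1, p2⟩ V hV
  obtain ⟨U, hU, hV⟩ := mem_nb.1 hV
  have h2 : y ^ n = jA k K B S x := Prod.ext p1.2 (funext fun v => (p2 v).2)
  rw [← h2] at hU
  obtain ⟨_, h3, P, rfl⟩ := mem_closure_iff_nhds.1 (T62.mem_cl p1.1 fun v => (p2 v).1) _
    ((continuous_pow n).continuousAt.preimage_mem_nhds hU)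
  exact ⟨P, hV _ (by rwa [map_pow, ← aeval_algHom_apply])⟩

/-- the root trick -/
theorem uniform {N : Subgroup (unitary B)} [N.Normal] (hN : N.relIndex (SU K B) ≠ 0)
    (S : Finset (Pl k)) : ∀ᶠ x in nb k K B S 1, ∀ u : unitary B, (u : B) = x →
      ∀ (ε : kˣ) (i κ ω : B) (β : k[X]) (h : QD ε i κ ω β), x ∈ h.alg →
      (∀ᶠ y in nb k K B S 1, y ∈ h.alg → ∀ u' : unitary B, (u' : B) = y → u' ∈ N) → u ∈ N := by
  have := finite_kB k K B
  have h0 : Tendsto (fun x : B => (2⁻¹ : k) • (1 + x)) (nb k K B S 1) (nb k K B S 1) := by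
    have := nb_smul (nbk_const (2⁻¹ : k)) (nb_add (nb_const (1 : B)) (tendsto_id (x := nb k K B S 1)))
    rwa [← two_smul k, smul_smul, inv_mul_cancel₀ two_ne_zero, one_smul] at this
  filter_upwards [h0.eventually (root_nb K hN S), ev_isUnit h0 isUnit_one]
    with x hx hu u e ε i κ ω β h hq hV
  subst e
  set x₀ : B := (2⁻¹ : k) • (1 + (u : B)) with hx₀
  have c1 : Commute (u : B) (star (u : B)) := u.2.2.trans u.2.1.symm
  have s0 : star x₀ = (2⁻¹ : k) • (1 + star (u : B)) := by
    rw [hx₀, star_ksmul k K B, star_add, star_one]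
  have c2 : Commute x₀ (star x₀) := by
    rw [s0]
    exact (((Commute.one_left _).add_left ((Commute.one_right _).add_right c1)).smul_left
      _).smul_right _
  have c3 : Commute (u : B) x₀ := ((Commute.one_right _).add_right (Commute.refl _)).smul_right _
  have h1 := nb_mul (nb_mul (nb_const (u : B)) (nb_inverse (tendsto_id (x := nb k K B S x₀)) hu))
    (nb_star tendsto_id)
  have e1 : (u : B) * Ring.inverse x₀ * star x₀ = 1 := by
    rw [(Opn.commute_inverse c3).eq, mul_assoc, s0, mul_smul_comm, mul_add, mul_one, u.2.2,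
      add_comm, ← hx₀, Ring.inverse_mul_cancel _ hu]
  rw [e1] at h1
  obtain ⟨P, p1, p2⟩ := hx _ ((h1.eventually hV).and (ev_isUnit tendsto_id hu))
  have q0 : x₀ ∈ h.alg := Subalgebra.smul_mem _ (add_mem (one_mem _) hq) _
  have q1 : aeval x₀ P ∈ h.alg := by
    rw [aeval_eq_sum_range]
    exact sum_mem fun j _ => Subalgebra.smul_mem _ (pow_mem q0 j) _
  have c4 : Commute (aeval x₀ P) (star (aeval x₀ P)) := by
    rw [star_aeval K]; exact comm_aeval (comm_aeval c2.symm P).symm P
  generalize aeval x₀ P = y at p1 p2 q1 c4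
  have hy : IsUnit y := (isUnit_pow_iff hN).1 p2
  have c5 := (Opn.commute_inverse c4.symm).symm
  have e2 : star (Ring.inverse y * star y) * (Ring.inverse y * star y) = 1 := by
    rw [star_mul, star_star, ← Ring.inverse_star, c5.eq, mul_assoc,
      Ring.inverse_mul_cancel_left _ _ hy.star, Ring.mul_inverse_cancel _ hy]
  let z : unitary B := ⟨_, e2, Lan.mul_eq_one_symm (eb k K B) e2⟩
  have hz : z ∈ SU K B := by
    change Nrd K (Ring.inverse y * star y) = 1
    rw [map_mul, h.nrd_star K q1, ← map_mul, Ring.inverse_mul_cancel _ hy, map_one]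
  have e3 : ((u * z ^ N.relIndex (SU K B) : unitary B) : B) = (u : B) *
      Ring.inverse (y ^ N.relIndex (SU K B)) * star (y ^ N.relIndex (SU K B)) := by
    change (u : B) * (Ring.inverse y * star y) ^ N.relIndex (SU K B) = _
    rw [c5.mul_pow, Ring.inverse_pow, star_pow, mul_assoc]
  have := p1 (mul_mem (mul_mem hq (inverse_mem _ (pow_mem q1 _) p2))
    (h.star_mem K (pow_mem q1 _))) _ e3
  exact (mul_mem_cancel_right (N.pow_relIndex_mem hz)).1 this

end Words

end Crest.Agent.T24.Ev.B21
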