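import Crest.Agent.T24.EvA_20
import Crest.Agent.T24.HnAmb_7
import Crest.Agent.T24.AsaB_53

/-!
# Row 24, central step for even degree (helper20): the codimension two lemma
-/

set_option autoImplicit false
set_option linter.unusedSectionVars false

noncomputable section

namespace Crest.Agent.T24.Ev

open Module NumberField WithZero Csa Asa Topology Filter Polynomial

universe u v w

section Ring
variable {A A' Λ Λ' : Type*} [CommRing A] [CommRing A'] [Ring Λ] [Ring Λ'] [Algebra A Λ]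
  [Algebra A' Λ'] {r : ℕ}

/-- the numerator of the curve -/
def Gm (I G : Λ) (t : Fin r → A) (n' n : Fin r → Λ) : Λ :=
  G * (List.ofFn fun j => n' j * ((1 + t j • I) * (1 + t j • I)) * n j).prod

/-- the compression to an eigenspace -/
def Mm (ρ a : A) (I Γ : Λ) : Λ := (ρ • 1 + I) * Γ * (ρ • 1 + I) + (2 * ρ * a) • (ρ • 1 - I)

theorem map_Gm (Φ : Λ →+* Λ') (f : A →+* A') (h : ∀ a x, Φ (a • x) = f a • Φ x) (I G : Λ)
    (t : Fin r → A) (n' n : Fin r → Λ) : Φ (Gm I G t n' n) =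
      Gm (Φ I) (Φ G) (fun j => f (t j)) (fun j => Φ (n' j)) fun j => Φ (n j) := by
  simp only [Gm, map_mul, map_list_prod, List.map_ofFn, Function.comp_def, map_add, map_one, h]

theorem map_Mm (Φ : Λ →+* Λ') (f : A →+* A') (h : ∀ a x, Φ (a • x) = f a • Φ x) (ρ a : A)
    (I Γ : Λ) : Φ (Mm ρ a I Γ) = Mm (f ρ) (f a) (Φ I) (Φ Γ) := by
  simp only [Mm, map_mul, map_add, map_sub, map_one, h, map_ofNat]

variable {ρ : A} {I : Λ}

theorem P_mul (hI : I * I = (ρ * ρ) • 1) (t : A) :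
    (ρ • 1 + I) * (1 + t • I) = (1 + ρ * t) • (ρ • 1 + I) := by
  simp only [mul_add, add_mul, mul_one, one_mul, mul_smul_comm, smul_mul_assoc, hI, smul_add,
    add_smul, one_smul, smul_smul]
  module

theorem mul_P (hI : I * I = (ρ * ρ) • 1) (t : A) :
    (1 + t • I) * (ρ • 1 + I) = (1 + ρ * t) • (ρ • 1 + I) := by
  simp only [mul_add, add_mul, mul_one, one_mul, mul_smul_comm, smul_mul_assoc, hI, smul_add,
    add_smul, one_smul, smul_smul]
  module

theorem prod_mul_P (hI : I * I = (ρ * ρ) • 1) (t : Fin r → A) :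
    (List.ofFn fun j => (1 + t j • I) * (1 + t j • I)).prod * (ρ • 1 + I) =
      (∏ j, (1 + ρ * t j) ^ 2) • (ρ • 1 + I) := by
  induction r with
  | zero => simp
  | succ r ih =>
    rw [List.ofFn_succ, List.prod_cons, mul_assoc, ih, Fin.prod_univ_succ, mul_smul_comm,
      mul_assoc, mul_P hI, mul_smul_comm, mul_P hI, smul_smul, smul_smul]
    congr 1; ring

theorem P_mul_prod (hI : I * I = (ρ * ρ) • 1) (t : Fin r → A) :
    (ρ • 1 + I) * (List.ofFn fun j => (1 + t j • I) * (1 + t j • I)).prod =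
      (∏ j, (1 + ρ * t j) ^ 2) • (ρ • 1 + I) := by
  induction r with
  | zero => simp
  | succ r ih =>
    rw [List.ofFn_succ, List.prod_cons, ← mul_assoc, ← mul_assoc, P_mul hI, smul_mul_assoc,
      P_mul hI, smul_mul_assoc, smul_mul_assoc, ih, Fin.prod_univ_succ, smul_smul, smul_smul]
    congr 1; ring

theorem Mm_one (hI : I * I = (ρ * ρ) • 1) (G : Λ) (t : Fin r → A) :
    Mm ρ (∏ j, (1 + ρ * t j) ^ 2) I (Gm I G t (fun _ => 1) fun _ => 1) =
      (∏ j, (1 + ρ * t j) ^ 2) • Mm ρ 1 I G := by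
  simp only [Mm, Gm, one_mul, mul_one]
  rw [mul_assoc, mul_assoc, prod_mul_P hI, mul_smul_comm, mul_smul_comm, smul_add, smul_smul,
    mul_comm (2 * ρ), mul_assoc]

theorem Mm_mul (hI : I * I = (ρ * ρ) • 1) (Γ Z : Λ) (a a' : A)
    (h1 : (ρ • 1 + I) * Z = a' • (ρ • 1 + I)) (h2 : ((-ρ) • 1 + I) * Z = a • ((-ρ) • 1 + I)) :
    Mm ρ a I Γ * Mm (-ρ) a' I Γ = (8 * (ρ * ρ)) • (((ρ * ρ) • Γ + I * Γ * I) * Z) := by
  set P : Λ := ρ • 1 + I with hP
  set Q : Λ := (-ρ) • 1 + I with hQ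
  have e1 : ρ • (1 : Λ) - I = -Q := by rw [hQ]; module
  have e2 : (-ρ) • (1 : Λ) - I = -P := by rw [hP]; module
  have pq : P * Q = 0 := by
    simp only [hP, hQ, mul_add, add_mul, mul_one, one_mul, mul_smul_comm, smul_mul_assoc, hI]
    module
  have qp : Q * P = 0 := by
    simp only [hP, hQ, mul_add, add_mul, mul_one, one_mul, mul_smul_comm, smul_mul_assoc, hI]
    module
  have pp : P * P = (2 * ρ) • P := by
    simp only [hP, mul_add, add_mul, mul_one, one_mul, mul_smul_comm, smul_mul_assoc, hI]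
    module
  have qq : Q * Q = (-(2 * ρ)) • Q := by
    simp only [hQ, mul_add, add_mul, mul_one, one_mul, mul_smul_comm, smul_mul_assoc, hI]
    module
  have e3 : (2 : A) • ((ρ * ρ) • Γ + I * Γ * I) = P * Γ * P + Q * Γ * Q := by
    simp only [hP, hQ, mul_add, add_mul, mul_one, one_mul, mul_smul_comm, smul_mul_assoc]
    module
  have e4 : (8 * (ρ * ρ)) • (((ρ * ρ) • Γ + I * Γ * I) * Z) =
      (4 * (ρ * ρ)) • (a' • (P * Γ * P) + a • (Q * Γ * Q)) := by
    rw [show 8 * (ρ * ρ) = 4 * (ρ * ρ) * 2 by ring, mul_smul, ← smul_mul_assoc 2, e3, add_mul,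
      mul_assoc _ P, mul_assoc _ Q, h1, h2, mul_smul_comm, mul_smul_comm]
  have a1 : P * Γ * P * (Q * Γ * Q) = 0 := by
    rw [mul_assoc Q, ← mul_assoc _ Q, mul_assoc _ P, pq, mul_zero, zero_mul]
  have a2 : P * Γ * P * P = (2 * ρ) • (P * Γ * P) := by rw [mul_assoc _ P, pp, mul_smul_comm]
  have a3 : Q * (Q * Γ * Q) = (-(2 * ρ)) • (Q * Γ * Q) := by
    rw [← mul_assoc, ← mul_assoc, qq, smul_mul_assoc, smul_mul_assoc]
  rw [e4, Mm, Mm, e1, e2, ← hP, ← hQ]
  simp only [mul_add, add_mul, mul_smul_comm, smul_mul_assoc, mul_neg, neg_mul, a1, a2, a3, qp]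
  module

theorem Mm_dvd (hI : I * I = (ρ * ρ) • 1) (Γ : Λ) (t : Fin r → A) : ∃ Z,
    Mm ρ (∏ j, (1 + ρ * t j) ^ 2) I Γ * Mm (-ρ) (∏ j, (1 + -ρ * t j) ^ 2) I Γ =
      ((ρ * ρ) • Γ + I * Γ * I) * Z := by
  refine ⟨(8 * (ρ * ρ)) • (List.ofFn fun j => (1 + (-t j) • I) * (1 + (-t j) • I)).prod, ?_⟩
  rw [mul_smul_comm]
  refine Mm_mul hI _ _ _ _ ?_ ?_
  · simpa only [mul_neg, neg_mul] using P_mul_prod hI fun j => -t j
  · simpa only [mul_neg, neg_mul, neg_neg] using
      P_mul_prod (ρ := -ρ) (by rwa [neg_mul_neg]) fun j => -t j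

end Ring

section Mat
variable {R R' ι : Type*} [CommRing R] [CommRing R'] [Fintype ι] [DecidableEq ι] {r : ℕ}

theorem mapM_smul (f : R →+* R') (a : R) (x : Matrix ι ι R) :
    f.mapMatrix (a • x) = f a • f.mapMatrix x := by
  ext p q; simp

/-- entries of degree at most `d` -/
def DegLe (M : Matrix ι ι R[X]) (d : ℕ) : Prop := ∀ p q, (M p q).natDegree ≤ d

theorem DegLe.mul {M N : Matrix ι ι R[X]} {d e : ℕ} (h : DegLe M d) (h' : DegLe N e) :
    DegLe (M * N) (d + e) := fun p q =>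
  natDegree_sum_le_of_forall_le _ _ fun j _ => natDegree_mul_le_of_le (h p j) (h' j q)

theorem DegLe.add {M N : Matrix ι ι R[X]} {d : ℕ} (h : DegLe M d) (h' : DegLe N d) :
    DegLe (M + N) d := fun p q => natDegree_add_le_of_degree_le (h p q) (h' p q)

theorem DegLe.smul {M : Matrix ι ι R[X]} {a : R[X]} {d e : ℕ} (ha : a.natDegree ≤ d)
    (h : DegLe M e) : DegLe (a • M) (d + e) := fun p q => natDegree_mul_le_of_le ha (h p q)

theorem degLe_C (M : Matrix ι ι R) : DegLe ((C : R →+* R[X]).mapMatrix M) 0 := fun p q => by simp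

theorem DegLe.mono {M : Matrix ι ι R[X]} {d e : ℕ} (h : DegLe M d) (hd : d ≤ e) : DegLe M e :=
  fun p q => (h p q).trans hd

theorem DegLe.det {M : Matrix ι ι R[X]} {d : ℕ} (h : DegLe M d) :
    M.det.natDegree ≤ Fintype.card ι * d := by
  rw [Matrix.det_apply']
  refine natDegree_sum_le_of_forall_le _ _ fun σ _ => ?_
  rw [← zero_add (_ * d)]
  refine natDegree_mul_le_of_le (by simp) ((natDegree_prod_le _ _).trans ?_)
  simpa using Finset.sum_le_card_nsmul Finset.univ _ d fun i _ => h (σ i) i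

theorem degLe_prod {d : ℕ} (M : Fin r → Matrix ι ι R[X]) (h : ∀ j, DegLe (M j) d) :
    DegLe (List.ofFn M).prod (r * d) := by
  induction r with
  | zero => simpa using degLe_C (1 : Matrix ι ι R)
  | succ r ih =>
    rw [List.ofFn_succ, List.prod_cons]
    exact ((h 0).mul (ih _ fun j => h _)).mono (by rw [Nat.succ_mul, add_comm])

/-- the matrix of the curve -/
def Gp (I G : Matrix ι ι R) (c : Fin r → R) (n' n : Fin r → Matrix ι ι R) : Matrix ι ι R[X] :=
  Gm (C.mapMatrix I) (C.mapMatrix G) (fun j => C (c j) * X) (fun j => C.mapMatrix (n' j))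
    fun j => C.mapMatrix (n j)

/-- the determinant on an eigenspace -/
def Dp (ρ : R) (I G : Matrix ι ι R) (c : Fin r → R) (n' n : Fin r → Matrix ι ι R) : R[X] :=
  (Mm (C ρ) (∏ j, (1 + C ρ * (C (c j) * X)) ^ 2) (C.mapMatrix I) (Gp I G c n' n)).det

theorem mapM_C (f : R →+* R') (M : Matrix ι ι R) :
    (mapRingHom f).mapMatrix (C.mapMatrix M) = C.mapMatrix (f.mapMatrix M) := by
  ext p q : 2; simp

theorem map_Gp (f : R →+* R') (I G : Matrix ι ι R) (c : Fin r → R) (n' n : Fin r → Matrix ι ι R) :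
    (mapRingHom f).mapMatrix (Gp I G c n' n) = Gp (f.mapMatrix I) (f.mapMatrix G)
      (fun j => f (c j)) (fun j => f.mapMatrix (n' j)) fun j => f.mapMatrix (n j) := by
  rw [Gp, map_Gm _ _ (mapM_smul _)]
  simp only [mapM_C, map_mul, coe_mapRingHom, map_C, map_X, Gp]

theorem map_Dp (f : R →+* R') (ρ : R) (I G : Matrix ι ι R) (c : Fin r → R)
    (n' n : Fin r → Matrix ι ι R) : (Dp ρ I G c n' n).map f = Dp (f ρ) (f.mapMatrix I)
      (f.mapMatrix G) (fun j => f (c j)) (fun j => f.mapMatrix (n' j)) fun j => f.mapMatrix (n j) := by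
  rw [Dp, ← coe_mapRingHom, RingHom.map_det, map_Mm _ _ (mapM_smul _), map_Gp, mapM_C]
  simp only [Dp, map_prod, map_pow, map_add, map_one, map_mul, coe_mapRingHom, map_C, map_X]

theorem eval_Gp (s : R) (I G : Matrix ι ι R) (c : Fin r → R) (n' n : Fin r → Matrix ι ι R) :
    (evalRingHom s).mapMatrix (Gp I G c n' n) = Gm I G (fun j => c j * s) n' n := by
  have h : ∀ M : Matrix ι ι R, (evalRingHom s).mapMatrix (C.mapMatrix M) = M := fun M => by
    ext p q; simp
  rw [Gp, map_Gm _ _ (mapM_smul _)]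
  simp only [h, map_mul, coe_evalRingHom, eval_C, eval_X]

theorem deg_lin (a : R) : (C a * X).natDegree ≤ 1 :=
  (natDegree_C_mul_le _ _).trans natDegree_X_le

theorem deg_Dp (ρ : R) (I G : Matrix ι ι R) (c : Fin r → R) (n' n : Fin r → Matrix ι ι R) :
    (Dp ρ I G c n' n).natDegree ≤ Fintype.card ι * (r * 2) := by
  have h1 : DegLe (1 : Matrix ι ι R[X]) 0 := by simpa using degLe_C (1 : Matrix ι ι R)
  have h2 : ∀ j, DegLe (1 + (C (c j) * X) • C.mapMatrix I) 1 := fun j =>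
    (h1.mono (by omega)).add (DegLe.smul (deg_lin _) (degLe_C I))
  have h3 : DegLe (Gp I G c n' n) (r * 2) := by
    exact ((degLe_C G).mul (degLe_prod _ fun j =>
      ((degLe_C (n' j)).mul ((h2 j).mul (h2 j))).mul (degLe_C (n j)))).mono (by simp)
  have h4 : DegLe (C ρ • 1 + C.mapMatrix I) 0 :=
    (DegLe.smul (d := 0) (by simp) h1).add (degLe_C I)
  have h5 : DegLe (C ρ • 1 - C.mapMatrix I) 0 := by
    rw [sub_eq_add_neg, ← map_neg]
    exact (DegLe.smul (d := 0) (by simp) h1).add (degLe_C _)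
  have h6 : (∏ j, (1 + C ρ * (C (c j) * X)) ^ 2).natDegree ≤ r * 2 := by
    refine (natDegree_prod_le _ _).trans ?_
    simpa using Finset.sum_le_card_nsmul Finset.univ _ 2 fun j _ =>
      natDegree_pow_le_of_le 2 (natDegree_add_le_of_degree_le (p := (1 : R[X])) (by simp)
        ((natDegree_C_mul_le ρ _).trans (deg_lin (c j))))
  refine DegLe.det (DegLe.add (by simpa using (h4.mul h3).mul h4) ?_)
  have h7 : (2 * C ρ * ∏ j, (1 + C ρ * (C (c j) * X)) ^ 2).natDegree ≤ r * 2 := by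
    rw [show (2 : R[X]) * C ρ = C (2 * ρ) by simp [map_ofNat]]
    exact (natDegree_C_mul_le _ _).trans h6
  exact (DegLe.smul h7 h5).mono (by simp)

theorem sq_C {ρ : R} {I : Matrix ι ι R} (hI : I * I = (ρ * ρ) • 1) :
    C.mapMatrix I * C.mapMatrix I = (C ρ * C ρ) • (1 : Matrix ι ι R[X]) := by
  rw [← map_mul, hI, mapM_smul, map_mul, map_one]

theorem Dp_one {ρ : R} {I : Matrix ι ι R} (hI : I * I = (ρ * ρ) • 1) (G : Matrix ι ι R)
    (c : Fin r → R) : Dp ρ I G c (fun _ => 1) (fun _ => 1) =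
      C (Mm ρ 1 I G).det * (∏ j, (1 + C ρ * (C (c j) * X)) ^ 2) ^ Fintype.card ι := by
  simp only [Dp, Gp, map_one]
  rw [Mm_one (sq_C hI), Matrix.det_smul, mul_comm, RingHom.map_det, map_Mm _ _ (mapM_smul _),
    map_one]

theorem Dp_dvd {ρ : R} {I : Matrix ι ι R} (hI : I * I = (ρ * ρ) • 1) (G : Matrix ι ι R)
    (c : Fin r → R) (n' n : Fin r → Matrix ι ι R) :
    (C (ρ * ρ) • Gp I G c n' n + C.mapMatrix I * Gp I G c n' n * C.mapMatrix I).det ∣
      Dp ρ I G c n' n * Dp (-ρ) I G c n' n := by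
  obtain ⟨Z, hZ⟩ := Mm_dvd (sq_C hI) (Gp I G c n' n) fun j => C (c j) * X
  refine ⟨Z.det, ?_⟩
  rw [Dp, Dp, map_neg, ← Matrix.det_mul, hZ, Matrix.det_mul, map_mul]

theorem res_one {F : Type*} [Field F] [CharZero F] {ρ : F} (hρ : ρ ≠ 0) {I : Matrix ι ι F}
    (hI : I * I = (ρ * ρ) • 1) {G : Matrix ι ι F} (hG : ((ρ * ρ) • G + I * G * I).det ≠ 0)
    {c : Fin r → F} (hc : ∀ j l, c j + c l ≠ 0) :
    resultant (Dp ρ I G c (fun _ => 1) fun _ => 1) (Dp (-ρ) I G c (fun _ => 1) fun _ => 1)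
      (Fintype.card ι * (r * 2)) (Fintype.card ι * (r * 2)) ≠ 0 := by
  have hI' : I * I = (-ρ * -ρ) • 1 := by rwa [neg_mul_neg]
  have hc0 : ∀ j, c j ≠ 0 := fun j h => hc j j (by simp [h])
  have hu : (Mm ρ 1 I G).det * (Mm (-ρ) 1 I G).det ≠ 0 := by
    rw [← Matrix.det_mul, Mm_mul hI G 1 1 1 (by simp) (by simp), mul_one, Matrix.det_smul]
    exact mul_ne_zero (pow_ne_zero _ (by simp [hρ])) hG
  have hd : ∀ {σ u : F}, σ ≠ 0 → u ≠ 0 →
      (C u * (∏ j, (1 + C σ * (C (c j) * X)) ^ 2) ^ Fintype.card ι).natDegree =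
        Fintype.card ι * (r * 2) := by
    intro σ u hσ hu
    have h1 : ∀ j, (1 + C σ * (C (c j) * X)).natDegree = 1 := fun j => by
      rw [← mul_assoc, ← map_mul, add_comm, ← C_1]
      exact natDegree_linear (mul_ne_zero hσ (hc0 j))
    rw [natDegree_C_mul hu, natDegree_pow, natDegree_prod _ _ fun j _ => pow_ne_zero _ fun h => by
      simpa [h] using h1 j]
    simp [natDegree_pow, h1]
  rw [Dp_one hI, Dp_one hI']
  have h1 := hd hρ (left_ne_zero_of_mul hu)
  have h2 := hd (neg_ne_zero.2 hρ) (right_ne_zero_of_mul hu)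
  conv => enter [1, 3]; rw [← h1]
  conv => enter [1, 4]; rw [← h2]
  refine resultant_ne_zero _ _ ?_
  rw [isCoprime_mul_unit_left_left (isUnit_C.2 (left_ne_zero_of_mul hu).isUnit),
    isCoprime_mul_unit_left_right (isUnit_C.2 (right_ne_zero_of_mul hu).isUnit)]
  refine IsCoprime.pow (IsCoprime.prod_left fun j _ => IsCoprime.prod_right fun l _ =>
    IsCoprime.pow ⟨C (c l / (c j + c l)), C (c j / (c j + c l)), ?_⟩)
  have h3 := hc j l
  have h4 : c l / (c j + c l) + c j / (c j + c l) = 1 := by field_simp; ring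
  have h5 : c l / (c j + c l) * (ρ * c j) + c j / (c j + c l) * (-ρ * c l) = 0 := by
    field_simp; ring
  have h6 := congrArg C h4
  have h7 := congrArg C h5
  simp only [map_add, map_mul, map_one, map_zero] at h6 h7
  linear_combination h6 + h7 * X

/-- the resultant -/
def Rs (ρ : R) (I G : Matrix ι ι R) (c : Fin r → R) (n' n : Fin r → Matrix ι ι R) : R :=
  resultant (Dp ρ I G c n' n) (Dp (-ρ) I G c n' n) (Fintype.card ι * (r * 2))
    (Fintype.card ι * (r * 2))

theorem map_Rs (f : R →+* R') (ρ : R) (I G : Matrix ι ι R) (c : Fin r → R)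
    (n' n : Fin r → Matrix ι ι R) : f (Rs ρ I G c n' n) = Rs (f ρ) (f.mapMatrix I)
      (f.mapMatrix G) (fun j => f (c j)) (fun j => f.mapMatrix (n' j)) fun j => f.mapMatrix (n j) := by
  rw [Rs, ← resultant_map_map, map_Dp, map_Dp, map_neg, Rs]

theorem continuous_Rs [TopologicalSpace R] [IsTopologicalRing R] (ρ : R) (I G : Matrix ι ι R)
    (c : Fin r → R) {T : Type*} [TopologicalSpace T] {n' n : T → Fin r → Matrix ι ι R}
    (h' : ∀ j, Continuous fun x => n' x j) (h : ∀ j, Continuous fun x => n x j) :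
    Continuous fun x => Rs ρ I G c (n' x) (n x) := by
  let a := algebraMap R C(T, R)
  let Φ : C(T, R) := Rs (a ρ) (a.mapMatrix I) (a.mapMatrix G) (fun j => a (c j))
    (fun j p q => ⟨fun x => n' x j p q, (h' j).matrix_elem p q⟩)
    fun j p q => ⟨fun x => n x j p q, (h j).matrix_elem p q⟩
  convert Φ.continuous using 1
  funext x
  have e : ∀ M : Matrix ι ι R,
      (ContinuousMap.evalAlgHom R R x).toRingHom.mapMatrix (a.mapMatrix M) = M := fun M => by
    ext p q; simp [a]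
  have := map_Rs (ContinuousMap.evalAlgHom R R x).toRingHom (a ρ) (a.mapMatrix I) (a.mapMatrix G)
    (fun j => a (c j)) (fun j p q => ⟨fun x => n' x j p q, (h' j).matrix_elem p q⟩)
    fun j p q => ⟨fun x => n x j p q, (h j).matrix_elem p q⟩
  rw [e, e] at this
  refine Eq.trans ?_ this.symm
  congr 1

theorem sq_map (f : R →+* R') {ε : R} {σ : R'} (h : f ε = σ * σ) {I : Matrix ι ι R}
    (hI : I * I = ε • 1) : f.mapMatrix I * f.mapMatrix I = (σ * σ) • 1 := by
  rw [← map_mul, hI, mapM_smul, map_one, h]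

theorem Rs_one {k F : Type*} [Field k] [Field F] [CharZero F] (a : k →+* F) {ε : k} {ρ : F}
    (hρ : a ε = ρ * ρ) (hε : ε ≠ 0) {I G : Matrix ι ι k} (hI : I * I = ε • 1)
    (hG : (ε • G + I * G * I).det ≠ 0) {c : Fin r → k} (hc : ∀ j l, c j + c l ≠ 0) :
    Rs ρ (a.mapMatrix I) (a.mapMatrix G) (fun j => a (c j)) (fun _ => 1) (fun _ => 1) ≠ 0 := by
  refine res_one ?_ (sq_map a hρ hI) ?_ fun j l => ?_
  · rintro rfl
    exact hε (by simpa using hρ)
  · rw [← hρ, ← mapM_smul, ← map_mul, ← map_mul, ← map_add, ← RingHom.map_det]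
    exact (_root_.map_ne_zero a).2 hG
  · rw [← map_add]; exact (_root_.map_ne_zero a).2 (hc j l)

end Mat

section Num
variable {k : Type u} [Field k] [NumberField k]

theorem val_norm_eq_one {v : Pl k} {ε : kˣ} (hε : ε ∉ Hn.Sq v) (h2 : v.valuation k 2 = 1)
    (he : v.valuation k (ε : k) = 1) {a b : k} (ha : v.valuation k a ≤ 1)
    (hb : v.valuation k b ≤ 1) (h : v.valuation k a = 1 ∨ v.valuation k b = 1) :
    v.valuation k (a ^ 2 - ε * b ^ 2) = 1 := by
  have h1 : v.valuation k (a ^ 2) ≤ 1 := by rw [map_pow]; exact pow_le_one' ha 2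
  have h3 : v.valuation k (ε * b ^ 2) ≤ 1 := by
    rw [map_mul, he, one_mul, map_pow]; exact pow_le_one' hb 2
  refine le_antisymm (Valuation.map_sub_le _ h1 h3) (not_lt.1 fun hlt => hε ?_)
  have ha1 : v.valuation k a = 1 := by
    refine h.elim id fun hb1 => ?_
    have h4 : v.valuation k (ε * b ^ 2) = 1 := by rw [map_mul, he, map_pow, hb1]; simp
    have h5 := Valuation.map_add_eq_of_lt_right (v.valuation k) (hlt.trans_eq h4.symm)
    rw [sub_add_cancel, h4, map_pow] at h5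
    exact (pow_eq_one_iff_of_nonneg zero_le two_ne_zero).1 h5
  have h0 : a ≠ 0 := by rintro rfl; simp at ha1
  refine ⟨b / a, ?_⟩
  have e : (ε : k) * (b / a) ^ 2 - 1 = -(a ^ 2 - ε * b ^ 2) / a ^ 2 := by field_simp; ring
  rw [e, map_div₀, Valuation.map_neg, map_pow, ha1, show (4 : k) = 2 * 2 by norm_num, map_mul, h2]
  simpa using hlt

theorem ev_intP (f : k[X]) : ∀ᶠ v : Pl k in cofinite, IntP (v.valuation k) f :=
  eventually_cofinite.2 (finite_not_intP f)

theorem ev_val_one {x : k} (hx : x ≠ 0) : ∀ᶠ v : Pl k in cofinite, v.valuation k x = 1 :=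
  eventually_cofinite.2 (finite_ne_one hx)

theorem ev_unit (ε : kˣ) {A B Y : k[X]} (h : IsCoprime A B) (hY : Y ∣ A ^ 2 - C (ε : k) * B ^ 2) :
    ∀ᶠ v : Pl k in cofinite, ε ∉ Hn.Sq v → ∀ s : k, v.valuation k s ≤ 1 →
      v.valuation k (Y.eval s) = 1 := by
  obtain ⟨p, q, h⟩ := h
  obtain ⟨Z, hZ⟩ := hY
  filter_upwards [ev_intP p, ev_intP q, ev_intP A, ev_intP B, ev_intP Y, ev_intP Z,
    ev_val_one (two_ne_zero (α := k)), ev_val_one ε.ne_zero] with v h1 h2 h3 h4 h5 h6 h7 h8 hv s hs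
  have h9 := val_norm_eq_one hv h7 h8 (h3.eval_le hs) (h4.eval_le hs) (unit_or h h1 h2 h3 h4 hs)
  have h10 := congrArg (eval s) hZ
  simp only [eval_sub, eval_mul, eval_pow, eval_C] at h10
  rw [h10, map_mul] at h9
  exact le_antisymm (h5.eval_le hs) (not_lt.1 fun hlt =>
    (mul_lt_one_of_lt_of_le hlt (h6.eval_le hs)).ne h9)

theorem exists_re_im (ε : k) (f : (QuadraticAlgebra k ε 0)[X]) : ∃ A B : k[X],
    f = A.map (algebraMap k _) + C QuadraticAlgebra.omega * B.map (algebraMap k _) := by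
  induction f using Polynomial.induction_on' with
  | add p q hp hq =>
    obtain ⟨A, B, rfl⟩ := hp
    obtain ⟨A', B', rfl⟩ := hq
    exact ⟨A + A', B + B', by simp only [Polynomial.map_add]; ring⟩
  | monomial n z =>
    refine ⟨monomial n z.re, monomial n z.im, ?_⟩
    rw [map_monomial, map_monomial, C_mul_monomial, ← map_add]
    congr 1
    ext <;> simp

theorem exists_coprime' {ι E F : Type*} [Fintype ι] [DecidableEq ι] [Field E] [CommRing F] {r : ℕ}
    (b : k →+* E) (φ : E →+* F) (σ : E →+* E) {ε : k} {ω : E} (hω : b ε = ω * ω)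
    (hσ : ∀ x, σ (b x) = b x) (hs : σ ω = -ω)
    (hE : ∀ f : E[X], ∃ A B : k[X], f = A.map b + C ω * B.map b) {I G : Matrix ι ι k}
    (hI : I * I = ε • 1) {c : Fin r → k} {n' n : Fin r → Matrix ι ι k}
    (hd : Fintype.card ι * (r * 2) ≠ 0)
    (h3 : Rs (φ ω) ((φ.comp b).mapMatrix I) ((φ.comp b).mapMatrix G)
      (fun j => φ.comp b (c j)) (fun j => (φ.comp b).mapMatrix (n' j))
      (fun j => (φ.comp b).mapMatrix (n j)) ≠ 0) :
    ∃ A A' : k[X], IsCoprime A A' ∧
      (C ε • Gp I G c n' n + C.mapMatrix I * Gp I G c n' n * C.mapMatrix I).det ∣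
        A ^ 2 - C ε * A' ^ 2 := by
  obtain ⟨f, hf⟩ : ∃ f : E → E[X], ∀ σ, f σ = Dp σ (b.mapMatrix I) (b.mapMatrix G)
    (fun j => b (c j)) (fun j => b.mapMatrix (n' j)) fun j => b.mapMatrix (n j) := ⟨_, fun _ => rfl⟩
  have hm' : ∀ M : Matrix ι ι k, σ.mapMatrix (b.mapMatrix M) = b.mapMatrix M := fun M => by
    ext p q
    exact hσ _
  obtain ⟨z, hz⟩ : ∃ z, z = resultant (f ω) (f (-ω)) (Fintype.card ι * (r * 2))
    (Fintype.card ι * (r * 2)) := ⟨_, rfl⟩
  have h4 : z ≠ 0 := by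
    intro h0
    have := map_Rs φ ω (b.mapMatrix I) (b.mapMatrix G)
      (fun j => b (c j)) (fun j => b.mapMatrix (n' j)) fun j => b.mapMatrix (n j)
    rw [Rs, ← hf, ← hf, ← hz, h0, map_zero] at this
    exact h3 this.symm
  have h5 : IsCoprime (f ω) (f (-ω)) := by
    obtain ⟨p, q, -, -, h⟩ := exists_mul_add_mul_eq_C_resultant (f ω) (f (-ω))
      (hf ω ▸ deg_Dp ..) (hf (-ω) ▸ deg_Dp ..) (Or.inl hd)
    refine ⟨C z⁻¹ * p, C z⁻¹ * q, ?_⟩
    rw [mul_assoc, mul_assoc, ← mul_add, mul_comm p, mul_comm q, h, ← hz, ← map_mul,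
      inv_mul_cancel₀ h4, map_one]
  obtain ⟨A, A', hA⟩ := hE (f ω)
  have hA' : f (-ω) = A.map b - C ω * A'.map b := by
    have h6 : (f ω).map σ = f (-ω) := by
      rw [hf, hf, map_Dp]
      simp only [hm', hs, hσ]
    rw [← h6, hA, Polynomial.map_add, Polynomial.map_mul, map_C, Polynomial.map_map,
      Polynomial.map_map,
      show σ.comp b = b from RingHom.ext hσ, hs, map_neg, neg_mul, sub_eq_add_neg]
  refine ⟨A, A', ?_, ?_⟩
  · obtain ⟨p, q, h⟩ := h5
    rw [hA', hA] at h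
    exact (isCoprime_map b).1 ⟨p + q, C ω * (p - q), by linear_combination h⟩
  · rw [← map_dvd_map' b]
    have h9 : (A ^ 2 - C ε * A' ^ 2).map b = f ω * f (-ω) := by
      rw [hA', hA]
      simp only [Polynomial.map_sub, Polynomial.map_mul, Polynomial.map_pow, map_C, hω, map_mul]
      ring
    rw [h9, ← coe_mapRingHom, RingHom.map_det, map_add, mapM_smul, map_mul, map_mul, map_Gp,
      mapM_C, coe_mapRingHom, map_C, hω, hf, hf]
    exact Dp_dvd (sq_map b hω hI) _ _ _ _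

theorem exists_coprime {ι F : Type*} [Fintype ι] [DecidableEq ι] [CommRing F] [Algebra k F] {r : ℕ}
    {ε : k} (hε : ¬ IsSquare ε) {ρ : F} (hρ : algebraMap k F ε = ρ * ρ) {I G : Matrix ι ι k}
    (hI : I * I = ε • 1) {c : Fin r → k} {n' n : Fin r → Matrix ι ι k}
    (hd : Fintype.card ι * (r * 2) ≠ 0)
    (h3 : Rs ρ ((algebraMap k F).mapMatrix I) ((algebraMap k F).mapMatrix G)
      (fun j => algebraMap k F (c j)) (fun j => (algebraMap k F).mapMatrix (n' j))
      (fun j => (algebraMap k F).mapMatrix (n j)) ≠ 0) :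
    ∃ A A' : k[X], IsCoprime A A' ∧
      (C ε • Gp I G c n' n + C.mapMatrix I * Gp I G c n' n * C.mapMatrix I).det ∣
        A ^ 2 - C ε * A' ^ 2 := by
  have : Fact (∀ x : k, x ^ 2 ≠ ε + 0 * x) := ⟨fun x hx => hε ⟨x, by rw [← pow_two, hx]; simp⟩⟩
  let φ : QuadraticAlgebra k ε 0 →ₐ[k] F := QuadraticAlgebra.lift ⟨ρ, by
    rw [← hρ, zero_smul, add_zero, Algebra.algebraMap_eq_smul_one]⟩
  have hφ : φ.toRingHom QuadraticAlgebra.omega = ρ := by simp [φ, QuadraticAlgebra.lift]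
  have hb : φ.toRingHom.comp (algebraMap k _) = algebraMap k F := φ.comp_algebraMap
  refine exists_coprime' (algebraMap k (QuadraticAlgebra k ε 0)) φ.toRingHom
    (Hn.qconj ε).toRingEquiv.toRingHom (ω := QuadraticAlgebra.omega)
    (by rw [QuadraticAlgebra.omega_mul_omega_eq_mk]; rfl) (Hn.qconj ε).commutes (Hn.qd_quad ε).conj
    (exists_re_im ε) hI hd ?_
  rw [hφ, hb]
  exact h3

end Num

section Cop
variable (k : Type u) (K B : Type*) [Field k] [NumberField k] [Field K] [NumberField K]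
  [Algebra k K] [StarRing K] [Quad k K] [Ring B] [StarRing B] [Algebra K B] [StarModule K B]
  [Algebra.IsCentral K B] [IsSimpleRing B] [FiniteDimensional K B] [Algebra k B]
  [IsScalarTower k K B]

/-- the regular representation -/
abbrev Lk : B →ₐ[k] Matrix (Fin (finrank k B)) (Fin (finrank k B)) k :=
  Algebra.leftMulMatrix (eb k K B)

/-- the regular representation after base change -/
abbrev LR (R : Type*) [CommRing R] [Algebra k R] :
    BC k K B R →ₐ[R] Matrix (Fin (finrank k B)) (Fin (finrank k B)) R :=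
  Algebra.leftMulMatrix (BC.bas k K B R (eb k K B))

variable {k K B}

theorem LR_inc (R : Type*) [CommRing R] [Algebra k R] (x : B) :
    LR k K B R (BC.inc k K B R x) = (algebraMap k R).mapMatrix (Lk k K B x) := by
  ext p q
  rw [Algebra.leftMulMatrix_eq_repr_mul, BC.bas_apply, ← map_mul, BC.repr_inc]
  simp [Algebra.leftMulMatrix_eq_repr_mul]

theorem continuous_LR (R : Type*) [CommRing R] [Algebra k R] [TopologicalSpace R]
    [IsTopologicalRing R] : Continuous (LR k K B R) :=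
  IsModuleTopology.continuous_of_linearMap (LR k K B R).toLinearMap

theorem norm_eq (x : B) : Algebra.norm k x = (Lk k K B x).det :=
  Algebra.norm_eq_matrix_det _ _

variable (k K B) in
theorem cop : Cop k K B := by
  intro ε i hi hε G hG r c hc v₂ hv₂
  rcases Nat.eq_zero_or_pos r with rfl | hr
  · refine ⟨Set.univ, univ_mem, fun n _ => (ev_val_one hG).mono fun v hv _ s _ => ?_⟩
    simpa [crv] using hv
  have : Nontrivial B := IsSimpleRing.instNontrivial
  have := finite_kB k K B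
  have hN : 0 < finrank k B := finrank_pos
  obtain ⟨ρ, hρ⟩ := (Hn.Loc.mem_Sq_iff v₂ ε).1 hv₂
  have hI : Lk k K B i * Lk k K B i = (ε : k) • 1 := by
    rw [← map_mul, hi, AlgHom.commutes, Algebra.algebraMap_eq_smul_one]
  have hpl : ∀ x : B, Algebra.norm k (pl (ε : k) i x) =
      ((ε : k) • Lk k K B x + Lk k K B i * Lk k K B x * Lk k K B i).det := fun x => by
    rw [norm_eq (K := K), pl, map_add, map_smul, map_mul, map_mul]
  let a := algebraMap k (Kv v₂)
  have : CharZero (Kv v₂) := algebraRat.charZero _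
  have h0 := continuous_Rs ρ (a.mapMatrix (Lk k K B i)) (a.mapMatrix (Lk k K B G))
    (fun j => a (c j)) (T := Fin r → BC k K B (Kv v₂))
    (n' := fun x j => LR k K B _ (star (x j))) (n := fun x j => LR k K B _ (x j))
    (fun j => (continuous_LR _).comp (continuous_apply j).star)
    fun j => (continuous_LR _).comp (continuous_apply j)
  have h1 := Rs_one a hρ ε.ne_zero hI (hpl G ▸ hG) hc
  have h2 := (h0.continuousAt (x := 1)).eventually_ne (y := 0) (by
    simpa only [Pi.one_apply, star_one, map_one] using h1)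
  rw [nhds_pi, Filter.Eventually, mem_pi] at h2
  obtain ⟨I, -, t, ht, hsub⟩ := h2
  refine ⟨⋂ j, t j, iInter_mem.2 ht, fun n hn => ?_⟩
  have h3 := hsub (a := fun j => BC.inc k K B _ (n j)) fun j _ => Set.mem_iInter.1 (hn j) j
  simp only [Set.mem_ofPred_eq, BC.star_inc, LR_inc] at h3
  obtain ⟨A, A', h7, h8⟩ := exists_coprime hε hρ hI (by simp; omega) h3
  filter_upwards [ev_unit ε h7 h8] with v hv h0 s hs
  convert hv h0 s hs using 2
  have h10 : ∀ M : Matrix (Fin (finrank k B)) (Fin (finrank k B)) k,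
      (evalRingHom s).mapMatrix (C.mapMatrix M) = M := fun M => by ext p q; simp
  rw [← coe_evalRingHom, RingHom.map_det, map_add, mapM_smul, map_mul, map_mul, eval_Gp, h10,
    hpl, coe_evalRingHom, eval_C]
  have h11 := map_Gm (Lk k K B).toRingHom (RingHom.id k) (fun a x => map_smul (Lk k K B) a x) i G
    (fun j => c j * s) (fun j => star (n j)) n
  exact congrArg (fun M => ((ε : k) • M + Lk k K B i * M * Lk k K B i).det) h11

end Cop

theorem copStmt : CopStmt.{u, v, w} := fun D => cop D.k D.K D.B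

end Crest.Agent.T24.Ev
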