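import Crest.Agent.T24.EvDef_20

/-!
# Row 24, even step (helper21): the curve `uu`
-/

set_option autoImplicit false
set_option linter.unusedSectionVars false

noncomputable section

namespace Crest.Agent.T24.Ev

open Module NumberField WithZero Csa Asa Topology Filter Polynomial

section U
variable {k : Type*} {B : Type*} [Field k] [Ring B] [Algebra k B]

theorem plus_mul_minus {ε : k} {i : B} (h : i * i = algebraMap k B ε) (s : k) :
    (1 + s • i) * (1 - s • i) = (1 - ε * s ^ 2) • (1 : B) := by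
  have h1 : (s • i) * (s • i) = (ε * s ^ 2) • (1 : B) := by
    rw [smul_mul_smul_comm, h, Algebra.algebraMap_eq_smul_one, smul_smul]; congr 1; ring
  rw [sub_smul, ← h1, one_smul]; generalize s • i = x; noncomm_ring

theorem minus_mul_plus {ε : k} {i : B} (h : i * i = algebraMap k B ε) (s : k) :
    (1 - s • i) * (1 + s • i) = (1 - ε * s ^ 2) • (1 : B) := by
  rw [← plus_mul_minus h s]; generalize s • i = x; noncomm_ring

@[simp] theorem uu_zero (ε : k) (i : B) : uu ε i 0 = 1 := by simp [uu]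

/-- the coordinates of `uu` -/
theorem uu_eq {ε : k} {i : B} (h : i * i = algebraMap k B ε) (s : k) :
    uu ε i s = ((1 - ε * s ^ 2)⁻¹ * (1 + ε * s ^ 2)) • (1 : B) +
      ((1 - ε * s ^ 2)⁻¹ * (2 * s)) • i := by
  have h1 : (s • i) * (s • i) = (ε * s ^ 2) • (1 : B) := by
    rw [smul_mul_smul_comm, h, Algebra.algebraMap_eq_smul_one, smul_smul]; congr 1; ring
  have h2 : (1 + s • i) * (1 + s • i) = (1 + ε * s ^ 2) • (1 : B) + (2 * s) • i := by
    rw [add_smul, ← h1, one_smul, two_mul, add_smul]; generalize s • i = x; noncomm_ring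
  rw [uu, h2, smul_add, smul_smul, smul_smul]

theorem uu_commute (ε : k) (i : B) (s : k) : Commute (uu ε i s) i := by
  have h : Commute (1 + s • i) i := (Commute.one_left i).add_left ((Commute.refl i).smul_left s)
  exact (h.mul_left h).smul_left _

theorem uu_mul_minus {ε : k} {i : B} (h : i * i = algebraMap k B ε) {s : k}
    (hs : 1 - ε * s ^ 2 ≠ 0) : uu ε i s * (1 - s • i) = 1 + s • i := by
  rw [uu, smul_mul_assoc, mul_assoc, plus_mul_minus h, mul_smul_comm, mul_one, smul_smul,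
    inv_mul_cancel₀ hs, one_smul]

theorem uu_neg (ε : k) (i : B) (s : k) :
    uu ε i (-s) = (1 - ε * s ^ 2)⁻¹ • ((1 - s • i) * (1 - s • i)) := by
  rw [uu, neg_sq, neg_smul, ← sub_eq_add_neg]

theorem uu_mul_neg {ε : k} {i : B} (h : i * i = algebraMap k B ε) {s : k}
    (hs : 1 - ε * s ^ 2 ≠ 0) : uu ε i s * uu ε i (-s) = 1 := by
  rw [uu_neg, mul_smul_comm, ← mul_assoc, uu_mul_minus h hs, plus_mul_minus h, smul_smul,
    inv_mul_cancel₀ hs, one_smul]

theorem uu_neg_mul {ε : k} {i : B} (h : i * i = algebraMap k B ε) {s : k}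
    (hs : 1 - ε * s ^ 2 ≠ 0) : uu ε i (-s) * uu ε i s = 1 := by
  have := uu_mul_neg h (s := -s) (by rwa [neg_sq])
  rwa [neg_neg] at this

theorem one_sub_ne_of {ε : k} (h : ¬ IsSquare ε) (s : k) : 1 - ε * s ^ 2 ≠ 0 := fun h0 => by
  have hs : s ≠ 0 := by rintro rfl; simp at h0
  exact h ⟨s⁻¹, by field_simp; linear_combination -h0⟩

theorem isUnit_minus {ε : k} {i : B} (h : i * i = algebraMap k B ε) {s : k}
    (hs : 1 - ε * s ^ 2 ≠ 0) : IsUnit (1 - s • i) :=
  ⟨⟨1 - s • i, (1 - ε * s ^ 2)⁻¹ • (1 + s • i),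
    by rw [mul_smul_comm, minus_mul_plus h, smul_smul, inv_mul_cancel₀ hs, one_smul],
    by rw [smul_mul_assoc, plus_mul_minus h, smul_smul, inv_mul_cancel₀ hs, one_smul]⟩, rfl⟩

theorem isUnit_plus {ε : k} {i : B} (h : i * i = algebraMap k B ε) {s : k}
    (hs : 1 - ε * s ^ 2 ≠ 0) : IsUnit (1 + s • i) := by
  have := isUnit_minus h (s := -s) (by rwa [neg_sq])
  rwa [neg_smul, sub_neg_eq_add] at this

theorem conj_plus {i n : B} (h : n * i = -(i * n)) (s : k) :
    n * (1 + s • i) = (1 - s • i) * n := by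
  rw [mul_add, sub_mul, mul_smul_comm, smul_mul_assoc, h, smul_neg, mul_one, one_mul,
    sub_eq_add_neg]

theorem conj_uu {ε : k} {i n : B} (h : n * i = -(i * n)) (s : k) :
    n * uu ε i s = uu ε i (-s) * n := by
  rw [uu_neg, uu, mul_smul_comm, smul_mul_assoc, ← mul_assoc, conj_plus h, mul_assoc, conj_plus h,
    mul_assoc]

end U

section Words
variable {k : Type*} (K : Type*) {B : Type*} [Field k] [NumberField k] [Field K] [NumberField K]
  [Algebra k K] [StarRing K] [Quad k K] [Ring B] [StarRing B] [Algebra K B] [StarModule K B]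
  [Algebra.IsCentral K B] [IsSimpleRing B] [FiniteDimensional K B] [Algebra k B]
  [IsScalarTower k K B]

include K in
theorem star_kB (c : k) : star (algebraMap k B c) = algebraMap k B c := by
  rw [Algebra.algebraMap_eq_smul_one, star_ksmul k K B, star_one]

include K in
theorem not_isSquare {ε : k} {i : B} (hε : ε ≠ 0) (h1 : star i = -i)
    (h2 : i * i = algebraMap k B ε) (ha : Aniso B) : ¬ IsSquare ε := by
  rintro ⟨r, hr⟩
  have h3 : algebraMap k B r + i = 0 := ha _ (by
    rw [star_add, star_kB K, h1, add_mul, mul_add, mul_add, neg_mul, neg_mul, h2, hr, map_mul,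
      Algebra.commutes r i]; abel)
  have h4 : i = algebraMap k B (-r) := by rw [map_neg]; exact eq_neg_of_add_eq_zero_right h3
  rw [h4, star_kB K, ← map_neg] at h1
  have h5 : -r = - -r := (algebraMap k B).injective h1
  exact hε (by rw [hr, show r = 0 by linear_combination (-1 / 2 : k) * h5, mul_zero])

variable {ε : kˣ} {i n : B}

include K in
theorem E0.not_isSquare (h : E0 ε i n) (ha : Aniso B) : ¬ IsSquare (ε : k) :=
  Ev.not_isSquare K ε.ne_zero h.skew h.sq ha

include K in
theorem E0.den_ne (h : E0 ε i n) (ha : Aniso B) (s : k) : 1 - (ε : k) * s ^ 2 ≠ 0 :=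
  one_sub_ne_of (h.not_isSquare K ha) s

include K in
theorem star_plus (h : star i = -i) (s : k) : star (1 + s • i) = 1 - s • i := by
  rw [star_add, star_one, star_ksmul k K B, h, smul_neg, sub_eq_add_neg]

include K in
theorem star_uu (e : k) (h : star i = -i) (s : k) : star (uu e i s) = uu e i (-s) := by
  rw [uu_neg, uu, star_ksmul k K B, star_mul, star_plus K h]

include K in
theorem E0.uu_unitary (h : E0 ε i n) (ha : Aniso B) (s : k) : uu (ε : k) i s ∈ unitary B := by
  rw [Unitary.mem_iff, star_uu K _ h.skew]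
  exact ⟨uu_neg_mul h.sq (h.den_ne K ha s), uu_mul_neg h.sq (h.den_ne K ha s)⟩

theorem E0.Nrd_plus (h : E0 ε i n) (s : k) : Nrd K (1 + s • i) = Nrd K (1 - s • i) := by
  have h1 := congrArg (Nrd K) (conj_plus h.anti s)
  rw [map_mul, map_mul, mul_comm] at h1
  exact mul_right_cancel₀ ((isUnit_iff_Nrd (K := K) n).1 h.unit) h1

theorem E0.Nrd_uu (h : E0 ε i n) (ha : Aniso B) (s : k) : Nrd K (uu (ε : k) i s) = 1 := by
  have h1 := congrArg (Nrd K) (uu_mul_minus h.sq (h.den_ne K ha s))
  rw [map_mul, h.Nrd_plus K] at h1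
  exact mul_right_cancel₀ ((isUnit_iff_Nrd (K := K) _).1 (isUnit_minus h.sq (h.den_ne K ha s)))
    (h1.trans (one_mul _).symm)

/-- the curve in the unitary group -/
def E0.uU (h : E0 ε i n) (ha : Aniso B) (s : k) : unitary B := ⟨uu (ε : k) i s, h.uu_unitary K ha s⟩

@[simp] theorem E0.coe_uU (h : E0 ε i n) (ha : Aniso B) (s : k) :
    (h.uU K ha s : B) = uu (ε : k) i s := rfl

theorem E0.uU_mem_SU (h : E0 ε i n) (ha : Aniso B) (s : k) : h.uU K ha s ∈ SU K B :=
  h.Nrd_uu K ha s

theorem E0.mem_SU (h : E0 ε i n) (ha : Aniso B) (s : k) (u : unitary B)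
    (hu : (u : B) = uu (ε : k) i s) : u ∈ SU K B := by
  rw [T24.mem_SU, hu]; exact h.Nrd_uu K ha s

theorem E0.uU_neg (h : E0 ε i n) (ha : Aniso B) (s : k) : h.uU K ha (-s) = (h.uU K ha s)⁻¹ :=
  Subtype.ext (star_uu K _ h.skew s).symm

theorem E0.uU_zero (h : E0 ε i n) (ha : Aniso B) : h.uU K ha 0 = 1 := Subtype.ext (uu_zero _ _)

end Words

end Crest.Agent.T24.Ev
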