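import Crest.Agent.T24.EvA_20
import Crest.Agent.T24.EvU_21

/-!
# Row 24, even step (helper21): the decomposition from `E1` and `E2`
-/

set_option autoImplicit false
set_option linter.unusedSectionVars false

noncomputable section

namespace Crest.Agent.T24.Ev

open Module NumberField WithZero Csa Asa Topology Filter Polynomial

universe u v w

namespace D21

section Root
variable {k L Γ : Type*} [Field k] [Field L] [Algebra k L] [LinearOrderedCommGroupWithZero Γ]
  (w : Valuation L Γ)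

theorem val_aeval_le {P : k[X]} {l : L} (hc : ∀ j, w (algebraMap k L (P.coeff j)) ≤ 1)
    (hl : w l ≤ 1) : w (aeval l P) ≤ 1 := by
  rw [aeval_eq_sum_range]
  refine w.map_sum_le fun j _ => ?_
  rw [Algebra.smul_def, map_mul, map_pow]
  exact mul_le_one' (hc j) (pow_le_one' hl j)

theorem val_root_le {P : k[X]} (hP : P.Monic) {l : L} (h : aeval l P = 0)
    (hc : ∀ j, w (algebraMap k L (P.coeff j)) ≤ 1) : w l ≤ 1 := by
  by_contra hl
  rw [not_le] at hl
  rw [hP.as_sum, map_add, map_pow, aeval_X, map_sum] at h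
  have h1 : w (∑ j ∈ Finset.range P.natDegree, aeval l (C (P.coeff j) * X ^ j)) <
      w l ^ P.natDegree := by
    refine w.map_sum_lt (pow_ne_zero _ (zero_lt_one.trans hl).ne') fun j hj => ?_
    rw [map_mul, aeval_C, map_pow, aeval_X, map_mul, map_pow]
    exact (mul_le_of_le_one_left' (hc j)).trans_lt (pow_lt_pow_right₀ hl (Finset.mem_range.1 hj))
  rw [← neg_eq_iff_add_eq_zero.2 h, w.map_neg, map_pow] at h1
  exact lt_irrefl _ h1

theorem val_root {P : k[X]} (hP : P.Monic) {l : L} (h : aeval l P = 0)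
    (hc : ∀ j, w (algebraMap k L (P.coeff j)) ≤ 1) (h0 : w (algebraMap k L (P.coeff 0)) = 1) :
    w l = 1 := by
  have h1 := val_root_le w hP h hc
  have h2 : w (aeval l P.divX) ≤ 1 := val_aeval_le w (fun j => by rw [coeff_divX]; exact hc _) h1
  rw [← P.divX_mul_X_add, map_add, map_mul, aeval_X, aeval_C] at h
  rw [← neg_eq_iff_add_eq_zero.2 h, w.map_neg, map_mul] at h0
  exact le_antisymm h1 (h0.symm.le.trans (mul_le_of_le_one_left' h2))

end Root

theorem coeff_zero_ne {k B : Type*} [Field k] [Ring B] [Algebra k B] [Nontrivial B] {x : B}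
    (hi : IsIntegral k x) (hx : IsUnit x) : (minpoly k x).coeff 0 ≠ 0 := fun h0 => by
  have h1 := (minpoly k x).divX_mul_X_add
  rw [h0, C_0, add_zero] at h1
  have h2 := minpoly.aeval k x
  rw [← h1, map_mul, aeval_X, hx.mul_left_eq_zero] at h2
  have h3 : (minpoly k x).divX ≠ 0 := fun h => minpoly.ne_zero hi (by rw [← h1, h, zero_mul])
  exact absurd (minpoly.degree_le_of_ne_zero k x h3 h2)
    (not_le.2 (degree_divX_lt (minpoly.ne_zero hi)))

end D21

section Words
variable {k : Type u} (K : Type*) {B : Type*} [Field k] [NumberField k] [Field K] [NumberField K]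
  [Algebra k K] [StarRing K] [Quad k K] [Ring B] [StarRing B] [Algebra K B] [StarModule K B]
  [Algebra.IsCentral K B] [IsSimpleRing B] [FiniteDimensional K B] [Algebra k B]
  [IsScalarTower k K B]

include K in
/-- `(ε, ω)` is split off a finite set -/
theorem exists_qspl (ε : kˣ) {ω : B} (hω : IsUnit ω) :
    ∃ S₀ : Finset (Pl k), ∀ S, S₀ ⊆ S → QSpl S (ε : k) ω X := by
  haveI := finite_kB k K B
  have hi : IsIntegral k ω := Algebra.IsIntegral.isIntegral ω
  have h1 : ∀ᶠ v : Pl k in cofinite, v.valuation k 2 = 1 ∧ v.valuation k (ε : k) = 1 ∧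
      v.valuation k ((minpoly k ω).coeff 0) = 1 ∧
      ∀ j ∈ (minpoly k ω).support, v.valuation k ((minpoly k ω).coeff j) ≤ 1 :=
    (eventually_cofinite.2 (finite_ne_one two_ne_zero)).and
      ((eventually_cofinite.2 (finite_ne_one ε.ne_zero)).and
        ((eventually_cofinite.2 (finite_ne_one (D21.coeff_zero_ne hi hω))).and
          ((Finset.eventually_all _).2 fun j _ => eventually_cofinite.2 (finite_not_le _))))
  refine ⟨(eventually_cofinite.1 h1).toFinset, fun S hS L _ _ _ l hl w hw b hb => ?_⟩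
  have h2 := not_not.1 fun h => hw (hS ((Set.Finite.mem_toFinset _).2 h))
  obtain ⟨h3, h4, h5, h6⟩ := h2
  have h7 : w.valuation L l = 1 := D21.val_root _ (minpoly.monic hi) hl (fun j => by
    by_cases hj : j ∈ (minpoly k ω).support
    · exact (below_le_one w _).2 (h6 j hj)
    · rw [notMem_support_iff.1 hj]; simp) ((below_eq_one w _).2 h5)
  refine (Hn.l5Stmt L w (Units.map (algebraMap k L : k →* L) ε) b).2 ?_
    ((below_eq_one w _).2 h4) (by rw [hb, aeval_X, h7])
  rw [← map_ofNat (algebraMap k L) 2]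
  exact (below_eq_one w _).2 h3

variable {ε : kˣ} {i n : B}

include K in
theorem E0.exists_inQ (h : E0 ε i n) :
    ∃ S₀ : Finset (Pl k), ∀ S, S₀ ⊆ S → ∀ s : k, InQ S (uu (ε : k) i s) := by
  obtain ⟨S₀, h0⟩ := exists_qspl K ε (h.unit.mul h.unit)
  refine ⟨S₀, fun S hS s => ⟨ε, i, n, n * n, X, C ((1 - ε * s ^ 2)⁻¹ * (1 + ε * s ^ 2)),
    C ((1 - ε * s ^ 2)⁻¹ * (2 * s)), 0, 0, by rw [star_mul, h.nskew, neg_mul_neg], h.skew, h.nskew,
    h.sq, (aeval_X _).symm, h.unit, h.anti, ?_, (Commute.refl n).mul_left (Commute.refl n), ?_,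
    h0 S hS⟩⟩
  · change n * n * i = i * (n * n)
    rw [mul_assoc, h.anti, mul_neg, ← mul_assoc, h.anti, neg_mul, neg_neg, mul_assoc]
  · rw [uu_eq h.sq, aeval_C, aeval_C, map_zero, zero_mul, zero_mul, add_zero, add_zero,
      ← Algebra.smul_def, Algebra.algebraMap_eq_smul_one]

/-- the curve is continuous at `0` -/
theorem tendsto_uu (e : k) (i : B) (S : Finset (Pl k)) :
    Tendsto (uu e i) (nbk k S 0) (nb k K B S 1) := by
  have h1 := nbk_inv (nbk_sub (nbk_const (S := S) (l := nbk k S 0) 1)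
    (nbk_mul (nbk_const e) (nbk_pow tendsto_id 2))) (by simp)
  have h2 := nb_add (K := K) (nb_const (S := S) (l := nbk k S 0) (1 : B))
    (nb_smul tendsto_id (nb_const i))
  have h3 := nb_smul h1 (nb_mul h2 h2)
  rw [← uu_zero e i]
  exact h3

theorem dec (ha : Aniso B) (h1 : E1 k K B) (h2 : E2 k K B) : Dec k K B := by
  classical
  intro ε i n h N hN ⟨S₃, h3⟩
  obtain ⟨S₁, h1⟩ := h1 ε i n h
  obtain ⟨m, S₂, h2⟩ := h2 ε i n h N hN
  obtain ⟨S₄, h4⟩ := h.exists_inQ K
  refine ⟨m, fun g hg S W hW => ?_⟩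
  set S' := S ∪ S₁ ∪ S₂ ∪ S₃ ∪ S₄ with hS'
  have s0 : S ⊆ S' := fun v hv => by simp [hS', hv]
  have s1 : S₁ ⊆ S' := fun v hv => by simp [hS', hv]
  have s2 : S₂ ⊆ S' := fun v hv => by simp [hS', hv]
  have s3 : S₃ ⊆ S' := fun v hv => by simp [hS', hv]
  have s4 : S₄ ⊆ S' := fun v hv => by simp [hS', hv]
  have hu : ∀ᶠ s in nbk k S' 0, ∀ u : unitary B, (u : B) = uu (ε : k) i s → u ∈ N :=
    ((tendsto_uu K (ε : k) i S').eventually (h3 S' s3)).mono fun s hs u hu =>
      hs u hu (h4 S' s4 s)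
  obtain ⟨γ, hγ, hg1, hg2, hg3, hg4⟩ := h2 S' s2 hu g hg _
    (h1 S' s1 _ (inter_mem (nb_anti s0 1 hW) (h3 S' s3)))
  obtain ⟨x, y, hxy, hx, hy, hxu, hxQ, hyi⟩ := hg2 γ.2.1 hg3 hg4
  let x' : unitary B := ⟨x, hxu, Lan.mul_eq_one_symm (eb k K B) hxu⟩
  have hx' : x' ∈ N := hx.2 x' rfl hxQ
  have hy' : ((x'⁻¹ * γ : unitary B) : B) = y := by
    change star x * (γ : B) = y
    rw [hxy, ← mul_assoc, hxu, one_mul]
  refine ⟨x'⁻¹ * γ, mul_mem (inv_mem (hN.le hx')) hγ, hy' ▸ hy.1, hy' ▸ hyi, ?_⟩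
  have := mul_mem (hN.nrm γ hγ _ (inv_mem hg1)) hx'
  convert this using 1
  group

end Words

theorem decStmt (h1 : E1Stmt.{u, v, w}) (h2 : E2Stmt.{u, v, w}) : DecStmt.{u, v, w} :=
  fun D hd ha => dec D.K ha (h1 D ha) (h2 D hd ha)

end Crest.Agent.T24.Ev
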