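import Crest.Agent.T24.EvDef_20
import Crest.Agent.T24.Ct2Def_10
import Crest.Agent.T24.EmbDef_13
import Crest.Agent.T24.InG_71
import Crest.Agent.T24.Csa7_50
import Crest.Agent.T24.HilD_56

/-!
# Row 24, central step for even degree (helper47): the induction, words and leaves.
-/

set_option autoImplicit false
set_option linter.unusedSectionVars false

noncomputable section

namespace Crest.Agent.T24.Evn

open Module NumberField WithZero Csa Asa Topology Filter Polynomial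

universe u v w

section Words
variable (k : Type u) (K B : Type*) [Field k] [NumberField k] [Field K] [NumberField K] [Algebra k K]
  [StarRing K] [Quad k K] [Ring B] [StarRing B] [Algebra K B] [StarModule K B]
  [Algebra.IsCentral K B] [IsSimpleRing B] [FiniteDimensional K B] [Algebra k B]
  [IsScalarTower k K B]

variable {B} in
/-- the hypothesis of the central step -/
structure Hyp (N : Subgroup (unitary B)) : Prop where
  nrm : N.Normal
  le : N ≤ SU K B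
  idx : N.relIndex (SU K B) ≠ 0
  cen : ∃ m : ℕ, ∀ u : unitary B, ∀ g ∈ SUm K B m, u * g * u⁻¹ * g⁻¹ ∈ N

/-- the central step -/
def CenV : Prop := ∀ N : Subgroup (unitary B), Hyp K N → ∃ m, SUm K B m ≤ N

/-- the rational filters are the filters of the completions -/
def Br [Algebra ℚ B] : Prop :=
  (∀ M : ℕ, 2 ≤ M → ∀ a : B, In.nr M a = ⨅ v : Pl k, ⨅ _ : (M : 𝓞 k) ∈ v.asIdeal,
    comap (BC.inc k K B (Kv v)) (𝓝 (BC.inc k K B (Kv v) a))) ∧
  ∀ a : B, In.na a = comap (BC.inc k K B (Inf k)) (𝓝 (BC.inc k K B (Inf k) a))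

/-- `Deep m` is `M`-adically open -/
def Down [Algebra ℚ B] : Prop := ∀ M : ℕ, 2 ≤ M → (∀ w ∈ TT K B, (M : 𝓞 K) ∈ w.asIdeal) →
  ∀ m : ℕ, ∀ᶠ x in In.nr M (1 : B), x ∈ Deep K B m

/-- a normal subgroup of finite index which is `S`-open is `T`-open -/
def Up : Prop := ∀ R : Subgroup (unitary B), R.Normal → R ≤ SU K B → R.relIndex (SU K B) ≠ 0 →
  ∀ S : Finset (Pl k), (∀ᶠ x in Ev.nb k K B S 1, ∀ u ∈ SU K B, (u : B) = x → u ∈ R) →
  ∃ m, SUm K B m ≤ R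

/-- the quaternion step in the form consumed by `Ev.Dec` -/
def Ct : Prop := ∀ N : Subgroup (unitary B), Hyp K N → Ev.CtN k K N

/-- a hermitian element generating a quadratic field over `K` -/
def Eps : Prop := ∃ (ε : B) (r : k), star ε = ε ∧ ε * ε = algebraMap k B r ∧
  ¬ IsSquare (algebraMap k K r)

/-- degree two: `SU` is the norm one group of a quaternion algebra over `k` -/
def Q2 : Prop := ∃ q : Ct2.Quat k B, (∀ y : k, q.i y = algebraMap k B y) ∧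
  ∀ g ∈ SU K B, ∃ x₀ x₁ x₂ x₃, (g : B) = q.el x₀ x₁ x₂ x₃

/-- twisting an embedding by a global class which is locally trivial -/
def Tw [Algebra ℚ B] : Prop := ∀ (θ : K) (δ : kˣ), star θ = -θ → θ ^ 2 = algebraMap k K δ →
  ∀ (L : Type u) [Field L] [NumberField L] [Algebra k L] (j : L →ₐ[k] B), (∀ x, star (j x) = j x) →
  finrank k L = deg K B → ∀ (M : ℕ), 2 ≤ M → ∀ s : Lˣ,
  (∀ v : Pl k, Hil.nm k s ∈ Hn.LN (δ : k) v) → (∀ ψ : L →+* ℝ, 0 < ψ s) →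
  (∀ P : Pl L, (M : 𝓞 L) ∈ P.asIdeal → s ∈ Hn.Sq P) → ∀ x : L, ∀ V ∈ In.nr M (j x),
    ∃ z : Bˣ, star (z : B) * z = j s ∧ (z : B) * j x * (z⁻¹ : Bˣ) ∈ V

end Words

/-- Eisenstein at `v` -/
def Eis {k : Type*} [Field k] [NumberField k] (v : Pl k) (P : k[X]) : Prop :=
  P.Monic ∧ (∀ i < P.natDegree, v.valuation k (P.coeff i) < 1) ∧
    v.valuation k (P.coeff 0) = exp (-1 : ℤ)

set_option linter.checkUnivs false in
/-- a star-stable quadratic subfield `E = K(e)` of `B`, `e ∈ k₁` hermitian, `e ^ 2 = r ∈ k` -/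
structure Tow (D : Dat.{u, v, w}) where
  /-- the fixed field of `star` in `E` -/
  k₁ : Type u
  /-- the subfield -/
  E : Type v
  [j1 : Field k₁] [j2 : NumberField k₁] [j3 : Field E] [j4 : NumberField E] [j5 : Algebra k₁ E]
  [j6 : StarRing E] [j7 : Quad k₁ E] [j8 : Algebra D.k k₁] [j9 : Algebra D.K E]
  [j10 : Algebra D.k E] [j11 : IsScalarTower D.k k₁ E] [j12 : IsScalarTower D.k D.K E]
  /-- the embedding -/
  i : E →ₐ[D.K] D.B
  [j13 : StarHom i]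
  /-- the generator -/
  e : k₁
  /-- its square -/
  r : D.kˣ
  /-- a skew generator of `K` -/
  θ : D.K
  /-- its square -/
  δ : D.kˣ
  /-- the automorphism of `E / K` -/
  σ : E ≃ₐ[D.K] E
  /-- a skew unit inducing `σ` -/
  n : D.B
  ee : e * e = algebraMap D.k k₁ r
  nsq : ¬ IsSquare (algebraMap D.k D.K r)
  fr : finrank D.K E = 2
  fr₁ : finrank D.k k₁ = 2
  star_θ : star θ = -θ
  θθ : θ ^ 2 = algebraMap D.k D.K δ
  σ_e : σ (algebraMap k₁ E e) = -algebraMap k₁ E e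
  star_n : star n = -n
  unit_n : IsUnit n
  n_i : ∀ c, n * i c = i (σ c) * n
  /-- coordinates -/
  crd : ∀ c : E, ∃ a₀ a₁ a₂ a₃ : D.k, c = algebraMap _ _ a₀ + algebraMap _ _ a₁ * algebraMap _ _ θ +
    algebraMap _ _ a₂ * algebraMap k₁ E e + algebraMap _ _ a₃ * (algebraMap _ _ θ * algebraMap k₁ E e)

attribute [instance] Tow.j1 Tow.j2 Tow.j3 Tow.j4 Tow.j5 Tow.j6 Tow.j7 Tow.j8 Tow.j9 Tow.j10
  Tow.j11 Tow.j12 Tow.j13

namespace Tow
variable {D : Dat.{u, v, w}} (T : Tow D)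

/-- the centraliser -/
abbrev C : Type w := Cz T.i

instance : Algebra T.k₁ T.C :=
  ((algebraMap T.E T.C).comp (algebraMap T.k₁ T.E)).toAlgebra' fun c y =>
    Algebra.commutes (algebraMap T.k₁ T.E c) y

instance : IsScalarTower T.k₁ T.E T.C := IsScalarTower.of_algebraMap_eq fun _ => rfl

/-- the centraliser as a datum -/
abbrev dat : Dat.{u, v, w} := { k := T.k₁, K := T.E, B := T.C }

/-- the skew generator `θ e` -/
def η : T.E := algebraMap _ _ T.θ * algebraMap T.k₁ T.E T.e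

/-- the skew generator, in `B` -/
def i₀ : D.B := T.i T.η

/-- its square -/
def ε : D.kˣ := T.δ * T.r

/-- a hermitian element of the centraliser with reduced polynomial `P ∈ k[X]` -/
def HC (P : D.k[X]) (th : T.C) : Prop := Emb.HG T.E (P.map (algebraMap D.k T.k₁)) th

/-- `κ` is a skew unit anticommuting with `i₀`, commuting with `th`, of square `β (th)` -/
structure Kp (th : T.C) (κ : D.B) (β : D.k[X]) : Prop where
  skew : star κ = -κ
  unit : IsUnit κ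
  anti : κ * T.i₀ = -(T.i₀ * κ)
  comm : κ * th = th * κ
  sq : κ * κ = aeval (th : D.B) β

/-- a base point, large at `M`, Eisenstein at a place split in `E` -/
def Th0 [Algebra ℚ D.B] : Prop := ∀ M : ℕ, 2 ≤ M → ∀ W ∈ In.nr M (0 : D.B),
  ∃ v : Pl D.k, (M : 𝓞 D.k) ∉ v.asIdeal ∧ Nonempty (T.E →ₐ[D.k] Kv v) ∧
    ∃ (P : D.k[X]) (th : T.C), Eis v P ∧ T.HC P th ∧ Ring.inverse (th : D.B) ∈ W

/-- the quaternion algebra attached to `th`, and the norm of its second invariant -/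
def Kap : Prop := ∃ c₀ : D.kˣ, ∀ (P : D.k[X]) (th : T.C),
  Irreducible (P.map (algebraMap D.k T.k₁)) → T.HC P th → ∃ (κ : D.B) (β : D.k[X]), T.Kp th κ β ∧
    ∀ (F : Type u) [Field F] [NumberField F] [Algebra D.k F] (l : F), aeval l P = 0 →
      finrank D.k F = P.natDegree → ∀ b : Fˣ, (b : F) = aeval l β →
      Hil.nm D.k b / c₀ ∈ Hn.Nr (T.ε : D.k)

/-- at the good places where `δ` is a square the quaternion algebra is split -/
def Spq : Prop := ∃ M₀ : ℕ, 2 ≤ M₀ ∧ ∀ (P : D.k[X]) (th : T.C) (κ : D.B) (β : D.k[X]),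
  P.Separable → T.HC P th → T.Kp th κ β →
    ∀ (F : Type u) [Field F] [NumberField F] [Algebra D.k F] (l : F), aeval l P = 0 →
      ∀ b : Fˣ, (b : F) = aeval l β → ∀ w : Pl F, (M₀ : 𝓞 F) ∉ w.asIdeal →
      Hn.io D.k F T.δ ∈ Hn.Sq w → b ∈ Hn.LN (algebraMap D.k F T.ε) w

/-- an embedding close to `th₀` whose quaternion algebra is split off `M` -/
def Gd [Algebra ℚ D.B] : Prop := ∃ M₀ : ℕ, 2 ≤ M₀ ∧ ∀ M : ℕ, 2 ≤ M → M₀ ∣ M →
  ∀ (P : D.k[X]) (th : T.C), Irreducible (P.map (algebraMap D.k T.k₁)) → T.HC P th →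
  ∀ V ∈ In.nr M (th : D.B), ∃ (th' : T.C) (κ : D.B) (β : D.k[X]), (th' : D.B) ∈ V ∧ T.HC P th' ∧
    T.Kp th' κ β ∧ ∀ (F : Type u) [Field F] [NumberField F] [Algebra D.k F] (l : F),
      aeval l P = 0 → ∀ b : Fˣ, (b : F) = aeval l β → ∀ w : Pl F, (M : 𝓞 F) ∉ w.asIdeal →
      b ∈ Hn.LN (algebraMap D.k F T.ε) w

/-- LAM: modulo `N`, elements of `U(C) ∩ SU(B)` near `1` come from `SU(C)` -/
def Lam [Algebra ℚ D.B] : Prop := ∀ N : Subgroup (unitary D.B), Hyp D.K N →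
  ∀ M₁ : ℕ, 2 ≤ M₁ → ∀ W ∈ In.nr M₁ (1 : D.B), ∃ M : ℕ, 2 ≤ M ∧
    ∀ᶠ x in In.ng M (1 : D.B), ∀ y ∈ SU D.K D.B, (y : D.B) = x → x ∈ Cz T.i →
      ∃ y' ∈ SU T.E T.C, ((y' : T.C) : D.B) ∈ W ∧ y * (Cz.uni T.i y')⁻¹ ∈ N

end Tow

def BrStmt : Prop := ∀ (D : Dat.{u, v, w}) [Algebra ℚ D.B], Br D.k D.K D.B
def DownStmt : Prop := ∀ (D : Dat.{u, v, w}) [Algebra ℚ D.B], Down D.K D.B
def UpStmt : Prop := ∀ D : Dat.{u, v, w}, 3 ≤ deg D.K D.B → Aniso D.B → Up D.k D.K D.B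
def CtStmt : Prop := ∀ D : Dat.{u, v, w}, Aniso D.B → Ct D.k D.K D.B
def EpsStmt : Prop := ∀ D : Dat.{u, v, w}, Even (deg D.K D.B) → Eps D.k D.K D.B
def TowStmt : Prop := ∀ D : Dat.{u, v, w}, Eps D.k D.K D.B → Nonempty (Tow D)
def Q2Stmt : Prop := ∀ D : Dat.{u, v, w}, deg D.K D.B = 2 → Aniso D.B → Q2 D.k D.K D.B
def TwStmt : Prop := ∀ (D : Dat.{u, v, w}) [Algebra ℚ D.B], Tw D.k D.K D.B
def EisStmt : Prop := ∀ (k : Type u) [Field k] [NumberField k] (v : Pl k) (P : k[X]), Eis v P →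
  0 < P.natDegree → ∀ (L : Type v) [Field L] [Algebra k L], Nonempty (L →ₐ[k] Kv v) →
  Irreducible (P.map (algebraMap k L))
def Th0Stmt : Prop := ∀ (D : Dat.{u, v, w}) [Algebra ℚ D.B] (T : Tow D), T.Th0
def KapStmt : Prop := ∀ (D : Dat.{u, v, w}) (T : Tow D), T.Kap
def SpqStmt : Prop := ∀ (D : Dat.{u, v, w}) (T : Tow D), T.Spq
def GdStmt : Prop := ∀ (D : Dat.{u, v, w}) [Algebra ℚ D.B] (T : Tow D), T.Gd
def LamStmt : Prop := ∀ (D : Dat.{u, v, w}) [Algebra ℚ D.B] (T : Tow D), 3 ≤ deg D.K D.B →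
  Aniso D.B → T.Lam

/-- adjusting the class of an embedding (pure number theory): `L = F k₁`, `k₁ = k(e)` -/
def AdjStmt : Prop := ∀ (k k₁ F L : Type u) [Field k] [NumberField k] [Field k₁] [NumberField k₁]
  [Field F] [NumberField F] [Field L] [NumberField L] [Algebra k k₁] [Algebra k F] [Algebra k L]
  [Algebra k₁ L] [Algebra F L] [IsScalarTower k k₁ L] [IsScalarTower k F L] (e : k₁)
  (δ r c₀ : kˣ) (β : Fˣ) (M : ℕ), e * e = algebraMap k k₁ r → finrank k k₁ = 2 → finrank F L = 2 →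
  ¬ IsSquare (algebraMap k F r) → 2 ≤ M → 2 ∣ M →
  (∀ v : Pl k, (M : 𝓞 k) ∉ v.asIdeal →
    v.valuation k δ = 1 ∧ v.valuation k r = 1 ∧ v.valuation k c₀ = 1) →
  Hil.nm k β / c₀ ∈ Hn.Nr ((δ * r : kˣ) : k) →
  (∀ w : Pl F, (M : 𝓞 F) ∉ w.asIdeal → Hn.io k F δ ∈ Hn.Sq w →
    β ∈ Hn.LN (algebraMap k F (δ * r : kˣ)) w) →
  ∃ s : Lˣ, (∀ ψ : L →+* ℝ, 0 < ψ s) ∧ (∀ P : Pl L, (M : 𝓞 L) ∈ P.asIdeal → s ∈ Hn.Sq P) ∧
    (∀ v : Pl k₁, Hil.nm k₁ s ∈ Hn.LN (algebraMap k k₁ δ) v) ∧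
    ∀ w : Pl F, (M : 𝓞 F) ∉ w.asIdeal → β * Hil.nm F s ∈ Hn.LN (algebraMap k F (δ * r : kˣ)) w

end Crest.Agent.T24.Evn
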