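import Crest.Agent.T24.Emb_13
import Crest.Agent.T24.EvDef_20
import Crest.Agent.T24.LocL_59

/-!
# Row 24 (helper59): a skew element with central square in even degree
-/

set_option autoImplicit false
set_option linter.unusedSectionVars false

noncomputable section

namespace Crest.Agent.T24.Ev

open Module Polynomial NumberField Csa Asa Topology Filter Emb WithZero
open scoped TensorProduct Valued

namespace E59

section eis
variable {F : Type*} [NontriviallyNormedField F] [IsUltrametricDist F]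

/-- Eisenstein's criterion -/
theorem eis {P : F[X]} (hm : P.Monic) (hd : 0 < P.natDegree) (h1 : ∀ i < P.natDegree, ‖P.coeff i‖ < 1)
    (h2 : ∀ c : F, ‖c‖ < 1 → ‖c‖ ≤ ‖P.coeff 0‖) : Irreducible P := by
  let O := (NormedField.valuation (K := F)).valuationSubring
  have hO : ∀ x : F, x ∈ O ↔ ‖x‖ ≤ 1 := fun x => by
    rw [Valuation.mem_valuationSubring_iff, NormedField.valuation_apply, ← NNReal.coe_le_coe]; rfl
  obtain ⟨Q, rfl, h3, h4⟩ := lifts_and_natDegree_eq_and_monic (f := algebraMap O F)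
    ((lifts_iff_coeff_lifts P).2 fun i => ⟨⟨P.coeff i, (hO _).2 (by
      rcases lt_trichotomy i P.natDegree with h | rfl | h
      exacts [(h1 i h).le, by simp [hm], by simp [coeff_eq_zero_of_natDegree_lt h]])⟩, rfl⟩) hm
  simp only [coeff_map, ← h3] at h1 h2 hd
  have h0 : 0 < ‖algebraMap O F (Q.coeff 0)‖ := by
    obtain ⟨c, hc, hc'⟩ := NormedField.exists_norm_lt_one F
    exact hc.trans_le (h2 c hc')
  have h5 : ∀ x : O, x ∈ Ideal.span {Q.coeff 0} ↔ ‖algebraMap O F x‖ < 1 := fun x => by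
    rw [Ideal.mem_span_singleton']
    refine ⟨?_, fun h => ⟨⟨x / algebraMap O F (Q.coeff 0), (hO _).2 ?_⟩, Subtype.ext ?_⟩⟩
    · rintro ⟨a, rfl⟩
      rw [map_mul, norm_mul]
      exact mul_lt_one_of_nonneg_of_lt_one_right ((hO _).1 a.2) h0.le (h1 0 hd)
    · rw [norm_div, div_le_one h0]; exact h2 _ h
    · exact div_mul_cancel₀ _ (norm_pos_iff.1 h0)
  refine (h4.irreducible_iff_irreducible_map_fraction_map (K := F)).1
    ((⟨?_, fun hn => (h5 _).2 (h1 _ hn), ?_⟩ : Q.IsEisensteinAt (Ideal.span {Q.coeff 0})).irreducible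
      ⟨?_, fun {x y} h => ?_⟩ h4.isPrimitive hd)
  · simp [h5, h4.leadingCoeff]
  · rw [Ideal.span_singleton_pow, Ideal.mem_span_singleton']
    rintro ⟨a, ha⟩
    have h6 := congrArg (fun x => ‖algebraMap O F x‖) ha
    simp only [map_mul, norm_mul, sq, ← mul_assoc] at h6
    exact (mul_lt_one_of_nonneg_of_lt_one_right ((hO _).1 a.2) h0.le (h1 0 hd)).ne
      (mul_right_cancel₀ h0.ne' (h6.trans (one_mul _).symm))
  · rw [Ideal.ne_top_iff_one, h5]; simp
  · simp only [h5, map_mul, norm_mul] at h ⊢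
    by_contra h6
    push Not at h6
    exact h.not_ge (one_le_mul_of_one_le_of_one_le h6.1 h6.2)

theorem eis_pow {π : F} (h1 : ‖π‖ < 1) (h2 : ∀ c : F, ‖c‖ < 1 → ‖c‖ ≤ ‖π‖) {d : ℕ} (hd : 0 < d)
    {P : F[X]} (hm : P.Monic) (hP : P.natDegree = d) (h : ∀ i, ‖P.coeff i - (X ^ d - C π).coeff i‖ < ‖π‖) :
    Irreducible P := by
  have h0 : ‖P.coeff 0‖ = ‖π‖ := by
    have := h 0
    rw [coeff_sub, coeff_X_pow, if_neg hd.ne, coeff_C_zero, zero_sub, ← norm_neg π] at this
    rw [Loc.norm_eq_of_lt this, norm_neg]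
  refine eis hm (hP ▸ hd) (fun i hi => ?_) (h0 ▸ h2)
  rcases i.eq_zero_or_pos with rfl | h3
  · exact h0 ▸ h1
  have := h i
  rw [coeff_sub, coeff_X_pow, if_neg (hP ▸ hi.ne), coeff_C_of_ne_zero h3.ne', sub_zero, sub_zero] at this
  exact this.trans h1

end eis

section par
variable {R : Type*} [CommRing R]

/-- a polynomial of degree `< m` -/
def lo (m : ℕ) (y : ℕ → R) : R[X] := ∑ j ∈ Finset.range m, C (y j) * X ^ j

/-- `A ^ 2 - r B ^ 2` -/
def PP (m : ℕ) (x : Fin 3 × ℕ → R) : R[X] :=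
  (X ^ m + lo m fun j => x (0, j)) ^ 2 - C (x (2, 0)) * (lo m fun j => x (1, j)) ^ 2

theorem degree_lo (m : ℕ) (y : ℕ → R) : (lo m y).degree < m :=
  (degree_sum_le _ _).trans_lt ((Finset.sup_lt_iff (WithBot.bot_lt_coe m)).2 fun j hj =>
    (degree_C_mul_X_pow_le j _).trans_lt (WithBot.coe_lt_coe.2 (Finset.mem_range.1 hj)))

theorem lo_coeff {m : ℕ} {B : R[X]} (h : B.degree < m) : lo m B.coeff = B := by
  rcases eq_or_ne B 0 with rfl | h0
  · simp [lo]
  simpa only [lo, C_mul_X_pow_eq_monomial] using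
    (B.as_sum_range' m ((natDegree_lt_iff_degree_lt h0).2 h)).symm

theorem map_PP {S : Type*} [CommRing S] (f : R →+* S) (m : ℕ) (x : Fin 3 × ℕ → R) :
    (PP m x).map f = PP m fun i => f (x i) := by
  simp [PP, lo, Polynomial.map_sum]

theorem exists_par {m : ℕ} (r : R) {A B : R[X]} (h1 : A.Monic) (h2 : A.natDegree = m)
    (h3 : B.degree < m) : ∃ x, x (2, 0) = r ∧ PP m x = A ^ 2 - C r * B ^ 2 := by
  refine ⟨fun p => ![A.coeff p.2, B.coeff p.2, r] p.1, rfl, ?_⟩
  have : X ^ m + lo m A.coeff = A := h2 ▸ h1.as_sum.symm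
  simp only [PP, Matrix.cons_val_zero, Matrix.cons_val_one, Matrix.cons_val]
  rw [this, lo_coeff h3]

theorem form [IsDomain R] {m : ℕ} (r : R) {A B : R[X]} (h1 : A.Monic) (h2 : A.natDegree = m)
    (h3 : B.degree < m) : (A ^ 2 - C r * B ^ 2).Monic ∧ (A ^ 2 - C r * B ^ 2).natDegree = 2 * m := by
  have h4 : (A ^ 2).natDegree = 2 * m := by rw [h1.natDegree_pow, h2]
  have h5 : (C r * B ^ 2).degree < (A ^ 2).degree := by
    rw [degree_eq_natDegree (h1.pow 2).ne_zero, h4, ← smul_eq_C_mul]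
    refine (degree_smul_le _ _).trans_lt ?_
    rw [sq, degree_mul, two_mul, Nat.cast_add]
    exact (add_le_add le_rfl h3.le).trans_lt (WithBot.add_lt_add_right WithBot.coe_ne_bot h3)
  exact ⟨(h1.pow 2).sub_of_left h5, (natDegree_eq_of_degree_eq (degree_sub_eq_left_of_degree_lt h5)).trans h4⟩

theorem monic_A [Nontrivial R] (m : ℕ) (y : ℕ → R) :
    (X ^ m + lo m y).Monic ∧ (X ^ m + lo m y).natDegree = m :=
  ⟨monic_X_pow_add (degree_lo m y), by
    rw [natDegree_add_eq_left_of_degree_lt (by rw [degree_X_pow]; exact degree_lo m y), natDegree_X_pow]⟩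

theorem monic_PP [IsDomain R] (m : ℕ) (x : Fin 3 × ℕ → R) : (PP m x).Monic ∧ (PP m x).natDegree = 2 * m :=
  form _ (monic_A m _).1 (monic_A m _).2 (degree_lo m _)

theorem par_mul {F : Type*} [Field F] [CharZero F] {m : ℕ} {P Q : F[X]} (hP : P.Monic) (hQ : Q.Monic)
    (h1 : P.natDegree = m) (h2 : Q.natDegree = m) : ∃ x, PP m x = P * Q := by
  have h3 : (C (2⁻¹ : F) * (Q - P)).degree < m := by
    rw [← smul_eq_C_mul]
    refine (degree_smul_le _ _).trans_lt ?_
    rw [← h2, ← degree_eq_natDegree hQ.ne_zero]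
    exact degree_sub_lt_left (by rw [degree_eq_natDegree hQ.ne_zero, degree_eq_natDegree hP.ne_zero, h1, h2])
      hQ.ne_zero (hQ.trans hP.symm)
  have h4 : (C (2⁻¹ : F) * (Q - P)).degree < P.degree := by rwa [degree_eq_natDegree hP.ne_zero, h1]
  obtain ⟨x, -, hx⟩ := exists_par 1 (hP.add_of_left h4) ((natDegree_add_eq_left_of_degree_lt h4).trans h1) h3
  refine ⟨x, hx.trans ?_⟩
  have : C (2⁻¹ : F) * 2 = 1 := by rw [← map_ofNat C, ← map_mul, inv_mul_cancel₀ two_ne_zero, map_one]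
  rw [map_one]
  linear_combination P * (Q - P) * this

section top
variable {T : Type*} [TopologicalSpace T] [TopologicalSpace R] [IsTopologicalRing R]

/-- continuous coefficients -/
def Cts (f : T → R[X]) : Prop := ∀ i, Continuous fun x => (f x).coeff i

theorem Cts.const (p : R[X]) : Cts fun _ : T => p := fun _ => continuous_const

theorem Cts.add {f g : T → R[X]} (hf : Cts f) (hg : Cts g) : Cts fun x => f x + g x := fun i => by
  simp only [coeff_add]; exact (hf i).add (hg i)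

theorem Cts.sub {f g : T → R[X]} (hf : Cts f) (hg : Cts g) : Cts fun x => f x - g x := fun i => by
  simp only [coeff_sub]; exact (hf i).sub (hg i)

theorem Cts.mul {f g : T → R[X]} (hf : Cts f) (hg : Cts g) : Cts fun x => f x * g x := fun i => by
  simp only [coeff_mul]; exact continuous_finsetSum _ fun p _ => (hf _).mul (hg _)

theorem Cts.sq {f : T → R[X]} (hf : Cts f) : Cts fun x => f x ^ 2 := by
  simpa only [_root_.sq] using hf.mul hf

theorem Cts.C {f : T → R} (hf : Continuous f) : Cts fun x => C (f x) := fun i => by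
  simp only [coeff_C]
  split_ifs
  exacts [hf, continuous_const]

theorem Cts.lo (m : ℕ) {f : T → ℕ → R} (hf : ∀ j, Continuous fun x => f x j) : Cts fun x => lo m (f x) :=
  fun i => by
    simpa only [E59.lo, finsetSum_coeff] using
      continuous_finsetSum _ fun j _ => (Cts.C (hf j)).mul (.const _) i

theorem cts_PP (m : ℕ) : Cts (PP (R := R) m) := by
  have h : ∀ a : Fin 3, Cts fun x : Fin 3 × ℕ → R => E59.lo m fun j => x (a, j) := fun a =>
    .lo m fun j => continuous_apply (a, j)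
  exact ((Cts.const _).add (h 0)).sq.sub ((Cts.C (continuous_apply (2, 0))).mul (h 1).sq)

end top

theorem ev_PP {F : Type*} [NormedField F] (m : ℕ) (x₀ : Fin 3 × ℕ → F) {ε : ℝ} (hε : 0 < ε) :
    ∀ᶠ x in 𝓝 x₀, ∀ i, ‖(PP m x).coeff i - (PP m x₀).coeff i‖ < ε := by
  have h : ∀ᶠ x in 𝓝 x₀, ∀ i : Fin (2 * m + 1), ‖(PP m x).coeff i - (PP m x₀).coeff i‖ < ε :=
    eventually_all.2 fun i => by
      simpa only [dist_eq_norm] using Metric.tendsto_nhds.1 ((cts_PP m i).tendsto x₀) ε hε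
  filter_upwards [h] with x hx i
  rcases lt_or_ge i (2 * m + 1) with hi | hi
  · exact hx ⟨i, hi⟩
  rwa [coeff_eq_zero_of_natDegree_lt (by rw [(monic_PP m x).2]; omega),
    coeff_eq_zero_of_natDegree_lt (by rw [(monic_PP m x₀).2]; omega), sub_zero, norm_zero]

end par

section real

theorem real_fac {P : ℝ[X]} (h : P.natDegree ≠ 0) :
    (∃ a, X - C a ∣ P) ∨ ∃ a s, (X - C a) ^ 2 + C s ^ 2 ∣ P := by
  obtain ⟨z, hz⟩ := IsAlgClosed.exists_aeval_eq_zero ℂ P (fun h' => h (natDegree_eq_of_degree_eq_some h'))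
  by_cases h1 : z.im = 0
  · lift z to ℝ using h1
    rw [← Complex.coe_algebraMap, aeval_algebraMap_apply, map_eq_zero, coe_aeval_eq_eval] at hz
    exact .inl ⟨z, dvd_iff_isRoot.2 hz⟩
  refine .inr ⟨z.re, z.im, ?_⟩
  convert quadratic_dvd_of_aeval_eq_zero_im_ne_zero P hz h1 using 1
  rw [Complex.sq_norm, Complex.normSq_apply]
  simp only [map_add, map_mul, map_ofNat]
  ring

theorem monic_q (a s : ℝ) : ((X - C a) ^ 2 + C s ^ 2).Monic ∧ ((X - C a) ^ 2 + C s ^ 2).natDegree = 2 := by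
  simpa using form (-1) (monic_X_sub_C a) (natDegree_X_sub_C a) (B := C s) (degree_C_le.trans_lt (by decide))

theorem quo {P Q S : ℝ[X]} (hP : P.Monic) (hQ : Q.Monic) (h : P = Q * S) :
    S.Monic ∧ P.natDegree = Q.natDegree + S.natDegree :=
  ⟨hQ.of_mul_monic_left (h ▸ hP), h ▸ hQ.natDegree_mul (hQ.of_mul_monic_left (h ▸ hP))⟩

theorem real_two {P : ℝ[X]} (hP : P.Monic) (h : 2 ≤ P.natDegree) :
    ∃ Q : ℝ[X], Q.Monic ∧ Q.natDegree = 2 ∧ Q ∣ P := by
  obtain ⟨a, S, hS⟩ | ⟨a, s, hs⟩ := real_fac (P := P) (by omega)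
  · have h1 := (quo hP (monic_X_sub_C a) hS).2
    rw [natDegree_X_sub_C] at h1
    obtain ⟨b, hb⟩ | ⟨b, s, hs⟩ := real_fac (P := S) (by omega)
    · exact ⟨_, (monic_X_sub_C a).mul (monic_X_sub_C b), by
        rw [(monic_X_sub_C a).natDegree_mul (monic_X_sub_C b), natDegree_X_sub_C, natDegree_X_sub_C],
        hS ▸ mul_dvd_mul_left _ hb⟩
    · exact ⟨_, (monic_q b s).1, (monic_q b s).2, hS ▸ hs.mul_left _⟩
  · exact ⟨_, (monic_q a s).1, (monic_q a s).2, hs⟩

theorem real_even (j : ℕ) {P : ℝ[X]} (hP : P.Monic) (h : 2 * j ≤ P.natDegree) :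
    ∃ Q : ℝ[X], Q.Monic ∧ Q.natDegree = 2 * j ∧ Q ∣ P := by
  induction j with
  | zero => exact ⟨1, monic_one, natDegree_one, one_dvd _⟩
  | succ j ih =>
    obtain ⟨Q, h1, h2, S, hS⟩ := ih (by omega)
    obtain ⟨h3, h4⟩ := quo hP h1 hS
    obtain ⟨T, h5, h6, h7⟩ := real_two h3 (by omega)
    exact ⟨Q * T, h1.mul h5, by rw [h1.natDegree_mul h5, h2, h6]; ring, hS ▸ mul_dvd_mul_left _ h7⟩

theorem real_sq (m : ℕ) {P : ℝ[X]} (hP : P.Monic) (h : P.natDegree = 2 * m) (h0 : ∀ a, ¬ X - C a ∣ P) :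
    ∃ A B : ℝ[X], A.Monic ∧ A.natDegree = m ∧ B.degree < m ∧ P = A ^ 2 + B ^ 2 := by
  induction m generalizing P with
  | zero => exact ⟨1, 0, monic_one, natDegree_one, by simp, by simpa using hP.natDegree_eq_zero.1 h⟩
  | succ m ih =>
    obtain ⟨a, ha⟩ | ⟨a, s, S, hS⟩ := real_fac (P := P) (by omega)
    · exact absurd ha (h0 a)
    obtain ⟨h1, h2⟩ := quo hP (monic_q a s).1 hS
    rw [(monic_q a s).2] at h2
    obtain ⟨A, B, h3, h4, h5, h6⟩ := ih h1 (by omega) fun b hb => h0 b (hS ▸ hb.mul_left _)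
    have h7 : ((X - C a) * A).degree = ((m + 1 : ℕ) : WithBot ℕ) := by
      rw [degree_mul, degree_X_sub_C, degree_eq_natDegree h3.ne_zero, h4, add_comm]; rfl
    have h8 : (m : WithBot ℕ) < ((m + 1 : ℕ) : WithBot ℕ) := WithBot.coe_lt_coe.2 m.lt_succ_self
    have h9 : (C s * B).degree < ((X - C a) * A).degree := by
      rw [h7, ← smul_eq_C_mul]; exact ((degree_smul_le _ _).trans_lt h5).trans h8
    refine ⟨(X - C a) * A - C s * B, (X - C a) * B + C s * A, ((monic_X_sub_C a).mul h3).sub_of_left h9,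
      natDegree_eq_of_degree_eq_some ((degree_sub_eq_left_of_degree_lt h9).trans h7),
      (degree_add_le _ _).trans_lt (max_lt ?_ ?_), by rw [hS, h6]; ring⟩
    · rw [degree_mul, degree_X_sub_C, add_comm]
      exact WithBot.add_lt_add_right WithBot.one_ne_bot h5
    · rw [← smul_eq_C_mul]
      exact ((degree_smul_le _ _).trans (degree_le_of_natDegree_le h4.le)).trans_lt h8

/-- every real monic polynomial of even degree is a norm from a quadratic algebra -/
theorem real_par {m : ℕ} {P : ℝ[X]} (hP : P.Monic) (h : P.natDegree = 2 * m) : ∃ x, PP m x = P := by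
  by_cases h0 : ∀ a, ¬ X - C a ∣ P
  · obtain ⟨A, B, h1, h2, h3, rfl⟩ := real_sq m hP h h0
    obtain ⟨x, -, hx⟩ := exists_par (-1) h1 h2 h3
    exact ⟨x, by simpa using hx⟩
  push Not at h0
  obtain ⟨a, S, hS⟩ := h0
  obtain ⟨h1, h2⟩ := quo hP (monic_X_sub_C a) hS
  rw [natDegree_X_sub_C] at h2
  obtain ⟨Q, h3, h4, T, hT⟩ : ∃ Q : ℝ[X], Q.Monic ∧ Q.natDegree = m ∧ Q ∣ P := by
    obtain ⟨j, rfl | rfl⟩ := m.even_or_odd'
    · exact real_even j hP (by omega)
    · obtain ⟨Q, h3, h4, h5⟩ := real_even j h1 (by omega)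
      exact ⟨_, (monic_X_sub_C a).mul h3, by
        rw [(monic_X_sub_C a).natDegree_mul h3, natDegree_X_sub_C, h4, add_comm], hS ▸ mul_dvd_mul_left _ h5⟩
  obtain ⟨h5, h6⟩ := quo hP h3 hT
  exact hT ▸ par_mul h3 h5 h4 (by omega)

end real

section mat

theorem exists_root_mat {R : Type*} [CommRing R] [Nontrivial R] (c : R) {r : ℕ} (hr : 0 < r) :
    ∃ M : Matrix (Fin r) (Fin r) R, M ^ r = algebraMap R _ c := by
  have h := monic_X_pow_sub_C c hr.ne'
  let b := (AdjoinRoot.powerBasis' h).basis.reindex (finCongr (natDegree_X_pow_sub_C (n := r) (r := c)))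
  refine ⟨Algebra.leftMulMatrix b (AdjoinRoot.root _), ?_⟩
  have := AdjoinRoot.eval₂_root (X ^ r - C c)
  rw [eval₂_sub, eval₂_X_pow, eval₂_C, sub_eq_zero] at this
  rw [← map_pow, this]
  exact AlgHom.commutes _ c

/-- a root of a uniformiser in a local central simple algebra -/
theorem exists_root (F A : Type*) [NontriviallyNormedField F] [ProperSpace F] [IsUltrametricDist F] [Ring A]
    [Algebra F A] [Algebra.IsCentral F A] [IsSimpleRing A] [FiniteDimensional F A] :
    ∃ (π : F) (t : A), ‖π‖ < 1 ∧ (∀ c : F, ‖c‖ < 1 → ‖c‖ ≤ ‖π‖) ∧ t ^ deg F A = algebraMap F A π := by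
  obtain ⟨r, e, D, _, _, _, _, hr, -, h1, h2, ⟨φ⟩⟩ := Hsm.exists_wedderburn F A (finrank_eq_deg_sq F A)
  let := Loc.ndr F D
  let := Loc.nalg F D
  have := Loc.ultra F D
  obtain ⟨π, ζ, M, s, h⟩ := Loc.exists_cyc (F := F) (D := D)
  obtain ⟨t, ht⟩ := exists_root_mat (Loc.zz F π) hr
  refine ⟨h.vp, φ.symm ((Loc.WW F π).val.mapMatrix t), h.vp_lt, fun c => h.le_vp', ?_⟩
  have h3 : Loc.zz F π ^ e = algebraMap F _ h.vp := Subtype.ext (h.n_eq h2 ▸ h.vp_eq.symm)
  rw [← map_pow, ← map_pow, h1, pow_mul, ht, ← map_pow, h3, ← IsScalarTower.algebraMap_apply, AlgHom.commutes,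
    AlgEquiv.commutes]

theorem exists_diag_herm (F : Type*) {E A D : Type*} [Field F] [Field E] [StarRing E] [CharZero E] [Algebra F E]
    [Quad F E] [Ring A] [StarRing A] [Algebra E A] [StarModule E A] [Algebra F A] [IsScalarTower F E A]
    [DivisionRing D] [Algebra E D] [FiniteDimensional E D] {d : ℕ}
    (hd : 0 < d) (ψ : A ≃ₐ[E] Matrix (Fin d) (Fin d) D) {l : Fin d → F} (hl : Function.Injective l) :
    ∃ t : A, star t = t ∧ minpoly F t = ∏ i, (X - C (l i)) := by
  have : Nonempty (Fin d) := ⟨⟨0, hd⟩⟩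
  obtain ⟨_, _, e, a, h1, h2⟩ := exists_star_of_equiv (Quad.ne (k := F)) ψ
  let f : (Fin d → F) →ₐ[F] A := ((e.symm.toAlgHom.comp ((Matrix.diagonalAlgHom E).comp
    (AlgHom.pi fun i => (Algebra.ofId E D).comp (Pi.evalAlgHom E (fun _ => E) i)))).restrictScalars F).comp
    (AlgHom.pi fun i => (Algebra.ofId F E).comp (Pi.evalAlgHom F (fun _ => F) i))
  have hf : ∀ x, e (f x) = Matrix.diagonal fun i => algebraMap E D (algebraMap F E (x i)) := fun x =>
    e.apply_symm_apply _
  refine ⟨f l, e.injective ?_, ?_⟩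
  · have hu : IsUnit (Matrix.diagonal a) :=
      (Pi.isUnit_iff.2 fun i => (h1 i).1.isUnit).map (Matrix.diagonalRingHom _ D)
    refine hu.mul_left_cancel ((h2 _).trans ?_)
    rw [hf, Matrix.diagonal_conjTranspose, Matrix.diagonal_mul_diagonal, Matrix.diagonal_mul_diagonal]
    congr 1
    funext i
    rw [Pi.star_apply, Csa.star_algebraMap, Quad.star_k, Algebra.commutes]
  rw [minpoly.algHom_eq f fun x y h => funext fun i => (algebraMap F E).injective ((algebraMap E D).injective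
    (congrFun (Matrix.diagonal_injective ((hf x).symm.trans ((congrArg e h).trans (hf y)))) i))]
  have h3 : ∀ (q : F[X]) i, aeval l q i = q.eval (l i) := fun q i =>
    (aeval_algHom_apply (Pi.evalAlgHom F (fun _ => F) i) l q).symm
  refine (minpoly.unique' F l (monic_prod_X_sub_C _ _) (funext fun i => ?_) fun q hq => ?_).symm
  · rw [h3, eval_prod]
    exact Finset.prod_eq_zero (Finset.mem_univ i) (by simp)
  rw [or_iff_not_imp_right, not_not]
  intro h4
  by_contra h5
  refine h5 (eq_zero_of_natDegree_lt_card_of_eval_eq_zero q hl (fun i => by rw [← h3, h4]; rfl) ?_)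
  simpa using natDegree_lt_natDegree h5 hq

end mat

variable {k : Type*} (K B : Type*) [Field k] [NumberField k] [Field K] [NumberField K] [Algebra k K]
  [StarRing K] [Quad k K] [Ring B] [StarRing B] [Algebra K B] [StarModule K B]
  [Algebra.IsCentral K B] [IsSimpleRing B] [FiniteDimensional K B] [Algebra k B]
  [IsScalarTower k K B] {m : ℕ}

/-- the parameters with a local point -/
def Pt (m : ℕ) (F : Type*) [Field F] [Algebra k F] : Set (Fin 3 × ℕ → F) :=
  {x | ∃ t : BC k K B F, HR (PP m x) t}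

variable {K B} in
theorem pt_nhds {F : Type*} [NontriviallyNormedField F] [CompleteSpace F] [Algebra k F] {x : Fin 3 × ℕ → F}
    {t : BC k K B F} (h : HR (PP m x) t) (hs : (PP m x).Separable) : Pt (k := k) K B m F ∈ 𝓝 x := by
  obtain ⟨ε, hε, H⟩ := W56.loc_near F h hs univ_mem
  filter_upwards [ev_PP m x hε] with y hy
  exact (H _ (monic_PP m y).1 ((monic_PP m y).2.trans (monic_PP m x).2.symm) hy).imp fun _ h => h.1

theorem par_pow {R : Type*} [CommRing R] [Nontrivial R] (hm : 0 < m) (π : R) :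
    ∃ x, x (2, 0) = π ∧ PP m x = X ^ (2 * m) - C π := by
  obtain ⟨x, h1, h2⟩ := exists_par π (monic_X_pow m) (natDegree_X_pow m) (B := 1)
    (by rw [degree_one]; exact_mod_cast hm)
  exact ⟨x, h1, by rw [h2, one_pow, mul_one, ← pow_mul, mul_comm]⟩

theorem pt_real (hd : deg K B = 2 * m) (φ : k →+* ℝ) : ∃ x, Pt (k := k) K B m (Rp φ) ∈ 𝓝 x := by
  obtain ⟨a, h1, h2⟩ := exists_herm_separable (B := B) (Quad.ne (k := k) (K := K))
  obtain ⟨P, h3, h4, h5⟩ := exists_rch_herm (fun _ => exists_of_star_eq (Quad.fr (k := k) (K := K)) Quad.star_k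
    (Quad.ne (k := k))) h1
  have h6 : P.Separable := (separable_map _).1 (h5 ▸ h2)
  obtain ⟨x, hx⟩ : ∃ x : Fin 3 × ℕ → Rp φ, PP m x = P.map (algebraMap k (Rp φ)) :=
    real_par (P := P.map φ) (h3.map φ) (by rw [natDegree_map, h4, hd])
  exact ⟨x, pt_nhds (hx ▸ W56.hr ⟨h1, h5.symm⟩ h6) (hx ▸ h6.map)⟩

theorem pt_fin (hd : deg K B = 2 * m) (v : Pl k) : ∃ x, Pt (k := k) K B m (Kv v) ∈ 𝓝 x := by
  have := Loc.proper_adic k v
  have := Loc.charZero_adic k v
  have h0 := deg_pos K B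
  rcases isEmpty_or_nonempty (K →ₐ[k] Kv v) with h | ⟨⟨i⟩⟩
  · obtain ⟨ψ⟩ := Loc.bc_mat K B v
    have hl : Function.Injective fun i : Fin (deg K B) => ((i : ℕ) : Kv v) := fun i j h =>
      Fin.ext (Nat.cast_injective h)
    obtain ⟨t, h1, h2⟩ := exists_diag_herm (Kv v) h0 ψ hl
    have h3 : ∀ s : ℕ, (∏ i ∈ Finset.range m, (X - C ((s + i : ℕ) : Kv v))).Monic ∧
        (∏ i ∈ Finset.range m, (X - C ((s + i : ℕ) : Kv v))).natDegree = m := fun s =>
      ⟨monic_prod_X_sub_C _ _, by rw [natDegree_finsetProd_X_sub_C_eq_card, Finset.card_range]⟩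
    obtain ⟨x, hx⟩ := par_mul (h3 0).1 (h3 m).1 (h3 0).2 (h3 m).2
    have h4 : PP m x = ∏ i : Fin (deg K B), (X - C ((i : ℕ) : Kv v)) := by
      rw [hx, Fin.prod_univ_eq_prod_range fun i => X - C (i : Kv v), hd, two_mul, Finset.prod_range_add]
      simp only [zero_add]
    exact ⟨x, pt_nhds ⟨h1, h4 ▸ h2⟩ (h4 ▸ separable_prod_X_sub_C_iff.2 hl)⟩
  · let := i.toRingHom.toAlgebra
    have : IsScalarTower k K (Kv v) := .of_algebraMap_eq fun c => (i.commutes c).symm
    have := isSimpleRing_tensor (K := K) (A := Kv v) (B := B)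
    have := isCentral_tensor (K := K) (F := Kv v) (A := Kv v) (B := B)
    let s := SM.taut k K B (Kv v)
    obtain ⟨π, y, h1, h2, h3⟩ := exists_root (Kv v) (Kv v ⊗[K] B)
    rw [s.deg_eq, hd] at h3
    obtain ⟨t, h4, rfl⟩ := s.exists_herm y
    obtain ⟨x, -, hx⟩ := par_pow (m := m) (by omega) π
    have h5 : Irreducible (PP m x) := eis_pow h1 h2 (d := 2 * m) (by omega) (monic_PP m x).1 (monic_PP m x).2
      fun i => by
        obtain ⟨c, hc, hc'⟩ := NormedField.exists_norm_lt_one (Kv v)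
        rw [hx, sub_self, norm_zero]
        exact hc.trans_le (h2 c hc')
    have := (BC.inc_injective k K B (Kv v)).nontrivial
    refine ⟨x, pt_nhds (t := t) ⟨h4, (minpoly.eq_of_irreducible_of_monic h5 ?_ (monic_PP m x).1).symm⟩
      h5.separable⟩
    refine s.herm_ext (A16.star_aeval h4 _) (star_zero _) ?_
    rw [← aeval_algHom_apply, hx, map_sub, map_pow, aeval_X, h3, aeval_C, sub_self, map_zero]

include K in
theorem star_aeval_k {x : B} (hx : star x = x) (p : k[X]) : star (aeval x p) = aeval x p := by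
  induction p using Polynomial.induction_on' with
  | add p q hp hq => rw [map_add, star_add, hp, hq]
  | monomial n c => rw [aeval_monomial, ← Algebra.smul_def, star_ksmul k K B, star_pow, hx]

/-- a hermitian element whose square is a scalar of odd valuation at a given kind of place -/
theorem exists_herm_sq (hL : LocEx k K B) (hd : Even (deg K B)) (S : Finset (Pl k)) :
    ∃ v ∉ S, ∃ (r : k) (η : B), v.valuation k r = exp (-1) ∧ star η = η ∧ η * η = algebraMap k B r := by
  classical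
  obtain ⟨m, hd⟩ := hd
  rw [← two_mul] at hd
  have hm : 0 < m := by have := deg_pos K B; omega
  obtain ⟨S₀, hL⟩ := hL
  obtain ⟨v₁, h₁⟩ := exists_notMem (S₀ ∪ S)
  rw [Finset.mem_union, not_or] at h₁
  obtain ⟨π₀, hπ⟩ := v₁.valuation_exists_uniformizer k
  let π := algebraMap k (Kv v₁) π₀
  have hv : Valued.v π = exp (-1) := (Loc.val_alg v₁ π₀).trans hπ
  have h1 : ‖π‖ < 1 := Valued.toNormedField.norm_lt_one_iff.2 (hv ▸ exp_lt_exp.2 (by decide))
  have h2 : ∀ c : Kv v₁, ‖c‖ < 1 → ‖c‖ ≤ ‖π‖ := fun c hc => Valued.toNormedField.norm_le_iff.2 (by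
    rw [hv, ← lt_mul_exp_iff_le exp_ne_zero, ← exp_add]
    exact Valued.toNormedField.norm_lt_one_iff.1 hc)
  have h3 : 0 < ‖π‖ := norm_pos_iff.2 fun h => exp_ne_zero (by rw [← hv, h, map_zero])
  obtain ⟨x₁, h4, h5⟩ := par_pow hm π
  choose a ha using pt_fin (k := k) K B hd
  choose b hb using pt_real (k := k) K B hd
  obtain ⟨x, h6, h7⟩ := Hil.wa (insert v₁ S₀) (Function.update a v₁ x₁)
    (Function.update (fun v => Pt (k := k) K B m (Kv v)) v₁
      {x | (∀ i, ‖(PP m x).coeff i - (PP m x₁).coeff i‖ < ‖π‖) ∧ ‖x (2, 0) - π‖ < ‖π‖}) (fun v hv => by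
      rcases eq_or_ne v v₁ with rfl | h
      · rw [Function.update_self, Function.update_self]
        refine (ev_PP m x₁ h3).and ?_
        simpa only [dist_eq_norm, h4] using Metric.tendsto_nhds.1 ((continuous_apply (2, 0)).tendsto x₁) _ h3
      · rw [Function.update_of_ne h, Function.update_of_ne h]
        exact ha v) b (fun φ => Pt (k := k) K B m (Rp φ)) hb
  obtain ⟨h8, h9⟩ := Function.update_self v₁ _ _ ▸ h6 v₁ (Finset.mem_insert_self _ _)
  obtain ⟨h10, h11⟩ := monic_PP m x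
  have h12 : Irreducible (PP m x) := h10.irreducible_of_irreducible_map (algebraMap k (Kv v₁)) _ (by
    rw [map_PP]
    exact eis_pow h1 h2 (d := 2 * m) (by omega) (monic_PP m _).1 (monic_PP m _).2 (h5 ▸ h8))
  obtain ⟨th, h13, h14⟩ := embEx k K B (PP m x) h10 h12 (h11.trans hd.symm) (fun v => by
    by_cases hv : v ∈ S₀
    · have := h6 v (Finset.mem_insert_of_mem hv)
      rw [Function.update_of_ne (fun h : v = v₁ => h₁.1 (h ▸ hv))] at this
      rwa [map_PP]
    · exact hL v hv _ (h10.map _) (by rw [natDegree_map, h11, hd]) h12.separable.map) fun φ => by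
      rw [map_PP]; exact h7 φ
  have h15 : aeval th (PP m x) = 0 := by rw [← aeval_map_algebraMap K, ← h14, aeval_rch]
  obtain ⟨U, V, h16⟩ : IsCoprime (PP m x) (lo m fun j => x (1, j)) := h12.coprime_iff_not_dvd.2 fun h => by
    have h17 := eq_zero_of_dvd_of_degree_lt h ((degree_lo m _).trans_le (by
      rw [degree_eq_natDegree h10.ne_zero, h11]; exact WithBot.coe_le_coe.2 (show m ≤ 2 * m by omega)))
    have h18 := natDegree_eq_zero_of_isUnit ((or_self_iff).1 (h12.isUnit_or_isUnit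
      (show PP m x = _ * _ by rw [PP, h17, zero_pow two_ne_zero, mul_zero, sub_zero, sq])))
    rw [(monic_A m _).2] at h18
    omega
  refine ⟨v₁, h₁.2, x (2, 0), aeval th ((X ^ m + lo m fun j => x (0, j)) * V), ?_, star_aeval_k K B h13 _, ?_⟩
  · have h17 := Loc.norm_eq_of_lt h9
    rw [← Loc.val_alg, ← hv]
    exact (Valued.toNormedField.norm_le_iff.1 h17.le).antisymm (Valued.toNormedField.norm_le_iff.1 h17.ge)
  rw [← map_mul, ← aeval_C th, ← sub_eq_zero, ← map_sub]
  set A := X ^ m + lo m fun j => x (0, j)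
  set B' := lo m fun j => x (1, j)
  have h17 : PP m x = A ^ 2 - C (x (2, 0)) * B' ^ 2 := rfl
  rw [show A * V * (A * V) - C (x (2, 0)) = (V ^ 2 - C (x (2, 0)) * U * (1 + V * B')) * PP m x by
    linear_combination (-V ^ 2) * h17 + C (x (2, 0)) * (1 + V * B') * h16, map_mul, h15, mul_zero]

end E59

open E59

variable (k K B : Type*) [Field k] [NumberField k] [Field K] [NumberField K] [Algebra k K]
  [StarRing K] [Quad k K] [Ring B] [StarRing B] [Algebra K B] [StarModule K B]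
  [Algebra.IsCentral K B] [IsSimpleRing B] [FiniteDimensional K B] [Algebra k B]
  [IsScalarTower k K B]

variable {k K B} in
/-- a skew element with non-square central square has a skew anticommuting unit -/
theorem exists_anti {ε : kˣ} {i : B} (h1 : star i = -i) (h2 : i * i = algebraMap k B ε)
    (h3 : ¬ IsSquare (algebraMap k K ε)) : ∃ n, E0 ε i n := by
  have h4 : ∀ x : B, x * x = algebraMap k B ε → aeval x (X ^ 2 - C (algebraMap k K ε)) = 0 := fun x hx => by
    rw [map_sub, map_pow, aeval_X, aeval_C, ← IsScalarTower.algebraMap_apply, sq, hx, sub_self]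
  obtain ⟨u, hu⟩ := conj_of_irreducible ((X_pow_sub_C_irreducible_iff_of_prime Nat.prime_two).2 fun b hb =>
    h3 ⟨b, by rw [← hb, sq]⟩) (h4 i h2) (h4 (-i) (by rwa [neg_mul_neg]))
  let W : Submodule K B := LinearMap.ker (LinearMap.mulRight K i + LinearMap.mulLeft K i)
  have hW : ∀ x, x ∈ W ↔ x * i = -(i * x) := fun x => add_eq_zero_iff_eq_neg
  obtain ⟨x, h5, h6, h7⟩ := exists_herm_unit (Quad.ne (k := k)) W (fun x hx => by
    have := congrArg star ((hW x).1 hx)
    rw [star_neg, star_mul, star_mul, h1, neg_mul, mul_neg, neg_neg] at this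
    exact (hW _).2 this.symm) (z := u) ((hW _).2 (by rw [← neg_mul, hu, Units.inv_mul_cancel_right])) u.isUnit
  obtain ⟨θ, h0, hθ⟩ := exists_skew (Quad.ne (k := k) (K := K))
  exact ⟨θ • x, h1, h2, by rw [star_smul, hθ, h6, neg_smul], by
    rw [Algebra.smul_def]; exact (h0.isUnit.map _).mul h7, (hW _).1 (W.smul_mem θ h5)⟩

/-- a hermitian element generating a quadratic field over `K` -/
theorem exists_eps (hL : LocEx k K B) (hd : Even (deg K B)) : ∃ (η : B) (r : k), star η = η ∧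
    η * η = algebraMap k B r ∧ ¬ IsSquare (algebraMap k K r) := by
  obtain ⟨θ, δ, h0, hθ, hδ⟩ := BC.exists_delta k K
  have hδ0 : δ ≠ 0 := fun h => mul_ne_zero h0 h0 (by rw [← hδ, h, map_zero])
  obtain ⟨v, hv, r, η, h1, h2, h3⟩ := exists_herm_sq K B hL hd (finite_ne_one hδ0).toFinset
  rw [Set.Finite.mem_toFinset, Set.mem_ofPred_eq, not_not] at hv
  have key : ∀ c a : k, v.valuation k c = 1 → algebraMap k K (c * r) ≠ algebraMap k K a * algebraMap k K a :=
    fun c a hc h => by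
      rw [← map_mul, (algebraMap k K).injective.eq_iff] at h
      have h4 := congrArg (fun x => log (v.valuation k x)) h
      have h5 : v.valuation k a ≠ 0 := fun h5 => by
        simp only [map_mul, hc, h1, h5, log_exp, one_mul, mul_zero, log_zero] at h4
        omega
      simp only [map_mul, hc, h1, log_exp, one_mul, log_mul h5 h5] at h4
      omega
  refine ⟨η, r, h2, h3, ?_⟩
  rintro ⟨z, hz⟩
  have h5 := congrArg star hz
  rw [Quad.star_k, star_mul, hz, eq_comm, mul_self_eq_mul_self_iff] at h5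
  have fx := fun c => exists_of_star_eq (c := c) (Quad.fr (k := k) (K := K)) Quad.star_k (Quad.ne (k := k))
  rcases h5 with h5 | h5
  · obtain ⟨a, rfl⟩ := fx z h5
    exact key 1 a (map_one _) (by rw [one_mul, hz])
  · obtain ⟨a, ha⟩ := fx (θ * z) (by rw [star_mul, h5, hθ, neg_mul_neg, mul_comm])
    exact key δ a hv (by rw [ha, map_mul, hz, hδ]; ring)

/-- **existence of the data of the even step** -/
theorem exists_E0 (hL : LocEx k K B) (hd : Even (deg K B)) :
    ∃ (ε : kˣ) (i n : B), E0 ε i n ∧ ¬ IsSquare (algebraMap k K ε) := by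
  obtain ⟨θ, δ, h0, hθ, hδ⟩ := BC.exists_delta k K
  have hδ0 : δ ≠ 0 := fun h => mul_ne_zero h0 h0 (by rw [← hδ, h, map_zero])
  obtain ⟨η, r, h2, h3, h1⟩ := exists_eps k K B hL hd
  have hr : r ≠ 0 := fun h => h1 (by rw [h, map_zero]; exact .zero)
  have h4 : ¬ IsSquare (algebraMap k K (δ * r)) := fun ⟨z, hz⟩ => h1 ⟨z / θ, by
    rw [map_mul, hδ] at hz
    field_simp
    linear_combination hz⟩
  have h5 : star (θ • η) = -(θ • η) := by rw [star_smul, hθ, h2, neg_smul]
  obtain ⟨n, hn⟩ := exists_anti (ε := Units.mk0 _ (mul_ne_zero hδ0 hr)) h5 (by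
    rw [smul_mul_smul_comm, ← hδ, h3, algebraMap_smul, Units.val_mk0, map_mul, Algebra.smul_def]) h4
  exact ⟨_, _, n, hn, h4⟩

end Crest.Agent.T24.Ev
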