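import Crest.Agent.T24.EvA_20

/-!
# Row 24, central step for even degree (helper23): good elements decompose
-/

set_option autoImplicit false
set_option linter.unusedSectionVars false

noncomputable section

namespace Crest.Agent.T24.Ev

open Module NumberField WithZero Csa Asa Topology Filter Polynomial Lan
open scoped Matrix

universe u v w

namespace E23

section Alg
variable {k : Type u} {B : Type*} [Field k] [NumberField k] [Ring B] [StarRing B] [Algebra k B]
  {ε : kˣ} {i : B}

theorem split (hi : i * i = algebraMap k B ε) {p m q : B} (hp : p * i = i * p)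
    (hm : m * i = -(i * m)) (hq : q * i = i * q) (h : p + m = q) : p = q ∧ m = 0 := by
  have h1 : m * i = i * m := by rw [eq_sub_of_add_eq' h, sub_mul, mul_sub, hp, hq]
  have h2 : (2 * ε : k) • m = 0 := by
    rw [mul_smul, Algebra.smul_def (ε : k), ← hi, mul_assoc, ← mul_smul_comm, two_smul]
    nth_rw 1 [← h1]
    rw [hm, neg_add_cancel, mul_zero]
  have h3 : m = 0 := (smul_eq_zero.1 h2).resolve_left (by simp)
  exact ⟨by rwa [h3, add_zero] at h, h3⟩

variable (ε i) in
/-- the part commuting with `i` -/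
def pa (γ : B) : B := (2 * ε : k)⁻¹ • pl (ε : k) i γ

variable (ε i) in
/-- the part anticommuting with `i` -/
def pb (γ : B) : B := (2 * ε : k)⁻¹ • mi (ε : k) i γ

theorem pa_add_pb (γ : B) : pa ε i γ + pb ε i γ = γ := by
  rw [pa, pb, pl, mi, ← smul_add, add_add_sub_cancel, ← two_smul k, smul_smul, smul_smul,
    mul_assoc, inv_mul_cancel₀ (by simp), one_smul]

theorem pa_one (hi : i * i = algebraMap k B ε) : pa ε i 1 = 1 := by
  rw [pa, pl, mul_one, hi, Algebra.algebraMap_eq_smul_one, ← two_smul k, smul_smul, smul_smul,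
    mul_assoc, inv_mul_cancel₀ (by simp), one_smul]

/-- the relations between the two parts of a unitary element -/
structure Pt (i a b : B) : Prop where
  ca : a * i = i * a
  cb : b * i = -(i * b)
  ca' : star a * i = i * star a
  h1 : a * star a + b * star b = 1
  h2 : a * star b = -(b * star a)
  h3 : star a * b = -(star b * a)

theorem pt (hi : i * i = algebraMap k B ε) (hs : star i = -i) {γ : B} (h : star γ * γ = 1)
    (h' : γ * star γ = 1) : Pt i (pa ε i γ) (pb ε i γ) := by
  have e1 (x : B) : x * i * i = (ε : k) • x := by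
    rw [mul_assoc, hi, ← Algebra.commutes, Algebra.smul_def]
  have e2 (x : B) : i * (i * x) = (ε : k) • x := by rw [← mul_assoc, hi, Algebra.smul_def]
  have ca : pa ε i γ * i = i * pa ε i γ := by
    simp only [pa, pl, smul_mul_assoc, mul_smul_comm, add_mul, mul_add, e1]
    rw [mul_assoc i γ, e2, add_comm]
  have cb : pb ε i γ * i = -(i * pb ε i γ) := by
    simp only [pb, mi, smul_mul_assoc, mul_smul_comm, sub_mul, mul_sub, e1]
    rw [mul_assoc i γ, e2, ← smul_neg, neg_sub]
  rw [← pa_add_pb (ε := ε) (i := i) γ] at h h'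
  generalize pa ε i γ = a at *
  generalize pb ε i γ = b at *
  have ca' : star a * i = i * star a := by simpa [hs] using congrArg star ca.symm
  have cb' : star b * i = -(i * star b) := by
    have := congrArg star cb
    simp only [star_mul, star_neg, hs, neg_mul, mul_neg, neg_neg] at this
    exact this.symm
  obtain ⟨h1, h2⟩ := split hi (p := a * star a + b * star b) (m := a * star b + b * star a) (q := 1)
    (by simp only [add_mul, mul_add, mul_assoc, ca', cb', mul_neg]
        simp only [← mul_assoc, ca, cb, neg_mul, neg_neg])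
    (by simp only [add_mul, mul_add, mul_assoc, ca', cb', mul_neg]
        simp only [← mul_assoc, ca, cb, neg_mul, neg_add])
    (by simp) (by rw [← h', star_add]; noncomm_ring)
  obtain ⟨-, h3⟩ := split hi (p := star a * a + star b * b) (m := star a * b + star b * a) (q := 1)
    (by simp only [add_mul, mul_add, mul_assoc, ca, cb, mul_neg]
        simp only [← mul_assoc, ca', cb', neg_mul, neg_neg])
    (by simp only [add_mul, mul_add, mul_assoc, ca, cb, mul_neg]
        simp only [← mul_assoc, ca', cb', neg_mul, neg_add])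
    (by simp) (by rw [← h, star_add]; noncomm_ring)
  exact ⟨ca, cb, ca', h1, eq_neg_of_add_eq_zero_left h2, eq_neg_of_add_eq_zero_left h3⟩

theorem comm_aeval {ω x : B} (h : Commute ω x) (p : k[X]) : Commute (aeval ω p) x := by
  rw [aeval_eq_sum_range]
  exact Commute.sum_left _ _ _ fun n _ => (h.pow_left n).smul_left _

theorem dec (hk : ∀ (c : k) (x : B), star (c • x) = c • star x) (hi : i * i = algebraMap k B ε)
    (hs : star i = -i) {a b : B} (H : Pt i a b) (h : star (a + b) * (a + b) = 1) (ha : IsUnit a)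
    (hb : IsUnit b) {S : Finset (Pl k)} (hq : QSpl S (ε : k) (a * star a) (X ^ 2 - X))
    {p q r : k[X]} (hr : aeval (a * star a) r * (a * star a) = 1)
    (hp : a * star a = aeval (a * star a) (p ^ 2 - C (ε : k) * q ^ 2)) {μ : B}
    (hμ : μ = aeval (a * star a) p + aeval (a * star a) q * i) {x y : B}
    (hx : x = (a + b) * star a * Ring.inverse μ) (hy : y = μ * Ring.inverse (star a)) :
    a + b = x * y ∧ star x * x = 1 ∧ InQ S x ∧ Commute y i := by
  have c1 : Commute (a * star a) i := by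
    rw [Commute, SemiconjBy, mul_assoc, H.ca', ← mul_assoc, H.ca, mul_assoc]
  have c2 : Commute (a * star a) (b * star a) := by
    rw [Commute, SemiconjBy, mul_assoc, ← mul_assoc (star a), H.h3, neg_mul, mul_neg, ← mul_assoc,
      ← mul_assoc, H.h2, neg_mul, neg_mul, neg_neg, mul_assoc (b * star a)]
  have c3 : b * star a * i = -(i * (b * star a)) := by
    rw [mul_assoc, H.ca', ← mul_assoc, H.cb, neg_mul, mul_assoc]
  have c4 : b * star a * (b * star a) = aeval (a * star a) (X ^ 2 - X : k[X]) := by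
    rw [map_sub, map_pow, aeval_X, mul_assoc, ← mul_assoc (star a), H.h3, neg_mul, mul_neg,
      mul_assoc, ← mul_assoc b, ← eq_sub_of_add_eq' H.h1 |>.symm, sub_mul, one_mul, neg_sub, sq]
  have s1 : star (a * star a) = a * star a := by rw [star_mul, star_star]
  have e0 : (a + b) * star a = a * star a + b * star a := add_mul _ _ _
  have s2 : star (b * star a) = -(b * star a) := by rw [star_mul, star_star, H.h2]
  have u1 : IsUnit (b * star a) := hb.mul ha.star
  have u2 := Ring.inverse_mul_cancel _ ha.star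
  have u3 := Ring.mul_inverse_cancel _ ha.star
  have u4 : a * (star (a + b) * (a + b)) * star a = a * star a := by rw [h, mul_one]
  generalize a * star a = ω at *
  generalize b * star a = κ at *
  have sa (f : k[X]) : star (aeval ω f) = aeval ω f := by
    simp only [aeval_eq_sum_range, star_sum, hk, star_pow, s1]
  have cc (f g : k[X]) : aeval ω f * aeval ω g = aeval ω g * aeval ω f := by
    rw [← map_mul, mul_comm, map_mul]
  have m1 : star μ = aeval ω p - aeval ω q * i := by
    rw [hμ, star_add, star_mul, sa, sa, hs, neg_mul, (comm_aeval c1 q).eq, sub_eq_add_neg]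
  have m0 (f g : k[X]) : aeval ω f * i * aeval ω g = aeval ω g * (aeval ω f * i) := by
    rw [mul_assoc, ← (comm_aeval c1 g).eq, ← mul_assoc, cc, mul_assoc]
  have m2 : aeval ω q * i * (aeval ω q * i) = aeval ω (C (ε : k) * q ^ 2) := by
    rw [← mul_assoc, m0, mul_assoc, mul_assoc, hi, ← mul_assoc, ← aeval_C ω, ← map_mul, ← map_mul,
      mul_comm, sq]
  have m3 : star μ * μ = ω := by
    rw [m1, hμ, sub_mul, mul_add, mul_add, m0, m2]
    conv_rhs => rw [hp, map_sub, map_pow, sq]
    abel
  have m4 : μ * star μ = ω := by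
    rw [m1, hμ, mul_sub, add_mul, add_mul, m0, m2]
    conv_rhs => rw [hp, map_sub, map_pow, sq]
    abel
  have m5 : μ * (star μ * aeval ω r) = 1 := by
    rw [← mul_assoc, m4, ← (comm_aeval (Commute.refl ω) r).eq, hr]
  have m6 : aeval ω r * star μ * μ = 1 := by rw [mul_assoc, m3, hr]
  have um : IsUnit μ := isUnit_iff_exists.2 ⟨star μ * aeval ω r, m5, by
    rw [← left_inv_eq_right_inv m6 m5, m6]⟩
  have m7 := Ring.inverse_mul_cancel _ um
  have m8 := Ring.mul_inverse_cancel _ um
  have m9 : Ring.inverse μ = aeval ω r * star μ := (left_inv_eq_right_inv m6 m8).symm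
  refine ⟨?_, ?_, ⟨ε, i, κ, ω, X ^ 2 - X, X * (r * p), -(X * (r * q)), r * p, r * q, s1, hs, s2, hi,
    c4, u1, c3, c1, c2, ?_, hq⟩, ?_⟩
  · rw [hx, hy, mul_assoc, ← mul_assoc _ μ, m7, one_mul, mul_assoc, u3, mul_one]
  · calc _ = star (Ring.inverse μ) * (a * (star (a + b) * (a + b)) * star a) * Ring.inverse μ := by
          simp only [hx, star_mul, star_star, mul_assoc]
      _ = 1 := by rw [u4, ← m3, ← mul_assoc, ← star_mul, m8, star_one, one_mul, m8]
  · rw [hx, e0, m9, m1, mul_sub, ← mul_assoc (aeval ω r), ← map_mul, ← map_mul, map_neg,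
      map_mul _ X, map_mul _ X, aeval_X, add_mul, mul_sub, mul_sub, ← (comm_aeval c2 _).eq,
      ← mul_assoc κ, ← (comm_aeval c2 _).eq, mul_assoc _ κ, c3]
    noncomm_ring
  · have c5 : Commute μ i := hμ ▸ (comm_aeval c1 p).add_left
      ((comm_aeval c1 q).mul_left (Commute.refl i))
    obtain ⟨t, ht⟩ := ha.star
    rw [hy, ← ht, Ring.inverse_unit]
    exact c5.mul_left (Commute.units_inv_left (ht ▸ H.ca'))

end Alg

section Eig
variable {k : Type u} {B : Type*} [Field k] [NumberField k] [Ring B] [Algebra k B]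
  {κ : Type*} [Fintype κ] [DecidableEq κ] (e : Basis κ k B)
  {F : Type*} [Field F] [NumberField F] [Algebra k F]

/-- eigenvectors of the regular representation -/
def EV (x : B) (V : κ → F) (l : F) : Prop :=
  (Algebra.leftMulMatrix e x).map (algebraMap k F) *ᵥ V = l • V

/-- integral with integral inverse -/
def IU (v : Pl k) (x : B) : Prop := In e v x ∧ ∃ y, y * x = 1 ∧ In e v y

/-- near `1` at `S` and at the real places -/
def N1 (S : Finset (Pl k)) (x : B) : Prop :=
  (∀ v ∈ S, ∀ p q, v.valuation k (Algebra.leftMulMatrix e (x - 1) p q) < v.valuation k 4) ∧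
    ∀ (φ : k →+* ℝ) p q, |φ (Algebra.leftMulMatrix e (x - 1) p q)| < 1 / (Fintype.card κ + 1)

variable {e} {x : B} {V : κ → F} {l : F}

theorem EV.sub_one (h : EV e x V l) : EV e (x - 1) V (l - 1) := by
  rw [EV, map_sub, map_one, Matrix.map_sub _ (map_sub _), Matrix.map_one _ (map_zero _) (map_one _)]
  exact eig_sub_one h

theorem EV.inv (h : EV e x V l) (hV : V ≠ 0) {y : B} (hy : y * x = 1) : l ≠ 0 ∧ EV e y V l⁻¹ :=
  eig_inv (by rw [← Matrix.map_mul, ← map_mul, hy, map_one,
    Matrix.map_one _ (map_zero _) (map_one _)]) hV h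

theorem EV.unit (h : EV e x V l) (hV : V ≠ 0) {u : Pl F}
    (hm : ∀ i j, In e (below k u) (e i * e j)) (hx : IU e (below k u) x) :
    u.valuation F l = 1 := by
  obtain ⟨h1, y, hy, h2⟩ := hx
  obtain ⟨h0, h'⟩ := h.inv hV hy
  obtain ⟨p, q, H⟩ := val_eig (u.valuation F) hV h
  obtain ⟨p', q', H'⟩ := val_eig (u.valuation F) hV h'
  have H2 := H'.trans ((below_le_one u _).2 (In.mat hm h2 p' q'))
  rw [map_inv₀, inv_le_one₀ (zero_lt_iff.2 (by simpa using h0))] at H2
  exact le_antisymm (H.trans ((below_le_one u _).2 (In.mat hm h1 p q))) H2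

theorem EV.sq (h : EV e x V l) (hV : V ≠ 0) {S : Finset (Pl k)} (hx : N1 e S x) {u : Pl F}
    (hu : below k u ∈ S) : u.valuation F (l - 1) < u.valuation F 4 := by
  obtain ⟨p, q, H⟩ := val_eig (u.valuation F) hV h.sub_one
  have := (below_lt u _ _).2 (hx.1 _ hu p q)
  rw [map_ofNat] at this
  exact H.trans_lt this

theorem EV.pos (h : EV e x V l) (hV : V ≠ 0) {S : Finset (Pl k)} (hx : N1 e S x) (φ : F →+* ℝ) :
    0 < φ l := by
  obtain ⟨p, q, H⟩ := real_eig φ hV h.sub_one
  have H1 := hx.2 (φ.comp (algebraMap k F)) p q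
  rw [lt_div_iff₀ (by positivity)] at H1
  have H2 : |φ (l - 1)| < 1 := by
    have := abs_nonneg (φ (algebraMap k F (Algebra.leftMulMatrix e (x - 1) p q)))
    simp only [Matrix.map_apply, RingHom.comp_apply] at H H1
    nlinarith
  rw [map_sub, map_one, abs_lt] at H2
  linarith

variable {v : Pl k}

theorem iu_of_norm (hm : ∀ i j, In e v (e i * e j)) (h1 : In e v 1) (hx : In e v x)
    (hn : v.valuation k (Algebra.norm k x) = 1) : IU e v x := by
  rw [Algebra.norm_eq_matrix_det e] at hn
  obtain ⟨y, hy, h⟩ := exists_inv e (y := x) (by rintro h; simp [h] at hn)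
  refine ⟨hx, y, mul_eq_one_symm e hy, fun i => ?_⟩
  rw [h, Pi.smul_apply, smul_eq_mul, map_mul, map_inv₀, hn, inv_one, one_mul]
  refine Valuation.map_sum_le _ fun j _ => ?_
  rw [map_mul]
  exact mul_le_one' (val_adjugate _ (In.mat hm hx) i j) (h1 j)

theorem IU.smul (hx : IU e v x) {c : k} (hc : v.valuation k c = 1) : IU e v (c⁻¹ • x) := by
  obtain ⟨h1, y, hy, h2⟩ := hx
  refine ⟨h1.smul (by simp [hc]), c • y, ?_, h2.smul hc.le⟩
  rw [smul_mul_smul_comm, hy, mul_inv_cancel₀ (by rintro rfl; simp at hc), one_smul]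

theorem IU.mul_st (hm : ∀ i j, In e v (e i * e j)) [StarRing B] (g : B →ₗ[k] B)
    (hg : ∀ x, g x = star x) (hs : ∀ i, In e v (star (e i))) (hx : IU e v x) :
    IU e v (x * star x) := by
  obtain ⟨h1, y, hy, h2⟩ := hx
  have h (z : B) (hz : In e v z) : In e v (star z) := hg z ▸ hz.lin g fun j => (hg _).symm ▸ hs j
  refine ⟨In.mul hm h1 (h x h1), star y * y, ?_, In.mul hm (h y h2) h2⟩
  rw [mul_assoc, ← mul_assoc y, hy, one_mul, ← star_mul, mul_eq_one_symm e hy, star_one]

theorem IU.neg (hx : IU e v x) : IU e v (-x) := by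
  simpa using hx.smul (c := -1) (by simp)

/-- local norms and the global decomposition -/
theorem norm_of {ε : kˣ} {S : Finset (Pl k)} {ω : B} (hu : IsUnit ω) (hN : N1 e S ω)
    (hS : ∀ v ∉ S, v.valuation k 2 = 1 ∧ v.valuation k ε = 1 ∧ ∀ i j, In e v (e i * e j))
    (hI : ∀ v ∉ S, ε ∉ Hn.Sq v → IU e v ω ∧ IU e v (ω - 1)) :
    QSpl S (ε : k) ω (X ^ 2 - X) ∧ (∃ r : k[X], aeval ω r * ω = 1) ∧
      ∃ p q : k[X], ω = aeval ω (p ^ 2 - C (ε : k) * q ^ 2) := by
  obtain ⟨ω', hω⟩ := hu.exists_left_inv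
  have h2 {L : Type u} [Field L] [NumberField L] [Algebra k L] (w : Pl L) (hw : below k w ∉ S)
      (b : Lˣ) (hb : ε ∉ Hn.Sq (below k w) → w.valuation L b = 1) :
      b ∈ Hn.LN (algebraMap k L ε) w := by
    by_cases hd : ε ∈ Hn.Sq (below k w)
    · exact (Hn.LN_eq_top w _ (map_mem_Sq w hd)).ge trivial
    · refine Hn.Loc.mem_LN_of_odd w ?_ ((below_eq_one w _).2 (hS _ hw).2.1) (hb hd)
      simpa [map_ofNat] using (below_eq_one w (2 : k)).2 (hS _ hw).1
  refine ⟨fun L _ _ _ l hl w hw b hb => h2 w hw b fun hd => ?_, ?_, ?_⟩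
  · obtain ⟨V, hV, h⟩ := exists_eigvec (Algebra.leftMulMatrix e ω)
      (aeval_eq_zero_of_dvd_aeval_eq_zero (minpoly.dvd k ω (aeval_charpoly e ω)) hl)
    have e1 : (b : L) = l * (l - 1) := by rw [hb]; simp [mul_sub, sq]
    rw [e1, map_mul, EV.unit h hV (hS _ hw).2.2 (hI _ hw hd).1,
      (EV.sub_one h).unit hV (hS _ hw).2.2 (hI _ hw hd).2, mul_one]
  · have h0 : (Algebra.leftMulMatrix e ω).charpoly.coeff 0 ≠ 0 := fun h => by
      obtain ⟨V, hV, h⟩ := exists_eigvec (F := k) (l := 0) (Algebra.leftMulMatrix e ω)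
        (by rw [coe_aeval_eq_eval, ← coeff_zero_eq_eval_zero, h])
      exact (EV.inv h hV hω).1 rfl
    have h1 := aeval_charpoly e ω
    generalize (Algebra.leftMulMatrix e ω).charpoly = f at h0 h1
    rw [← f.divX_mul_X_add, map_add, map_mul, aeval_X, aeval_C, add_eq_zero_iff_eq_neg] at h1
    exact ⟨-(f.coeff 0)⁻¹ • f.divX, by
      rw [map_smul, smul_mul_assoc, h1, neg_smul_neg, Algebra.smul_def, ← map_mul,
        inv_mul_cancel₀ h0, map_one]⟩
  · obtain ⟨p, q, c, hc⟩ := norm_of_roots _ (Matrix.charpoly_monic (Algebra.leftMulMatrix e ω)) ε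
      fun L _ _ _ l hl => by
        obtain ⟨V, hV, h⟩ := exists_eigvec _ hl
        have h0 := (EV.inv h hV hω).1
        refine ⟨h0, Hn.hnStmt L (Units.map (algebraMap k L : k →* L) ε) (Units.mk0 l h0)
          (fun w => ?_) fun φ _ => EV.pos h hV hN φ⟩
        by_cases hw : below k w ∈ S
        · exact Subgroup.mem_sup_right ⟨1, by simpa using EV.sq h hV hN hw⟩
        · exact h2 w hw _ fun hd => EV.unit h hV (hS _ hw).2.2 (hI _ hw hd).1
    have h1 := congrArg (aeval ω) hc
    rw [map_mul, aeval_charpoly, zero_mul, map_sub, aeval_X, sub_eq_zero] at h1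
    exact ⟨p, q, h1⟩

end Eig

section Main
variable {k : Type u} {K B : Type*} [Field k] [NumberField k] [Field K] [NumberField K]
  [Algebra k K] [StarRing K] [Quad k K] [Ring B] [StarRing B] [Algebra K B] [StarModule K B]
  [Algebra.IsCentral K B] [IsSimpleRing B] [FiniteDimensional K B] [Algebra k B]
  [IsScalarTower k K B]

theorem ev_N1 {κ : Type*} [Fintype κ] [DecidableEq κ] (e : Basis κ k B) (S : Finset (Pl k)) :
    ∀ᶠ x in nb k K B S 1, N1 e S x := by
  have h (p q : κ) : Tendsto (fun x => Algebra.leftMulMatrix e (x - 1) p q) (nb k K B S 1)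
      (nbk k S 0) := by
    simpa using nb_lin (nb_sub (tendsto_id (x := nb k K B S 1)) (nb_const 1))
      (Matrix.entryLinearMap k k p q ∘ₗ (Algebra.leftMulMatrix e).toLinearMap)
  refine ((eventually_all_finset S).2 fun v hv => eventually_all.2 fun p =>
    eventually_all.2 fun q => ?_).and (eventually_all.2 fun φ => eventually_all.2 fun p =>
      eventually_all.2 fun q => by simpa only [sub_zero] using ev_real (h p q) φ (by positivity))
  filter_upwards [ev_val (nbk_mul (h p q) (nbk_const (4 : k)⁻¹)) hv 1] with x hx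
  rw [zero_mul, sub_zero, map_mul, map_inv₀, ← div_eq_mul_inv] at hx
  rw [← div_lt_one₀ (zero_lt_iff.2 (by simp))]
  exact hx.trans_lt (by rw [← exp_zero, exp_lt_exp]; norm_num)

theorem e1 (hT : Tor k K B) : E1 k K B := by
  classical
  intro ε i n h0
  let e := eb k K B
  have hf : ∀ᶠ v : Pl k in cofinite, (v.valuation k 2 = 1 ∧ v.valuation k ε = 1 ∧
      ∀ p q, In e v (e p * e q)) ∧ In e v 1 ∧ In e v i ∧ ∀ p, In e v (star (e p)) :=
    ((eventually_cofinite.2 (finite_ne_one two_ne_zero)).and ((eventually_cofinite.2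
      (finite_ne_one ε.ne_zero)).and (eventually_all.2 fun p => eventually_all.2 fun q =>
        ev_in e _))).and ((ev_in e 1).and ((ev_in e i).and (eventually_all.2 fun p => ev_in e _)))
  refine ⟨(eventually_cofinite.1 hf).toFinset, fun S hS W hW => ?_⟩
  replace hS v (hv : v ∉ S) := by_contra fun h => hv (hS ((Set.Finite.mem_toFinset _).2 h))
  have ta : Tendsto (pa ε i) (nb k K B S 1) (nb k K B S 1) := by
    have := nb_smul (nbk_const (2 * ε : k)⁻¹) (nb_add (nb_smul (nbk_const (ε : k))
      (tendsto_id (x := nb k K B S 1))) (nb_mul (nb_mul (nb_const i) tendsto_id) (nb_const i)))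
    rwa [show _ • (_ + _) = _ from pa_one h0.sq] at this
  have ts : Tendsto (fun γ => star (pa ε i γ)) (nb k K B S 1) (nb k K B S 1) := by
    simpa using nb_star ta
  have tω : Tendsto (fun γ => pa ε i γ * star (pa ε i γ)) (nb k K B S 1) (nb k K B S 1) := by
    simpa using nb_mul ta ts
  have tx : Tendsto (fun p : B × B => p.1 * star (pa ε i p.1) * Ring.inverse p.2)
      (nb k K B S 1 ×ˢ nb k K B S 1) (nb k K B S 1) := by
    simpa using nb_mul (nb_mul tendsto_fst (ts.comp tendsto_fst))
      (nb_inverse (tendsto_snd (g := nb k K B S 1)) isUnit_one)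
  have ty : Tendsto (fun p : B × B => p.2 * Ring.inverse (star (pa ε i p.1)))
      (nb k K B S 1 ×ˢ nb k K B S 1) (nb k K B S 1) := by
    simpa using nb_mul (tendsto_snd (g := nb k K B S 1))
      (nb_inverse (ts.comp tendsto_fst) isUnit_one)
  obtain ⟨P, hP, Q, hQ, H⟩ := eventually_prod_iff.1 ((tx.eventually hW).and (ty.eventually hW))
  filter_upwards [hP, ev_isUnit ta isUnit_one, tω.eventually (ev_N1 e S),
    tω.eventually (hT ε i h0.sq ε.ne_zero S _ hQ)] with γ h1 h2 h3 h4 h5 h6 h7
  have hp := pt h0.sq h0.skew h5 (mul_eq_one_symm e h5)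
  obtain ⟨n1, ⟨r, n2⟩, p, q, n3⟩ := norm_of (h2.mul h2.star) h3 (fun v hv => (hS v hv).1)
    fun v hv hd => by
      obtain ⟨⟨g1, g2, g3⟩, g4, g5, g6⟩ := hS v hv
      obtain ⟨k1, k2, k3⟩ := h7 v hv hd
      have k4 := k1.smul g2.le
      have k5 := In.mul g3 (In.mul g3 g5 k1) g5
      have k6 : v.valuation k (2 * ε : k) = 1 := by rw [map_mul, g1, g2, mul_one]
      refine ⟨((iu_of_norm g3 g4 (k4.add k5) k2).smul k6).mul_st g3 (starL k K B) (fun _ => rfl) g6,
        ?_⟩
      have k7 : In e v (mi (ε : k) i γ) := by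
        simpa [mi, sub_eq_add_neg] using k4.add (k5.smul (c := -1) (by simp))
      have := (((iu_of_norm g3 g4 k7 k3).smul k6).mul_st g3 (starL k K B) (fun _ => rfl) g6).neg
      rwa [← hp.h1, sub_add_cancel_left]
  obtain ⟨p, q, n4, n5⟩ := h4 (by
    rw [Commute, SemiconjBy, mul_assoc, hp.ca', ← mul_assoc, hp.ca, mul_assoc]) p q n3
  have h8 : IsUnit (pb ε i γ) := by
    rw [pb, Algebra.smul_def]
    exact ((IsUnit.mk0 _ (by simp)).map _).mul h6
  obtain ⟨d1, d2, d3, d4⟩ := dec (star_ksmul k K B) h0.sq h0.skew hp (by rwa [pa_add_pb]) h2 h8 n1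
    n2 n4 rfl rfl rfl
  rw [pa_add_pb] at d1 d2 d3
  exact ⟨_, _, d1, (H h1 n5).1, (H h1 n5).2, d2, d3, d4⟩

end Main

end E23

theorem e1Stmt (h : TorStmt.{u, v, w}) : E1Stmt.{u, v, w} := fun D _ => E23.e1 (h D)

end Crest.Agent.T24.Ev
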