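import Crest.Agent.T24.EvC_20
import Crest.Agent.T24.EvDec_21

/-!
# Row 24, even step (helper53): every coset of `N` contains good elements
-/

set_option autoImplicit false
set_option linter.unusedSectionVars false

noncomputable section

namespace Crest.Agent.T24.Ev

open Module NumberField WithZero Csa Asa Topology Filter Polynomial
open scoped Valued

universe u v w

namespace E53

section Scal
variable {k : Type u} [Field k] [NumberField k] {α : Type*} {l : Filter α}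

theorem exists_sq {ε : kˣ} (h : ¬ IsSquare (ε : k)) (S : Finset (Pl k)) :
    ∃ v ∉ S, ε ∈ Hn.Sq v := by
  have := Hn.fact_of_not_sq (d := ε) fun h' => h (Hn.Loc.mem_Sqs.1 h')
  have : NumberField (QuadraticAlgebra k (ε : k) 0) := NumberField.of_module_finite k _
  have q := Hn.qd_quad (ε : k)
  refine Lan.exists_split_Sq q.rank (σ := Hn.qconj (ε : k)) (fun e => ?_) q.conj q.sq S
  have h1 := q.conj
  rw [e, AlgEquiv.coe_refl, id, eq_neg_iff_add_eq_zero, ← two_mul] at h1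
  exact Lan.theta_ne q.sq ((mul_eq_zero.1 h1).resolve_left two_ne_zero)

/-- convergence of scalars at `v` -/
def Lk (v : Pl k) (l : Filter α) (f : α → k) (a : k) : Prop :=
  Tendsto (fun x => algebraMap k (Kv v) (f x)) l (𝓝 (algebraMap k (Kv v) a))

theorem lk_of_val {v : Pl k} {f : α → k} {a : k}
    (h : ∀ m : ℕ, ∀ᶠ x in l, v.valuation k (f x - a) ≤ exp (-(m : ℤ))) : Lk v l f a :=
  Metric.tendsto_nhds.2 fun ε hε => by
    obtain ⟨m, hm⟩ := Lan.exists_depth v hε
    filter_upwards [h m] with x hx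
    rw [dist_eq_norm, ← map_sub]
    exact hm _ hx

theorem Lk.le_one {v : Pl k} {f : α → k} {a : k} (h : Lk v l f a) (ha : v.valuation k a ≤ 1) :
    ∀ᶠ x in l, v.valuation k (f x) ≤ 1 := by
  have := h.eventually ((isOpen_val v 0).mem_nhds (by
    simpa only [Set.mem_ofPred_eq, Hn.Loc.valued_algebraMap, Nat.cast_zero, neg_zero, exp_zero]))
  simpa only [Hn.Loc.valued_algebraMap, Nat.cast_zero, neg_zero, exp_zero] using this

theorem Lk.eq_one {v : Pl k} {f : α → k} {a : k} (h : Lk v l f a) (ha : v.valuation k a = 1) :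
    ∀ᶠ x in l, v.valuation k (f x) = 1 := by
  have := h.eventually (Valued.locally_const (x := algebraMap k (Kv v) a) (by
    rw [Hn.Loc.valued_algebraMap, ha]; exact one_ne_zero))
  simpa only [Hn.Loc.valued_algebraMap, ha] using this

/-- a sequence tending to `0` at `S` and infinity, to `1` at `Z`, integral off `v₀` -/
theorem exists_seq (S Z : Finset (Pl k)) (hSZ : ∀ v ∈ Z, v ∉ S) {v₀ : Pl k} (h1 : v₀ ∉ S)
    (h2 : v₀ ∉ Z) : ∃ s : ℕ → k, Tendsto s atTop (nbk k S 0) ∧ (∀ v ∈ Z, Lk v atTop s 1) ∧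
      ∀ m, ∀ v ∉ S, v ∉ Z → v ≠ v₀ → v.valuation k (s m) ≤ 1 := by
  classical
  choose s e1 e2 e3 using fun m : ℕ => approx' (S ∪ Z) v₀ (by simp [h1, h2])
    (fun v => if v ∈ Z then 1 else 0) m 0 (ε := 1 / ((m : ℝ) + 1)) (by positivity)
  refine ⟨s, nbk_of_val (fun w ε hε => ?_) fun v hv m => ?_, fun v hv => lk_of_val fun m => ?_,
    fun m v hv hv' => e3 m v (by simp [hv, hv'])⟩
  · exact (tendsto_one_div_add_atTop_nhds_zero_nat.eventually (gt_mem_nhds hε)).mono
      fun m hm => (e2 m w).trans hm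
  · refine (eventually_ge_atTop m).mono fun n hn => le_trans ?_ (exp_neg_anti hn)
    simpa [if_neg fun h => hSZ v h hv] using e1 n v (by simp [hv])
  · refine (eventually_ge_atTop m).mono fun n hn => le_trans ?_ (exp_neg_anti hn)
    simpa [hv] using e1 n v (by simp [hv])

theorem exists_seq' (Z : Finset (Pl k)) : ∃ s : ℕ → k, (∀ v ∈ Z, Lk v atTop s (-1)) ∧
    ∀ m, s m ≠ 0 ∧ s m ≠ -1 := by
  obtain ⟨v₀, h₀⟩ := exists_notMem Z
  choose s e1 e2 using fun m : ℕ => (approx_infinite Z v₀ h₀ (fun _ => -1) m 0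
    one_pos).exists_notMem_finite (Set.toFinite {0, -1})
  exact ⟨s, fun v hv => lk_of_val fun m => (eventually_ge_atTop m).mono fun n hn =>
    ((e1 n).1 v hv).trans (exp_neg_anti hn), fun m => by simpa using e2 m⟩

end Scal

theorem prod_smul {k B ι : Type*} [CommRing k] [Ring B] [Algebra k B] (L : List ι) (a : ι → k)
    (x : ι → B) : (L.map fun j => a j • x j).prod = (L.map a).prod • (L.map x).prod := by
  induction L with
  | nil => simp
  | cons j L ih => simp only [List.map_cons, List.prod_cons, ih, smul_mul_smul_comm]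

section Alg
variable {k : Type u} (K : Type*) {B : Type*} [Field k] [NumberField k] [Field K] [NumberField K]
  [Algebra k K] [StarRing K] [Quad k K] [Ring B] [StarRing B] [Algebra K B] [StarModule K B]
  [Algebra.IsCentral K B] [IsSimpleRing B] [FiniteDimensional K B] [Algebra k B]
  [IsScalarTower k K B] {α : Type*} {l : Filter α}

/-- convergence at `v` -/
def Lv (v : Pl k) (l : Filter α) (f : α → B) (a : B) : Prop :=
  Tendsto (fun x => BC.inc k K B (Kv v) (f x)) l (𝓝 (BC.inc k K B (Kv v) a))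

variable {K} {v : Pl k}

theorem Lv.const (a : B) : Lv K v l (fun _ => a) a := tendsto_const_nhds

theorem Lv.mul {f g : α → B} {a b : B} (hf : Lv K v l f a) (hg : Lv K v l g b) :
    Lv K v l (fun x => f x * g x) (a * b) := by
  simpa only [Lv, map_mul] using Tendsto.mul hf hg

theorem Lv.add {f g : α → B} {a b : B} (hf : Lv K v l f a) (hg : Lv K v l g b) :
    Lv K v l (fun x => f x + g x) (a + b) := by
  simpa only [Lv, map_add] using Tendsto.add hf hg

theorem Lv.sub {f g : α → B} {a b : B} (hf : Lv K v l f a) (hg : Lv K v l g b) :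
    Lv K v l (fun x => f x - g x) (a - b) := by
  simpa only [Lv, map_sub] using Tendsto.sub hf hg

theorem Lv.star {f : α → B} {a : B} (hf : Lv K v l f a) :
    Lv K v l (fun x => star (f x)) (star a) := Tendsto.star hf

theorem Lv.smul {c : α → k} {c₀ : k} {f : α → B} {a : B} (hc : Lk v l c c₀) (hf : Lv K v l f a) :
    Lv K v l (fun x => c x • f x) (c₀ • a) := by
  simpa only [Lv, inc_ksmul] using Tendsto.smul hc hf

theorem Lv.list {ι : Type*} (s : List ι) {f : ι → α → B} {a : ι → B}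
    (hf : ∀ j, Lv K v l (f j) (a j)) :
    Lv K v l (fun x => (s.map fun j => f j x).prod) (s.map a).prod := by
  induction s with
  | nil => exact Lv.const _
  | cons j s ih => simpa only [List.map_cons, List.prod_cons] using (hf j).mul ih

theorem Lv.norm {f : α → B} {a : B} (hf : Lv K v l f a) :
    Lk v l (fun x => Algebra.norm k (f x)) (Algebra.norm k a) := by
  have := ((continuous_LR (K := K) (Kv v)).matrix_det.tendsto _).comp hf
  simpa only [Lk, norm_eq (K := K), RingHom.map_det, ← LR_inc, Function.comp_def] using this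

theorem Lv.good {ε : k} {i : B} {f : α → B} {a : B} (hf : Lv K v l f a) (h : Good K ε i v a) :
    ∀ᶠ x in l, Good K ε i v (f x) := by
  have h1 : Lv K v l (fun x => ε • f x) (ε • a) := Lv.smul tendsto_const_nhds hf
  have h2 := ((Lv.const i).mul hf).mul (Lv.const i)
  refine (eventually_all.2 fun j => Lk.le_one ?_ (h.1 j)).and
    (((h1.add h2).norm.eq_one h.2.1).and ((h1.sub h2).norm.eq_one h.2.2))
  obtain ⟨G, e1, e2⟩ := lin_bc (K := K) (R := Kv v) ((eb k K B).coord j)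
  simpa only [Lk, ← Basis.coord_apply, ← e2, Function.comp_def] using (e1.tendsto _).comp hf

theorem Lv.uu {ε : k} (i : B) {s : α → k} {s₀ : k} (hs : Lk v l s s₀) (h : 1 - ε * s₀ ^ 2 ≠ 0) :
    Lv K v l (fun x => uu ε i (s x)) (uu ε i s₀) := by
  have h1 : Lv K v l (fun x => 1 + s x • i) (1 + s₀ • i) :=
    (Lv.const 1).add (Lv.smul hs (Lv.const i))
  refine Lv.smul ?_ (h1.mul h1)
  have := (((Tendsto.pow hs 2).const_mul (algebraMap k (Kv v) ε)).const_sub 1).inv₀
    (by simpa only [map_sub, map_mul, map_pow, map_one] using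
      (map_ne_zero (algebraMap k (Kv v))).2 h)
  simpa only [Lk, map_inv₀, map_sub, map_mul, map_pow, map_one] using this

/-- the curve -/
def Ga (ε : k) (i : B) {r : ℕ} (c : Fin r → k) (n : Fin r → unitary B) : B :=
  ((List.finRange r).map fun j => star (n j : B) * uu ε i (c j) * n j).prod

theorem Lv.ga {ε : k} (hε : ¬ IsSquare ε) (i : B) {r : ℕ} {c : α → Fin r → k} {c₀ : Fin r → k}
    {n : α → Fin r → unitary B} {n₀ : Fin r → unitary B}
    (hc : ∀ j, Lk v l (fun x => c x j) (c₀ j)) (hn : ∀ j, Lv K v l (fun x => (n x j : B)) (n₀ j)) :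
    Lv K v l (fun x => Ga ε i (c x) (n x)) (Ga ε i c₀ n₀) :=
  Lv.list _ fun j => ((hn j).star.mul (Lv.uu i (hc j) (one_sub_ne_of hε _))).mul (hn j)

theorem good_ga {ε : k} (hε : ¬ IsSquare ε) {i g : B} {r : ℕ} {c : α → Fin r → k} {c₀ : Fin r → k}
    {n : α → Fin r → unitary B} {n₀ : Fin r → unitary B} (h : Good K ε i v (g * Ga ε i c₀ n₀))
    (hc : ∀ j, Lk v l (fun x => c x j) (c₀ j)) (hn : ∀ j, Lv K v l (fun x => (n x j : B)) (n₀ j)) :
    ∀ᶠ x in l, Good K ε i v (g * Ga ε i (c x) (n x)) :=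
  ((Lv.const g).mul (Lv.ga hε i hc hn)).good h

theorem Ga_eq (ε : k) (i : B) {r : ℕ} (c : Fin r → k) (n : Fin r → unitary B) (s : k) :
    Ga ε i (fun j => c j * s) n = ((List.finRange r).map fun j => (1 - ε * (c j * s) ^ 2)⁻¹).prod •
      crv i c (fun j => (n j : B)) s := by
  rw [crv, List.ofFn_eq_map, ← prod_smul, Ga]
  simp only [uu, mul_smul_comm, smul_mul_assoc]

theorem Ga_zero (ε : k) (i : B) {r : ℕ} (c : Fin r → k) (n : Fin r → unitary B) :
    Ga ε i (fun j => c j * 0) n = 1 :=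
  List.prod_eq_one fun x hx => by
    obtain ⟨j, -, rfl⟩ := List.mem_map.1 hx
    simp

theorem tendsto_Ga (ε : k) (i : B) {r : ℕ} (c : Fin r → k) (n : Fin r → unitary B)
    {S : Finset (Pl k)} {s : α → k} (hs : Tendsto s l (nbk k S 0)) :
    Tendsto (fun x => Ga ε i (fun j => c j * s x) n) l (nb k K B S 1) := by
  rw [← Ga_zero ε i c n]
  refine nb_list _ fun j _ => nb_mul (nb_mul (nb_const _) ?_) (nb_const _)
  have := nbk_mul (nbk_const (c j)) hs
  simp only [mul_zero, uu_zero] at this ⊢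
  exact (tendsto_uu K ε i S).comp this

theorem ev_nb {S : Finset (Pl k)} {a : B} {W : Set B} (h : W ∈ nb k K B S a) :
    ∀ᶠ x in nb k K B S a, W ∈ nb k K B S x := by
  obtain ⟨U, hU, h⟩ := mem_nb.1 h
  exact (tendsto_comap.eventually (eventually_eventually_nhds.2 hU)).mono fun x hx =>
    mem_nb.2 ⟨U, hx, h⟩

variable (k K B) in
/-- the conclusion of `WaN` -/
def Wa (N : Subgroup (unitary B)) (m : ℕ) : Prop := ∀ (S : Finset (Pl k))
  (t₀ : unitary B) (t : Pl k → unitary B), t₀ ∈ SU K B → (∀ v, t v ∈ SU K B) →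
  (∀ v ∈ S, v ∈ Tk k K B → t v ∈ SUm K B m) →
  ∀ U ∈ 𝓝 ((BC.inc k K B (Inf k) (t₀ : B), fun v : S => BC.inc k K B (Kv v.1) (t v : B)) :
    AS k K B S), ∃ n ∈ N, jA k K B S (n : B) ∈ U

theorem Wa.filter {N : Subgroup (unitary B)} {m : ℕ} (h : Wa k K B N m) (S : Finset (Pl k))
    (t₀ : unitary B) (t : Pl k → unitary B) (h0 : t₀ ∈ SU K B) (h1 : ∀ v, t v ∈ SU K B)
    (h2 : ∀ v ∈ S, v ∈ Tk k K B → t v ∈ SUm K B m) : ∃ l : Filter (unitary B), l.NeBot ∧
      (∀ᶠ n in l, n ∈ N) ∧ Tendsto (fun n : unitary B => BC.inc k K B (Inf k) (n : B)) l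
        (𝓝 (BC.inc k K B (Inf k) (t₀ : B))) ∧ ∀ v ∈ S, Lv K v l (fun n => (n : B)) (t v) := by
  let p : AS k K B S :=
    (BC.inc k K B (Inf k) (t₀ : B), fun v : S => BC.inc k K B (Kv v.1) (t v : B))
  let l := comap (fun n : unitary B => jA k K B S (n : B)) (𝓝 p) ⊓ 𝓟 (N : Set (unitary B))
  have hl : Tendsto (fun n : unitary B => jA k K B S (n : B)) l (𝓝 p) :=
    tendsto_comap.mono_left inf_le_left
  refine ⟨l, inf_principal_neBot_iff.2 fun U hU => ?_, mem_inf_of_right (mem_principal_self _),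
    (continuous_fst.tendsto _).comp hl, fun v hv =>
      (((continuous_apply (⟨v, hv⟩ : S)).comp continuous_snd).tendsto _).comp hl⟩
  obtain ⟨V, hV, e⟩ := mem_comap.1 hU
  obtain ⟨n, hn, e'⟩ := h S t₀ t h0 h1 h2 V hV
  exact ⟨n, e e', hn⟩

variable (K) in
include K in
theorem norm_ne {x : B} : Algebra.norm k x ≠ 0 ↔ IsUnit x :=
  haveI := finite_kB k K B
  (Opn.isUnit_iff_det k).symm

theorem ev_good {ε : k} {i x : B} (h1 : IsUnit (pl ε i x)) (h2 : IsUnit (mi ε i x)) :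
    ∀ᶠ v : Pl k in cofinite, Good K ε i v x :=
  (Lan.ev_in _ x).and ((ev_val_one ((norm_ne K).2 h1)).and (ev_val_one ((norm_ne K).2 h2)))

theorem Good.unit {ε : k} {i x : B} (h : Good K ε i v x) :
    IsUnit (pl ε i x) ∧ IsUnit (mi ε i x) :=
  ⟨(norm_ne K).1 fun e => zero_ne_one (by rw [← h.2.1, e, map_zero]),
    (norm_ne K).1 fun e => zero_ne_one (by rw [← h.2.2, e, map_zero])⟩

theorem pl_mul {ε : k} {i n : B} (h : n * i = -(i * n)) (x : B) :
    pl ε i (n * x) = n * mi ε i x := by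
  have : i * n = -(n * i) := by rw [h, neg_neg]
  rw [pl, mi, ← mul_assoc i, this, mul_sub, mul_smul_comm]
  noncomm_ring

variable (K) in
include K in
theorem val_norm_smul {c : k} (hc : v.valuation k c = 1) (x : B) :
    v.valuation k (Algebra.norm k (c • x)) = v.valuation k (Algebra.norm k x) := by
  have := finite_kB k K B
  rw [Algebra.smul_def, map_mul, Algebra.norm_algebraMap, map_mul, map_pow, hc, one_pow, one_mul]

theorem Good.smul {ε c : k} {i x : B} (hc : v.valuation k c = 1) (h : Good K ε i v x) :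
    Good K ε i v (c • x) := by
  have h1 : pl ε i (c • x) = c • pl ε i x := by
    simp only [pl, smul_add, smul_comm ε c, mul_smul_comm, smul_mul_assoc]
  have h2 : mi ε i (c • x) = c • mi ε i x := by
    simp only [mi, smul_sub, smul_comm ε c, mul_smul_comm, smul_mul_assoc]
  exact ⟨h.1.smul hc.le, by rw [h1, val_norm_smul K hc, h.2.1], by
    rw [h2, val_norm_smul K hc, h.2.2]⟩

variable {ε : kˣ} {i n : B}

variable (K) in
/-- an element whose two parts are units -/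
theorem exists_star (h : E0 ε i n) :
    ∃ g ∈ SU K B, IsUnit (pl (ε : k) i g) ∧ IsUnit (mi (ε : k) i g) := by
  have := finite_kB k K B
  have := Opn.dedekind' k (A := B)
  have f1 := Opn.finite_nonunit (F := k) (a := 1) (b := n * n) (t0 := 0) (by simp)
  have f2 := Opn.finite_nonunit (F := k) (a := 1) (b := -(n * n)) (t0 := 0) (by simp)
  have f3 : Function.Injective fun j : ℕ => ((j + 1 : ℕ) : k) * ((j + 1 : ℕ) : k) := fun a b e => by
    have e' : (a + 1) * (a + 1) = (b + 1) * (b + 1) := by dsimp only at e; exact_mod_cast e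
    exact Nat.succ_injective (Nat.mul_self_inj.1 e')
  obtain ⟨_, ⟨j, rfl⟩, hj⟩ := (Set.infinite_range_of_injective f3).exists_notMem_finite (f1.union f2)
  set t : k := ((j + 1 : ℕ) : k) with ht
  have ht0 : t ≠ 0 := Nat.cast_ne_zero.2 j.succ_ne_zero
  simp only [Set.mem_union, Set.mem_ofPred_eq, not_or, not_not] at hj
  rw [smul_neg, ← smul_mul_smul_comm] at hj
  set y := t • n with hy
  have y1 : star y = -y := by rw [hy, star_ksmul k K B, h.nskew, smul_neg]
  have y2 : y * i = -(i * y) := by rw [hy, smul_mul_assoc, mul_smul_comm, h.anti, smul_neg]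
  have y3 : i * y = -(y * i) := by rw [y2, neg_neg]
  have y4 : IsUnit y := by
    rw [hy, Algebra.smul_def]; exact (ht0.isUnit.map _).mul h.unit
  have e1 : 1 + -(y * y) = (1 - y) * (1 + y) := by noncomm_ring
  have u1 : IsUnit (1 - y) := isUnit_of_mul_isUnit_left (e1 ▸ hj.2)
  have u2 : star (Opn.cay y) * Opn.cay y = 1 := Opn.Anti.cay_unitary
    (τ := (starAddEquiv : B ≃+ B).toAddMonoidHom) ⟨star_mul, star_star⟩ y1 u1
  have u3 : Opn.cay y * (1 - y) = 1 + y := Ring.inverse_mul_cancel_right _ _ u1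
  have ui : IsUnit i := isUnit_of_mul_isUnit_left (h.sq ▸ ε.isUnit.map (algebraMap k B))
  have e2 : Opn.cay y * (1 + -(y * y)) = 1 + y * y + (y + y) := by
    rw [e1, ← mul_assoc, u3]; noncomm_ring
  have c1 : i * (y * y) = y * y * i := by rw [← mul_assoc, y3, neg_mul, mul_assoc, y3]; noncomm_ring
  have c2 : ∀ x : B, x * (i * i) = (ε : k) • x := fun x => by
    rw [h.sq, ← Algebra.commutes, ← Algebra.smul_def]
  have c3 : i * (1 + y * y + (y + y)) * i = (ε : k) • (1 + y * y) - (ε : k) • (y + y) := by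
    rw [← c2, ← c2, mul_add, mul_add, mul_add, c1, y3]; noncomm_ring
  have c4 : i * (1 + -(y * y)) = (1 + -(y * y)) * i := by rw [mul_add, mul_neg, c1]; noncomm_ring
  have u4 : ∀ x : B, IsUnit x → IsUnit (((ε : k) + ε) • x) := fun x hx => by
    rw [Algebra.smul_def, ← two_mul]
    exact ((mul_ne_zero two_ne_zero ε.ne_zero).isUnit.map _).mul hx
  refine ⟨⟨Opn.cay y, u2, mul_eq_one_comm.1 u2⟩, ?_, ?_, ?_⟩
  · have h1 : i * (1 + y) = (1 - y) * i := by rw [mul_add, y3]; noncomm_ring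
    have h2 := congrArg (Nrd K) h1
    rw [map_mul, map_mul, mul_comm] at h2
    have h3 := congrArg (Nrd K) u3
    rw [map_mul, mul_right_cancel₀ ((isUnit_iff_Nrd (K := K) i).1 ui) h2] at h3
    exact mul_right_cancel₀ ((isUnit_iff_Nrd (K := K) _).1 u1) (h3.trans (one_mul _).symm)
  · refine isUnit_of_mul_isUnit_left (y := 1 + -(y * y)) ?_
    convert u4 _ hj.1 using 1
    change ((ε : k) • Opn.cay y + i * Opn.cay y * i) * _ = _
    rw [add_mul, smul_mul_assoc, mul_assoc _ i, c4, ← mul_assoc, mul_assoc i, e2, c3]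
    module
  · refine isUnit_of_mul_isUnit_left (y := 1 + -(y * y)) ?_
    have : IsUnit (y + y) := by
      rw [← two_smul k, Algebra.smul_def]; exact (two_ne_zero.isUnit.map _).mul y4
    convert u4 _ this using 1
    change ((ε : k) • Opn.cay y - i * Opn.cay y * i) * _ = _
    rw [sub_mul, smul_mul_assoc, mul_assoc _ i, c4, ← mul_assoc, mul_assoc i, e2, c3]
    module

variable (K) in
/-- the normal closure of `uu 1` -/
theorem exists_nc (h : E0 ε i n) (ha : Aniso B) : ∃ N : Subgroup (unitary B), NC K N ∧ ∀ x ∈ N,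
    ∃ (r : ℕ) (c : Fin r → k) (t : Fin r → unitary B), (∀ j, t j ∈ SU K B) ∧
      (∀ j, c j = 1 ∨ c j = -1) ∧ (x : B) = Ga (ε : k) i c t := by
  let G : Set (unitary B) := {x | ∃ t ∈ SU K B, ∃ c : k, (c = 1 ∨ c = -1) ∧
    x = t⁻¹ * h.uU K ha c * t}
  refine ⟨Subgroup.closure G, ⟨(Subgroup.closure_le _).2 ?_, fun g hg x hx => ?_, ?_⟩,
    fun x hx => ?_⟩
  · rintro _ ⟨t, ht, c, -, rfl⟩
    exact mul_mem (mul_mem (inv_mem ht) (h.uU_mem_SU K ha c)) ht
  · induction hx using Subgroup.closure_induction with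
    | mem x hx =>
      obtain ⟨t, ht, c, hc, rfl⟩ := hx
      exact Subgroup.subset_closure ⟨t * g⁻¹, mul_mem ht (inv_mem hg), c, hc, by group⟩
    | one => simp
    | mul x y _ _ hx hy => convert mul_mem hx hy using 1; group
    | inv x _ hx => convert inv_mem hx using 1; group
  · obtain ⟨g, hg, -, h2⟩ := exists_star K h
    refine ⟨h.uU K ha 1, Subgroup.subset_closure ⟨1, one_mem _, 1, Or.inl rfl, by simp⟩, g, hg,
      fun e => h2.ne_zero ?_⟩
    have e1 : uu (ε : k) i 1 * g = g * uu (ε : k) i 1 := congrArg Subtype.val e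
    rw [uu_eq h.sq, add_mul, mul_add (g : B), smul_mul_assoc, mul_smul_comm, one_mul, mul_one (g : B),
      add_right_inj, smul_mul_assoc, mul_smul_comm] at e1
    have e2 := smul_right_injective B
      (mul_ne_zero (inv_ne_zero (h.den_ne K ha 1)) (by simp)) e1
    rw [mi, e2, mul_assoc, h.sq, ← Algebra.commutes, ← Algebra.smul_def, sub_self]
  · obtain ⟨L, hL, rfl⟩ := Submonoid.exists_list_of_mem_closure
      (Subgroup.closure_toSubmonoid G ▸ hx : x ∈ Submonoid.closure (G ∪ G⁻¹))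
    have : ∀ j : Fin L.length, L.get j ∈ G := fun j => by
      refine (hL _ (L.get_mem j)).elim id ?_
      rintro ⟨t, ht, c, hc, e⟩
      refine ⟨t, ht, -c, hc.symm.imp (by rintro rfl; simp) (by rintro rfl; rfl), ?_⟩
      rw [h.uU_neg K ha, ← inv_inv (L.get j), e]; group
    choose t ht c hc e using this
    refine ⟨_, c, t, ht, hc, ?_⟩
    conv_lhs => rw [← List.ofFn_get L, List.ofFn_eq_map, funext e]
    rw [SubmonoidClass.coe_list_prod, List.map_map]
    rfl

open scoped Classical in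
theorem step1 {N : Subgroup (unitary B)} {m : ℕ} (hN : N ≤ SU K B) (hm : Wa k K B N m) {e : k}
    {g₀ g : unitary B} (hg₀ : g₀ ∈ SU K B) (hg : g ∈ SUm K B m) {S : Finset (Pl k)}
    (hS' : ∀ v ∉ S, v ∉ Tk k K B ∧ Good K e i v g₀) {W : Set B} (hWm : W ∈ nb k K B S 1) :
    ∃ g₁ ∈ SU K B, g⁻¹ * g₁ ∈ N ∧ W ∈ nb k K B S (g₁ : B) ∧
      IsUnit (pl e i g₁) ∧ IsUnit (mi e i g₁) := by
  obtain ⟨v₁, h₁⟩ := exists_notMem S
  obtain ⟨l, _, e1, e2, e3⟩ := hm.filter (insert v₁ S) g⁻¹ (fun v => if v ∈ S then g⁻¹ else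
    g⁻¹ * g₀) (inv_mem hg.1) (fun v => by
      split_ifs; exacts [inv_mem hg.1, mul_mem (inv_mem hg.1) hg₀]) fun v _ hv => by
      rw [if_pos (not_not.1 fun e => (hS' v e).1 hv)]; exact inv_mem hg
  have f1 : (g : B) * (g⁻¹ : unitary B) = 1 := g.2.2
  have f2 : Tendsto (fun x : unitary B => (g : B) * x) l (nb k K B S 1) := by
    refine nb_of ?_ fun v hv => ?_
    · simpa only [← map_mul, f1] using e2.const_mul (BC.inc k K B (Inf k) g)
    · have := (Lv.const (g : B)).mul (e3 v (Finset.mem_insert_of_mem hv))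
      rwa [if_pos hv, f1] at this
  have f3 := (Lv.const (g : B)).mul (e3 v₁ (Finset.mem_insert_self _ _))
  rw [if_neg h₁, ← Submonoid.coe_mul, mul_inv_cancel_left] at f3
  obtain ⟨x, x1, x2, x3⟩ :=
    (e1.and ((f2.eventually (ev_nb hWm)).and (f3.good (hS' v₁ h₁).2))).exists
  exact ⟨g * x, mul_mem hg.1 (hN x1), by rwa [inv_mul_cancel_left], x2, Good.unit x3⟩

theorem step2 (h : E0 ε i n) (ha : Aniso B) (hW : WaN k K B) {g₀ g₁ : unitary B}
    (hg₀ : g₀ ∈ SU K B) (hg₁ : g₁ ∈ SU K B) {Z : Finset (Pl k)}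
    (hZ : ∀ v ∈ Z, v ∉ Tk k K B ∧ Good K (ε : k) i v g₀) :
    ∃ (r : ℕ) (c : Fin r → k) (t : Fin r → unitary B), (∀ j, t j ∈ SU K B) ∧
      (∀ j, c j = 1 ∨ c j = -1) ∧ ∀ v ∈ Z, Good K (ε : k) i v (g₁ * Ga (ε : k) i c t) := by
  obtain ⟨N₁, hN₁, h₁⟩ := exists_nc K h ha
  obtain ⟨m₁, hm₁⟩ : ∃ m, Wa k K B N₁ m := hW N₁ hN₁
  obtain ⟨l, _, e1, -, e3⟩ := hm₁.filter Z 1 (fun _ => g₁⁻¹ * g₀) (one_mem _)
    (fun _ => mul_mem (inv_mem hg₁) hg₀) fun v hv hv' => absurd hv' (hZ v hv).1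
  have e4 : ∀ᶠ x : unitary B in l, ∀ v ∈ Z, Good K (ε : k) i v ((g₁ : B) * x) :=
    Z.eventually_all.2 fun v hv => by
      have f3 := (Lv.const (g₁ : B)).mul (e3 v hv)
      rw [← Submonoid.coe_mul, mul_inv_cancel_left] at f3
      exact f3.good (hZ v hv).2
  obtain ⟨x, x1, x2⟩ := (e1.and e4).exists
  obtain ⟨r, c, t, e1, e2, e3⟩ := h₁ x x1
  exact ⟨r, c, t, e1, e2, e3 ▸ x2⟩

open scoped Classical in
theorem step3 {e : k} (hε : ¬ IsSquare e) {g₁ : B} {Z : Finset (Pl k)} {r : ℕ} {σ : Fin r → k}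
    {t : Fin r → unitary B} (hσ : ∀ j, σ j = 1 ∨ σ j = -1)
    (hx : ∀ v ∈ Z, Good K e i v (g₁ * Ga e i σ t)) :
    ∃ c : Fin r → k, (∀ j l, c j + c l ≠ 0) ∧ ∀ v ∈ Z, Good K e i v (g₁ * Ga e i c t) := by
  obtain ⟨s, s1, s2⟩ := exists_seq' Z
  have e4 : ∀ᶠ x in atTop, ∀ v ∈ Z,
      Good K e i v (g₁ * Ga e i (fun j => if σ j = 1 then 1 else s x) t) :=
    Z.eventually_all.2 fun v hv => by
      refine good_ga hε (hx v hv) (fun j => ?_) fun j => Lv.const _
      by_cases e : σ j = 1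
      · simp only [if_pos e]; rw [e]; exact tendsto_const_nhds
      · simp only [if_neg e]; rw [(hσ j).resolve_left e]; exact s1 v hv
  obtain ⟨x, x1⟩ := e4.exists
  refine ⟨_, fun j l => ?_, x1⟩
  obtain ⟨a1, a2⟩ := s2 x
  split_ifs
  · norm_num
  · exact fun e => a2 (by linear_combination e)
  · exact fun e => a2 (by linear_combination e)
  · exact fun e => a1 (by linear_combination (1 / 2 : k) * e)

open scoped Classical in
theorem step4 {N : Subgroup (unitary B)} {m : ℕ} (hN : N ≤ SU K B) (hm : Wa k K B N m) {e : k}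
    (hε : ¬ IsSquare e) {g₁ : B} {Z : Finset (Pl k)} (hZ : ∀ v ∈ Z, v ∉ Tk k K B) {r : ℕ}
    {c : Fin r → k} {t : Fin r → unitary B} (ht : ∀ j, t j ∈ SU K B)
    (hx : ∀ v ∈ Z, Good K e i v (g₁ * Ga e i c t)) {v₂ : Pl k} (hv₂ : v₂ ∉ Z)
    {U : Set (BC k K B (Kv v₂))} (hU : U ∈ 𝓝 1) :
    ∃ a : Fin r → unitary B, (∀ j, a j ∈ SU K B) ∧ (∀ j, BC.inc k K B (Kv v₂) (a j : B) ∈ U) ∧
      ∀ v ∈ Z, Good K e i v (g₁ * Ga e i c a) := by
  choose l e0 e1 _ e3 using fun j => hm.filter (insert v₂ Z) 1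
    (fun v => if v ∈ Z then t j else 1) (one_mem _)
    (fun v => by split_ifs; exacts [ht j, one_mem _]) fun v _ hv => by
      rw [if_neg fun e => hZ v e hv]; exact one_mem _
  have f1 : ∀ᶠ x in Filter.pi l, ∀ j, x j ∈ N :=
    eventually_all.2 fun j => (tendsto_eval_pi l j).eventually (e1 j)
  have f2 : ∀ᶠ x in Filter.pi l, ∀ j, BC.inc k K B (Kv v₂) (x j : B) ∈ U :=
    eventually_all.2 fun j => by
      have := e3 j v₂ (Finset.mem_insert_self _ _)
      rw [if_neg hv₂, Lv, OneMemClass.coe_one, map_one] at this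
      exact (this.comp (tendsto_eval_pi l j)).eventually hU
  have f3 : ∀ᶠ x in Filter.pi l, ∀ v ∈ Z, Good K e i v (g₁ * Ga e i c x) :=
    Z.eventually_all.2 fun v hv => by
      refine good_ga hε (hx v hv) (fun j => tendsto_const_nhds) fun j => ?_
      have := e3 j v (Finset.mem_insert_of_mem hv)
      rw [if_pos hv] at this
      exact this.comp (tendsto_eval_pi l j)
  obtain ⟨x, x1, x2, x3⟩ := (f1.and (f2.and f3)).exists
  exact ⟨x, fun j => hN (x1 j), x2, x3⟩

theorem step5 (h : E0 ε i n) {g₁ : B} {r : ℕ} {c : Fin r → k} {a : Fin r → unitary B}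
    (h1 : ∀ᶠ v : Pl k in cofinite, ε ∉ Hn.Sq v → ∀ s : k, v.valuation k s ≤ 1 → v.valuation k
      (Algebra.norm k (pl (ε : k) i (g₁ * crv i c (fun j => (a j : B)) s))) = 1)
    (h2 : ∀ᶠ v : Pl k in cofinite, ε ∉ Hn.Sq v → ∀ s : k, v.valuation k s ≤ 1 → v.valuation k
      (Algebra.norm k (pl (ε : k) i (n * g₁ * crv i c (fun j => (a j : B)) s))) = 1) :
    ∀ᶠ v : Pl k in cofinite, ε ∉ Hn.Sq v → ∀ s : k, v.valuation k s ≤ 1 →
      Good K (ε : k) i v (g₁ * Ga (ε : k) i (fun j => c j * s) a) := by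
  filter_upwards [h1, h2, ev_val_one ε.ne_zero,
    ev_val_one (two_ne_zero (α := k)), ev_val_one ((norm_ne K).2 h.unit),
    eventually_all.2 fun j => eventually_cofinite.2 (finite_not_le (c j)),
    eventually_all.2 fun p => eventually_all.2 fun q =>
      Lan.ev_in (eb k K B) (eb k K B p * eb k K B q),
    Lan.ev_in (eb k K B) g₁, Lan.ev_in (eb k K B) 1, Lan.ev_in (eb k K B) i,
    eventually_all.2 fun j => Lan.ev_in (eb k K B) (a j : B),
    eventually_all.2 fun j => Lan.ev_in (eb k K B) (star (a j : B))] with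
    v b1 b2 b3 b4 b5 b6 b7 b8 b9 b10 b11 b12 hv s hs
  have d1 : ∀ j, v.valuation k (c j * s) ≤ 1 := fun j => by
    rw [map_mul]; exact mul_le_one' (b6 j) hs
  rw [Ga_eq, mul_smul_comm]
  refine Good.smul ?_ ⟨b8.mul b7 ?_, b1 hv s hs, ?_⟩
  · rw [map_list_prod]
    refine List.prod_eq_one fun x hx => ?_
    simp only [List.map_map, List.mem_map, Function.comp] at hx
    obtain ⟨j, -, rfl⟩ := hx
    have := val_norm_eq_one hv b4 b3 (a := 1) (by simp) (d1 j) (by simp)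
    rw [one_pow] at this
    rw [map_inv₀, this, inv_one]
  · refine List.prod_induction _ (fun x y => Lan.In.mul b7) b9 fun x hx => ?_
    obtain ⟨j, rfl⟩ := List.mem_ofFn.1 hx
    have := b9.add (b10.smul (d1 j))
    exact ((b12 j).mul b7 (this.mul b7 this)).mul b7 (b11 j)
  · have := b2 hv s hs
    rwa [mul_assoc, pl_mul h.anti, map_mul, map_mul, b5, one_mul] at this

theorem step6 {e : k} (hε : ¬ IsSquare e) {g₁ : B} (q₁ : IsUnit (mi e i g₁)) {r : ℕ}
    {c : Fin r → k} {a : Fin r → unitary B} {S S' Z : Finset (Pl k)} (hS₁ : S ⊆ S')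
    (hZ : ∀ v ∈ Z, v ∉ S') (hx : ∀ v ∈ Z, Good K e i v (g₁ * Ga e i c a)) {v₂ : Pl k}
    (h1 : v₂ ∉ S') (h2 : v₂ ∉ Z) {W : Set B} (hW₁ : W ∈ nb k K B S g₁) {p : k → Prop}
    (hu : ∀ᶠ s in nbk k S 0, p s) : ∃ s : k, (∀ j, p (c j * s)) ∧
      g₁ * Ga e i (fun j => c j * s) a ∈ W ∧ IsUnit (mi e i (g₁ * Ga e i (fun j => c j * s) a)) ∧
      (∀ v ∈ S', Good K e i v g₁ → Good K e i v (g₁ * Ga e i (fun j => c j * s) a)) ∧
      (∀ v ∈ Z, Good K e i v (g₁ * Ga e i (fun j => c j * s) a)) ∧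
      ∀ v ∉ S', v ∉ Z → v ≠ v₂ → v.valuation k s ≤ 1 := by
  obtain ⟨s, s1, s2, s3⟩ := exists_seq S' Z hZ h1 h2
  have t1 : Tendsto (fun x => g₁ * Ga e i (fun j => c j * s x) a) atTop (nb k K B S' g₁) := by
    simpa only [mul_one] using nb_mul (nb_const g₁) (tendsto_Ga e i c a s1)
  have t2 : Tendsto (fun x => mi e i (g₁ * Ga e i (fun j => c j * s x) a)) atTop
      (nb k K B S' (mi e i g₁)) :=
    nb_sub (nb_smul (nbk_const _) t1) (nb_mul (nb_mul (nb_const _) t1) (nb_const _))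
  have f1 : ∀ᶠ x in atTop, ∀ j, p (c j * s x) := eventually_all.2 fun j => by
    have := nbk_mul (nbk_const (c j)) (s1.mono_right (nbk_anti hS₁ 0))
    rw [mul_zero] at this
    exact this.eventually hu
  have f4 : ∀ᶠ x in atTop, ∀ v ∈ S', Good K e i v g₁ →
      Good K e i v (g₁ * Ga e i (fun j => c j * s x) a) :=
    S'.eventually_all.2 fun v hv => eventually_imp_distrib_left.2 (Lv.good (nb_fin t1 hv))
  have f5 : ∀ᶠ x in atTop, ∀ v ∈ Z, Good K e i v (g₁ * Ga e i (fun j => c j * s x) a) :=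
    Z.eventually_all.2 fun v hv => by
      refine good_ga hε (hx v hv) (fun j => ?_) fun j => Lv.const _
      simpa only [Lk, map_mul, map_one, mul_one] using
        (s2 v hv).const_mul (algebraMap k (Kv v) (c j))
  obtain ⟨x, x1, x2, x3, x4, x5⟩ := (f1.and (((t1.mono_right (nb_anti hS₁ _)).eventually
    hW₁).and ((ev_isUnit t2 q₁).and (f4.and f5)))).exists
  exact ⟨s x, x1, x2, x3, x4, x5, s3 x⟩

theorem e2 (hd : 2 ≤ deg K B) (ha : Aniso B) (hW : WaN k K B) (hC : Cop k K B) : E2 k K B := by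
  classical
  intro ε i n h N hN
  obtain ⟨m, hm⟩ : ∃ m, Wa k K B N m := hW N hN
  obtain ⟨g₀, hg₀, p₀, q₀⟩ := exists_star K h
  have hT : (Tk k K B).Finite := ((Loc.finite_TT hd).image (below k)).subset fun _ h => h
  have hε := h.not_isSquare K ha
  refine ⟨m, (hT.union (eventually_cofinite.1 (ev_good (K := K) p₀ q₀))).toFinset,
    fun S hS hu g hg W hWm => ?_⟩
  have hS' : ∀ v ∉ S, v ∉ Tk k K B ∧ Good K (ε : k) i v g₀ := fun v hv => by
    simpa using fun e => hv (hS ((Set.Finite.mem_toFinset _).2 e))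
  obtain ⟨g₁, hg₁, hg₁', hW₁, p₁, q₁⟩ := step1 hN.le hm hg₀ hg hS' hWm
  obtain ⟨Z, hZ⟩ : ∃ Z : Finset (Pl k), ∀ v, v ∈ Z ↔ ¬ Good K (ε : k) i v g₁ ∧ v ∉ S :=
    ⟨(eventually_cofinite.1 (ev_good (K := K) p₁ q₁)).toFinset \ S, fun v => by simp⟩
  obtain ⟨r, σ, t, ht, hσ, hx⟩ := step2 h ha hW hg₀ hg₁ fun v hv => hS' v ((hZ v).1 hv).2
  obtain ⟨c, hc, hx⟩ := step3 hε hσ hx
  obtain ⟨v₂, hv₂, hq⟩ := exists_sq hε (S ∪ Z)
  rw [Finset.mem_union, not_or] at hv₂
  obtain ⟨U, hU, hU'⟩ := hC ε i h.sq hε g₁ ((norm_ne K).2 p₁) r c hc v₂ hq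
  obtain ⟨V, hV, hV'⟩ := hC ε i h.sq hε (n * g₁)
    ((norm_ne K).2 (by rw [pl_mul h.anti]; exact h.unit.mul q₁)) r c hc v₂ hq
  obtain ⟨a, ha1, ha2, hx⟩ := step4 hN.le hm hε (fun v hv => (hS' v ((hZ v).1 hv).2).1) ht hx
    hv₂.2 (inter_mem hU hV)
  have hP := step5 (K := K) h (hU' _ fun j => (ha2 j).1) (hV' _ fun j => (ha2 j).2)
  obtain ⟨S', hS₁⟩ : ∃ S' : Finset (Pl k), ∀ v, v ∈ S' ↔ v ∈ S ∨ (¬ (ε ∉ Hn.Sq v → ∀ s : k,
      v.valuation k s ≤ 1 → Good K (ε : k) i v (g₁ * Ga (ε : k) i (fun j => c j * s) a)) ∧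
        v ≠ v₂ ∧ v ∉ Z) :=
    ⟨S ∪ ((eventually_cofinite.1 hP).toFinset \ insert v₂ Z), fun v => by
      simp only [Finset.mem_union, Finset.mem_sdiff, Finset.mem_insert, Set.Finite.mem_toFinset,
        Set.mem_ofPred_eq, not_or]⟩
  obtain ⟨s, x1, x2, x3, x4, x5, x6⟩ := step6 hε q₁ (S' := S') (fun v hv => (hS₁ v).2 (Or.inl hv))
    (fun v hv e => ((hS₁ v).1 e).elim ((hZ v).1 hv).2 fun e => e.2.2 hv) hx
    (fun e => ((hS₁ v₂).1 e).elim hv₂.1 fun e => e.2.1 rfl) hv₂.2 hW₁ hu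
  let y : unitary B := ((List.finRange r).map fun j => (a j)⁻¹ * h.uU K ha (c j * s) * a j).prod
  have y1 : (y : B) = Ga (ε : k) i (fun j => c j * s) a := by
    rw [SubmonoidClass.coe_list_prod, List.map_map]
    rfl
  have y2 : y ∈ N := list_prod_mem fun z hz => by
    obtain ⟨j, -, rfl⟩ := List.mem_map.1 hz
    simpa using hN.nrm _ (inv_mem (ha1 j)) _ (x1 j (h.uU K ha (c j * s)) rfl)
  refine ⟨g₁ * y, mul_mem hg₁ (hN.le y2), by rw [← mul_assoc]; exact mul_mem hg₁' y2, ?_, ?_,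
    fun v hv hq' => ?_⟩ <;> rw [Submonoid.coe_mul, y1]
  · exact x2
  · exact x3
  by_cases e1 : v ∈ Z
  · exact x5 v e1
  by_cases e2 : v ∈ S'
  · exact x4 v e2 (not_not.1 fun e => e1 ((hZ v).2 ⟨e, hv⟩))
  have e3 : v ≠ v₂ := by rintro rfl; exact hq' hq
  exact not_not.1 (fun e => e2 ((hS₁ v).2 (Or.inr ⟨e, e3, e1⟩))) hq' _ (x6 v e2 e1 e3)

end Alg

end E53

theorem e2Stmt (hW : WaNStmt.{u, v, w}) (hC : CopStmt.{u, v, w}) : E2Stmt.{u, v, w} :=
  fun D hd ha => E53.e2 (by omega) ha (hW D hd ha) (hC D)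

end Crest.Agent.T24.Ev
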