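import Crest.Agent.T24.EvDef_47
import Crest.Agent.T24.EvE0_59
import Crest.Agent.T24.EmbL_22

/-! Row 24 (helper59): a hermitian quadratic generator in even degree. -/

namespace Crest.Agent.T24.Evn

universe u v w

theorem epsStmt : EpsStmt.{u, v, w} := fun D hd =>
  Ev.exists_eps D.k D.K D.B (Emb.locEx D.k D.K D.B) hd

end Crest.Agent.T24.Evn
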