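import Crest.Agent.T24.EvBrDef_21

/-!
# Row 24, degree two (helper30): `SU (B, ⋆) = SL₁ (Q₀)` for the `k`-form `Q₀` of `B`
-/

set_option autoImplicit false
set_option linter.unusedSectionVars false

noncomputable section

namespace Crest.Agent.T24.Two30

open Module NumberField Csa Asa Polynomial Filter Ev

universe u v w

variable {k : Type u} {K B : Type*} [Field k] [NumberField k] [Field K] [NumberField K] [Algebra k K]
  [StarRing K] [Quad k K] [Ring B] [StarRing B] [Algebra K B] [StarModule K B]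
  [Algebra.IsCentral K B] [IsSimpleRing B] [FiniteDimensional K B] [Algebra k B]
  [IsScalarTower k K B]

/-- Cayley–Hamilton in degree two -/
theorem ch2 (hd : deg K B = 2) (x : B) :
    x * x = Trd K x • x - algebraMap K B (Nrd K x) := by
  have h := aeval_rch (K := K) x
  have hn : (rch K x).natDegree = 2 := by rw [rch_natDegree, hd]
  have hm := rch_monic K x
  rw [aeval_eq_sum_range, hn] at h
  have h2 : (rch K x).coeff 2 = 1 := by rw [← hn]; exact hm
  have ht : Trd K x = -(rch K x).coeff 1 := by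
    rw [Trd_def, nextCoeff, if_neg (by omega), hn]
  have hN : Nrd K x = (rch K x).coeff 0 := by rw [Nrd_def, hd]; simp
  simp only [Finset.sum_range_succ, Finset.sum_range_zero, h2, one_smul, pow_zero, pow_one,
    zero_add] at h
  rw [ht, hN, Algebra.algebraMap_eq_smul_one, neg_smul, ← sq, eq_neg_of_add_eq_zero_right h]
  abel

/-- a non-zero skew element in a `⋆`-stable `K`-subspace -/
theorem exists_skew_mem (hne : ∃ c : K, star c ≠ c) (V : Submodule K B) (hV : ∀ x ∈ V, star x ∈ V) {b : B} (hb : b ∈ V)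
    (h0 : b ≠ 0) : ∃ j ∈ V, j ≠ 0 ∧ star j = -j := by
  by_cases h : star b = b
  · obtain ⟨θ, h1, h2⟩ := exists_skew hne
    exact ⟨θ • b, V.smul_mem _ hb, smul_ne_zero h1 h0, by rw [star_smul, h, h2, neg_smul]⟩
  · exact ⟨b - star b, V.sub_mem hb (hV b hb), sub_ne_zero.2 (Ne.symm h), by
      rw [star_sub, star_star, neg_sub]⟩

/-- the square of a skew element of trace zero -/
theorem sq_skew (hd : deg K B = 2) (ha : Aniso B) {j : B} (h0 : j ≠ 0) (hs : star j = -j)
    (ht : Trd K j = 0) : ∃ a : kˣ, j * j = algebraMap k B a := by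
  have h := ch2 hd j
  rw [ht, zero_smul, zero_sub, ← map_neg] at h
  have h1 : star (-Nrd K j) = -Nrd K j := by
    apply (algebraMap K B).injective
    rw [← star_algebraMap, ← h, star_mul, hs, neg_mul_neg]
  obtain ⟨a, ha'⟩ := exists_of_star_eq (Quad.fr (k := k) (K := K)) Quad.star_k
    (Quad.ne (k := k)) h1
  have e : j * j = algebraMap k B a := by rw [h, ← ha', ← IsScalarTower.algebraMap_apply]
  refine ⟨Units.mk0 a fun h2 => h0 (ha j ?_), e⟩
  rw [hs, neg_mul, e, h2, map_zero, neg_zero]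

theorem unit_of_sq {j : B} {a : kˣ} (h : j * j = algebraMap k B a) : IsUnit j := by
  have hu : IsUnit (j * j) := h ▸ a.isUnit.map _
  exact (isUnit_mul_self_iff).1 hu

theorem trd_anti {u y : B} (hu : IsUnit u) (h : u * y = -(y * u)) : Trd K y = 0 := by
  obtain ⟨u, rfl⟩ := hu
  have e1 : Trd K ((u : B) * y * (u⁻¹ : Bˣ)) = Trd K y := by
    rw [Trd_mul_comm, ← mul_assoc, Units.inv_mul, one_mul]
  rw [h, neg_mul, Units.mul_inv_cancel_right, map_neg] at e1
  have : 2 * Trd K y = 0 := by linear_combination -e1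
  exact (mul_eq_zero.1 this).resolve_left two_ne_zero

/-- the generators -/
theorem exists_gen (hd : deg K B = 2) (ha : Aniso B) : ∃ (j r : B) (a c : kˣ), star j = -j ∧
    star r = -r ∧ j * j = algebraMap k B a ∧ r * r = algebraMap k B c ∧ j * r = -(r * j) := by
  have h4 : finrank K B = 4 := by rw [finrank_eq_deg_sq, hd]; rfl
  obtain ⟨b, hb, hb0⟩ : ∃ b ∈ LinearMap.ker (Trd K (B := B)), b ≠ 0 := by
    refine Submodule.exists_mem_ne_zero_of_ne_bot fun h => ?_
    have := LinearMap.finrank_le_finrank_of_injective (LinearMap.ker_eq_bot.1 h)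
    rw [h4, finrank_self] at this
    omega
  obtain ⟨j, hj, hj0, hjs⟩ := exists_skew_mem (Quad.ne (k := k)) (LinearMap.ker (Trd K (B := B)))
    (fun x hx => by rw [LinearMap.mem_ker] at *; rw [Trd_star, hx, star_zero]) hb hb0
  rw [LinearMap.mem_ker] at hj
  obtain ⟨a, hja⟩ := sq_skew (k := k) hd ha hj0 hjs hj
  obtain ⟨y, hy⟩ : ∃ y, j * y ≠ y * j := by
    by_contra h
    push Not at h
    obtain ⟨c, hc⟩ := (Algebra.IsCentral.mem_center_iff K (x := j)).1
      (Subalgebra.mem_center_iff.2 fun y => (h y).symm)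
    rw [hc, Trd_algebraMap, hd] at hj
    have : c = 0 := by simpa using hj
    exact hj0 (by rw [hc, this, map_zero])
  let V : Submodule K B := LinearMap.ker (LinearMap.mulLeft K j + LinearMap.mulRight K j)
  have hV : ∀ x, x ∈ V ↔ j * x = -(x * j) := fun x => by
    simp [V, LinearMap.mem_ker, add_eq_zero_iff_eq_neg]
  obtain ⟨r, hr, hr0, hrs⟩ := exists_skew_mem (Quad.ne (k := k)) V (fun x hx => by
    rw [hV] at *
    have := congrArg star hx
    rw [star_mul, star_neg, star_mul, hjs, mul_neg, neg_mul, neg_neg] at this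
    exact this.symm) (b := j * y - y * j) (by
    rw [hV, mul_sub, sub_mul, ← mul_assoc j j, hja, mul_assoc y j j, hja, Algebra.commutes,
      neg_sub, mul_assoc]) (sub_ne_zero.2 hy)
  rw [hV] at hr
  have hrt : Trd K r = 0 := trd_anti (unit_of_sq hja) hr
  obtain ⟨c, hrc⟩ := sq_skew (k := k) hd ha hr0 hrs hrt
  exact ⟨j, r, a, c, hjs, hrs, hja, hrc, hr⟩

theorem indep₂ {j r : B} (hj : IsUnit j) (hr : IsUnit r) (h : j * r = -(r * j)) {s t : K}
    (e : s • (1 : B) + t • j = 0) : s = 0 ∧ t = 0 := by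
  have e1 : s • r + t • (j * r) = 0 := by
    have := congrArg (· * r) e
    simpa [add_mul] using this
  have e2 : s • r - t • (j * r) = 0 := by
    have := congrArg (r * ·) e
    simpa [mul_add, h, sub_eq_add_neg] using this
  have e3 : (2 * s) • r = 0 := by
    rw [two_mul, add_smul, ← add_zero (0 : B)]
    nth_rewrite 1 [← e1]
    rw [← e2]; abel
  have hs : s = 0 := by simpa [hr.ne_zero] using e3
  refine ⟨hs, ?_⟩
  simpa [hs, hj.ne_zero] using e

theorem indep₄ {j r : B} (hj : IsUnit j) (hr : IsUnit r)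
    (h : j * r = -(r * j)) {x₀ x₁ x₂ x₃ : K}
    (e : x₀ • (1 : B) + x₁ • j + x₂ • r + x₃ • (j * r) = 0) :
    x₀ = 0 ∧ x₁ = 0 ∧ x₂ = 0 ∧ x₃ = 0 := by
  have h' : r * j = -(j * r) := by rw [h, neg_neg]
  have e1 : j * (x₀ • (1 : B) + x₁ • j) + j * (x₂ • r + x₃ • (j * r)) = 0 := by
    rw [← mul_add, ← add_assoc, e, mul_zero]
  have e2 : j * (x₀ • (1 : B) + x₁ • j) - j * (x₂ • r + x₃ • (j * r)) = 0 := by
    have := congrArg (· * j) e
    simp only [add_mul, smul_mul_assoc, one_mul, mul_assoc, h', zero_mul, mul_neg, smul_neg] at this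
    simp only [mul_add, mul_smul_comm, mul_one]
    rw [← this]; abel
  have e3 : x₀ • (1 : B) + x₁ • j = 0 := by
    have : (2 : K) • (j * (x₀ • (1 : B) + x₁ • j)) = 0 := by
      rw [two_smul, ← add_zero (0 : B)]
      nth_rewrite 1 [← e1]
      rw [← e2]; abel
    exact hj.mul_right_eq_zero.1 ((smul_eq_zero.1 this).resolve_left two_ne_zero)
  have e4 : x₂ • (1 : B) + x₃ • j = 0 := by
    rw [e3, mul_zero, zero_add, hj.mul_right_eq_zero] at e1
    apply hr.mul_left_eq_zero.1
    rw [add_mul, smul_mul_assoc, smul_mul_assoc, one_mul, e1]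
  exact ⟨(indep₂ hj hr h e3).1, (indep₂ hj hr h e3).2, indep₂ hj hr h e4⟩

theorem span₄ (hd : deg K B = 2) {j r : B} (hj : IsUnit j) (hr : IsUnit r)
    (h : j * r = -(r * j)) (x : B) :
    ∃ x₀ x₁ x₂ x₃ : K, x = x₀ • (1 : B) + x₁ • j + x₂ • r + x₃ • (j * r) := by
  have hli : LinearIndependent K ![(1 : B), j, r, j * r] := by
    rw [Fintype.linearIndependent_iff]
    intro g hg i
    obtain ⟨h0, h1, h2, h3⟩ := indep₄ hj hr h (x₀ := g 0) (x₁ := g 1) (x₂ := g 2) (x₃ := g 3)
      (by simpa [Fin.sum_univ_four] using hg)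
    fin_cases i <;> assumption
  have hsp := hli.span_eq_top_of_card_eq_finrank (by rw [finrank_eq_deg_sq, hd]; simp)
  obtain ⟨f, hf⟩ := (Submodule.mem_span_range_iff_exists_fun K).1 (hsp ▸ Submodule.mem_top (x := x))
  exact ⟨f 0, f 1, f 2, f 3, by simp [← hf, Fin.sum_univ_four]⟩

/-- on `SU` the involution is the canonical one -/
theorem add_star (hd : deg K B = 2) {x : B} (hx : star x * x = 1) (hN : Nrd K x = 1) :
    x + star x = Trd K x • (1 : B) := by
  have h := ch2 hd x
  rw [hN, map_one] at h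
  have h1 : star x * (x * x) = x := by rw [← mul_assoc, hx, one_mul]
  rw [h, mul_sub, mul_smul_comm, hx, mul_one] at h1
  exact eq_sub_iff_add_eq.1 h1.symm

variable (k) in
/-- the `k`-form -/
theorem exists_quat (hd : deg K B = 2) (ha : Aniso B) : ∃ q : Ct2.Quat k B,
    q.i = algebraMap k B ∧ ∀ x : B, star x * x = 1 → Nrd K x = 1 →
      ∃ x₀ x₁ x₂ x₃ : k, x = q.el x₀ x₁ x₂ x₃ := by
  obtain ⟨j, r, a, c, hjs, hrs, hja, hrc, h⟩ := exists_gen (k := k) hd ha
  have hk : ∀ y : k, star (algebraMap k B y) = algebraMap k B y := fun y => by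
    rw [IsScalarTower.algebraMap_apply k K B, star_algebraMap, Quad.star_k]
  refine ⟨⟨algebraMap k B, j, r, a, c, hk, hjs, hrs, hja, hrc, h, fun f => Algebra.commutes f j,
    fun f => Algebra.commutes f r⟩, rfl, fun x hx hN => ?_⟩
  have hj := unit_of_sq hja
  have hr := unit_of_sq hrc
  obtain ⟨x₀, x₁, x₂, x₃, e⟩ := span₄ hd hj hr h x
  have h1 := add_star hd hx hN
  have hs : star (j * r) = -(j * r) := by rw [star_mul, hjs, hrs, neg_mul_neg, h, neg_neg]
  have h2 : star x = star x₀ • (1 : B) - star x₁ • j - star x₂ • r - star x₃ • (j * r) := by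
    rw [e]
    simp only [star_add, star_smul, star_one, hjs, hrs, hs, smul_neg]
    abel
  obtain ⟨g0, g1, g2, g3⟩ := indep₄ hj hr h
    (x₀ := x₀ + star x₀ - Trd K x) (x₁ := x₁ - star x₁) (x₂ := x₂ - star x₂) (x₃ := x₃ - star x₃)
    (by
      rw [h2] at h1
      nth_rewrite 1 [e] at h1
      simp only [sub_smul, add_smul]
      rw [← h1]; abel)
  have ht : Trd K x = 2 * x₀ := by
    have t1 : Trd K j = 0 := trd_anti hr (by rw [h, neg_neg])
    have t2 : Trd K r = 0 := trd_anti hj h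
    have t3 : Trd K (j * r) = 0 := trd_anti hj (by rw [mul_assoc, ← mul_neg, ← h])
    rw [e]
    simp only [map_add, map_smul, t1, t2, t3, Trd_one, hd, smul_eq_mul]
    push_cast; ring
  have f : ∀ y : K, star y = y → ∃ a : k, algebraMap k K a = y := fun y hy =>
    exists_of_star_eq (Quad.fr (k := k) (K := K)) Quad.star_k (Quad.ne (k := k)) hy
  obtain ⟨y₀, rfl⟩ := f x₀ (by rw [ht] at g0; linear_combination g0)
  obtain ⟨y₁, rfl⟩ := f x₁ (by linear_combination -g1)
  obtain ⟨y₂, rfl⟩ := f x₂ (by linear_combination -g2)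
  obtain ⟨y₃, rfl⟩ := f x₃ (by linear_combination -g3)
  refine ⟨y₀, y₁, y₂, y₃, ?_⟩
  rw [e]
  simp only [Ct2.Quat.el, Algebra.smul_def, mul_one, ← IsScalarTower.algebraMap_apply]

variable (k) in
/-- all the elements of `SU` lie in one quaternion algebra -/
theorem exists_inQ (hd : deg K B = 2) (ha : Aniso B) : ∃ S₀ : Finset (Pl k), ∀ S, S₀ ⊆ S →
    ∀ x : B, star x * x = 1 → Nrd K x = 1 → InQ S x := by
  obtain ⟨q, hq, h⟩ := exists_quat k hd ha
  have hj : q.j * q.j = algebraMap k B q.a := by rw [q.jj, hq]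
  have hr : q.r * q.r = algebraMap k B q.c := by rw [q.rr, hq]
  have hu := unit_of_sq hr
  obtain ⟨S₀, h0⟩ := exists_qspl K q.a (hu.mul hu)
  refine ⟨S₀, fun S hS x hx hN => ?_⟩
  obtain ⟨x₀, x₁, x₂, x₃, e⟩ := h x hx hN
  refine ⟨q.a, q.j, q.r, q.r * q.r, X, C x₀, C x₁, C x₂, C x₃,
    by rw [star_mul, q.star_r, neg_mul_neg], q.star_j, q.star_r, hj, (aeval_X _).symm, hu,
    by rw [q.jr, neg_neg], hr ▸ Algebra.commutes _ _, hr ▸ Algebra.commutes _ _, ?_, h0 S hS⟩
  simp only [aeval_C]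
  rw [e, Ct2.Quat.el, hq]

/-- the central step in degree two, germ form -/
theorem germ (hd : deg K B = 2) (ha : Aniso B) {N : Subgroup (unitary B)} (h : CtC k K N)
    (S₁ : Finset (Pl k)) : ∃ S, S₁ ⊆ S ∧
      ∀ᶠ x in nb k K B S 1, ∀ u ∈ SU K B, (u : B) = x → u ∈ N := by
  classical
  obtain ⟨S₀, h0⟩ := exists_inQ k hd ha
  obtain ⟨S, hS, h⟩ := h (S₁ ∪ S₀)
  exact ⟨S, Finset.subset_union_left.trans hS, h.mono fun x hx u hu e =>
    hx u e (e ▸ h0 S (Finset.subset_union_right.trans hS) u u.2.1 hu)⟩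

end Crest.Agent.T24.Two30
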