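import Crest.Agent.T24.EvDef_47
import Crest.Agent.T24.EvTwoA_30

/-!
# Row 24, degree two (helper30): `Q2Stmt`
-/

set_option autoImplicit false

namespace Crest.Agent.T24.Evn

universe u v w

theorem q2Stmt : Q2Stmt.{u, v, w} := fun D hd ha => by
  obtain ⟨q, hq, h⟩ := Two30.exists_quat D.k hd ha
  exact ⟨q, fun y => by rw [hq], fun g hg => h g g.2.1 hg⟩

end Crest.Agent.T24.Evn
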