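import Crest.Agent.T24.EvnApi_57

/-!
# Row 24, even degree: existence of the tower
-/

set_option autoImplicit false
set_option linter.unusedSectionVars false

noncomputable section

namespace Crest.Agent.T24.Evn

open Module NumberField WithZero Csa Asa Polynomial

universe u v w t

namespace T57

theorem exists_sqrt (F : Type u) [Field F] [NumberField F] (a : F) (h : ¬ IsSquare a) :
    ∃ (L : Type u) (_ : Field L) (_ : NumberField L) (_ : Algebra F L) (ω : L) (σ : L ≃ₐ[F] L),
      ω * ω = algebraMap F L a ∧ finrank F L = 2 ∧ σ ω = -ω ∧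
      (∀ c : L, ∃ x y : F, c = algebraMap F L x + algebraMap F L y * ω) ∧
      ∀ (A : Type t) [Ring A] [Algebra F A] (x : A), x * x = algebraMap F A a →
        ∃ φ : L →ₐ[F] A, φ ω = x := by
  have : Fact (∀ r : F, r ^ 2 ≠ a + 0 * r) := ⟨fun r hr => h ⟨r, by linear_combination -hr⟩⟩
  have hq := Hn.qd_quad a
  refine ⟨QuadraticAlgebra F a 0, inferInstance, NumberField.of_module_finite F _, inferInstance,
    QuadraticAlgebra.omega, Hn.qconj a, by rw [← sq, hq.sq], hq.rank, hq.conj,
    fun z => ⟨z.re, z.im, by ext <;> simp⟩, fun A _ _ x hx => ⟨QuadraticAlgebra.lift ⟨x, by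
      rw [hx, zero_smul, add_zero, Algebra.algebraMap_eq_smul_one]⟩, by simp [QuadraticAlgebra.lift]⟩⟩

variable {k K B : Type*} [Field k] [NumberField k] [Field K] [NumberField K] [Algebra k K]
  [StarRing K] [Quad k K] [Ring B] [StarRing B] [Algebra K B] [StarModule K B]
  [Algebra.IsCentral K B] [IsSimpleRing B] [FiniteDimensional K B]

include k in
/-- a skew unit anticommuting with a hermitian element -/
theorem exists_skew {θ : K} (h0 : θ ≠ 0) (hθ : star θ = -θ) {ε u : B} (hε : star ε = ε)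
    (hu : IsUnit u) (h : u * ε = -(ε * u)) :
    ∃ n : B, star n = -n ∧ IsUnit n ∧ n * ε = -(ε * n) := by
  have h' : star u * ε = -(ε * star u) := by
    have := congrArg star h
    rw [star_neg, star_mul, star_mul, hε] at this
    rw [this, neg_neg]
  obtain ⟨y, hy, hn⟩ := exists_isUnit_box (K := K) (e := ![u - star u, θ • (u + star u)])
    (x := ![1 / 2, (2 * θ)⁻¹]) (by
      convert hu using 1
      simp only [Fin.sum_univ_two, Matrix.cons_val_zero, Matrix.cons_val_one, smul_smul]
      rw [show (2 * θ)⁻¹ * θ = 1 / 2 by field_simp]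
      module) (fun _ => Set.range (algebraMap k K))
    fun _ => Set.infinite_range_of_injective (algebraMap k K).injective
  obtain ⟨a, ha⟩ := hy 0
  obtain ⟨b, hb⟩ := hy 1
  refine ⟨_, ?_, hn, ?_⟩
  · simp only [Fin.sum_univ_two, Matrix.cons_val_zero, Matrix.cons_val_one, ← ha, ← hb, star_add,
      star_smul, star_sub, star_star, Quad.star_k, hθ]
    module
  · simp only [Fin.sum_univ_two, Matrix.cons_val_zero, Matrix.cons_val_one, add_mul, mul_add, sub_mul,
      mul_sub, smul_mul_assoc, mul_smul_comm, h, h']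
    module

end T57

theorem towStmt : TowStmt.{u, v, w} := by
  rintro D ⟨ε, r, hε, hr, hn⟩
  have r0 : r ≠ 0 := fun h => hn (by simp [h])
  obtain ⟨θ, b, h0, hθ, -, hb⟩ := TL31.exists_basis D.k D.K
  obtain ⟨δ, hδ⟩ := Asa.fixed (Quad.fr (k := D.k) (K := D.K)) (sig_ne D.k D.K) (x := θ ^ 2)
    (by rw [sig_apply, star_pow, hθ]; ring)
  have δ0 : δ ≠ 0 := fun h => pow_ne_zero 2 h0 (by rw [← hδ, h, map_zero])
  obtain ⟨k₁, _, _, _, e, -, he, f₁, -, s₁, l₁⟩ := T57.exists_sqrt.{u, v} D.k r
    fun h => hn (h.map _)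
  obtain ⟨E, _, _, _, ω, σ, hω, f₂, hσ, s₂, l₂⟩ := T57.exists_sqrt.{v, w} D.K _ hn
  obtain ⟨φ, hφ⟩ := l₂ D.B ε (by rw [hr, IsScalarTower.algebraMap_apply D.k D.K D.B])
  let _ : Algebra D.k E := ((algebraMap D.K E).comp (algebraMap D.k D.K)).toAlgebra
  have : IsScalarTower D.k D.K E := IsScalarTower.of_algebraMap_eq fun _ => rfl
  obtain ⟨ψ, hψ⟩ := l₁ E ω hω
  let _ : Algebra k₁ E := ψ.toRingHom.toAlgebra
  have : IsScalarTower D.k k₁ E := IsScalarTower.of_algebraMap_eq fun c => (ψ.commutes c).symm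
  have hc : ∀ x : D.K, Commute ε (algebraMap D.K D.B x) := fun x => (Algebra.commutes x ε).symm
  have hs : ∀ c, ∃ c', φ c' = star (φ c) := fun c => by
    obtain ⟨x, y, rfl⟩ := s₂ c
    refine ⟨algebraMap _ _ (star x) + algebraMap _ _ (star y) * ω, ?_⟩
    simp only [map_add, map_mul, AlgHom.commutes, hφ, star_add, star_mul, star_algebraMap, hε,
      (hc _).eq]
  let _ : StarRing E := starOfStable φ hs
  have : StarHom φ := starHom_of_stable φ hs
  have hω' : star ω = ω := φ.injective (by
    change φ _ = φ _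
    rw [StarHom.map_star, hφ, hε])
  have : Module.Finite D.k D.K := finite_kK D.k D.K
  have : Module.Finite D.K E := Module.finite_of_finrank_pos (by omega)
  have : Quad k₁ E := by
    refine ⟨?_, fun c => ?_, algebraMap _ _ θ, fun h => h0 ?_⟩
    · have h1 := finrank_mul_finrank D.k D.K E
      have h2 := finrank_mul_finrank D.k k₁ E
      rw [Quad.fr, f₂] at h1
      rw [f₁] at h2
      omega
    · obtain ⟨x, y, rfl⟩ := s₁ c
      change star (ψ _) = ψ _
      rw [map_add, map_mul, ψ.commutes, ψ.commutes, hψ, star_add, star_mul', hω']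
      change star (algebraMap D.K E _) + star (algebraMap D.K E _) * _ = _
      rw [Ev.R57.star_alg φ, Ev.R57.star_alg φ, Quad.star_k, Quad.star_k]
      rfl
    · rw [Ev.R57.star_alg φ, hθ] at h
      exact self_eq_neg.1 ((algebraMap D.K E).injective h).symm
  obtain ⟨u, hu⟩ := skolemNoether φ (φ.comp σ)
  obtain ⟨n, n1, n2, n3⟩ := T57.exists_skew (k := D.k) h0 hθ hε u.isUnit (by
    have : φ (σ ω) = _ := hu ω
    rw [hσ, map_neg, hφ, Units.eq_mul_inv_iff_mul_eq] at this
    rw [← this, neg_mul])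
  exact ⟨{
    k₁ := k₁
    E := E
    i := φ
    e := e
    r := Units.mk0 r r0
    θ := θ
    δ := Units.mk0 δ δ0
    σ := σ
    n := n
    ee := he
    nsq := hn
    fr := f₂
    fr₁ := f₁
    star_θ := hθ
    θθ := hδ.symm
    σ_e := by
      change σ (ψ e) = -ψ e
      rw [hψ, hσ]
    star_n := n1
    unit_n := n2
    n_i := fun c => by
      obtain ⟨x, y, rfl⟩ := s₂ c
      simp only [map_add, map_mul, AlgEquiv.commutes, AlgHom.commutes, hσ, map_neg, hφ]
      rw [add_mul, mul_add, Algebra.commutes x, ← mul_assoc n, ← Algebra.commutes y, mul_assoc,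
        mul_assoc, neg_mul, n3]
    crd := fun c => by
      obtain ⟨x, y, rfl⟩ := s₂ c
      refine ⟨b.repr x 0, b.repr x 1, b.repr y 0, b.repr y 1, ?_⟩
      change _ = _ + _ + _ * ψ e + _ * (_ * ψ e)
      rw [hψ]
      conv_lhs => rw [hb x, hb y]
      simp only [map_add, map_mul, ← IsScalarTower.algebraMap_apply]
      ring }⟩

end Crest.Agent.T24.Evn
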