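import Crest.Agent.T24.NaDef_18
import Crest.Agent.T24.Cfg_24
import Crest.Agent.T24.SplEx_33

/-!
# Row 24 (helper33): `NA` and `TW` from the analytic step `IndepStmt`.
-/

set_option autoImplicit false
set_option linter.unusedSectionVars false

noncomputable section

namespace Crest.Agent.T24.Na

open Finset Csa

universe u v w

namespace F33

section prob
variable {Ω : Type*}

/-- indicator functions -/
def ind (p : Ω → Prop) : Ω → ℝ := {ω | p ω}.indicator 1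

theorem ind_pos {p : Ω → Prop} {ω : Ω} (h : p ω) : ind p ω = 1 := Set.indicator_of_mem h _
theorem ind_neg {p : Ω → Prop} {ω : Ω} (h : ¬ p ω) : ind p ω = 0 := Set.indicator_of_notMem h _
theorem ind_eq {Ω' : Type*} (p : Ω → Prop) (ω : Ω) (p' : Ω' → Prop) (ω' : Ω') (h : p ω ↔ p' ω') :
    ind p ω = ind p' ω' := by
  by_cases h1 : p ω
  · rw [ind_pos h1, ind_pos (h.1 h1)]
  · rw [ind_neg h1, ind_neg (mt h.2 h1)]
theorem ind_nonneg (p : Ω → Prop) (ω : Ω) : 0 ≤ ind p ω := by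
  by_cases h : p ω <;> simp [ind_pos, ind_neg, h]
theorem ind_le (p : Ω → Prop) (ω : Ω) : ind p ω ≤ 1 := by
  by_cases h : p ω <;> simp [ind_pos, ind_neg, h]

/-- a mean carried by `G` -/
structure Pr (E : (Ω → ℝ) →ₗ[ℝ] ℝ) (G : Set Ω) : Prop where
  pos : ∀ F : Ω → ℝ, (∀ ω ∈ G, 0 ≤ F ω) → 0 ≤ E F
  one : E 1 = 1

variable {E : (Ω → ℝ) →ₗ[ℝ] ℝ} {G : Set Ω}

theorem Pr.mono (h : Pr E G) {F F' : Ω → ℝ} (hF : ∀ ω ∈ G, F ω ≤ F' ω) : E F ≤ E F' := by
  have := h.pos (F' - F) fun ω hω => sub_nonneg.2 (hF ω hω)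
  rwa [map_sub, sub_nonneg] at this

theorem pr_push {X : Type*} [Finite Ω] (P : (X → ℝ) →ₗ[ℝ] ℝ) (good : X → Prop)
    (pos : ∀ S : Set X, 0 ≤ P (S.indicator 1)) (one : P 1 = 1)
    (bad : P ({a | ¬ good a}.indicator 1) = 0) (l : X → Ω) :
    Pr (P ∘ₗ LinearMap.funLeft ℝ ℝ l) (l '' {a | good a}) := by
  have := Fintype.ofFinite Ω
  refine ⟨fun F hF => ?_, one⟩
  have h1 : LinearMap.funLeft ℝ ℝ l F = ∑ ω, F ω • ind (fun a => l a = ω ∧ good a) +
      ∑ ω, F ω • ind (fun a => l a = ω ∧ ¬ good a) := by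
    funext a
    simp only [LinearMap.funLeft_apply, Pi.add_apply, Finset.sum_apply, Pi.smul_apply, smul_eq_mul]
    rw [sum_eq_single (l a) (fun ω _ h => by rw [ind_neg fun h' => h h'.1.symm, mul_zero]) (by simp),
      sum_eq_single (l a) (fun ω _ h => by rw [ind_neg fun h' => h h'.1.symm, mul_zero]) (by simp)]
    by_cases h : good a <;> simp [ind_pos, ind_neg, h]
  have h2 : ∀ ω, P (ind fun a => l a = ω ∧ ¬ good a) = 0 := fun ω => by
    have h3 : ({a | ¬ good a}.indicator 1 : X → ℝ) =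
        ind (fun a => l a = ω ∧ ¬ good a) + ind (fun a => l a ≠ ω ∧ ¬ good a) := by
      funext a
      change ind (fun a => ¬ good a) a = _
      by_cases h : good a <;> by_cases h' : l a = ω <;> simp [ind_pos, ind_neg, h, h']
    rw [h3, map_add] at bad
    have h4 : 0 ≤ P (ind fun a => l a = ω ∧ ¬ good a) := pos _
    have h5 : 0 ≤ P (ind fun a => l a ≠ ω ∧ ¬ good a) := pos _
    linarith
  rw [LinearMap.comp_apply, h1, map_add, map_sum, map_sum]
  simp only [map_smul, h2, smul_eq_mul, mul_zero, sum_const_zero, add_zero]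
  refine sum_nonneg fun ω _ => ?_
  by_cases h : ω ∈ l '' {a | good a}
  · exact mul_nonneg (hF ω h) (pos _)
  · have : ind (fun a => l a = ω ∧ good a) = 0 :=
      funext fun a => ind_neg fun h' => h ⟨a, h'.2, h'.1⟩
    simp [this]

/-- Bessel's inequality -/
theorem Pr.bessel (h : Pr E G) {T T' : Type*} [Fintype T] {r : ℕ} (A : Fin r → Ω → T') (Bl : Ω → T)
    (Φ : T' → T → ℝ) (hΦ : ∀ a b, |Φ a b| ≤ 1)
    (orth : ∀ i j, i ≠ j → ∀ b, E (fun ω => Φ (A i ω) b * Φ (A j ω) b) = 0) {δ : ℝ} (hδ : 0 < δ)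
    (hl : ∀ j, δ ≤ E fun ω => Φ (A j ω) (Bl ω)) : r * δ ^ 2 ≤ Fintype.card T := by
  rcases Nat.eq_zero_or_pos r with rfl | hr
  · simp
  have h1 : ∀ b, E (fun ω => (∑ j, Φ (A j ω) b) ^ 2) ≤ r := fun b => by
    have : (fun ω => (∑ j, Φ (A j ω) b) ^ 2) = ∑ i, ∑ j, fun ω => Φ (A i ω) b * Φ (A j ω) b := by
      funext ω; simp [sq, sum_mul_sum]
    rw [this, map_sum]
    calc _ ≤ ∑ _i : Fin r, (1 : ℝ) := sum_le_sum fun i _ => by
            rw [map_sum, sum_eq_single i (fun j _ hj => orth i j hj.symm b) (by simp), ← h.one]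
            exact h.mono fun ω _ => by
              have := abs_le.1 (hΦ (A i ω) b)
              change _ ≤ (1 : ℝ)
              nlinarith
      _ = r := by simp
  have h2 := h.mono (F := (2 * (r * δ)) • ∑ j, fun ω => Φ (A j ω) (Bl ω))
    (F' := (r * δ) ^ 2 • 1 + ∑ b, fun ω => (∑ j, Φ (A j ω) b) ^ 2) fun ω _ => by
      have := single_le_sum (f := fun b => (∑ j, Φ (A j ω) b) ^ 2) (fun b _ => sq_nonneg _)
        (mem_univ (Bl ω))
      simp only [Pi.smul_apply, Finset.sum_apply, Pi.add_apply, Pi.one_apply, smul_eq_mul]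
      nlinarith [sq_nonneg (r * δ - ∑ j, Φ (A j ω) (Bl ω))]
  rw [map_smul, map_add, map_smul, map_sum, map_sum, h.one, smul_eq_mul, smul_eq_mul] at h2
  have h3 : r * δ ≤ ∑ j, E fun ω => Φ (A j ω) (Bl ω) := by
    simpa using sum_le_sum fun j (_ : j ∈ univ) => hl j
  have h4 : ∑ b, E (fun ω => (∑ j, Φ (A j ω) b) ^ 2) ≤ Fintype.card T * r := by
    simpa using sum_le_sum fun b (_ : b ∈ univ) => h1 b
  have h5 : (0 : ℝ) < r := by exact_mod_cast hr
  have h6 := mul_le_mul_of_nonneg_left h3 (show 0 ≤ 2 * (r * δ) by positivity)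
  refine le_of_mul_le_mul_right ?_ h5
  nlinarith

variable {Q : Type} [Group Q] [Finite Q] {M : Subgroup Q}

/-- the average along `M` -/
def av (M : Subgroup Q) {T : Type*} [MulAction Q T] (ψ : T → ℝ) (t : T) : ℝ :=
  (∑ᶠ f : M, ψ ((f : Q) • t)) / Nat.card M

theorem card_pos : (0 : ℝ) < Nat.card M := by exact_mod_cast Nat.card_pos

theorem mz_sub {T : Type*} [MulAction Q T] (ψ : T → ℝ) (σ : ℝ) :
    Mz M fun t => σ * (ψ t - av M ψ t) := fun t => by
  have := Fintype.ofFinite M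
  have h1 : ∀ f : M, av M ψ ((f : Q) • t) = av M ψ t := fun f => by
    simp only [av, finsum_eq_sum_of_fintype, smul_smul, ← Subgroup.coe_mul]
    rw [← Equiv.sum_comp (Equiv.mulRight f) fun g : M => ψ ((g : Q) • t)]
    rfl
  simp only [finsum_eq_sum_of_fintype, h1, ← mul_sum, sum_sub_distrib, sum_const, card_univ,
    nsmul_eq_mul, ← Nat.card_eq_fintype_card]
  rw [av, finsum_eq_sum_of_fintype, mul_div_cancel₀ _ card_pos.ne', sub_self, mul_zero]

theorem av_ind {T : Type*} [MulAction Q T] (p : T → Prop) (t : T) :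
    av M (ind p) t = (Nat.card {f : M | p ((f : Q) • t)} : ℝ) / Nat.card M := by
  classical
  have := Fintype.ofFinite M
  rw [av, finsum_eq_sum_of_fintype, Nat.card_eq_fintype_card (α := {f : M | _}), Fintype.card_subtype,
    card_eq_sum_ones, sum_filter]
  congr 1
  push_cast
  refine sum_congr rfl fun f _ => ?_
  by_cases h : p ((f : Q) • t) <;> simp [ind_pos, ind_neg, h]

theorem abs_sub_av {T : Type*} [MulAction Q T] (p : T → Prop) (t : T) :
    |ind p t - av M (ind p) t| ≤ 1 := by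
  have h1 : av M (ind p) t ≤ 1 := by
    rw [av_ind, div_le_one card_pos]
    exact_mod_cast Nat.card_le_card_of_injective _ Subtype.val_injective
  have h2 : 0 ≤ av M (ind p) t := by rw [av_ind]; positivity
  have := ind_nonneg p t
  have := ind_le p t
  rw [abs_le]; constructor <;> linarith

theorem Pr.unif (e : Ω → Q)
    (hu : ∀ f ∈ M, E (ind fun ω => e ω = 1 * f) = E (ind fun ω => e ω = 1)) :
    Nat.card M * E (ind fun ω => e ω = 1) = E (ind fun ω => e ω ∈ M) := by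
  have := Fintype.ofFinite M
  have h1 : (ind fun ω => e ω ∈ M) = ∑ f : M, ind fun ω => e ω = 1 * f := by
    funext ω
    rw [Finset.sum_apply]
    by_cases h : e ω ∈ M
    · rw [ind_pos (p := fun ω => e ω ∈ M) h, sum_eq_single ⟨_, h⟩ (fun f _ hf => ind_neg fun h' =>
        hf (Subtype.ext (by simpa using h'.symm))) (by simp), ind_pos (by simp)]
    · rw [ind_neg (p := fun ω => e ω ∈ M) h, sum_eq_zero fun (f : M) _ => ind_neg fun h' => h (by simp [h'])]
  rw [h1, map_sum, sum_congr rfl fun (f : M) _ => hu f f.2]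
  simp

end prob

/-- subgroups, with the action by conjugation -/
def Sg (Q : Type) [Group Q] : Type := Subgroup Q

section grp
variable {Q : Type} [Group Q]

instance : SetLike (Sg Q) Q := inferInstanceAs (SetLike (Subgroup Q) Q)
instance [Finite Q] : Finite (Sg Q) := inferInstanceAs (Finite (Subgroup Q))
instance : MulAction Q (Sg Q) where
  smul q A := Subgroup.comap (MulAut.conj q⁻¹).toMonoidHom A
  one_smul A := Subgroup.ext fun y => by
    change 1⁻¹ * y * 1⁻¹⁻¹ ∈ A ↔ y ∈ A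
    simp
  mul_smul q q' A := Subgroup.ext fun y => by
    change (q * q')⁻¹ * y * (q * q')⁻¹⁻¹ ∈ A ↔ q'⁻¹ * (q⁻¹ * y * q⁻¹⁻¹) * q'⁻¹⁻¹ ∈ A
    simp [mul_assoc]

theorem mem_smul {q y : Q} {A : Sg Q} : y ∈ q • A ↔ q⁻¹ * y * q ∈ A := by
  change q⁻¹ * y * q⁻¹⁻¹ ∈ A ↔ _
  rw [inv_inv]

/-- abelian -/
def Ab (A : Sg Q) : Prop := ∀ a ∈ A, ∀ a' ∈ A, a * a' = a' * a

variable [Finite Q] {M : Subgroup Q} {Ω : Type*} {E : (Ω → ℝ) →ₗ[ℝ] ℝ} {G : Set Ω}

/-- one system of labels -/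
structure Sy (M : Subgroup Q) (E : (Ω → ℝ) →ₗ[ℝ] ℝ) (G : Set Ω) {r : ℕ} (e : Fin r → Ω → Q)
    (A : Fin r → Ω → Sg Q) (Bl : Ω → Sg Q) : Prop where
  pr : Pr E G
  abA : ∀ j, ∀ ω ∈ G, Ab (A j ω)
  abB : ∀ ω ∈ G, Ab (Bl ω)
  memA : ∀ j, ∀ ω ∈ G, e j ω ∈ A j ω
  memB : ∀ j, ∀ ω ∈ G, e j ω ∈ Bl ω
  unif : ∀ j, ∀ f ∈ M, E (ind fun ω => e j ω = 1 * f) = E (ind fun ω => e j ω = 1)
  orth : ∀ i j, i ≠ j → ∀ φ χ : Sg Q → ℝ, Mz M φ → E (fun ω => φ (A i ω) * χ (A j ω)) = 0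

variable {r : ℕ} {e : Fin r → Ω → Q} {A : Fin r → Ω → Sg Q} {Bl : Ω → Sg Q}

theorem Sy.key (h : Sy M E G e A Bl) (Ψ : Sg Q → Sg Q → Prop) {σ δ : ℝ} (hσ : |σ| = 1) (hδ : 0 < δ)
    (hl : ∀ j, δ ≤ E fun ω => σ * (ind (Ψ (Bl ω)) (A j ω) - av M (ind (Ψ (Bl ω))) (A j ω))) :
    r * δ ^ 2 ≤ Nat.card (Sg Q) := by
  have := Fintype.ofFinite (Sg Q)
  rw [Nat.card_eq_fintype_card]
  exact h.pr.bessel A Bl (fun a b => σ * (ind (Ψ b) a - av M (ind (Ψ b)) a))
    (fun a b => by rw [abs_mul, hσ, one_mul]; exact abs_sub_av _ _)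
    (fun i j hij b => h.orth i j hij _ (fun a => σ * (ind (Ψ b) a - av M (ind (Ψ b)) a)) (mz_sub _ _))
    hδ hl

theorem Sy.na [M.Normal] (h : Sy M E G e A Bl) (hab : ∀ a b : Q, a * b * a⁻¹ * b⁻¹ ∈ M)
    (hF : Zen.NoP M) (hC : ∀ g : Q, (∀ f ∈ M, g * f = f * g) → g = 1) (hne : M ≠ ⊥) :
    r * (1 / (Nat.card M : ℝ)) ^ 2 ≤ Nat.card (Sg Q) := by
  have hn : (0 : ℝ) < Nat.card M := card_pos
  refine h.key (fun b a => ∀ y ∈ b, y ∈ a → y = 1) (σ := -1) (by simp) (by positivity) fun j => ?_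
  have h1 := h.pr.mono (F := (2 / (Nat.card M : ℝ)) • 1 - ind fun ω => e j ω = 1)
    (F' := fun ω => -1 * (ind (fun a => ∀ y ∈ Bl ω, y ∈ a → y = 1) (A j ω) -
      av M (ind fun a => ∀ y ∈ Bl ω, y ∈ a → y = 1) (A j ω))) fun ω hω => by
    obtain ⟨f₁, h1, f₂, h2, h3, h4, h5⟩ := Zen.two hab hF hC hne (h.abA j ω hω) (h.abB ω hω)
    have h6 : 2 / (Nat.card M : ℝ) ≤ av M (ind fun a => ∀ y ∈ Bl ω, y ∈ a → y = 1) (A j ω) := by
      rw [av_ind]
      gcongr
      have : Nontrivial {f : M | ∀ y ∈ Bl ω, y ∈ (f : Q) • A j ω → y = 1} :=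
        ⟨⟨⟨f₁, h1⟩, fun y hy hy' => h4 y hy (mem_smul.1 hy')⟩,
          ⟨⟨f₂, h2⟩, fun y hy hy' => h5 y hy (mem_smul.1 hy')⟩, fun h => h3 (by simpa using h)⟩
      exact_mod_cast Finite.one_lt_card
    have h7 : ind (fun a => ∀ y ∈ Bl ω, y ∈ a → y = 1) (A j ω) ≤ ind (fun ω => e j ω = 1) ω := by
      by_cases h8 : ∀ y ∈ Bl ω, y ∈ A j ω → y = 1
      · exact (ind_le _ _).trans (ind_pos (h8 _ (h.memB j ω hω) (h.memA j ω hω))).ge
      · exact (ind_neg h8).trans_le (ind_nonneg _ _)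
    simp only [Pi.sub_apply, Pi.smul_apply, Pi.one_apply, smul_eq_mul]
    linarith
  have h2 := Pr.unif (e j) (h.unif j)
  have h3 := h.pr.mono (F := ind fun ω => e j ω ∈ M) (F' := 1) fun ω _ => ind_le _ _
  rw [map_sub, map_smul, h.pr.one, smul_eq_mul] at h1
  rw [h.pr.one, ← h2, ← le_div_iff₀' hn] at h3
  have : 2 / (Nat.card M : ℝ) = 1 / Nat.card M + 1 / Nat.card M := by ring
  linarith

theorem Sy.tw [hM : M.Normal] (h : Sy M E G e A Bl) (h3 : 3 ≤ Nat.card M)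
    (hF : ∀ q : Q, q ∉ M → ∀ x ∈ M, q * x = x * q → x = 1)
    (hE : 1 / 2 ≤ E (ind fun ω => ∃ y ∈ Bl ω, y ∉ M)) :
    r * (1 / (2 * (Nat.card M : ℝ) ^ 2)) ^ 2 ≤ Nat.card (Sg Q) := by
  have hn : (3 : ℝ) ≤ Nat.card M := by exact_mod_cast h3
  refine h.key (fun b a => ∃ y ∈ b, y ∈ a ∧ y ∉ M) (σ := 1) (by simp) (by positivity) fun j => ?_
  have h1 := h.pr.mono
    (F := 1 - (ind fun ω => e j ω ∈ M) - (1 / (Nat.card M : ℝ)) • ind fun ω => ∃ y ∈ Bl ω, y ∉ M)
    (F' := fun ω => 1 * (ind (fun a => ∃ y ∈ Bl ω, y ∈ a ∧ y ∉ M) (A j ω) -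
      av M (ind fun a => ∃ y ∈ Bl ω, y ∈ a ∧ y ∉ M) (A j ω))) fun ω hω => by
    have h6 : av M (ind fun a => ∃ y ∈ Bl ω, y ∈ a ∧ y ∉ M) (A j ω) ≤
        1 / (Nat.card M : ℝ) * ind (fun ω => ∃ y ∈ Bl ω, y ∉ M) ω := by
      rw [av_ind, one_div_mul_eq_div]
      gcongr
      by_cases h8 : ∃ y ∈ Bl ω, y ∉ M
      · rw [ind_pos (p := fun ω => ∃ y ∈ Bl ω, y ∉ M) h8]
        have : Subsingleton {f : M | ∃ y ∈ Bl ω, y ∈ (f : Q) • A j ω ∧ y ∉ M} := ⟨by
          rintro ⟨⟨f, hf⟩, y, h1, h2, h3⟩ ⟨⟨f', hf'⟩, y', h1', h2', h3'⟩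
          have c1 := h.abB ω hω y h1 y' h1'
          have c2 := h.abA j ω hω _ (mem_smul.1 h2) _ (mem_smul.1 h2')
          have m1 : f * f'⁻¹ ∈ M := mul_mem hf (inv_mem hf')
          have m2 : f * f'⁻¹ * (y' * (f * f'⁻¹)⁻¹ * y'⁻¹) ∈ M :=
            mul_mem m1 (hM.conj_mem _ (inv_mem m1) y')
          have c3 := hF y h3 _ m2 (by
            have e1 : y * (f * f'⁻¹ * y' * (f * f'⁻¹)⁻¹) = f * f'⁻¹ * y' * (f * f'⁻¹)⁻¹ * y := by
              calc _ = f * (f⁻¹ * y * f * (f'⁻¹ * y' * f')) * f⁻¹ := by group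
                _ = _ := by rw [c2]; group
            calc _ = y * (f * f'⁻¹ * y' * (f * f'⁻¹)⁻¹) * y'⁻¹ := by group
              _ = f * f'⁻¹ * y' * (f * f'⁻¹)⁻¹ * y'⁻¹ * (y' * y) * y'⁻¹ := by rw [e1]; group
              _ = _ := by rw [← c1]; group)
          have c4 := hF y' h3' _ m1 (by
            calc _ = f * f'⁻¹ * (y' * (f * f'⁻¹)⁻¹ * y'⁻¹) * (y' * (f * f'⁻¹)) := by
                  rw [c3, one_mul]
              _ = _ := by group)
          exact Subtype.ext (Subtype.ext (mul_inv_eq_one.1 c4))⟩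
        exact_mod_cast Finite.card_le_one_iff_subsingleton.2 this
      · have : IsEmpty {f : M | ∃ y ∈ Bl ω, y ∈ (f : Q) • A j ω ∧ y ∉ M} :=
          ⟨fun ⟨_, y, h1, _, h3⟩ => h8 ⟨y, h1, h3⟩⟩
        simp [ind_nonneg]
    have h7 : 1 - ind (fun ω => e j ω ∈ M) ω ≤ ind (fun a => ∃ y ∈ Bl ω, y ∈ a ∧ y ∉ M) (A j ω) := by
      by_cases h8 : e j ω ∈ M
      · rw [ind_pos (p := fun ω => e j ω ∈ M) h8, sub_self]; exact ind_nonneg _ _
      · rw [ind_neg (p := fun ω => e j ω ∈ M) h8, sub_zero]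
        exact (ind_pos (p := fun a => ∃ y ∈ Bl ω, y ∈ a ∧ y ∉ M)
          ⟨_, h.memB j ω hω, h.memA j ω hω, h8⟩).ge
    simp only [Pi.sub_apply, Pi.smul_apply, Pi.one_apply, smul_eq_mul]
    linarith
  have h2 := Pr.unif (e j) (h.unif j)
  have h4 := h.pr.mono (F := ind fun ω => ∃ y ∈ Bl ω, y ∉ M)
    (F' := (ind fun ω => e j ω = 1) + (1 - ind fun ω => e j ω ∈ M)) fun ω hω => by
    simp only [Pi.sub_apply, Pi.add_apply, Pi.one_apply]
    have := ind_nonneg (fun ω => e j ω = 1) ω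
    by_cases h8 : ∃ y ∈ Bl ω, y ∉ M
    · by_cases h9 : e j ω ∈ M
      · obtain ⟨y, h1, h2⟩ := id h8
        rw [ind_pos (p := fun ω => e j ω ∈ M) h9, ind_pos (p := fun ω => e j ω = 1)
          (hF y h2 _ h9 (h.abB ω hω _ h1 _ (h.memB j ω hω)))]
        simpa using ind_le _ _
      · rw [ind_neg (p := fun ω => e j ω ∈ M) h9]
        linarith [ind_le (fun ω => ∃ y ∈ Bl ω, y ∉ M) ω]
    · have := ind_le (fun ω => e j ω ∈ M) ω
      rw [ind_neg (p := fun ω => ∃ y ∈ Bl ω, y ∉ M) h8]; linarith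
  rw [map_sub, map_sub, map_smul, h.pr.one, smul_eq_mul] at h1
  rw [map_add, map_sub, h.pr.one] at h4
  refine le_trans ?_ h1
  rw [← h2] at h4 ⊢
  set n : ℝ := (Nat.card M : ℝ)
  set x := E (ind fun ω => ∃ y ∈ Bl ω, y ∉ M)
  set p := E (ind fun ω => e j ω = 1)
  rw [div_le_iff₀ (by positivity)]
  have e1 : (1 - n * p - 1 / n * x) * (2 * n ^ 2) = 2 * n * (n - n ^ 2 * p - x) := by field_simp
  rw [e1]
  have h5 : (n - 1) * p ≤ 1 - x := by linarith
  have h6 : 1 / 2 ≤ (n - 1) * (n - n ^ 2 * p - x) := by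
    have : n ^ 2 * ((n - 1) * p) ≤ n ^ 2 * (1 - x) := by gcongr
    have h7 : (n ^ 2 - n + 1) * (1 / 2) ≤ (n ^ 2 - n + 1) * x := by gcongr; nlinarith
    nlinarith
  have h8 : 0 < n - n ^ 2 * p - x := by
    by_contra h9
    nlinarith
  nlinarith

end grp

section lab
variable {B : Type*} [Ring B] [StarRing B] {U : Subgroup (unitary B)} {Q : Type} [Group Q]

/-- the label -/
def At (c : U →* Q) (a : B) : Sg Q := (bic U a).map c

theorem bic_conj (u : U) {a : B} {y : U} (hy : y ∈ bic U a) :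
    u * y * u⁻¹ ∈ bic U (((u : unitary B) : B) * a * star ((u : unitary B) : B)) := fun z hz => by
  have e1 := (u : unitary B).2.1
  have e2 := (u : unitary B).2.2
  change z * (((u : unitary B) : B) * ((y : unitary B) : B) * star ((u : unitary B) : B)) =
    ((u : unitary B) : B) * ((y : unitary B) : B) * star ((u : unitary B) : B) * z
  generalize ((u : unitary B) : B) = t at *
  have h1 := hy (star t * z * t) (by
    calc _ = star t * (z * (t * a * star t)) * t := by simp only [mul_assoc, e1, mul_one]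
      _ = _ := by rw [hz]; simp only [← mul_assoc, e1, one_mul])
  calc _ = t * (star t * z * t * ((y : unitary B) : B)) * star t := by
        simp only [← mul_assoc, e2, one_mul]
    _ = _ := by rw [h1]; simp only [mul_assoc, e2, mul_one]

theorem At_cj (c : U →* Q) (u : U) (a : B) :
    At c (((u : unitary B) : B) * a * star ((u : unitary B) : B)) = c u • At c a := by
  refine SetLike.ext fun q => Iff.trans ⟨?_, ?_⟩ mem_smul.symm
  · rintro ⟨y, hy, rfl⟩
    have := bic_conj u⁻¹ hy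
    have e : (((u⁻¹ : U) : unitary B) : B) = star ((u : unitary B) : B) := rfl
    simp only [e, star_star, ← mul_assoc, (u : unitary B).2.1, one_mul] at this
    rw [mul_assoc a, (u : unitary B).2.1, mul_one] at this
    exact ⟨_, this, by simp⟩
  · rintro ⟨y, hy, h⟩
    exact ⟨_, bic_conj u hy, by simp [h, mul_assoc]⟩

theorem At_tr {k : Type*} [Field k] [Algebra k B] (c : U →* Q) (a : B) (r : k) :
    At c (a + r • 1) = At c a := by
  have : bic U (a + r • 1) = bic U a := Subgroup.ext fun y => forall_congr' fun z => by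
    simp [mul_add, add_mul]
  rw [At, this, At]

theorem ab_At (c : U →* Q) (a : B) : Ab (At c a) := by
  rintro _ ⟨x, hx, rfl⟩ _ ⟨y, hy, rfl⟩
  rw [← map_mul, ← map_mul]
  exact congrArg c (Subtype.ext (Subtype.ext (hy _ (hx a rfl).symm)))

theorem mem_At (c : U →* Q) {θ a : B} (hθ : ∀ z, z * θ = θ * z) {u : U}
    (hu : ((u : unitary B) : B) = cy θ a) : c u ∈ At c a := ⟨u, fun z hz => by
  have h1 : Commute z (a + θ) := Commute.add_right hz (hθ z)
  have h2 : Commute z (a - θ) := Commute.sub_right hz (hθ z)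
  rw [hu]
  refine h1.mul_right ?_
  by_cases h : IsUnit (a - θ)
  · obtain ⟨v, hv⟩ := h
    rw [← hv] at h2 ⊢
    rw [Ring.inverse_unit]
    exact h2.units_inv_right
  · rw [Ring.inverse_non_unit _ h]; exact Commute.zero_right z, rfl⟩

end lab

variable {k K B : Type*} [Field k] [NumberField k] [Field K] [NumberField K] [Algebra k K]
  [StarRing K] [Quad k K] [Ring B] [StarRing B] [Algebra K B] [StarModule K B]
  [Algebra.IsCentral K B] [IsSimpleRing B] [FiniteDimensional K B] [Algebra k B]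
  [IsScalarTower k K B]

local notation "ι" => algebraMap K B

variable (K) in
/-- `g ∘ h⁻¹` -/
def dv (g h : Aff k B) : Aff k B where
  κ := g.κ * h.κ⁻¹
  p := h.p⁻¹ * g.p
  b := g.b - ((g.κ * h.κ⁻¹ : kˣ) : k) • (star ((h.p⁻¹ * g.p : Bˣ) : B) * h.b * (h.p⁻¹ * g.p : Bˣ))
  hb := by simp only [star_sub, star_ksmul k K B, star_mul, star_star, g.hb, h.hb, mul_assoc]

/-- `h⁻¹` -/
def un (h : Aff k B) (y : B) : B :=
  ((h.κ⁻¹ : kˣ) : k) • (star ((h.p⁻¹ : Bˣ) : B) * (y - h.b) * (h.p⁻¹ : Bˣ))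

theorem dv_ap (g h : Aff k B) (y : B) : (dv K g h).ap y = g.ap (un h y) := by
  simp only [Aff.ap, Aff.lin, dv, un, Units.val_mul, star_mul, mul_sub, sub_mul, smul_sub,
    mul_smul_comm, smul_mul_assoc, mul_assoc, smul_smul]
  abel

theorem dv_self (h : Aff k B) (y : B) : (dv K h h).ap y = y := by
  simp [Aff.ap, Aff.lin, dv]

include K in
theorem star_un (h : Aff k B) {y : B} (hy : star y = y) : star (un h y) = un h y := by
  simp only [un, star_sub, star_ksmul k K B, star_mul, star_star, hy, h.hb, mul_assoc]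

theorem dv_dif {g g' : Aff k B} (hg : g.Dif g') (h : Aff k B) : (dv K g h).Dif (dv K g' h) :=
  fun r hr => hg r (by
    have := congrArg (fun x => (h.p : B) * x * star (h.p : B)) hr
    simpa [dv, mul_assoc, ← star_mul] using this)

variable (K) in
/-- `g` belongs to the point `(th + a) (th + star a)⁻¹` -/
def Sp (θ : K) (th : B) (a : K) (g : Aff k B) : Prop := (g.p : B) = th + ι a ∧
  ∀ z, star z = z → IsUnit (1 + th * z + star a • z) ∧ ∀ x, x * (th + ι (star a)) = th + ι a →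
    x * cy (ι θ) (g.ap z) * (1 + th * z + star a • z) = 1 + th * z + a • z

variable (k) in
theorem exists_sp (ha : Aniso B) {θ : K} (h0 : θ ≠ 0) (hθ : star θ = -θ) {th : B}
    (hth : star th = th) {a : K} (hne : star a ≠ a) : ∃ g : Aff k B, Sp K θ th a g := by
  obtain ⟨s, hs⟩ := SplE.fixed' k (x := (a + star a) / 2) (by simp [add_comm])
  obtain ⟨t, ht⟩ := SplE.fixed' k (x := 2 * θ / (star a - a)) (by
    simp only [star_div₀, star_mul, star_sub, star_star, hθ, star_ofNat]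
    rw [← neg_sub (star a), div_neg]; ring)
  have h1 := sub_ne_zero.2 hne
  have ht0 : t ≠ 0 := fun h => by
    rw [h, map_zero, eq_comm, div_eq_zero_iff] at ht
    simp [h0, h1] at ht
  obtain ⟨p, hp⟩ := Cfg.unit_add ha hth hne
  have hp' : star (p : B) = th + ι (star a) := by rw [hp, star_add, hth, star_algebraMap]
  let g : Aff k B := ⟨Units.mk0 t ht0, p, t • (th + s • 1), by
    simp only [star_ksmul k K B, star_add, hth, star_one]⟩
  refine ⟨g, hp, fun z hz => ?_⟩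
  have e0 : g.ap z = algebraMap k K t • (star (p : B) * z * p + th + algebraMap k K s • 1) := by
    simp [g, Aff.ap, Aff.lin, add_assoc]
  have f1 : algebraMap k K t * (a - algebraMap k K s) = -θ := by rw [ht, hs]; field_simp; ring
  have f2 : algebraMap k K t * (star a - algebraMap k K s) = θ := by rw [ht, hs]; field_simp; ring
  have e1 : g.ap z - ι θ = algebraMap k K t • ((1 + th * z + star a • z) * p) := by
    rw [e0, hp', hp, ← neg_eq_iff_eq_neg.2 f1]
    generalize algebraMap k K t = T, algebraMap k K s = S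
    cfg24_sc
  have e2 : g.ap z + ι θ = algebraMap k K t • (star (p : B) * (1 + z * p)) := by
    rw [e0, hp', hp, ← f2]
    generalize algebraMap k K t = T, algebraMap k K s = S
    cfg24_sc
  have hu : IsUnit (g.ap z - ι θ) := by
    rw [sub_eq_add_neg, ← map_neg]
    refine Cfg.unit_add ha ?_ (Cfg.skew_ne (by simp [hθ]) (neg_ne_zero.2 h0))
    simp only [Aff.ap, Aff.lin, star_add, star_ksmul k K B, star_mul, star_star, g.hb, hz, mul_assoc]
  have ht1 : algebraMap k K t ≠ 0 := by simpa using ht0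
  refine ⟨?_, fun x hx => p.isUnit.mul_right_cancel (smul_right_injective B ht1 ?_)⟩
  · rw [e1, Algebra.smul_def] at hu
    exact (Units.isUnit_mul_units _ p).1
      (((isUnit_iff_ne_zero.2 ht1).map ι).unit.isUnit_units_mul _ |>.1 hu)
  · dsimp only
    rw [mul_assoc, ← mul_smul_comm, ← e1, cy, mul_assoc, mul_assoc, Ring.inverse_mul_cancel _ hu,
      mul_one, e2, mul_smul_comm, ← mul_assoc, hp', hx, hp]
    cfg24_sc

theorem comm_res {u z y y' : B} {a b a' b' : K} (h : IsUnit (u + b • z)) (h' : IsUnit (u + b' • z))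
    (e : y * (u + b • z) = u + a • z) (e' : y' * (u + b' • z) = u + a' • z) : y * y' = y' * y := by
  obtain ⟨D, hD⟩ := h
  have h1 : ∀ c : K, (u + c • z) * (D⁻¹ : Bˣ) = 1 + (c - b) • (z * (D⁻¹ : Bˣ)) := fun c => by
    rw [← D.mul_inv, hD]; cfg24_sc
  have h2 : ∀ c : K, Commute (z * (D⁻¹ : Bˣ)) ((u + c • z) * (D⁻¹ : Bˣ)) := fun c => by
    rw [h1]; exact (Commute.one_right _).add_right ((Commute.refl _).smul_right _)
  have h3 : y = 1 + (a - b) • (z * (D⁻¹ : Bˣ)) := by rw [← h1, ← e, ← hD, mul_assoc, D.mul_inv, mul_one]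
  have h4 : Commute (z * (D⁻¹ : Bˣ)) y' := (h'.mul (D⁻¹).isUnit).mul_right_cancel (by
    rw [mul_assoc, mul_assoc y', (h2 b').eq, ← mul_assoc y', ← mul_assoc y', ← mul_assoc y', e', (h2 a').eq])
  rw [h3]
  exact (Commute.one_left _).add_left (h4.smul_left _)

variable {U : Subgroup (unitary B)} {Q : Type} [Group Q] [Finite Q] {c : U →* Q} {M : Subgroup Q}
  {θ : K} {I : Type} [Finite I] {g : I → Aff k B} {P : (B → ℝ) →ₗ[ℝ] ℝ}

variable (c θ g) in
/-- the labels -/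
def lb (y : B) : (I → Q) × (I → Sg Q) := (fun i => col c (cy (ι θ) ((g i).ap y)), fun i => At c ((g i).ap y))

variable (U θ g) in
/-- the good points -/
def Gd (y : B) : Prop := star y = y ∧ ∀ j, ∃ u : U, ((u : unitary B) : B) = cy (ι θ) ((g j).ap y)

theorem sy_of (hI : Indep (ι θ) c M (At c) g P) {th : B} {J : Type*} {a : J → K} {x : J → U}
    {af : J → Aff k B} (h1 : ∀ j, Sp K θ th (a j) (af j))
    (h2 : ∀ j, ((x j : unitary B) : B) * (th + ι (star (a j))) = th + ι (a j)) (h : Aff k B)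
    (id : J → I) (h3 : ∀ j, g (id j) = dv K (af j) h) {r : ℕ} (s : Fin r → J)
    (h4 : ∀ j, c (x (s j)) = 1) (h5 : ∀ i j, i ≠ j → (af (s i)).Dif (af (s j))) :
    Sy M (P ∘ₗ LinearMap.funLeft ℝ ℝ (lb c θ g)) (lb c θ g '' {y | Gd U θ g y})
      (fun j ω => ω.1 (id (s j))) (fun j ω => ω.2 (id (s j)))
      fun ω => Subgroup.closure (Set.range fun j => c (x j) * ω.1 (id j)) where
  pr := pr_push P _ hI.pos hI.one hI.good _
  abA := by rintro j _ ⟨y, -, rfl⟩; exact ab_At _ _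
  abB := by
    rintro _ ⟨y, ⟨hy, hu⟩, rfl⟩ q hq q' hq'
    choose u hu using hu
    refine Subtype.ext_iff.1 ((Subgroup.isMulCommutative_closure ?_).1.1 ⟨q, hq⟩ ⟨q', hq'⟩)
    rintro _ ⟨i, rfl⟩ _ ⟨j, rfl⟩
    simp only [lb, ← hu, col_coe, ← map_mul]
    refine congrArg c (Subtype.ext (Subtype.ext ?_))
    obtain ⟨f1, f2⟩ := (h1 i).2 _ (star_un (K := K) h hy)
    obtain ⟨f3, f4⟩ := (h1 j).2 _ (star_un (K := K) h hy)
    refine comm_res f1 f3 (a := a i) (a' := a j) ?_ ?_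
    · rw [← f2 _ (h2 i), ← dv_ap (K := K), ← h3, ← hu]; rfl
    · rw [← f4 _ (h2 j), ← dv_ap (K := K), ← h3, ← hu]; rfl
  memA := by
    rintro j _ ⟨y, ⟨-, hu⟩, rfl⟩
    obtain ⟨u, hu⟩ := hu (id (s j))
    simp only [lb]
    rw [← hu, col_coe]
    exact mem_At c (fun z => (Algebra.commutes θ z).symm) hu
  memB := fun j ω _ => Subgroup.subset_closure ⟨s j, by simp [h4]⟩
  unif := fun j f hf => hI.unif _ 1 f hf
  orth := fun i j hij φ χ hφ => hI.orth _ _ (by rw [h3, h3]; exact dv_dif (h5 i j hij) h) φ χ hφ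

theorem dif_of {m r : ℕ} {c : Um K B m →* Q} (C : Cfg c r) {i j : Fin r} (hij : i ≠ j) {f f' : Aff k B}
    (h : Sp K θ C.th (C.a i) f) (h' : Sp K θ C.th (C.a j) f') : f.Dif f' := fun t ht =>
  C.line i j hij (algebraMap k K t) (by
    rw [h.1, h'.1, star_add, star_add, C.herm, star_algebraMap, star_algebraMap,
      ← algebraMap_smul K] at ht
    calc _ = (C.th + ι (C.a i)) * (C.th + ι (star (C.a i))) := by cfg24_sc
      _ = _ := by rw [ht]; cfg24_sc)

theorem comm_mem {m : ℕ} {c : Um K B m →* Q} (hc : Col m c M) (a b : Q) : a * b * a⁻¹ * b⁻¹ ∈ M := by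
  obtain ⟨a, rfl⟩ := hc.surj a
  obtain ⟨b, rfl⟩ := hc.surj b
  rw [← hc.im m le_rfl]
  exact ⟨a * b * a⁻¹ * b⁻¹, Subgroup.mem_subgroupOf.2 (Subgroup.mem_inf.2
    ⟨comm_mem_SU K (a : unitary B) (b : unitary B), (a * b * a⁻¹ * b⁻¹).2⟩), by simp⟩

theorem exists_r (n : ℕ) {δ : ℝ} (hδ : 0 < δ) : ∃ r : ℕ, ¬ ((r + 1 : ℕ) : ℝ) * δ ^ 2 ≤ n := by
  obtain ⟨r, hr⟩ := exists_nat_gt (n / δ ^ 2)
  rw [div_lt_iff₀ (by positivity)] at hr
  exact ⟨r, by push_cast; nlinarith [sq_pos_of_pos hδ]⟩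

end F33

open F33

theorem naStmt (h : IndepStmt.{u, v, w}) : NAStmt.{u, v, w} := by
  intro D hd ha m Q _ _ c M hc hF hC
  have hne := Quad.ne (k := D.k) (K := D.K)
  obtain ⟨θ, h0, hθ⟩ := exists_skew hne
  have : M.Normal := hc.im m le_rfl ▸ Subgroup.Normal.map inferInstance c hc.surj
  obtain ⟨r, hr⟩ := exists_r (Nat.card (Sg Q)) (δ := 1 / (Nat.card M : ℝ)) (one_div_pos.2 card_pos)
  obtain ⟨C⟩ := Cfg.cfgNA hne ha (by omega) c (r + 1)
  choose af h1 using fun j => exists_sp D.k ha h0 hθ C.herm (C.ne j)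
  obtain ⟨P, hP⟩ := h D hd ha m Q c M hc θ h0 hθ (Sg Q) (At c) (At_cj c) (At_tr c) _
    fun j => dv D.K (af j) (af 0)
  exact hr ((sy_of hP h1 C.eq (af 0) id (fun _ => rfl) id C.ker
    fun i j hij => dif_of C hij (h1 i) (h1 j)).na (comm_mem hc) hF hC hc.ne)

theorem twStmt (h : IndepStmt.{u, v, w}) : TWStmt.{u, v, w} := by
  intro D hd ha m Q _ _ c M hc hab hM hF
  have hne := Quad.ne (k := D.k) (K := D.K)
  obtain ⟨θ, h0, hθ⟩ := exists_skew hne
  have hN : M.Normal := hc.im m le_rfl ▸ Subgroup.Normal.map inferInstance c hc.surj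
  have h3 : 3 ≤ Nat.card M := by
    by_contra h4
    obtain ⟨q, hq⟩ : ∃ q, q ∉ M := by simpa [Subgroup.eq_top_iff'] using hM
    obtain ⟨⟨f, hf⟩, hf1⟩ := Subgroup.ne_bot_iff_exists_ne_one.1 hc.ne
    have := Fintype.ofFinite M
    refine h4 ?_
    rw [Nat.card_eq_fintype_card]
    refine Fintype.two_lt_card_iff.2 ⟨1, ⟨f, hf⟩, ⟨_, hN.conj_mem f hf q⟩, hf1.symm, fun h => hf1 ?_,
      fun h => hf1 (Subtype.ext (hF q hq f hf ?_))⟩
    · exact Subtype.ext (conj_eq_one_iff.1 (Subtype.ext_iff.1 h).symm)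
    · exact (eq_mul_inv_iff_mul_eq.1 (Subtype.ext_iff.1 h)).symm
  obtain ⟨r, hr⟩ := exists_r (Nat.card (Sg Q)) (δ := 1 / (2 * (Nat.card M : ℝ) ^ 2))
    (by have := card_pos (M := M); positivity)
  obtain ⟨C, a', x', n1, n2, n3⟩ := Cfg.cfgTW hne ha (by omega) hc hM hF (r + 1)
  let a : Option (Fin (r + 1)) → D.K := fun j => j.elim a' C.a
  let x : Option (Fin (r + 1)) → Um D.K D.B m := fun j => j.elim x' C.x
  choose af h1 using fun j => exists_sp D.k ha h0 hθ C.herm (a := a j) (by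
    cases j; exacts [n1, C.ne _])
  have h2 : ∀ j, ((x j : unitary D.B) : D.B) * (C.th + algebraMap _ _ (star (a j))) =
      C.th + algebraMap _ _ (a j) := fun j => by cases j; exacts [n2, C.eq _]
  let g : Option (Fin (r + 1)) × Option (Fin (r + 1)) → Aff D.k D.B := fun p => dv D.K (af p.2) (af p.1)
  obtain ⟨P, hP⟩ := h D hd ha m Q c M hc θ h0 hθ (Sg Q) (At c) (At_cj c) (At_tr c) _ g
  have S := fun b => sy_of hP h1 h2 (af b) (Prod.mk b) (fun _ => rfl) some C.ker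
    fun i j hij => dif_of C hij (h1 (some i)) (h1 (some j))
  have h4 := fun b => not_le.1 fun h => hr ((S b).tw h3 hF h)
  have h5 := add_lt_add (h4 none) (h4 (some 0))
  rw [← map_add, add_halves, ← (S none).pr.one] at h5
  refine h5.not_ge ((S none).pr.mono ?_)
  rintro _ ⟨y, -, rfl⟩
  rw [Pi.add_apply]
  by_cases h6 : col c (cy (algebraMap D.K D.B θ) y) ∈ M
  · refine le_add_of_le_of_nonneg (ind_pos ⟨_, Subgroup.subset_closure ⟨none, rfl⟩, fun h7 => n3 ?_⟩).ge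
      (ind_nonneg _ _)
    simp only [lb, g, dv_self] at h7
    exact (M.mul_mem_cancel_right h6).1 h7
  · refine le_add_of_nonneg_of_le (ind_nonneg _ _)
      (ind_pos ⟨_, Subgroup.subset_closure ⟨some 0, rfl⟩, fun h7 => h6 ?_⟩).ge
    simpa [lb, g, dv_self, x, C.ker] using h7

end Crest.Agent.T24.Na
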