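import Crest.Agent.T24.LocC_59
import Crest.Agent.T24.WgWang_25
import Crest.Agent.T24.Opn_6

/-! Row 24 (helper23): units are norms from the unramified extension; the reduced norm of a
central simple algebra over a local field is onto. -/

set_option autoImplicit false

noncomputable section

namespace Crest.Agent.T24.Hsm

open Finset Module Filter Topology
open Crest.Agent.T24.Csa Crest.Agent.T24.Loc

theorem herbrand {G : Type*} [CommGroup G] [Finite G] {φ ψ : G →* G} (h1 : ψ.range ≤ φ.ker)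
    (h2 : ψ.ker ≤ φ.range) : φ.ker ≤ ψ.range := by
  have a := φ.ker.card_mul_index
  have b := ψ.ker.card_mul_index
  rw [Subgroup.index_ker] at a b
  have c := Subgroup.card_le_of_le h2
  refine (Subgroup.eq_of_le_of_card_ge h1 ?_).ge
  refine Nat.le_of_mul_le_mul_right ?_ (Nat.card_pos (α := φ.range))
  rw [a, ← b, mul_comm]
  exact Nat.mul_le_mul_left _ c

theorem norm_prod_one_add {E : Type*} [NormedField E] [IsUltrametricDist E] {ι : Type*}
    (s : Finset ι) (x : ι → E) {δ : ℝ} (h0 : 0 ≤ δ) (h1 : δ ≤ 1) (hx : ∀ i, ‖x i‖ ≤ δ) :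
    ‖∏ i ∈ s, (1 + x i) - (1 + ∑ i ∈ s, x i)‖ ≤ δ * δ := by
  classical
  induction s using Finset.induction_on with
  | empty => simpa using mul_nonneg h0 h0
  | insert a s ha ih =>
    rw [prod_insert ha, sum_insert ha, show (1 + x a) * ∏ i ∈ s, (1 + x i) - (1 + (x a + ∑ i ∈ s, x i))
      = (1 + x a) * (∏ i ∈ s, (1 + x i) - (1 + ∑ i ∈ s, x i)) + x a * ∑ i ∈ s, x i by ring]
    refine norm_add_le_of ?_ ?_ <;> rw [norm_mul]
    · exact (mul_le_of_le_one_left (norm_nonneg _)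
        (norm_add_le_of norm_one.le ((hx a).trans h1))).trans ih
    · exact mul_le_mul (hx a) (IsUltrametricDist.norm_sum_le_of_forall_le_of_nonneg h0
        fun i _ => hx i) (norm_nonneg _) h0

section Cyc

variable {F : Type*} [NontriviallyNormedField F] {D : Type*} [NormedDivisionRing D]
  [NormedAlgebra F D] {π ζ : D} {M r : ℕ} [FiniteDimensional F D] (h : Cyc F π ζ M r)
  [IsUltrametricDist D] [Algebra.IsCentral F D]
include h

omit [IsUltrametricDist D] in
theorem norm_norm (w : WW F ζ) : ‖Algebra.norm F w‖ = ‖w‖ ^ h.n := by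
  rw [← norm_algebraMap' (WW F ζ), h.norm_eq, norm_prod]
  simp only [h.norm_sig_pow, prod_const, card_range]

/-- residue level -/
theorem norm_res {u : F} (hu : ‖u‖ = 1) : ∃ w : WW F ζ, ‖w‖ = 1 ∧ ‖u - Algebra.norm F w‖ < 1 := by
  have hW := h.resW
  have := h.galois
  have : NeZero M := ⟨h.pos.ne'⟩
  have T : ∀ x y : WW F ζ, x ^ M = 1 → y ^ M = 1 → ‖x - y‖ < 1 → x = y := fun x y hx hy hxy =>
    eq_of_pow_eq hW.norm_M (Commute.all _ _) (norm_eq_one_of_pow h.pos.ne' hy) hxy (hx.trans hy.symm)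
  let s : ℕ → rootsOfUnity M (WW F ζ) →* rootsOfUnity M (WW F ζ) :=
    fun j => restrictRootsOfUnity (h.sig ^ j) M
  let c : rootsOfUnity M (WW F ζ) →* WW F ζ := (Units.coeHom _).comp (Subgroup.subtype _)
  have hc : Function.Injective c := fun x y e => Subtype.ext (Units.ext e)
  have hp : ∀ x, c x ^ M = 1 := fun x => (mem_rootsOfUnity' _ _).1 x.2
  have h0 : ∀ x, c x ≠ 0 := fun x => Units.ne_zero _
  have hψ : ∀ x, c ((∏ j ∈ range h.n, s j) x) = algebraMap F _ (Algebra.norm F (c x)) := fun x => by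
    rw [h.norm_eq, MonoidHom.finsetProd_apply, map_prod]; rfl
  let φ : rootsOfUnity M (WW F ζ) →* rootsOfUnity M (WW F ζ) := s 1 / MonoidHom.id _
  have hφ : ∀ x, c (φ x) = h.sig (c x) / c x := fun x => by
    rw [MonoidHom.div_apply, eq_div_iff (h0 x), ← map_mul, MonoidHom.id_apply, div_mul_cancel]; rfl
  have near : ∀ e : WW F ζ, ‖e‖ = 1 → ∃ y, ‖e - c y‖ < 1 := fun e he => by
    obtain ⟨i, hi⟩ := hW.gen e he
    exact ⟨rootsOfUnity.mkOfPowEq _ (hW.zp_pow i), hi⟩
  have key := herbrand (φ := φ) (ψ := ∏ j ∈ range h.n, s j) ?_ ?_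
  · obtain ⟨y, hy⟩ := near (algebraMap F _ u) (by rwa [norm_algebraMap'])
    have h1 : h.sig (c y) = c y := T _ _ (by rw [← map_pow, hp, map_one]) (hp y)
      (tri_lt (by rwa [← h.sig.commutes u, ← map_sub, h.norm_sig, norm_sub_rev]) hy)
    obtain ⟨x, hx⟩ := key (x := y) (hc (by rw [hφ, h1, div_self (h0 y), map_one]))
    refine ⟨c x, norm_eq_one_of_pow h.pos.ne' (hp x), ?_⟩
    rwa [← hx, hψ, ← map_sub, norm_algebraMap'] at hy
  · rintro _ ⟨x, rfl⟩
    exact hc (by rw [hφ, hψ, AlgEquiv.commutes, ← hψ, div_self (h0 _), map_one])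
  · intro x hx
    have h1 : Algebra.norm F (c x) = 1 := (algebraMap F (WW F ζ)).injective (by
      rw [← hψ, MonoidHom.mem_ker.1 hx, map_one, map_one])
    obtain ⟨e, he0, he, -⟩ := Wg.h90_pos (σ := h.sig) (fun g => h.zpowers_eq ▸ Subgroup.mem_top g) h1
      (fun _ => False) fun _ => False.elim
    obtain ⟨k, hk⟩ := hW.val he0
    obtain ⟨y, hy⟩ := near (e / algebraMap F _ (h.vp ^ k)) (by
      rw [norm_div, hk, map_zpow₀, norm_zpow, div_self (zpow_ne_zero _ hW.norm_pos.ne')])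
    have h3 : c x * h.sig (c y) = c y := T _ _ (by rw [mul_pow, hp, ← map_pow, hp, map_one, one_mul])
      (hp y) (tri_lt (by
        conv_lhs => rw [← he, mul_div_assoc, ← h.sig.commutes, ← map_div₀, ← mul_sub, ← map_sub]
        rwa [norm_mul, h.norm_sig, norm_eq_one_of_pow h.pos.ne' (hp x), one_mul, norm_sub_rev]) hy)
    refine ⟨y⁻¹, hc ?_⟩
    rw [map_inv, map_inv, hφ, inv_div, div_eq_iff (by simpa using h0 y), h3]

/-- an integral element of trace one -/
theorem exists_trace_one : ∃ t : WW F ζ, ‖t‖ ≤ 1 ∧ Algebra.trace F _ t = 1 := by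
  have hW := h.resW
  have hz : ∀ j : ℕ, ‖(h.sig ^ j) (zz F ζ)‖ = 1 := fun j => (h.norm_sig_pow j _).trans hW.norm_z
  obtain ⟨k, hk⟩ : ∃ k : ℕ, 1 ≤ ‖Algebra.trace F _ (zz F ζ ^ k)‖ := by
    by_contra hn
    push Not at hn
    have key : ∀ (s : Finset ℕ) (k : ℕ), ‖∑ j ∈ range h.n, (h.sig ^ j) (zz F ζ) ^ k *
        ∏ a ∈ s, ((h.sig ^ j) (zz F ζ) - (h.sig ^ a) (zz F ζ))‖ < 1 := by
      intro s
      induction s using Finset.induction_on with
      | empty => intro k; simpa only [prod_empty, mul_one, ← map_pow, ← h.trace_eq, norm_algebraMap'] using hn k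
      | insert a s ha ih =>
        intro k
        simp only [prod_insert ha, sub_mul, mul_sub, sum_sub_distrib, ← mul_assoc, ← pow_succ]
        refine norm_sub_lt_of (ih _) ?_
        simp only [mul_assoc, mul_left_comm _ ((h.sig ^ a) (zz F ζ)), ← mul_sum]
        rw [norm_mul, hz, one_mul]; exact ih k
    have h1 := key ((range h.n).erase 0) 0
    rw [sum_eq_single_of_mem 0 (mem_range.2 h.n_pos) fun j hj h0 => by
      rw [prod_eq_zero (mem_erase.2 ⟨h0, hj⟩) (sub_self _), mul_zero], pow_zero, one_mul, norm_prod,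
      prod_eq_one fun a ha => ?_] at h1
    · exact lt_irrefl _ h1
    · have h2 := mt (h.sig_zz_inj h.n_pos (mem_range.1 (mem_erase.1 ha).2)) (mem_erase.1 ha).1.symm
      rw [h.sig_pow_zz, h.sig_pow_zz] at h2 ⊢
      exact hW.norm_zp_sub h2
  have h0 : Algebra.trace F _ (zz F ζ ^ k) ≠ 0 := norm_pos_iff.1 (one_pos.trans_le hk)
  refine ⟨(Algebra.trace F _ (zz F ζ ^ k))⁻¹ • zz F ζ ^ k, ?_, by
    rw [map_smul, smul_eq_mul, inv_mul_cancel₀ h0]⟩
  rw [norm_smul, hW.norm_zp, mul_one, norm_inv]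
  exact inv_le_one_of_one_le₀ hk

variable [CompleteSpace F] [CharZero F]

/-- principal units are norms, at every level -/
theorem norm_one_add {u : F} (hu : ‖u - 1‖ < 1) :
    ∃ w : WW F ζ, ‖w - 1‖ ≤ ‖u - 1‖ ∧ Algebra.norm F w = u := by
  by_cases h1 : u = 1
  · exact ⟨1, by simp, by simp [h1]⟩
  obtain ⟨t, ht, ht1⟩ := exists_trace_one h
  set δ := ‖u - 1‖ with hδ
  have hp : 0 < δ := norm_pos_iff.2 (sub_ne_zero.2 h1)
  have hn : ∀ w : WW F ζ, ‖w - 1‖ ≤ δ → ‖w‖ = 1 := fun w hw =>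
    (norm_eq_of_lt (by simpa using hw.trans_lt hu)).trans norm_one
  have hm : ∀ w w' : WW F ζ, ‖w - 1‖ ≤ δ → ‖w' - 1‖ ≤ δ → ‖w * w' - 1‖ ≤ δ := fun w w' a b => by
    simpa using norm_mul_sub_mul (b := 1) (d := 1) norm_one.le (hn w' b).le a b
  have hN : ∀ w : WW F ζ, ‖w - 1‖ ≤ δ → ‖Algebra.norm F w‖ = 1 := fun w hw => by
    rw [norm_norm h, hn w hw, one_pow]
  have hN0 : ∀ w : WW F ζ, ‖w - 1‖ ≤ δ → Algebra.norm F w ≠ 0 := fun w hw =>
    norm_ne_zero_iff.1 (by rw [hN w hw]; exact one_ne_zero)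
  have key : ∀ k : ℕ, ∃ w : WW F ζ, ‖w - 1‖ ≤ δ ∧ ‖u / Algebra.norm F w - 1‖ ≤ δ ^ (k + 1) := by
    intro k
    induction k with
    | zero => exact ⟨1, by simpa using hp.le, by simp [hδ]⟩
    | succ k ih =>
      obtain ⟨w, a, b⟩ := ih
      set x := u / Algebra.norm F w - 1 with hx
      have h2 : δ ^ (k + 1) ≤ δ := pow_le_of_le_one hp.le hu.le k.succ_ne_zero
      have h3 : ‖x • t‖ ≤ δ ^ (k + 1) := by
        rw [norm_smul]; exact (mul_le_of_le_one_right (norm_nonneg _) ht).trans b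
      have h4 : ‖1 + x • t - 1‖ ≤ δ := by simpa using h3.trans h2
      refine ⟨_, hm _ _ a h4, ?_⟩
      have h5 := norm_prod_one_add (range h.n) (fun j => (h.sig ^ j) (x • t)) (pow_pos hp _).le
        (h2.trans hu.le) fun j => (h.norm_sig_pow j _).trans_le h3
      rw [← h.trace_eq, map_smul, ht1, smul_eq_mul, mul_one, ← map_one (algebraMap F (WW F ζ)),
        ← map_add] at h5
      simp only [map_one, ← fun j : ℕ => map_one (h.sig ^ j) ▸ map_add (h.sig ^ j) 1 (x • t)] at h5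
      rw [← h.norm_eq, ← map_sub, norm_algebraMap', hx, add_sub_cancel, ← hx, norm_sub_rev] at h5
      rw [map_mul, ← div_div, div_sub_one (hN0 _ h4), norm_div, hN _ h4, div_one, pow_succ]
      exact h5.trans (mul_le_mul_of_nonneg_left h2 (pow_pos hp _).le)
  obtain ⟨ε, hε, h2⟩ := Metric.eventually_nhds_iff.1 (Opn.root_one F (A := F)
    (Nat.cast_ne_zero.2 h.n_pos.ne') (Metric.closedBall_mem_nhds 1 hp))
  obtain ⟨k, hk⟩ := exists_pow_lt_of_lt_one hε hu
  obtain ⟨w, a, b⟩ := key k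
  obtain ⟨s, -, h3, h4⟩ := h2 (y := u / Algebra.norm F w) (by
    rw [dist_eq_norm]
    exact (b.trans (pow_le_pow_of_le_one hp.le hu.le k.le_succ)).trans_lt hk)
  refine ⟨w * algebraMap F _ s, hm _ _ a ?_, ?_⟩
  · rw [← map_one (algebraMap F (WW F ζ)), ← map_sub, norm_algebraMap']
    exact mem_closedBall_iff_norm.1 h3
  · rw [map_mul, Algebra.norm_algebraMap, h.rankW, h4, mul_div_cancel₀ _ (hN0 w a)]

/-- units are norms -/
theorem norm_unit {u : F} (hu : ‖u‖ = 1) : ∃ w : WW F ζ, ‖w‖ = 1 ∧ Algebra.norm F w = u := by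
  obtain ⟨w, h1, h2⟩ := norm_res h hu
  have h3 : ‖Algebra.norm F w‖ = 1 := by rw [norm_norm h, h1, one_pow]
  have h4 : Algebra.norm F w ≠ 0 := norm_ne_zero_iff.1 (by rw [h3]; exact one_ne_zero)
  have h5 : ‖u / Algebra.norm F w - 1‖ < 1 := by rwa [div_sub_one h4, norm_div, h3, div_one]
  obtain ⟨w', h6, h7⟩ := norm_one_add h h5
  refine ⟨w * w', ?_, by rw [map_mul, h7, mul_div_cancel₀ _ h4]⟩
  rw [norm_mul, h1, one_mul]
  exact (norm_eq_of_lt (by simpa using h6.trans_lt h5)).trans norm_one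

end Cyc

section Onto

variable (F : Type*) [NontriviallyNormedField F] [ProperSpace F] [IsUltrametricDist F] [CharZero F]

theorem Nrd_onto_div (D : Type*) [DivisionRing D] [Algebra F D] [FiniteDimensional F D]
    [Algebra.IsCentral F D] (c : F) : ∃ x : D, Nrd F x = c := by
  by_cases hc : c = 0
  · exact ⟨0, by simp [hc]⟩
  let := ndr F D
  let := nalg F D
  have := ultra F D
  obtain ⟨π, ζ, M, r, h⟩ := exists_cyc (F := F) (D := D)
  obtain ⟨k, hk⟩ := h.val_comm (x := algebraMap F D c) (Algebra.commutes c ζ) (by simpa using hc)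
  have h1 : ‖Nrd F π‖ = ‖h.vp‖ := by rw [← nm_pow_deg, h.norm_vp, h.deg_eq]; rfl
  have h2 : Nrd F π ≠ 0 := norm_ne_zero_iff.1 (h1 ▸ norm_ne_zero_iff.2 h.vp_ne)
  obtain ⟨w, -, hw⟩ := norm_unit h (u := c / Nrd F π ^ k) (by
    rw [norm_algebraMap'] at hk
    rw [norm_div, norm_zpow, h1, hk, div_self (zpow_ne_zero _ (norm_ne_zero_iff.2 h.vp_ne))])
  exact ⟨w * π ^ k, by rw [map_mul, h.Nrd_W, hw, map_zpow₀, div_mul_cancel₀ _ (zpow_ne_zero _ h2)]⟩

/-- principal units are reduced norms of principal units of the same level -/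
theorem Nrd_onto_near (D : Type*) [DivisionRing D] [Algebra F D] [FiniteDimensional F D]
    [Algebra.IsCentral F D] {c : F} (hc : ‖c - 1‖ < 1) :
    ∃ x : D, nm F (x - 1) ≤ ‖c - 1‖ ∧ Nrd F x = c := by
  let := ndr F D
  let := nalg F D
  have := ultra F D
  obtain ⟨π, ζ, M, r, h⟩ := exists_cyc (F := F) (D := D)
  obtain ⟨w, h1, h2⟩ := norm_one_add h hc
  exact ⟨w, h1, (h.Nrd_W w).trans h2⟩

/-- the reduced norm of a central simple algebra over a local field is onto -/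
theorem Nrd_onto (A : Type*) [Ring A] [Algebra F A] [Algebra.IsCentral F A] [IsSimpleRing A]
    [FiniteDimensional F A] (c : F) : ∃ x : A, Nrd F x = c := by
  by_cases hc : c = 0
  · exact ⟨0, by simp [hc]⟩
  obtain ⟨r, e, D, _, _, _, _, hr, -, -, -, ⟨q⟩⟩ := exists_wedderburn F A (finrank_eq_deg_sq F A)
  have := NeZero.of_pos hr
  obtain ⟨x, hx⟩ := Nrd_onto_div F D c
  have h0 : x ≠ 0 := by rintro rfl; exact hc (by simpa using hx.symm)
  exact ⟨_, (Wg.Nrd_emb q (Units.mk0 x h0)).trans hx⟩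

end Onto

end Crest.Agent.T24.Hsm
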