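import Crest.Agent.T24.HsmC_23
import Crest.Agent.T24.HsmL_23
import Crest.Agent.T24.LocG_59

/-! Row 24 (helper23): the theorem of Hasse–Schilling–Maass, unconditional. -/

set_option autoImplicit false

noncomputable section

namespace Crest.Agent.T24.Hsm

open scoped TensorProduct Topology Valued
open Module Polynomial NumberField IsDedekindDomain Filter WithZero
open Crest.Agent.T24.Csa Crest.Agent.T24.Asa

universe u v

variable {K : Type u} [Field K] [NumberField K] {B : Type v} [Ring B] [Algebra K B]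
  [Algebra.IsCentral K B] [IsSimpleRing B] [FiniteDimensional K B] {n : ℕ}

/-- the finite set of ramified finite places -/
theorem exists_ram (hn : finrank K B = n ^ 2) :
    ∃ S : Finset (Pl K), ∀ v, v ∉ S ↔ Spl B n (algebraMap K (v.adicCompletion K)) := by
  have h : {v : Pl K | ¬ Spl B n (algebraMap K (v.adicCompletion K))}.Finite :=
    (Loc.spl_ae hn).subset fun v hv h => hv (spl_iff.2 h)
  exact ⟨h.toFinset, fun v => by simp⟩

theorem Nrd_onto_adic (v : Pl K) (A : Type*) [Ring A] [Algebra (v.adicCompletion K) A]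
    [Algebra.IsCentral (v.adicCompletion K) A] [IsSimpleRing A]
    [FiniteDimensional (v.adicCompletion K) A] (c : v.adicCompletion K) :
    ∃ x : A, Nrd (v.adicCompletion K) x = c :=
  have := Loc.proper_adic K v
  Nrd_onto _ A c

/-- separable elements of given reduced norm, locally -/
theorem exists_local_Nrd (v : Pl K) {c : v.adicCompletion K} (hc : c ≠ 0) :
    ∃ x : v.adicCompletion K ⊗[K] B, (rch (v.adicCompletion K) x).Separable ∧
      Nrd (v.adicCompletion K) x = c := by
  obtain ⟨x, hx⟩ := Nrd_onto_adic v (v.adicCompletion K ⊗[K] B) c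
  obtain ⟨y, h1, h2⟩ := exists_separable_Nrd (v.adicCompletion K) (x := x) (hx ▸ hc)
  exact ⟨y, h2, h1.trans hx⟩

/-- **Hasse–Schilling–Maass** -/
theorem hsm (hn : finrank K B = n ^ 2) {c : K} (hc : c ≠ 0)
    (hr : ∀ ρ : K →+* ℝ, Spl B n ρ ∨ 0 < ρ c) : ∃ z : B, Nrd K z = c ∧ (rch K z).Separable := by
  obtain ⟨S, hS⟩ := exists_ram hn
  exact hsm_of hn S (fun v hv => (hS v).1 hv) hc (fun v _ => Nrd_onto_adic v _ _) hr

/-- **Hasse–Schilling–Maass** with prescribed classes at any finite set of finite places -/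
theorem hsm_near' (hn : finrank K B = n ^ 2) (S : Finset (Pl K)) {c : K} (hc : c ≠ 0)
    (y : ∀ v : Pl K, v.adicCompletion K ⊗[K] B)
    (hy : ∀ v ∈ S, (rch (v.adicCompletion K) (y v)).Separable ∧
      Nrd (v.adicCompletion K) (y v) = algebraMap K _ c)
    (hr : ∀ ρ : K →+* ℝ, Spl B n ρ ∨ 0 < ρ c) {ε : ℝ} (hε : 0 < ε) :
    ∃ z : B, Nrd K z = c ∧ (rch K z).Separable ∧ ∀ v ∈ S, ∀ i < n,
      ‖algebraMap K _ ((rch K z).coeff i) - (rch (v.adicCompletion K) (y v)).coeff i‖ < ε := by
  classical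
  obtain ⟨R, hR⟩ := exists_ram hn
  choose x hx using fun v : Pl K => exists_local_Nrd (B := B) v
    (c := algebraMap K _ c) (by simpa using hc)
  obtain ⟨z, h1, h2, h3⟩ := hsm_near hn (S ∪ R)
    (fun v hv => (hR v).1 fun h => hv (Finset.mem_union_right _ h)) hc
    (fun v => if v ∈ S then y v else x v) (fun v _ => by
      split_ifs with h
      exacts [hy v h, hx v]) hr hε
  exact ⟨z, h1, h2, fun v hv => by simpa only [if_pos hv] using h3 v (Finset.mem_union_left _ hv)⟩

theorem hsmStmt : Wg.HsmStmt.{u} := fun F D _ _ _ _ _ _ _ ha h =>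
  (hsm (finrank_eq_deg_sq F D) ha h).imp fun _ h => h.1

end Crest.Agent.T24.Hsm
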