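import Crest.Agent.T24.WallB_86
import Crest.Agent.T24.Def_26

/-! Wall's theory, part C: the isotropic case of the row from `SUK₁ = 1`. -/

set_option autoImplicit false

namespace Crest.Agent.T24.Wall

universe u v w

/-- the reduced unitary Whitehead group of a division algebra over a number field is trivial -/
def SukStmt : Prop := ∀ (K : Type v) [Field K] [NumberField K] [StarRing K] (D : Type w)
  [DivisionRing D] [StarRing D] [Algebra K D] [StarModule K D] [Algebra.IsCentral K D]
  [FiniteDimensional K D], (∃ c : K, star c ≠ c) → ∀ a : Dˣ,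
    star (Csa.Nrd K (a : D)) = Csa.Nrd K (a : D) → a ∈ Subgroup.closure {x : Dˣ | star (x : D) = x}

theorem su_eq (K : Type*) [Field K] [NumberField K] (B : Type*) [Ring B] [StarRing B] [Algebra K B]
    [Algebra.IsCentral K B] [IsSimpleRing B] [FiniteDimensional K B] : su K B = SU K B :=
  Subgroup.ext fun _ => Iff.rfl

theorem isoStmt (h : SukStmt.{v, w}) : IsoStmt.{u, v, w} := fun A _ ha N hN => by
  obtain ⟨r, _, D, _, _, _, _, ⟨ψ⟩⟩ := exists_setup A.K A.B
  obtain ⟨c, hc⟩ := Quad.ne (k := A.k) (K := A.K)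
  obtain ⟨x, hx, g, -, hg⟩ := hN.nc
  obtain ⟨b, hb⟩ := not_forall.1 ha
  exact su_le_of_normal ψ ⟨c - star c, sub_ne_zero.2 hc.symm, by simp⟩
    ⟨h A.K D ⟨c, hc⟩⟩ ⟨b, (Classical.not_imp.1 hb).2, (Classical.not_imp.1 hb).1⟩
    hN.nrm hx fun e => hg (Subtype.ext e)

end Crest.Agent.T24.Wall
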