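import Crest.Agent.T24.WgWang_25
import Crest.Agent.T24.WallC_86
import Crest.Agent.T24.HsmD_23
import Crest.Agent.T24.LocJ_53

/-!
# Row 24 (helper25): the reduced unitary Whitehead group of a number field is trivial
-/

set_option autoImplicit false

noncomputable section

namespace Crest.Agent.T24.Wg

open scoped TensorProduct
open Module Polynomial Csa Asa NumberField WithZero

universe u v w

section alg

/-- the group generated by the hermitian units -/
abbrev Sig (B : Type*) [Monoid B] [StarMul B] : Subgroup Bˣ :=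
  Subgroup.closure {x : Bˣ | star (x : B) = x}

theorem mem_Sig {B : Type*} [Monoid B] [StarMul B] {x : Bˣ} (h : star (x : B) = x) : x ∈ Sig B :=
  Subgroup.subset_closure h

instance Sig_normal (B : Type*) [Monoid B] [StarMul B] : (Sig B).Normal := by
  refine ⟨fun s hs g => ?_⟩
  induction hs using Subgroup.closure_induction with
  | mem s hs =>
    have e : g * s * g⁻¹ = g * s * star g * (g * star g)⁻¹ := by group
    rw [e]
    exact mul_mem (mem_Sig (by simp [show star (s : B) = s from hs, mul_assoc]))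
      (inv_mem (mem_Sig (by simp)))
  | one => simp
  | mul s t _ _ hs ht => simpa [mul_assoc] using mul_mem hs ht
  | inv s _ hs => simpa [mul_assoc] using inv_mem hs

variable (k : Type*) {K D : Type*} [Field k] [Field K] [StarRing K] [Algebra k K] [DivisionRing D]
  [StarRing D] [Algebra K D] [StarModule K D] [Algebra k D] [IsScalarTower k K D]
  [FiniteDimensional k D]

/-- `Dˣ / Σ` is commutative -/
theorem commutator_le_Sig (hk : ∀ a : k, star (algebraMap k K a) = algebraMap k K a)
    (hne : ∃ c : K, star c ≠ c) : commutator Dˣ ≤ Sig D := by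
  obtain ⟨θ, θ0, θ1⟩ := exists_skew hne
  let π := QuotientGroup.mk' (Sig D)
  have hπ : ∀ {x : D} (x0 : x ≠ 0), star x = x → π (Units.mk0 x x0) = 1 := fun x0 h =>
    (QuotientGroup.eq_one_iff _).2 (mem_Sig h)
  have key : ∀ p q : Dˣ, π p * π q = π q * π p := fun p q => by
    have hm : ∀ x : D, θ • (x - star x) ∈ herm (B := D) (K := K) k hk := fun x => by
      rw [mem_herm, star_smul, θ1, star_sub, star_star, neg_smul, ← smul_neg, neg_sub]
    have hz : ∀ {x y : D}, θ • (x - star x) = θ • (y - star y) → star (y - x) = y - x := fun h => by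
      have := smul_right_injective D θ0 h
      rw [sub_eq_sub_iff_sub_eq_sub] at this
      rw [star_sub, ← neg_inj, neg_sub, neg_sub, this]
    let f : herm (B := D) (K := K) k hk →ₗ[k] herm (B := D) (K := K) k hk :=
      { toFun := fun t => ⟨θ • (p * t - star ((p : D) * t)), hm _⟩
        map_add' := fun s t => Subtype.ext (by simp only [Submodule.coe_add, mul_add, star_add, ← smul_add]; congr 1; abel)
        map_smul' := fun a t => Subtype.ext (by
          simp only [Submodule.coe_smul, RingHom.id_apply]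
          rw [← algebraMap_smul K a, ← algebraMap_smul K a, mul_smul_comm, star_smul, hk, ← smul_sub,
            smul_comm]) }
    by_cases hf : Function.Injective f
    · obtain ⟨⟨t, ht⟩, e⟩ := LinearMap.injective_iff_surjective.1 hf ⟨_, hm q⟩
      have hs := hz (x := p * t) (congrArg Subtype.val e)
      by_cases t0 : t = 0
      · rw [t0, mul_zero, sub_zero] at hs
        rw [show π q = 1 from (QuotientGroup.eq_one_iff _).2 (mem_Sig hs), mul_one, one_mul]
      by_cases s0 : (q : D) - p * t = 0
      · rw [show q = p * Units.mk0 t t0 from Units.ext (sub_eq_zero.1 s0), map_mul, hπ t0 ht, mul_one]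
      have h1 : π p = π (p * Units.mk0 t t0 * (Units.mk0 _ s0)⁻¹) := by
        rw [map_mul, map_mul, map_inv, hπ t0 ht, hπ s0 hs]; simp
      have h2 : π q = π (q * (Units.mk0 _ s0)⁻¹) := by
        rw [map_mul, map_inv, hπ s0 hs]; simp
      have h3 : ((q * (Units.mk0 _ s0)⁻¹ : Dˣ) : D) =
          1 + (p * Units.mk0 t t0 * (Units.mk0 _ s0)⁻¹ : Dˣ) := by
        simp only [Units.val_mul, Units.val_inv_eq_inv_val, Units.val_mk0]
        rw [← mul_inv_cancel₀ s0, ← add_mul, sub_add_cancel]
      rw [h1, h2, ← map_mul, ← map_mul]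
      refine congrArg π (Units.ext ?_)
      rw [Units.val_mul, Units.val_mul _ (p * _ * _), h3, mul_add, add_mul, mul_one, one_mul]
    · obtain ⟨⟨t, ht⟩, h0, t0⟩ : ∃ t, f t = 0 ∧ t ≠ 0 := by
        simpa [injective_iff_map_eq_zero] using hf
      have t0 : t ≠ 0 := fun h => t0 (Subtype.ext h)
      have hs := hz (x := p * t) (y := 0) ((congrArg Subtype.val h0).trans (by simp))
      rw [zero_sub, star_neg, neg_inj] at hs
      have h1 := hπ (mul_ne_zero p.ne_zero t0) hs
      rw [show Units.mk0 _ (mul_ne_zero p.ne_zero t0) = p * Units.mk0 t t0 from Units.ext rfl,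
        map_mul, hπ t0 ht, mul_one] at h1
      rw [h1, mul_one, one_mul]
  refine Subgroup.commutator_le.2 fun p _ q _ => (QuotientGroup.eq_one_iff _).1 ?_
  change π _ = 1
  rw [map_commutatorElement, commutatorElement_eq_one_iff_mul_comm, key]

variable {B : Type*} [CharZero K] [Ring B] [StarRing B] [Algebra K B] [StarModule K B]
  [Algebra.IsCentral K B] [IsSimpleRing B] [FiniteDimensional K B]

/-- a unit with separable and symmetric reduced polynomial is a product of two hermitian units -/
theorem mem_Sig_of_rch (hne : ∃ c : K, star c ≠ c) {y : Bˣ} (hs : (rch K (y : B)).Separable)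
    (h : (rch K (y : B)).map (starRingEnd K) = rch K (y : B)) : y ∈ Sig B := by
  obtain ⟨g, hg⟩ := conj_of_rch_eq (y := star (y : B)) hs.squarefree (by rw [Csa.rch_star, h])
  let W : Submodule K B :=
    { carrier := {z | star (y : B) * z = z * y}
      add_mem' := fun {a b} ha hb => by
        simp only [Set.mem_ofPred_eq] at *; rw [mul_add, add_mul, ha, hb]
      zero_mem' := by simp
      smul_mem' := fun c z hz => by
        simp only [Set.mem_ofPred_eq] at *; rw [mul_smul_comm, smul_mul_assoc, hz] }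
  obtain ⟨z, h1, h2, z, rfl⟩ := exists_herm_unit hne W
    (fun z hz => show star (y : B) * star z = star z * y by
      simpa using (congrArg star (show star (y : B) * z = z * y from hz)).symm)
    (z := g) (show star (y : B) * g = g * y by rw [hg]; simp) g.isUnit
  have : z * y ∈ Sig B := mem_Sig (by rw [Units.val_mul, star_mul, h2]; exact h1)
  simpa using mul_mem (inv_mem (mem_Sig h2)) this

end alg

section arith

variable {K : Type u} [Field K] [NumberField K] [StarRing K]

/-- the conjugate place -/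
def cj (w : Pl K) : Pl K := (Loc.exists_conj_place (starRingAut : RingAut K) w).choose

theorem val_cj (w : Pl K) (x : K) : (cj w).valuation K x = w.valuation K (star x) :=
  (Loc.exists_conj_place (starRingAut : RingAut K) w).choose_spec x

theorem cj_cj (w : Pl K) : cj (cj w) = w :=
  IsDedekindDomain.HeightOneSpectrum.eq_of_valuation_isEquiv_valuation (K := K) fun x y => by
    simp [val_cj]

theorem cj_ne {w : Pl K} (h : Split w) : cj w ≠ w := fun e => by
  obtain ⟨x, hx⟩ := h
  exact hx (by rw [← val_cj, e])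

/-- weak approximation in the fixed field at split places -/
theorem exists_sym (S : Finset (Pl K)) (r : Pl K → Prop) (hr : ∀ w ∈ S, r w ↔ ¬ r (cj w)) (a : K)
    (m : ℕ) {ε : ℝ} (hε : 0 < ε) : ∃ p : K, star p = p ∧
      (∀ w ∈ S, r w → w.valuation K (p - a) ≤ exp (-(m : ℤ))) ∧
      (∀ w ∈ S, ¬ r w → w.valuation K (p - star a) ≤ exp (-(m : ℤ))) ∧
      ∀ ρ : K →+* ℝ, |ρ p| < ε := by
  classical
  obtain ⟨v₀, h₀⟩ := exists_notMem (S ∪ S.image cj)
  obtain ⟨b, h1, h2, -⟩ := approx' _ v₀ h₀ (fun w => if r w then a else 0) m 0 (half_pos hε)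
  have h3 : ∀ ρ : K →+* ℝ, |ρ b| < ε / 2 := fun ρ => by
    simpa [InfinitePlace.apply] using h2 (InfinitePlace.mk (Complex.ofRealHom.comp ρ))
  refine ⟨b + star b, by simp [add_comm], fun w hw h => ?_, fun w hw h => ?_, fun ρ => ?_⟩
  · have e1 := h1 w (by simp [hw])
    have e2 := h1 (cj w) (Finset.mem_union_right _ (Finset.mem_image_of_mem _ hw))
    rw [if_pos h] at e1
    rw [if_neg ((hr w hw).1 h), sub_zero, val_cj] at e2
    rw [add_sub_right_comm]
    exact Valuation.map_add_le _ e1 e2
  · have e1 := h1 w (by simp [hw])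
    have e2 := h1 (cj w) (Finset.mem_union_right _ (Finset.mem_image_of_mem _ hw))
    rw [if_neg h, sub_zero] at e1
    rw [if_pos (not_not.1 (mt (hr w hw).2 h)), val_cj, star_sub] at e2
    rw [add_sub_assoc]
    exact Valuation.map_add_le _ e1 e2
  · have := h3 (ρ.comp (starRingEnd K))
    rw [map_add]
    exact (abs_add_le _ _).trans_lt (by linarith [h3 ρ, show |ρ (star b)| < ε / 2 from this])

variable {B : Type v} [Ring B] [StarRing B] [Algebra K B] [StarModule K B]
  [Algebra.IsCentral K B] [IsSimpleRing B] [FiniteDimensional K B]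

/-- a symmetric reduced norm is the norm of an element with symmetric separable polynomial -/
theorem exists_sym_rch (hne : ∃ c : K, star c ≠ c) (x : Bˣ)
    (hx : star (Nrd K (x : B)) = Nrd K (x : B)) : ∃ y : B, Nrd K y = Nrd K (x : B) ∧
      (rch K y).Separable ∧ (rch K y).map (starRingEnd K) = rch K y := by
  classical
  have hn := finrank_eq_deg_sq K B
  have hn0 := (deg_pos K B).ne'
  have hc : Nrd K (x : B) ≠ 0 := (isUnit_iff_Nrd _).1 x.isUnit
  have hfin : {w : Pl K | ¬ Hsm.Spl B (deg K B) (algebraMap K (w.adicCompletion K))}.Finite :=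
    (Loc.spl_ae hn).mono fun w h => Hsm.spl_iff.2 h
  set S := hfin.toFinset
  have hS : ∀ v ∉ S, Hsm.Spl B (deg K B) (algebraMap K (v.adicCompletion K)) := fun v hv =>
    not_not.1 fun h => hv (hfin.mem_toFinset.2 h)
  have hr : ∀ ρ : K →+* ℝ, Hsm.Spl B (deg K B) ρ ∨ 0 < ρ (Nrd K (x : B)) := fun ρ =>
    (spl_or_dfn ρ).imp id fun h => h x
  obtain ⟨y, hy, hs⟩ := Hsm.hsm_of hn S hS hc (fun v _ => ⟨1 ⊗ₜ x, Nrd_bc _ _⟩) hr
  obtain ⟨_, _⟩ := exists_wellFoundedLT (Pl K)
  have hlt : ∀ w ∈ S, w < cj w ↔ ¬ cj w < cj (cj w) := fun w hw => by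
    rw [cj_cj, not_lt]
    exact ⟨le_of_lt, fun h => lt_of_le_of_ne h (cj_ne (not_not.1 fun h =>
      hfin.mem_toFinset.1 hw (Loc.spl_nonsplit B hne h))).symm⟩
  obtain ⟨ε, hε, h⟩ := Hsm.interp_near hn S hS
    (fun v => 1 ⊗ₜ if v < cj v then y else star y)
    (fun v _ => by
      rw [Hsm.rch_tmul]
      split_ifs
      exacts [hs.map, by rw [rch_star]; exact hs.map.map])
    (fun ρ => X ^ deg K B + C (ρ (Nrd K (x : B))))
    fun ρ => or_iff_not_imp_left.2 fun h => ⟨monic_X_pow_add_C _ hn0, natDegree_X_pow_add_C,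
      fun t ht => by
        have h1 := ((Hsm.spl_or_even hn ρ).resolve_left h).pow_nonneg t
        have h2 := (hr ρ).resolve_left h
        simp only [IsRoot.def, eval_add, eval_pow, eval_X, eval_C] at ht
        linarith⟩
  obtain ⟨m, hm⟩ := Hsm.exists_exp_norm' S hε
  choose p p1 p2 p3 p4 using fun i => exists_sym S (fun w => w < cj w) hlt ((rch K y).coeff i) m hε
  have e0 : (rch K y).coeff 0 = (-1) ^ deg K B * Nrd K (x : B) := by
    rw [← hy, Nrd_def, ← mul_assoc, ← mul_pow]; simp
  obtain ⟨P, h1, h2, h3⟩ := Hsm.exists_monic (deg K B) fun i =>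
    if i = 0 then (rch K y).coeff 0 else if S.Nonempty then p i else 0
  have hP : P.map (starRingEnd K) = P := by
    ext i
    rw [coeff_map, starRingEnd_apply]
    rcases lt_trichotomy i (deg K B) with hi | rfl | hi
    · rw [h3 i hi]
      split_ifs
      exacts [by simp [e0, hx], p1 i, star_zero _]
    · rw [← h2, h1.coeff_natDegree, star_one]
    · rw [coeff_eq_zero_of_natDegree_lt (h2.trans_lt hi), star_zero]
  obtain ⟨h4, z, -, rfl⟩ := h P h1 h2 (or_iff_not_imp_left.2 fun hS => by
      have : P = X ^ deg K B - C (-(rch K y).coeff 0) := by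
        ext i
        rw [coeff_sub, coeff_X_pow, coeff_C]
        rcases lt_trichotomy i (deg K B) with hi | rfl | hi
        · rw [h3 i hi, if_neg hS, if_neg hi.ne]; split_ifs <;> simp
        · rw [if_pos rfl, if_neg hn0, sub_zero, ← h2, h1.coeff_natDegree]
        · rw [coeff_eq_zero_of_natDegree_lt (h2.trans_lt hi), if_neg hi.ne', if_neg (by omega),
            sub_zero]
      exact this ▸ separable_X_pow_sub_C _ (by simpa using hn0) (by simpa [e0] using hc))
    (fun v hv i hi => hm v hv _ (by
      rw [Hsm.rch_tmul, coeff_map, ← map_sub]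
      refine (v.valuedAdicCompletion_eq_valuation' _).trans_le ?_
      have hS' : S.Nonempty := ⟨v, hv⟩
      rw [Algebra.algebraMap_self_apply, h3 i hi, if_pos hS']
      split_ifs with i0 hv' hv'
      · simp [i0]
      · simp [i0, rch_star, e0, show starRingEnd K (Nrd K (x : B)) = _ from hx]
      · exact p2 i v hv hv'
      · rw [rch_star, coeff_map]; exact p3 i v hv hv'))
    fun ρ => or_iff_not_imp_left.2 fun h i hi => by
      rw [h3 i hi, coeff_add, coeff_X_pow, if_neg hi.ne, coeff_C]
      split_ifs with h0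
      · simpa [e0, ((Hsm.spl_or_even hn ρ).resolve_left h).neg_one_pow] using hε
      · simpa using p4 i ρ
      · simpa using hε
  refine ⟨z, ?_, h4, hP⟩
  rw [Nrd_def, h3 0 (deg_pos K B), if_pos rfl, ← Nrd_def, hy]

end arith

section uncond

variable {F : Type u} {B : Type v} [Field F] [NumberField F] [Ring B] [Algebra F B]
  [Algebra.IsCentral F B] [IsSimpleRing B] [FiniteDimensional F B]

/-- `SK₁ = 1` over a number field -/
theorem sk₀ : SK F B := sk Hsm.hsmStmt

/-- **Wang's theorem**, unconditional -/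
theorem wang₀ (x : Bˣ) (hx : Nrd F (x : B) = 1) : x ∈ commutator Bˣ := wang Hsm.hsmStmt x hx

/-- **Hasse–Schilling–Maass**, intrinsic form -/
theorem hsm₀ {a : F} (ha : a ≠ 0) (h : ∀ ρ : F →+* ℝ, Dfn F B ρ → 0 < ρ a) :
    ∃ x : Bˣ, Nrd F (x : B) = a := hsm Hsm.hsmStmt ha h

end uncond

/-- **`SUK₁ (D) = 1`** over a number field -/
theorem sukStmt : Wall.SukStmt.{v, w} := by
  intro K _ _ _ D _ _ _ _ _ _ hne a ha
  have : CharZero D := charZero_of_injective_algebraMap (algebraMap K D).injective
  have : FiniteDimensional ℚ D := Module.Finite.trans K D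
  obtain ⟨y, h1, h2, h3⟩ := exists_sym_rch hne a ha
  obtain ⟨y, rfl⟩ := (isUnit_iff_Nrd (K := K) y).2 (h1 ▸ (isUnit_iff_Nrd _).1 a.isUnit)
  have h4 := commutator_le_Sig ℚ (K := K) (by simp) hne (wang₀ (F := K) (a * y⁻¹) (by
    rw [Units.val_mul, map_mul, ← h1, ← map_mul, y.mul_inv, map_one]))
  simpa using mul_mem h4 (mem_Sig_of_rch hne h2 h3)

/-- the isotropic case of the row -/
theorem isoStmt : IsoStmt.{u, v, w} := Wall.isoStmt sukStmt

end Crest.Agent.T24.Wg
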