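import Crest.Agent.T24.Fin_33
import Crest.Agent.T24.Chief_29
import Crest.Agent.T24.Pow_53
import Crest.Agent.T24.NstK_39
import Crest.Agent.T24.WgSuk_25
import Crest.Agent.T24.TLink_31
import Crest.Agent.T24.BcB_98
import Crest.Agent.T24.SplEx_33

/-!
# Row 24 (helper33): the row from the modules that are still open.
-/

set_option autoImplicit false

namespace Crest.Agent.T24

universe u v w

theorem mp_of (hC : CocStmt.{u, v, w}) (hS : SaStmt.{u, v, w}) (h1 : NAStmt.{u, v, w})
    (h2 : TWStmt.{u, v, w}) (h3 : CenOddStmt.{u, v, w}) (h4 : CenEvenStmt.{u, v, w}) :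
    MPStmt.{u, v, w} :=
  mpStmt chiefStmt (powStmt Loc.valStmt Loc.cofStmt) Wg.isoStmt
    (nstKStmt splExStmt splIsoStmt hC tLinkStmt hS Loc.valStmt) h1 h2 h3 h4
    (contStmt Loc.valStmt Loc.cofStmt) cenRedStmt

end Crest.Agent.T24
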