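import Crest.Agent.T24.EvInd_15
import Crest.Agent.T24.Top_33
import Crest.Agent.T24.EvWan_31
import Crest.Agent.T24.EvE1_23
import Crest.Agent.T24.EvE2_53
import Crest.Agent.T24.EvTor_62
import Crest.Agent.T24.EvC_20
import Crest.Agent.T24.EvnEps_59
import Crest.Agent.T24.EvnQ2_30
import Crest.Agent.T24.EvnTow_57
import Crest.Agent.T24.CocS_98
import Crest.Agent.T24.NaFin_33

/-!
# Row 24, central step for even degree (helper15): the proved leaves plugged in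
-/

set_option autoImplicit false

namespace Crest.Agent.T24

universe u v w

theorem Evn.cenEven_top (hS : SaStmt.{u, v, w})
    (hO : CenOddStmt.{u, v, w}) (h1 : Ct2.Ct2Stmt.{u, v, w, u}) (h2 : Ev.Ct2CStmt.{u, v, w})
    (h3 : Evn.LamStmt.{u, v, w}) : CenEvenStmt.{u, v, w} :=
  Evn.cenEven_of hO (nstKStmt splExStmt splIsoStmt cocStmt tLinkStmt hS Loc.valStmt) (Ev.waNStmt hS) h1
    h2 (Ev.decCStmt (Ev.e1Stmt Ev.torStmt) (Ev.e2Stmt (Ev.waNStmt hS) Ev.copStmt)) Evn.epsStmt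
    Evn.towStmt Evn.q2Stmt h3

/-- the row from the modules that are still open -/
theorem mp_of₂ (hS : SaStmt.{u, v, w}) (h1 : Na.IndepStmt.{u, v, w})
    (h3 : HolZ.HeisStmt.{u, v, w}) (h4 : HolZ.HolStmt.{u, v, w})
    (h5 : Ct2.Ct2Stmt.{u, v, w, u}) (h6 : Ev.Ct2CStmt.{u, v, w}) (h7 : Evn.LamStmt.{u, v, w}) :
    MPStmt.{u, v, w} :=
  have hO := HolZ.cenOdd_of h3 (Ev.waNStmt hS) h4
  mp_of cocStmt hS (Na.naStmt h1) (Na.twStmt h1) hO (Evn.cenEven_top hS hO h5 h6 h7)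

/-- the same with the odd central step as a hypothesis -/
theorem mp_of₃ (hS : SaStmt.{u, v, w}) (h1 : Na.IndepStmt.{u, v, w}) (hO : CenOddStmt.{u, v, w})
    (h5 : Ct2.Ct2Stmt.{u, v, w, u}) (h6 : Ev.Ct2CStmt.{u, v, w}) (h7 : Evn.LamStmt.{u, v, w}) :
    MPStmt.{u, v, w} :=
  mp_of cocStmt hS (Na.naStmt h1) (Na.twStmt h1) hO (Evn.cenEven_top hS hO h5 h6 h7)

end Crest.Agent.T24
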