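import Crest.Agent.T24.EvDef_47
import Crest.Agent.T24.EvBrDef_21
import Crest.Agent.T24.HolZ_56
import Crest.Agent.T24.InGct_54
import Crest.Agent.T24.Chief_29
import Crest.Agent.T24.Pow_53

/-!
# Row 24, central step for even degree (helper15): the induction on the degree
-/

set_option autoImplicit false
set_option linter.unusedSectionVars false

noncomputable section

namespace Crest.Agent.T24.Evn

open Module NumberField WithZero Csa Asa Topology Filter Polynomial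
open scoped NumberField

universe u v w

namespace I15

/-- a `ℚ`-algebra structure -/
@[reducible] def qAlg (K B : Type*) [Field K] [NumberField K] [Ring B] [Algebra K B] :
    Algebra ℚ B :=
  ((algebraMap K B).comp (algebraMap ℚ K)).toAlgebra' fun _ x => Algebra.commutes _ x

theorem mem_dvd {F : Type*} [Field F] [NumberField F] {v : Pl F} {a b : ℕ} (h : a ∣ b)
    (ha : (a : 𝓞 F) ∈ v.asIdeal) : (b : 𝓞 F) ∈ v.asIdeal := by
  obtain ⟨c, rfl⟩ := h
  rw [Nat.cast_mul]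
  exact Ideal.mul_mem_right _ _ ha

theorem exists_ln {F : Type*} [Field F] [NumberField F] (a c : Fˣ) :
    ∃ M : ℕ, 2 ≤ M ∧ ∀ v : Pl F, (M : 𝓞 F) ∉ v.asIdeal → c ∈ Hn.LN (a : F) v := by
  obtain ⟨M, h1, h2⟩ := HolZ.exists_N (((finite_ne_one (k := F) two_ne_zero).union
    (finite_ne_one a.ne_zero)).union (finite_ne_one c.ne_zero))
  refine ⟨M, h1, fun v hv => ?_⟩
  have h3 := mt (h2 v) hv
  simp only [Set.mem_union, Set.mem_ofPred_eq, not_or, not_not] at h3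
  exact (Hn.l5Stmt F v a c).2 h3.1.1 h3.1.2 h3.2

variable {D : Dat.{u, v, w}} (T : Tow D)

theorem θ_ne : T.θ ≠ 0 := fun h => by
  have := T.θθ
  rw [h, zero_pow two_ne_zero, eq_comm, map_eq_zero] at this
  exact T.δ.ne_zero this

theorem i_k (y : D.k) : T.i (algebraMap D.k T.E y) = algebraMap D.k D.B y := by
  rw [IsScalarTower.algebraMap_apply D.k D.K T.E, AlgHom.commutes,
    ← IsScalarTower.algebraMap_apply]

theorem e0 : Ev.E0 T.ε T.i₀ T.n where
  skew := by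
    have := starModule_of_starHom T.i
    have h : star (algebraMap D.K T.E T.θ) = -algebraMap D.K T.E T.θ := by
      rw [Algebra.algebraMap_eq_smul_one, star_smul, star_one, T.star_θ, neg_smul]
    rw [Tow.i₀, ← StarHom.map_star, ← map_neg, Tow.η, star_mul', Quad.star_k (k := T.k₁), h,
      neg_mul]
  sq := by
    rw [Tow.i₀, ← map_mul, ← i_k, Tow.η, mul_mul_mul_comm, ← map_mul, ← map_mul, ← pow_two, T.θθ,
      T.ee, ← IsScalarTower.algebraMap_apply, ← IsScalarTower.algebraMap_apply, ← map_mul]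
    rfl
  nskew := T.star_n
  unit := T.unit_n
  anti := by
    rw [Tow.i₀, T.n_i, Tow.η, map_mul T.σ, T.σ_e, AlgEquiv.commutes, mul_neg, map_neg, neg_mul]

theorem mem_cz {y : D.B} (h : Commute y T.i₀) : y ∈ Cz T.i := Cz.mem_iff.2 fun c => by
  obtain ⟨a₀, a₁, a₂, a₃, rfl⟩ := T.crd c
  have h0 : ∀ a : D.K, Commute (T.i (algebraMap D.K T.E a)) y := fun a => by
    rw [AlgHom.commutes]; exact Algebra.commutes a y
  have h1 : ∀ a : D.k, Commute (T.i (algebraMap D.k T.E a)) y := fun a => by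
    rw [i_k]; exact Algebra.commutes a y
  have h2 : Commute (T.i (algebraMap T.k₁ T.E T.e)) y := by
    have : algebraMap T.k₁ T.E T.e = algebraMap D.K T.E T.θ⁻¹ * T.η := by
      rw [Tow.η, ← mul_assoc, ← map_mul, inv_mul_cancel₀ (θ_ne T), map_one, one_mul]
    rw [this, map_mul]
    exact (h0 _).mul_left h.symm
  simp only [map_add, map_mul]
  exact (((h1 _).add_left ((h1 _).mul_left (h0 _))).add_left ((h1 _).mul_left h2)).add_left
    ((h1 _).mul_left ((h0 _).mul_left h2))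

theorem deg_C : 2 * deg T.E T.C = deg D.K D.B := T.fr ▸ Cz.finrank_mul_deg T.i

theorem uni_SU {g : unitary T.C} (hg : g ∈ SU T.E T.C) : Cz.uni T.i g ∈ SU D.K D.B := by
  rw [mem_SU, Cz.coe_uni, Cz.Nrd_coe, mem_SU.1 hg, map_one]

theorem idx {N : Subgroup (unitary D.B)} (h : N.relIndex (SU D.K D.B) ≠ 0) :
    (N.comap (Cz.uni T.i)).relIndex (SU T.E T.C) ≠ 0 := fun h0 => by
  rw [Subgroup.relIndex_comap] at h0
  exact h (Subgroup.relIndex_eq_zero_of_le_right (by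
    rintro _ ⟨g, hg, rfl⟩; exact uni_SU T hg) h0)

/-- the elements of `SU(C)` near `1` lie in `N` -/
def Sub [Algebra ℚ D.B] (N : Subgroup (unitary D.B)) : Prop := ∃ M : ℕ, 2 ≤ M ∧
  ∃ W ∈ In.nr M (1 : D.B), ∀ y ∈ SU T.E T.C, ((y : T.C) : D.B) ∈ W → Cz.uni T.i y ∈ N

/-- a quaternion subalgebra of the centraliser is one of `B` -/
def qB (q : Ct2.Quat T.k₁ T.C) : Ct2.Quat T.k₁ D.B where
  i := (Cz T.i).val.toRingHom.comp q.i
  j := q.j
  r := q.r
  a := q.a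
  c := q.c
  star_i f := congrArg Subtype.val (q.star_i f)
  star_j := congrArg Subtype.val q.star_j
  star_r := congrArg Subtype.val q.star_r
  jj := congrArg Subtype.val q.jj
  rr := congrArg Subtype.val q.rr
  jr := congrArg Subtype.val q.jr
  ij f := congrArg Subtype.val (q.ij f)
  ir f := congrArg Subtype.val (q.ir f)

theorem sub_two [Algebra ℚ D.B] (hV : Val D.K D.B) (hC : Ct2.Ct.{u} D.k D.K D.B)
    (hQ : Q2 T.k₁ T.E T.C) {N : Subgroup (unitary D.B)} (hN : Hyp D.K N) : Sub T N := by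
  obtain ⟨q, h1, h2⟩ := hQ
  obtain ⟨m, hm⟩ := hN.cen
  obtain ⟨M₁, a1, b1⟩ := exists_ln q.a q.c
  obtain ⟨M₂, a2, b2⟩ := HolZ.exists_N hV.1
  obtain ⟨M₃, a3, b3⟩ := HolZ.exists_N (finite_ne_one (k := D.k) T.δ.ne_zero)
  have hM : 2 ≤ 2 * (M₁ * (M₂ * M₃)) := by
    have : 0 < M₁ * (M₂ * M₃) := by positivity
    omega
  refine ⟨_, hM, _, hC (2 * (M₁ * (M₂ * M₃))) T.θ T.δ (dvd_mul_right _ _) (by omega)
    (fun w hw => mem_dvd ⟨2 * (M₁ * M₃), by ring⟩ (b2 w hw)) T.star_θ (θ_ne T) T.θθ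
    (fun v hv => not_not.1 fun h => hv (mem_dvd ⟨2 * (M₁ * M₂), by ring⟩ (b3 v h))) m N hN.idx hm,
    fun y hy h => ?_⟩
  obtain ⟨x₀, x₁, x₂, x₃, h3⟩ := h2 y hy
  refine h T.k₁ (qB T q) (fun y => ?_)
    (fun v hv => b1 v fun h => hv (mem_dvd ⟨2 * (M₂ * M₃), by ring⟩ h))
    ⟨x₀, x₁, x₂, x₃, congrArg Subtype.val h3⟩ (Cz.uni T.i y).2
  change ((q.i _ : T.C) : D.B) = _
  rw [h1, ← i_k, IsScalarTower.algebraMap_apply D.k T.k₁ T.E]
  rfl

theorem sub_three [Algebra ℚ D.B] (hd : 2 ≤ deg D.K D.B) (hd' : 2 ≤ deg T.E T.C)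
    (hW : Ev.WaN T.k₁ T.E T.C) (hC : Cen T.E T.C) {N : Subgroup (unitary D.B)} (hN : Hyp D.K N) :
    Sub T N := by
  let _ := qAlg T.E T.C
  have := hN.nrm
  obtain ⟨m, hm⟩ := hN.cen
  let N' := N.comap (Cz.uni T.i)
  let R : Subgroup (unitary T.C) :=
    SU T.E T.C ⊓ (Subgroup.center (unitary T.C ⧸ N')).comap (QuotientGroup.mk' N')
  have hR : ∀ g, g ∈ R ↔ g ∈ SU T.E T.C ∧ ∀ u : unitary T.C, u * g * u⁻¹ * g⁻¹ ∈ N' := fun g => by
    refine and_congr_right fun _ => ?_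
    change (QuotientGroup.mk' N' g ∈ Subgroup.center _) ↔ _
    rw [Subgroup.mem_center_iff, (QuotientGroup.mk'_surjective N').forall]
    refine forall_congr' fun u => ?_
    rw [← QuotientGroup.eq_one_iff, ← QuotientGroup.mk'_apply]
    simp only [map_mul, map_inv, one_mul, mul_inv_eq_iff_eq_mul]
  have h1 : R.relIndex (SU T.E T.C) ≠ 0 := fun h0 => idx T hN.idx (by
    rw [← Subgroup.inf_relIndex_right]
    refine Subgroup.relIndex_eq_zero_of_le_left (fun g hg => (hR g).2 ⟨hg.2, fun u => ?_⟩) h0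
    exact N'.mul_mem ((inferInstance : N'.Normal).conj_mem g hg.1 u) (N'.inv_mem hg.1))
  have hV := Loc.valStmt D hd
  have hV' := Loc.valStmt T.dat hd'
  obtain ⟨M₀, a0, b0⟩ := HolZ.exists_N hV.1
  have e0 : M₀ ≠ 0 := by omega
  obtain ⟨m₁, h2⟩ := HolZ.le_of_near hW (HolZ.nc_of (powStmt Loc.valStmt Loc.cofStmt T.dat hd')
    (N := R) inf_le_left h1) (S := (In.N23.finite_N (K := T.k₁) e0).toFinset) (by
      have h3 := (In.nr_map (N := M₀) (Cz T.i).val.toAddMonoidHom (1 : T.C)).eventually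
        (HolZ.deep_nr (Loc.cofStmt D) e0 b0 m)
      filter_upwards [HolZ.nb_le_ng T.k₁ T.E T.C e0 (fun v hv => by simpa using hv) 1
        (In.ng_le_nr 1 h3)] with x hx
      rintro g hg rfl
      refine (hR g).2 ⟨hg, fun u => ?_⟩
      have := hm (Cz.uni T.i u) (Cz.uni T.i g) ⟨uni_SU T hg, hx⟩
      simpa only [N', Subgroup.mem_comap, map_mul, map_inv] using this)
  obtain ⟨m₂, h3⟩ := hC m₁ N' (idx T hN.idx) fun u _ g hg => ((hR g).1 (h2 hg)).2 u
  obtain ⟨M₁, a1, b1⟩ := HolZ.exists_N hV'.1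
  have h4 := (In.nr_of_inj (N := M₁) (Cz T.i).val.toAddMonoidHom Subtype.val_injective
    (f := id) (a := (1 : T.C)) tendsto_comap).eventually
      (HolZ.deep_nr (Loc.cofStmt T.dat) (by omega) b1 m₂)
  obtain ⟨W, h5, h6⟩ := mem_comap.1 h4
  exact ⟨M₁, a1, W, h5, fun y hy h => h3 ⟨hy, h6 h⟩⟩

theorem step [Algebra ℚ D.B] (hd : 2 ≤ deg D.K D.B) (h1 : Ev.DecC D.k D.K D.B) (h2 : T.Lam)
    {N : Subgroup (unitary D.B)} (hN : Hyp D.K N) (h3 : Ev.CtC D.k D.K N) (h4 : Sub T N) :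
    ∃ m, SUm D.K D.B m ≤ N := by
  have := hN.nrm
  obtain ⟨m, hm⟩ := h1 T.ε T.i₀ T.n (e0 T) N
    (HolZ.nc_of (powStmt Loc.valStmt Loc.cofStmt D hd) hN.le hN.idx) h3
  obtain ⟨M₁, a1, W, hW, h5⟩ := h4
  obtain ⟨M, a2, h6⟩ := h2 N hN M₁ a1 W hW
  have e0 : M ≠ 0 := by omega
  refine ⟨m, fun g hg => ?_⟩
  obtain ⟨y, hy, h7, h8, h9⟩ := hm g hg (In.N23.finite_N (K := D.k) e0).toFinset _
    (HolZ.nb_le_ng D.k D.K D.B e0 (fun v hv => by simpa using hv) 1 h6)
  obtain ⟨y', hy', h10, h11⟩ := h7 y hy rfl (mem_cz T h8)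
  simpa using N.mul_mem h9 (N.mul_mem h11 (h5 y' hy' h10))

end I15

/-- the central step in even degree, by induction on the degree -/
theorem cenEven_of (hO : CenOddStmt.{u, v, w}) (hN : NstKStmt.{u, v, w})
    (hW : Ev.WaNStmt.{u, v, w}) (hC : Ct2.Ct2Stmt.{u, v, w, u}) (hC' : Ev.Ct2CStmt.{u, v, w})
    (hD : Ev.DecCStmt.{u, v, w}) (hE : EpsStmt.{u, v, w}) (hT : TowStmt.{u, v, w})
    (hQ : Q2Stmt.{u, v, w}) (hL : LamStmt.{u, v, w}) : CenEvenStmt.{u, v, w} := by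
  suffices h : ∀ (d : ℕ) (D : Dat.{u, v, w}), deg D.K D.B = d → 3 ≤ d → Aniso D.B →
      CenU D.K D.B from fun D hd ha _ => h _ D rfl hd ha
  intro d
  induction d using Nat.strong_induction_on with
  | _ d ih =>
  rintro D rfl hd ha
  rcases Nat.even_or_odd (deg D.K D.B) with he | ho
  swap
  · exact hO D hd ha ho
  intro m N h1 h2 h3 h4
  let _ := I15.qAlg D.K D.B
  obtain ⟨T⟩ := hT D (hE D he)
  have h5 : Hyp D.K N := ⟨HolZ.normal_of N h3, h1, h2, m, h4⟩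
  have h6 := I15.deg_C T
  have ha' : Aniso T.C := Cz.aniso T.i ha
  refine I15.step T (by omega) (hD D hd ha) (hL D T hd ha) h5 (hC' D ha m N h1 h2 h3 h4) ?_
  by_cases h7 : deg T.E T.C = 2
  · exact I15.sub_two T (Loc.valStmt D (by omega)) (hC D ha) (hQ T.dat h7 ha') h5
  · have h8 : 3 ≤ deg T.E T.C := by omega
    have h9 : 2 ≤ deg T.E T.C := by omega
    exact I15.sub_three T (by omega) h9 (hW T.dat h8 ha') (cenRedStmt T.dat
      (powStmt Loc.valStmt Loc.cofStmt T.dat h9) (hN T.dat h8 ha')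
      (contStmt Loc.valStmt Loc.cofStmt T.dat h9) (ih (deg T.E T.C) (by omega) T.dat rfl h8 ha')) h5

end Crest.Agent.T24.Evn
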