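import Crest.Agent.T24.EvDef_20
import Crest.Agent.T24.Ct2Def_10
import Crest.Agent.T24.EmbDef_13
import Crest.Agent.T24.Csa7_50
import Crest.Agent.T24.InG_71

/-!
# Row 24, central step for even degree: the top (helper26)

`C = Cz φ` is the centraliser of `i = φ r`, a central simple algebra of half the degree over
`K₁ = K(i)`, with the unitary involution `star` over `k₁ = k(θ i)`.
-/

set_option autoImplicit false
set_option linter.unusedSectionVars false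

noncomputable section

namespace Crest.Agent.T24.Ev

open Module NumberField WithZero Csa Asa Topology Filter Polynomial

universe u v w

section One
variable (k K B : Type*) [Field k] [NumberField k] [Field K] [NumberField K] [Algebra k K]
  [StarRing K] [Quad k K] [Ring B] [StarRing B] [Algebra K B] [StarModule K B]
  [Algebra.IsCentral K B] [IsSimpleRing B] [FiniteDimensional K B] [Algebra k B]
  [IsScalarTower k K B]

variable {B} in
/-- the hypotheses of the central step -/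
structure Hy (m : ℕ) (N : Subgroup (unitary B)) : Prop where
  idx : N.relIndex (SU K B) ≠ 0
  cm : ∀ u : unitary B, ∀ g ∈ SUm K B m, u * g * u⁻¹ * g⁻¹ ∈ N

/-- the germ form of the central step -/
def Cn [Algebra ℚ B] : Prop := ∀ (m : ℕ) (N : Subgroup (unitary B)), Hy K m N →
  ∃ M : ℕ, M ≠ 0 ∧ ∀ᶠ x in In.nr M (1 : B), ∀ g ∈ SU K B, (g : B) = x → g ∈ N

/-- neighbourhoods at the places dividing `M` -/
def Brn [Algebra ℚ B] : Prop := ∀ M : ℕ, M ≠ 0 → ∀ (a : B), ∀ V ∈ In.nr M a,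
  ∃ W : ∀ v : Pl k, Set (BC k K B (Kv v)), (∀ v, W v ∈ 𝓝 (BC.inc k K B (Kv v) a)) ∧
    ∀ x : B, (∀ v : Pl k, (M : 𝓞 k) ∈ v.asIdeal → BC.inc k K B (Kv v) x ∈ W v) → x ∈ V

/-- the open form of the embedding theorem in germ words -/
def EmbNr [Algebra ℚ B] : Prop := ∃ M₀ : ℕ, M₀ ≠ 0 ∧ ∀ M : ℕ, M ≠ 0 → M₀ ∣ M →
  ∀ (P₀ : k[X]) (al : B), Emb.HG K P₀ al → P₀.Separable → ∀ V ∈ In.nr M al,
    ∀ᶠ c in In.ng M (fun j : Fin (deg K B) => P₀.coeff j), ∀ P : k[X], P.Monic → Irreducible P →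
      P.natDegree = deg K B → (∀ j : Fin (deg K B), P.coeff j = c j) → ∃ th ∈ V, Emb.HG K P th

end One

section Two
variable (k : Type u) {K B : Type*} (k₁ : Type*) {K₁ : Type*} [Field k] [NumberField k] [Field K]
  [NumberField K] [Algebra k K] [StarRing K] [Quad k K] [Ring B] [StarRing B] [Algebra K B]
  [StarModule K B] [Algebra.IsCentral K B] [IsSimpleRing B] [FiniteDimensional K B] [Algebra k B]
  [IsScalarTower k K B] [Field k₁] [NumberField k₁] [Field K₁] [NumberField K₁] [Algebra k₁ K₁]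
  [StarRing K₁] [Quad k₁ K₁] [Algebra k k₁] [Algebra K K₁] [Algebra k K₁] [IsScalarTower k k₁ K₁]
  [IsScalarTower k K K₁] (φ : K₁ →ₐ[K] B) [StarHom φ] [Algebra k₁ (Cz φ)]
  [IsScalarTower k₁ K₁ (Cz φ)]

variable {k} in
/-- the standing hypotheses on the subfield -/
structure Tw (ε : kˣ) (r : K₁) (n : B) : Prop where
  e0 : E0 ε (φ r) n
  fr : finrank K K₁ = 2
  an : Aniso B
  dg : 3 ≤ deg K B

/-- depth in `C` gives depth in `B` -/
def Res : Prop := ∀ m : ℕ, ∃ m' : ℕ, ∀ x : Cz φ, x ∈ Deep K₁ (Cz φ) m' → (x : B) ∈ Deep K B m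

/-- a hermitian element of `C` whose reduced characteristic polynomial `P` is defined over `k` -/
def HC (P : k[X]) (th : Cz φ) : Prop := Emb.HG K₁ (P.map (algebraMap k k₁)) th

/-- the base point -/
def Base : Prop := ∃ (v : Pl k) (P₀ : k[X]) (th₀ : Cz φ), Nonempty (K₁ →ₐ[k] Kv v) ∧
  HC k k₁ φ P₀ th₀ ∧ Irreducible (P₀.map (algebraMap k (Kv v)))

variable {k} in
/-- `Nrd (1 - r • th)` in terms of the polynomial of `th` -/
def Pr (r : K₁) (P : k[X]) : K₁ := aeval r P.reverse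

/-- interpolation -/
def Itp (r : K₁) : Prop := ∀ (M : ℕ) (v : Pl k), 2 ≤ M → (M : 𝓞 k) ∈ v.asIdeal →
  Nonempty (K₁ →ₐ[k] Kv v) → ∀ P₀ : k[X], P₀.Monic → 2 ≤ P₀.natDegree →
  Irreducible (P₀.map (algebraMap k (Kv v))) →
  ∀ W ∈ In.ng M (fun j : Fin P₀.natDegree => P₀.coeff j), ∀ᶠ z in In.ng M (1 : K₁),
    star z * z = 1 → Algebra.norm K z = 1 → ∃ P : k[X], P.Monic ∧ P.natDegree = P₀.natDegree ∧
      Irreducible (P.map (algebraMap k K₁)) ∧ (fun j : Fin P₀.natDegree => P.coeff j) ∈ W ∧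
      Pr r P * star (Pr r P₀) = z * (star (Pr r P) * Pr r P₀)

/-- the second generator of the quaternion algebra -/
def Kap (r : K₁) : Prop := ∀ (P : k[X]) (th : Cz φ), HC k k₁ φ P th →
  Irreducible (P.map (algebraMap k K₁)) → ∃ (κ : B) (β : k[X]), star κ = -κ ∧ IsUnit κ ∧
    κ * φ r = -(φ r * κ) ∧ κ * th = th * κ ∧ κ * κ = aeval (th : B) β

/-- at a place that splits in `K` the quaternion algebra is as split as `B` -/
def SpA (ε : kˣ) (r : K₁) : Prop := ∀ᶠ v : Pl k in cofinite, Nonempty (K →ₐ[k] Kv v) →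
  ∀ (P : k[X]) (th : Cz φ), HC k k₁ φ P th → P.Separable → ∀ (κ : B) (β : k[X]), IsUnit κ →
    κ * φ r = -(φ r * κ) → κ * th = th * κ → κ * κ = aeval (th : B) β →
    ∀ (F : Type u) [Field F] [NumberField F] [Algebra k F] (l : F), aeval l P = 0 →
      ∀ w : Pl F, below k w = v → ∀ b : Fˣ, (b : F) = aeval l β → b ∈ Hn.LN (algebraMap k F ε) w

/-- `th` generates with `i` a subfield of a quaternion algebra that is split off `M` -/
def InS (r : K₁) (M : ℕ) (th : Cz φ) : Prop :=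
  ∃ (F : Type u) (_ : Field F) (_ : NumberField F) (_ : Algebra k F) (q : Ct2.Quat F B) (l : F),
    (∀ y : k, q.i (algebraMap k F y) = algebraMap k B y) ∧ q.j = φ r ∧ q.i l = th ∧
    ∀ w : Hn.Pl F, (M : 𝓞 F) ∉ w.asIdeal → q.c ∈ Hn.LN (q.a : F) w

/-- the change of the local classes -/
def Fix [Algebra ℚ (Cz φ)] (r : K₁) : Prop := ∃ M₀ : ℕ, M₀ ≠ 0 ∧ ∀ M : ℕ, M ≠ 0 → M₀ ∣ M →
  ∀ (P : k[X]) (th : Cz φ), HC k k₁ φ P th → Irreducible (P.map (algebraMap k K₁)) →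
    ∀ V ∈ In.nr M th, ∃ th' ∈ V, HC k k₁ φ P th' ∧ InS k φ r M th'

/-- the step from `C` to `U(C) ∩ SU(B)` -/
def Lam [Algebra ℚ B] (r : K₁) : Prop := ∀ (m : ℕ) (N : Subgroup (unitary B)), Hy K m N →
  ∃ M : ℕ, M ≠ 0 ∧ ∀ᶠ x in In.ng M (1 : B), ∀ g ∈ SU K B, (g : B) = x → Commute x (φ r) → g ∈ N

end Two

set_option linter.checkUnivs false in
/-- the subfield data -/
structure Sub (D : Dat.{u, v, w}) where
  k₁ : Type u
  K₁ : Type v
  [i1 : Field k₁] [i2 : NumberField k₁] [i3 : Field K₁] [i4 : NumberField K₁] [i5 : Algebra k₁ K₁]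
  [i6 : StarRing K₁] [i7 : Quad k₁ K₁] [i8 : Algebra D.k k₁] [i9 : Algebra D.K K₁]
  [i10 : Algebra D.k K₁] [i11 : IsScalarTower D.k k₁ K₁] [i12 : IsScalarTower D.k D.K K₁]
  φ : K₁ →ₐ[D.K] D.B
  [i13 : StarHom φ] [i14 : Algebra k₁ (Cz φ)] [i15 : IsScalarTower k₁ K₁ (Cz φ)]
  ε : D.kˣ
  r : K₁
  n : D.B
  tw : Tw φ ε r n

attribute [instance] Sub.i1 Sub.i2 Sub.i3 Sub.i4 Sub.i5 Sub.i6 Sub.i7 Sub.i8 Sub.i9 Sub.i10 Sub.i11
  Sub.i12 Sub.i13 Sub.i14 Sub.i15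

/-- the data of the centraliser -/
def Sub.dat {D : Dat.{u, v, w}} (S : Sub D) : Dat.{u, v, w} := ⟨S.k₁, S.K₁, Cz S.φ⟩

def E0ExStmt : Prop := ∀ D : Dat.{u, v, w}, Even (deg D.K D.B) →
  ∃ (ε : D.kˣ) (i n : D.B), E0 ε i n ∧ ¬ IsSquare (algebraMap D.k D.K ε)
def SubStmt : Prop := ∀ D : Dat.{u, v, w}, 3 ≤ deg D.K D.B → Aniso D.B →
  ∀ (ε : D.kˣ) (i n : D.B), E0 ε i n → ¬ IsSquare (algebraMap D.k D.K ε) → Nonempty (Sub D)
def ResStmt : Prop := ∀ (D : Dat.{u, v, w}) (S : Sub D), Res S.φ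
def Cn2Stmt : Prop := ∀ (D : Dat.{u, v, w}) [Algebra ℚ D.B], deg D.K D.B = 2 → Aniso D.B →
  Cn D.K D.B
def BrnStmt : Prop := ∀ (D : Dat.{u, v, w}) [Algebra ℚ D.B], Brn D.k D.K D.B
def EmbNrStmt : Prop := ∀ (D : Dat.{u, v, w}) [Algebra ℚ D.B], EmbNr D.k D.K D.B
def BaseStmt : Prop := ∀ (D : Dat.{u, v, w}) (S : Sub D), Base D.k S.k₁ S.φ
def ItpStmt : Prop := ∀ (D : Dat.{u, v, w}) (S : Sub D), Itp (K := D.K) D.k S.r
def KapStmt : Prop := ∀ (D : Dat.{u, v, w}) (S : Sub D), Kap D.k S.k₁ S.φ S.r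
def SpAStmt : Prop := ∀ (D : Dat.{u, v, w}) (S : Sub D), SpA D.k S.k₁ S.φ S.ε S.r
def FixStmt : Prop := ∀ (D : Dat.{u, v, w}) (S : Sub D) [Algebra ℚ (Cz S.φ)],
  Fix D.k S.k₁ S.φ S.r
def LamStmt : Prop := ∀ (D : Dat.{u, v, w}) (S : Sub D) [Algebra ℚ D.B] [Algebra ℚ (Cz S.φ)],
  Cn S.K₁ (Cz S.φ) → Lam S.φ S.r

end Crest.Agent.T24.Ev
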