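import Crest.Agent.T24.EvnKap_42
import Crest.Agent.T24.CsaP_50

/-!
# Row 24, even step (helper42): a hermitian element of `C` with separable polynomial over `k`
-/

set_option autoImplicit false
set_option linter.unusedSectionVars false

noncomputable section

namespace Crest.Agent.T24.Evn.K42

open Module NumberField Csa Polynomial

universe u v w

/-- an endomorphism anticommuting with `J` with separable characteristic polynomial -/
theorem wit {Ω V : Type*} [Field Ω] [CharZero Ω] [AddCommGroup V] [Module Ω V]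
    [FiniteDimensional Ω V] (J N : End Ω V) {s : Ω} (hs : s ≠ 0) (hJ : ∀ x, J (J x) = (s * s) • x)
    (hN : ∀ x, N (J x) = -J (N x)) (hu : Function.Bijective N) :
    ∃ Y : End Ω V, Y * J = -(J * Y) ∧ Y.charpoly.Separable := by
  classical
  let U : Submodule Ω V := J.eigenspace s
  have hU : ∀ x, x ∈ U ↔ J x = s • x := fun x => End.mem_eigenspace_iff
  have hJN : ∀ x ∈ U, J (N x) = -(s • N x) := fun x hx => by
    rw [← map_smul, ← (hU x).1 hx, hN, neg_neg]
  let F : (U × U) →ₗ[Ω] V := (U.subtype + N ∘ₗ U.subtype).coprod (U.subtype - N ∘ₗ U.subtype)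
  have hF : ∀ a b : U, F (a, b) = (a + b : V) + N (a - b) := fun a b => by
    simp only [F, LinearMap.coprod_apply, LinearMap.add_apply, LinearMap.sub_apply,
      LinearMap.comp_apply, Submodule.subtype_apply, map_sub]
    abel
  have hb : Function.Bijective F := by
    constructor
    · rw [injective_iff_map_eq_zero]
      rintro ⟨a, b⟩ h
      rw [hF] at h
      have h1 := congrArg J h
      rw [map_add, (hU _).1 (U.add_mem a.2 b.2), hJN _ (U.sub_mem a.2 b.2), map_zero, ← sub_eq_add_neg,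
        ← smul_sub, smul_eq_zero_iff_right hs] at h1
      have h2 : (a + b : V) = 0 := by linear_combination (norm := skip) (2⁻¹ : Ω) • h + (2⁻¹ : Ω) • h1; match_scalars <;> ring
      rw [h2, zero_add, map_eq_zero_iff _ hu.1] at h
      ext
      · change (a : V) = 0
        linear_combination (norm := skip) (2⁻¹ : Ω) • h + (2⁻¹ : Ω) • h2; match_scalars <;> ring
      · change (b : V) = 0
        linear_combination (norm := skip) (2⁻¹ : Ω) • h2 - (2⁻¹ : Ω) • h; match_scalars <;> ring
    · intro x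
      obtain ⟨y, hy⟩ := hu.2 ((2⁻¹ : Ω) • (x - s⁻¹ • J x))
      have h1 : (2⁻¹ : Ω) • (x + s⁻¹ • J x) ∈ U := (hU _).2 (by
        simp only [map_smul, map_add, hJ]
        match_scalars <;> field_simp)
      have h2 : y ∈ U := (hU _).2 (hu.1 (by
        rw [hN, map_smul, hy]
        simp only [map_smul, map_sub, hJ]
        match_scalars <;> field_simp))
      refine ⟨((2⁻¹ : Ω) • (⟨_, h1⟩ + ⟨y, h2⟩), (2⁻¹ : Ω) • (⟨_, h1⟩ - ⟨y, h2⟩)), ?_⟩
      rw [hF]
      simp only [Submodule.coe_smul, Submodule.coe_add, Submodule.coe_sub]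
      rw [← smul_sub, add_sub_sub_cancel, map_smul, map_add, hy]
      match_scalars <;> field_simp <;> ring
  let v := finBasis Ω U
  let w := (v.prod v).map (LinearEquiv.ofBijective F hb)
  have w1 : ∀ j, w (.inl j) = v j + N (v j) := fun j => by
    simp [w, hF, Basis.prod_apply]
  have w2 : ∀ j, w (.inr j) = v j - N (v j) := fun j => by
    simp [w, hF, Basis.prod_apply, sub_eq_add_neg]
  let μ : Fin (finrank Ω U) ⊕ Fin (finrank Ω U) → Ω :=
    Sum.elim (fun j => (j : ℕ) + 1) fun j => -((j : ℕ) + 1)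
  have j1 : ∀ j, J (w (.inl j)) = s • w (.inr j) := fun j => by
    rw [w1, w2, map_add, (hU _).1 (v j).2, hJN _ (v j).2, smul_sub, sub_eq_add_neg]
  have j2 : ∀ j, J (w (.inr j)) = s • w (.inl j) := fun j => by
    rw [w1, w2, map_sub, (hU _).1 (v j).2, hJN _ (v j).2, smul_add, sub_neg_eq_add]
  refine ⟨Matrix.toLin w w (Matrix.diagonal μ), w.ext fun p => ?_, ?_⟩
  · have hY : ∀ p, Matrix.toLin w w (Matrix.diagonal μ) (w p) = μ p • w p := fun p => by
      simp [Matrix.toLin_self, Matrix.diagonal_apply]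
    rcases p with j | j <;>
      simp only [End.mul_apply, LinearMap.neg_apply, hY, map_smul, j1, j2, μ, Sum.elim_inl,
        Sum.elim_inr] <;> module
  · rw [Matrix.charpoly_toLin, Matrix.charpoly_diagonal]
    refine separable_prod_X_sub_C_iff.2 ?_
    rintro (a | a) (b | b) hab <;> simp only [μ, Sum.elim_inl, Sum.elim_inr] at hab
    · exact congrArg _ (Fin.ext (Nat.cast_injective (add_right_cancel hab)))
    · exact absurd (eq_neg_iff_add_eq_zero.1 hab) (by norm_cast)
    · exact absurd (neg_eq_iff_add_eq_zero.1 hab) (by norm_cast)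
    · exact congrArg _ (Fin.ext (Nat.cast_injective (add_right_cancel (neg_injective hab))))

variable {D : Dat.{u, v, w}} (T : Tow D)

/-- the elements which anticommute with `i₀` -/
def An : Submodule D.K D.B where
  carrier := {x | x * T.i₀ = -(T.i₀ * x)}
  add_mem' {a b} ha hb := by
    simp only [Set.mem_ofPred_eq] at *; rw [add_mul, mul_add, ha, hb, neg_add]
  zero_mem' := by simp
  smul_mem' c x hx := by
    simp only [Set.mem_ofPred_eq] at *; rw [smul_mul_assoc, mul_smul_comm, hx, smul_neg]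

theorem mem_An {x : D.B} : x ∈ An T ↔ x * T.i₀ = -(T.i₀ * x) := Iff.rfl

theorem An_star (x : D.B) (hx : x ∈ An T) : star x ∈ An T := by
  have a1 := congrArg star ((mem_An T).1 hx)
  rw [star_neg, star_mul, star_mul, star_i₀, neg_mul, mul_neg, neg_neg] at a1
  exact a1.symm

/-- a hermitian unit which anticommutes with `i₀`, with separable reduced polynomial -/
theorem exists_an : ∃ x ∈ An T, star x = x ∧ (rch D.K x).Separable := by
  classical
  obtain ⟨e, h1, -, h3⟩ := exists_herm_family (Quad.ne (k := D.k)) (An T) (An_star T)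
  obtain ⟨P, hP, hP'⟩ := exists_discP (K := D.K) e
  let Ω := AlgebraicClosure D.K
  let φ := sp D.K D.B
  let ε : D.K := algebraMap D.k D.K T.ε
  have hε : ε ≠ 0 := (_root_.map_ne_zero _).2 T.ε.ne_zero
  have hi : T.i₀ * T.i₀ = algebraMap D.K D.B ε := by
    rw [i₀_sq, IsScalarTower.algebraMap_apply D.k D.K D.B]
  have hε' : algebraMap D.K Ω ε ≠ 0 := (_root_.map_ne_zero _).2 hε
  obtain ⟨s, hs⟩ := IsAlgClosed.exists_eq_mul_self (algebraMap D.K Ω ε)
  have hJ : φ T.i₀ * φ T.i₀ = (s * s) • 1 := by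
    rw [← map_mul, hi, AlgHom.commutes, ← hs, IsScalarTower.algebraMap_apply D.K Ω,
      Algebra.algebraMap_eq_smul_one]
  obtain ⟨Y, hY, hY'⟩ := wit (Matrix.toLin' (φ T.i₀)) (Matrix.toLin' (φ T.n))
    (s := s) (by rintro rfl; exact hε' (by simpa using hs))
    (fun x => by rw [← Matrix.toLin'_mul_apply, hJ]; simp)
    (fun x => by
      rw [← Matrix.toLin'_mul_apply, ← Matrix.toLin'_mul_apply, ← map_mul, ← map_mul, n_i₀]; simp)
    ((Module.End.isUnit_iff _).1 ((T.unit_n.map φ).map Matrix.toLinAlgEquiv'))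
  obtain ⟨M, rfl⟩ := Matrix.toLin'.surjective Y
  rw [Matrix.charpoly_toLin'] at hY'
  have hM : M * φ T.i₀ = -(φ T.i₀ * M) := Matrix.toLin'.injective (by
    rw [map_neg, Matrix.toLin'_mul, Matrix.toLin'_mul]; exact hY)
  have : Nonempty (Fin (deg D.K D.B)) := ⟨⟨0, deg_pos D.K D.B⟩⟩
  let b := mapBasis (L := Ω) (Module.finBasis D.K D.B) φ.toRingHom
    (by rw [finrank_mat]; exact sp_card.symm)
  have key : ∀ Z, (s * s) • Z - φ T.i₀ * Z * φ T.i₀ ∈
      Submodule.span Ω (Set.range fun j => φ (e j)) := fun Z => by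
    rw [← b.sum_repr Z, Finset.smul_sum, Finset.mul_sum, Finset.sum_mul, ← Finset.sum_sub_distrib]
    refine Submodule.sum_mem _ fun j _ => ?_
    rw [smul_comm, mul_smul_comm, smul_mul_assoc, ← smul_sub]
    refine Submodule.smul_mem _ _ ?_
    have hx : ∀ x : D.B, ε • x - T.i₀ * x * T.i₀ ∈ An T := fun x => by
      rw [mem_An, sub_mul, mul_sub, mul_assoc _ T.i₀, hi, ← mul_assoc, ← mul_assoc, hi,
        ← Algebra.commutes, ← Algebra.smul_def, ← Algebra.smul_def, mul_smul_comm, neg_sub]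
    obtain ⟨c, hc⟩ := (Submodule.mem_span_range_iff_exists_fun D.K).1
      (h3 ▸ hx (Module.finBasis D.K D.B j))
    have := congrArg φ hc
    rw [map_sub, map_mul, map_mul, map_smul, ← algebraMap_smul Ω ε, hs, sp_sum] at this
    rw [mapBasis_apply]
    exact this ▸ Submodule.sum_mem _ fun i _ =>
      Submodule.smul_mem _ _ (Submodule.subset_span ⟨i, rfl⟩)
  obtain ⟨y, hy⟩ := (Submodule.mem_span_range_iff_exists_fun _).1
    (key ((2 * algebraMap D.K Ω ε)⁻¹ • M))
  have hy' : ∑ j, y j • φ (e j) = M := by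
    rw [hy, mul_smul_comm, smul_mul_assoc, mul_assoc (φ _), hM, mul_neg, ← mul_assoc, hJ, ← hs,
      smul_mul_assoc, one_mul]
    match_scalars
    linear_combination inv_mul_cancel₀ (mul_ne_zero two_ne_zero hε')
  have h0 : P ≠ 0 := fun h0 => hP' y (hy' ▸ hY') (by simp [h0])
  obtain ⟨x, hx, h'⟩ := mv_exists_ne (RingHom.id D.K) (fun _ => {c : D.K | star c = c})
    (fun _ => infinite_fixed) h0
  exact ⟨_, (An T).sum_mem fun i _ => (An T).smul_mem _ (h1 i).1,
    star_sum_smul (fun i => (h1 i).2) hx, (hP x).1 h'⟩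

/-- the base point -/
theorem exists_base : ∃ (P : D.k[X]) (th : T.C), P.Separable ∧ T.HC P th ∧ IsUnit th := by
  obtain ⟨κ, hκ, h1, h2⟩ := exists_an T
  have hn : (T.unit_n.unit : D.B) * T.i₀ = -(T.i₀ * T.unit_n.unit) := n_i₀ T
  have hκ' : κ * T.i₀ = -(T.i₀ * κ) := hκ
  let c : T.C := ⟨κ * ↑T.unit_n.unit⁻¹, mem_C T (T.unit_n.unit.mul_left_inj.1 (by
    rw [mul_assoc, ← neg_eq_iff_eq_neg.2 hn, mul_neg, ← mul_assoc, Units.inv_mul_cancel_right,
      mul_assoc, Units.inv_mul_cancel_right, hκ', neg_neg]))⟩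
  let d : T.C := ⟨T.unit_n.unit * κ, mem_C T (by
    rw [mul_assoc, hκ', mul_neg, ← mul_assoc, hn]; noncomm_ring)⟩
  have a1 : sqC T κ hκ' = c * d := Subtype.ext (by
    change κ * κ = κ * _ * (_ * κ)
    rw [mul_assoc, Units.inv_mul_cancel_left])
  have a2 : cj T _ hn (sqC T κ hκ') = d * c := Subtype.ext (by
    change _ * (κ * κ) * _ = _ * κ * (κ * _)
    simp only [mul_assoc])
  have a3 : star (sqC T κ hκ') = sqC T κ hκ' :=
    Subtype.ext (by change star (κ * κ) = κ * κ; rw [star_mul, h1])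
  obtain ⟨P, hP⟩ : ∃ P : D.k[X], P.map (algebraMap D.k T.E) = rch T.E (sqC T κ hκ') :=
    (mem_lifts _).1 ((lifts_iff_coeff_lifts _).2 fun j => fix₀ T
      (by rw [← starRingEnd_apply, ← coeff_map, rch_herm a3])
      (by
        have := rch_cj hn (sqC T κ hκ')
        rw [a2, rch_mul_comm, ← a1] at this
        exact (coeff_map (T.σ : T.E →+* T.E) j).symm.trans (congrArg (coeff · j) this.symm)))
  have hm : P.Monic := monic_of_injective (algebraMap D.k T.E).injective (hP ▸ rch_monic T.E _)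
  have hd : P.natDegree = deg T.E T.C := by
    rw [← natDegree_map (algebraMap D.k T.E), hP, rch_natDegree]
  have b1 : aeval κ ((expand D.k 2 P).map (algebraMap D.k D.K)) = 0 := by
    rw [aeval_map_algebraMap, expand_aeval, sq]
    exact (coe_aeval T (sqC T κ hκ') P).symm.trans (by rw [hP, aeval_rch]; rfl)
  have b2 : (expand D.k 2 P).map (algebraMap D.k D.K) = rch D.K κ := by
    rw [← minpoly_eq_rch_of_squarefree h2.squarefree]
    refine eq_of_monic_of_dvd_of_natDegree_le (minpoly.monic (Algebra.IsIntegral.isIntegral κ))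
      ((hm.expand two_pos).map _) (minpoly.dvd _ _ b1) ?_
    rw [regular_of_squarefree h2.squarefree, natDegree_map, natDegree_expand, hd,
      ← Cz.finrank_mul_deg T.i, T.fr, mul_comm]
  have b3 : Squarefree (expand D.k 2 P) :=
    ((separable_map (algebraMap D.k D.K)).1 (b2 ▸ h2)).squarefree
  have b4 : Squarefree P := fun Q hQ => (isLocalHom_expand D.k two_pos).map_nonunit Q
    (b3 _ (by rw [← map_mul]; exact _root_.map_dvd (expand D.k 2) hQ))
  refine ⟨P, sqC T κ hκ', PerfectField.separable_iff_squarefree.2 b4, ⟨a3, ?_⟩, ?_⟩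
  · rw [Polynomial.map_map, ← IsScalarTower.algebraMap_eq, hP]
  · rw [isUnit_iff_Nrd (K := T.E), Nrd_def, ← hP, coeff_map]
    refine mul_ne_zero (by simp) ((_root_.map_ne_zero _).2 fun h0 => not_isUnit_X (b3 X ?_))
    rw [← sq, ← expand_X (R := D.k) 2]
    exact _root_.map_dvd (expand D.k 2) (X_dvd_iff.2 h0)

end Crest.Agent.T24.Evn.K42
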