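import Crest.Agent.T24.EvIndB_15
import Crest.Agent.T24.EvBr_21
import Crest.Agent.T24.EvnLam_42
import Crest.Agent.T24.EvnTh_62
import Crest.Agent.T24.EvnGd_7
import Crest.Agent.T24.EvnKap_42
import Crest.Agent.T24.EvnSpq_22
import Crest.Agent.T24.EvnAdj_67
import Crest.Agent.T24.EvnEis_61
import Crest.Agent.T24.Ct2_10
import Crest.Agent.T24.Sa_92

/-!
# Row 24, even step (helper42): everything but the quaternion step plugged in
-/

set_option autoImplicit false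

namespace Crest.Agent.T24

universe u v w

theorem Evn.gd : Evn.GdStmt.{u, v, w} := Evn.gdStmt Evn.kapStmt Evn.spqStmt Evn.adjStmt Evn.twStmt

theorem Evn.lam_of (h : Ct2.Ct2Stmt.{u, v, w, u}) : Evn.LamStmt.{u, v, w} :=
  Evn.lamStmt42 h Evn.th0Stmt Evn.eisStmt Evn.gd

theorem Evn.cenEven_of_ct (hS : SaStmt.{u, v, w}) (hO : CenOddStmt.{u, v, w})
    (h : Ct2.Ct2Stmt.{u, v, w, u}) : CenEvenStmt.{u, v, w} :=
  Evn.cenEven_top hS hO h (Ev.ct2CStmt' h) (Evn.lam_of h)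

/-- the row from the four modules that are still open -/
theorem mp_of₄ (hS : SaStmt.{u, v, w}) (h1 : Na.IndepStmt.{u, v, w}) (hO : CenOddStmt.{u, v, w})
    (h : Ct2.Ct2Stmt.{u, v, w, u}) : MPStmt.{u, v, w} :=
  mp_of₃ hS h1 hO h (Ev.ct2CStmt' h) (Evn.lam_of h)

theorem Evn.lam : Evn.LamStmt.{u, v, w} := Evn.lam_of Ct2.ct2Stmt

theorem Evn.cenEven (hO : CenOddStmt.{u, v, w}) : CenEvenStmt.{u, v, w} :=
  Evn.cenEven_of_ct Sa.saStmt hO Ct2.ct2Stmt

/-- the row from the two modules that are still open -/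
theorem mp_of₅ (h1 : Na.IndepStmt.{u, v, w}) (hO : CenOddStmt.{u, v, w}) : MPStmt.{u, v, w} :=
  mp_of₄ Sa.saStmt h1 hO Ct2.ct2Stmt

end Crest.Agent.T24
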