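import Crest.Agent.T24.Def_26

/-!
# Row 24 (helper33): the statement of the row from `MPStmt`, `ValStmt`, `CofStmt`
-/

set_option autoImplicit false

namespace Crest.Agent.T24

open Module WithZero Csa Asa Crest.NumberTheoryR.UnitaryMP

universe u v w

theorem fin (hM : MPStmt.{u, v, w}) (hV : ValStmt.{u, v, w}) (hC : CofStmt.{u, v, w})
    (k : Type u) (K : Type v) [Field k] [NumberField k] [Field K] [NumberField K] [Algebra k K]
    (hK : Module.finrank k K = 2) (σ : K ≃ₐ[k] K) (hσ : σ ≠ AlgEquiv.refl)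
    (B : Type w) [Ring B] [Algebra K B] [Algebra.IsCentral K B] [IsSimpleRing B]
    (d : ℕ) (hd : 3 ≤ d) (hB : Module.finrank K B = d ^ 2)
    (τ : B →+ B) (hτ : IsUnitaryInvolution σ τ)
    (L : Type*) [Field L] [Algebra K L] (φ : B →ₐ[K] Matrix (Fin d) (Fin d) L)
    {ι : Type*} (e : Module.Basis ι K B)
    (N : Set B) (hNG : N ⊆ specialUnitary τ φ) (h1 : (1 : B) ∈ N)
    (hmul : ∀ x ∈ N, ∀ y ∈ N, x * y ∈ N) (hinv : ∀ x ∈ N, τ x ∈ N)
    (hnormal : ∀ g ∈ specialUnitary τ φ, ∀ x ∈ N, g * x * τ g ∈ N)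
    (hnoncentral : ∃ x ∈ N, ∃ g ∈ specialUnitary τ φ, x * g ≠ g * x) :
    ∃ m : ℕ, ∀ g ∈ specialUnitary τ φ, CongruenceNear σ e m g → g ∈ N := by
  classical
  let : StarRing K :=
    { star := σ, star_involutive := sigma_sigma hK hσ, star_add := map_add σ
      star_mul := fun x y => (map_mul σ x y).trans (mul_comm _ _) }
  let : StarRing B := { star := τ, star_involutive := hτ.2.1, star_add := map_add τ, star_mul := hτ.1 }
  have : StarModule K B := ⟨fun c x => by
    show τ (c • x) = σ c • τ x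
    rw [Algebra.smul_def, hτ.1, hτ.2.2, Algebra.smul_def, Algebra.commutes]⟩
  have : Quad k K := ⟨hK, σ.commutes, by
    by_contra h
    push Not at h
    exact hσ (AlgEquiv.ext h)⟩
  have : FiniteDimensional K B := Module.finite_of_finrank_pos (by rw [hB]; positivity)
  let : Algebra k B := Algebra.compHom B (algebraMap k K)
  have : IsScalarTower k K B := IsScalarTower.of_algebraMap_eq' rfl
  let D : Dat.{u, v, w} := ⟨k, K, B⟩
  have hdeg : deg K B = d := deg_eq K hB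
  have hdet : ∀ b : B, (φ b).det = 1 ↔ Nrd K b = 1 := det_eq_one_iff φ (by simpa using hB)
  have hu : ∀ g ∈ specialUnitary τ φ, g ∈ unitary B := fun g hg =>
    haveI := IsArtinianRing.of_finite K B
    ⟨hg.1, mul_eq_one_comm.1 hg.1⟩
  have hs : ∀ u : unitary B, u ∈ SU K B ↔ (u : B) ∈ specialUnitary τ φ := fun u =>
    ⟨fun h => ⟨u.2.1, (hdet _).2 h⟩, fun h => (hdet _).1 h.2⟩
  let N' : Subgroup (unitary B) :=
    { carrier := {u | (u : B) ∈ N}, one_mem' := h1, mul_mem' := fun ha hb => hmul _ ha _ hb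
      inv_mem' := fun ha => hinv _ ha }
  obtain ⟨m, hm⟩ := hM D (hdeg ▸ hd) N' ⟨fun u h => (hs u).2 (hNG h),
    fun g hg x hx => hnormal _ ((hs g).1 hg) _ hx, by
      obtain ⟨x, hx, g, hg, h⟩ := hnoncentral
      exact ⟨⟨x, hu x (hNG hx)⟩, hx, ⟨g, hu g hg⟩, (hs _).2 hg, fun h' => h (congrArg Subtype.val h')⟩⟩
  obtain ⟨hT, hU⟩ : Val K B := hV D (hdeg ▸ by omega)
  have := Module.Finite.finite_basis e
  have := Fintype.ofFinite ι
  let j : ι ≃ Fin (finrank K B) := Fintype.equivFinOfCardEq (finrank_eq_card_basis e).symm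
  choose! f hf using fun w (hw : w ∈ TT K B) => (hC D w hw.2 (e.reindex j) m).1
  obtain ⟨M, hM'⟩ := (hT.image f).bddAbove
  refine ⟨M, fun g hg hc => hm (x := ⟨g, hu g hg⟩) ⟨(hs _).2 hg, fun w hw => hf w hw _ fun i => ?_⟩⟩
  rw [Basis.repr_reindex_apply]
  exact (hc w hw.1 ((hU w).2 hw.2) _).trans (exp_neg_anti (hM' ⟨w, hw, rfl⟩))

end Crest.Agent.T24
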