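import Mathlib

/-! Row 24: additive strong approximation for a number field (away from one finite place). -/

set_option autoImplicit false

open scoped NumberField
open IsDedekindDomain WithZero NumberField

noncomputable section

namespace Crest.Agent.T24.Line

variable {k : Type*} [Field k] [NumberField k]

theorem fin_gt (x : k) : {v : HeightOneSpectrum (𝓞 k) | 1 < v.valuation k x}.Finite :=
  HeightOneSpectrum.Support.finite (R := 𝓞 k) x

theorem fin_ne {x : k} (hx : x ≠ 0) :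
    {v : HeightOneSpectrum (𝓞 k) | v.valuation k x ≠ 1}.Finite := by
  refine ((fin_gt x).union (fin_gt x⁻¹)).subset fun v hv => ?_
  rcases lt_or_gt_of_ne (show v.valuation k x ≠ 1 from hv) with h | h
  · right
    simp only [Set.mem_ofPred_eq, map_inv₀]
    exact (one_lt_inv₀ (by simpa [zero_lt_iff] using hx)).2 h
  · exact Or.inl h

theorem exists_exp_le {γ : ℤᵐ⁰} (h : γ ≠ 0) : ∃ e : ℕ, exp (-(e : ℤ)) ≤ γ := by
  refine ⟨(-log γ).toNat, ?_⟩
  conv_rhs => rw [← exp_log h]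
  rw [exp_le_exp]
  omega

theorem val_int (v : HeightOneSpectrum (𝓞 k)) (n : ℤ) : v.valuation k (n : k) ≤ 1 := by
  simpa using v.valuation_le_one (K := k) (n : 𝓞 k)

theorem val_nat (v : HeightOneSpectrum (𝓞 k)) (n : ℕ) : v.valuation k (n : k) ≤ 1 := by
  simpa using val_int v (n : ℤ)

theorem exp_neg_le_one (m : ℕ) : (exp (-(m : ℤ)) : ℤᵐ⁰) ≤ 1 := by
  rw [← exp_zero, exp_le_exp]; omega

/-- Chinese remainder theorem with denominators -/
theorem crt (P : Finset (HeightOneSpectrum (𝓞 k))) (a : HeightOneSpectrum (𝓞 k) → k) (m : ℕ) :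
    ∃ y : k, (∀ v ∈ P, v.valuation k (y - a v) ≤ exp (-(m : ℤ))) ∧
      ∀ v, v ∉ P → v.valuation k y ≤ 1 := by
  classical
  obtain ⟨⟨D, hD⟩, hDa⟩ := IsLocalization.exist_integer_multiples (nonZeroDivisors (𝓞 k)) P a
  have hD0 : (D : k) ≠ 0 := by
    have := nonZeroDivisors.ne_zero hD
    exact_mod_cast this
  have hz : ∀ v, ∃ z : 𝓞 k, (z : k) = if v ∈ P then D * a v else 0 := by
    intro v
    by_cases hv : v ∈ P
    · obtain ⟨z, hz⟩ := hDa v hv
      refine ⟨z, ?_⟩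
      rw [if_pos hv]
      simpa [Algebra.smul_def] using hz
    · exact ⟨0, by simp [hv]⟩
  choose z hz using hz
  have he : ∀ v : HeightOneSpectrum (𝓞 k), ∃ e : ℕ,
      exp (-(e : ℤ)) ≤ v.valuation k (D : k) * exp (-(m : ℤ)) := fun v =>
    exists_exp_le (mul_ne_zero (by simpa using hD0) (by simp))
  choose e he using he
  obtain ⟨y, hy⟩ := IsDedekindDomain.exists_forall_sub_mem_ideal
    (s := P ∪ (fin_ne hD0).toFinset) (fun v : HeightOneSpectrum (𝓞 k) => v.asIdeal) e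
    (fun v _ => v.prime) (fun v _ w _ h h' => h (HeightOneSpectrum.ext h')) (fun v => z v.1)
  have hy' : ∀ v ∈ P ∪ (fin_ne hD0).toFinset,
      v.valuation k (((y : k) - z v) / D) ≤ exp (-(m : ℤ)) := by
    intro v hv
    have h1 := (v.intValuation_le_pow_iff_mem _ _).2 (hy v hv)
    rw [← v.valuation_of_algebraMap (K := k)] at h1
    have h2 : v.valuation k ((y : k) - z v) ≤ v.valuation k (D : k) * exp (-(m : ℤ)) := by
      refine le_trans ?_ (he v)
      simpa using h1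
    rw [map_div₀, div_le_iff₀ (by simpa [zero_lt_iff] using hD0), mul_comm]
    exact h2
  refine ⟨y / D, fun v hv => ?_, fun v hv => ?_⟩
  · have := hy' v (Finset.mem_union_left _ hv)
    rw [hz, if_pos hv] at this
    convert this using 2
    field_simp
  · by_cases h : v.valuation k (D : k) = 1
    · rw [map_div₀, h, div_one]
      exact v.valuation_le_one y
    · have := hy' v (Finset.mem_union_right _ (by simpa using h))
      rw [hz, if_neg hv, sub_zero] at this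
      exact this.trans (exp_neg_le_one m)

/-- bounded covering radius of the ring of integers -/
theorem cover (k : Type*) [Field k] [NumberField k] :
    ∃ C : ℝ, 0 < C ∧ ∀ x : k, ∃ y : 𝓞 k, ∀ φ : k →+* ℂ, ‖φ (x - y)‖ ≤ C := by
  let b := integralBasis k
  refine ⟨1 + ∑ φ : k →+* ℂ, ∑ i, ‖φ (b i)‖, by positivity, fun x => ?_⟩
  refine ⟨∑ i, ⌊b.repr x i⌋ • RingOfIntegers.basis k i, fun φ => ?_⟩
  have h1 : x - ((∑ i, ⌊b.repr x i⌋ • RingOfIntegers.basis k i : 𝓞 k) : k) =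
      ∑ i, ((Int.fract (b.repr x i) : ℚ) : k) * b i := by
    have h0 : ((∑ i, ⌊b.repr x i⌋ • RingOfIntegers.basis k i : 𝓞 k) : k) =
        ∑ i, (⌊b.repr x i⌋ : k) * b i := by
      change algebraMap (𝓞 k) k _ = _
      rw [map_sum]
      refine Finset.sum_congr rfl fun i _ => ?_
      rw [map_zsmul, zsmul_eq_mul, ← integralBasis_apply]
    have h2 : x = ∑ i, ((b.repr x i : ℚ) : k) * b i := by
      simp only [← Rat.smul_def, b.sum_repr]
    rw [h0, sub_eq_iff_eq_add, ← Finset.sum_add_distrib]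
    refine h2.trans (Finset.sum_congr rfl fun i _ => ?_)
    rw [Int.fract]
    push_cast
    ring
  rw [h1, map_sum]
  calc _ ≤ ∑ i, ‖φ (b i)‖ := by
        refine (norm_sum_le _ _).trans (Finset.sum_le_sum fun i _ => ?_)
        rw [map_mul, norm_mul, map_ratCast, Complex.norm_ratCast]
        refine mul_le_of_le_one_left (norm_nonneg _) ?_
        rw [abs_of_nonneg (by exact_mod_cast Int.fract_nonneg _)]
        exact_mod_cast (Int.fract_lt_one _).le
    _ ≤ ∑ φ : k →+* ℂ, ∑ i, ‖φ (b i)‖ :=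
        Finset.single_le_sum (f := fun φ : k →+* ℂ => ∑ i, ‖φ (b i)‖)
          (fun _ _ => by positivity) (Finset.mem_univ φ)
    _ ≤ _ := by linarith

/-- non-zero `v₀`-integers that are small at all archimedean places -/
theorem small0 (v₀ : HeightOneSpectrum (𝓞 k)) {δ : ℝ} (hδ : 0 < δ) :
    ∃ l : k, l ≠ 0 ∧ (∀ v, v ≠ v₀ → v.valuation k l ≤ 1) ∧ ∀ φ : k →+* ℂ, ‖φ l‖ < δ := by
  obtain ⟨u, hu⟩ := v₀.valuation_exists_uniformizer k
  obtain ⟨p, hp1, hp2⟩ := crt {v₀} (fun _ => u⁻¹) 0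
  have hu' : 1 < v₀.valuation k u⁻¹ := by
    rw [map_inv₀, hu, ← exp_neg, ← exp_zero, exp_lt_exp]; norm_num
  have hp : 1 < v₀.valuation k p := by
    have h1 := hp1 v₀ (Finset.mem_singleton_self _)
    have h2 : v₀.valuation k (p - u⁻¹) < v₀.valuation k u⁻¹ :=
      lt_of_le_of_lt (by simpa using h1) hu'
    have h3 := (v₀.valuation k).map_add_eq_of_lt_right h2
    rw [sub_add_cancel] at h3
    rwa [h3]
  obtain ⟨C, -, hC⟩ := cover k
  choose y hy using hC
  let x : ℕ → k := fun n => p ^ (n + 1) - y (p ^ (n + 1))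
  have hx : ∀ n, v₀.valuation k (x n) = v₀.valuation k p ^ (n + 1) := by
    intro n
    rw [← map_pow]
    refine (v₀.valuation k).map_sub_eq_of_lt_left ?_
    rw [map_pow]
    exact lt_of_le_of_lt (v₀.valuation_le_one _) (one_lt_pow₀ hp (Nat.succ_ne_zero n))
  have hinj : Function.Injective x := by
    intro n n' h
    have := hx n
    rw [h, hx n'] at this
    have := pow_right_injective₀ (zero_lt_one.trans hp) hp.ne' this
    omega
  let e : ℕ → (k →+* ℂ) → ℂ := fun n φ => φ (x n)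
  have hb : ∀ n, e n ∈ Metric.closedBall (0 : (k →+* ℂ) → ℂ) |C| := by
    intro n
    rw [mem_closedBall_zero_iff, pi_norm_le_iff_of_nonneg (abs_nonneg C)]
    exact fun φ => (hy _ φ).trans (le_abs_self C)
  obtain ⟨a, -, σ, hσ, hlim⟩ := (isCompact_closedBall _ _).tendsto_subseq hb
  obtain ⟨N, hN⟩ := Metric.cauchySeq_iff.1 hlim.cauchySeq δ hδ
  refine ⟨x (σ (N + 1)) - x (σ N), sub_ne_zero.2 fun h => ?_, fun v hv => ?_, fun φ => ?_⟩
  · have := hσ.injective (hinj h); omega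
  · have h1 : ∀ n, v.valuation k (x n) ≤ 1 := fun n =>
      (v.valuation k).map_sub_le (by
        rw [map_pow]; exact pow_le_one₀ zero_le (hp2 v (by simpa using hv)))
        (v.valuation_le_one _)
    exact (v.valuation k).map_sub_le (h1 _) (h1 _)
  · have h1 := hN (N + 1) (Nat.le_succ N) N le_rfl
    rw [dist_eq_norm] at h1
    refine lt_of_le_of_lt ?_ h1
    have := norm_le_pi_norm ((e ∘ σ) (N + 1) - (e ∘ σ) N) φ
    simpa [e] using this

theorem sum_bound (r : k) (φ : k →+* ℂ) : ‖φ r‖ ≤ ∑ ψ : k →+* ℂ, ‖ψ r‖ :=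
  Finset.single_le_sum (f := fun ψ : k →+* ℂ => ‖ψ r‖) (fun _ _ => norm_nonneg _)
    (Finset.mem_univ φ)

/-- the same, deep at a finite set of places -/
theorem small (P : Finset (HeightOneSpectrum (𝓞 k))) (v₀ : HeightOneSpectrum (𝓞 k))
    (hv₀ : v₀ ∉ P) (m : ℕ) {δ : ℝ} (hδ : 0 < δ) :
    ∃ l : k, l ≠ 0 ∧ (∀ v ∈ P, v.valuation k l ≤ exp (-(m : ℤ))) ∧
      (∀ v, v ≠ v₀ → v.valuation k l ≤ 1) ∧ ∀ φ : k →+* ℂ, ‖φ l‖ < δ := by
  have hI : (∏ v ∈ P, v.asIdeal ^ m : Ideal (𝓞 k)) ≠ ⊥ :=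
    Finset.prod_ne_zero_iff.2 fun v _ => pow_ne_zero _ v.ne_bot
  obtain ⟨r, hr, hr0⟩ := Submodule.exists_mem_ne_zero_of_ne_bot hI
  have hr' : ∀ v ∈ P, v.valuation k (r : k) ≤ exp (-(m : ℤ)) := by
    intro v hv
    have h1 := (v.intValuation_le_pow_iff_mem r m).2
      (Ideal.le_of_dvd (Finset.dvd_prod_of_mem _ hv) hr)
    rwa [← v.valuation_of_algebraMap (K := k)] at h1
  have hR : 0 < 1 + ∑ ψ : k →+* ℂ, ‖ψ (r : k)‖ := by positivity
  obtain ⟨l, hl0, hl1, hl2⟩ := small0 v₀ (div_pos hδ hR)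
  refine ⟨r * l, mul_ne_zero (by exact_mod_cast hr0) hl0, fun v hv => ?_, fun v hv => ?_,
    fun φ => ?_⟩
  · rw [map_mul]
    exact (mul_le_of_le_one_right' (hl1 v (by rintro rfl; exact hv₀ hv))).trans (hr' v hv)
  · rw [map_mul]
    exact mul_le_one' (v.valuation_le_one r) (hl1 v hv)
  · rw [map_mul, norm_mul]
    have h1 := (lt_div_iff₀ hR).1 (hl2 φ)
    have h2 := sum_bound (r : k) φ
    nlinarith [norm_nonneg (φ l), norm_nonneg (φ r)]

/-- the set of solutions of a strong approximation problem -/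
def Box (P : Finset (HeightOneSpectrum (𝓞 k))) (v₀ : HeightOneSpectrum (𝓞 k))
    (a : HeightOneSpectrum (𝓞 k) → k) (m : ℕ) (x : k) (ε : ℝ) : Set k :=
  {y | (∀ v ∈ P, v.valuation k (y - a v) ≤ exp (-(m : ℤ))) ∧
    (∀ v, v ∉ P → v ≠ v₀ → v.valuation k y ≤ 1) ∧ ∀ φ : k →+* ℂ, ‖φ (y - x)‖ < ε}

/-- **Strong approximation** for the additive group of a number field. -/
theorem sa (P : Finset (HeightOneSpectrum (𝓞 k))) (v₀ : HeightOneSpectrum (𝓞 k))
    (hv₀ : v₀ ∉ P) (a : HeightOneSpectrum (𝓞 k) → k) (m : ℕ) (x : k) {ε : ℝ} (hε : 0 < ε) :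
    ∃ y : k, (∀ v ∈ P, v.valuation k (y - a v) ≤ exp (-(m : ℤ))) ∧
      (∀ v, v ∉ P → v ≠ v₀ → v.valuation k y ≤ 1) ∧ ∀ φ : k →+* ℂ, ‖φ (y - x)‖ < ε := by
  obtain ⟨y, hy1, hy2⟩ := crt P a m
  obtain ⟨C, hC0, hC⟩ := cover k
  obtain ⟨l, hl0, hl1, hl2, hl3⟩ := small P v₀ hv₀ m (div_pos hε hC0)
  obtain ⟨w, hw⟩ := hC ((x - y) / l)
  refine ⟨y + l * w, fun v hv => ?_, fun v hv hv' => ?_, fun φ => ?_⟩
  · rw [add_sub_right_comm]
    refine (v.valuation k).map_add_le (hy1 v hv) ?_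
    rw [map_mul]
    exact (mul_le_of_le_one_right' (v.valuation_le_one w)).trans (hl1 v hv)
  · refine (v.valuation k).map_add_le (hy2 v hv) ?_
    rw [map_mul]
    exact mul_le_one' (hl2 v hv') (v.valuation_le_one w)
  · have e : y + l * w - x = -(l * ((x - y) / l - w)) := by field_simp; ring
    rw [e, map_neg, norm_neg, map_mul, norm_mul]
    have h1 := (lt_div_iff₀ hC0).1 (hl3 φ)
    have h2 := hw φ
    nlinarith [norm_nonneg (φ l)]

theorem Box_infinite (P : Finset (HeightOneSpectrum (𝓞 k))) (v₀ : HeightOneSpectrum (𝓞 k))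
    (hv₀ : v₀ ∉ P) (a : HeightOneSpectrum (𝓞 k) → k) (m : ℕ) (x : k) {ε : ℝ} (hε : 0 < ε) :
    (Box P v₀ a m x ε).Infinite := by
  obtain ⟨y, hy1, hy2, hy3⟩ := sa P v₀ hv₀ a m x (half_pos hε)
  obtain ⟨l, hl0, hl1, hl2, hl3⟩ := small P v₀ hv₀ m (lt_min (half_pos hε) one_pos)
  obtain ⟨φ₀⟩ : Nonempty (k →+* ℂ) := inferInstance
  refine Set.infinite_of_injective_forall_mem (f := fun n : ℕ => y + l ^ (n + 1)) ?_ fun n => ?_
  · intro n n' h
    have h1 : l ^ (n + 1) = l ^ (n' + 1) := add_left_cancel h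
    have h2 : ‖φ₀ l‖ ^ (n + 1) = ‖φ₀ l‖ ^ (n' + 1) := by
      rw [← norm_pow, ← norm_pow, ← map_pow, ← map_pow, h1]
    have := pow_right_injective₀ (norm_pos_iff.2 (by simpa using hl0))
      ((hl3 φ₀).trans_le (min_le_right _ _)).ne h2
    omega
  · refine ⟨fun v hv => ?_, fun v hv hv' => ?_, fun φ => ?_⟩
    · rw [add_sub_right_comm]
      refine (v.valuation k).map_add_le (hy1 v hv) ?_
      rw [map_pow, pow_succ]
      exact (mul_le_of_le_one_left' (pow_le_one₀ zero_le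
        ((hl1 v hv).trans (exp_neg_le_one m)))).trans (hl1 v hv)
    · refine (v.valuation k).map_add_le (hy2 v hv hv') ?_
      rw [map_pow]
      exact pow_le_one₀ zero_le (hl2 v hv')
    · rw [add_sub_right_comm, map_add, map_pow]
      have h1 := (hl3 φ).trans_le (min_le_left _ _)
      have h2 := (hl3 φ).trans_le (min_le_right _ _)
      have h3 : ‖φ l ^ (n + 1)‖ ≤ ‖φ l‖ := by
        rw [norm_pow, pow_succ]
        exact mul_le_of_le_one_left (norm_nonneg _) (pow_le_one₀ (norm_nonneg _) h2.le)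
      have h4 := hy3 φ
      have h5 := norm_add_le (φ (y - x)) (φ l ^ (n + 1))
      linarith

end Crest.Agent.T24.Line
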