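import Crest.Agent.T24.LocG_59
import Crest.Agent.T24.Csa4_50
import Crest.Agent.T24.SaK_83

/-! Row 24, HEIS part A: convergence at a set of places, weak approximation as a filter. -/

set_option autoImplicit false
set_option linter.unusedSectionVars false

noncomputable section

namespace Crest.Agent.T24.Heis

open Module NumberField IsDedekindDomain WithZero Csa Asa Filter Topology Polynomial
open scoped NumberField Valued

variable {K : Type*} [Field K] [NumberField K]

/-- all places (embeddings at infinity) -/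
abbrev Ix (K : Type*) [Field K] : Type _ := Pl K ⊕ (K →+* ℂ)

/-- the absolute value of a place -/
def ab : Ix K → AbsoluteValue K ℝ
  | .inl w => place (algebraMap K (w.adicCompletion K))
  | .inr φ => place φ

theorem ab_inl (w : Pl K) (x : K) : ab (.inl w) x = ‖algebraMap K (w.adicCompletion K) x‖ := rfl
theorem ab_inr (φ : K →+* ℂ) (x : K) : ab (.inr φ : Ix K) x = ‖φ x‖ := rfl

theorem ab_le_iff (w : Pl K) (x y : K) :
    ab (.inl w) x ≤ ab (.inl w) y ↔ w.valuation K x ≤ w.valuation K y := by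
  rw [ab_inl, ab_inl, Valued.toNormedField.norm_le_iff, Loc.val_alg, Loc.val_alg]

theorem ab_lt_iff (w : Pl K) (x y : K) :
    ab (.inl w) x < ab (.inl w) y ↔ w.valuation K x < w.valuation K y := by
  rw [← not_le, ← not_le, ab_le_iff]

theorem exists_depth (w : Pl K) {ε : ℝ} (hε : 0 < ε) :
    ∀ᶠ m : ℕ in atTop, ∀ x : K, w.valuation K x ≤ exp (-(m : ℤ)) → ab (.inl w) x < ε := by
  obtain ⟨t, h0, h1, h⟩ := Loc.exists_exp w
  filter_upwards [(tendsto_pow_atTop_nhds_zero_of_lt_one h0.le h1).eventually (gt_mem_nhds hε)]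
    with m hm x hx
  rw [← Loc.val_alg, h] at hx
  exact hx.trans_lt hm

section Cv
variable {Z : Type*} {l : Filter Z} {J : Set (Ix K)}

/-- convergence at the places of `J` -/
def Cv (J : Set (Ix K)) (l : Filter Z) (F : Z → K) (a : K) : Prop :=
  ∀ i ∈ J, Tendsto (fun z => ab i (F z - a)) l (𝓝 0)

theorem tend_iff (v : AbsoluteValue K ℝ) (F : Z → K) (a : K) :
    Tendsto (fun z => v (F z - a)) l (𝓝 0) ↔
      Tendsto (fun z => WithAbs.toAbs v (F z)) l (𝓝 (WithAbs.toAbs v a)) := by
  rw [tendsto_iff_norm_sub_tendsto_zero (b := WithAbs.toAbs v a)]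
  rfl

namespace Cv
variable {F G : Z → K} {a b : K}

theorem const (a : K) : Cv J l (fun _ => a) a := fun i _ => by simpa using tendsto_const_nhds

theorem mono (h : Cv J l F a) {J' : Set (Ix K)} (hJ : J' ⊆ J) : Cv J' l F a :=
  fun i hi => h i (hJ hi)

theorem comp (h : Cv J l F a) {Z' : Type*} {l' : Filter Z'} {g : Z' → Z} (hg : Tendsto g l' l) :
    Cv J l' (fun z => F (g z)) a := fun i hi => (h i hi).comp hg

theorem congr' (h : Cv J l F a) (e : ∀ᶠ z in l, F z = G z) : Cv J l G a :=
  fun i hi => (h i hi).congr' (e.mono fun z hz => by simp only [hz])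

theorem congr (h : Cv J l F a) (e : ∀ z, F z = G z) (e' : a = b) : Cv J l G b :=
  e' ▸ h.congr' (.of_forall e)

theorem add (h : Cv J l F a) (h' : Cv J l G b) : Cv J l (fun z => F z + G z) (a + b) :=
  fun i hi => (tend_iff _ _ _).2 (((tend_iff _ _ _).1 (h i hi)).add ((tend_iff _ _ _).1 (h' i hi)))

theorem mul (h : Cv J l F a) (h' : Cv J l G b) : Cv J l (fun z => F z * G z) (a * b) :=
  fun i hi => (tend_iff _ _ _).2 (((tend_iff _ _ _).1 (h i hi)).mul ((tend_iff _ _ _).1 (h' i hi)))

theorem neg (h : Cv J l F a) : Cv J l (fun z => -F z) (-a) :=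
  fun i hi => (tend_iff _ _ _).2 ((tend_iff _ _ _).1 (h i hi)).neg

theorem sub (h : Cv J l F a) (h' : Cv J l G b) : Cv J l (fun z => F z - G z) (a - b) :=
  (h.add h'.neg).congr (fun _ => (sub_eq_add_neg _ _).symm) (sub_eq_add_neg _ _).symm

theorem inv (h : Cv J l F a) (ha : a ≠ 0) : Cv J l (fun z => (F z)⁻¹) a⁻¹ :=
  fun i hi => (tend_iff _ _ _).2 (((tend_iff _ _ _).1 (h i hi)).inv₀ (by
    intro h0
    exact ha (congrArg WithAbs.ofAbs h0)))

theorem div (h : Cv J l F a) (h' : Cv J l G b) (hb : b ≠ 0) :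
    Cv J l (fun z => F z / G z) (a / b) :=
  (h.mul (h'.inv hb)).congr (fun _ => (div_eq_mul_inv _ _).symm) (div_eq_mul_inv _ _).symm

theorem pow (h : Cv J l F a) (n : ℕ) : Cv J l (fun z => F z ^ n) (a ^ n) := by
  induction n with
  | zero => simpa using const 1
  | succ n ih => simpa [pow_succ] using ih.mul h

theorem sum {ι : Type*} (s : Finset ι) {F : ι → Z → K} {a : ι → K}
    (h : ∀ j ∈ s, Cv J l (F j) (a j)) : Cv J l (fun z => ∑ j ∈ s, F j z) (∑ j ∈ s, a j) := by
  classical
  induction s using Finset.induction_on with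
  | empty => simpa using const 0
  | insert j s hj ih =>
    simpa [Finset.sum_insert hj] using (h j (Finset.mem_insert_self _ _)).add
      (ih fun i hi => h i (Finset.mem_insert_of_mem hi))

theorem mv {ι : Type*} {F : ι → Z → K} {a : ι → K} (h : ∀ j, Cv J l (F j) (a j))
    (p : MvPolynomial ι K) :
    Cv J l (fun z => MvPolynomial.eval (fun j => F j z) p) (MvPolynomial.eval a p) := by
  induction p using MvPolynomial.induction_on with
  | C c => simpa using const c
  | add p q hp hq => simpa using hp.add hq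
  | mul_X p j hp => simpa using hp.mul (h j)

theorem ev_ab (h : Cv J l F a) {i : Ix K} (hi : i ∈ J) {c ε : _} (hc : ab i (a - c) < ε) :
    ∀ᶠ z in l, ab i (F z - c) < ε := by
  filter_upwards [(h i hi).eventually (gt_mem_nhds (sub_pos.2 hc))] with z hz
  have := (ab i).add_le (F z - a) (a - c)
  rw [sub_add_sub_cancel] at this
  linarith

theorem ev_ne (h : Cv J l F a) (hJ : J.Nonempty) (ha : a ≠ 0) : ∀ᶠ z in l, F z ≠ 0 := by
  obtain ⟨i, hi⟩ := hJ
  filter_upwards [(h i hi).eventually (gt_mem_nhds ((ab i).pos ha))] with z hz h0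
  simp [h0] at hz

theorem ev_val (h : Cv J l F a) {w : Pl K} (hw : Sum.inl w ∈ J) {γ : ℤᵐ⁰} (hγ : γ ≠ 0) :
    ∀ᶠ z in l, w.valuation K (F z - a) < γ := by
  obtain ⟨p, rfl⟩ := w.valuation_surjective K γ
  have hp : p ≠ 0 := by simpa using hγ
  filter_upwards [(h _ hw).eventually (gt_mem_nhds ((ab (.inl w)).pos hp))] with z hz
  exact (ab_lt_iff w _ _).1 hz

theorem ev_lt (h : Cv J l F a) {w : Pl K} (hw : Sum.inl w ∈ J) {γ : ℤᵐ⁰}
    (ha : w.valuation K a < γ) : ∀ᶠ z in l, w.valuation K (F z) < γ := by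
  filter_upwards [h.ev_val hw (ne_of_gt (lt_of_le_of_lt zero_le ha))] with z hz
  simpa using (w.valuation K).map_add_lt hz ha

theorem ev_eq (h : Cv J l F a) {w : Pl K} (hw : Sum.inl w ∈ J) (ha : a ≠ 0) :
    ∀ᶠ z in l, w.valuation K (F z) = w.valuation K a := by
  filter_upwards [h.ev_val hw (γ := w.valuation K a) (by simpa using ha)] with z hz
  simpa using (w.valuation K).map_add_eq_of_lt_right hz

theorem of_val {w : Pl K} (h : ∀ m : ℕ, ∀ᶠ z in l, w.valuation K (F z - a) ≤ exp (-(m : ℤ))) :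
    Tendsto (fun z => ab (.inl w) (F z - a)) l (𝓝 0) := by
  refine tendsto_order.2 ⟨fun ε hε => .of_forall fun z => hε.trans_le ((ab _).nonneg _),
    fun ε hε => ?_⟩
  obtain ⟨m, hm⟩ := (exists_depth w hε).exists
  exact (h m).mono fun z hz => hm _ hz

end Cv

theorem cv_inl {w : Pl K} {F : Z → K} {a : K} :
    Tendsto (fun z => ab (.inl w) (F z - a)) l (𝓝 0) ↔
      Tendsto (fun z => algebraMap K (w.adicCompletion K) (F z)) l
        (𝓝 (algebraMap K (w.adicCompletion K) a)) := by
  rw [tendsto_iff_norm_sub_tendsto_zero (b := algebraMap K (w.adicCompletion K) a)]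
  simp only [ab_inl, map_sub]

end Cv

section Places
variable (k : Type*) [Field k] [NumberField k] [Algebra k K]

/-- the place of `k` below (all archimedean places together) -/
def pr : Ix K → Option (Pl k)
  | .inl w => some (below k w)
  | .inr _ => none

/-- the filter of elements that approximate `G p` at the places over `p` -/
def lG (G : Option (Pl k) → K) : Filter K :=
  ⨅ q : Finset (Ix K) × ℕ, 𝓟 {y | ∀ i ∈ q.1, ab i (y - G (pr k i)) < 1 / ((q.2 : ℝ) + 1)}

variable {k}

theorem lG_basis (G : Option (Pl k) → K) : (lG k G).HasBasis (fun _ => True)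
    fun q : Finset (Ix K) × ℕ => {y | ∀ i ∈ q.1, ab i (y - G (pr k i)) < 1 / ((q.2 : ℝ) + 1)} := by
  classical
  refine hasBasis_iInf_principal fun q q' => ⟨(q.1 ∪ q'.1, max q.2 q'.2), fun y hy i hi => ?_,
    fun y hy i hi => ?_⟩
  · exact (hy i (Finset.mem_union_left _ hi)).trans_le
      (Nat.one_div_le_one_div (le_max_left _ _))
  · exact (hy i (Finset.mem_union_right _ hi)).trans_le
      (Nat.one_div_le_one_div (le_max_right _ _))

instance lG_neBot (G : Option (Pl k) → K) : (lG k G).NeBot := by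
  classical
  refine (lG_basis G).neBot_iff.2 fun {q} _ => ?_
  have hε : (0 : ℝ) < 1 / ((q.2 : ℝ) + 1) := Nat.one_div_pos_of_nat
  let S : Finset (Pl K) := q.1.toLeft
  obtain ⟨v₀, hv₀⟩ := exists_notMem S
  obtain ⟨m, hm⟩ := ((eventually_all_finset S).2 fun w _ => exists_depth w hε).exists
  obtain ⟨y, h1, -, h3⟩ := Line.sa S v₀ hv₀ (fun w => G (some (below k w))) m (G none) hε
  refine ⟨y, ?_⟩
  rintro (w | φ) hi
  · have hw : w ∈ S := Finset.mem_toLeft.2 hi
    exact hm w hw _ (h1 w hw)
  · exact h3 φ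

theorem cv_lG (G : Option (Pl k) → K) (p : Option (Pl k)) :
    Cv (pr k ⁻¹' {p}) (lG k G) (fun y => y) (G p) := by
  intro i hi
  refine tendsto_order.2 ⟨fun ε hε => .of_forall fun z => hε.trans_le ((ab _).nonneg _),
    fun ε hε => ?_⟩
  obtain ⟨n, hn⟩ := exists_nat_one_div_lt hε
  filter_upwards [(lG_basis G).mem_of_mem (i := ({i}, n)) trivial] with y hy
  have := hy i (Finset.mem_singleton_self i)
  rw [show pr k i = p from hi] at this
  exact this.trans hn

end Places

/-- neighbourhoods for the topology of all places -/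
def nb (c : K) : Filter K := lG K fun _ => c

theorem nb_basis (c : K) : (nb c).HasBasis (fun _ => True)
    fun q : Finset (Ix K) × ℕ => {y | ∀ i ∈ q.1, ab i (y - c) < 1 / ((q.2 : ℝ) + 1)} :=
  lG_basis _

theorem cv_nb (c : K) : Cv Set.univ (nb c) (fun y => y) c := fun i _ =>
  cv_lG (k := K) (fun _ => c) (pr K i) i rfl

theorem Cv.tendsto {Z : Type*} {l : Filter Z} {F : Z → K} {a : K} (h : Cv Set.univ l F a) :
    Tendsto F l (nb a) := by
  refine (nb_basis a).tendsto_right_iff.2 fun q _ => ?_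
  exact (eventually_all_finset q.1).2 fun i _ =>
    (h i trivial).eventually (gt_mem_nhds Nat.one_div_pos_of_nat)

theorem mem_of_nb {c : K} {V : Set K} (hV : V ∈ nb c) : c ∈ V := by
  obtain ⟨q, -, hq⟩ := (nb_basis c).mem_iff.1 hV
  exact hq fun i _ => by simpa using Nat.one_div_pos_of_nat (α := ℝ)

section Star
variable [StarRing K]

/-- the conjugates of the places of `J` are in `J'` -/
def SC (J J' : Set (Ix K)) : Prop :=
  ∀ i ∈ J, ∃ i' ∈ J', ∀ ε > 0, ∃ δ > 0, ∀ x, ab i' x < δ → ab i (star x) < ε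

theorem Cv.star {Z : Type*} {l : Filter Z} {J J' : Set (Ix K)} (hJ : SC J J') {F : Z → K} {a : K}
    (h : Cv J' l F a) : Cv J l (fun z => star (F z)) (star a) := fun i hi => by
  obtain ⟨i', hi', e⟩ := hJ i hi
  refine tendsto_order.2 ⟨fun ε hε => .of_forall fun z => hε.trans_le ((ab _).nonneg _),
    fun ε hε => ?_⟩
  obtain ⟨δ, hδ, h1⟩ := e ε hε
  filter_upwards [(h i' hi').eventually (gt_mem_nhds hδ)] with z hz
  rw [← star_sub]
  exact h1 _ hz

theorem ab_conj {w w' : Pl K} (h : ∀ x, w'.valuation K x = w.valuation K (star x)) :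
    ∀ ε > 0, ∃ δ > 0, ∀ x, ab (.inl w') x < δ → ab (.inl w) (star x) < ε := by
  intro ε hε
  obtain ⟨m, hm⟩ := (exists_depth w hε).exists
  obtain ⟨p, hp⟩ := w'.valuation_surjective K (exp (-(m : ℤ)))
  have hp0 : p ≠ 0 := by
    rintro rfl
    rw [map_zero] at hp
    exact exp_ne_zero hp.symm
  refine ⟨ab (.inl w') p, (ab _).pos hp0, fun x hx => hm _ ?_⟩
  rw [← h, ← hp]
  exact ((ab_lt_iff _ _ _).1 hx).le

theorem sc_one {w w' : Pl K} (h : ∀ x, w'.valuation K x = w.valuation K (star x)) :
    SC {Sum.inl w} {(Sum.inl w' : Ix K)} := by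
  rintro _ rfl
  exact ⟨_, rfl, ab_conj h⟩

variable (k : Type*) [Field k] [NumberField k] [Algebra k K] [Quad k K]

theorem exists_cj (w : Pl K) : ∃ w' : Pl K, below k w' = below k w ∧
    ∀ x, w'.valuation K x = w.valuation K (star x) := by
  obtain ⟨w', h⟩ := Loc.exists_conj_place starRingAut w
  refine ⟨w', HeightOneSpectrum.ext (Ideal.ext fun x => ?_), h⟩
  rw [← HeightOneSpectrum.valuation_lt_one_iff_mem (K := k),
    ← HeightOneSpectrum.valuation_lt_one_iff_mem (K := k), ← below_lt_one, ← below_lt_one, h]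
  change w.valuation K (star _) < 1 ↔ _
  rw [Quad.star_k]

theorem sc_pr (P : Set (Option (Pl k))) : SC (pr (K := K) k ⁻¹' P) (pr k ⁻¹' P) := by
  rintro (w | φ) hi
  · obtain ⟨w', h1, h2⟩ := exists_cj k w
    exact ⟨.inl w', by simpa [pr, h1] using hi, ab_conj h2⟩
  · exact ⟨.inr (φ.comp (starRingEnd K)), hi, fun ε hε => ⟨ε, hε, fun x hx => hx⟩⟩

include k in
theorem sc_univ : SC (Set.univ : Set (Ix K)) Set.univ := sc_pr k Set.univ

/-- the places over one place of `k` -/
theorem over_iff {w w' w₀ : Pl K} (h : ∀ x, w'.valuation K x = w.valuation K (star x))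
    (h0 : below k w₀ = below k w) : w₀ = w ∨ w₀ = w' := by
  classical
  by_contra hne
  rw [not_or] at hne
  obtain ⟨x, hx1, hx2⟩ : ∃ x : K, (∀ v ∈ ({w₀, w, w'} : Finset (Pl K)),
      v.valuation K (x - if v = w₀ then 0 else 1) ≤ exp (-((1 : ℕ) : ℤ))) ∧
      ∀ v, v ∉ ({w₀, w, w'} : Finset (Pl K)) → v.valuation K x ≤ 1 :=
    Line.crt _ _ 1
  have he : (exp (-((1 : ℕ) : ℤ)) : ℤᵐ⁰) < 1 := by rw [← exp_zero, exp_lt_exp]; omega
  have h1 : w₀.valuation K x < 1 := by simpa using (hx1 w₀ (by simp)).trans_lt he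
  have h2 : ∀ v, v ≠ w₀ → v ∈ ({w₀, w, w'} : Finset (Pl K)) → v.valuation K x = 1 := by
    intro v hv hv'
    have := (hx1 v hv').trans_lt he
    rw [if_neg hv] at this
    simpa using (v.valuation K).map_one_add_of_lt this
  have h3 : ∀ v : Pl K, v.valuation K x ≤ 1 := by
    intro v
    by_cases hv : v ∈ ({w₀, w, w'} : Finset (Pl K))
    · by_cases hv' : v = w₀
      · rw [hv']; exact h1.le
      · exact (h2 v hv' hv).le
    · exact hx2 v hv
  obtain ⟨c, hc⟩ := exists_of_star_eq (Quad.fr (k := k) (K := K)) Quad.star_k (Quad.ne (k := k))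
    (c := x * star x) (by rw [star_mul, star_star])
  have h4 : w₀.valuation K (algebraMap k K c) < 1 := by
    obtain ⟨v, -, hv⟩ := exists_cj k w₀
    rw [hc, map_mul, ← hv]
    exact (mul_le_of_le_one_right' (h3 v)).trans_lt h1
  rw [below_lt_one, h0, ← below_lt_one, hc, map_mul, ← h, h2 w (Ne.symm hne.1) (by simp),
    h2 w' (Ne.symm hne.2) (by simp), one_mul] at h4
  exact h4.false

end Star

section Alg
variable {B : Type*} [Ring B] [Algebra K B] [FiniteDimensional K B]
variable {Z : Type*} {l : Filter Z} {J : Set (Ix K)}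

/-- convergence in `B` -/
def CvB (J : Set (Ix K)) (l : Filter Z) (F : Z → B) (a : B) : Prop :=
  ∀ f : B →ₗ[K] K, Cv J l (fun z => f (F z)) (f a)

theorem lin_eq {ι : Type*} [Fintype ι] (e : Basis ι K B) (f : B →ₗ[K] K) (x : B) :
    f x = ∑ j, e.repr x j * f (e j) := by
  conv_lhs => rw [← e.sum_repr x, map_sum]
  simp

namespace CvB
variable {F G : Z → B} {a b : B}

theorem of_basis {ι : Type*} [Fintype ι] (e : Basis ι K B)
    (h : ∀ j, Cv J l (fun z => e.repr (F z) j) (e.repr a j)) : CvB J l F a := fun f =>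
  (Cv.sum Finset.univ fun j _ => (h j).mul (Cv.const (f (e j)))).congr
    (fun _ => (lin_eq e f _).symm) (lin_eq e f _).symm

theorem repr {ι : Type*} (e : Basis ι K B) (h : CvB J l F a) (j : ι) :
    Cv J l (fun z => e.repr (F z) j) (e.repr a j) := h (e.coord j)

theorem const (a : B) : CvB J l (fun _ => a) a := fun _ => Cv.const _

theorem comp (h : CvB J l F a) {Z' : Type*} {l' : Filter Z'} {g : Z' → Z} (hg : Tendsto g l' l) :
    CvB J l' (fun z => F (g z)) a := fun f => (h f).comp hg

theorem congr (h : CvB J l F a) (e : ∀ z, F z = G z) (e' : a = b) : CvB J l G b := by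
  obtain rfl : F = G := funext e
  exact e' ▸ h

theorem add (h : CvB J l F a) (h' : CvB J l G b) : CvB J l (fun z => F z + G z) (a + b) :=
  fun f => by simpa using (h f).add (h' f)

theorem sub (h : CvB J l F a) (h' : CvB J l G b) : CvB J l (fun z => F z - G z) (a - b) :=
  fun f => by simpa using (h f).sub (h' f)

theorem smul {c : Z → K} {c₀ : K} (hc : Cv J l c c₀) (h : CvB J l F a) :
    CvB J l (fun z => c z • F z) (c₀ • a) := fun f => by simpa using hc.mul (h f)

theorem mul (h : CvB J l F a) (h' : CvB J l G b) : CvB J l (fun z => F z * G z) (a * b) := by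
  intro f
  let e := finBasis K B
  have key : ∀ x y : B, f (x * y) = ∑ i, e.repr x i * ∑ j, e.repr y j * f (e i * e j) := by
    intro x y
    have h1 := lin_eq e (f ∘ₗ LinearMap.mulRight K y) x
    simp only [LinearMap.comp_apply, LinearMap.mulRight_apply] at h1
    rw [h1]
    refine Finset.sum_congr rfl fun i _ => ?_
    have h2 := lin_eq e (f ∘ₗ LinearMap.mulLeft K (e i)) y
    simp only [LinearMap.comp_apply, LinearMap.mulLeft_apply] at h2
    rw [h2]
  exact (Cv.sum Finset.univ fun i _ => (h.repr e i).mul (Cv.sum Finset.univ fun j _ =>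
    (h'.repr e j).mul (Cv.const (f (e i * e j))))).congr (fun _ => (key _ _).symm) (key _ _).symm

theorem pow (h : CvB J l F a) (n : ℕ) : CvB J l (fun z => F z ^ n) (a ^ n) := by
  induction n with
  | zero => simpa using const 1
  | succ n ih => simpa [pow_succ] using ih.mul h

theorem sum {ι : Type*} (s : Finset ι) {F : ι → Z → B} {a : ι → B}
    (h : ∀ j ∈ s, CvB J l (F j) (a j)) : CvB J l (fun z => ∑ j ∈ s, F j z) (∑ j ∈ s, a j) :=
  fun f => by simpa using Cv.sum s fun j hj => h j hj f

theorem star [StarRing K] [StarRing B] [StarModule K B] {J' : Set (Ix K)} (hJ : SC J J')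
    (h : CvB J' l F a) : CvB J l (fun z => star (F z)) (star a) := by
  let e := finBasis K B
  have key : ∀ x : B, Star.star x = ∑ i, Star.star (e.repr x i) • Star.star (e i) := by
    intro x
    conv_lhs => rw [← e.sum_repr x, star_sum]
    simp
  exact (sum Finset.univ fun i _ => smul ((h.repr e i).star hJ) (const (Star.star (e i)))).congr
    (fun _ => (key _).symm) (key _).symm

variable [Algebra.IsCentral K B] [IsSimpleRing B]

theorem rch (h : CvB J l F a) (j : ℕ) :
    Cv J l (fun z => (rch K (F z)).coeff j) ((rch K a).coeff j) := by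
  let e := finBasis K B
  refine (Cv.mv (h.repr e) (rchP K e j)).congr (fun z => ?_) ?_ <;>
    rw [eval_rchP, e.sum_repr]

theorem nrd (h : CvB J l F a) : Cv J l (fun z => Nrd K (F z)) (Nrd K a) :=
  (Cv.const _).mul (h.rch 0)

end CvB

variable (k : Type*) [Field k] [NumberField k] [Algebra k K]

/-- the approximation filter in `B` -/
def lB (G : Option (Pl k) → B) : Filter B :=
  (Filter.pi fun j => lG k fun p => (finBasis K B).repr (G p) j).map
    (finBasis K B).equivFun.symm

instance lB_neBot (G : Option (Pl k) → B) : (lB (K := K) k G).NeBot := by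
  unfold lB; infer_instance

theorem cv_lB (G : Option (Pl k) → B) (p : Option (Pl k)) :
    CvB (pr (K := K) k ⁻¹' {p}) (lB (K := K) k G) (fun y => y) (G p) := by
  refine CvB.of_basis (finBasis K B) fun j i hi => ?_
  rw [lB, tendsto_map'_iff]
  have := ((cv_lG (k := k) (fun p => (finBasis K B).repr (G p) j) p).comp
    (tendsto_eval_pi (fun j => lG k fun p => (finBasis K B).repr (G p) j) j)) i hi
  refine this.congr fun y => ?_
  simp [← Basis.equivFun_apply]

end Alg

end Crest.Agent.T24.Heis
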