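import Crest.Agent.T24.HeisA_83

/-! Row 24, HEIS part B: the commutator pairing, Cayley lifts, Eisenstein polynomials. -/

set_option autoImplicit false
set_option linter.unusedSectionVars false

noncomputable section

namespace Crest.Agent.T24.Heis

open Module NumberField IsDedekindDomain WithZero Csa Asa Filter Topology Polynomial
open scoped NumberField Valued

variable {K : Type*} [Field K] [NumberField K] [StarRing K] {B : Type*} [Ring B] [StarRing B]
  [Algebra K B] [StarModule K B] [Algebra.IsCentral K B] [IsSimpleRing B] [FiniteDimensional K B]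

section Pair
variable {N : Subgroup (unitary B)} {m : ℕ}

/-- the commutator lies in `N` -/
def Zc (N : Subgroup (unitary B)) (x y : unitary B) : Prop := x * y * x⁻¹ * y⁻¹ ∈ N

variable (K) in
/-- the hypothesis of the central step -/
def Hy (m : ℕ) (N : Subgroup (unitary B)) : Prop := ∀ u : unitary B, ∀ g ∈ SUm K B m, Zc N u g

theorem Zc.symm {x y : unitary B} (h : Zc N x y) : Zc N y x := by
  have := N.inv_mem h
  rwa [show (x * y * x⁻¹ * y⁻¹)⁻¹ = y * x * y⁻¹ * x⁻¹ by group] at this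

theorem zc_of_commute {x y : unitary B} (h : Commute x y) : Zc N x y := by
  rw [Zc, h.eq, show y * x * x⁻¹ * y⁻¹ = 1 by group]; exact N.one_mem

theorem comm_mem (x : unitary B) {y : unitary B} (hy : y ∈ Um K B m) :
    x * y * x⁻¹ * y⁻¹ ∈ SUm K B m :=
  ⟨comm_mem_SU K x y, (Um K B m).mul_mem (Subgroup.Normal.conj_mem inferInstance _ hy x)
    ((Um K B m).inv_mem hy)⟩

theorem Hy.mul (H : Hy K m N) {x x' y : unitary B} (hy : y ∈ Um K B m) (h : Zc N x y)
    (h' : Zc N x' y) : Zc N (x * x') y := by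
  have := N.mul_mem (N.mul_mem (H x _ (comm_mem x' hy)) h') h
  unfold Zc
  convert this using 1
  group

theorem Hy.inv (H : Hy K m N) {x y : unitary B} (hy : y ∈ Um K B m) (h : Zc N x y) :
    Zc N x⁻¹ y := by
  have := N.mul_mem (H x⁻¹ _ ((SUm K B m).inv_mem (comm_mem x hy))) (N.inv_mem h)
  unfold Zc
  convert this using 1
  group

theorem Hy.left (H : Hy K m N) {x x' y : unitary B} (hy : y ∈ Um K B m) (h : Zc N x y)
    (h' : Zc N (x * x') y) : Zc N x' y := by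
  simpa using H.mul hy (H.inv hy h) h'

theorem Hy.right (H : Hy K m N) {x x' y : unitary B} (hy : y ∈ Um K B m) (h : Zc N x' y)
    (h' : Zc N (x * x') y) : Zc N x y := by
  simpa using H.mul hy h' (H.inv hy h)

theorem Nrd_ne (x : unitary B) : Nrd K (x : B) ≠ 0 := right_ne_zero_of_mul_eq_one (Nrd_inv_mul K x)

theorem Nrd_div (x y : unitary B) :
    Nrd K ((x⁻¹ * y : unitary B) : B) = Nrd K (y : B) / Nrd K (x : B) := by
  rw [eq_div_iff (Nrd_ne x), Submonoid.coe_mul, map_mul, mul_right_comm, Nrd_inv_mul, one_mul]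

theorem Hy.norm (H : Hy K m N) {x x' y : unitary B} (hy : y ∈ Um K B m) (hx : x ∈ Um K B m)
    (hx' : x' ∈ Um K B m) (e : Nrd K (x' : B) = Nrd K (x : B)) (h : Zc N x y) : Zc N x' y := by
  have h1 : x⁻¹ * x' ∈ SUm K B m := ⟨by
    change Nrd K _ = 1
    rw [Nrd_div, e, div_self (Nrd_ne x)], (Um K B m).mul_mem ((Um K B m).inv_mem hx) hx'⟩
  simpa using H.mul hy h (H y _ h1).symm

variable (K) in
/-- continuity of the pairing in the second variable -/
def Ct (m : ℕ) (N : Subgroup (unitary B)) (x : unitary B) : Prop :=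
  ∃ V ∈ nb (1 : K), ∀ y ∈ Um K B m, Nrd K (y : B) ∈ V → Zc N x y

variable (K) in
/-- joint continuity of the pairing -/
def VV (m : ℕ) (N : Subgroup (unitary B)) : Prop :=
  ∃ V ∈ nb (1 : K), ∀ x ∈ Um K B m, ∀ y ∈ Um K B m, Nrd K (x : B) ∈ V → Nrd K (y : B) ∈ V →
    Zc N x y

variable (K B) in
/-- commuting lifts near a base pair -/
def BL (m : ℕ) (c₁ c₂ : K) : Prop := ∃ V ∈ nb (1 : K), ∀ v₁ ∈ V, ∀ v₂ ∈ V, star v₁ * v₁ = 1 →
  star v₂ * v₂ = 1 → ∃ x₁ ∈ Um K B m, ∃ x₂ ∈ Um K B m, Commute x₁ x₂ ∧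
    Nrd K (x₁ : B) = c₁ * v₁ ∧ Nrd K (x₂ : B) = c₂ * v₂

theorem Hy.bl (H : Hy K m N) {c₁ c₂ : K} (h : BL K B m c₁ c₂) :
    (∀ x ∈ Um K B m, Nrd K (x : B) = c₁ → Ct K m N x) ∧ VV K m N := by
  obtain ⟨V, hV, h⟩ := h
  have h1 := mem_of_nb hV
  obtain ⟨a₁, ha₁, a₂, ha₂, -, e₁, e₂⟩ := h 1 h1 1 h1 (by simp) (by simp)
  have P : ∀ v₁ ∈ V, ∀ v₂ ∈ V, star v₁ * v₁ = 1 → star v₂ * v₂ = 1 → ∀ x ∈ Um K B m,
      ∀ y ∈ Um K B m, Nrd K (x : B) = c₁ * v₁ → Nrd K (y : B) = c₂ * v₂ → Zc N x y := by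
    intro v₁ hv₁ v₂ hv₂ n₁ n₂ x hx y hy ex ey
    obtain ⟨x₁, hx₁, x₂, hx₂, hc, f₁, f₂⟩ := h v₁ hv₁ v₂ hv₂ n₁ n₂
    exact (H.norm hx hx₂ hy (ey.trans f₂.symm)
      (H.norm hx₂ hx₁ hx (ex.trans f₁.symm) (zc_of_commute hc)).symm).symm
  have Q : ∀ v₁ ∈ V, star v₁ * v₁ = 1 → ∀ x ∈ Um K B m, Nrd K (x : B) = c₁ * v₁ →
      ∀ y ∈ Um K B m, Nrd K (y : B) ∈ V → Zc N x y := by
    intro v₁ hv₁ n₁ x hx ex y hy ey
    refine (H.left hx (P v₁ hv₁ 1 h1 n₁ (by simp) x hx a₂ ha₂ ex e₂).symm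
      (P v₁ hv₁ _ ey n₁ (Nrd_unitary y.2) x hx _ ((Um K B m).mul_mem ha₂ hy) ex ?_).symm).symm
    rw [Submonoid.coe_mul, map_mul, e₂, mul_one]
  refine ⟨fun x hx ex => ⟨V, hV, Q 1 h1 (by simp) x hx (by rw [ex, mul_one])⟩,
    V, hV, fun x hx y hy ex ey => H.left hy (Q 1 h1 (by simp) a₁ ha₁ e₁ y hy ey)
      (Q _ ex (Nrd_unitary x.2) _ ((Um K B m).mul_mem ha₁ hx) ?_ y hy ey)⟩
  rw [Submonoid.coe_mul, map_mul, e₁, mul_one]

end Pair

section Lift

theorem nrd_lift {Y x : B} (h : star Y * x = Y) (h0 : Nrd K Y ≠ 0) :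
    Nrd K x = Nrd K Y / star (Nrd K Y) := by
  rw [eq_div_iff (star_ne_zero.2 h0), ← Csa.Nrd_star, mul_comm, ← map_mul, h]

theorem nrd_lift_sub {Y x : B} (h : star Y * x = Y) (h0 : Nrd K Y ≠ 0) :
    Nrd K (x - 1) = Nrd K (Y - star Y) / star (Nrd K Y) := by
  rw [eq_div_iff (star_ne_zero.2 h0), ← Csa.Nrd_star, mul_comm, ← map_mul, mul_sub, h, mul_one]

theorem comm_aeval (θ : B) (P Q : K[X]) : Commute (aeval θ P) (aeval θ Q) :=
  (Commute.all P Q).map (aeval θ : K[X] →ₐ[K] B)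

/-- the lifts attached to polynomials in one hermitian element -/
theorem exists_lifts {ι : Type*} {θ : B} (hθ : star θ = θ) (R : ι → K[X])
    (h0 : ∀ j, Nrd K (aeval θ (R j)) ≠ 0) : ∃ x : ι → unitary B,
      (∀ j, star (aeval θ (R j)) * x j = aeval θ (R j)) ∧ ∀ i j, Commute (x i) (x j) := by
  have hs : ∀ j, star (aeval θ (R j)) = aeval θ ((R j).map (starRingEnd K)) := fun j => by
    rw [star_aeval, hθ]
  choose v hv using fun j => (isUnit_iff_Nrd (K := K) _).2 (h0 j)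
  have h1 : ∀ j, star (v j : B) * star (((v j)⁻¹ : Bˣ) : B) = 1 := fun j => by
    rw [← star_mul, Units.inv_mul, star_one]
  have h2 : ∀ j, star (((v j)⁻¹ : Bˣ) : B) * star (v j : B) = 1 := fun j => by
    rw [← star_mul, Units.mul_inv, star_one]
  let u : ι → Bˣ := fun j => ⟨_, _, h1 j, h2 j⟩
  have hu : ∀ j, (u j : B) = aeval θ ((R j).map (starRingEnd K)) := fun j => by
    rw [← hs, ← hv]
  refine ⟨fun j => ⟨_, unitary_of_normal (v j) ?_⟩, fun j => ?_, fun i j => Subtype.ext ?_⟩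
  · rw [hv, hs]; exact comm_aeval _ _ _
  · change _ * (_ * _) = _
    rw [← hv, ← mul_assoc, h1, one_mul]
  · have a : ∀ i j, Commute (((u i)⁻¹ : Bˣ) : B) (v j) := fun i j =>
      Commute.units_inv_left (by rw [hu, hv]; exact comm_aeval _ _ _)
    have b : Commute (((u i)⁻¹ : Bˣ) : B) ((u j)⁻¹ : Bˣ) :=
      Commute.units_inv_left (Commute.units_inv_right (by rw [hu, hu]; exact comm_aeval _ _ _))
    have c : Commute (v i : B) (v j) := by rw [hv, hv]; exact comm_aeval _ _ _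
    exact ((b.mul_right (a i j)).mul_left ((a j i).symm.mul_right c)).eq

variable (B) in
/-- the local condition on a lift -/
def Gi (i : Ix K) (m : ℕ) (ε : ℝ) (c : K) (Y : B) : Prop :=
  ab i (c * star (Nrd K Y) / Nrd K Y - 1) < ε ∧ ∀ w ∈ TT K B, i = .inl w →
    w.valuation K (Nrd K (Y - star Y) / star (Nrd K Y)) < exp (-(m : ℤ))

theorem Gi.ev {Z : Type*} {l : Filter Z} {J : Set (Ix K)} (hJ : SC J J) {i : Ix K} (hi : i ∈ J)
    {m : ℕ} {ε : ℝ} {c : K} {Y : Z → B} {Y₀ : B} (hY : CvB J l Y Y₀) (h0 : Nrd K Y₀ ≠ 0)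
    (h : Gi B i m ε c Y₀) : ∀ᶠ z in l, Gi B i m ε c (Y z) := by
  refine ((((Cv.const c).mul (hY.nrd.star hJ)).div hY.nrd h0).ev_ab hi h.1).and ?_
  rcases i with w | φ
  · by_cases hw : w ∈ TT K B
    · filter_upwards [((hY.sub (hY.star hJ)).nrd.div (hY.nrd.star hJ) (star_ne_zero.2 h0)).ev_lt hi
        (h.2 w hw rfl)] with z hz w' _ e
      obtain rfl := Sum.inl_injective e
      exact hz
    · exact .of_forall fun z w' hw' e => absurd (Sum.inl_injective e ▸ hw') hw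
  · exact .of_forall fun z w' _ e => absurd e Sum.inr_ne_inl

theorem mem_Um_of {m : ℕ} {Y : B} {x : unitary B} (h : star Y * x = Y) (h0 : Nrd K Y ≠ 0)
    (hd : ∀ w ∈ TT K B,
      w.valuation K (Nrd K (Y - star Y) / star (Nrd K Y)) < exp (-(m : ℤ))) : x ∈ Um K B m :=
  fun w hw => by rw [val, nrd_lift_sub h h0]; exact hd w hw

end Lift

section Eis

/-- Eisenstein at `w` -/
def Eis (w : Pl K) (d : ℕ) (P : K[X]) : Prop :=
  (∀ j < d, w.valuation K (P.coeff j) < 1) ∧ w.valuation K (P.coeff 0) = exp (-1)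

theorem le_exp_of_lt_one {γ : ℤᵐ⁰} (h : γ < 1) : γ ≤ exp (-1) := by
  by_cases h0 : γ = 0
  · simp [h0]
  rw [← exp_log h0, ← exp_zero, exp_lt_exp] at h
  rw [← exp_log h0, exp_le_exp]; omega

theorem Eis.irreducible {w : Pl K} {P : K[X]} (h : Eis w P.natDegree P) (hP : P.Monic)
    (hd : 0 < P.natDegree) : Irreducible P := by
  let v := w.valuation K
  let O := v.valuationSubring
  have hl : P ∈ lifts (algebraMap O K) := (lifts_iff_coeff_lifts _).2 fun j => by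
    refine ⟨⟨P.coeff j, ?_⟩, rfl⟩
    change v _ ≤ 1
    rcases lt_trichotomy j P.natDegree with h1 | rfl | h1
    · exact (h.1 j h1).le
    · rw [hP.coeff_natDegree, map_one]
    · simp [coeff_eq_zero_of_natDegree_lt h1]
  obtain ⟨Q, rfl, hQd, hQ⟩ := lifts_and_natDegree_eq_and_monic hl hP
  have hm : ∀ x : O, x ∈ IsLocalRing.maximalIdeal O ↔ v x < 1 := fun x =>
    Valuation.mem_maximalIdeal_iff (v := v)
  refine (hQ.irreducible_iff_irreducible_map_fraction_map (K := K)).1 ?_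
  refine (show Q.IsEisensteinAt (IsLocalRing.maximalIdeal O) from
    ⟨?_, fun {n} hn => ?_, ?_⟩).irreducible inferInstance hQ.isPrimitive (hQd ▸ hd)
  · rw [hQ.leadingCoeff, hm]; simp
  · have := h.1 n (hQd ▸ hn)
    rw [coeff_map] at this
    exact (hm _).2 this
  · intro h2
    have h3 : v (Q.coeff 0) ≤ exp (-2) := by
      rw [pow_two] at h2
      refine Submodule.mul_induction_on (C := fun x : O => v x ≤ exp (-2)) h2
        (fun a ha b hb => ?_) fun a b ha hb => ?_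
      · rw [Subring.coe_mul, map_mul, show (-2 : ℤ) = -1 + -1 by norm_num, exp_add]
        exact mul_le_mul' (le_exp_of_lt_one ((hm _).1 ha)) (le_exp_of_lt_one ((hm _).1 hb))
      · exact v.map_add_le ha hb
    have h4 := h.2
    rw [coeff_map] at h4
    change v (Q.coeff 0) = _ at h4
    rw [h4, exp_le_exp] at h3
    omega

theorem Eis.ev {Z : Type*} {l : Filter Z} {J : Set (Ix K)} {w : Pl K} (hw : Sum.inl w ∈ J) {d : ℕ}
    {P : Z → K[X]} {P₀ : K[X]} (hP : ∀ j, Cv J l (fun z => (P z).coeff j) (P₀.coeff j))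
    (h : Eis w d P₀) : ∀ᶠ z in l, Eis w d (P z) := by
  refine ((eventually_all_finite (Set.finite_lt_nat d)).2 fun j hj =>
    (hP j).ev_lt hw (h.1 j hj)).and ?_
  have h0 : P₀.coeff 0 ≠ 0 := fun e => exp_ne_zero (by rw [← h.2, e, map_zero])
  exact ((hP 0).ev_eq hw h0).mono fun z hz => hz.trans h.2

end Eis

end Crest.Agent.T24.Heis
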