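import Crest.Agent.T24.HeisB_83

/-! Row 24, HEIS part C: the global argument. -/

set_option autoImplicit false
set_option linter.unusedSectionVars false

noncomputable section

namespace Crest.Agent.T24.Heis

open Module NumberField IsDedekindDomain WithZero Csa Asa Filter Topology Polynomial
open scoped NumberField Valued

variable {K : Type*} [Field K] [NumberField K] [StarRing K] {B : Type*} [Ring B] [StarRing B]
  [Algebra K B] [StarModule K B] [Algebra.IsCentral K B] [IsSimpleRing B] [FiniteDimensional K B]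

variable (K B) in
/-- hermitian elements with prescribed nearby irreducible characteristic polynomial -/
def EmbN : Prop := ∀ a : B, star a = a → (rch K a).Separable → ∃ V ∈ nb (0 : K), ∀ P : K[X],
  P.Monic → P.natDegree = deg K B → P.map (starRingEnd K) = P → Irreducible P →
  (∀ j < deg K B, P.coeff j - (rch K a).coeff j ∈ V) → ∃ th : B, star th = th ∧ rch K th = P

/-- the interpolation coefficient -/
def al (n μ v : K) : K := (star n * (n * (1 + v) / 2) - n * star (n * (1 + v) / 2)) /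
  (μ * (star (n * (1 + v) / 2) - n * (1 + v) / 2))

theorem star_al (n : K) {μ : K} (hμ : star μ = μ) (v : K) : star (al n μ v) = al n μ v := by
  rw [al, star_div₀, star_sub, star_mul', star_mul' n, star_mul' μ, star_sub, star_star, star_star, hμ,
    ← neg_div_neg_eq]
  congr 1 <;> ring

theorem al_spec {n μ v : K} (hμ : star μ = μ) (h0 : μ ≠ 0) (hv : star v * v = 1) (hn : n ≠ 0)
    (hb : star (n * (1 + v) / 2) - n * (1 + v) / 2 ≠ 0) (h1 : n + al n μ v * μ ≠ 0) :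
    (n + al n μ v * μ) / star (n + al n μ v * μ) = n / star n * v := by
  have e1 : star n * (n * (1 + v) / 2) = n * v * star (n * (1 + v) / 2) := by
    rw [star_div₀, star_mul', star_add, star_one, star_ofNat]
    linear_combination (-(n * star n) / 2) * hv
  have e2 := star_al n hμ v
  have e3 : al n μ v * μ * (star (n * (1 + v) / 2) - n * (1 + v) / 2) =
      star n * (n * (1 + v) / 2) - n * star (n * (1 + v) / 2) := by
    rw [mul_assoc, al, div_mul_cancel₀ _ (mul_ne_zero h0 hb)]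
  generalize n * (1 + v) / 2 = b at *
  have hb0 : star b ≠ 0 := fun e => hb (by rw [e, star_eq_zero.1 e, sub_zero])
  rw [div_mul_eq_mul_div, div_eq_div_iff (star_ne_zero.2 h1) (star_ne_zero.2 hn), star_add,
    star_mul', e2, hμ]
  refine mul_right_cancel₀ hb0 ?_
  linear_combination (star n) * e3 + (star n + al n μ v * μ) * e1

section Base
variable {Z : Type*} {l : Filter Z}

theorem cv_al (hJ : SC (K := K) Set.univ Set.univ) {n μ : K} (h0 : μ ≠ 0) (hn : star n - n ≠ 0)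
    {v : Z → K} (hv : Cv Set.univ l v 1) : Cv Set.univ l (fun z => al n μ (v z)) 0 ∧
      ∀ᶠ z in l, star (n * (1 + v z) / 2) - n * (1 + v z) / 2 ≠ 0 := by
  have hb : Cv Set.univ l (fun z => n * (1 + v z) / 2) n :=
    (((Cv.const n).mul ((Cv.const 1).add hv)).div (Cv.const 2) two_ne_zero).congr (fun _ => rfl)
      (by ring)
  have : Nonempty (Ix K) := ⟨.inr (Classical.arbitrary _)⟩
  exact ⟨((((Cv.const _).mul hb).sub ((Cv.const n).mul (hb.star hJ))).div
    ((Cv.const μ).mul ((hb.star hJ).sub hb)) (mul_ne_zero h0 hn)).congr (fun _ => rfl)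
      (by rw [mul_comm (star n), sub_self, zero_div]),
    ((hb.star hJ).sub hb).ev_ne Set.univ_nonempty hn⟩

variable (B) in
/-- depth of a Cayley lift -/
def Dp (m : ℕ) (t n : K) : Prop :=
  ∀ w ∈ TT K B, w.valuation K ((2 * t) ^ deg K B / star n) < exp (-(m : ℤ))

theorem cay_sub {θ : B} (hθ : star θ = θ) {t : K} (ht : star t = -t) :
    aeval θ (C t - X) - star (aeval θ (C t - X)) = algebraMap K B (2 * t) := by
  rw [map_sub, aeval_C, aeval_X, star_sub, Csa.star_algebraMap, hθ, ht, map_neg, two_mul, map_add]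
  abel

theorem cay_nrd (θ : B) (t : K) : Nrd K (aeval θ (C t - X)) = (rch K θ).eval t := by
  rw [map_sub, aeval_C, aeval_X, eval_rch]

theorem base (hJ : SC (K := K) Set.univ Set.univ) (hT : (TT K B).Finite) (hE : EmbN K B)
    (hd : 3 ≤ deg K B) {m : ℕ} {θ₀ : B} (h₀ : star θ₀ = θ₀) {w : Pl K}
    (hw : Eis w (deg K B) (rch K θ₀)) (t : Fin 2 → K) (ht : ∀ i, star (t i) = -t i)
    (hμ : t 0 ^ 2 - t 1 ^ 2 ≠ 0) (n : Fin 2 → K) (hn : ∀ i, (rch K θ₀).eval (t i) = n i)
    (hn' : ∀ i, star (n i) - n i ≠ 0) (hD : ∀ i, Dp B m (t i) (n i)) :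
    BL K B m (n 0 / star (n 0)) (n 1 / star (n 1)) := by
  have hI : Nonempty (Ix K) := ⟨.inr (Classical.arbitrary _)⟩
  have hirr := Eis.irreducible (by rwa [rch_natDegree]) (rch_monic K θ₀)
    (by rw [rch_natDegree]; omega)
  obtain ⟨V, hV, hemb⟩ := hE θ₀ h₀ hirr.separable
  let l := nb (1 : K) ×ˢ nb (1 : K)
  let μ : Fin 2 → K := ![t 0 ^ 2 - t 1 ^ 2, t 1 ^ 2 - t 0 ^ 2]
  have hμ0 : ∀ i, μ i ≠ 0 := Fin.forall_fin_two.2 ⟨hμ, sub_ne_zero.2 (sub_ne_zero.1 hμ).symm⟩
  have ht2 : ∀ i, star (t i ^ 2) = t i ^ 2 := fun i => by rw [star_pow, ht, neg_sq]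
  have hμs : ∀ i, star (μ i) = μ i := Fin.forall_fin_two.2 ⟨by simp [μ, ht], by simp [μ, ht]⟩
  have hn0 : ∀ i, n i ≠ 0 := fun i e => hn' i (by simp [e])
  let v : Fin 2 → K × K → K := ![Prod.fst, Prod.snd]
  have hv : ∀ i, Cv Set.univ l (v i) 1 :=
    Fin.forall_fin_two.2 ⟨(cv_nb 1).comp tendsto_fst, (cv_nb 1).comp tendsto_snd⟩
  let a : Fin 2 → K × K → K := fun i z => al (n i) (μ i) (v i z)
  have ha := fun i => cv_al hJ (hμ0 i) (hn' i) (hv i)
  let P : K × K → K[X] := fun z =>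
    rch K θ₀ + (C (a 0 z) * (X ^ 2 - C (t 1 ^ 2)) + C (a 1 z) * (X ^ 2 - C (t 0 ^ 2)))
  have hc : ∀ j, Cv Set.univ l (fun z => (P z).coeff j) ((rch K θ₀).coeff j) := fun j =>
    ((Cv.const _).add (((ha 0).1.mul (Cv.const ((X ^ 2 - C (t 1 ^ 2)).coeff j))).add
      ((ha 1).1.mul (Cv.const ((X ^ 2 - C (t 0 ^ 2)).coeff j))))).congr
      (fun z => by simp only [P, coeff_add, coeff_C_mul]; rfl) (by simp)
  have hdeg : ∀ z, (C (a 0 z) * (X ^ 2 - C (t 1 ^ 2)) + C (a 1 z) * (X ^ 2 - C (t 0 ^ 2))).degree <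
      (rch K θ₀).degree := fun z => by
    rw [degree_eq_natDegree (rch_monic K θ₀).ne_zero, rch_natDegree]
    refine lt_of_le_of_lt (b := 2) (by compute_degree!) (by exact_mod_cast hd)
  have hm : ∀ z, (P z).Monic := fun z => (rch_monic K θ₀).add_of_left (hdeg z)
  have hnd : ∀ z, (P z).natDegree = deg K B := fun z =>
    (natDegree_add_eq_left_of_degree_lt (hdeg z)).trans (rch_natDegree _)
  have hs : ∀ z, (P z).map (starRingEnd K) = P z := fun z => by
    simp only [P, Polynomial.map_add, Polynomial.map_mul, Polynomial.map_sub, Polynomial.map_pow,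
      map_C, map_X, rch_herm h₀, starRingEnd_apply, ht2, a, star_al _ (hμs _)]
  have he : ∀ z i, (P z).eval (t i) = n i + a i z * μ i := fun z =>
    Fin.forall_fin_two.2 ⟨by simp [P, μ, hn], by simp [P, μ, hn]⟩
  have hcn : ∀ i, Cv Set.univ l (fun z => n i + a i z * μ i) (n i) := fun i =>
    ((Cv.const _).add ((ha i).1.mul (Cv.const _))).congr (fun _ => rfl) (by simp)
  have E : ∀ᶠ z in l, Eis w (deg K B) (P z) ∧
      (∀ j < deg K B, (P z).coeff j - (rch K θ₀).coeff j ∈ V) ∧ ∀ i,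
      star (n i * (1 + v i z) / 2) - n i * (1 + v i z) / 2 ≠ 0 ∧ n i + a i z * μ i ≠ 0 ∧
        Dp B m (t i) (n i + a i z * μ i) := by
    refine (Eis.ev (Set.mem_univ _) hc hw).and (.and ?_ (eventually_all.2 fun i => (ha i).2.and
      (((hcn i).ev_ne Set.univ_nonempty (hn0 i)).and ?_)))
    · refine (eventually_all_finite (Set.finite_lt_nat _)).2 fun j _ => ?_
      exact (((hc j).sub (Cv.const _)).congr (fun _ => rfl) (sub_self _)).tendsto hV
    · exact (eventually_all_finite hT).2 fun w' hw' => ((Cv.const _).div ((hcn i).star hJ)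
        (star_ne_zero.2 (hn0 i))).ev_lt trivial (hD i w' hw')
  obtain ⟨V₁, hV₁, V₂, hV₂, E⟩ := mem_prod_iff.1 E
  refine ⟨V₁ ∩ V₂, inter_mem hV₁ hV₂, fun v₁ h₁ v₂ h₂ n₁ n₂ => ?_⟩
  obtain ⟨E1, E2, E3⟩ := E (Set.mk_mem_prod h₁.1 h₂.2)
  set z := (v₁, v₂)
  obtain ⟨θ, hθ, hr⟩ := hemb (P z) (hm z) (hnd z) (hs z)
    (Eis.irreducible (by rwa [hnd]) (hm z) (by rw [hnd]; omega)) E2
  have hN : ∀ i, Nrd K (aeval θ (C (t i) - X)) = n i + a i z * μ i := fun i => by
    rw [cay_nrd, hr, he]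
  have hN0 : ∀ i, Nrd K (aeval θ (C (t i) - X)) ≠ 0 := fun i => hN i ▸ (E3 i).2.1
  obtain ⟨x, hx, hxc⟩ := exists_lifts hθ (fun i => C (t i) - X) hN0
  have hU : ∀ i, x i ∈ Um K B m := fun i => mem_Um_of (hx i) (hN0 i) (by
    rw [cay_sub hθ (ht i), Nrd_algebraMap, hN]; exact (E3 i).2.2)
  have hv1 : ∀ i, star (v i z) * v i z = 1 := Fin.forall_fin_two.2 ⟨n₁, n₂⟩
  have hX : ∀ i, Nrd K (x i : B) = n i / star (n i) * v i z := fun i => by
    rw [nrd_lift (hx i) (hN0 i), hN]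
    exact al_spec (hμs i) (hμ0 i) (hv1 i) (hn0 i) (E3 i).1 (E3 i).2.1
  exact ⟨x 0, hU 0, x 1, hU 1, hxc 0 1, hX 0, hX 1⟩

end Base

/-- a null sequence at `T` of skew scalars -/
theorem exists_null {T : Set (Pl K)} (hT : T.Finite) {η : K} (h0 : η ≠ 0) (hη : star η = -η) :
    ∃ s : ℕ → K, Function.Injective s ∧ (∀ n, star (s n) = -s n) ∧
      Cv (Sum.inl '' T) atTop s 0 := by
  obtain ⟨c, hc0, hc⟩ := exists_deep hT.toFinset 1
  let M : ℕ := 2 * Ideal.absNorm (Ideal.span {c})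
  have hM : 2 ≤ M := Nat.le_mul_of_pos_right _ (Nat.pos_of_ne_zero (by
    rwa [Ne, Ideal.absNorm_eq_zero_iff, Ideal.span_singleton_eq_bot]))
  obtain ⟨r, hr⟩ := Ideal.mem_span_singleton'.1 (Ideal.absNorm_mem (Ideal.span {c}))
  have hr' : (M : K) = ((2 * r : 𝓞 K) : K) * c := by
    have := congrArg (algebraMap (𝓞 K) K) hr
    simp only [map_mul, map_natCast] at this
    simp only [M, Nat.cast_mul, ← this]
    change _ = algebraMap (𝓞 K) K _ * algebraMap (𝓞 K) K _
    rw [map_mul, map_ofNat, Nat.cast_ofNat, mul_assoc]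
  refine ⟨fun n => η * (M : K) ^ n, fun a b h => ?_, fun n => by simp [hη], ?_⟩
  · have := mul_left_cancel₀ h0 h
    rw [← Nat.cast_pow, ← Nat.cast_pow, Nat.cast_inj] at this
    exact Nat.pow_right_injective hM this
  · rintro _ ⟨w, hw, rfl⟩
    have h1 : ab (.inl w) (M : K) < 1 := by
      rw [← (ab (.inl w : Ix K)).map_one, ab_lt_iff, map_one, hr', map_mul]
      exact (mul_le_of_le_one_left' (val_int w _)).trans_lt
        ((hc w (hT.mem_toFinset.2 hw)).trans_lt (exp_neg_lt_one one_pos))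
    simpa using (tendsto_pow_atTop_nhds_zero_of_lt_one ((ab _).nonneg _) h1).const_mul (ab (.inl w) η)

theorem ev_not_root {s : ℕ → K} (hs : Function.Injective s) {P : K[X]} (hP : P ≠ 0) :
    ∀ᶠ n in atTop, P.eval (s n) ≠ 0 := by
  rw [← Nat.cofinite_eq_atTop]
  exact hs.tendsto_cofinite.eventually (p := fun x => P.eval x ≠ 0)
    ((finite_setOfPred_isRoot hP).subset fun x hx => not_not.1 hx)

theorem exists_scalar (hT : (TT K B).Finite) {η : K} (h0 : η ≠ 0) (hη : star η = -η) (m : ℕ)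
    (x : unitary B) : ∃ ζ ∈ Um K B m, (∀ y, Commute ζ y) ∧ IsUnit (1 - ((ζ * x : unitary B) : B)) ∧
      Nrd K ((ζ * x : unitary B) : B) ≠ 1 := by
  obtain ⟨s, hs, hs', hc⟩ := exists_null hT h0 hη
  have h1 : ∀ n, 1 - s n ≠ 0 := fun n e => by
    have := hs' n
    rw [← sub_eq_zero.1 e, star_one] at this
    norm_num at this
  have h2 : ∀ n, 1 + s n ≠ 0 := fun n e => h1 n (by simpa [hs', sub_eq_add_neg] using congrArg star e)
  have hr : Function.Injective fun n => (1 - s n) / (1 + s n) := fun a b h => hs (by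
    rw [div_eq_div_iff (h2 a) (h2 b)] at h
    linear_combination (-1 / 2 : K) * h)
  have hd := (deg_pos K B).ne'
  have hz : Cv (Sum.inl '' TT K B) atTop (fun n => ((1 + s n) / (1 - s n) - 1) ^ deg K B) 0 :=
    ((((((Cv.const 1).add hc).div ((Cv.const 1).sub hc) (by simp)).sub (Cv.const 1))).pow _).congr
      (fun _ => rfl) (by simp [hd])
  obtain ⟨n, h3, h4⟩ := ((ev_not_root hr (mul_ne_zero (rch_monic K (x : B)).ne_zero
    (X_pow_sub_C_ne_zero (deg_pos K B) (Nrd K (x : B))))).and ((eventually_all_finite hT).2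
    fun w hw => hz.ev_lt ⟨w, hw, rfl⟩ (γ := exp (-(m : ℤ))) (by simp))).exists
  set z := (1 + s n) / (1 - s n) with hzd
  have hzs : star z = (1 - s n) / (1 + s n) := by simp [hzd, hs', sub_eq_add_neg]
  have hz1 : star z * z = 1 := by rw [hzs, hzd]; field_simp [h1 n, h2 n]
  have hz0 : z ≠ 0 := right_ne_zero_of_mul_eq_one hz1
  rw [← hzs, eval_mul, mul_ne_zero_iff, eval_rch, eval_sub, eval_pow, eval_X, eval_C] at h3
  refine ⟨⟨algebraMap K B z, ?_⟩, fun w hw => ?_, fun y => Subtype.ext (Algebra.commutes _ _), ?_, ?_⟩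
  · rw [Unitary.mem_iff, Csa.star_algebraMap, ← map_mul, ← map_mul, mul_comm z, hz1, map_one]; simp
  · change w.valuation K (Nrd K (algebraMap K B z - 1)) < _
    rw [← map_one (algebraMap K B), ← map_sub, Nrd_algebraMap]; exact h4 w hw
  · have : 1 - algebraMap K B z * x = algebraMap K B z * (algebraMap K B (star z) - x) := by
      rw [mul_sub, ← map_mul, mul_comm z, hz1, map_one]
    change IsUnit (1 - algebraMap K B z * x)
    rw [this, isUnit_iff_Nrd (K := K), map_mul, Nrd_algebraMap]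
    exact mul_ne_zero (pow_ne_zero _ hz0) h3.1
  · change Nrd K (algebraMap K B z * x) ≠ 1
    rw [map_mul, Nrd_algebraMap]
    refine fun e => h3.2 ?_
    rw [← mul_one (star z ^ _), ← e, ← mul_assoc, ← mul_pow, hz1, one_pow, one_mul, sub_self]

theorem cayley {η : K} (hη : star η = -η) (u : unitary B) (hu : IsUnit (1 - (u : B))) :
    ∃ a : B, star a = a ∧ star (aeval a (C η - X)) * u = aeval a (C η - X) := by
  obtain ⟨v, hv⟩ := hu
  let a : B := η • ((1 + u) * ((v⁻¹ : Bˣ) : B))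
  have h1 : a * (1 - u) = η • (1 + u) := by
    rw [← hv, smul_mul_assoc, mul_assoc, Units.inv_mul, mul_one]
  have h2 : (1 - u) * a = η • (1 + u) := by
    have : Commute (1 - (u : B)) (1 + u) :=
      (Commute.one_left _).sub_left ((Commute.one_right _).add_right (Commute.refl _))
    rw [mul_smul_comm, ← mul_assoc, this.eq, ← hv, mul_assoc, Units.mul_inv, mul_one]
  have h3 : star a = a := by
    have h4 := congrArg (fun y => star y * (u : B)) h2
    simp only [star_mul, star_sub, star_one, star_smul, star_add, hη, mul_assoc, sub_mul, one_mul,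
      smul_mul_assoc, add_mul, u.2.1] at h4
    refine v.isUnit.mul_right_cancel ?_
    rw [hv, h1, ← neg_sub, mul_neg, mul_sub, h4, neg_smul, neg_neg, add_comm]
  refine ⟨a, h3, ?_⟩
  rw [map_sub, aeval_C, aeval_X, star_sub, Csa.star_algebraMap, h3, hη,
    Algebra.algebraMap_eq_smul_one, Algebra.algebraMap_eq_smul_one, sub_mul, smul_mul_assoc, one_mul,
    neg_smul, ← sub_eq_zero]
  rw [mul_sub, mul_one, smul_add] at h1
  rw [← sub_eq_zero.2 h1]; abel

/-- a polynomial with given coefficients -/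
def pol (D : ℕ) (r : ℕ → K) : K[X] := ∑ j ∈ Finset.range D, C (r j) * X ^ j

theorem aeval_pol {A : Type*} [Ring A] [Algebra K A] (D : ℕ) (r : ℕ → K) (x : A) :
    aeval x (pol D r) = ∑ j ∈ Finset.range D, r j • x ^ j := by
  simp [pol, map_sum, Algebra.smul_def]

theorem CvB.aeval {Z : Type*} {l : Filter Z} {J : Set (Ix K)} {F : Z → B} {a : B}
    (h : CvB J l F a) (P : K[X]) : CvB J l (fun z => aeval (F z) P) (aeval a P) := by
  simp only [aeval_eq_sum_range]
  exact CvB.sum _ fun j _ => CvB.smul (Cv.const _) (h.pow j)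

section Glob
variable (k : Type*) [Field k] [NumberField k] [Algebra k K] [Quad k K]

theorem cv_sym {G : Option (Pl k) → B} (hG : ∀ p, star (G p) = G p) (p : Option (Pl k)) :
    CvB (pr (K := K) k ⁻¹' {p}) (lB (K := K) k fun p => (2⁻¹ : K) • G p) (fun y => y + star y)
      (G p) :=
  ((cv_lB k _ p).add ((cv_lB k _ p).star (sc_pr k _))).congr (fun _ => rfl) (by
    rw [star_smul, hG, ← add_smul, star_inv₀, star_ofNat, show (2⁻¹ + 2⁻¹ : K) = 1 by norm_num,
      one_smul])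

theorem pr_none : (pr (K := K) k ⁻¹' {none}).Nonempty := ⟨.inr (Classical.arbitrary _), rfl⟩

variable (K B) in
/-- hermitian elements that are Eisenstein at a new place -/
def EisEx : Prop := ∀ q : Finset (Ix K), ∃ w : Pl K, (∀ i ∈ q, pr k i ≠ some (below k w)) ∧
  ∃ a : B, star a = a ∧ Eis w (deg K B) (rch K a)

theorem good (hT : (TT K B).Finite) (hE : EmbN K B) (hX : EisEx K B k) (hd : 3 ≤ deg K B) {m : ℕ}
    {u : unitary B} (hu : u ∈ Um K B m) (h1 : IsUnit (1 - (u : B))) (h2 : Nrd K (u : B) ≠ 1)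
    (q : Finset (Ix K)) {ε : ℝ} (hε : 0 < ε) : ∃ x ∈ Um K B m, (∃ c, BL K B m (Nrd K (x : B)) c) ∧
      ∀ i ∈ q, ab i (Nrd K (u : B) / Nrd K (x : B) - 1) < ε := by
  classical
  obtain ⟨η, h0, hη⟩ := exists_skew (Quad.ne (k := k) (K := K))
  obtain ⟨a, ha, hY⟩ := cayley hη u h1
  have hn : Nrd K (aeval a (C η - X)) ≠ 0 := fun e => by
    have := congrArg (Nrd K) (((mul_sub_one _ _).trans (congrArg (· - _) hY)).trans (cay_sub ha hη))
    rw [Nrd_algebraMap, map_mul, Csa.Nrd_star, e, star_zero, zero_mul] at this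
    exact pow_ne_zero _ (mul_ne_zero two_ne_zero h0) this.symm
  have hu' := nrd_lift hY hn
  let q' := q ∪ hT.toFinset.image Sum.inl
  obtain ⟨w, hw, a₁, ha₁, hw₁⟩ := hX q'
  let G : Option (Pl k) → B := fun p => if p = some (below k w) then a₁ else a
  have hG : ∀ p, star (G p) = G p := fun p => by simp only [G]; split_ifs <;> assumption
  have c1 := cv_sym (K := K) k hG (some (below k w))
  have c2 := ((cv_sym (K := K) k hG none).aeval (C η - X)).nrd
  rw [show G (some (below k w)) = a₁ from if_pos rfl] at c1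
  rw [show G none = a from if_neg (by simp)] at c2
  have hs : star (Nrd K (aeval a (C η - X))) - Nrd K (aeval a (C η - X)) ≠ 0 := fun e =>
    h2 (by rw [hu', sub_eq_zero.1 e, div_self hn])
  have c3 : ∀ i ∈ q', ∀ᶠ y in lB (K := K) k fun p => (2⁻¹ : K) • G p,
      Gi B i m ε (Nrd K (u : B)) (aeval (y + star y) (C η - X)) := fun i hi => by
    have c := (cv_sym (K := K) k hG (pr k i)).aeval (C η - X)
    rw [show G (pr k i) = a from if_neg (hw i hi)] at c
    refine Gi.ev (sc_pr k {pr k i}) rfl c hn ⟨?_, fun w' hw' _ => ?_⟩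
    · rw [hu', div_mul_cancel₀ _ (star_ne_zero.2 hn), div_self hn, sub_self, map_zero]; exact hε
    · rw [← nrd_lift_sub hY hn]; exact hu w' hw'
  obtain ⟨y, ⟨E1, E2⟩, E3, E4⟩ := (((Eis.ev (w := w) (J := pr k ⁻¹' {some (below k w)}) rfl c1.rch hw₁).and
    ((eventually_all_finset q').2 c3)).and ((c2.ev_ne (pr_none k) hn).and
      (((c2.star (sc_pr k _)).sub c2).ev_ne (pr_none k) hs))).exists
  have hθ : star (y + star y) = y + star y := by rw [star_add, star_star, add_comm]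
  generalize y + star y = θ at *
  obtain ⟨x, hx, -⟩ := exists_lifts hθ (fun _ : Unit => C η - X) fun _ => E3
  have hD := fun w' hw' => (E2 (.inl w') (Finset.mem_union_right _
    (Finset.mem_image_of_mem _ (hT.mem_toFinset.2 hw')))).2 w' hw' rfl
  have hx' := nrd_lift (hx ()) E3
  refine ⟨x (), mem_Um_of (hx ()) E3 hD, ?_, fun i hi => ?_⟩
  swap
  · rw [hx', div_div_eq_mul_div]; exact (E2 i (Finset.mem_union_left _ hi)).1
  rw [cay_sub hθ hη, Nrd_algebraMap, cay_nrd] at hD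
  rw [cay_nrd] at hx' E4
  have hst : ∀ t : K, star t = -t → star ((rch K θ).eval t) = (rch K θ).eval (-t) := fun t ht => by
    conv_rhs => rw [← rch_herm hθ, ← ht]
    exact (eval_map_apply (starRingEnd K) t).symm
  have hP : (rch K θ).comp (-X) - rch K θ ≠ 0 := fun e => E4 (by
    simpa [eval_comp, hst η hη] using congrArg (eval η) e)
  obtain ⟨s, hs1, hs2, hc⟩ := exists_null hT h0 hη
  have h00 : (rch K θ).eval 0 ≠ 0 := fun e =>
    exp_ne_zero (by rw [← E1.2, coeff_zero_eq_eval_zero, e, map_zero])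
  have hc' : Cv (Sum.inl '' TT K B) atTop
      (fun n => (2 * s n) ^ deg K B / star ((rch K θ).eval (s n))) 0 := by
    simp only [hst _ (hs2 _)]
    simp only [eval_eq_sum_range] at h00 ⊢
    exact ((((Cv.const 2).mul hc).pow (deg K B)).div (Cv.sum _ fun j _ => (Cv.const _).mul (hc.neg.pow j))
      (by rwa [neg_zero])).congr (fun _ => rfl) (by simp [(deg_pos K B).ne'])
  obtain ⟨n, h3, h4⟩ := ((ev_not_root hs1 (mul_ne_zero hP (X_pow_sub_C_ne_zero two_pos (η ^ 2)))).and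
    ((eventually_all_finite hT).2 fun w hw =>
      hc'.ev_lt ⟨w, hw, rfl⟩ (γ := exp (-(m : ℤ))) (by simp))).exists
  simp only [eval_mul, mul_ne_zero_iff, eval_sub, eval_comp, eval_neg, eval_X, eval_pow, eval_C] at h3
  rw [hx']
  exact ⟨_, base (sc_univ k) hT hE hd hθ E1 ![η, s n] (Fin.forall_fin_two.2 ⟨hη, hs2 n⟩)
    (sub_ne_zero.2 (sub_ne_zero.1 h3.2).symm) (fun i => (rch K θ).eval (![η, s n] i)) (fun _ => rfl)
    (Fin.forall_fin_two.2 ⟨E4, (hst _ (hs2 n)).symm ▸ h3.1⟩) (Fin.forall_fin_two.2 ⟨hD, h4⟩)⟩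

theorem Hy.ct {m : ℕ} {N : Subgroup (unitary B)} (H : Hy K m N) (hT : (TT K B).Finite)
    (hE : EmbN K B) (hX : EisEx K B k) (hd : 3 ≤ deg K B) :
    VV K m N ∧ ∀ x ∈ Um K B m, Ct K m N x := by
  obtain ⟨η, h0, hη⟩ := exists_skew (Quad.ne (k := k) (K := K))
  have key : ∀ x ∈ Um K B m, ∀ V ∈ nb (1 : K), ∃ ζ ∈ Um K B m, (∀ y, Commute ζ y) ∧
      ∃ x' ∈ Um K B m, (∃ c, BL K B m (Nrd K (x' : B)) c) ∧
        Nrd K ((x'⁻¹ * (ζ * x) : unitary B) : B) ∈ V := fun x hx V hV => by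
    obtain ⟨ζ, h1, h2, h3, h4⟩ := exists_scalar hT h0 hη m x
    obtain ⟨q, -, hq⟩ := (nb_basis 1).mem_iff.1 hV
    obtain ⟨x', h5, h6, h7⟩ := good k hT hE hX hd ((Um K B m).mul_mem h1 hx) h3 h4 q.1
      (Nat.one_div_pos_of_nat (n := q.2))
    exact ⟨ζ, h1, h2, x', h5, h6, hq (by rw [Nrd_div]; exact h7)⟩
  obtain ⟨-, -, -, x₀, -, ⟨c₀, hb⟩, -⟩ := key 1 (one_mem _) _ univ_mem
  obtain ⟨V, hV, hVV⟩ := (H.bl hb).2
  refine ⟨⟨V, hV, hVV⟩, fun x hx => ?_⟩
  obtain ⟨ζ, h1, h2, x', h3, ⟨c, h4⟩, h5⟩ := key x hx V hV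
  obtain ⟨W, hW, h6⟩ := (H.bl h4).1 x' h3 rfl
  refine ⟨V ∩ W, inter_mem hV hW, fun y hy e => H.left hy (zc_of_commute (h2 y)) ?_⟩
  simpa using H.mul hy (h6 y hy e.2) (hVV _ ((Um K B m).mul_mem ((Um K B m).inv_mem h3)
    ((Um K B m).mul_mem h1 hx)) y hy h5 e.1)

variable (B) in
/-- approximate commuting lifts at one place of `k` -/
def LP (m : ℕ) (c : Fin 2 → K) (p : Option (Pl k)) : Prop := ∀ (q : Finset (Ix K)) (ε : ℝ), 0 < ε →
  ∃ θ : B, star θ = θ ∧ ∃ R : Fin 2 → K[X], ∀ j, Nrd K (aeval θ (R j)) ≠ 0 ∧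
    ∀ i ∈ q, pr k i = p → Gi B i m ε (c j) (aeval θ (R j))

theorem glue {m : ℕ} {c : Fin 2 → K} (h : ∀ p, LP B k m c p) (q : Finset (Ix K)) {ε : ℝ}
    (hε : 0 < ε) : ∃ θ : B, star θ = θ ∧ ∃ R : Fin 2 → K[X], ∀ j, Nrd K (aeval θ (R j)) ≠ 0 ∧
      ∀ i ∈ q, Gi B i m ε (c j) (aeval θ (R j)) := by
  classical
  choose θ hθ R hR using fun p => h p q ε hε
  obtain ⟨D, hD⟩ := ((eventually_all_finset (insert none (q.image (pr k)))).2 fun p _ =>
    eventually_all.2 fun j => eventually_gt_atTop (R p j).natDegree).exists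
  let l := (lB (K := K) k fun p => (2⁻¹ : K) • θ p) ×ˢ
    Filter.pi fun jn : Fin 2 × ℕ => lG k fun p => (R p jn.1).coeff jn.2
  let Y : Fin 2 → B × (Fin 2 × ℕ → K) → B := fun j z =>
    aeval (z.1 + star z.1) (pol D fun n => z.2 (j, n))
  have hY : ∀ p ∈ insert none (q.image (pr k)), ∀ j,
      CvB (pr (K := K) k ⁻¹' {p}) l (Y j) (aeval (θ p) (R p j)) := fun p hp j => by
    simp only [Y, aeval_pol, aeval_eq_sum_range' (hD p hp j)]
    exact CvB.sum _ fun n _ => CvB.smul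
      ((cv_lG (fun p => (R p j).coeff n) p).comp (g := fun z : B × (Fin 2 × ℕ → K) => z.2 (j, n))
        ((tendsto_eval_pi _ (j, n)).comp tendsto_snd))
      (((cv_sym k hθ p).comp tendsto_fst).pow n)
  obtain ⟨z, hz⟩ := (eventually_all.2 fun j =>
    ((hY none (Finset.mem_insert_self _ _) j).nrd.ev_ne (pr_none k) (hR none j).1).and
    ((eventually_all_finset q).2 fun i hi => Gi.ev (sc_pr k {pr k i}) rfl
      (hY _ (Finset.mem_insert_of_mem (Finset.mem_image_of_mem _ hi)) j) (hR _ j).1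
      ((hR _ j).2 i hi rfl))).exists
  exact ⟨_, by rw [star_add, star_star, add_comm], _, hz⟩

theorem Hy.heis {m : ℕ} {N : Subgroup (unitary B)} (H : Hy K m N) (hT : (TT K B).Finite)
    (hE : EmbN K B) (hX : EisEx K B k) (hd : 3 ≤ deg K B) {x y : unitary B} (hx : x ∈ Um K B m)
    (hy : y ∈ Um K B m) (hL : ∀ p, LP B k m ![Nrd K (x : B), Nrd K (y : B)] p) : Zc N x y := by
  classical
  obtain ⟨⟨V, hV, hVV⟩, hct⟩ := H.ct k hT hE hX hd
  obtain ⟨V₁, hV₁, h₁⟩ := hct x hx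
  obtain ⟨V₂, hV₂, h₂⟩ := hct y hy
  obtain ⟨q, -, hq⟩ := (nb_basis 1).mem_iff.1 (inter_mem hV (inter_mem hV₁ hV₂))
  obtain ⟨θ, hθ, R, hR⟩ := glue k hL (q.1 ∪ hT.toFinset.image Sum.inl)
    (Nat.one_div_pos_of_nat (n := q.2))
  obtain ⟨z, hz, hc⟩ := exists_lifts hθ R fun j => (hR j).1
  have hU : ∀ j, z j ∈ Um K B m := fun j => mem_Um_of (hz j) (hR j).1 fun w hw =>
    ((hR j).2 (.inl w) (Finset.mem_union_right _
      (Finset.mem_image_of_mem _ (hT.mem_toFinset.2 hw)))).2 w hw rfl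
  have hN : ∀ j, ![Nrd K (x : B), Nrd K (y : B)] j / Nrd K (z j : B) ∈ V ∩ (V₁ ∩ V₂) := fun j =>
    hq fun i hi => by
      rw [nrd_lift (hz j) (hR j).1, div_div_eq_mul_div]
      exact ((hR j).2 i (Finset.mem_union_left _ hi)).1
  have hu := (Um K B m).mul_mem ((Um K B m).inv_mem (hU 0)) hx
  have hv := (Um K B m).mul_mem ((Um K B m).inv_mem (hU 1)) hy
  have eu : Nrd K (((z 0)⁻¹ * x : unitary B) : B) ∈ V ∩ (V₁ ∩ V₂) := by rw [Nrd_div]; exact hN 0
  have ev : Nrd K (((z 1)⁻¹ * y : unitary B) : B) ∈ V ∩ (V₁ ∩ V₂) := by rw [Nrd_div]; exact hN 1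
  have a1 : Zc N (z 1) ((z 0)⁻¹ * x) :=
    H.right hu (hVV _ hv _ hu ev.1 eu.1) (by simpa using h₂ _ hu eu.2.2)
  have a2 : Zc N x (z 1) := by simpa using H.mul (hU 1) (zc_of_commute (hc 0 1)) a1.symm
  exact Zc.symm (by simpa using H.mul hx a2.symm (h₁ _ hv ev.2.1).symm)

end Glob

end Crest.Agent.T24.Heis
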