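import Crest.Agent.T24.HeisC_83
import Crest.Agent.T24.LocJ_53
import Crest.Agent.T24.HsmL_23
import Crest.Agent.T24.Opn_6
import Crest.Agent.T24.Csa6_50

/-! Row 24, HEIS part D: local targets and the local problems. -/

set_option autoImplicit false
set_option linter.unusedSectionVars false

noncomputable section

namespace Crest.Agent.T24.Heis

open Module NumberField IsDedekindDomain WithZero Csa Asa Filter Topology Polynomial
open scoped NumberField Valued TensorProduct Matrix

section Alg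
variable {F D : Type*} [Field F] [DivisionRing D] [Algebra F D] [FiniteDimensional F D]

theorem fin_shift (μ : D) {f : F[X]} (hf : f ≠ 0) :
    {t : F | aeval (algebraMap F D t + μ) f = 0}.Finite := by
  have hi : IsIntegral F μ := Algebra.IsIntegral.isIntegral μ
  obtain ⟨r, hr⟩ := IsAlgClosed.exists_aeval_eq_zero (AlgebraicClosure F) (minpoly F μ)
    (minpoly.degree_pos hi).ne'
  refine Set.Finite.subset ((f.rootSet_finite (AlgebraicClosure F)).preimage
    (f := fun t => algebraMap F _ t + r) fun a _ b _ h =>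
      (algebraMap F _).injective (add_right_cancel h)) fun t ht => ?_
  have h1 : minpoly F μ ∣ f.comp (C t + X) := minpoly.dvd F μ (by simpa [aeval_comp] using ht)
  have h2 := aeval_eq_zero_of_dvd_aeval_eq_zero h1 hr
  exact (mem_rootSet_of_ne hf).2 (by simpa [aeval_comp] using h2)

theorem aeval_ne_symm {x y : D} (h : aeval y (minpoly F x) ≠ 0) : aeval x (minpoly F y) ≠ 0 :=
  fun e => h (by
    have hi : IsIntegral F y := Algebra.IsIntegral.isIntegral y
    rw [← minpoly.eq_of_irreducible_of_monic (minpoly.irreducible hi) e (minpoly.monic hi),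
      minpoly.aeval])

theorem interp {x y z : D} (hy : aeval x (minpoly F y) ≠ 0) (hz : aeval x (minpoly F z) ≠ 0)
    (P : F[X]) : ∃ R : F[X], aeval x R = aeval x P ∧ aeval y R = 1 ∧ aeval z R = 1 := by
  obtain ⟨u, v, h⟩ : IsCoprime (minpoly F x) (minpoly F y * minpoly F z) :=
    (minpoly.irreducible (Algebra.IsIntegral.isIntegral x)).coprime_iff_not_dvd.2 fun h =>
      mul_ne_zero hy hz (by simpa using aeval_eq_zero_of_dvd_aeval_eq_zero h (minpoly.aeval F x))
  have h1 := congrArg (aeval x) h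
  have h2 := congrArg (aeval y) h
  have h3 := congrArg (aeval z) h
  refine ⟨u * minpoly F x + P * (v * (minpoly F y * minpoly F z)), ?_, ?_, ?_⟩ <;>
    simp only [map_add, map_mul, minpoly.aeval, mul_zero, zero_mul, zero_add, add_zero, map_one]
      at h1 h2 h3 ⊢
  · rw [h1, mul_one]
  · exact h2
  · exact h3

/-- two diagonal matrices in one monogenic algebra -/
theorem exists_pair [CharZero F] [Algebra.IsCentral F D] {r : ℕ} (hr : 2 ≤ r) (μ : Fin 2 → D) :
    haveI : NeZero r := ⟨by omega⟩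
    ∃ A : Matrix (Fin r) (Fin r) D, ∃ R : Fin 2 → F[X], ∀ j, Nrd F (aeval A (R j)) = Nrd F (μ j) := by
  have : NeZero r := ⟨by omega⟩
  have hm : ∀ x : D, minpoly F x ≠ 0 := fun x => minpoly.ne_zero (Algebra.IsIntegral.isIntegral x)
  obtain ⟨t, ht⟩ := (fin_shift (μ 1) (hm (μ 0))).exists_notMem
  obtain ⟨s, hs⟩ := (fin_shift (0 : D) (mul_ne_zero (hm (μ 0))
    (hm (algebraMap F D t + μ 1)))).exists_notMem
  simp only [Set.mem_ofPred_eq, map_mul, mul_eq_zero, not_or] at ht hs
  obtain ⟨R₀, a1, a2, a3⟩ := interp (aeval_ne_symm ht) (aeval_ne_symm hs.1) X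
  obtain ⟨R₁, b1, b2, b3⟩ := interp ht (aeval_ne_symm hs.2) (X - C t)
  let i₀ : Fin r := ⟨0, by omega⟩
  let i₁ : Fin r := ⟨1, by omega⟩
  have hi : i₀ ≠ i₁ := by simp [i₀, i₁]
  let g : Fin r → D := fun i =>
    if i = i₀ then μ 0 else if i = i₁ then algebraMap F D t + μ 1 else algebraMap F D s + 0
  have key : ∀ R : F[X], Nrd F (aeval (Matrix.diagonal g) R) = ∏ i, Nrd F (aeval (g i) R) := by
    intro R
    rw [← Nrd_diagonal]
    congr 1
    refine (aeval_algHom_apply (Matrix.diagonalAlgHom F) g R).trans ?_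
    refine congrArg Matrix.diagonal (funext fun i => ?_)
    exact (aeval_algHom_apply (Pi.evalAlgHom F _ i) g R).symm
  refine ⟨Matrix.diagonal g, ![R₀, R₁], Fin.forall_fin_two.2 ⟨?_, ?_⟩⟩
  · refine (key R₀).trans ((Finset.prod_eq_single i₀ (fun i _ h => ?_) (by simp)).trans ?_)
    · simp only [g, if_neg h]
      split_ifs
      · rw [a2, map_one]
      · rw [a3, map_one]
    · simp [g, a1]
  · refine (key R₁).trans ((Finset.prod_eq_single i₁ (fun i _ h => ?_) (by simp)).trans ?_)
    · simp only [g, if_neg h]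
      split_ifs
      · rw [b2, map_one]
      · rw [b3, map_one]
    · simp [g, hi.symm, b1]

/-- a hermitian idempotent of rank one -/
theorem exists_idem {F : Type*} [Field F] [CharZero F] [StarRing F] {η : F} (h0 : η ≠ 0)
    (hη : star η = -η) {n : ℕ} (hn : 0 < n) {H : Matrix (Fin n) (Fin n) F} (hH : Hᴴ = H) :
    ∃ E : Matrix (Fin n) (Fin n) F, H * E = Eᴴ * H ∧ ∀ b : F, (1 + (b - 1) • E).det = b := by
  obtain ⟨P, a, h⟩ := exists_diag η h0 hη (fun a => mul_comm _ _) hH
  let i₀ : Fin n := ⟨0, hn⟩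
  let S : Matrix (Fin n) (Fin n) F := Matrix.diagonal (Pi.single i₀ 1)
  have hS : Sᴴ = S := by
    rw [Matrix.diagonal_conjTranspose, Pi.star_single, star_one]
  refine ⟨P * S * (P⁻¹ : (Matrix (Fin n) (Fin n) F)ˣ), ?_, fun b => ?_⟩
  · have hP : IsUnit (P : Matrix (Fin n) (Fin n) F)ᴴ := (Matrix.isUnit_conjTranspose _).2 P.isUnit
    refine hP.mul_left_cancel (P.isUnit.mul_right_cancel ?_)
    have e1 : (P : Matrix (Fin n) (Fin n) F)ᴴ * ((P⁻¹ : (Matrix (Fin n) (Fin n) F)ˣ) :
        Matrix (Fin n) (Fin n) F)ᴴ = 1 := by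
      rw [← Matrix.conjTranspose_mul, Units.inv_mul, Matrix.conjTranspose_one]
    rw [Matrix.conjTranspose_mul, Matrix.conjTranspose_mul, hS]
    simp only [← mul_assoc]
    rw [e1, one_mul, h, mul_assoc _ _ (P : Matrix (Fin n) (Fin n) F), Units.inv_mul, mul_one,
      mul_assoc S, mul_assoc S, h]
    exact Matrix.commute_diagonal _ _
  · have : 1 + (b - 1) • (P * S * (P⁻¹ : (Matrix (Fin n) (Fin n) F)ˣ)) =
        P * (1 + (b - 1) • S) * (P⁻¹ : (Matrix (Fin n) (Fin n) F)ˣ) := by
      rw [mul_add, add_mul, mul_one, Units.mul_inv, mul_smul_comm, smul_mul_assoc]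
    rw [this, Matrix.det_units_conj, ← Matrix.diagonal_smul, ← Matrix.diagonal_one,
      Matrix.diagonal_add, Matrix.det_diagonal, Finset.prod_eq_single i₀]
    · simp
    · intro j _ hj; simp [hj]
    · simp

theorem exists_charpoly {F : Type*} [Field F] {f : F[X]} (hf : f.Monic) {d : ℕ}
    (hd : f.natDegree = d) : ∃ A : Matrix (Fin d) (Fin d) F, A.charpoly = f := by
  subst hd
  exact ⟨Algebra.leftMulMatrix (AdjoinRoot.powerBasis hf.ne_zero).basis
    (AdjoinRoot.powerBasis hf.ne_zero).gen, (charpoly_leftMulMatrix _).trans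
      (AdjoinRoot.minpoly_powerBasis_gen_of_monic hf)⟩

end Alg

variable {K : Type*} [Field K] [NumberField K]

theorem ev_ball (w : Pl K) {a : w.adicCompletion K} {t : Set (w.adicCompletion K)} (ht : t ∈ 𝓝 a) :
    ∀ᶠ m : ℕ in atTop, ∀ y, Valued.v (y - a) ≤ exp (-(m : ℤ)) → y ∈ t := by
  obtain ⟨r, h0, h1, h⟩ := Loc.exists_exp w
  obtain ⟨ε, hε, h2⟩ := Metric.mem_nhds_iff.1 ht
  filter_upwards [(tendsto_pow_atTop_nhds_zero_of_lt_one h0.le h1).eventually (gt_mem_nhds hε)]
    with m hm y hy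
  exact h2 (mem_ball_iff_norm.2 (((h _ _).1 hy).trans_lt hm))

theorem ev_v_lt {w : Pl K} {a : w.adicCompletion K} {γ : ℤᵐ⁰} (h : Valued.v a < γ) :
    ∀ᶠ y in 𝓝 a, Valued.v y < γ := by
  obtain ⟨p, rfl⟩ := w.valuedAdicCompletion_surjective K γ
  simp only [← Valued.toNormedField.norm_lt_iff] at h ⊢
  exact continuous_norm.continuousAt.eventually (gt_mem_nhds h)

/-- the filter of elements that approximate local targets -/
def lL (G : ∀ w : Pl K, w.adicCompletion K) : Filter K :=
  ⨅ w, comap (algebraMap K (w.adicCompletion K)) (𝓝 (G w))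

theorem tendsto_lL (G : ∀ w : Pl K, w.adicCompletion K) (w : Pl K) :
    Tendsto (algebraMap K (w.adicCompletion K)) (lL G) (𝓝 (G w)) := tendsto_iInf' w tendsto_comap

instance lL_neBot (G : ∀ w : Pl K, w.adicCompletion K) : (lL G).NeBot := by
  refine forall_mem_nonempty_iff_neBot.1 fun U hU => ?_
  obtain ⟨I, hI, V, hV, -, rfl, -⟩ := mem_iInf'.1 hU
  choose t ht htV using fun w => mem_comap.1 (hV w)
  obtain ⟨m, hm⟩ := ((eventually_all_finite hI).2 fun w _ => ev_ball w (ht w)).exists
  obtain ⟨v₀, hv₀⟩ := exists_notMem hI.toFinset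
  obtain ⟨x, hx, -⟩ := approxC _ v₀ hv₀ G m 0 one_pos
  exact ⟨x, Set.mem_iInter₂.2 fun w hw => htV w (hm w hw _ (hx w (hI.mem_toFinset.2 hw)))⟩

open Classical in
/-- target `a` at `w` and `c` elsewhere -/
def l1 (w : Pl K) (a : w.adicCompletion K) (c : K) : Filter K :=
  lL (Function.update (fun _ => algebraMap K _ c) w a)

instance (w : Pl K) (a : w.adicCompletion K) (c : K) : (l1 w a c).NeBot := lL_neBot _

theorem tendsto_l1 (w : Pl K) (a : w.adicCompletion K) (c : K) :
    Tendsto (algebraMap K (w.adicCompletion K)) (l1 w a c) (𝓝 a) := by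
  classical
  simpa [l1] using tendsto_lL (Function.update (fun _ => algebraMap K _ c) w a) w

theorem cv_l1 {w w' : Pl K} (h : w' ≠ w) (a : w.adicCompletion K) (c : K) :
    Cv {Sum.inl w'} (l1 w a c) (fun y => y) c := by
  rintro _ rfl
  have : Tendsto _ (l1 w a c) _ := tendsto_lL _ w'
  exact cv_inl.2 (by simpa only [ne_eq, h, not_false_eq_true, Function.update_of_ne] using this)

section Md
variable {B : Type*} [Ring B] [Algebra K B] [Algebra.IsCentral K B] [IsSimpleRing B]
  [FiniteDimensional K B] {w : Pl K} {A : Type*} [Ring A] [Algebra (w.adicCompletion K) A]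
  [Algebra.IsCentral (w.adicCompletion K) A] [IsSimpleRing A]
  [FiniteDimensional (w.adicCompletion K) A]

variable (w) in
/-- a model of the completion of `B` at `w` -/
structure Md (φ : B →+* A) : Prop where
  hf : ∀ c, φ (algebraMap K B c) = algebraMap _ A (algebraMap K (w.adicCompletion K) c)
  hr : finrank (w.adicCompletion K) A = finrank K B

variable {φ : B →+* A}

theorem Md.smul (M : Md w φ) (c : K) (x : B) :
    φ (c • x) = algebraMap K (w.adicCompletion K) c • φ x := by
  rw [Algebra.smul_def, map_mul, M.hf, Algebra.smul_def]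

theorem Md.eq_sum (M : Md w φ) (x : B) : φ x = ∑ j, algebraMap K (w.adicCompletion K)
    ((finBasis K B).repr x j) • φ (finBasis K B j) := by
  conv_lhs => rw [← (finBasis K B).sum_repr x, map_sum]
  simp only [M.smul]

variable [TopologicalSpace A] [IsModuleTopology (w.adicCompletion K) A] {Z : Type*} {l : Filter Z}

theorem Md.tendsto (M : Md w φ) {F : Z → B} {a : B} (h : CvB {(Sum.inl w : Ix K)} l F a) :
    Tendsto (fun z => φ (F z)) l (𝓝 (φ a)) := by
  have := IsModuleTopology.toContinuousAdd (w.adicCompletion K) A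
  simp only [M.eq_sum (F _), M.eq_sum a]
  exact tendsto_finsetSum _ fun j _ => (cv_inl.1 (h.repr _ j _ rfl)).smul_const _

theorem Md.exists_filter (M : Md w φ) (a : A) : ∃ l : Filter B, l.NeBot ∧ Tendsto φ l (𝓝 a) ∧
    ∀ w' ≠ w, CvB {(Sum.inl w' : Ix K)} l (fun y => y) 0 := by
  have := IsModuleTopology.toContinuousAdd (w.adicCompletion K) A
  let e := finBasis K B
  let e' := mapBasis (L := w.adicCompletion K) e φ M.hr
  let L := fun j => l1 w (e'.repr a j) 0
  refine ⟨(Filter.pi L).map e.equivFun.symm, inferInstance, ?_, fun w' hw' => ?_⟩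
  · rw [tendsto_map'_iff, ← e'.sum_repr a]
    refine (tendsto_finsetSum _ fun j _ =>
      ((tendsto_l1 _ _ _).comp (tendsto_eval_pi L j)).smul_const (e' j)).congr fun y => ?_
    simp [e', M.smul, map_sum]
  · refine CvB.of_basis e fun j i hi => ?_
    rw [tendsto_map'_iff]
    refine (((cv_l1 hw' _ _).comp (tendsto_eval_pi L j)) i hi).congr fun y => ?_
    simp [← Basis.equivFun_apply]

theorem Md.rch (M : Md w φ) {F : Z → B} {a : A} (h : Tendsto (fun z => φ (F z)) l (𝓝 a)) (j : ℕ) :
    Tendsto (fun z => algebraMap K (w.adicCompletion K) ((rch K (F z)).coeff j)) l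
      (𝓝 ((rch (w.adicCompletion K) a).coeff j)) := by
  have := Loc.charZero_adic K w
  refine (((continuous_rch_coeff (fun f => IsModuleTopology.continuous_of_linearMap f) j).tendsto
    a).comp h).congr fun z => ?_
  rw [Function.comp_apply, rch_map _ φ M.hf M.hr, coeff_map]

theorem Md.nrd [CharZero (w.adicCompletion K)] (M : Md w φ) {F : Z → B} {a : A}
    (h : Tendsto (fun z => φ (F z)) l (𝓝 a)) :
    Tendsto (fun z => algebraMap K (w.adicCompletion K) (Nrd K (F z))) l
      (𝓝 (Nrd (w.adicCompletion K) a)) := by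
  refine (((continuous_Nrd (fun f => IsModuleTopology.continuous_of_linearMap f)).tendsto
    a).comp h).congr fun z => ?_
  rw [Function.comp_apply, Nrd_map _ φ M.hf M.hr]

theorem Md.exists_sym [StarRing K] [StarRing B] [StarModule K B] (M : Md w φ) {w' : Pl K}
    (hw' : ∀ x, w'.valuation K x = w.valuation K (star x)) (hne : w' ≠ w) (a : A) :
    ∃ l : Filter B, l.NeBot ∧ Tendsto (fun y => φ (y + star y)) l (𝓝 a) := by
  have := IsModuleTopology.toContinuousAdd (w.adicCompletion K) A
  obtain ⟨l, h1, h2, h3⟩ := M.exists_filter a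
  exact ⟨l, h1, by simpa using h2.add (M.tendsto ((h3 w' hne).star (sc_one hw')))⟩

end Md

variable [StarRing K] {B : Type*} [Ring B] [StarRing B]
  [Algebra K B] [StarModule K B] [Algebra.IsCentral K B] [IsSimpleRing B] [FiniteDimensional K B]
  (k : Type*) [Field k] [NumberField k] [Algebra k K] [Quad k K]

theorem md_mat {w : Pl K}
    (φ : B →ₐ[K] Matrix (Fin (deg K B)) (Fin (deg K B)) (w.adicCompletion K)) :
    haveI : NeZero (deg K B) := ⟨(deg_pos K B).ne'⟩
    Md w φ.toRingHom :=
  haveI : NeZero (deg K B) := ⟨(deg_pos K B).ne'⟩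
  ⟨fun c => (φ.commutes c).trans (IsScalarTower.algebraMap_apply _ _ _ _),
    by rw [finrank_mat, Fintype.card_fin, finrank_eq_deg_sq K B]⟩

instance (n : Type*) [Finite n] (F : Type*) [Field F] [TopologicalSpace F] [IsTopologicalRing F] :
    IsModuleTopology F (Matrix n n F) := inferInstanceAs (IsModuleTopology F (n → n → F))

theorem exists_over (v : Pl k) : ∃ w : Pl K, below k w = v := by
  have := v.isMaximal
  obtain ⟨P, hP, hl⟩ := Ideal.exists_maximal_ideal_liesOver_of_isIntegral (S := 𝓞 K) v.asIdeal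
  exact ⟨⟨P, hP.isPrime, Ideal.ne_bot_of_liesOver_of_ne_bot v.ne_bot P⟩,
    HeightOneSpectrum.ext hl.over.symm⟩

theorem ne_of_split {w w' : Pl K} (hw : Split w)
    (hw' : ∀ x, w'.valuation K x = w.valuation K (star x)) : w' ≠ w := by
  rintro rfl
  obtain ⟨x, hx⟩ := hw
  exact hx (hw' x).symm

theorem eisEx : EisEx K B k := fun q => by
  classical
  have : NeZero (deg K B) := ⟨(deg_pos K B).ne'⟩
  have hb := Loc.spl_ae (finrank_eq_deg_sq K B)
  obtain ⟨v, hv, hs⟩ := Asa.exists_split Quad.fr (sig_ne k K)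
    ((q.image (pr k)).eraseNone ∪ (Set.Finite.toFinset hb).image (below k))
  obtain ⟨w, rfl⟩ := exists_over (K := K) k v
  rw [Finset.mem_union, not_or] at hv
  obtain ⟨φ⟩ : Nonempty (B →ₐ[K] Matrix (Fin (deg K B)) (Fin (deg K B)) (w.adicCompletion K)) := by
    by_contra h
    exact hv.2 (Finset.mem_image_of_mem _ ((Set.Finite.mem_toFinset hb).2 h))
  refine ⟨w, fun i hi e => hv.1 (Finset.mem_eraseNone.2 (e ▸ Finset.mem_image_of_mem _ hi)), ?_⟩
  obtain ⟨w', -, hw'⟩ := exists_cj k w
  obtain ⟨p, hp⟩ := w.valuation_surjective K (exp (-1))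
  have hf : (X ^ deg K B - C p : K[X]).Monic := monic_X_pow_sub_C p (deg_pos K B).ne'
  obtain ⟨a, ha⟩ := exists_charpoly (hf.map (algebraMap K (w.adicCompletion K)))
    (d := deg K B) (by rw [hf.natDegree_map, natDegree_X_pow_sub_C])
  obtain ⟨l, h1, h2⟩ := (md_mat φ).exists_sym hw' (ne_of_split (hs w rfl) hw') a
  have h0 : w.valuation K ((X ^ deg K B - C p : K[X]).coeff 0) = exp (-1) := by
    simp [coeff_X_pow, (deg_pos K B).ne, hp]
  obtain ⟨y, hy⟩ := (Eis.ev (J := {Sum.inl w}) (w := w) rfl (d := deg K B) (l := l)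
    (P := fun y => rch K (y + star y)) (P₀ := X ^ deg K B - C p) (fun j => by
      rintro _ rfl
      have := (md_mat φ).rch h2 j
      rw [rch_mat, ha, coeff_map] at this
      exact cv_inl.2 this) ⟨fun j hj => by
      rcases j with _ | j
      · rw [h0]; exact exp_neg_lt_one one_pos
      · simp [coeff_X_pow, hj.ne], h0⟩).exists
  exact ⟨_, by rw [star_add, star_star, add_comm], hy⟩

theorem lp_split {w w' : Pl K} (hw' : ∀ x, w'.valuation K x = w.valuation K (star x)) (hne : w' ≠ w)
    [CharZero (w.adicCompletion K)] {A : Type*} [Ring A] [Algebra (w.adicCompletion K) A]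
    [Algebra.IsCentral (w.adicCompletion K) A] [IsSimpleRing A]
    [FiniteDimensional (w.adicCompletion K) A] {φ : B →+* A} (M : Md w φ) (a : A)
    (R : Fin 2 → (w.adicCompletion K)[X]) {c : Fin 2 → K} (hc : ∀ j, star (c j) * c j = 1)
    (hN : ∀ j, Nrd (w.adicCompletion K) (aeval a (R j)) = algebraMap K _ (c j)) {m : ℕ}
    (hD : w ∈ TT K B ∨ w' ∈ TT K B → ∀ j, w.valuation K (c j) = 1 ∧
      Valued.v (Nrd (w.adicCompletion K) (aeval a (R j) - 1)) < exp (-(m : ℤ))) :
    LP B k m c (some (below k w)) := fun q ε hε => by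
  let F := w.adicCompletion K
  let ι := algebraMap K F
  let _ := moduleTopology F A
  have : IsModuleTopology F A := ⟨rfl⟩
  have := IsModuleTopology.isTopologicalRing F A
  obtain ⟨l₀, h1, h2⟩ := M.exists_sym hw' hne a
  obtain ⟨D, hD1, hD2⟩ := ((eventually_all.2 fun j => eventually_gt_atTop (R j).natDegree).and
    (eventually_gt_atTop (1 : F[X]).natDegree)).exists
  let L := fun jn : Fin 2 × ℕ => l1 w ((R jn.1).coeff jn.2) ((1 : K[X]).coeff jn.2)
  let l := l₀ ×ˢ Filter.pi L
  let Y : Fin 2 → B × (Fin 2 × ℕ → K) → B := fun j z =>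
    aeval (z.1 + star z.1) (pol D fun n => z.2 (j, n))
  have hθ : ∀ y : B, star (y + star y) = y + star y := fun y => by rw [star_add, star_star, add_comm]
  have hc0 : ∀ j, ι (c j) ≠ 0 := fun j => (map_ne_zero ι).2 (right_ne_zero_of_mul_eq_one (hc j))
  have hp : ∀ jn, Tendsto (fun z : B × (Fin 2 × ℕ → K) => z.2 jn) l (L jn) := fun jn =>
    (tendsto_eval_pi L jn).comp tendsto_snd
  have hY : ∀ j, Tendsto (fun z => φ (Y j z)) l (𝓝 (aeval a (R j))) := fun j => by
    simp only [Y, aeval_pol, aeval_eq_sum_range' (hD1 j), map_sum, M.smul, map_pow]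
    exact tendsto_finsetSum _ fun n _ =>
      ((tendsto_l1 _ _ _).comp (hp (j, n))).smul ((h2.comp tendsto_fst).pow n)
  have hY' : ∀ j, Tendsto (fun z => φ (star (Y j z))) l (𝓝 1) := fun j => by
    rw [← map_one (aeval a : F[X] →ₐ[F] A)]
    simp only [Y, aeval_pol, aeval_eq_sum_range' hD2, star_sum, star_smul, star_pow, hθ, map_sum,
      M.smul, map_pow]
    refine tendsto_finsetSum _ fun n _ => Tendsto.smul ?_ ((h2.comp tendsto_fst).pow n)
    have := cv_inl.1 ((((cv_l1 hne _ _).comp (hp (j, n))).star (sc_one hw')) _ rfl)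
    convert this using 2
    simp [coeff_one, apply_ite]
  have n1 := fun j => hN j ▸ M.nrd (hY j)
  have n2 : ∀ j, Tendsto (fun z => ι (star (Nrd K (Y j z)))) l (𝓝 1) := fun j => by
    simpa only [Csa.Nrd_star, map_one] using M.nrd (hY' j)
  have n3 : ∀ j, Tendsto (fun z => ι (Nrd K (Y j z - star (Y j z)))) l (𝓝 (Nrd F (aeval a (R j) - 1))) :=
    fun j => M.nrd (by simpa only [map_sub] using (hY j).sub (hY' j))
  have n4 : ∀ j, Tendsto (fun z => ι (Nrd K (star (Y j z) - Y j z))) l (𝓝 (Nrd F (1 - aeval a (R j)))) :=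
    fun j => M.nrd (by simpa only [map_sub] using (hY' j).sub (hY j))
  have c1 : ∀ j, Cv {Sum.inl w} l (fun z => c j * star (Nrd K (Y j z)) / Nrd K (Y j z)) 1 := by
    rintro j _ rfl
    refine cv_inl.2 ?_
    have := ((n2 j).const_mul (ι (c j))).div (n1 j) (hc0 j)
    rw [mul_one, div_self (hc0 j)] at this
    rw [map_one]
    exact this.congr fun z => by rw [map_div₀, map_mul]; rfl
  have c2 : ∀ j, Cv {Sum.inl w'} l (fun z => c j * star (Nrd K (Y j z)) / Nrd K (Y j z)) 1 := by
    intro j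
    have : Cv {Sum.inl w} l (fun z => star (c j) * Nrd K (Y j z) / star (Nrd K (Y j z))) 1 := by
      rintro _ rfl
      refine cv_inl.2 ?_
      have := ((n1 j).const_mul (ι (star (c j)))).div (n2 j) one_ne_zero
      rw [← map_mul, hc, map_one, div_one] at this
      rw [map_one]
      exact this.congr fun z => by rw [map_div₀, map_mul]; rfl
    exact (this.star (sc_one fun x => by rw [hw', star_star])).congr (fun z => by simp)
      (star_one _)
  have g1 : ∀ j, ∀ᶠ z in l, Gi B (.inl w) m ε (c j) (Y j z) := fun j => by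
    refine ((c1 j _ rfl).eventually (gt_mem_nhds hε)).and ?_
    by_cases hw : w ∈ TT K B
    · filter_upwards [((n3 j).div (n2 j) one_ne_zero).eventually
        (ev_v_lt (by rw [div_one]; exact (hD (.inl hw) j).2))] with z hz v _ e
      obtain rfl := Sum.inl_injective e
      rwa [← Loc.val_alg, map_div₀]
    · exact .of_forall fun z v hv e => absurd (Sum.inl_injective e ▸ hv) hw
  have g2 : ∀ j, ∀ᶠ z in l, Gi B (.inl w') m ε (c j) (Y j z) := fun j => by
    refine ((c2 j _ rfl).eventually (gt_mem_nhds hε)).and ?_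
    by_cases hw : w' ∈ TT K B
    · filter_upwards [((n4 j).div (n1 j) (hc0 j)).eventually (ev_v_lt (γ := exp (-(m : ℤ))) (by
        rw [map_div₀, Loc.val_alg, (hD (.inr hw) j).1, div_one, ← neg_sub, Nrd_neg, map_mul, map_pow,
          Valuation.map_neg, map_one, one_pow, one_mul]
        exact (hD (.inr hw) j).2))] with z hz v _ e
      obtain rfl := Sum.inl_injective e
      rwa [hw', star_div₀, star_star, ← Csa.Nrd_star, star_sub, star_star, ← Loc.val_alg, map_div₀]
    · exact .of_forall fun z v hv e => absurd (Sum.inl_injective e ▸ hv) hw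
  obtain ⟨z, hz⟩ := (eventually_all.2 fun j =>
    ((n1 j).eventually_ne (hc0 j)).and ((g1 j).and (g2 j))).exists
  refine ⟨_, hθ z.1, fun j => pol D fun n => z.2 (j, n), fun j =>
    ⟨(map_ne_zero ι).1 (hz j).1, ?_⟩⟩
  rintro (v | ψ) _ e
  · rcases over_iff k hw' (Option.some.inj e) with rfl | rfl
    exacts [(hz j).2.1, (hz j).2.2]
  · exact absurd e (by simp [pr])

theorem md_bc (w : Pl K) :
    haveI := isSimpleRing_tensor (K := K) (A := w.adicCompletion K) (B := B)
    haveI := isCentral_tensor (K := K) (F := w.adicCompletion K) (A := w.adicCompletion K) (B := B)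
    Md w (Algebra.TensorProduct.includeRight :
      B →ₐ[K] w.adicCompletion K ⊗[K] B).toRingHom :=
  haveI := isSimpleRing_tensor (K := K) (A := w.adicCompletion K) (B := B)
  haveI := isCentral_tensor (K := K) (F := w.adicCompletion K) (A := w.adicCompletion K) (B := B)
  ⟨fun c => (AlgHom.commutes _ c).trans (IsScalarTower.algebraMap_apply _ _ _ _),
    Module.finrank_baseChange⟩

/-- split places outside `T` -/
theorem lp_iso {w : Pl K} (hs : Split w) (hw : w ∉ TT K B) {c : Fin 2 → K}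
    (hc : ∀ j, star (c j) * c j = 1) (m : ℕ) : LP B k m c (some (below k w)) := by
  let F := w.adicCompletion K
  have := Loc.charZero_adic K w
  have := Loc.proper_adic K w
  have := isSimpleRing_tensor (K := K) (A := F) (B := B)
  have := isCentral_tensor (K := K) (F := F) (A := F) (B := B)
  obtain ⟨w', -, hw'⟩ := exists_cj k w
  obtain ⟨r, e, D, _, _, _, _, hr, -, -, -, ⟨q⟩⟩ :=
    Hsm.exists_wedderburn F (F ⊗[K] B) (finrank_eq_deg_sq F _)
  have hr2 : 2 ≤ r := by
    by_contra h
    obtain rfl : r = 1 := by omega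
    refine hw ⟨hs, Loc.ultra_iff.2 fun z hz => ?_⟩
    let q' := ((Algebra.TensorProduct.comm K B F).toRingEquiv.trans q.toRingEquiv).trans
      (Matrix.uniqueRingEquiv (A := D) (m := Fin 1))
    have h0 : q' z ≠ 0 := (map_ne_zero_iff _ q'.injective).2 hz
    exact ⟨q'.symm (q' z)⁻¹, q'.injective (by simp [h0]), q'.injective (by simp [h0])⟩
  have : NeZero r := ⟨hr.ne'⟩
  choose μ hμ using fun j => Hsm.Nrd_onto_div F D (algebraMap K F (c j))
  obtain ⟨a, R, h⟩ := exists_pair (F := F) hr2 μ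
  refine lp_split k hw' (ne_of_split hs hw') (φ := q.toRingEquiv.toRingHom.comp
    (Algebra.TensorProduct.includeRight : B →ₐ[K] F ⊗[K] B).toRingHom)
    ⟨fun c => (congrArg q ((md_bc w).hf c)).trans (q.commutes _),
      q.toLinearEquiv.finrank_eq.symm.trans (md_bc w).hr⟩ a R hc (fun j => (h j).trans (hμ j))
    fun h => absurd (h.elim id fun h => ⟨hs, fun x y => ?_⟩) hw
  have e : ∀ x : B, val w x = val w' (star x) := fun x => by rw [val, val, hw', Nrd_star, star_star]
  simpa only [e, star_add] using h.2 (star x) (star y)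

theorem nrd_deep {w : Pl K} (hw : w ∈ TT K B) (n : ℕ) : ∀ᶠ m : ℕ in atTop, ∀ x : B,
    val w (x - 1) < exp (-(m : ℤ)) → w.valuation K (Nrd K x - 1) ≤ exp (-(n : ℤ)) := by
  suffices ∃ m : ℕ, ∀ x : B, val w (x - 1) < exp (-(m : ℤ)) →
      w.valuation K (Nrd K x - 1) ≤ exp (-(n : ℤ)) from
    this.elim fun m h => eventually_atTop.2 ⟨m, fun _ hm x hx => h x (hx.trans_le (exp_neg_anti hm))⟩
  by_contra h
  push Not at h
  choose x h1 h2 using h
  have : CvB {(Sum.inl w : Ix K)} atTop x 1 := CvB.of_basis (finBasis K B) fun j => by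
    rintro _ rfl
    refine Cv.of_val fun M => ?_
    filter_upwards [Loc.cofinal (Loc.ultra_iff.1 hw.2) (finBasis K B) M] with m hm
    simpa using (hm (x m - 1)).2 (h1 m).le j
  obtain ⟨m, hm⟩ := (this.nrd.ev_val rfl (γ := exp (-(n : ℤ))) exp_ne_zero).exists
  rw [map_one] at hm
  exact (h2 m).not_gt hm

/-- the places of `T` -/
theorem lp_T {w : Pl K} (hw : w ∈ TT K B) (m : ℕ) : ∀ᶠ m₁ : ℕ in atTop, ∀ x : Fin 2 → unitary B,
    (∀ j, x j ∈ Um K B m₁) → LP B k m (fun j => Nrd K (x j : B)) (some (below k w)) := by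
  let F := w.adicCompletion K
  have := Loc.charZero_adic K w
  have := isSimpleRing_tensor (K := K) (A := F) (B := B)
  have := isCentral_tensor (K := K) (F := F) (A := F) (B := B)
  obtain ⟨w', -, hw'⟩ := exists_cj k w
  have hV : {y : F | Valued.v (y - 1) < exp (-(m : ℤ))} ∈ 𝓝 (1 : F) :=
    (continuous_sub_right (1 : F)).continuousAt.eventually (ev_v_lt (by simp))
  obtain ⟨n, hn⟩ := (ev_ball w (Opn.root_one F (A := F) (n := deg K B)
    (Nat.cast_ne_zero.2 (deg_pos K B).ne') hV)).exists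
  filter_upwards [nrd_deep hw n] with m₁ hm x hx
  have hd : deg F (F ⊗[K] B) = deg K B := by rw [deg, deg, (md_bc w).hr]
  choose ρ _ h1 h2 using fun j => hn (algebraMap K F (Nrd K (x j : B))) (by
    rw [← map_one (algebraMap K F), ← map_sub, Loc.val_alg]; exact hm _ (hx j w hw))
  refine lp_split k hw' (ne_of_split hw.1 hw') (md_bc w) 0 (fun j => C (ρ j))
    (fun j => Nrd_unitary (x j).2) (fun j => by rw [aeval_C, Nrd_algebraMap, hd, h2])
    fun _ j => ⟨Deep.val_eq_one (hx j) hw, ?_⟩
  rw [aeval_C, ← map_one (algebraMap F _), ← map_sub, Nrd_algebraMap, hd, map_pow]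
  exact (pow_le_of_le_one zero_le ((h1 j).le.trans (exp_neg_le_one m)) (deg_pos K B).ne').trans_lt
    (h1 j)

/-- from convergence of the norms at a conjugation-stable set without places of `T` -/
theorem lp_of {Z : Type*} {l : Filter Z} [l.NeBot] {p : Option (Pl k)}
    (hp : (pr (K := K) k ⁻¹' {p}).Nonempty) (hT : ∀ w ∈ TT K B, some (below k w) ≠ p) {θ : Z → B}
    (hθ : ∀ z, star (θ z) = θ z) {R : Z → Fin 2 → K[X]} {c b : Fin 2 → K} (hb : ∀ j, b j ≠ 0)
    (hc : ∀ j, b j = c j * star (b j))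
    (h : ∀ j, Cv (pr k ⁻¹' {p}) l (fun z => Nrd K (aeval (θ z) (R z j))) (b j)) (m : ℕ) :
    LP B k m c p := fun q ε hε => by
  obtain ⟨z, hz⟩ := (eventually_all.2 fun j => ((h j).ev_ne hp (hb j)).and
    ((eventually_all_finite (q.finite_toSet.inter_of_left (pr k ⁻¹' {p}))).2 fun i hi =>
      (((Cv.const (c j)).mul ((h j).star (sc_pr k _))).div (h j) (hb j)).ev_ab hi.2 (c := 1)
        (ε := ε) (by rw [← hc, div_self (hb j), sub_self, map_zero]; exact hε))).exists
  exact ⟨θ z, hθ z, R z, fun j => ⟨(hz j).1, fun i hi e => ⟨(hz j).2 i ⟨hi, e⟩,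
    fun w hw e' => absurd (by rw [← e, e']; rfl) (hT w hw)⟩⟩⟩

/-- non-split places -/
theorem lp_ns {w : Pl K} (hw : ¬ Split w) {c : Fin 2 → K} (hc : ∀ j, star (c j) * c j = 1)
    (m : ℕ) : LP B k m c (some (below k w)) := by
  have hne := Quad.ne (k := k) (K := K)
  let F := w.adicCompletion K
  have := Loc.charZero_adic K w
  have : NeZero (deg K B) := ⟨(deg_pos K B).ne'⟩
  obtain ⟨φ, H, h1, h2⟩ := Loc.exists_model' B hne hw
  obtain ⟨η, h0, hη⟩ := exists_skew hne
  let _ := Loc.starW hw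
  have : ContinuousStar F := ⟨Loc.continuous_sw hw⟩
  obtain ⟨E, h3, h4⟩ := exists_idem (η := algebraMap K F η) ((_root_.map_ne_zero _).2 h0)
    ((Loc.sw_algebraMap hw η).trans (by rw [hη, map_neg])) (deg_pos K B) (H := H.1) h1
  obtain ⟨l, _, h5, -⟩ := (md_mat φ).exists_filter ((2⁻¹ : F) • E)
  have h6 : Tendsto (fun y => φ (y + star y)) l (𝓝 E) := by
    have e : ∀ y, φ (star y) = (H⁻¹).1 * ((φ y)ᴴ * H.1) := fun y =>
      (Units.eq_inv_mul_iff_mul_eq H).2 (h2 y)
    have := h5.add ((((continuous_id.matrix_conjTranspose.tendsto _).comp h5).mul_const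
      H.1).const_mul (H⁻¹).1)
    rw [id, Matrix.conjTranspose_smul, star_inv₀, star_ofNat, smul_mul_assoc, ← h3, mul_smul_comm,
      Units.inv_mul_cancel_left, ← add_smul, show (2⁻¹ + 2⁻¹ : F) = 1 by norm_num, one_smul] at this
    exact this.congr fun y => by rw [map_add, e]; rfl
  choose b hb0 hb using fun j => hilbert90 hne ((mul_comm _ _).trans (hc j))
  have hw' := fun x => (Loc.val_star hw x).symm
  refine lp_of k (l := l) ⟨.inl w, rfl⟩ (fun v hv e => hw ?_) (θ := fun y => y + star y)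
    (fun y => by rw [star_add, star_star, add_comm]) (R := fun _ j => 1 + C (b j - 1) * X) hb0 hb
    (fun j => ?_) m
  · obtain rfl := (over_iff k hw' (Option.some.inj e)).elim id id
    exact hv.1
  · rintro (v | ψ) e
    · obtain rfl := (over_iff k hw' (Option.some.inj e)).elim id id
      refine cv_inl.2 ?_
      have := (md_mat φ).nrd (F := fun y => aeval (y + star y) (1 + C (b j - 1) * X))
        (a := 1 + (algebraMap K F (b j) - 1) • E) (l := l) (by
          refine ((h6.const_smul (algebraMap K F (b j) - 1)).const_add 1).congr fun y => ?_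
          rw [map_add (aeval _), map_one, map_mul, aeval_C, aeval_X, ← Algebra.smul_def,
            map_add φ.toRingHom 1, map_one, (md_mat φ).smul, map_sub, map_one]
          rfl)
      rwa [Nrd_mat, h4] at this
    · exact absurd e (by simp [pr])

theorem real_root {n : ℕ} (hn : Odd n) (y : ℝ) : ∃ z : ℝ, z ^ n = y := by
  rcases le_total 0 y with h | h
  · exact ⟨_, Real.rpow_inv_natCast_pow h hn.pos.ne'⟩
  · exact ⟨-_, by rw [hn.neg_pow, Real.rpow_inv_natCast_pow (neg_nonneg.2 h) hn.pos.ne', neg_neg]⟩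

/-- the infinite places -/
theorem lp_inf (hd : Odd (deg K B)) {c : Fin 2 → K} (hc : ∀ j, star (c j) * c j = 1) (m : ℕ) :
    LP B k m c none := by
  classical
  choose b hb0 hb using fun j => hilbert90 (Quad.ne (k := k)) ((mul_comm _ _).trans (hc j))
  have hroot : ∀ y : mixedEmbedding.mixedSpace K, ∃ z, z ^ deg K B = y := fun y => by
    choose z₁ h₁ using fun i => real_root hd (y.1 i)
    choose z₂ h₂ using fun i => IsAlgClosed.exists_pow_nat_eq (y.2 i) (deg_pos K B)
    exact ⟨(z₁, z₂), Prod.ext (funext h₁) (funext h₂)⟩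
  choose z hz using fun j => hroot (mixedEmbedding K (b j))
  choose x _ hx using fun j (n : ℕ) => Asa.weak ∅ (fun _ => (0 : K)) 0 (z j)
    (Nat.one_div_pos_of_nat (α := ℝ) (n := n))
  refine lp_of k (l := atTop) (pr_none k) (fun _ _ => by simp) (θ := fun _ => 0) (fun _ => star_zero _)
    (R := fun n j => C (x j n)) hb0 hb (fun j => ?_) m
  rintro (v | ψ) e
  · exact absurd e (by simp [pr])
  have h1 : Tendsto (fun n => mixedEmbedding K (x j n)) atTop (𝓝 (z j)) :=
    tendsto_iff_norm_sub_tendsto_zero.2 (squeeze_zero (fun _ => norm_nonneg _) (fun n => by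
      rw [mixedEmbedding.norm_eq_sup'_normAtPlace]
      exact Finset.sup'_le _ _ fun w _ => (hx j n w).le) tendsto_one_div_add_atTop_nhds_zero_nat)
  have h2 := ((mixedEmbedding.continuous_normAtPlace (InfinitePlace.mk ψ)).tendsto _).comp
    ((h1.pow (deg K B)).sub_const (mixedEmbedding K (b j)))
  rw [hz, sub_self, map_zero] at h2
  refine h2.congr fun n => ?_
  rw [Function.comp_apply, ← map_pow, ← map_sub, mixedEmbedding.normAtPlace_apply]
  simp only [aeval_C, Nrd_algebraMap]
  rfl

/-- all local problems -/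
theorem lp_all (hd : 2 ≤ deg K B) (ho : Odd (deg K B)) (m : ℕ) : ∀ᶠ m₁ : ℕ in atTop,
    ∀ x : Fin 2 → unitary B, (∀ j, x j ∈ Um K B m₁) → ∀ p, LP B k m (fun j => Nrd K (x j : B)) p := by
  filter_upwards [(eventually_all_finite (Loc.finite_TT hd)).2 fun w hw => lp_T k hw m]
    with m₁ hm x hx p
  have hc := fun j => Nrd_unitary (K := K) (x j).2
  rcases p with _ | v
  · exact lp_inf k ho hc m
  obtain ⟨w, rfl⟩ := exists_over (K := K) k v
  by_cases hs : Split w
  · by_cases hw : w ∈ TT K B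
    · exact hm w hw x hx
    · exact lp_iso k hs hw hc m
  · exact lp_ns k hs hc m

end Crest.Agent.T24.Heis
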