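import Crest.Agent.T24.HeisC_83
import Crest.Agent.T24.EmbL_22
import Crest.Agent.T24.LocM_59
import Crest.Agent.T24.EvnEis_61

/-! Row 24, HEIS (helper22): the two embedding inputs. -/

set_option autoImplicit false
set_option linter.unusedSectionVars false

noncomputable section

namespace Crest.Agent.T24.Heis

open Module NumberField IsDedekindDomain WithZero Csa Asa Filter Topology Polynomial
open scoped NumberField Valued

variable (k K B : Type*) [Field k] [NumberField k] [Field K] [NumberField K] [Algebra k K]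
  [StarRing K] [Quad k K] [Ring B] [StarRing B] [Algebra K B] [StarModule K B]
  [Algebra.IsCentral K B] [IsSimpleRing B] [FiniteDimensional K B] [Algebra k B]
  [IsScalarTower k K B]

namespace E22

theorem fix (c : K) (h : star c = c) : ∃ a : k, algebraMap k K a = c :=
  exists_of_star_eq (Quad.fr (k := k) (K := K)) Quad.star_k (Quad.ne (k := k)) h

theorem ev_fin (v : Pl k) (m : ℕ) : ∀ᶠ y in nb (0 : K), ∀ x : k, algebraMap k K x = y →
    v.valuation k x ≤ exp (-(m : ℤ)) := by
  obtain ⟨P, hP, hl⟩ := Ideal.exists_maximal_ideal_liesOver_of_isIntegral (S := 𝓞 K) v.asIdeal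
  let w : Pl K := ⟨P, hP.isPrime, Ideal.ne_bot_of_liesOver_of_ne_bot v.ne_bot P⟩
  have hw : below k w = v := HeightOneSpectrum.ext hl.over.symm
  obtain ⟨p, hp⟩ := v.valuation_surjective k (exp (-(m : ℤ)))
  obtain ⟨e, he, h⟩ := val_below (k := k) w
  filter_upwards [(cv_nb (0 : K)).ev_val (w := w) trivial (γ := exp (-(m : ℤ)) ^ e)
    (pow_ne_zero _ exp_ne_zero)] with y hy x hx
  rw [← hx, sub_zero, h, hw, pow_lt_pow_iff_left₀ zero_le zero_le he] at hy
  exact hy.le

theorem ev_real (φ : k →+* ℝ) {ε : ℝ} (hε : 0 < ε) : ∀ᶠ y in nb (0 : K), ∀ x : k,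
    algebraMap k K x = y → |φ x| < ε := by
  filter_upwards [(cv_nb (0 : K)).ev_ab
    (i := .inr (ComplexEmbedding.lift K (Complex.ofRealHom.comp φ))) trivial (c := 0) (ε := ε)
    (by simpa using hε)] with y hy x hx
  rw [← hx, sub_zero, ab_inr, ComplexEmbedding.lift_algebraMap_apply] at hy
  simpa using hy

end E22

open E22

include k in
theorem embN22 : EmbN K B := by
  intro a ha hs
  obtain ⟨P₀, h1, h2, h3⟩ := exists_rch_herm (fix k K) ha
  obtain ⟨S, hS⟩ := Emb.embNear k K B
  obtain ⟨m, ε, hε, h⟩ := hS P₀ a ⟨ha, h3.symm⟩ ((separable_map _).1 (h3 ▸ hs)) S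
    (fun _ => Set.univ) (fun _ => Set.univ) le_rfl (fun _ _ => univ_mem) fun _ => univ_mem
  refine ⟨_, ((eventually_all_finset S).2 fun v _ => ev_fin k K v m).and
    (eventually_all.2 fun φ => ev_real k K φ hε), fun P hm hd hst hi hc => ?_⟩
  obtain ⟨Q, rfl⟩ := exists_map_of_star (fix k K) hst
  have hQ : Q.Monic := monic_of_injective (algebraMap k K).injective hm
  rw [natDegree_map] at hd
  have key : ∀ j, Q.coeff j - P₀.coeff j = 0 ∨ ∃ y, algebraMap k K (Q.coeff j - P₀.coeff j) = y ∧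
      (∀ v ∈ S, ∀ x : k, algebraMap k K x = y → v.valuation k x ≤ exp (-(m : ℤ))) ∧
      ∀ (φ : k →+* ℝ) (x : k), algebraMap k K x = y → |φ x| < ε := fun j => by
    rcases lt_trichotomy j (deg K B) with hj | hj | hj
    · exact .inr ⟨_, by rw [map_sub, ← coeff_map, ← coeff_map, h3], hc j hj⟩
    · exact .inl (by rw [hj, ← hd, hQ.coeff_natDegree, hd, ← h2, h1.coeff_natDegree, sub_self])
    · exact .inl (by rw [coeff_eq_zero_of_natDegree_lt (hd ▸ hj),
        coeff_eq_zero_of_natDegree_lt (h2 ▸ hj), sub_self])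
  obtain ⟨th, h4, -⟩ := h Q hQ (hQ.irreducible_of_irreducible_map _ _ hi) hd
    (fun v hv j => (key j).elim (fun e => by rw [e, map_zero]; exact zero_le)
      fun ⟨_, e, e', _⟩ => e' v hv _ e)
    fun φ j => (key j).elim (fun e => by rwa [e, map_zero, abs_zero]) fun ⟨_, e, _, e'⟩ => e' φ _ e
  exact ⟨th, h4⟩

theorem eisEx22 : EisEx K B k := by
  classical
  intro q
  obtain ⟨a, ha, hs⟩ := exists_herm_separable (B := B) (Quad.ne (k := k) (K := K))
  obtain ⟨P₀, h1, h2, h3⟩ := exists_rch_herm (fix k K) ha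
  obtain ⟨S, hS⟩ := Emb.embNear k K B
  obtain ⟨m, ε, hε, h⟩ := hS P₀ a ⟨ha, h3.symm⟩ ((separable_map _).1 (h3 ▸ hs)) S
    (fun _ => Set.univ) (fun _ => Set.univ) le_rfl (fun _ _ => univ_mem) fun _ => univ_mem
  obtain ⟨v, hv, ⟨ι⟩⟩ := SplE.exists_hom_notMem k K (S ∪ q.toLeft.image (below k))
  obtain ⟨w, hw, -, hι⟩ := Loc.place_of_hom ι
  have hwv : ∀ x : k, w.valuation K (algebraMap k K x) = v.valuation k x := fun x => by
    rw [hι, ι.commutes, Loc.val_alg]
  obtain ⟨p, hp⟩ := v.valuation_surjective k (exp (-1))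
  obtain ⟨v₀, hv₀⟩ := exists_notMem (insert v S)
  choose c hc1 _ hc2 using fun j : ℕ => Line.sa (insert v S) v₀ hv₀
    (fun u => if u = v then p else P₀.coeff j) (m + 2) (P₀.coeff j) hε
  have hd := deg_pos K B
  let R : k[X] := ∑ j ∈ Finset.range (deg K B), monomial j (c j)
  have hR : R.degree < deg K B := (degree_sum_le _ _).trans_lt ((Finset.sup_lt_iff
    (WithBot.bot_lt_coe _)).2 fun j hj => (degree_monomial_le _ _).trans_lt
      (by exact_mod_cast Finset.mem_range.1 hj))
  have hm : (X ^ deg K B + R).Monic := monic_X_pow_add hR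
  have hn : (X ^ deg K B + R).natDegree = deg K B := by
    rw [natDegree_add_eq_left_of_degree_lt (by rwa [degree_X_pow]), natDegree_X_pow]
  have hc : ∀ j < deg K B, (X ^ deg K B + R).coeff j = c j := fun j hj => by
    simp [R, coeff_X_pow, hj.ne, coeff_monomial, hj]
  generalize X ^ deg K B + R = Q at hm hn hc
  have hv' : ∀ j, v.valuation k (c j) = exp (-1) := fun j => by
    have := (hc1 j v (Finset.mem_insert_self _ _)).trans_lt
      (show _ < exp (-1) by rw [exp_lt_exp]; omega)
    rw [if_pos rfl, ← hp] at this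
    rw [← hp, ← sub_add_cancel (c j) p, Valuation.map_add_eq_of_lt_right _ this]
  have h5 : exp (-1 : ℤ) < 1 := by rw [← exp_zero, exp_lt_exp]; omega
  have key : ∀ j, j < deg K B ∨ Q.coeff j - P₀.coeff j = 0 := fun j => by
    rcases lt_trichotomy j (deg K B) with hj | hj | hj
    · exact .inl hj
    · exact .inr (by rw [hj, ← hn, hm.coeff_natDegree, hn, ← h2, h1.coeff_natDegree, sub_self])
    · exact .inr (by rw [coeff_eq_zero_of_natDegree_lt (hn ▸ hj),
        coeff_eq_zero_of_natDegree_lt (h2 ▸ hj), sub_self])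
  obtain ⟨th, ⟨h6, h7⟩, -⟩ := h Q hm (Evn.E61.irr (v.valuation k) hm (hn ▸ hd)
      (fun j hj => by rw [hc j (hn ▸ hj), hv']; exact h5) (by rw [hc 0 hd, hv'])) hn
    (fun u hu j => (key j).elim (fun hj => by
      have := hc1 j u (Finset.mem_insert_of_mem hu)
      rw [if_neg fun e : u = v => hv (Finset.mem_union_left _ (e ▸ hu))] at this
      rw [hc j hj]
      exact this.trans (by rw [exp_le_exp]; omega)) fun e => by rw [e, map_zero]; exact zero_le)
    fun φ j => (key j).elim (fun hj => by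
      rw [hc j hj]; exact (Complex.norm_real _).symm.trans_lt (hc2 j (Complex.ofRealHom.comp φ)))
      fun e => by rwa [e, map_zero, abs_zero]
  refine ⟨w, ?_, th, h6, fun j hj => ?_, ?_⟩
  · rintro (u | φ) hi e
    · exact hv (Finset.mem_union_right _ (Finset.mem_image.2
        ⟨u, Finset.mem_toLeft.2 hi, (Option.some.inj e).trans hw⟩))
    · cases e
  · rw [h7, coeff_map, hwv, hc j hj, hv']; exact h5
  · rw [h7, coeff_map, hwv, hc 0 hd, hv']

end Crest.Agent.T24.Heis
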