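import Crest.Agent.T24.HgtDefB_88

/-!
# Row 24, heights: splitting of the classes at one prime (for the assembly of `HtStmt`)
-/

set_option autoImplicit false
set_option linter.unusedSectionVars false

noncomputable section

namespace Crest.Agent.T24.Hgt.A91

open Filter Topology Module Crest.Agent.T24.Hgt

variable {B : Type*} [Ring B] [Algebra ℚ B] [StarRing B]

theorem mem_Loc {O : Subring B} {M : ℕ} {x : B} :
    x ∈ Loc O M ↔ ∃ m : ℕ, m.Coprime M ∧ m ≠ 0 ∧ (m : B) * x ∈ O := Iff.rfl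

theorem mem_OS {O : Subring B} {M : ℕ} {x : B} :
    x ∈ OS O M ↔ ∃ j : ℕ, (M : B) ^ j * x ∈ O := Iff.rfl

theorem mem_Jn {R : Subring B} {x : B} : x ∈ Jn R ↔ star x = x ∧ x ∈ R := Iff.rfl

theorem le_Loc (O : Subring B) (M : ℕ) {x : B} (hx : x ∈ O) : x ∈ Loc O M :=
  ⟨1, by simp, one_ne_zero, by simpa using hx⟩

theorem Loc_mono (O : Subring B) {M N : ℕ} (h : M ∣ N) {x : B} (hx : x ∈ Loc O N) :
    x ∈ Loc O M := by
  obtain ⟨m, hm, h0, hx⟩ := hx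
  exact ⟨m, Nat.Coprime.coprime_dvd_right h hm, h0, hx⟩

theorem OS_Loc (O : Subring B) {p M : ℕ} (hp : p ≠ 0) (h : p.Coprime M) {x : B}
    (hx : x ∈ OS O p) : x ∈ Loc O M := by
  obtain ⟨j, hx⟩ := hx
  exact ⟨p ^ j, Nat.Coprime.pow_left j h, pow_ne_zero j hp, by simpa using hx⟩

theorem gcd_mem (O : Subring B) {m n : ℕ} {x : B} (hm : (m : B) * x ∈ O) (hn : (n : B) * x ∈ O) :
    (Nat.gcd m n : B) * x ∈ O := by
  have h := Nat.gcd_eq_gcd_ab m n
  have h2 : ((Nat.gcd m n : ℕ) : B) = (Nat.gcdA m n : B) * m + (Nat.gcdB m n : B) * n := by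
    have := congrArg (Int.cast : ℤ → B) h
    push_cast at this
    rw [this, (Nat.cast_commute m _).eq, (Nat.cast_commute n _).eq]
  rw [h2, add_mul, mul_assoc, mul_assoc]
  exact O.add_mem (O.mul_mem (intCast_mem O _) hm) (O.mul_mem (intCast_mem O _) hn)

theorem mem_of_OS_Loc (O : Subring B) {p : ℕ} {x : B} (h1 : x ∈ OS O p) (h2 : x ∈ Loc O p) :
    x ∈ O := by
  obtain ⟨j, h1⟩ := h1
  obtain ⟨m, hm, -, h2⟩ := h2
  have h := gcd_mem O (n := p ^ j) h2 (by simpa using h1)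
  rw [(Nat.Coprime.pow_right j hm).gcd_eq_one] at h
  simpa using h

/-- the classes of hermitian elements of `R` modulo the integral ones -/
abbrev Qt (O R : Subring B) : Type _ := Jn R ⧸ (Jn O).addSubgroupOf (Jn R)

theorem mk_eq_iff {O R : Subring B} (a : Jn R) (t : Qt O R) :
    (QuotientAddGroup.mk a : Qt O R) = t ↔ (t.out : B) - a ∈ O := by
  conv_lhs => rw [← QuotientAddGroup.out_eq' t]
  rw [QuotientAddGroup.eq, AddSubgroup.mem_addSubgroupOf, mem_Jn]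
  have h1 : ((-a + t.out : Jn R) : B) = (t.out : B) - a := by
    push_cast; abel
  rw [h1]
  refine ⟨fun h => h.2, fun h => ⟨?_, h⟩⟩
  rw [star_sub, (mem_Jn.1 a.2).1, (mem_Jn.1 t.out.2).1]

theorem qt_eq_iff {O R : Subring B} (t u : Qt O R) : t = u ↔ (u.out : B) - t.out ∈ O := by
  rw [← mk_eq_iff, QuotientAddGroup.out_eq']

theorem eq_zero_iff {O R : Subring B} (t : Qt O R) : t = 0 ↔ (t.out : B) ∈ O := by
  rw [eq_comm, ← QuotientAddGroup.mk_zero, mk_eq_iff]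
  simp

theorem zero_out {O R : Subring B} : (((0 : Qt O R).out : Jn R) : B) ∈ Jn O :=
  mem_Jn.2 ⟨(mem_Jn.1 (Quotient.out (0 : Qt O R)).2).1, (eq_zero_iff _).1 rfl⟩

/-- the gluing map -/
def glue (O : Subring B) {M p : ℕ} (hp : p.Prime) (hM : ¬ p ∣ M) (q : Cp O p × Cl O (M * p)) :
    Cl O M :=
  QuotientAddGroup.mk ⟨(q.1.out : B) + (q.2.out : B), mem_Jn.2
    ⟨by rw [star_add, (mem_Jn.1 q.1.out.2).1, (mem_Jn.1 q.2.out.2).1],
     (Loc O M).add_mem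
      (OS_Loc O hp.ne_zero ((Nat.Prime.coprime_iff_not_dvd hp).2 hM) (mem_Jn.1 q.1.out.2).2)
      (Loc_mono O (Dvd.intro _ rfl) (mem_Jn.1 q.2.out.2).2)⟩⟩

theorem glue_out (O : Subring B) {M p : ℕ} (hp : p.Prime) (hM : ¬ p ∣ M)
    (q : Cp O p × Cl O (M * p)) :
    ((glue O hp hM q).out : B) - ((q.1.out : B) + (q.2.out : B)) ∈ O :=
  (mk_eq_iff _ _).1 rfl

theorem glue_inj (O : Subring B) {M p : ℕ} (hp : p.Prime) (hM : ¬ p ∣ M) :
    Function.Injective (glue O hp hM) := by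
  rintro ⟨u, v⟩ ⟨u', v'⟩ h
  have h1 := glue_out O hp hM (u, v)
  have h2 := glue_out O hp hM (u', v')
  rw [h] at h1
  have h3 : ((u'.out : B) - u.out) + ((v'.out : B) - v.out) ∈ O := by
    have := O.sub_mem h1 h2
    convert this using 1
    abel
  have h4 : (u'.out : B) - u.out ∈ O := by
    refine mem_of_OS_Loc O (p := p)
      ((OS O p).sub_mem (mem_Jn.1 u'.out.2).2 (mem_Jn.1 u.out.2).2) ?_
    have h5 : (v'.out : B) - v.out ∈ Loc O p :=
      Loc_mono O (Dvd.intro_left _ rfl)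
        ((Loc O (M * p)).sub_mem (mem_Jn.1 v'.out.2).2 (mem_Jn.1 v.out.2).2)
    have := (Loc O p).sub_mem (le_Loc O p h3) h5
    simpa using this
  have h5 : (v'.out : B) - v.out ∈ O := by
    have := O.sub_mem h3 h4
    simpa using this
  exact Prod.ext ((qt_eq_iff _ _).2 h4) ((qt_eq_iff _ _).2 h5)

theorem glue_surj (O : Subring B) {M p : ℕ} (hp : p.Prime) (hM : ¬ p ∣ M) :
    Function.Surjective (glue O hp hM) := by
  intro t
  obtain ⟨hs, m, hm, hm0, hma⟩ := mem_Jn.1 t.out.2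
  set a : B := (t.out : B) with ha
  obtain ⟨j, m', hm', rfl⟩ := Nat.exists_eq_pow_mul_and_not_dvd hm0 p hp.ne_one
  have hcop : Nat.Coprime (p ^ j) m' :=
    Nat.Coprime.pow_left j ((Nat.Prime.coprime_iff_not_dvd hp).2 hm')
  have h := Nat.gcd_eq_gcd_ab (p ^ j) m'
  rw [hcop.gcd_eq_one] at h
  set α := Nat.gcdA (p ^ j) m'
  set β := Nat.gcdB (p ^ j) m'
  have hsum : (β * m' : ℤ) • a + (α * p ^ j : ℤ) • a = a := by
    rw [← add_smul]
    have : β * m' + α * (p : ℤ) ^ j = 1 := by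
      push_cast at h; linarith
    rw [this, one_smul]
  have hk : ∀ (k : ℕ) (c d : ℤ), (k : ℤ) * c = d * ((p ^ j * m' : ℕ) : ℤ) →
      (k : B) * (c • a) ∈ O := by
    intro k c d hkc
    have e1 : (k : B) * (c • a) = (d : B) * (((p ^ j * m' : ℕ) : B) * a) := by
      rw [← nsmul_eq_mul, ← nsmul_eq_mul, ← zsmul_eq_mul, ← natCast_zsmul, ← natCast_zsmul,
        smul_smul, smul_smul, hkc]
    rw [e1]
    exact O.mul_mem (intCast_mem O _) hma
  have h1 : (β * m' : ℤ) • a ∈ Jn (OS O p) := by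
    refine mem_Jn.2 ⟨by rw [star_zsmul, hs], j, ?_⟩
    have := hk (p ^ j) (β * m') β (by push_cast; ring)
    simpa using this
  have h2 : (α * p ^ j : ℤ) • a ∈ Jn (Loc O (M * p)) := by
    refine mem_Jn.2 ⟨by rw [star_zsmul, hs], m', ?_, ?_, hk m' _ α (by push_cast; ring)⟩
    · exact Nat.Coprime.mul_right (Nat.Coprime.coprime_mul_left hm)
        ((Nat.Prime.coprime_iff_not_dvd hp).2 hm').symm
    · rintro rfl; exact hm' (dvd_zero p)
  refine ⟨(QuotientAddGroup.mk ⟨_, h1⟩, QuotientAddGroup.mk ⟨_, h2⟩), ?_⟩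
  have e1 := (mk_eq_iff (O := O) ⟨_, h1⟩ _).1 rfl
  have e2 := (mk_eq_iff (O := O) ⟨_, h2⟩ _).1 rfl
  refine (mk_eq_iff _ _).2 ?_
  have key : ∀ x y a₁ a₂ a : B, a₁ + a₂ = a → x - a₁ ∈ O → y - a₂ ∈ O → a - (x + y) ∈ O := by
    rintro x y a₁ a₂ a rfl hx hy
    have := O.neg_mem (O.add_mem hx hy)
    convert this using 1
    abel
  exact key _ _ _ _ _ hsum e1 e2

/-- the splitting of the classes at one prime -/
def glueE (O : Subring B) {M p : ℕ} (hp : p.Prime) (hM : ¬ p ∣ M) :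
    Cp O p × Cl O (M * p) ≃ Cl O M :=
  Equiv.ofBijective (glue O hp hM) ⟨glue_inj O hp hM, glue_surj O hp hM⟩

theorem glueE_out (O : Subring B) {M p : ℕ} (hp : p.Prime) (hM : ¬ p ∣ M)
    (q : Cp O p × Cl O (M * p)) :
    ∃ b ∈ Jn O, ((glueE O hp hM q).out : B) = (q.1.out : B) + (q.2.out : B) + b := by
  refine ⟨((glueE O hp hM q).out : B) - ((q.1.out : B) + (q.2.out : B)),
    mem_Jn.2 ⟨?_, glue_out O hp hM q⟩, by abel⟩
  rw [star_sub, star_add, (mem_Jn.1 q.1.out.2).1, (mem_Jn.1 q.2.out.2).1,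
    (mem_Jn.1 (glueE O hp hM q).out.2).1]

/-! ## the height -/

theorem Out_eq {M p : ℕ} (hp : p.Prime) (hM : ¬ p ∣ M) : Out M = insert p (Out (M * p)) := by
  ext q
  simp only [Out, Set.mem_ofPred_eq, Set.mem_insert_iff]
  constructor
  · rintro ⟨hq, hqM⟩
    by_cases h : q = p
    · exact Or.inl h
    · refine Or.inr ⟨hq, fun hd => ?_⟩
      rcases (Nat.Prime.dvd_mul hq).1 hd with h1 | h1
      · exact hqM h1
      · exact h ((Nat.prime_dvd_prime_iff_eq hq hp).1 h1)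
  · rintro (rfl | ⟨hq, h⟩)
    · exact ⟨hp, hM⟩
    · exact ⟨hq, fun hd => h (hd.mul_right p)⟩

section height

variable {O : Subring B} {θ : B}

theorem fin_supp (hO : Ord O θ) (hB : ∀ p : ℕ, p.Prime → Bas O p) (M : ℕ) (a : B) :
    (Out M ∩ Function.mulSupport fun p => Hp O p a 1).Finite := by
  obtain ⟨m, hm, ha⟩ := hO.full a
  refine (m.primeFactors.finite_toSet).subset ?_
  rintro q ⟨⟨hq, -⟩, h⟩
  by_contra hc
  refine h ((hB q hq).eq_one a ⟨m, ?_, hm, ha⟩)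
  refine ((Nat.Prime.coprime_iff_not_dvd hq).2 fun hd => hc ?_).symm
  simp [hq, hd, hm]

theorem one_le_H (hB : ∀ p : ℕ, p.Prime → Bas O p) (M : ℕ) (a : B) : 1 ≤ H O M a :=
  finprod_mem_induction (fun x : ℝ => 1 ≤ x) le_rfl
    (fun _ _ hx hy => one_le_mul_of_one_le_of_one_le hx hy) fun q hq => (hB q hq.1).one_le a

theorem H_add (hB : ∀ p : ℕ, p.Prime → Bas O p) (M : ℕ) (a : B) {b : B} (hb : b ∈ O) :
    H O M (a + b) = H O M a :=
  finprod_mem_congr rfl fun q hq => (hB q hq.1).add a b (le_Loc O q hb)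

theorem H_int (hB : ∀ p : ℕ, p.Prime → Bas O p) (M : ℕ) {b : B} (hb : b ∈ O) : H O M b = 1 :=
  finprod_mem_of_eqOn_one fun q hq => (hB q hq.1).eq_one b (le_Loc O q hb)

theorem H_split (hO : Ord O θ) (hB : ∀ p : ℕ, p.Prime → Bas O p) {M p : ℕ} (hp : p.Prime)
    (hM : ¬ p ∣ M) {a₁ a₂ : B} (h₁ : a₁ ∈ OS O p) (h₂ : a₂ ∈ Loc O (M * p)) :
    H O M (a₁ + a₂) = Hp O p a₁ 1 * H O (M * p) a₂ := by
  unfold H H2
  rw [Out_eq hp hM, finprod_mem_insert' _ (fun h => h.2 (Dvd.intro_left _ rfl))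
    (fin_supp hO hB _ _), (hB p hp).add a₁ a₂ (Loc_mono O (Dvd.intro_left _ rfl) h₂)]
  congr 1
  refine finprod_mem_congr rfl fun q hq => ?_
  rw [add_comm]
  refine (hB q hq.1).add a₂ a₁ (OS_Loc O hp.ne_zero ?_ h₁)
  refine (Nat.coprime_primes hp hq.1).2 ?_
  rintro rfl
  exact hq.2 (Dvd.intro_left _ rfl)

/-- the local weight -/
def wp (O : Subring B) (p : ℕ) (s : ℝ) (u : Cp O p) : ℝ := Hp O p (u.out : B) 1 ^ (-s)

theorem wp_nonneg (hB : ∀ p : ℕ, p.Prime → Bas O p) {p : ℕ} (hp : p.Prime) (s : ℝ) (u : Cp O p) :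
    0 ≤ wp O p s u :=
  Real.rpow_nonneg (zero_le_one.trans ((hB p hp).one_le _)) _

theorem wt_nonneg (hB : ∀ p : ℕ, p.Prime → Bas O p) (M : ℕ) (s : ℝ) (t : Cl O M) :
    0 ≤ wt O M s t :=
  Real.rpow_nonneg (zero_le_one.trans (one_le_H hB M _)) _

theorem wp_zero (hB : ∀ p : ℕ, p.Prime → Bas O p) {p : ℕ} (hp : p.Prime) (s : ℝ) :
    wp O p s 0 = 1 := by
  unfold wp
  rw [(hB p hp).eq_one _ (le_Loc O p (mem_Jn.1 zero_out).2), Real.one_rpow]

theorem wt_zero (hB : ∀ p : ℕ, p.Prime → Bas O p) (M : ℕ) (s : ℝ) : wt O M s 0 = 1 := by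
  unfold wt
  rw [H_int hB M (mem_Jn.1 zero_out).2, Real.one_rpow]

theorem wt_glueE (hO : Ord O θ) (hB : ∀ p : ℕ, p.Prime → Bas O p) {M p : ℕ} (hp : p.Prime)
    (hM : ¬ p ∣ M) (s : ℝ) (q : Cp O p × Cl O (M * p)) :
    wt O M s (glueE O hp hM q) = wp O p s q.1 * wt O (M * p) s q.2 := by
  obtain ⟨b, hb, e⟩ := glueE_out O hp hM q
  unfold wt wp
  rw [e, H_add hB M _ (mem_Jn.1 hb).2,
    H_split hO hB hp hM (mem_Jn.1 q.1.out.2).2 (mem_Jn.1 q.2.out.2).2,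
    Real.mul_rpow (zero_le_one.trans ((hB p hp).one_le _)) (zero_le_one.trans (one_le_H hB _ _))]

end height

/-! ## characters -/

/-- the character of a functional -/
def ch (l : B →ₗ[ℚ] ℚ) (a : B) : ℂ := Complex.exp (2 * Real.pi * Complex.I * ((l a : ℝ) : ℂ))

theorem ch_add (l : B →ₗ[ℚ] ℚ) (a b : B) : ch l (a + b) = ch l a * ch l b := by
  unfold ch
  rw [← Complex.exp_add, map_add]
  congr 1
  push_cast
  ring

theorem ch_int (l : B →ₗ[ℚ] ℚ) {a : B} (h : ∃ m : ℤ, l a = m) : ch l a = 1 := by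
  obtain ⟨m, hm⟩ := h
  unfold ch
  rw [hm, ← Complex.exp_int_mul_two_pi_mul_I m]
  congr 1
  push_cast
  ring

theorem ch_eq (l : B →ₗ[ℚ] ℚ) (a : B) :
    ch l a = Complex.exp (((2 * Real.pi * (l a : ℝ) : ℝ) : ℂ) * Complex.I) := by
  unfold ch
  congr 1
  push_cast
  ring

theorem norm_ch (l : B →ₗ[ℚ] ℚ) (a : B) : ‖ch l a‖ = 1 := by
  rw [ch_eq, Complex.norm_exp_ofReal_mul_I]

theorem re_ch (l : B →ₗ[ℚ] ℚ) (a : B) : (ch l a).re = Real.cos (2 * Real.pi * (l a : ℝ)) := by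
  rw [ch_eq, Complex.exp_ofReal_mul_I_re]

theorem ch_glueE {O : Subring B} {M p : ℕ} (hp : p.Prime) (hM : ¬ p ∣ M) (l : B →ₗ[ℚ] ℚ)
    (hl : ∀ a ∈ Jn O, ∃ m : ℤ, l a = m) (q : Cp O p × Cl O (M * p)) :
    ch l ((glueE O hp hM q).out : B) = ch l (q.1.out : B) * ch l (q.2.out : B) := by
  obtain ⟨b, hb, e⟩ := glueE_out O hp hM q
  rw [e, ch_add, ch_add, ch_int l (hl b hb), mul_one]

/-! ## the local inequality -/

theorem loc_ineq {S : ℂ} {z : ℝ} (h : ‖S - 1‖ ≤ z - 1) (h2 : z ≤ 2) :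
    ‖S‖ ≤ z * Real.exp (-((z - S.re) / 4)) ∧ z - S.re ≤ 2 * (z - 1) ∧ 0 ≤ z - S.re := by
  have h0 : 0 ≤ z - 1 := (norm_nonneg _).trans h
  have hre : |S.re - 1| ≤ z - 1 := by
    have := (Complex.abs_re_le_norm (S - 1)).trans h
    simpa using this
  obtain ⟨hr1, hr2⟩ := abs_le.1 hre
  refine ⟨?_, by linarith, by linarith⟩
  have h3 : ‖S - 1‖ ^ 2 ≤ (z - 1) ^ 2 := pow_le_pow_left₀ (norm_nonneg _) h 2
  rw [Complex.sq_norm, Complex.normSq_apply] at h3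
  simp only [Complex.sub_re, Complex.one_re, Complex.sub_im, Complex.one_im, sub_zero] at h3
  have h4 : ‖S‖ ^ 2 ≤ z ^ 2 - 2 * (z - S.re) := by
    rw [Complex.sq_norm, Complex.normSq_apply]; nlinarith
  have h5 : 1 - (z - S.re) / 2 ≤ Real.exp (-((z - S.re) / 4)) ^ 2 := by
    rw [← Real.exp_nat_mul]
    have := Real.add_one_le_exp (((2 : ℕ) : ℝ) * -((z - S.re) / 4))
    push_cast at this ⊢
    linarith
  refine (sq_le_sq₀ (norm_nonneg _) (mul_nonneg (by linarith) (Real.exp_pos _).le)).1 ?_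
  rw [mul_pow]
  have h6 : z ^ 2 ≤ 4 := by nlinarith
  have h7 : z ^ 2 * (1 - (z - S.re) / 2) ≤ z ^ 2 * Real.exp (-((z - S.re) / 4)) ^ 2 :=
    mul_le_mul_of_nonneg_left h5 (sq_nonneg z)
  have h8 : 0 ≤ z - S.re := by linarith
  nlinarith

theorem norm_tsum_sub_one {T : Type*} (o : T) {w : T → ℝ} {c : T → ℂ} (hw : ∀ t, 0 ≤ w t)
    (hs : Summable w) (h0 : w o = 1) (hc : ∀ t, ‖c t‖ = 1) (hc0 : c o = 1) :
    ‖(∑' t, (w t : ℂ) * c t) - 1‖ ≤ (∑' t, w t) - 1 := by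
  classical
  have hn : ∀ t, ‖(w t : ℂ) * c t‖ = w t := fun t => by
    rw [norm_mul, hc, mul_one, Complex.norm_real, Real.norm_of_nonneg (hw t)]
  have hs' : Summable fun t => (w t : ℂ) * c t := Summable.of_norm (by simpa only [hn] using hs)
  rw [hs'.tsum_eq_add_tsum_ite o, hs.tsum_eq_add_tsum_ite o, h0, hc0]
  simp only [Complex.ofReal_one, mul_one, add_sub_cancel_left]
  have hn2 : ∀ t, ‖(if t = o then 0 else (w t : ℂ) * c t)‖ = if t = o then 0 else w t := by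
    intro t
    split_ifs
    · simp
    · exact hn t
  have hs2 : Summable fun t => if t = o then 0 else w t :=
    Summable.of_nonneg_of_le (fun t => by split_ifs <;> simp [hw t])
      (fun t => by split_ifs <;> simp [hw t]) hs
  refine (norm_tsum_le_tsum_norm (by simpa only [hn2] using hs2)).trans (le_of_eq ?_)
  simp only [hn2]

theorem int_of_padic {q : ℚ} (h : ∀ p : ℕ, p.Prime → padicNorm p q ≤ 1) : ∃ m : ℤ, q = m := by
  by_cases hd : q.den = 1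
  · exact ⟨q.num, (Rat.coe_int_num_of_den_eq_one hd).symm⟩
  exfalso
  obtain ⟨p, hp, hpd⟩ := Nat.exists_prime_and_dvd hd
  have := Fact.mk hp
  have h1 : padicNorm p (q.num : ℚ) < 1 := by
    rw [← Rat.mul_den_eq_num, padicNorm.mul]
    have h2 : padicNorm p (q.den : ℚ) < 1 := (padicNorm.nat_lt_one_iff _).2 hpd
    have h3 := h p hp
    have h4 := padicNorm.nonneg (p := p) q
    have h5 := padicNorm.nonneg (p := p) (q.den : ℚ)
    nlinarith
  have h2 : p ∣ q.num.natAbs := Int.natCast_dvd.1 ((padicNorm.int_lt_one_iff _).1 h1)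
  exact hp.one_lt.ne' (Nat.eq_one_of_dvd_coprimes q.reduced h2 hpd)

end Crest.Agent.T24.Hgt.A91
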