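import Crest.Agent.T24.HgtAsmA_91

/-!
# Row 24, heights: the assembly `htStmt`
-/

set_option autoImplicit false
set_option linter.unusedSectionVars false

noncomputable section

namespace Crest.Agent.T24.Hgt.A91

open Filter Topology Module Crest.Agent.T24.Hgt

variable {B : Type*} [Ring B] [Algebra ℚ B] [StarRing B]

/-- the standing hypotheses -/
structure Cx (O : Subring B) (θ : B) (M₀ : ℕ) : Prop where
  ord : Ord O θ
  bas : ∀ p : ℕ, p.Prime → Bas O p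
  gp : ∀ p : ℕ, p.Prime → ¬ p ∣ M₀ → Gp O θ p
  up : ∀ p : ℕ, Gp O θ p → ∀ s : ℝ, 1 ≤ s → ∀ F : Finset (Cp O p), 0 ∉ F →
    ∑ t ∈ F, Hp O p (t.out : B) 1 ^ (-s) ≤ 2 * finrank ℚ B * (p : ℝ) ^ (-s)

/-- the local zeta function -/
def Zp (O : Subring B) (p : ℕ) (s : ℝ) : ℝ := ∑' u : Cp O p, wp O p s u

/-- the twisted local zeta function -/
def Sp (O : Subring B) (p : ℕ) (l : B →ₗ[ℚ] ℚ) (s : ℝ) : ℂ :=
  ∑' u : Cp O p, (wp O p s u : ℂ) * ch l (u.out : B)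

/-- the twisted zeta function -/
def Sg (O : Subring B) (M : ℕ) (l : B →ₗ[ℚ] ℚ) (s : ℝ) : ℂ :=
  ∑' t : Cl O M, (wt O M s t : ℂ) * ch l (t.out : B)

/-- the local oscillation -/
def Dp (O : Subring B) (p : ℕ) (l : B →ₗ[ℚ] ℚ) (s : ℝ) : ℝ := Zp O p s - (Sp O p l s).re

variable {O : Subring B} {θ : B} {M₀ : ℕ}

theorem Cx.sum_wp (h : Cx O θ M₀) {p : ℕ} (hp : Gp O θ p) {s : ℝ} (hs : 1 ≤ s)
    (F : Finset (Cp O p)) : ∑ u ∈ F, wp O p s u ≤ 1 + 2 * finrank ℚ B * (p : ℝ) ^ (-s) := by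
  classical
  have h1 := h.up p hp s hs (F.erase 0) (Finset.notMem_erase _ _)
  by_cases h0 : (0 : Cp O p) ∈ F
  · rw [← Finset.add_sum_erase F _ h0, wp_zero h.bas hp.prime]
    exact add_le_add le_rfl h1
  · rw [Finset.erase_eq_of_notMem h0] at h1
    exact h1.trans (le_add_of_nonneg_left zero_le_one)

theorem Cx.summable_wp (h : Cx O θ M₀) {p : ℕ} (hp : Gp O θ p) {s : ℝ} (hs : 1 ≤ s) :
    Summable (wp O p s) :=
  summable_of_sum_le (wp_nonneg h.bas hp.prime s) (h.sum_wp hp hs)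

theorem Cx.Zp_le (h : Cx O θ M₀) {p : ℕ} (hp : Gp O θ p) {s : ℝ} (hs : 1 ≤ s) : Zp O p s ≤ 2 := by
  refine (Real.tsum_le_of_sum_le (wp_nonneg h.bas hp.prime s) (h.sum_wp hp hs)).trans ?_
  have hp1 : (1 : ℝ) ≤ p := by exact_mod_cast hp.prime.one_lt.le
  have h1 : (p : ℝ) ^ (-s) ≤ (p : ℝ)⁻¹ := by
    rw [← Real.rpow_neg_one]
    exact Real.rpow_le_rpow_of_exponent_le hp1 (by linarith)
  have h2 : (2 * finrank ℚ B + 2 : ℝ) ≤ p := by exact_mod_cast hp.big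
  have h3 : (2 * finrank ℚ B : ℝ) * (p : ℝ)⁻¹ ≤ 1 := by
    rw [← div_eq_mul_inv, div_le_one (by linarith)]; linarith
  have h4 : (2 * finrank ℚ B : ℝ) * (p : ℝ) ^ (-s) ≤ (2 * finrank ℚ B : ℝ) * (p : ℝ)⁻¹ :=
    mul_le_mul_of_nonneg_left h1 (by positivity)
  linarith

theorem Cx.loc (h : Cx O θ M₀) {p : ℕ} (hp : Gp O θ p) {s : ℝ} (hs : 1 ≤ s) (l : B →ₗ[ℚ] ℚ)
    (hl : ∀ a ∈ Jn O, ∃ m : ℤ, l a = m) :
    ‖Sp O p l s‖ ≤ Zp O p s * Real.exp (-(Dp O p l s / 4)) ∧ Dp O p l s ≤ 2 * (Zp O p s - 1) ∧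
      0 ≤ Dp O p l s :=
  loc_ineq (norm_tsum_sub_one (0 : Cp O p) (wp_nonneg h.bas hp.prime s) (h.summable_wp hp hs)
    (wp_zero h.bas hp.prime s) (fun _ => norm_ch l _) (ch_int l (hl _ zero_out))) (h.Zp_le hp hs)

theorem norm_wc {T : Type*} {w : T → ℝ} (hw : ∀ t, 0 ≤ w t) (l : B →ₗ[ℚ] ℚ) (f : T → B) (t : T) :
    ‖(w t : ℂ) * ch l (f t)‖ = w t := by
  rw [norm_mul, norm_ch, mul_one, Complex.norm_real, Real.norm_of_nonneg (hw t)]

theorem Cx.sum_le_Dp (h : Cx O θ M₀) {p : ℕ} (hp : Gp O θ p) {s : ℝ} (hs : 1 ≤ s)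
    (l : B →ₗ[ℚ] ℚ) (F : Finset (Cp O p)) :
    ∑ t ∈ F, Hp O p (t.out : B) 1 ^ (-s) * (1 - Real.cos (2 * Real.pi * (l (t.out : B) : ℝ))) ≤
      Dp O p l s := by
  have hw := wp_nonneg h.bas hp.prime s
  have h1 := h.summable_wp hp hs
  have h2 : Summable fun u : Cp O p => (wp O p s u : ℂ) * ch l (u.out : B) :=
    Summable.of_norm (by simpa only [norm_wc hw l (fun u : Cp O p => (u.out : B))] using h1)
  have h3 : Summable fun u : Cp O p => ((wp O p s u : ℂ) * ch l (u.out : B)).re :=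
    (Complex.hasSum_re h2.hasSum).summable
  unfold Dp Zp Sp
  rw [Complex.re_tsum h2, ← h1.tsum_sub h3]
  have e : ∀ u : Cp O p, wp O p s u - ((wp O p s u : ℂ) * ch l (u.out : B)).re =
      Hp O p (u.out : B) 1 ^ (-s) * (1 - Real.cos (2 * Real.pi * (l (u.out : B) : ℝ))) := by
    intro u
    rw [Complex.re_ofReal_mul, re_ch, wp]; ring
  have h4 := h1.sub h3
  simp only [e] at h4 ⊢
  exact h4.sum_le_tsum F fun u _ => mul_nonneg (hw u) (sub_nonneg.2 (Real.cos_le_one _))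

/-! ## summability -/

/-- the denominators of `a` lie in `P` -/
def Den (O : Subring B) (P : Finset ℕ) (a : B) : Prop :=
  ∃ D : ℕ, D ≠ 0 ∧ (∀ q : ℕ, q.Prime → q ∣ D → q ∈ P) ∧ (D : B) * a ∈ O

theorem Cx.sum_wt (h : Cx O θ M₀) {s : ℝ} (hs : 1 ≤ s) (P : Finset ℕ) :
    ∀ M : ℕ, M₀ ∣ M → (∀ p ∈ P, p ∈ Out M) → ∀ F : Finset (Cl O M),
      (∀ t ∈ F, Den O P (t.out : B)) →
        ∑ t ∈ F, wt O M s t ≤ ∏ p ∈ P, (1 + 2 * finrank ℚ B * (p : ℝ) ^ (-s)) := by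
  classical
  induction P using Finset.induction_on with
  | empty =>
    intro M _ _ F hF
    have h1 : F ⊆ {0} := by
      intro t ht
      obtain ⟨D, hD, hq, hDa⟩ := hF t ht
      have hD1 : D = 1 := by
        by_contra hc
        obtain ⟨q, hq1, hq2⟩ := Nat.exists_prime_and_dvd hc
        simpa using hq q hq1 hq2
      subst hD1
      rw [Finset.mem_singleton]
      exact (eq_zero_iff t).2 (by simpa using hDa)
    refine (Finset.sum_le_sum_of_subset_of_nonneg h1 fun t _ _ => wt_nonneg h.bas M s t).trans ?_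
    simp [wt_zero h.bas]
  | insert p P hpP ih =>
    intro M hM hP F hF
    obtain ⟨hp, hpM⟩ := hP p (Finset.mem_insert_self _ _)
    have hg : Gp O θ p := h.gp p hp fun hd => hpM (hd.trans hM)
    set e := glueE O hp hpM with he
    set F₁ := F.image fun t => (e.symm t).1
    set F₂ := F.image fun t => (e.symm t).2
    have hP' : ∀ q ∈ P, q ∈ Out (M * p) := by
      intro q hq
      have h1 := hP q (Finset.mem_insert_of_mem hq)
      rw [Out_eq hp hpM] at h1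
      exact h1.resolve_left fun hqp => hpP (hqp ▸ hq)
    have hF₂ : ∀ v ∈ F₂, Den O P (v.out : B) := by
      intro v hv
      obtain ⟨t, ht, rfl⟩ := Finset.mem_image.1 hv
      obtain ⟨D, hD, hq, hDa⟩ := hF t ht
      obtain ⟨b, hb, eb⟩ := glueE_out O hp hpM (e.symm t)
      rw [← he, e.apply_symm_apply] at eb
      obtain ⟨j, hj⟩ := (mem_Jn.1 (e.symm t).1.out.2).2
      obtain ⟨m, hm, hm0, hma⟩ := (mem_Jn.1 (e.symm t).2.out.2).2
      have h1 : ((D * p ^ j : ℕ) : B) * ((e.symm t).2.out : B) ∈ O := by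
        have e1 : ((e.symm t).2.out : B) = (t.out : B) - ((e.symm t).1.out : B) - b := by
          rw [eb]; abel
        rw [e1, mul_sub, mul_sub]
        refine O.sub_mem (O.sub_mem ?_ ?_) (O.mul_mem (natCast_mem O _) (mem_Jn.1 hb).2)
        · rw [mul_comm D, Nat.cast_mul, mul_assoc]
          exact O.mul_mem (natCast_mem O _) hDa
        · rw [Nat.cast_mul, mul_assoc, Nat.cast_pow]
          exact O.mul_mem (natCast_mem O _) hj
      refine ⟨Nat.gcd (D * p ^ j) m, Nat.gcd_ne_zero_right hm0, fun q hq1 hq2 => ?_,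
        gcd_mem O h1 hma⟩
      have hqp : q ≠ p := by
        rintro rfl
        exact hp.one_lt.ne' (Nat.eq_one_of_dvd_coprimes hm (hq2.trans (Nat.gcd_dvd_right _ _))
          (Dvd.intro_left _ rfl))
      rcases (Nat.Prime.dvd_mul hq1).1 (hq2.trans (Nat.gcd_dvd_left _ _)) with h2 | h2
      · exact (Finset.mem_insert.1 (hq q hq1 h2)).resolve_left hqp
      · exact absurd ((Nat.prime_dvd_prime_iff_eq hq1 hp).1 (hq1.dvd_of_dvd_pow h2)) hqp
    have h1 : ∑ t ∈ F, wt O M s t =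
        ∑ q ∈ F.map e.symm.toEmbedding, wp O p s q.1 * wt O (M * p) s q.2 := by
      rw [Finset.sum_map]
      refine Finset.sum_congr rfl fun t _ => ?_
      rw [← wt_glueE h.ord h.bas hp hpM, ← he]
      simp
    have h2 : F.map e.symm.toEmbedding ⊆ F₁ ×ˢ F₂ := by
      intro q hq
      obtain ⟨t, ht, rfl⟩ := Finset.mem_map.1 hq
      exact Finset.mem_product.2 ⟨Finset.mem_image_of_mem _ ht, Finset.mem_image_of_mem _ ht⟩
    rw [h1, Finset.prod_insert hpP]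
    refine (Finset.sum_le_sum_of_subset_of_nonneg h2 fun q _ _ =>
      mul_nonneg (wp_nonneg h.bas hp s _) (wt_nonneg h.bas _ s _)).trans ?_
    rw [Finset.sum_product, ← Finset.sum_mul_sum]
    exact mul_le_mul (h.sum_wp hg hs F₁) (ih (M * p) (hM.mul_right p) hP' F₂ hF₂)
      (Finset.sum_nonneg fun v _ => wt_nonneg h.bas _ s v) (by positivity)

theorem Cx.summable_wt (h : Cx O θ M₀) {s : ℝ} (hs : 1 < s) {M : ℕ} (hM : M₀ ∣ M) :
    Summable (wt O M s) := by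
  classical
  have hz : Summable fun k : ℕ => 2 * (finrank ℚ B : ℝ) * (k : ℝ) ^ (-s) :=
    (Real.summable_nat_rpow.2 (by linarith)).mul_left _
  refine summable_of_sum_le (c := Real.exp (∑' k : ℕ, 2 * (finrank ℚ B : ℝ) * (k : ℝ) ^ (-s)))
    (wt_nonneg h.bas M s) fun F => ?_
  choose m hm hm0 hma using fun t : Cl O M => mem_Loc.1 (mem_Jn.1 t.out.2).2
  refine (h.sum_wt hs.le (F.biUnion fun t => (m t).primeFactors) M hM ?_ F ?_).trans ?_
  · intro p hp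
    obtain ⟨t, -, ht⟩ := Finset.mem_biUnion.1 hp
    have hp1 := Nat.prime_of_mem_primeFactors ht
    exact ⟨hp1, fun hd => hp1.one_lt.ne'
      (Nat.eq_one_of_dvd_coprimes (hm t) (Nat.dvd_of_mem_primeFactors ht) hd)⟩
  · intro t ht
    exact ⟨m t, hm0 t, fun q hq hd => Finset.mem_biUnion.2
      ⟨t, ht, Nat.mem_primeFactors.2 ⟨hq, hd, hm0 t⟩⟩, hma t⟩
  · refine (Real.prod_one_add_le_exp_sum _ fun k => by positivity).trans ?_
    exact Real.exp_le_exp.2 (hz.sum_le_tsum _ fun k _ => by positivity)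

theorem Cx.one_le_Z (h : Cx O θ M₀) {s : ℝ} (hs : 1 < s) {M : ℕ} (hM : M₀ ∣ M) :
    1 ≤ Z O M s := by
  rw [← wt_zero h.bas M s]
  exact (h.summable_wt hs hM).le_tsum 0 fun t _ => wt_nonneg h.bas M s t

/-! ## Euler factors -/

theorem Cx.Z_split (h : Cx O θ M₀) {s : ℝ} (hs : 1 < s) {M p : ℕ} (hM : M₀ ∣ M) (hp : p.Prime)
    (hpM : ¬ p ∣ M) : Z O M s = Zp O p s * Z O (M * p) s := by
  have hg : Gp O θ p := h.gp p hp fun hd => hpM (hd.trans hM)
  have h1 := h.summable_wp hg hs.le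
  have h2 := h.summable_wt hs (hM.mul_right p)
  unfold Z Zp
  rw [h1.tsum_mul_tsum h2 (h1.mul_of_nonneg h2 (wp_nonneg h.bas hp s) (wt_nonneg h.bas _ s)),
    ← (glueE O hp hpM).tsum_eq]
  exact tsum_congr fun q => wt_glueE h.ord h.bas hp hpM s q

theorem Cx.S_split (h : Cx O θ M₀) {s : ℝ} (hs : 1 < s) {M p : ℕ} (hM : M₀ ∣ M) (hp : p.Prime)
    (hpM : ¬ p ∣ M) (l : B →ₗ[ℚ] ℚ) (hl : ∀ a ∈ Jn O, ∃ m : ℤ, l a = m) :
    Sg O M l s = Sp O p l s * Sg O (M * p) l s := by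
  have hg : Gp O θ p := h.gp p hp fun hd => hpM (hd.trans hM)
  have h1 := h.summable_wp hg hs.le
  have h2 := h.summable_wt hs (hM.mul_right p)
  unfold Sg Sp
  rw [tsum_mul_tsum_of_summable_norm
    (by simpa only [norm_wc (wp_nonneg h.bas hp s) l (fun u : Cp O p => (u.out : B))] using h1)
    (by simpa only [norm_wc (wt_nonneg h.bas _ s) l (fun u : Cl O (M * p) => (u.out : B))] using h2),
    ← (glueE O hp hpM).tsum_eq]
  refine tsum_congr fun q => ?_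
  rw [wt_glueE h.ord h.bas hp hpM s q, ch_glueE hp hpM l hl q]
  push_cast
  ring

theorem Cx.glob (h : Cx O θ M₀) {s : ℝ} (hs : 1 < s) (l : B →ₗ[ℚ] ℚ)
    (hl : ∀ a ∈ Jn O, ∃ m : ℤ, l a = m) (P : Finset ℕ) :
    ∀ M : ℕ, M₀ ∣ M → (∀ p ∈ P, p ∈ Out M) →
      ‖Sg O M l s‖ ≤ Z O M s * Real.exp (-((∑ p ∈ P, Dp O p l s) / 4)) ∧
        1 + (∑ p ∈ P, Dp O p l s) / 2 ≤ Z O M s := by
  classical
  induction P using Finset.induction_on with
  | empty =>
    intro M hM _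
    refine ⟨?_, by simpa using h.one_le_Z hs hM⟩
    have hn := norm_wc (wt_nonneg h.bas M s) l (fun u : Cl O M => (u.out : B))
    refine (norm_tsum_le_tsum_norm (by simpa only [hn] using h.summable_wt hs hM)).trans ?_
    simp only [hn]
    simp [Z]
  | insert p P hpP ih =>
    intro M hM hP
    obtain ⟨hp, hpM⟩ := hP p (Finset.mem_insert_self _ _)
    have hg : Gp O θ p := h.gp p hp fun hd => hpM (hd.trans hM)
    have hP' : ∀ q ∈ P, q ∈ Out (M * p) := by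
      intro q hq
      have h1 := hP q (Finset.mem_insert_of_mem hq)
      rw [Out_eq hp hpM] at h1
      exact h1.resolve_left fun hqp => hpP (hqp ▸ hq)
    obtain ⟨i1, i2⟩ := ih (M * p) (hM.mul_right p) hP'
    obtain ⟨l1, l2, l3⟩ := h.loc hg hs.le l hl
    have hD : 0 ≤ ∑ q ∈ P, Dp O q l s := Finset.sum_nonneg fun q hq =>
      (h.loc (h.gp q (hP' q hq).1 fun hd => (hP' q hq).2 (hd.trans (hM.mul_right p))) hs.le l hl).2.2
    rw [Finset.sum_insert hpP, h.Z_split hs hM hp hpM, h.S_split hs hM hp hpM l hl]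
    constructor
    · rw [norm_mul]
      refine (mul_le_mul l1 i1 (norm_nonneg _) ((norm_nonneg _).trans l1)).trans (le_of_eq ?_)
      rw [mul_mul_mul_comm, ← Real.exp_add]
      congr 2
      ring
    · have h1 : (1 + Dp O p l s / 2) * (1 + (∑ q ∈ P, Dp O q l s) / 2) ≤ Zp O p s * Z O (M * p) s :=
        mul_le_mul (by linarith) i2 (by linarith) (by linarith)
      nlinarith [mul_nonneg l3 hD]

theorem exists_finset {S : Set ℕ} (hS : ¬ Summable (S.indicator fun p : ℕ => (1 : ℝ) / p))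
    {N : ℕ} (hN : N ≠ 0) (K : ℝ) :
    ∃ P : Finset ℕ, (∀ p ∈ P, p ∈ S ∧ ¬ p ∣ N) ∧ K < ∑ p ∈ P, (1 : ℝ) / p := by
  classical
  by_contra hc
  push Not at hc
  refine hS (summable_of_sum_le (c := K + ∑ p ∈ N.divisors, (1 : ℝ) / p)
    (fun p => Set.indicator_nonneg (fun _ _ => by positivity) p) fun F => ?_)
  rw [← Finset.sum_filter_add_sum_filter_not F fun p => p ∈ S ∧ ¬ p ∣ N]
  refine add_le_add ?_ ?_
  · refine le_trans (le_of_eq ?_) (hc (F.filter fun p => p ∈ S ∧ ¬ p ∣ N) fun p hp =>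
      (Finset.mem_filter.1 hp).2)
    exact Finset.sum_congr rfl fun p hp => Set.indicator_of_mem (Finset.mem_filter.1 hp).2.1 _
  · rw [← Finset.sum_filter_add_sum_filter_not _ fun p => p ∈ S]
    have h1 : ∑ p ∈ (F.filter fun p => ¬ (p ∈ S ∧ ¬ p ∣ N)).filter (fun p => ¬ p ∈ S),
        S.indicator (fun p : ℕ => (1 : ℝ) / p) p = 0 :=
      Finset.sum_eq_zero fun p hp => Set.indicator_of_notMem (Finset.mem_filter.1 hp).2 _
    rw [h1, add_zero]
    refine le_trans (le_of_eq (Finset.sum_congr rfl fun p hp =>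
      Set.indicator_of_mem (Finset.mem_filter.1 hp).2 _)) ?_
    refine Finset.sum_le_sum_of_subset_of_nonneg (fun p hp => ?_) fun _ _ _ => by positivity
    obtain ⟨h2, h3⟩ := Finset.mem_filter.1 hp
    refine Nat.mem_divisors.2 ⟨?_, hN⟩
    by_contra h4
    exact (Finset.mem_filter.1 h2).2 ⟨h3, h4⟩

/-- the lower bound for the oscillation, as delivered by `LowStmt` -/
def Low (O : Subring B) (θ : B) (l : B →ₗ[ℚ] ℚ) : Prop :=
  ∃ M₁ : ℕ, M₁ ≠ 0 ∧ ∀ p : ℕ, ¬ p ∣ M₁ → Gp O θ p → Spl O p → ∀ s : ℝ, 1 ≤ s →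
    ∃ F : Finset (Cp O p), (p : ℝ) ^ (2 * finrank ℚ B * (1 - s)) / (2 * p) ≤
      ∑ t ∈ F, Hp O p (t.out : B) 1 ^ (-s) * (1 - Real.cos (2 * Real.pi * (l (t.out : B) : ℝ)))

theorem Cx.big (h : Cx O θ M₀) {l : B →ₗ[ℚ] ℚ} (hlow : Low O θ l)
    (hS : ¬ Summable ({p : ℕ | p.Prime ∧ Spl O p}.indicator fun p : ℕ => (1 : ℝ) / p))
    {M : ℕ} (hM0 : M ≠ 0) (hM : M₀ ∣ M) (K : ℝ) :
    ∀ᶠ s in 𝓝[>] (1 : ℝ), ∃ P : Finset ℕ, (∀ p ∈ P, p ∈ Out M) ∧ K ≤ ∑ p ∈ P, Dp O p l s := by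
  obtain ⟨M₁, hM₁, hlow⟩ := hlow
  obtain ⟨P, hP, hK⟩ := exists_finset hS (mul_ne_zero hM0 hM₁) (2 * K)
  have hc : ContinuousAt
      (fun s : ℝ => ∑ p ∈ P, (p : ℝ) ^ (2 * finrank ℚ B * (1 - s)) / (2 * p)) 1 := by
    refine tendsto_finsetSum _ fun p hp => ?_
    have hp0 : (p : ℝ) ≠ 0 := by exact_mod_cast (hP p hp).1.1.ne_zero
    exact ((Real.continuous_const_rpow hp0).comp (by fun_prop)).div_const _ |>.continuousAt
  have h1 : K < ∑ p ∈ P, (p : ℝ) ^ (2 * finrank ℚ B * (1 - (1 : ℝ))) / (2 * p) := by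
    have : ∑ p ∈ P, (p : ℝ) ^ (2 * finrank ℚ B * (1 - (1 : ℝ))) / (2 * p) =
        (∑ p ∈ P, (1 : ℝ) / p) / 2 := by
      rw [Finset.sum_div]
      refine Finset.sum_congr rfl fun p _ => ?_
      rw [sub_self, mul_zero, Real.rpow_zero, div_div, mul_comm]
    rw [this]; linarith
  have h2 := (hc.eventually (lt_mem_nhds h1)).filter_mono (nhdsWithin_le_nhds (s := Set.Ioi 1))
  filter_upwards [h2, self_mem_nhdsWithin] with s hs hs1
  refine ⟨P, fun p hp => ⟨(hP p hp).1.1, fun hd => (hP p hp).2 (hd.mul_right _)⟩,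
    hs.le.trans (Finset.sum_le_sum fun p hp => ?_)⟩
  have hg : Gp O θ p := h.gp p (hP p hp).1.1 fun hd => (hP p hp).2 ((hd.trans hM).mul_right _)
  obtain ⟨F, hF⟩ := hlow p (fun hd => (hP p hp).2 (hd.mul_left _)) hg (hP p hp).1.2 s (le_of_lt hs1)
  exact hF.trans (h.sum_le_Dp hg (le_of_lt hs1) l F)

theorem Cx.tendsto_Z (h : Cx O θ M₀) {l : B →ₗ[ℚ] ℚ} (hl : ∀ a ∈ Jn O, ∃ m : ℤ, l a = m)
    (hlow : Low O θ l)
    (hS : ¬ Summable ({p : ℕ | p.Prime ∧ Spl O p}.indicator fun p : ℕ => (1 : ℝ) / p))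
    {M : ℕ} (hM0 : M ≠ 0) (hM : M₀ ∣ M) : Tendsto (Z O M) (𝓝[>] 1) atTop := by
  refine tendsto_atTop.2 fun K => ?_
  filter_upwards [h.big hlow hS hM0 hM (2 * K), self_mem_nhdsWithin] with s hs hs1
  obtain ⟨P, hP, hK⟩ := hs
  have := (h.glob hs1 l hl P M hM hP).2
  linarith

theorem Cx.tendsto_S (h : Cx O θ M₀) {l : B →ₗ[ℚ] ℚ} (hl : ∀ a ∈ Jn O, ∃ m : ℤ, l a = m)
    (hlow : Low O θ l)
    (hS : ¬ Summable ({p : ℕ | p.Prime ∧ Spl O p}.indicator fun p : ℕ => (1 : ℝ) / p))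
    {M : ℕ} (hM0 : M ≠ 0) (hM : M₀ ∣ M) :
    Tendsto (fun s => Sg O M l s / (Z O M s : ℝ)) (𝓝[>] 1) (𝓝 0) := by
  refine Metric.tendsto_nhds.2 fun ε hε => ?_
  filter_upwards [h.big hlow hS hM0 hM (4 * (1 - Real.log ε)), self_mem_nhdsWithin] with s hs hs1
  obtain ⟨P, hP, hK⟩ := hs
  have h1 := (h.glob hs1 l hl P M hM hP).1
  have h2 : 0 < Z O M s := zero_lt_one.trans_le (h.one_le_Z hs1 hM)
  rw [dist_zero_right, norm_div, Complex.norm_real, Real.norm_of_nonneg h2.le, div_lt_iff₀ h2]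
  refine h1.trans_lt ?_
  rw [mul_comm]
  refine mul_lt_mul_of_pos_right ?_ h2
  rw [← Real.lt_log_iff_exp_lt hε]
  linarith

/-! ## unfolding -/

section unfold

variable {ι : Type} [Fintype ι] {be : ι → B} {co : B →ₗ[ℚ] ι → ℚ}

theorem lat_mem (hc : Co O be co) (m : ι → ℤ) : ∑ i, (m i : ℚ) • be i ∈ Jn O :=
  sum_mem fun i _ => by
    rw [Int.cast_smul_eq_zsmul]
    exact zsmul_mem (hc.mem i) _

/-- the unfolding map -/
def unf (hc : Co O be co) (M : ℕ) (q : Cl O M × (ι → ℤ)) : Jn (Loc O M) :=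
  ⟨(q.1.out : B) + ∑ i, (q.2 i : ℚ) • be i, add_mem q.1.out.2
    (mem_Jn.2 ⟨(mem_Jn.1 (lat_mem hc q.2)).1, le_Loc O M (mem_Jn.1 (lat_mem hc q.2)).2⟩)⟩

theorem unf_bij (hc : Co O be co) (M : ℕ) : Function.Bijective (unf hc M) := by
  constructor
  · rintro ⟨t, m⟩ ⟨t', m'⟩ h
    have h1 : (t.out : B) + ∑ i, (m i : ℚ) • be i = (t'.out : B) + ∑ i, (m' i : ℚ) • be i :=
      congrArg Subtype.val h
    have h2 : t = t' := by
      refine (qt_eq_iff t t').2 ?_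
      have : (t'.out : B) - t.out = ∑ i, (m i : ℚ) • be i - ∑ i, (m' i : ℚ) • be i := by
        rw [sub_eq_sub_iff_add_eq_add, ← h1, add_comm]
      rw [this]
      exact O.sub_mem (mem_Jn.1 (lat_mem hc m)).2 (mem_Jn.1 (lat_mem hc m')).2
    subst h2
    have h3 := congrArg co (add_left_cancel h1)
    rw [hc.co_be, hc.co_be] at h3
    refine Prod.ext rfl (funext fun i => ?_)
    exact_mod_cast congrFun h3 i
  · intro a
    set t : Cl O M := QuotientAddGroup.mk a with ht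
    have h1 : (t.out : B) - a ∈ O := (mk_eq_iff a t).1 rfl
    have h2 : (a : B) - t.out ∈ Jn O := mem_Jn.2
      ⟨by rw [star_sub, (mem_Jn.1 a.2).1, (mem_Jn.1 t.out.2).1], by simpa using O.neg_mem h1⟩
    choose m hm using hc.int _ h2
    refine ⟨(t, m), Subtype.ext ?_⟩
    have h3 := hc.be_co _ (mem_Jn.1 h2).1
    simp only [hm] at h3
    change (t.out : B) + ∑ i, (m i : ℚ) • be i = a
    rw [h3]; abel

theorem unf_term (hB : ∀ p : ℕ, p.Prime → Bas O p) (hc : Co O be co) (M : ℕ) (s : ℝ)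
    (ψ : (ι → ℝ) → ℝ) (q : Cl O M × (ι → ℤ)) :
    H O M (unf hc M q : B) ^ (-s) * ψ (fun i => (co (unf hc M q) i : ℝ)) =
      wt O M s q.1 * ψ ((fun i => (co (q.1.out : B) i : ℝ)) + fun i => (q.2 i : ℝ)) := by
  have e : (unf hc M q : B) = (q.1.out : B) + ∑ i, (q.2 i : ℚ) • be i := rfl
  rw [e, H_add hB M _ (mem_Jn.1 (lat_mem hc q.2)).2, map_add, hc.co_be]
  congr 2
  funext i
  simp

/-- the functional attached to a frequency -/
def frq (co : B →ₗ[ℚ] ι → ℚ) (m : ι → ℤ) : B →ₗ[ℚ] ℚ :=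
  ∑ i, (m i : ℚ) • (LinearMap.proj i).comp co

theorem frq_apply (co : B →ₗ[ℚ] ι → ℚ) (m : ι → ℤ) (a : B) :
    frq co m a = ∑ i, (m i : ℚ) * co a i := by
  simp [frq, LinearMap.sum_apply]

theorem frq_int (hc : Co O be co) (m : ι → ℤ) : ∀ a ∈ Jn O, ∃ k : ℤ, frq co m a = k := by
  intro a ha
  choose k hk using hc.int a ha
  exact ⟨∑ i, m i * k i, by simp [frq_apply, hk]⟩

theorem frq_ne (hc : Co O be co) {m : ι → ℤ} (hm : m ≠ 0) : ∃ a, star a = a ∧ frq co m a ≠ 0 := by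
  classical
  obtain ⟨i, hi⟩ := Function.ne_iff.1 hm
  refine ⟨be i, (mem_Jn.1 (hc.mem i)).1, ?_⟩
  have h := hc.co_be (Pi.single i 1)
  have e : ∑ j, (Pi.single i (1 : ℚ) : ι → ℚ) j • be j = be i := by
    simp [Pi.single_apply]
  rw [e] at h
  rw [frq_apply, h]
  simpa [Pi.single_apply] using hi

end unfold

end Crest.Agent.T24.Hgt.A91

namespace Crest.Agent.T24.Hgt

open Filter Topology Module A91

universe u

theorem htStmt (hBas : BasStmt.{u}) (hGp : GpStmt.{u}) (hUp : UpStmt.{u}) (hLow : LowStmt.{u})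
    (hSpl : SplStmt.{u}) (hW : WeylStmt.{u}) : HtStmt.{u} := by
  intro B _ _ _ _ _ O θ hO
  obtain ⟨M₀, hM₀, hgp⟩ := hGp B O θ hO
  have h : Cx O θ M₀ := ⟨hO, hBas B O θ hO, hgp, hUp B O θ hO⟩
  have hS := hSpl B O θ hO
  refine ⟨M₀, hM₀, fun M hM0 hM => ⟨fun s hs => ⟨h.summable_wt hs hM, h.one_le_Z hs hM⟩, ?_, ?_⟩⟩
  · have hl : ∀ a ∈ Jn O, ∃ m : ℤ, tr B a = m := fun a ha =>
      int_of_padic fun p hp => (h.bas p hp).tr_le a (le_Loc O p (mem_Jn.1 ha).2)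
    refine h.tendsto_Z hl (hLow B O θ hO _ hl ⟨1, star_one B, ?_⟩) hS hM0 hM
    have e : tr B 1 = finrank ℚ B := by
      simp only [tr, LinearMap.comp_apply, AlgHom.toLinearMap_apply, map_one, LinearMap.trace_one]
    rw [e]
    exact_mod_cast (finrank_pos (R := ℚ) (M := B)).ne'
  · intro ι _ be co hc ψ hψ hψc
    obtain ⟨w1, w2⟩ := hW (Cl O M) ι (𝓝[>] 1) (fun t i => (co (t.out : B) i : ℝ)) (wt O M)
      (by
        filter_upwards [self_mem_nhdsWithin] with s hs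
        exact ⟨wt_nonneg h.bas M s, h.summable_wt hs hM,
          zero_lt_one.trans_le (h.one_le_Z hs hM)⟩)
      (by
        intro m hm
        refine (h.tendsto_S (frq_int hc m) (hLow B O θ hO _ (frq_int hc m) (frq_ne hc hm)) hS hM0
          hM).congr fun s => ?_
        simp only [Sg, Z, ch, frq_apply, Rat.cast_sum, Rat.cast_mul, Rat.cast_intCast]) ψ hψ hψc
    set e := Equiv.ofBijective _ (unf_bij hc M) with he
    have ht : ∀ s : ℝ, (fun a : Jn (Loc O M) => H O M (a : B) ^ (-s) * ψ fun i => (co a i : ℝ)) ∘ e =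
        fun q => wt O M s q.1 * ψ ((fun i => (co (q.1.out : B) i : ℝ)) + fun i => (q.2 i : ℝ)) :=
      fun s => funext fun q => unf_term h.bas hc M s ψ q
    constructor
    · intro s hs
      obtain ⟨r, hr1, hr2⟩ := (w1.and (Ioo_mem_nhdsGT hs)).exists
      rw [← ht r, e.summable_iff] at hr1
      refine Summable.of_norm_bounded hr1.norm fun a => ?_
      have h1 := one_le_H h.bas M (a : B)
      rw [norm_mul, norm_mul, Real.norm_of_nonneg (Real.rpow_nonneg (by linarith) _),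
        Real.norm_of_nonneg (Real.rpow_nonneg (by linarith) _)]
      exact mul_le_mul_of_nonneg_right
        (Real.rpow_le_rpow_of_exponent_le h1 (by linarith [hr2.2])) (norm_nonneg _)
    · refine w2.congr fun s => ?_
      rw [← e.tsum_eq, ← ht s]
      rfl

end Crest.Agent.T24.Hgt
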