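import Crest.Agent.T24.HgtA_88

/-!
# Row 24, heights: the chart lemma and the global invariances
-/

set_option autoImplicit false
set_option linter.unusedSectionVars false
set_option linter.style.haveILetI false

noncomputable section

namespace Crest.Agent.T24.Hgt

open Filter Topology Module Polynomial

universe u

variable {B : Type*} [Ring B] [Algebra ℚ B] [StarRing B]

theorem coeff_int {p : ℕ} [hp : Fact p.Prime] (f : ℚ_[p][X]) (hdeg : f.natDegree < p)
    (h : ∀ t : ℕ, ‖f.eval (t : ℚ_[p])‖ ≤ 1) (k : ℕ) : ‖f.coeff k‖ ≤ 1 := by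
  classical
  have hr : ∀ x : ℚ_[p], x ∈ Set.range (PadicInt.Coe.ringHom (p := p)) ↔ ‖x‖ ≤ 1 := fun x =>
    ⟨by rintro ⟨y, rfl⟩; exact y.2, fun hx => ⟨⟨x, hx⟩, rfl⟩⟩
  rw [← hr]
  revert k
  rw [← lifts_iff_coeff_lifts]
  have hinj : Set.InjOn (fun t : ℕ => (t : ℚ_[p])) (Finset.range p) := fun a _ b _ hab =>
    Nat.cast_injective hab
  rw [Lagrange.eq_interpolate (f := f) hinj (by
    rw [Finset.card_range]; exact degree_le_natDegree.trans_lt (by exact_mod_cast hdeg)),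
    Lagrange.interpolate_apply]
  refine Subsemiring.sum_mem _ fun i hi => Subsemiring.mul_mem _ (C'_mem_lifts ((hr _).2 (h i))) ?_
  refine Subsemiring.prod_mem _ fun j hj => Subsemiring.mul_mem _ (C'_mem_lifts ((hr _).2 ?_)) ?_
  · have hi' := Finset.mem_range.1 hi
    have hj' := Finset.mem_range.1 (Finset.mem_erase.1 hj).2
    have hne := (Finset.mem_erase.1 hj).1
    have h1 : ¬ ‖(((i : ℤ) - j : ℤ) : ℚ_[p])‖ < 1 := by
      rw [Padic.norm_intCast_lt_one_iff]
      intro hd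
      have := Int.eq_zero_of_abs_lt_dvd hd (by rw [abs_lt]; constructor <;> omega)
      omega
    push_cast at h1
    rw [norm_inv]
    exact inv_le_one_of_one_le₀ (not_lt.1 h1)
  · have h1 : (X - C (j : ℚ_[p]) : ℚ_[p][X]) = X + C (-(j : ℚ_[p])) := by simp [sub_eq_add_neg]
    rw [h1]
    refine Subsemiring.add_mem _ (X_mem_lifts _) (C'_mem_lifts ((hr _).2 ?_))
    rw [norm_neg]; exact_mod_cast Padic.norm_int_le_one (p := p) j

theorem tr_int [FiniteDimensional ℚ B] {p : ℕ} (hp : p.Prime) (hn : finrank ℚ B < p) (w : B)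
    (hw : ∀ t : ℕ, nr p (1 - t * w) < p) : padicNorm p (tr B w) ≤ 1 := by
  haveI := Fact.mk hp
  let β := Module.finBasis ℚ B
  have hdeg : (Lp p β w).charpolyRev.natDegree < p := by
    have := natDegree_det_X_add_C_le (-Lp p β w) 1
    rw [Fintype.card_fin] at this
    refine lt_of_le_of_lt (le_of_eq_of_le ?_ this) hn
    rw [Matrix.charpolyRev]
    congr 2
    ext i j : 2
    simp [Matrix.one_apply, sub_eq_neg_add]
  have := coeff_int _ hdeg (fun t => ?_) 1
  · rw [Matrix.coeff_charpolyRev_eq_neg_trace, norm_neg, trace_Lp, Padic.eq_padicNorm] at this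
    exact_mod_cast this
  · have h1 := hw t
    rw [nr_eq β] at h1
    have h2 : (Lp p β w).charpolyRev.eval (t : ℚ_[p]) = (Lp p β (1 - t * w)).det := by
      rw [Matrix.charpolyRev, ← coe_evalRingHom, RingHom.map_det, map_sub (Lp p β), map_one, map_mul,
        map_natCast, ← nsmul_eq_mul]
      congr 1
      ext i j
      simp only [RingHom.mapMatrix_apply, Matrix.map_apply, Matrix.sub_apply, Matrix.smul_apply, smul_eq_mul,
        coe_evalRingHom, eval_sub, eval_mul, eval_X, eval_C, Matrix.one_apply]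
      split_ifs <;> simp
    rw [h2]
    have := (Padic.norm_le_pow_iff_norm_lt_pow_add_one (Lp p β (1 - t * w)).det 0).2 (by simpa using h1)
    simpa using this

theorem tr_comm (x y : B) : tr B (x * y) = tr B (y * x) := by
  simp only [tr, LinearMap.comp_apply, AlgHom.toLinearMap_apply, map_mul]
  exact LinearMap.trace_mul_comm ℚ _ _

theorem exists_unit_sub [FiniteDimensional ℚ B] (a : B) : ∃ t : ℕ, IsUnit (a - t) := by
  let β := Module.finBasis ℚ B
  have hf := Matrix.finite_spectrum (Algebra.leftMulMatrix β a)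
  obtain ⟨t, ht⟩ : ∃ t : ℕ, (t : ℚ) ∉ spectrum ℚ (Algebra.leftMulMatrix β a) := by
    by_contra hc
    push Not at hc
    exact Set.infinite_of_injective_forall_mem (f := fun t : ℕ => (t : ℚ)) Nat.cast_injective hc hf
  rw [spectrum.notMem_iff] at ht
  have h1 : Algebra.norm ℚ (a - t) ≠ 0 := by
    rw [Algebra.norm_eq_matrix_det β, map_sub, map_natCast, ← neg_sub]
    rw [map_natCast] at ht
    exact ((Matrix.isUnit_iff_isUnit_det _).1 ht.neg).ne_zero
  obtain ⟨y, h2, h3⟩ := exists_inv_of_norm β h1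
  exact ⟨t, ⟨⟨_, y, h3, h2⟩, rfl⟩⟩

theorem isUnit_of_nr [FiniteDimensional ℚ B] {p : ℕ} {x : B} (h : nr p x ≠ 0) : IsUnit x := by
  obtain ⟨y, h2, h3⟩ := exists_inv_of_norm (Module.finBasis ℚ B) (x := x) (by
    intro h0; rw [nr, h0] at h; simp at h)
  exact ⟨⟨_, y, h3, h2⟩, rfl⟩

variable {O : Subring B} {θ : B} {p M : ℕ}

theorem chart [FiniteDimensional ℚ B] (htr : ∀ x : B, tr B (star x) = tr B x) (h : Ord O θ) (hg : Gp O θ p)
    {a : B} (ha : star a = a) : ∃ c ∈ Jn (Loc O p), ∃ b ∈ Jn (Loc O p),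
      b * (a - c) = 1 ∧ (a - c) * b = 1 ∧ Hp O p a 1 * nr p b = 1 := by
  have hp := hg.prime
  haveI := Fact.mk hp
  have hbig := hg.big
  have hp1 : (1 : ℝ) < p := by exact_mod_cast hp.one_lt
  let f : Jn (Loc O p) → ℝ := fun c => nr p (a - c)
  have hb : BddAbove (Set.range f) := by
    refine ⟨Hp O p a 1, ?_⟩
    rintro _ ⟨c, rfl⟩
    have := h.le_Hp hp a 1 (Loc O p).one_mem ((Loc O p).neg_mem c.2.2)
    simpa [f, sub_eq_add_neg] using this
  obtain ⟨t, ht⟩ := exists_unit_sub a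
  have hpos : 0 < ⨆ c, f c :=
    (nr_pos hp ht).trans_le (le_ciSup hb ⟨t, mem_Jn.2 ⟨star_natCast t, natCast_mem _ t⟩⟩)
  obtain ⟨c, hc⟩ := exists_lt_of_lt_ciSup (div_lt_self hpos hp1)
  have hc0 : 0 < nr p (a - c) := (div_pos hpos (by linarith)).trans hc
  obtain ⟨⟨_, b, hb1, hb2⟩, rfl⟩ := isUnit_of_nr hc0.ne'
  have hcs : star (a - c) = a - c := by rw [star_sub, ha, (mem_Jn.1 c.2).1]
  have hbs : star b = b := by
    have : star b * (a - c) = 1 := by rw [← hcs, ← star_mul, hb1, star_one]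
    rw [← mul_one (star b), ← hb1, ← mul_assoc, this, one_mul]
  have hz : ∀ z ∈ Jn (Loc O p), padicNorm p (tr B (z * b)) ≤ 1 := by
    intro z hz
    refine tr_int hp (by omega) _ fun t => ?_
    have h1 : (1 - t * (z * b)) * (a - c) = a - (c + t • z) := by
      rw [sub_mul, mul_assoc, mul_assoc, hb2, nsmul_eq_mul]; noncomm_ring
    have h2 := le_ciSup hb (c + t • ⟨z, hz⟩)
    change nr p (a - (c + t • z)) ≤ _ at h2
    rw [← h1, nr_mul hp] at h2
    rw [div_lt_iff₀ (by linarith)] at hc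
    have h3 := h2.trans_lt hc
    change _ < nr p (a - c) * p at h3
    rw [mul_comm] at h3
    exact lt_of_mul_lt_mul_left h3 hc0.le
  have hbL : b ∈ Loc O p := by
    refine hg.uni b fun w hw => ?_
    have h1 := hz (w + star w) (mem_Jn.2 ⟨by rw [star_add, star_star, add_comm],
      le_Loc O p (O.add_mem hw (h.star_mem w hw))⟩)
    have h2 : tr B (star w * b) = tr B (w * b) := by
      rw [← htr, star_mul, star_star, hbs, tr_comm]
    rw [add_mul, map_add, h2, ← two_mul, padicNorm.mul] at h1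
    have h3 : padicNorm p 2 = 1 := by
      have := (padicNorm.nat_eq_one_iff (p := p) 2).2 (fun hd => by
        have := Nat.le_of_dvd two_pos hd
        have : Nontrivial B := nontrivial_of_ne _ _ h.th_ne
        have := Module.finrank_pos (R := ℚ) (M := B)
        omega)
      exact_mod_cast this
    rwa [h3, one_mul] at h1
  refine ⟨c, c.2, b, mem_Jn.2 ⟨hbs, hbL⟩, hb2, hb1, ?_⟩
  have h1 : Hp O p a 1 = Hp O p (1 * (a - c)) (b * (a - c)) := by
    rw [one_mul, hb2, sub_eq_add_neg, (h.bas hp).add a _ ((Loc O p).neg_mem c.2.2)]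
  have h2 : Hp O p 1 b = 1 := le_antisymm (h.Hp_le_one hp (Loc O p).one_mem hbL)
    (h.one_le_Hp hp (Loc O p).one_mem (Loc O p).zero_mem (by simp))
  rw [h1, Hp_mul_right hp, h2, one_mul, ← nr_mul hp, hb1, nr_one]

theorem chartStmt (h : TrStmt.{u}) : ChartStmt.{u} := fun B _ _ _ _ _ _ _ hO _ hg _ ha =>
  chart (h B).1 hO hg ha

theorem Ord.mem_Loc_of_Hp [FiniteDimensional ℚ B] (h : Ord O θ) (hg : Gp O θ p) {a : B}
    (ha : Hp O p a 1 < p) : a ∈ Loc O p := by
  have hbig := hg.big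
  refine hg.uni a fun w hw => tr_int hg.prime (by omega) _ fun t => lt_of_le_of_lt ?_ ha
  have := h.le_Hp hg.prime a 1 ((Loc O p).neg_mem ((Loc O p).mul_mem (natCast_mem _ t) (le_Loc O p hw)))
    (Loc O p).one_mem
  rwa [show -((t : B) * w) * a + 1 * 1 = 1 - t * (w * a) by noncomm_ring] at this

/-! ## Global heights -/

theorem Ord.fin_Loc (h : Ord O θ) (x : B) : {p : ℕ | p.Prime ∧ x ∉ Loc O p}.Finite := by
  obtain ⟨m, hm, hx⟩ := h.full x
  refine (Finset.finite_toSet m.primeFactors).subset fun p hp => ?_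
  by_contra hc
  refine hp.2 ⟨m, ((Nat.Prime.coprime_iff_not_dvd hp.1).2 fun hd => hc ?_).symm, hm, hx⟩
  exact Finset.mem_coe.2 (Nat.mem_primeFactors.2 ⟨hp.1, hd, hm⟩)

theorem Ord.fin_Hp (h : Ord O θ) (M : ℕ) {x y c d : B} (h1 : c * x + d * y = 1) :
    (Out M ∩ Function.mulSupport fun p => Hp O p x y).Finite := by
  refine ((((h.fin_Loc x).union (h.fin_Loc y)).union (h.fin_Loc c)).union (h.fin_Loc d)).subset ?_
  rintro p ⟨hp, hs⟩
  by_contra hc
  simp only [Set.mem_union, Set.mem_ofPred_eq, hp.1, true_and, not_or, not_not] at hc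
  exact hs (le_antisymm (h.Hp_le_one hp.1 hc.1.1.1 hc.1.1.2) (h.one_le_Hp hp.1 hc.1.2 hc.2 h1))

theorem Ord.fin_nr (h : Ord O θ) (M : ℕ) {z : B} (hz : IsUnit z) :
    (Out M ∩ Function.mulSupport fun p => nr p z).Finite := by
  obtain ⟨⟨z, y, h1, h2⟩, rfl⟩ := hz
  refine ((h.fin_Loc z).union (h.fin_Loc y)).subset ?_
  rintro p ⟨hp, hs⟩
  by_contra hc
  simp only [Set.mem_union, Set.mem_ofPred_eq, hp.1, true_and, not_or, not_not] at hc
  exact hs (h.nr_unit hp.1 hc.1 hc.2 h1)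

/-- invariance under `GL₂(O[1/M])` -/
theorem Ord.H2_sim (h : Ord O θ) {x y x' y' : B} (hs : Sim (OS O M) x y x' y') :
    H2 O M x' y' = H2 O M x y :=
  finprod_mem_congr rfl fun _ hp => h.Hp_sim hp.1 (hs.mono (OS_le_Loc O hp))

theorem Ord.H2_mul_right (h : Ord O θ) (M : ℕ) {x y c d z : B} (h1 : c * x + d * y = 1) (hz : IsUnit z) :
    H2 O M (x * z) (y * z) = H2 O M x y * nS M z := by
  rw [H2, H2, nS, ← finprod_mem_mul_distrib' (h.fin_Hp M h1) (h.fin_nr M hz)]
  exact finprod_mem_congr rfl fun _ hp => Hp_mul_right hp.1 x y z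

theorem Ord.nS_mul (h : Ord O θ) (M : ℕ) {x y : B} (hx : IsUnit x) (hy : IsUnit y) :
    nS M (x * y) = nS M x * nS M y := by
  rw [nS, nS, nS, ← finprod_mem_mul_distrib' (h.fin_nr M hx) (h.fin_nr M hy)]
  exact finprod_mem_congr rfl fun _ hp => nr_mul hp.1 x y

theorem Ord.nS_unit (h : Ord O θ) {x y : B} (hx : x ∈ OS O M) (hy : y ∈ OS O M) (hxy : x * y = 1) :
    nS M x = 1 :=
  finprod_mem_of_eqOn_one fun _ hp => h.nr_unit hp.1 (OS_le_Loc O hp hx) (OS_le_Loc O hp hy) hxy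

theorem nS_pos (M : ℕ) {z : B} (hz : IsUnit z) : 0 < nS M z :=
  finprod_mem_induction (fun r : ℝ => 0 < r) one_pos (fun _ _ => mul_pos) fun _ hp => nr_pos hp.1 hz

theorem Ord.one_le_H (h : Ord O θ) (M : ℕ) (a : B) : 1 ≤ H O M a :=
  finprod_mem_induction (fun r : ℝ => 1 ≤ r) le_rfl (fun _ _ => one_le_mul_of_one_le_of_one_le)
    fun _ hp => (h.bas hp.1).one_le a

theorem Ord.H_pos (h : Ord O θ) (M : ℕ) (a : B) : 0 < H O M a := one_pos.trans_le (h.one_le_H M a)

theorem Ord.H_eq_one (h : Ord O θ) {a : B} (ha : a ∈ OS O M) : H O M a = 1 :=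
  finprod_mem_of_eqOn_one fun _ hp => (h.bas hp.1).eq_one a (OS_le_Loc O hp ha)

theorem Ord.Hp_le_H (h : Ord O θ) (hp : p ∈ Out M) (a : B) : Hp O p a 1 ≤ H O M a := by
  have hf := h.fin_Hp M (x := a) (y := 1) (c := 0) (d := 1) (by simp)
  rw [H, H2, ← Set.insert_eq_of_mem hp, ← Set.insert_sdiff_singleton,
    finprod_mem_insert' _ (by simp) (hf.subset (Set.inter_subset_inter_left _ Set.sdiff_subset))]
  refine le_mul_of_one_le_right (Hp_nonneg _ _ _ _) ?_
  exact finprod_mem_induction (fun r : ℝ => 1 ≤ r) le_rfl (fun _ _ => one_le_mul_of_one_le_of_one_le)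
    fun _ hq => (h.bas hq.1.1).one_le a

/-- an element integral at all primes outside `M` is an `S`-integer -/
theorem Ord.mem_OS (h : Ord O θ) (hM : M ≠ 0) {a : B} (ha : ∀ p ∈ Out M, a ∈ Loc O p) : a ∈ OS O M := by
  classical
  have hex : ∃ m : ℕ, m ≠ 0 ∧ (m : B) * a ∈ O := h.full a
  obtain ⟨hm0, hm⟩ := Nat.find_spec hex
  set m := Nat.find hex with hmd
  have hdiv : ∀ k : ℕ, k ≠ 0 → (k : B) * a ∈ O → m ∣ k := by
    intro k _ hk
    by_contra hc
    have h1 : k % m ≠ 0 := fun h0 => hc (Nat.dvd_of_mod_eq_zero h0)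
    refine Nat.find_min hex (Nat.mod_lt k (Nat.pos_of_ne_zero hm0)) ⟨h1, ?_⟩
    have : ((k % m : ℕ) : B) * a = k * a - (k / m : ℕ) * (m * a) := by
      rw [eq_sub_iff_add_eq, ← mul_assoc, ← add_mul, ← Nat.cast_mul, ← Nat.cast_add, mul_comm (k / m),
        Nat.mod_add_div]
    rw [this]
    exact O.sub_mem hk (O.mul_mem (natCast_mem _ _) hm)
  have h2 : m ∣ M ^ m := by
    refine (Nat.dvd_pow_self_iff hm0 hM).2 fun q hq => ?_
    have hq' := Nat.mem_primeFactors.1 hq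
    refine Nat.mem_primeFactors.2 ⟨hq'.1, ?_, hM⟩
    by_contra hc
    obtain ⟨k, hk, hk0, hka⟩ := ha q ⟨hq'.1, hc⟩
    exact (Nat.Prime.coprime_iff_not_dvd hq'.1).1 hk.symm (hq'.2.1.trans (hdiv k hk0 hka))
  obtain ⟨r, hr⟩ := h2
  refine ⟨m, ?_⟩
  rw [← Nat.cast_pow, hr, mul_comm m r, Nat.cast_mul, mul_assoc]
  exact O.mul_mem (natCast_mem _ _) hm

theorem Ord.H_eq_one_iff [FiniteDimensional ℚ B] (h : Ord O θ) (hM : M ≠ 0) (hg : ∀ p ∈ Out M, Gp O θ p)
    {a : B} : H O M a = 1 ↔ a ∈ OS O M :=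
  ⟨fun ha => h.mem_OS hM fun p hp => h.mem_Loc_of_Hp (hg p hp)
    ((h.Hp_le_H hp a).trans_lt (by rw [ha]; exact_mod_cast hp.1.one_lt)), h.H_eq_one⟩

/-- translation -/
theorem Ord.H_add (h : Ord O θ) (a : B) {b : B} (hb : b ∈ OS O M) : H O M (a + b) = H O M a :=
  h.H2_sim (sim_add _ a hb)

theorem Ord.H_unit_mul (h : Ord O θ) (a : B) {g g' : B} (hg : g ∈ OS O M) (hg' : g' ∈ OS O M)
    (h1 : g' * g = 1) : H O M (g * a) = H O M a := h.H2_sim (sim_unit _ a hg hg' h1)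

theorem Ord.H_mul_unit (h : Ord O θ) (a : B) {g g' : B} (hg : g ∈ OS O M) (hg' : g' ∈ OS O M)
    (h1 : g' * g = 1) (h2 : g * g' = 1) : H O M (a * g) = H O M a := by
  have h3 := h.H2_mul_right M (x := a) (y := g') (c := 0) (d := g) (z := g) (by simp [h2]) ⟨⟨g, g', h2, h1⟩, rfl⟩
  rw [h1, h.nS_unit hg hg' h2, mul_one] at h3
  rw [H, h3]
  exact h.H2_sim ⟨⟨1, Subring.one_mem _, 0, Subring.zero_mem _, by simp⟩, ⟨0, Subring.zero_mem _, g', hg', by simp⟩,
    ⟨1, Subring.one_mem _, 0, Subring.zero_mem _, by simp⟩, ⟨0, Subring.zero_mem _, g, hg, by simp [h2]⟩⟩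

/-- congruence by a unit of `O[1/M]` -/
theorem Ord.H_congr (h : Ord O θ) (a : B) {g g' : B} (hg : g ∈ OS O M) (hg' : g' ∈ OS O M)
    (h1 : g' * g = 1) (h2 : g * g' = 1) : H O M (g * a * star g) = H O M a := by
  rw [h.H_mul_unit _ (star_mem_OS h hg) (star_mem_OS h hg') (by rw [← star_mul, h2, star_one])
    (by rw [← star_mul, h1, star_one]), h.H_unit_mul a hg hg' h1]

theorem Ord.H_neg (h : Ord O θ) (a : B) : H O M (-a) = H O M a :=
  finprod_mem_congr rfl fun _ hp => (h.bas hp.1).neg a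

theorem exists_inv_pow (O : Subring B) (hM : M ≠ 0) (j : ℕ) : ∃ g ∈ OS O M, g * (M : B) ^ j = 1 ∧ (M : B) ^ j * g = 1 := by
  obtain ⟨⟨_, g, h1, h2⟩, rfl⟩ := (isUnit_natCast (B := B) hM).pow j
  exact ⟨g, ⟨j, by rw [h1]; exact O.one_mem⟩, h2, h1⟩

/-- boxes at the primes dividing `M` -/
theorem Ord.H_box (h : Ord O θ) (hM : M ≠ 0) {a : B} (ha : a ∈ OS O M) (j : ℕ) (x : B) :
    H O M (a + (M : B) ^ j * x) = H O M x := by
  obtain ⟨g, hg, h1, -⟩ := exists_inv_pow O hM j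
  rw [add_comm, h.H_add _ ha, h.H_unit_mul x ((OS O M).pow_mem (natCast_mem _ _) j) hg h1]

/-- the Cayley transform `u = (a + θ)(a - θ)⁻¹` -/
theorem Ord.H_cayley (h : Ord O θ) {t : B} (ht : t ∈ OS O M) (h2 : t * (2 * θ) = 1) {a u : B}
    (hu : u * (a - θ) = a + θ) (ha : IsUnit (a - θ)) : H O M u * nS M (a - θ) = H O M a := by
  rw [H, ← h.H2_mul_right M (c := 0) (d := 1) (by simp) ha, hu, one_mul]
  have hθ := le_OS O M h.th_mem
  refine h.H2_sim ⟨⟨1, Subring.one_mem _, θ, hθ, by simp⟩,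
    ⟨1, Subring.one_mem _, -θ, Subring.neg_mem _ hθ, by simp [sub_eq_add_neg]⟩,
    ⟨t * θ, Subring.mul_mem _ ht hθ, t * θ, Subring.mul_mem _ ht hθ, ?_⟩,
    ⟨t, ht, -t, Subring.neg_mem _ ht, ?_⟩⟩
  · rw [show t * θ * (a + θ) + t * θ * (a - θ) = t * (2 * θ) * a by noncomm_ring, h2, one_mul]
  · rw [show t * (a + θ) + -t * (a - θ) = t * (2 * θ) by noncomm_ring, h2]

/-- inversion -/
theorem Ord.H_inv (h : Ord O θ) (M : ℕ) {a b : B} (h1 : b * a = 1) (h2 : a * b = 1) :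
    H O M b * nS M a = H O M a := by
  rw [H, ← h.H2_mul_right M (c := 0) (d := 1) (by simp) ⟨⟨a, b, h2, h1⟩, rfl⟩]
  change H2 O M (b * a) (1 * a) = _
  rw [h1, one_mul]
  exact h.H2_sim ⟨⟨0, Subring.zero_mem _, 1, Subring.one_mem _, by simp⟩,
    ⟨1, Subring.one_mem _, 0, Subring.zero_mem _, by simp⟩, ⟨0, Subring.zero_mem _, 1, Subring.one_mem _, by simp⟩,
    ⟨1, Subring.one_mem _, 0, Subring.zero_mem _, by simp⟩⟩

/-! ## The product formula -/

theorem prod_padicNorm_nat {n : ℕ} (hn : n ≠ 0) (S : Finset ℕ) (hS : ∀ p ∈ S, p.Prime)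
    (h : n.primeFactors ⊆ S) : (n : ℚ) * ∏ p ∈ S, padicNorm p n = 1 := by
  have h1 : (n : ℚ) = ∏ p ∈ S, (p : ℚ) ^ n.factorization p := by
    conv_lhs => rw [← Nat.prod_factorization_pow_eq_self hn]
    rw [Finsupp.prod_of_support_subset _ (by simpa using h) _ (by simp)]
    push_cast; rfl
  conv_lhs => enter [1]; rw [h1]
  rw [← Finset.prod_mul_distrib]
  refine Finset.prod_eq_one fun p hp => ?_
  have hp' := hS p hp
  rw [padicNorm.eq_zpow_of_nonzero (by exact_mod_cast hn), padicValRat.of_nat, Nat.factorization_def n hp',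
    zpow_neg, zpow_natCast, mul_inv_cancel₀ (pow_ne_zero _ (by exact_mod_cast hp'.ne_zero))]

theorem prod_padicNorm {q : ℚ} (hq : q ≠ 0) (S : Finset ℕ) (hS : ∀ p ∈ S, p.Prime)
    (h1 : q.num.natAbs.primeFactors ⊆ S) (h2 : q.den.primeFactors ⊆ S) :
    |q| * ∏ p ∈ S, padicNorm p q = 1 := by
  have a1 := prod_padicNorm_nat (Int.natAbs_ne_zero.2 (Rat.num_ne_zero.2 hq)) S hS h1
  have a2 := prod_padicNorm_nat q.den_nz S hS h2
  have e1 : |q| * q.den = q.num.natAbs := by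
    rw [Nat.cast_natAbs, Int.cast_abs, ← Rat.mul_den_eq_num, abs_mul, Nat.abs_cast]
  have e2 : (∏ p ∈ S, padicNorm p q) * ∏ p ∈ S, padicNorm p q.den = ∏ p ∈ S, padicNorm p q.num.natAbs := by
    rw [← Finset.prod_mul_distrib]
    refine Finset.prod_congr rfl fun p hp => ?_
    haveI := Fact.mk (hS p hp)
    rw [← e1, padicNorm.mul]
    congr 1
    rcases abs_choice q with h | h <;> rw [h]
    rw [padicNorm.neg]
  rw [← e2, ← e1] at a1
  calc _ = (|q| * ∏ p ∈ S, padicNorm p q) * (q.den * ∏ p ∈ S, padicNorm p q.den) := by rw [a2, mul_one]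
    _ = 1 := by rw [← a1]; ring

/-- the product formula -/
theorem nS_eq (hM : M ≠ 0) {z : B} (hz : IsUnit z) :
    nS M z * (|(Algebra.norm ℚ z : ℝ)| * ∏ p ∈ M.primeFactors, nr p z) = 1 := by
  classical
  set q := Algebra.norm ℚ z with hq
  have hq0 : q ≠ 0 := (hz.map (Algebra.norm ℚ)).ne_zero
  let S := (q.num.natAbs.primeFactors ∪ q.den.primeFactors) \ M.primeFactors
  have h1 : nS M z = ∏ p ∈ S, nr p z := by
    refine finprod_mem_eq_prod_of_inter_mulSupport_eq _ ?_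
    ext p
    simp only [S, Out, Set.mem_inter_iff, Set.mem_ofPred_eq, Finset.mem_coe, Finset.mem_sdiff, Finset.mem_union,
      Nat.mem_primeFactors, Function.mem_mulSupport, and_congr_left_iff]
    intro hs
    constructor
    · rintro ⟨hp, hd⟩
      refine ⟨?_, fun hc => hd hc.2.1⟩
      by_contra hc
      haveI := Fact.mk hp
      have c1 : ¬ p ∣ q.num.natAbs := fun h => hc (Or.inl ⟨hp, h, Int.natAbs_ne_zero.2 (Rat.num_ne_zero.2 hq0)⟩)
      have c2 : ¬ p ∣ q.den := fun h => hc (Or.inr ⟨hp, h, q.den_nz⟩)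
      apply hs
      rw [nr, ← hq, padicNorm.eq_zpow_of_nonzero hq0, padicValRat, padicValInt,
        padicValNat.eq_zero_of_not_dvd c1, padicValNat.eq_zero_of_not_dvd c2]
      simp
    · rintro ⟨hp, hd⟩
      have hp' : p.Prime := by rcases hp with h | h <;> exact h.1
      exact ⟨hp', fun h => hd ⟨hp', h, hM⟩⟩
  have h2 := prod_padicNorm hq0 (S ∪ M.primeFactors) (fun p hp => by
      simp only [S, Finset.mem_sdiff, Finset.mem_union] at hp
      rcases hp with ⟨h | h, -⟩ | h <;> exact Nat.prime_of_mem_primeFactors h)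
    (by simp only [S, Finset.sdiff_union_self_eq_union]
        exact Finset.subset_union_left.trans Finset.subset_union_left)
    (by simp only [S, Finset.sdiff_union_self_eq_union]
        exact Finset.subset_union_right.trans Finset.subset_union_left)
  rw [Finset.prod_union Finset.sdiff_disjoint] at h2
  have h3 := congrArg (Rat.cast : ℚ → ℝ) h2
  push_cast at h3
  rw [h1, ← h3]
  simp only [nr, ← hq]
  ring

end Crest.Agent.T24.Hgt
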