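import Crest.Agent.T24.HgtDef_88

/-!
# Row 24, heights: the internal interface (leaves of `HtStmt`)
-/

set_option autoImplicit false
set_option linter.unusedSectionVars false

noncomputable section

namespace Crest.Agent.T24.Hgt

open Filter Topology Module

universe u

variable {B : Type*} [Ring B] [Algebra ℚ B] [StarRing B]

/-- hermitian elements with `p`-power denominators, modulo the integral ones -/
abbrev Cp (O : Subring B) (p : ℕ) : Type _ := Jn (OS O p) ⧸ (Jn O).addSubgroupOf (Jn (OS O p))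

/-- the basic facts at one prime -/
structure Bas (O : Subring B) (p : ℕ) : Prop where
  nr_le : ∀ x ∈ Loc O p, nr p x ≤ 1
  tr_le : ∀ x ∈ Loc O p, padicNorm p (tr B x) ≤ 1
  unit : ∀ x ∈ Loc O p, nr p x = 1 → ∃ y ∈ Loc O p, y * x = 1 ∧ x * y = 1
  gap : ∀ x : B, nr p x < 1 → nr p x ≤ (p : ℝ)⁻¹
  cong : ∀ x ∈ Loc O p, ∀ z ∈ Loc O p, nr p (x + p * z) < 1 ↔ nr p x < 1
  roots : ∀ x ∈ Loc O p, ∀ y ∈ Loc O p, nr p x = 1 ∨ nr p y = 1 →
    ((Finset.range p).filter fun t : ℕ => nr p (x + t * y) < 1).card ≤ finrank ℚ B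
  le_Hp : ∀ x y : B, ∀ c ∈ Loc O p, ∀ d ∈ Loc O p, nr p (c * x + d * y) ≤ Hp O p x y
  Hp_le : ∀ (x y : B) (r : ℝ), (∀ c ∈ Loc O p, ∀ d ∈ Loc O p, nr p (c * x + d * y) ≤ r) → Hp O p x y ≤ r
  mul_right : ∀ x y z : B, Hp O p (x * z) (y * z) = Hp O p x y * nr p z
  add : ∀ a : B, ∀ b ∈ Loc O p, Hp O p (a + b) 1 = Hp O p a 1
  neg : ∀ a : B, Hp O p (-a) 1 = Hp O p a 1
  one_le : ∀ a : B, 1 ≤ Hp O p a 1
  eq_one : ∀ a ∈ Loc O p, Hp O p a 1 = 1

def BasStmt : Prop := ∀ (B : Type u) [Ring B] [Algebra ℚ B] [StarRing B] [FiniteDimensional ℚ B]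
  (O : Subring B) (θ : B), Ord O θ → ∀ p : ℕ, p.Prime → Bas O p

/-- the trace is star invariant and the trace form is non-degenerate -/
def TrStmt : Prop := ∀ (B : Type u) [Ring B] [Algebra ℚ B] [StarRing B] [FiniteDimensional ℚ B]
  [IsSimpleRing B], (∀ x : B, tr B (star x) = tr B x) ∧ ∀ x : B, (∀ w, tr B (w * x) = 0) → x = 0

/-- almost all primes are good -/
def GpStmt : Prop := ∀ (B : Type u) [Ring B] [Algebra ℚ B] [StarRing B] [FiniteDimensional ℚ B]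
  [IsSimpleRing B] (O : Subring B) (θ : B), Ord O θ →
    ∃ M₀ : ℕ, M₀ ≠ 0 ∧ ∀ p : ℕ, p.Prime → ¬ p ∣ M₀ → Gp O θ p

/-- index = inverse norm of the determinant, on `B` and on the hermitian elements -/
def IdxStmt : Prop := ∀ (B : Type u) [Ring B] [Algebra ℚ B] [StarRing B] [FiniteDimensional ℚ B]
  (O : Subring B) (θ : B), Ord O θ → ∀ p : ℕ, p.Prime → ∀ T : B →ₗ[ℚ] B,
    (∀ x ∈ Loc O p, T x ∈ Loc O p) → LinearMap.det T ≠ 0 →
      (((Loc O p).toAddSubgroup.map T.toAddMonoidHom).relIndex (Loc O p).toAddSubgroup : ℚ) *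
        padicNorm p (LinearMap.det T) = 1 ∧
      (Gp O θ p → (∀ x, T (star x) = star (T x)) → (∀ x, T (θ * x) = θ * T x) →
        (((Jn (Loc O p)).map T.toAddMonoidHom).relIndex (Jn (Loc O p)) : ℚ) ^ 2 *
          padicNorm p (LinearMap.det T) = 1)

/-- an integral chart at every hermitian element -/
def ChartStmt : Prop := ∀ (B : Type u) [Ring B] [Algebra ℚ B] [StarRing B] [FiniteDimensional ℚ B]
  [IsSimpleRing B] (O : Subring B) (θ : B), Ord O θ → ∀ p : ℕ, Gp O θ p → ∀ a : B, star a = a →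
    ∃ c ∈ Jn (Loc O p), ∃ b ∈ Jn (Loc O p), b * (a - c) = 1 ∧ (a - c) * b = 1 ∧ Hp O p a 1 * nr p b = 1

/-- upper bound for the local zeta function -/
def UpStmt : Prop := ∀ (B : Type u) [Ring B] [Algebra ℚ B] [StarRing B] [FiniteDimensional ℚ B]
  [IsSimpleRing B] (O : Subring B) (θ : B), Ord O θ → ∀ p : ℕ, Gp O θ p → ∀ s : ℝ, 1 ≤ s →
    ∀ F : Finset (Cp O p), 0 ∉ F →
      ∑ t ∈ F, Hp O p (t.out : B) 1 ^ (-s) ≤ 2 * finrank ℚ B * (p : ℝ) ^ (-s)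

/-- lower bound for the oscillation of a character at a prime with a degree one idempotent -/
def LowStmt : Prop := ∀ (B : Type u) [Ring B] [Algebra ℚ B] [StarRing B] [FiniteDimensional ℚ B]
  [IsSimpleRing B] (O : Subring B) (θ : B), Ord O θ → ∀ l : B →ₗ[ℚ] ℚ,
    (∀ a ∈ Jn O, ∃ m : ℤ, l a = m) → (∃ a, star a = a ∧ l a ≠ 0) →
      ∃ M₁ : ℕ, M₁ ≠ 0 ∧ ∀ p : ℕ, ¬ p ∣ M₁ → Gp O θ p → Spl O p → ∀ s : ℝ, 1 ≤ s →
        ∃ F : Finset (Cp O p), (p : ℝ) ^ (2 * finrank ℚ B * (1 - s)) / (2 * p) ≤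
          ∑ t ∈ F, Hp O p (t.out : B) 1 ^ (-s) * (1 - Real.cos (2 * Real.pi * (l (t.out : B) : ℝ)))

end Crest.Agent.T24.Hgt
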