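import Mathlib

/-!
# Row 24: heights on the hermitian elements of a simple `ℚ`-algebra with involution (words and Props)

`B` is a finite dimensional simple `ℚ`-algebra with an involution `star`, `θ` a central skew element,
`O` a star-stable order, `N = Algebra.norm ℚ` the determinant of the left multiplication.
-/

set_option autoImplicit false
set_option linter.unusedSectionVars false

noncomputable section

namespace Crest.Agent.T24.Hgt

open Filter Topology Module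

universe u

variable {B : Type*} [Ring B] [Algebra ℚ B] [StarRing B]

/-- a star-stable order containing the central skew element `θ ≠ 0` -/
structure Ord (O : Subring B) (θ : B) : Prop where
  fg : O.toAddSubgroup.FG
  full : ∀ x : B, ∃ m : ℕ, m ≠ 0 ∧ (m : B) * x ∈ O
  star_mem : ∀ x ∈ O, star x ∈ O
  th_mem : θ ∈ O
  th_ne : θ ≠ 0
  th_comm : ∀ x, θ * x = x * θ
  th_star : star θ = -θ

/-- denominators prime to `M` (for `M = p` prime: the localisation at `p`) -/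
def Loc (O : Subring B) (M : ℕ) : Subring B where
  carrier := {x | ∃ m : ℕ, m.Coprime M ∧ m ≠ 0 ∧ (m : B) * x ∈ O}
  one_mem' := ⟨1, by simp, one_ne_zero, by simp⟩
  zero_mem' := ⟨1, by simp, one_ne_zero, by simp⟩
  mul_mem' := by
    rintro x y ⟨m, hm, hm0, hx⟩ ⟨n, hn, hn0, hy⟩
    refine ⟨m * n, hm.mul_left hn, mul_ne_zero hm0 hn0, ?_⟩
    have : ((m * n : ℕ) : B) * (x * y) = (m * x) * (n * y) := by
      rw [Nat.cast_mul, mul_assoc, mul_assoc, ← mul_assoc (n : B), ← mul_assoc x,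
        (Nat.cast_commute n x).eq]
    rw [this]; exact O.mul_mem hx hy
  add_mem' := by
    rintro x y ⟨m, hm, hm0, hx⟩ ⟨n, hn, hn0, hy⟩
    refine ⟨m * n, hm.mul_left hn, mul_ne_zero hm0 hn0, ?_⟩
    have : ((m * n : ℕ) : B) * (x + y) = n * (m * x) + m * (n * y) := by
      rw [mul_add, ← mul_assoc, ← mul_assoc, ← Nat.cast_mul, ← Nat.cast_mul, mul_comm n m]
    rw [this]
    exact O.add_mem (O.mul_mem (natCast_mem O n) hx) (O.mul_mem (natCast_mem O m) hy)
  neg_mem' := by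
    rintro x ⟨m, hm, hm0, hx⟩
    exact ⟨m, hm, hm0, by rw [mul_neg]; exact O.neg_mem hx⟩

/-- `O[1/M]` -/
def OS (O : Subring B) (M : ℕ) : Subring B where
  carrier := {x | ∃ j : ℕ, (M : B) ^ j * x ∈ O}
  one_mem' := ⟨0, by simp⟩
  zero_mem' := ⟨0, by simp⟩
  mul_mem' := by
    rintro x y ⟨m, hx⟩ ⟨n, hy⟩
    refine ⟨m + n, ?_⟩
    have : (M : B) ^ (m + n) * (x * y) = ((M : B) ^ m * x) * ((M : B) ^ n * y) := by
      rw [pow_add, mul_assoc, mul_assoc, ← mul_assoc ((M : B) ^ n), ← mul_assoc x,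
        ((Nat.cast_commute M x).pow_left n).eq]
    rw [this]; exact O.mul_mem hx hy
  add_mem' := by
    rintro x y ⟨m, hx⟩ ⟨n, hy⟩
    refine ⟨m + n, ?_⟩
    have : (M : B) ^ (m + n) * (x + y) =
        (M : B) ^ n * ((M : B) ^ m * x) + (M : B) ^ m * ((M : B) ^ n * y) := by
      rw [mul_add, ← mul_assoc, ← mul_assoc, ← pow_add, ← pow_add, add_comm n m]
    rw [this]
    exact O.add_mem (O.mul_mem (O.pow_mem (natCast_mem O M) n) hx)
      (O.mul_mem (O.pow_mem (natCast_mem O M) m) hy)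
  neg_mem' := by
    rintro x ⟨m, hx⟩
    exact ⟨m, by rw [mul_neg]; exact O.neg_mem hx⟩

/-- the trace of the left multiplication -/
def tr (B : Type*) [Ring B] [Algebra ℚ B] : B →ₗ[ℚ] ℚ :=
  (LinearMap.trace ℚ B).comp (Algebra.lmul ℚ B).toLinearMap

/-- `|N x|_p` -/
def nr (p : ℕ) (x : B) : ℝ := (padicNorm p (Algebra.norm ℚ x) : ℚ)

/-- the local height of the pair `(x, y)` -/
def Hp (O : Subring B) (p : ℕ) (x y : B) : ℝ := ⨆ c : Loc O p × Loc O p, nr p (c.1 * x + c.2 * y)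

/-- the primes outside `M` -/
def Out (M : ℕ) : Set ℕ := {p | p.Prime ∧ ¬ p ∣ M}

/-- the height of a pair outside `M` -/
def H2 (O : Subring B) (M : ℕ) (x y : B) : ℝ := ∏ᶠ p ∈ Out M, Hp O p x y

/-- the height of an element outside `M` -/
def H (O : Subring B) (M : ℕ) (a : B) : ℝ := H2 O M a 1

/-- `∏_{p ∤ M} |N z|_p` -/
def nS (M : ℕ) (z : B) : ℝ := ∏ᶠ p ∈ Out M, nr p z

/-- the hermitian elements of a subring -/
def Jn (R : Subring B) : AddSubgroup B := selfAdjoint B ⊓ R.toAddSubgroup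

/-- hermitian elements with denominators prime to `M`, modulo the integral ones -/
abbrev Cl (O : Subring B) (M : ℕ) : Type _ := Jn (Loc O M) ⧸ (Jn O).addSubgroupOf (Jn (Loc O M))

/-- the weight of a class -/
def wt (O : Subring B) (M : ℕ) (s : ℝ) (t : Cl O M) : ℝ := H O M (t.out : B) ^ (-s)

/-- the zeta function -/
def Z (O : Subring B) (M : ℕ) (s : ℝ) : ℝ := ∑' t : Cl O M, wt O M s t

/-- `be` is a `ℤ`-basis of `Jn O` with coordinate functionals `co` -/
structure Co {ι : Type} [Fintype ι] (O : Subring B) (be : ι → B) (co : B →ₗ[ℚ] ι → ℚ) : Prop where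
  mem : ∀ i, be i ∈ Jn O
  co_be : ∀ x : ι → ℚ, co (∑ i, x i • be i) = x
  be_co : ∀ a, star a = a → ∑ i, co a i • be i = a
  int : ∀ a ∈ Jn O, ∀ i, ∃ m : ℤ, co a i = m

/-- good primes: large, `θ` is a unit, the trace form is unimodular -/
structure Gp (O : Subring B) (θ : B) (p : ℕ) : Prop where
  prime : p.Prime
  big : 2 * finrank ℚ B + 2 ≤ p
  th : ∃ t ∈ Loc O p, t * θ = 1
  uni : ∀ x : B, (∀ w ∈ O, padicNorm p (tr B (w * x)) ≤ 1) → x ∈ Loc O p

/-- a primitive idempotent of degree one modulo `p` -/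
def Spl (O : Subring B) (p : ℕ) : Prop := ∃ e ∈ O, (¬ ∃ y ∈ O, e = p * y) ∧
  (∃ y ∈ O, e * e - e = p * y) ∧ ∀ x ∈ O, ∃ c : ℤ, ∃ y ∈ O, e * x * e - c * e = p * y

/-! ## Props -/

/-- the primes with a degree one idempotent have divergent reciprocal sum -/
def SplStmt : Prop := ∀ (B : Type u) [Ring B] [Algebra ℚ B] [StarRing B] [FiniteDimensional ℚ B]
  [IsSimpleRing B] (O : Subring B) (θ : B), Ord O θ →
    ¬ Summable ({p : ℕ | p.Prime ∧ Spl O p}.indicator fun p : ℕ => (1 : ℝ) / p)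

/-- Weyl's criterion for weighted families of points of the torus, unfolded -/
def WeylStmt : Prop := ∀ (T : Type u) (ι : Type) [Fintype ι] (l : Filter ℝ) (x : T → ι → ℝ)
  (w : ℝ → T → ℝ), (∀ᶠ s in l, (∀ t, 0 ≤ w s t) ∧ Summable (w s) ∧ 0 < ∑' t, w s t) →
    (∀ m : ι → ℤ, m ≠ 0 → Tendsto (fun s => (∑' t, (w s t : ℂ) *
      Complex.exp (2 * Real.pi * Complex.I * (∑ i, (m i : ℝ) * x t i : ℝ))) / (∑' t, w s t : ℝ)) l (𝓝 0)) →
    ∀ ψ : (ι → ℝ) → ℝ, Continuous ψ → HasCompactSupport ψ →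
      (∀ᶠ s in l, Summable fun q : T × (ι → ℤ) => w s q.1 * ψ (x q.1 + fun i => (q.2 i : ℝ))) ∧
      Tendsto (fun s => (∑' q : T × (ι → ℤ), w s q.1 * ψ (x q.1 + fun i => (q.2 i : ℝ))) / ∑' t, w s t)
        l (𝓝 (∫ y, ψ y))

/-- the output: convergence, blow-up and equidistribution -/
def HtStmt : Prop := ∀ (B : Type u) [Ring B] [Algebra ℚ B] [StarRing B] [FiniteDimensional ℚ B]
  [IsSimpleRing B] (O : Subring B) (θ : B), Ord O θ → ∃ M₀ : ℕ, M₀ ≠ 0 ∧ ∀ M : ℕ, M ≠ 0 → M₀ ∣ M →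
    (∀ s : ℝ, 1 < s → Summable (wt O M s) ∧ 1 ≤ Z O M s) ∧
    Tendsto (Z O M) (𝓝[>] 1) atTop ∧
    ∀ (ι : Type) [Fintype ι] (be : ι → B) (co : B →ₗ[ℚ] ι → ℚ), Co O be co →
      ∀ ψ : (ι → ℝ) → ℝ, Continuous ψ → HasCompactSupport ψ →
        (∀ s : ℝ, 1 < s →
          Summable fun a : Jn (Loc O M) => H O M (a : B) ^ (-s) * ψ fun i => (co a i : ℝ)) ∧
        Tendsto (fun s => (∑' a : Jn (Loc O M), H O M (a : B) ^ (-s) * ψ fun i => (co a i : ℝ)) / Z O M s)
          (𝓝[>] 1) (𝓝 (∫ y, ψ y))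

end Crest.Agent.T24.Hgt
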