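import Crest.Agent.T24.HgtDefB_88

/-!
# Row 24, heights: index and determinant (`IdxStmt`, helper84)
-/

set_option autoImplicit false

namespace Crest.Agent.T24.Hgt

open Module

universe u

namespace Idx84

section grp
variable {G : Type*} [AddCommGroup G]

theorem bez {H : AddSubgroup G} {a b : ℕ} (h : a.Coprime b) {x : G} (ha : a • x ∈ H) (hb : b • x ∈ H) :
    x ∈ H := by
  obtain ⟨u, v, e⟩ := Nat.isCoprime_iff_coprime.2 h
  have : x = u • a • x + v • b • x := by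
    rw [← natCast_zsmul, ← natCast_zsmul, smul_smul, smul_smul, ← add_smul, e, one_smul]
  rw [this]; exact H.add_mem (H.zsmul_mem ha u) (H.zsmul_mem hb v)

theorem cauchy {A C : AddSubgroup G} (h : A.relIndex C ≠ 0) {q : ℕ} (hq : q.Prime)
    (hd : q ∣ A.relIndex C) : ∃ x ∈ C, x ∉ A ∧ q • x ∈ A := by
  have := Fact.mk hq
  have : Finite (C ⧸ A.addSubgroupOf C) := Nat.finite_of_card_ne_zero h
  obtain ⟨y, hy⟩ := exists_prime_addOrderOf_dvd_card' (G := C ⧸ A.addSubgroupOf C) q hd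
  obtain ⟨x, rfl⟩ := QuotientAddGroup.mk_surjective y
  refine ⟨x, x.2, fun hx => hq.one_lt.ne' ?_, ?_⟩
  · rw [← hy, AddMonoid.addOrderOf_eq_one_iff, QuotientAddGroup.eq_zero_iff]; exact hx
  · have := addOrderOf_nsmul_eq_zero (x : C ⧸ A.addSubgroupOf C)
    rwa [hy, ← QuotientAddGroup.mk_nsmul, QuotientAddGroup.eq_zero_iff] at this

/-- the index after localisation is the `p`-part -/
theorem loc_idx {A Λ A' L : AddSubgroup G} {p : ℕ} (hp : p.Prime) (h0 : A.relIndex Λ ≠ 0) (h1 : A ≤ Λ)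
    (h2 : A ≤ A') (h3 : A' ≤ L) (h4 : Λ ≤ L) (hA : ∀ x ∈ A', ∃ m : ℕ, m.Coprime p ∧ m • x ∈ A)
    (hL : ∀ x ∈ L, ∃ m : ℕ, m.Coprime p ∧ m • x ∈ Λ)
    (hd : ∀ m : ℕ, m.Coprime p → ∀ x, m • x ∈ A' → x ∈ A') :
    ∃ j d : ℕ, A'.relIndex L = p ^ j ∧ ¬ p ∣ d ∧ A.relIndex Λ = d * p ^ j := by
  have e := AddSubgroup.relIndex_mul_relIndex A (Λ ⊓ A') Λ (le_inf h1 h2) inf_le_left
  rw [← e, mul_ne_zero_iff] at h0
  have e2 := Nat.eq_prime_pow_of_unique_prime_dvd h0.2 (p := p) fun {q} hq hd' => by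
    by_contra hne
    obtain ⟨x, hx, hx1, hx2⟩ := cauchy h0.2 hq hd'
    exact hx1 ⟨hx, hd q ((Nat.coprime_primes hq hp).2 hne) x hx2.2⟩
  refine ⟨_, _, ?_, fun h => ?_, by rw [← e, ← e2]⟩
  · rw [← e2, AddSubgroup.inf_relIndex_left, ← AddSubgroup.relIndex_sup_right Λ A']
    congr 1
    refine le_antisymm (fun x hx => ?_) (sup_le h4 h3)
    obtain ⟨m, hm, hx'⟩ := hL x hx
    have := ((Λ ⊓ A').nsmul_relIndex_mem hx').2
    rw [e2, smul_comm] at this
    exact bez (hm.pow_right _) (AddSubgroup.mem_sup_left hx') (AddSubgroup.mem_sup_right (hd m hm _ this))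
  · obtain ⟨x, hx, hx1, hx2⟩ := cauchy h0.1 hp h
    obtain ⟨m, hm, hx'⟩ := hA x hx.2
    exact hx1 (bez hm hx' hx2)

theorem exists_basis [Module ℚ G] {Λ : AddSubgroup G} (hfg : Λ.FG)
    (hfull : ∀ x, ∃ m : ℕ, m ≠ 0 ∧ m • x ∈ Λ) :
    ∃ (n : ℕ) (b : Basis (Fin n) ℚ G), Λ = AddSubgroup.closure (Set.range b) := by
  have : Module.Finite ℤ Λ := Module.Finite.iff_addGroup_fg.2 ((AddGroup.fg_iff_addSubgroup_fg Λ).2 hfg)
  have : IsAddTorsionFree G := .of_module_rat G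
  let c := Module.finBasis ℤ Λ
  have li : LinearIndependent ℚ fun i => (c i : G) := (LinearIndependent.iff_fractionRing ℤ ℚ).1
    (c.linearIndependent.map' Λ.subtype.toIntLinearMap
      (LinearMap.ker_eq_bot.2 Subtype.val_injective))
  have cl : Λ = AddSubgroup.closure (Set.range fun i => (c i : G)) := by
    refine le_antisymm (fun x hx => ?_) ((AddSubgroup.closure_le _).2 (by rintro _ ⟨i, rfl⟩; exact (c i).2))
    have := congrArg (fun y : Λ => (y : G)) (c.sum_repr ⟨x, hx⟩)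
    simp only [AddSubgroup.val_finsetSum, AddSubgroupClass.coe_zsmul] at this
    rw [← this]
    exact sum_mem fun i _ => AddSubgroup.zsmul_mem _ (AddSubgroup.subset_closure (Set.mem_range_self i)) _
  refine ⟨_, Basis.mk li fun x _ => ?_, by rw [Basis.coe_mk]; exact cl⟩
  obtain ⟨m, hm, hx⟩ := hfull x
  have h1 : m • x ∈ Submodule.span ℚ (Set.range fun i => (c i : G)) :=
    (AddSubgroup.closure_le (Submodule.span ℚ (Set.range fun i => (c i : G))).toAddSubgroup).2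
      Submodule.subset_span (cl ▸ hx)
  rwa [← Nat.cast_smul_eq_nsmul ℚ, Submodule.smul_mem_iff _ (Nat.cast_ne_zero.2 hm)] at h1

end grp

variable {B : Type*} [Ring B] {O : Subring B} {p : ℕ}

theorem mem_loc {x : B} : x ∈ Loc O p ↔ ∃ m : ℕ, m.Coprime p ∧ m ≠ 0 ∧ m • x ∈ O := by
  simp only [nsmul_eq_mul]; rfl

theorem le_loc {x : B} (h : x ∈ O) : x ∈ Loc O p := mem_loc.2 ⟨1, by simp, one_ne_zero, by simpa⟩

theorem loc_div {m : ℕ} (hm : m.Coprime p) (h0 : m ≠ 0) {x : B} (h : m • x ∈ Loc O p) : x ∈ Loc O p := by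
  obtain ⟨k, hk, k0, hx⟩ := mem_loc.1 h
  exact mem_loc.2 ⟨k * m, hk.mul_left hm, mul_ne_zero k0 h0, by rwa [mul_smul]⟩

variable [Algebra ℚ B]

theorem loc_inv {m : ℕ} (hm : m.Coprime p) (h0 : m ≠ 0) {x : B} (h : x ∈ Loc O p) :
    (m : ℚ)⁻¹ • x ∈ Loc O p := loc_div hm h0 (by
  rwa [← Nat.cast_smul_eq_nsmul ℚ, smul_inv_smul₀ (Nat.cast_ne_zero.2 h0)])

theorem part1 (hfg : O.toAddSubgroup.FG) (hfull : ∀ x : B, ∃ m : ℕ, m ≠ 0 ∧ (m : B) * x ∈ O)
    (hp : p.Prime) (T : B →ₗ[ℚ] B) (hT : ∀ x ∈ Loc O p, T x ∈ Loc O p) (hd : LinearMap.det T ≠ 0) :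
    (((Loc O p).toAddSubgroup.map T.toAddMonoidHom).relIndex (Loc O p).toAddSubgroup : ℚ) *
      padicNorm p (LinearMap.det T) = 1 := by
  have := Fact.mk hp
  have ne : ∀ {m : ℕ}, m.Coprime p → m ≠ 0 := fun h e => hp.one_lt.ne' (by simpa [e] using h)
  obtain ⟨n, b, hb⟩ := exists_basis hfg (by simp only [nsmul_eq_mul]; exact hfull)
  have := Module.Finite.of_basis b
  have bO : ∀ i, b i ∈ O := fun i =>
    (hb ▸ AddSubgroup.subset_closure ⟨i, rfl⟩ : b i ∈ O.toAddSubgroup)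
  choose k k1 _ k2 using fun i => mem_loc.1 (hT _ (le_loc (bO i)))
  set m := ∏ i, k i
  have hm : m.Coprime p := Nat.Coprime.prod_left fun i _ => k1 i
  have m0 : (m : ℚ) ≠ 0 := Nat.cast_ne_zero.2 (ne hm)
  set S : B →ₗ[ℚ] B := (m : ℚ) • T with hS
  have Sx : ∀ x, S x = m • T x := fun x => Nat.cast_smul_eq_nsmul ℚ _ _
  have dS : LinearMap.det S = (m : ℚ) ^ finrank ℚ B * LinearMap.det T := LinearMap.det_smul _ _
  have dS0 : LinearMap.det S ≠ 0 := dS ▸ mul_ne_zero (pow_ne_zero _ m0) hd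
  have hA : O.toAddSubgroup.map S.toAddMonoidHom =
      AddSubgroup.closure (Set.range (b.map (S.equivOfDetNeZero dS0))) := by
    rw [hb, AddMonoidHom.map_closure, ← Set.range_comp]; rfl
  have h1 : O.toAddSubgroup.map S.toAddMonoidHom ≤ O.toAddSubgroup := by
    rw [hA, AddSubgroup.closure_le]
    rintro _ ⟨i, rfl⟩
    obtain ⟨c, hc⟩ := Finset.dvd_prod_of_mem k (Finset.mem_univ i)
    change S (b i) ∈ O
    rw [Sx, show m = c * k i by rw [mul_comm]; exact hc, mul_smul]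
    exact nsmul_mem (k2 i) c
  have e := AddSubgroup.relIndex_eq_abs_det _ _ h1 _ b hA hb
  rw [show ⇑(b.map (S.equivOfDetNeZero dS0)) = S ∘ b from rfl, Basis.det_comp, Basis.det_self, mul_one] at e
  obtain ⟨j, d, e1, e2, e3⟩ := loc_idx (A' := (Loc O p).toAddSubgroup.map T.toAddMonoidHom)
    (L := (Loc O p).toAddSubgroup) hp (fun h => dS0 (by simpa [h] using e.symm)) h1
    (by rintro _ ⟨x, hx, rfl⟩; exact ⟨m • x, nsmul_mem (le_loc hx) m, (map_nsmul T m x).trans (Sx x).symm⟩)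
    (by rintro _ ⟨x, hx, rfl⟩; exact hT x hx) (fun x => le_loc)
    (by
      rintro _ ⟨x, hx, rfl⟩
      obtain ⟨c, c1, -, c2⟩ := mem_loc.1 hx
      exact ⟨m * c, hm.mul_left c1, c • x, c2, (Sx _).trans (by rw [map_nsmul, mul_smul]; rfl)⟩)
    (fun x hx => let ⟨c, c1, _, c2⟩ := mem_loc.1 hx; ⟨c, c1, c2⟩)
    (by
      rintro c hc x ⟨y, hy, h⟩
      refine ⟨(c : ℚ)⁻¹ • y, loc_inv hc (ne hc) hy, ?_⟩
      change T y = _ at h
      change T _ = _
      rw [map_smul, h, ← Nat.cast_smul_eq_nsmul ℚ, inv_smul_smul₀ (Nat.cast_ne_zero.2 (ne hc))])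
  have n1 : padicNorm p (LinearMap.det S) = padicNorm p (LinearMap.det T) := by
    rw [dS, padicNorm.mul, IsAbsoluteValue.abv_pow (padicNorm p), (padicNorm.nat_eq_one_iff m).2
      (hp.coprime_iff_not_dvd.1 hm.symm), one_pow, one_mul]
  have n2 : padicNorm p |LinearMap.det S| = padicNorm p (LinearMap.det S) := by
    rcases abs_choice (LinearMap.det S) with h | h <;> rw [h]; exact padicNorm.neg _
  rw [← n1, ← n2, ← e, e1, e3, Nat.cast_mul, padicNorm.mul, (padicNorm.nat_eq_one_iff d).2 e2, Nat.cast_pow,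
    IsAbsoluteValue.abv_pow (padicNorm p), padicNorm.padicNorm_p_of_prime, one_mul, ← mul_pow,
    mul_inv_cancel₀ (Nat.cast_ne_zero.2 hp.ne_zero), one_pow]

variable [StarRing B] {θ : B}

theorem part2 [FiniteDimensional ℚ B] (hO : Ord O θ) (hG : Gp O θ p) (T : B →ₗ[ℚ] B)
    (h1 : ∀ x, T (star x) = star (T x)) (h2 : ∀ x, T (θ * x) = θ * T x) :
    ((Loc O p).toAddSubgroup.map T.toAddMonoidHom).relIndex (Loc O p).toAddSubgroup =
      ((Jn (Loc O p)).map T.toAddMonoidHom).relIndex (Jn (Loc O p)) ^ 2 := by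
  obtain ⟨t, tL, ht⟩ := hG.th
  have ht' : θ * t = 1 := (hO.th_comm t).trans ht
  have st : ∀ x ∈ Loc O p, star x ∈ Loc O p := fun x hx =>
    let ⟨c, c1, c0, c2⟩ := mem_loc.1 hx
    mem_loc.2 ⟨c, c1, c0, star_nsmul c x ▸ hO.star_mem _ c2⟩
  have hf : ∀ x ∈ Loc O p, (2 : ℚ)⁻¹ • x ∈ Loc O p := fun x hx => by
    rcases Nat.eq_zero_or_pos (finrank ℚ B) with h | h
    · have := Module.finrank_zero_iff.1 h
      rwa [Subsingleton.elim ((2 : ℚ)⁻¹ • x) x]
    · exact loc_inv (m := 2) ((Nat.coprime_primes Nat.prime_two hG.prime).2 (by have := hG.big; omega))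
        two_ne_zero hx
  have sθ : ∀ {b : B}, star b = b → star (θ * b) = -(θ * b) := fun h => by
    rw [star_mul, h, hO.th_star, mul_neg, hO.th_comm]
  have uniq : ∀ {a b a' b' : B}, star a = a → star b = b → star a' = a' → star b' = b' →
      a + θ * b = a' + θ * b' → a = a' ∧ b = b' := fun {a b a' b'} s1 s2 s3 s4 h => by
    have h' := congrArg star h
    rw [star_add, star_add, s1, s3, sθ s2, sθ s4] at h'
    have e : a = a' := smul_right_injective B (two_ne_zero : (2 : ℚ) ≠ 0) (by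
      simp only [two_smul]
      calc a + a = (a + θ * b) + (a + -(θ * b)) := by abel
        _ = _ := by rw [h, h']; abel)
    refine ⟨e, ?_⟩
    rw [e, add_right_inj] at h
    rw [← one_mul b, ← one_mul b', ← ht, mul_assoc, mul_assoc, h]
  have dec : ∀ w ∈ Loc O p, ∃ a ∈ Jn (Loc O p), ∃ b ∈ Jn (Loc O p), a + θ * b = w := fun w hw => by
    refine ⟨(2 : ℚ)⁻¹ • (w + star w), ⟨?_, hf _ (add_mem hw (st w hw))⟩,
      t * (2 : ℚ)⁻¹ • (w - star w), ⟨?_, (Loc O p).mul_mem tL (hf _ (sub_mem hw (st w hw)))⟩, ?_⟩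
    · change star _ = _
      rw [star_rat_smul, star_add, star_star, add_comm]
    · change star _ = _
      set y := t * (2 : ℚ)⁻¹ • (w - star w)
      have e1 : θ * y = (2 : ℚ)⁻¹ • (w - star w) := by rw [← mul_assoc, ht', one_mul]
      have e2 : θ * star y = θ * y := by
        rw [hO.th_comm, ← neg_inj, ← mul_neg, ← hO.th_star, ← star_mul, e1, star_rat_smul, star_sub,
          star_star, ← smul_neg, neg_sub]
      rw [← one_mul (star y), ← ht, mul_assoc, e2, ← mul_assoc, ht, one_mul]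
    · rw [← mul_assoc, ht', one_mul, ← smul_add, add_add_sub_cancel, ← two_smul ℚ, inv_smul_smul₀ two_ne_zero]
  let f : Jn (Loc O p) × Jn (Loc O p) →+ (Loc O p).toAddSubgroup := AddMonoidHom.mk'
    (fun x => ⟨x.1 + θ * x.2, add_mem x.1.2.2 ((Loc O p).mul_mem (le_loc hO.th_mem) x.2.2.2)⟩)
    fun x y => Subtype.ext (by simp [mul_add]; abel)
  have hs : Function.Surjective f := fun w =>
    let ⟨a, ha, b, hb, e⟩ := dec w w.2; ⟨(⟨a, ha⟩, ⟨b, hb⟩), Subtype.ext e⟩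
  rw [AddSubgroup.relIndex, ← AddSubgroup.index_comap_of_surjective _ hs, pow_two, AddSubgroup.relIndex,
    ← AddSubgroup.index_prod]
  congr 1
  ext ⟨a, b⟩
  refine ⟨?_, ?_⟩
  · rintro ⟨w, hw, e⟩
    obtain ⟨a', ha, b', hb, rfl⟩ := dec w hw
    change T _ = a + θ * b at e
    rw [map_add, h2] at e
    have := uniq ((h1 a').symm.trans (congrArg T ha.1)) ((h1 b').symm.trans (congrArg T hb.1)) a.2.1 b.2.1 e
    exact ⟨⟨a', ha, this.1⟩, ⟨b', hb, this.2⟩⟩
  · rintro ⟨⟨a', ha, e1⟩, ⟨b', hb, e2⟩⟩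
    refine ⟨a' + θ * b', add_mem ha.2 ((Loc O p).mul_mem (le_loc hO.th_mem) hb.2), ?_⟩
    change T a' = a at e1
    change T b' = b at e2
    change T _ = a + θ * b
    rw [map_add, h2, e1, e2]

end Idx84

theorem idxStmt : IdxStmt.{u} := fun _ _ _ _ _ _ _ hO _ hp T hT hd =>
  ⟨Idx84.part1 hO.fg hO.full hp T hT hd, fun hG h1 h2 => by
    rw [← Nat.cast_pow, ← Idx84.part2 hO hG T h1 h2]; exact Idx84.part1 hO.fg hO.full hp T hT hd⟩

end Crest.Agent.T24.Hgt
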