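import Crest.Agent.T24.HgtDefB_88

/-!
# Row 24, heights: the lower bound at a prime with a degree one idempotent (`LowStmt`) (helper41)
-/

set_option autoImplicit false
set_option linter.unusedSectionVars false

noncomputable section

namespace Crest.Agent.T24.Hgt

open Filter Topology Module Finset

universe u

namespace L41

/-! ## a finite ring with an idempotent of degree one -/

section abs

variable {R : Type*} [Ring R] {p : ℕ} {e θ : R} {σ : R →+ R}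

/-- the data modulo `p` -/
structure Dt (p : ℕ) (e θ : R) (σ : R →+ R) : Prop where
  prime : p.Prime
  ne2 : p ≠ 2
  ch : (p : R) = 0
  idem : e * e = e
  one : ∀ x, ∃ c : ℤ, e * x * e = c * e
  nd : ∀ x : R, (∀ w, ∃ a b, w * x = a * b ∧ b * a = 0) → x = 0
  cen : ∀ x, θ * x = x * θ
  unit : ∃ t, t * θ = 1
  mul : ∀ x y, σ (x * y) = σ y * σ x
  sur : Function.Surjective σ
  th : σ θ = -θ

theorem Dt.inv' (h : Dt p e θ σ) {c : ℤ} (hc : ¬ (p : ℤ) ∣ c) : ∃ k : ℤ, (k : R) * c = 1 := by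
  obtain ⟨a, b, hab⟩ := ((Nat.prime_iff_prime_int.1 h.prime).coprime_iff_not_dvd).2 hc
  refine ⟨b, ?_⟩
  have := congrArg (Int.cast : ℤ → R) hab
  push_cast at this
  rwa [h.ch, mul_zero, zero_add] at this

theorem Dt.inv (h : Dt p e θ σ) {c : ℤ} {x : R} (hc : (c : R) * x ≠ 0) : ∃ k : ℤ, (k : R) * c = 1 := by
  refine h.inv' fun ⟨d, hd⟩ => hc ?_
  rw [hd]; push_cast; rw [h.ch, zero_mul, zero_mul]

theorem Dt.small (h : Dt p e θ σ) (c : ℤ) : ∃ k ∈ range p, (c : R) = (k : ℕ) := by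
  have hp : (0 : ℤ) < p := by exact_mod_cast h.prime.pos
  have h1 := Int.emod_nonneg c hp.ne'
  have h2 := Int.emod_lt_of_pos c hp
  refine ⟨(c % p).toNat, mem_range.2 (by omega), ?_⟩
  have h3 := congrArg (Int.cast : ℤ → R) (Int.emod_add_mul_ediv c p)
  push_cast at h3
  rw [h.ch, zero_mul, add_zero] at h3
  rw [← h3, ← Int.cast_natCast (c % p).toNat, Int.toNat_of_nonneg h1]

theorem Dt.fib1 (h : Dt p e θ σ) {y z y' z' : R} (hy : y * e = y) (hz : e * z = z) (hy' : y' * e = y')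
    (h0 : y * z = y' * z') (h1 : z ≠ 0) : ∃ k ∈ range p, y = (k : ℕ) * y' := by
  obtain ⟨w, hw⟩ : ∃ w, z * (w * e) ≠ 0 := by
    by_contra h2
    push Not at h2
    exact h1 (h.nd z fun w => ⟨w * e, z, by rw [mul_assoc, hz], h2 w⟩)
  obtain ⟨c, hc⟩ := h.one (z * w)
  obtain ⟨c', hc'⟩ := h.one (z' * w)
  rw [← mul_assoc, hz, mul_assoc] at hc
  obtain ⟨k, hk⟩ := h.inv (hc ▸ hw)
  obtain ⟨j, hj, hj'⟩ := h.small (k * c')
  refine ⟨j, hj, ?_⟩
  have e1 : (c : R) * y = c' * y' := by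
    calc (c : R) * y = y * (c * e) := by rw [← mul_assoc, ← (Int.cast_commute c y).eq, mul_assoc, hy]
      _ = y' * e * z' * (w * e) := by rw [← hc, ← mul_assoc, h0, hy']
      _ = y' * (c' * e) := by rw [← hc']; simp only [mul_assoc]
      _ = _ := by rw [← mul_assoc, ← (Int.cast_commute c' y').eq, mul_assoc, hy']
  rw [← hj', Int.cast_mul, mul_assoc, ← e1, ← mul_assoc, hk, one_mul]

theorem Dt.fib2 (h : Dt p e θ σ) {y z : R} (hy : y * e = y) (hz : e * z = z) (h0 : y * z = 0)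
    (h1 : y ≠ 0) : z = 0 := by
  obtain ⟨w, hw⟩ : ∃ w, e * (w * y) ≠ 0 := by
    by_contra h2
    push Not at h2
    exact h1 (h.nd y fun w => ⟨w * y, e, by rw [mul_assoc, hy], h2 w⟩)
  obtain ⟨c, hc⟩ := h.one (w * y)
  rw [mul_assoc, mul_assoc, hy] at hc
  obtain ⟨k, hk⟩ := h.inv (hc ▸ hw)
  have : (c : R) * z = 0 := by
    rw [← hz, ← mul_assoc, ← hc, mul_assoc, mul_assoc, h0, mul_zero, mul_zero]
  rw [← one_mul z, ← hk, mul_assoc, this, mul_zero]

theorem Dt.inj (h : Dt p e θ σ) {y z y' z' : R} (hz : e * z = z) (hz' : e * z' = z')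
    (h0 : y * z - y' * z' + σ (y * z - y' * z') = 0) : y * z = y' * z' := by
  obtain ⟨l, hl⟩ := h.one θ
  rw [← h.cen, mul_assoc, h.idem] at hl
  have k : ∀ y z : R, e * z = z → θ * (y * z) = l * (y * z) := fun y z hz => by
    rw [← hz, ← mul_assoc, h.cen, mul_assoc, ← mul_assoc θ, hl, ← mul_assoc, ← mul_assoc,
      ← (Int.cast_commute l y).eq]
    simp only [mul_assoc]
  obtain ⟨x, hx⟩ : ∃ x, x = y * z - y' * z' := ⟨_, rfl⟩
  have k1 : θ * x = l * x := by rw [hx, mul_sub, mul_sub, k y z hz, k y' z' hz']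
  rw [← hx] at h0
  have k2 : θ * σ x = -(l * σ x) := by
    have := congrArg σ k1
    rw [h.mul, h.th, ← zsmul_eq_mul, map_zsmul, zsmul_eq_mul, mul_neg, ← h.cen] at this
    rw [← this, neg_neg]
  have k3 : ((2 : ℤ) : R) * (θ * x) = 0 := by
    have : (θ + l) * (x + σ x) = 0 := by rw [h0, mul_zero]
    rw [add_mul, mul_add, mul_add, k2, ← k1] at this
    rw [← this]; push_cast; noncomm_ring
  obtain ⟨j, hj⟩ := h.inv' (c := 2) fun h2 =>
    h.ne2 ((Nat.prime_dvd_prime_iff_eq h.prime Nat.prime_two).1 (by exact_mod_cast h2))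
  obtain ⟨t, ht⟩ := h.unit
  have k4 : θ * x = 0 := by rw [← one_mul (θ * x), ← hj, mul_assoc, k3, mul_zero]
  rw [← sub_eq_zero, ← hx, ← one_mul x, ← ht, mul_assoc, k4, mul_zero]

/-- `R e` -/
def Yg (e : R) : AddSubgroup R := (AddMonoidHom.mulRight e).eqLocus (AddMonoidHom.id R)
/-- `e R` -/
def Zg (e : R) : AddSubgroup R := (AddMonoidHom.mulLeft e).eqLocus (AddMonoidHom.id R)

theorem mem_Y {y : R} : y ∈ Yg e ↔ y * e = y := Iff.rfl
theorem mem_Z {z : R} : z ∈ Zg e ↔ e * z = z := Iff.rfl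

/-- the right ideal generated by `c (y z + (y z)*)` is small -/
theorem Dt.size [Finite R] (h : Dt p e θ σ) (y : Yg e) (z : Zg e) (c : R) (A : AddSubgroup R)
    (hA : ∀ a ∈ A, ∃ r, a = c * (y * z + σ (y * z)) * r) :
    Nat.card A ≤ Nat.card (Yg e) * Nat.card (Zg e) := by
  rw [← Nat.card_prod]
  have h1 : (A : Set R) ⊆ Set.range fun q : Yg e × Zg e => c * (y * q.2 + σ (q.1 * z)) := by
    intro a ha
    obtain ⟨r, rfl⟩ := hA a ha
    obtain ⟨r', rfl⟩ := h.sur r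
    refine ⟨(⟨r' * y, mem_Y.2 (by rw [mul_assoc, mem_Y.1 y.2])⟩,
      ⟨z * σ r', mem_Z.2 (by rw [← mul_assoc, mem_Z.1 z.2])⟩), ?_⟩
    simp only [mul_assoc, h.mul, add_mul]
  exact (Nat.card_mono (Set.toFinite _) h1).trans (Finite.card_range_le _)

theorem half {Y Z : Type*} [AddCommGroup Y] [AddCommGroup Z] [Fintype Y] [Fintype Z]
    (β : Y → AddChar Z ℂ) (hβ : ∀ y y', β (y + y') = β y + β y') (h : ∃ y, β y ≠ 0) :
    (Fintype.card Y * Fintype.card Z : ℝ) / 2 ≤ ∑ y, ∑ z, (1 - (β y z).re) := by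
  classical
  obtain ⟨y₀, h₀⟩ := h
  have k : ∀ y, ∑ z, (1 - (β y z).re) = if β y = 0 then 0 else (Fintype.card Z : ℝ) := fun y => by
    rw [sum_sub_distrib, ← Complex.re_sum, AddChar.sum_eq_ite]
    split_ifs <;> simp
  have k2 : ∑ y, ∑ z, (1 - (β (y + y₀) z).re) = ∑ y, ∑ z, (1 - (β y z).re) :=
    Equiv.sum_comp (Equiv.addRight y₀) fun y => ∑ z, (1 - (β y z).re)
  have k3 : ∑ _y : Y, (Fintype.card Z : ℝ) ≤
      ∑ y, (∑ z, (1 - (β (y + y₀) z).re) + ∑ z, (1 - (β y z).re)) := sum_le_sum fun y _ => by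
    rw [k, k, hβ]
    by_cases h1 : β y = 0
    · simp [h1, h₀]
    · rw [if_neg h1]; split_ifs <;> simp
  rw [sum_add_distrib, k2, sum_const, card_univ, nsmul_eq_mul] at k3
  linarith

theorem Dt.sum [Finite R] (h : Dt p e θ σ) {C : Type*} [AddCommGroup C] (τ : R →+ C) (χ : AddChar C ℂ)
    (h1 : ∀ t, (χ t).re ≤ 1) (hτ : ∀ x, τ x = 0 → x + σ x = 0)
    (hn : ∃ a b, χ (τ (a * e * (e * b))) ≠ 1) :
    ∃ F : Finset C, (∀ t ∈ F, ∃ (y : Yg e) (z : Zg e), τ (y * z) = t) ∧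
      (Nat.card (Yg e) * Nat.card (Zg e) : ℝ) / (2 * p) ≤ ∑ t ∈ F, (1 - (χ t).re) := by
  classical
  have := Fintype.ofFinite (Yg e)
  have := Fintype.ofFinite (Zg e)
  obtain ⟨g, hg⟩ : ∃ g : Yg e × Zg e → C, g = fun q => τ (q.1 * q.2) := ⟨_, rfl⟩
  refine ⟨univ.image g, fun t ht => ?_, ?_⟩
  · obtain ⟨q, -, rfl⟩ := mem_image.1 ht
    exact ⟨q.1, q.2, by rw [hg]⟩
  have k := half (Y := Yg e) (Z := Zg e)
    (fun y => χ.compAddMonoidHom (τ.comp ((AddMonoidHom.mulLeft (y : R)).comp (Zg e).subtype)))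
    (fun y y' => by ext z; simp [add_mul, AddChar.map_add_eq_mul]) (by
      obtain ⟨a, b, hab⟩ := hn
      refine ⟨⟨a * e, mem_Y.2 (by rw [mul_assoc, h.idem])⟩, fun h2 => hab ?_⟩
      simpa using DFunLike.congr_fun h2 ⟨e * b, mem_Z.2 (by rw [← mul_assoc, h.idem])⟩)
  have k2 : ∑ q : Yg e × Zg e, (1 - (χ (g q)).re) ≤ ∑ t ∈ univ.image g, p * (1 - (χ t).re) := by
    rw [sum_comp (fun t => 1 - (χ t).re) g]
    refine sum_le_sum fun t ht => ?_
    by_cases h0 : t = 0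
    · simp [h0]
    obtain ⟨q₀, -, rfl⟩ := mem_image.1 ht
    rw [nsmul_eq_mul]
    refine mul_le_mul_of_nonneg_right ?_ (by linarith [h1 (g q₀)])
    have e1 : ∀ q ∈ univ.filter fun q => g q = g q₀, (q.1 : R) * q.2 = q₀.1 * q₀.2 ∧ (q.1 : R) * q.2 ≠ 0 := by
      intro q hq
      have h2 := (mem_filter.1 hq).2
      refine ⟨h.inj q.2.2 q₀.2.2 (hτ _ ?_), fun h3 => h0 ?_⟩
      · rw [map_sub, sub_eq_zero]; simpa only [hg] using h2
      · rw [← h2, hg]; simp [h3]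
    have e2 := card_le_card_of_injOn (s := univ.filter fun q => g q = g q₀)
      (t := (range p).image fun k : ℕ => (k : R) * q₀.1) (fun q => (q.1 : R)) (fun q hq => by
        obtain ⟨k, hk, hk'⟩ := h.fib1 q.1.2 q.2.2 q₀.1.2 (e1 q hq).1 (right_ne_zero_of_mul (e1 q hq).2)
        exact mem_coe.2 (mem_image.2 ⟨k, hk, hk'.symm⟩)) fun q hq q' hq' h3 => by
        have h4 : (q.1 : R) = q'.1 := h3
        refine Prod.ext (Subtype.ext h4) (sub_eq_zero.1 (Subtype.ext ?_))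
        refine h.fib2 q.1.2 (q.2 - q'.2).2 ?_ (left_ne_zero_of_mul (e1 q hq).2)
        rw [AddSubgroupClass.coe_sub, mul_sub, (e1 q hq).1, h4, (e1 q' hq').1, sub_self]
    exact_mod_cast e2.trans (card_image_le.trans_eq (card_range p))
  have hp : (0 : ℝ) < p := by exact_mod_cast h.prime.pos
  rw [← mul_sum, Fintype.sum_prod_type] at k2
  rw [Nat.card_eq_fintype_card, Nat.card_eq_fintype_card, ← div_div, div_le_iff₀' hp]
  refine k.trans (le_trans (le_of_eq ?_) k2)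
  simp [hg]

end abs

/-! ## the order modulo `p` -/

variable {B : Type u} [Ring B] [Algebra ℚ B] [StarRing B] [FiniteDimensional ℚ B] {O : Subring B} {θ : B}
  {p : ℕ}

theorem le_Loc (O : Subring B) (p : ℕ) : O ≤ Loc O p := fun x hx => ⟨1, by simp, one_ne_zero, by simpa⟩

theorem bez {m p : ℕ} (h : m.Coprime p) : ∃ a b : ℤ, ∀ x : B, x = a * (m * x) + p * (b * x) := by
  obtain ⟨a, b, hab⟩ := Nat.isCoprime_iff_coprime.2 h
  refine ⟨a, b, fun x => ?_⟩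
  have := congrArg (Int.cast : ℤ → B) hab
  push_cast at this
  rw [← mul_assoc, ← mul_assoc, ← add_mul, (Nat.cast_commute p (b : B)).eq, this, one_mul]

theorem mem_O {x y : B} (hx : x ∈ O) (hy : y ∈ Loc O p) (h : x = p * y) : y ∈ O := by
  obtain ⟨m, hm, -, hy⟩ := hy
  obtain ⟨a, b, hab⟩ := bez (B := B) hm
  rw [hab y, ← mul_assoc (p : B), (Nat.cast_commute p (b : B)).eq, mul_assoc (b : B), ← h]
  exact add_mem (mul_mem (intCast_mem O a) hy) (mul_mem (intCast_mem O b) hx)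

theorem exists_quot (O : Subring B) (p : ℕ) : ∃ (R : Type u) (_ : Ring R) (π : Loc O p →+* R),
    Function.Surjective (π.comp (Subring.inclusion (le_Loc O p))) ∧
      ∀ x, π x = 0 ↔ ∃ y ∈ Loc O p, (x : B) = p * y := by
  have : (Ideal.span {(p : Loc O p)}).IsTwoSided := ⟨fun {a} b ha => by
    obtain ⟨c, rfl⟩ := Ideal.mem_span_singleton'.1 ha
    exact Ideal.mem_span_singleton'.2 ⟨c * b, by rw [mul_assoc, mul_assoc, (Nat.cast_commute p b).eq]⟩⟩
  have k : ∀ x : Loc O p, Ideal.Quotient.mk (Ideal.span {(p : Loc O p)}) x = 0 ↔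
      ∃ y ∈ Loc O p, (x : B) = p * y := fun x => by
    rw [Ideal.Quotient.eq_zero_iff_mem, Ideal.mem_span_singleton']
    refine ⟨fun ⟨a, ha⟩ => ⟨a, a.2, ?_⟩, fun ⟨y, hy, h⟩ => ⟨⟨y, hy⟩, Subtype.ext ?_⟩⟩
    · rw [← ha]; push_cast; exact (Nat.cast_commute p _).eq.symm
    · rw [h]; push_cast; exact (Nat.cast_commute p _).eq.symm
  refine ⟨_, inferInstance, Ideal.Quotient.mk (Ideal.span {(p : Loc O p)}), fun r => ?_, k⟩
  obtain ⟨x, rfl⟩ := Ideal.Quotient.mk_surjective r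
  obtain ⟨m, hm, -, hx⟩ := x.2
  obtain ⟨a, b, hab⟩ := bez (B := B) hm
  refine ⟨⟨a * (m * x), mul_mem (intCast_mem O a) hx⟩, ?_⟩
  rw [RingHom.comp_apply, eq_comm, ← sub_eq_zero, ← map_sub, k]
  exact ⟨b * x, mul_mem (intCast_mem _ b) x.2, sub_eq_of_eq_add' (hab x)⟩

theorem lift {G H K : Type*} [AddGroup G] [AddGroup H] [AddGroup K] (f : G →+ H)
    (hf : Function.Surjective f) (g : G →+ K) (h : ∀ x, f x = 0 → g x = 0) :
    ∃ k : H →+ K, ∀ x, k (f x) = g x :=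
  ⟨f.liftOfSurjective hf ⟨g, h⟩, fun x => f.liftOfRightInverse_comp_apply _ _ _ x⟩

theorem cast_mul (m : ℕ) (x : B) : (m : B) * x = (m : ℚ) • x := by
  rw [Nat.cast_smul_eq_nsmul, nsmul_eq_mul]

theorem mul_dv (hp : p ≠ 0) (x : B) : (p : B) * ((p : ℚ)⁻¹ • x) = x := by
  rw [cast_mul, smul_smul, mul_inv_cancel₀ (by exact_mod_cast hp), one_smul]

theorem dv_mul (hp : p ≠ 0) (x : B) : (p : ℚ)⁻¹ • ((p : B) * x) = x := by
  rw [cast_mul, smul_smul, inv_mul_cancel₀ (by exact_mod_cast hp), one_smul]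

theorem tr_comm (x y : B) : tr B (x * y) = tr B (y * x) := by
  simp only [tr, LinearMap.comp_apply, AlgHom.toLinearMap_apply, map_mul]
  exact LinearMap.trace_mul_comm _ _ _

theorem nr_p (hp : p.Prime) : nr p (p : B) = ((p : ℝ) ^ finrank ℚ B)⁻¹ := by
  have := Fact.mk hp
  rw [nr, ← map_natCast (algebraMap ℚ B), Algebra.norm_algebraMap, IsAbsoluteValue.abv_pow (padicNorm p),
    padicNorm.padicNorm_p hp.one_lt]
  simp

theorem idx (hI : IdxStmt.{u}) (hO : Ord O θ) (hp : p.Prime) (u : Loc O p) (hu : nr p (u : B) ≠ 0) :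
    ((AddMonoidHom.mulLeft u).range.index : ℝ) * nr p (u : B) = 1 := by
  have h := (hI B O θ hO p hp (Algebra.lmul ℚ B u) (fun x hx => mul_mem u.2 hx) fun h => hu (by
    rw [nr, Algebra.norm_apply, h]; simp)).1
  have e : ((Loc O p).toAddSubgroup.map (Algebra.lmul ℚ B u).toAddMonoidHom).relIndex
      (Loc O p).toAddSubgroup = (AddMonoidHom.mulLeft u).range.index := by
    refine congrArg AddSubgroup.index (AddSubgroup.ext fun x => ?_)
    exact ⟨fun ⟨y, hy, h⟩ => ⟨⟨y, hy⟩, Subtype.ext h⟩, fun ⟨y, h⟩ => ⟨y, y.2, congrArg Subtype.val h⟩⟩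
  rw [e] at h
  rw [nr, Algebra.norm_apply]
  exact_mod_cast h

theorem card_R (hI : IdxStmt.{u}) (hO : Ord O θ) (hp : p.Prime) {R : Type*} [Ring R] (π : Loc O p →+* R)
    (h1 : Function.Surjective π) (h2 : ∀ x, π x = 0 ↔ ∃ y ∈ Loc O p, (x : B) = p * y) :
    Nat.card R = p ^ finrank ℚ B := by
  have hp0 : (0 : ℝ) < p := by exact_mod_cast hp.pos
  have e0 : ((p : Loc O p) : B) = p := by simp
  have h := idx hI hO hp (p : Loc O p) (by rw [e0, nr_p hp]; positivity)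
  have e : (AddMonoidHom.mulLeft (p : Loc O p)).range = π.toAddMonoidHom.ker := AddSubgroup.ext fun x =>
    ⟨fun ⟨y, h⟩ => (h2 x).2 ⟨y, y.2, by rw [← h]; simp⟩, fun h => by
      obtain ⟨y, hy, h⟩ := (h2 x).1 h
      exact ⟨⟨y, hy⟩, Subtype.ext (by rw [h]; simp)⟩⟩
  rw [e, AddSubgroup.index_ker, AddMonoidHom.range_eq_top_of_surjective _ h1, AddSubgroup.card_top, e0,
    nr_p hp, mul_inv_eq_one₀ (by positivity)] at h
  exact_mod_cast h

theorem nr_le (hI : IdxStmt.{u}) (hO : Ord O θ) (hp : p.Prime) {R : Type*} [Ring R] (π : Loc O p →+* R)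
    (h1 : Function.Surjective π) (h2 : Nat.card R = p ^ finrank ℚ B) (u : Loc O p) {X : ℕ}
    (hX : ∀ A : AddSubgroup R, (∀ a ∈ A, ∃ r, a = π u * r) → Nat.card A ≤ X) :
    nr p (u : B) ≤ X * nr p (p : B) := by
  have hp0 : (0 : ℝ) < p := by exact_mod_cast hp.pos
  rw [nr_p hp]
  by_cases hu : nr p (u : B) = 0
  · rw [hu]; positivity
  have h := idx hI hO hp u hu
  have h3 := Nat.le_of_dvd (Nat.pos_of_ne_zero fun e => by rw [e] at h; simp at h)
    ((AddMonoidHom.mulLeft u).range.index_map_dvd (f := π.toAddMonoidHom) h1)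
  have h4 := ((AddMonoidHom.mulLeft u).range.map π.toAddMonoidHom).card_mul_index
  have h5 := hX ((AddMonoidHom.mulLeft u).range.map π.toAddMonoidHom) (by
    rintro _ ⟨_, ⟨y, rfl⟩, rfl⟩
    exact ⟨π y, map_mul π u y⟩)
  have h6 : (p : ℝ) ^ finrank ℚ B ≤ X * (AddMonoidHom.mulLeft u).range.index := by
    exact_mod_cast h2 ▸ h4 ▸ Nat.mul_le_mul h5 h3
  have h7 : 0 ≤ nr p (u : B) := by rw [nr]; exact_mod_cast padicNorm.nonneg _
  rw [← div_eq_mul_inv, le_div_iff₀ (by positivity)]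
  calc _ ≤ nr p (u : B) * (X * (AddMonoidHom.mulLeft u).range.index) := by gcongr
    _ = X := by rw [mul_left_comm, mul_comm (nr _ _), h, mul_one]

/-- `O ν O` contains a non-zero integer -/
theorem simple [IsSimpleRing B] (hO : Ord O θ) {ν : B} (hν : ν ≠ 0) : ∃ m : ℕ, m ≠ 0 ∧
    ∀ A : AddSubgroup B, (∀ a ∈ O, ∀ b ∈ O, a * ν * b ∈ A) → (m : B) ∈ A := by
  have sw : ∀ (k m : ℕ) (x y : B), ((k * m : ℕ) : B) * (x * y) = (k * x) * (m * y) := fun k m x y => by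
    rw [cast_mul, cast_mul k, cast_mul m, smul_mul_smul_comm, Nat.cast_mul]
  have sm : ∀ (k m : ℕ) (a x b : B), a * (((k * m : ℕ) : B) * x) * b = k • (a * (m * x) * b) :=
    fun k m a x b => by
      rw [cast_mul, cast_mul m, ← Nat.cast_smul_eq_nsmul ℚ k, Nat.cast_mul]
      simp only [mul_smul_comm, smul_mul_assoc, mul_smul]
  have h := IsSimpleRing.one_mem_of_ne_zero_mem (TwoSidedIdeal.mk' {x : B | ∃ m : ℕ, m ≠ 0 ∧
      ∀ A : AddSubgroup B, (∀ a ∈ O, ∀ b ∈ O, a * ν * b ∈ A) → ∀ a ∈ O, ∀ b ∈ O, a * (m * x) * b ∈ A}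
    ⟨1, one_ne_zero, fun A _ a _ b _ => by simp⟩
    (fun {x y} ⟨m, hm, hx⟩ ⟨k, hk, hy⟩ => ⟨k * m, mul_ne_zero hk hm, fun A hA a ha b hb => by
      rw [mul_add, mul_add, add_mul, sm, mul_comm k m, sm]
      exact add_mem (nsmul_mem (hx A hA a ha b hb) k) (nsmul_mem (hy A hA a ha b hb) m)⟩)
    (fun {x} ⟨m, hm, hx⟩ => ⟨m, hm, fun A hA a ha b hb => by
      rw [mul_neg, mul_neg, neg_mul]; exact neg_mem (hx A hA a ha b hb)⟩)
    (fun {x y} ⟨m, hm, hy⟩ => by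
      obtain ⟨k, hk, hx⟩ := hO.full x
      exact ⟨k * m, mul_ne_zero hk hm, fun A hA a ha b hb => by
        rw [sw, ← mul_assoc a]; exact hy A hA _ (mul_mem ha hx) b hb⟩)
    (fun {x y} ⟨m, hm, hx⟩ => by
      obtain ⟨k, hk, hy⟩ := hO.full y
      exact ⟨m * k, mul_ne_zero hm hk, fun A hA a ha b hb => by
        rw [sw, ← mul_assoc a, mul_assoc _ _ b]; exact hx A hA a ha _ (mul_mem hy hb)⟩)) hν
    ((TwoSidedIdeal.mem_mk' ..).2 ⟨1, one_ne_zero, fun A hA a ha b hb => by simpa using hA a ha b hb⟩)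
  obtain ⟨m, hm, h⟩ := (TwoSidedIdeal.mem_mk' ..).1 h
  exact ⟨m, hm, fun A hA => by simpa using h A hA 1 (one_mem _) 1 (one_mem _)⟩

theorem exists_nu (hT : ∀ x : B, (∀ w, tr B (w * x) = 0) → x = 0) (l : B →ₗ[ℚ] ℚ) :
    ∃ ν : B, ∀ x, tr B (x * ν) = l (x + star x) := by
  have h : Function.Injective ((LinearMap.mul ℚ B).flip.compr₂ (tr B)) :=
    (injective_iff_map_eq_zero _).2 fun x hx => hT x fun w => LinearMap.congr_fun hx w
  obtain ⟨ν, hν⟩ := (LinearMap.injective_iff_surjective_of_finrank_eq_finrank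
    Subspace.dual_finrank_eq.symm).1 h
    { toFun := fun x => l (x + star x)
      map_add' := fun x y => by rw [star_add, ← map_add]; congr 1; abel
      map_smul' := fun q x => by rw [star_rat_smul, ← smul_add, map_smul]; rfl }
  exact ⟨ν, fun x => LinearMap.congr_fun hν x⟩

/-- `x ↦ (x + x*) / p` -/
def tau (hO : Ord O θ) (hp : p ≠ 0) : O →+ Jn (OS O p) where
  toFun x := ⟨(p : ℚ)⁻¹ • ((x : B) + star (x : B)), by
    refine ⟨?_, 1, ?_⟩
    · show star _ = _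
      rw [star_rat_smul, star_add, star_star, add_comm]
    · rw [pow_one, mul_dv hp]; exact add_mem x.2 (hO.star_mem _ x.2)⟩
  map_zero' := Subtype.ext (by simp)
  map_add' x y := Subtype.ext (by
    simp only [Subring.coe_add, star_add, AddSubgroup.coe_add, smul_add]; abel)

theorem out_eq (a : Jn (OS O p)) : ∃ j ∈ Jn O, ((QuotientAddGroup.mk a : Cp O p).out : B) = a + j := by
  obtain ⟨j, hj⟩ := QuotientAddGroup.mk_out_eq_add ((Jn O).addSubgroupOf (Jn (OS O p))) a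
  exact ⟨_, j.2, congrArg Subtype.val hj⟩

theorem exp_out {l : B →ₗ[ℚ] ℚ} (hl : ∀ a ∈ Jn O, ∃ m : ℤ, l a = m) (a : Jn (OS O p)) :
    Complex.exp ((2 * Real.pi * (l ((QuotientAddGroup.mk a : Cp O p).out : B) : ℝ) : ℝ) * Complex.I) =
      Complex.exp ((2 * Real.pi * (l a : ℝ) : ℝ) * Complex.I) := by
  obtain ⟨j, hj, e⟩ := out_eq a
  obtain ⟨m, hm⟩ := hl j hj
  rw [e, map_add, hm, Complex.exp_eq_exp_iff_exists_int]
  exact ⟨m, by push_cast; ring⟩

/-- the character -/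
def chi (p : ℕ) {l : B →ₗ[ℚ] ℚ} (hl : ∀ a ∈ Jn O, ∃ m : ℤ, l a = m) : AddChar (Cp O p) ℂ where
  toFun t := Complex.exp ((2 * Real.pi * (l (t.out : B) : ℝ) : ℝ) * Complex.I)
  map_zero_eq_one' := (exp_out hl 0).trans (by simp)
  map_add_eq_mul' s t := by
    induction s using QuotientAddGroup.induction_on
    induction t using QuotientAddGroup.induction_on
    rw [← QuotientAddGroup.mk_add, exp_out hl, exp_out hl, exp_out hl, ← Complex.exp_add]
    congr 1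
    simp only [AddSubgroup.coe_add, map_add]
    push_cast; ring

/-- the star on `O` -/
def st (hO : Ord O θ) : O →+ O where
  toFun x := ⟨star (x : B), hO.star_mem _ x.2⟩
  map_zero' := Subtype.ext (by simp)
  map_add' x y := Subtype.ext (by simp)

theorem uni (hG : Gp O θ p) (hb : Bas O p) {x : B}
    (h : ∀ w ∈ O, ∃ v ∈ Loc O p, tr B (w * x) = tr B (p * v)) : ∃ v ∈ Loc O p, x = p * v := by
  refine ⟨(p : ℚ)⁻¹ • x, hG.uni _ fun w hw => ?_, (mul_dv hG.prime.ne_zero x).symm⟩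
  obtain ⟨v, hv, e⟩ := h w hw
  rw [mul_smul_comm, map_smul, e, ← map_smul, dv_mul hG.prime.ne_zero]
  exact hb.tr_le v hv

theorem dt [Nontrivial B] (hO : Ord O θ) (hG : Gp O θ p) (hb : Bas O p) {R : Type*} [Ring R]
    (π : Loc O p →+* R) (ρ : O →+* R) (hρ : ∀ x : O, ρ x = π ⟨x, le_Loc O p x.2⟩)
    (h1 : Function.Surjective ρ) (h2 : ∀ x, π x = 0 ↔ ∃ y ∈ Loc O p, (x : B) = p * y) {σ : R →+ R}
    (hσ : ∀ x, σ (ρ x) = ρ (st hO x)) {e : O} (he : ∃ y ∈ O, (e : B) * e - e = p * y)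
    (he' : ∀ x ∈ O, ∃ c : ℤ, ∃ y ∈ O, (e : B) * x * e - c * e = p * y) :
    Dt p (ρ e) (ρ ⟨θ, hO.th_mem⟩) σ := by
  have k : ∀ x : O, ρ x = 0 ↔ ∃ y ∈ Loc O p, (x : B) = p * y := fun x => by rw [hρ, h2]
  refine ⟨hG.prime, ?_, ?_, ?_, fun x => ?_, fun x hx => ?_, fun x => ?_, ?_, fun x y => ?_, fun x => ?_, ?_⟩
  · have := hG.big
    have := finrank_pos (R := ℚ) (M := B)
    omega
  · rw [← map_natCast ρ, k]; exact ⟨1, one_mem _, by simp⟩
  · obtain ⟨y, hy, h⟩ := he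
    rw [← sub_eq_zero, ← map_mul, ← map_sub, k]
    exact ⟨y, le_Loc O p hy, h⟩
  · obtain ⟨x, rfl⟩ := h1 x
    obtain ⟨c, y, hy, h⟩ := he' x x.2
    refine ⟨c, ?_⟩
    rw [← sub_eq_zero, ← map_mul, ← map_mul, ← map_intCast ρ, ← map_mul, ← map_sub, k]
    exact ⟨y, le_Loc O p hy, h⟩
  · obtain ⟨x, rfl⟩ := h1 x
    refine (k x).2 (uni hG hb fun w hw => ?_)
    obtain ⟨a, b, h3, h4⟩ := hx (ρ ⟨w, hw⟩)
    obtain ⟨a, rfl⟩ := h1 a
    obtain ⟨b, rfl⟩ := h1 b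
    rw [← sub_eq_zero, ← map_mul, ← map_mul, ← map_sub, k] at h3
    rw [← map_mul, k] at h4
    obtain ⟨u, hu, h3⟩ := h3
    obtain ⟨v, hv, h4⟩ := h4
    refine ⟨u + v, add_mem hu hv, ?_⟩
    rw [mul_add, map_add, ← h3, ← h4, Subring.coe_mul, tr_comm (b : B), ← map_add]
    simp
  · obtain ⟨x, rfl⟩ := h1 x
    rw [← map_mul, ← map_mul]
    exact congrArg ρ (Subtype.ext (hO.th_comm x))
  · obtain ⟨t, ht, h⟩ := hG.th
    refine ⟨π ⟨t, ht⟩, ?_⟩
    rw [hρ, ← map_mul, ← map_one π]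
    exact congrArg π (Subtype.ext h)
  · obtain ⟨x, rfl⟩ := h1 x
    obtain ⟨y, rfl⟩ := h1 y
    rw [← map_mul, hσ, hσ, hσ, ← map_mul]
    exact congrArg ρ (Subtype.ext (star_mul (x : B) y))
  · obtain ⟨x, rfl⟩ := h1 x
    exact ⟨ρ (st hO x), by rw [hσ]; exact congrArg ρ (Subtype.ext (star_star (x : B)))⟩
  · rw [hσ, ← map_neg]
    exact congrArg ρ (Subtype.ext hO.th_star)

end L41

open L41

theorem lowStmt (hB : BasStmt.{u}) (hT : TrStmt.{u}) (hI : IdxStmt.{u}) : LowStmt.{u} := by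
  intro B _ _ _ _ _ O θ hO l hl ⟨a₀, ha₀, ha₁⟩
  obtain ⟨ν, hν⟩ := exists_nu (hT B).2 l
  have hν0 : ν ≠ 0 := fun e => ha₁ (by
    have := hν a₀
    rw [e, mul_zero, map_zero, ha₀, map_add] at this
    linarith)
  obtain ⟨M, hM, hA⟩ := simple hO hν0
  refine ⟨M, hM, fun p hpM hG ⟨e, he, he0, he1, he2⟩ s hs => ?_⟩
  have hp := hG.prime
  have hp0 := hp.ne_zero
  have := Fact.mk hp
  have hb := hB B O θ hO p hp
  obtain ⟨R, _, π, h1, h2⟩ := exists_quot O p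
  have h1' : Function.Surjective π := Function.Surjective.of_comp h1
  obtain ⟨ρ, hρ'⟩ : ∃ ρ, ρ = π.comp (Subring.inclusion (le_Loc O p)) := ⟨_, rfl⟩
  rw [← hρ'] at h1
  have hρ : ∀ x : O, ρ x = π ⟨x, le_Loc O p x.2⟩ := fun x => by rw [hρ']; rfl
  have k : ∀ x : O, ρ x = 0 ↔ ∃ y ∈ O, (x : B) = p * y := fun x => by
    rw [hρ, h2]
    exact ⟨fun ⟨y, hy, h⟩ => ⟨y, mem_O x.2 hy h, h⟩, fun ⟨y, hy, h⟩ => ⟨y, le_Loc O p hy, h⟩⟩
  have st_p : ∀ y : B, star ((p : B) * y) = p * star y := fun y => by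
    rw [cast_mul, cast_mul, star_rat_smul]
  obtain ⟨σ, hσ⟩ := lift ρ.toAddMonoidHom h1 (ρ.toAddMonoidHom.comp (st hO)) fun x hx => by
    obtain ⟨y, hy, h⟩ := (k x).1 hx
    exact (k _).2 ⟨star y, hO.star_mem y hy, (congrArg star h).trans (st_p y)⟩
  have hσ' : ∀ x, σ (ρ x) = ρ (st hO x) := hσ
  obtain ⟨τ, hτ⟩ := lift (K := Cp O p) ρ.toAddMonoidHom h1
    ((QuotientAddGroup.mk' _).comp (tau hO hp0)) fun x hx => by
      obtain ⟨y, hy, h⟩ := (k x).1 hx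
      refine (QuotientAddGroup.eq_zero_iff _).2 ⟨(tau hO hp0 x).2.1, ?_⟩
      show (p : ℚ)⁻¹ • ((x : B) + star (x : B)) ∈ O
      rw [h, st_p, ← mul_add, dv_mul hp0]
      exact add_mem hy (hO.star_mem y hy)
  have hτ' : ∀ x, τ (ρ x) = QuotientAddGroup.mk (tau hO hp0 x) := hτ
  have D := dt hO hG hb π ρ hρ h1 h2 hσ' (e := ⟨e, he⟩) he1 he2
  have hc := card_R hI hO hp π h1' h2
  have : Finite R := Nat.finite_of_card_ne_zero (by rw [hc]; positivity)
  obtain ⟨F, hF, hF'⟩ := D.sum τ (chi p hl)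
    (fun t => (Complex.exp_ofReal_mul_I_re _).trans_le (Real.cos_le_one _))
    (fun x hx => by
      obtain ⟨x, rfl⟩ := h1 x
      rw [hτ', QuotientAddGroup.eq_zero_iff] at hx
      rw [hσ', ← map_add, k]
      exact ⟨_, hx.2, (mul_dv hp0 _).symm⟩)
    (by
      by_contra h3
      push Not at h3
      have h4 : ∀ b ∈ O, (p : ℚ)⁻¹ • (e * e) * (b * ν) ∈ Loc O p := fun b hb' => hG.uni _ fun a ha => by
        have h5 := h3 (ρ ⟨a, ha⟩) (ρ ⟨b, hb'⟩)
        rw [← map_mul, ← map_mul, ← map_mul, hτ'] at h5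
        obtain ⟨m, hm⟩ := Complex.exp_eq_one_iff.1 ((exp_out hl _).symm.trans h5)
        have h6 : l ((p : ℚ)⁻¹ • (a * e * (e * b) + star (a * e * (e * b)))) = m := by
          have h7 : ((2 * Real.pi * (l ((p : ℚ)⁻¹ • (a * e * (e * b) + star (a * e * (e * b)))) : ℝ) : ℝ) : ℂ)
              = (2 * Real.pi * (m : ℝ) : ℝ) :=
            mul_right_cancel₀ Complex.I_ne_zero (hm.trans (by push_cast; ring))
          exact_mod_cast mul_left_cancel₀ (by positivity) (Complex.ofReal_injective h7)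
        rw [map_smul, ← hν] at h6
        rw [smul_mul_assoc, mul_smul_comm, map_smul,
          show a * (e * e * (b * ν)) = a * e * (e * b) * ν by simp only [mul_assoc], h6]
        exact padicNorm.of_int m
      have h5 : (p : ℚ)⁻¹ • (e * e) * M ∈ Loc O p :=
        hA ((Loc O p).toAddSubgroup.comap (AddMonoidHom.mulLeft ((p : ℚ)⁻¹ • (e * e)))) fun a ha b hb' => by
          show _ * _ ∈ Loc O p
          rw [← mul_assoc]
          exact mul_mem (h4 a ha) (le_Loc O p hb')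
      have h6 : ρ (⟨e, he⟩ * ⟨e, he⟩ * M) = 0 := by
        rw [hρ, h2]
        exact ⟨_, h5, by rw [← mul_assoc, mul_dv hp0]; simp⟩
      obtain ⟨j, hj⟩ := D.inv' (c := M) (by exact_mod_cast hpM)
      rw [map_mul, map_mul, D.idem, map_natCast, ← (Nat.cast_commute M _).eq] at h6
      refine he0 ((k ⟨e, he⟩).1 ?_)
      rw [← one_mul (ρ _), ← hj, mul_assoc, Int.cast_natCast, h6, mul_zero])
  obtain ⟨X, hX⟩ : ∃ X, X = Nat.card (Yg (ρ ⟨e, he⟩)) * Nat.card (Zg (ρ ⟨e, he⟩)) := ⟨_, rfl⟩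
  have hp1 : (0 : ℝ) < p := by exact_mod_cast hp.pos
  have hH : ∀ t ∈ F, Hp O p (t.out : B) 1 ≤ X := fun t ht => by
    obtain ⟨y, z, rfl⟩ := hF t ht
    obtain ⟨x, hx⟩ := h1 (y * z)
    obtain ⟨j, hj, e1⟩ := out_eq (tau hO hp0 x)
    rw [← hx, hτ', e1, hb.add _ j (le_Loc O p hj.2)]
    have e2 : (tau hO hp0 x : B) * p = x + star (x : B) := by
      rw [← (Nat.cast_commute p _).eq]; exact mul_dv hp0 _
    have h3 := hb.Hp_le ((tau hO hp0 x : B) * p) (1 * p) (X * nr p (p : B)) fun c hc' d hd => by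
      refine nr_le hI hO hp π h1' hc (⟨c, hc'⟩ * ⟨_, le_Loc O p (x + st hO x).2⟩ + ⟨d, hd⟩ * p) ?_ |>.trans_eq' ?_
      · intro A hA'
        rw [hX]
        refine D.size y z (π ⟨c, hc'⟩) A fun a ha => ?_
        obtain ⟨r, hr⟩ := hA' a ha
        refine ⟨r, hr.trans ?_⟩
        rw [map_add, map_mul, map_mul, map_natCast, D.ch, mul_zero, add_zero, ← hρ, map_add, ← hσ', hx]
      · rw [e2, one_mul]; simp [st]
    rw [hb.mul_right] at h3
    exact le_of_mul_le_mul_right h3 (by rw [nr_p hp]; positivity)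
  have hX0 : (0 : ℝ) < X := by rw [hX]; exact_mod_cast Nat.mul_pos Nat.card_pos Nat.card_pos
  have hX1 : (X : ℝ) ≤ (p : ℝ) ^ ((2 * finrank ℚ B : ℕ) : ℝ) := by
    rw [Real.rpow_natCast, hX, two_mul, pow_add]
    exact_mod_cast hc ▸ Nat.mul_le_mul (AddSubgroup.card_le_card_addGroup _)
      (AddSubgroup.card_le_card_addGroup _)
  rw [← Nat.cast_mul, ← hX] at hF'
  refine ⟨F, ?_⟩
  calc _ ≤ (X : ℝ) ^ (1 - s) / (2 * p) := by
        rw [show (2 * finrank ℚ B : ℝ) = ((2 * finrank ℚ B : ℕ) : ℝ) by push_cast; rfl, Real.rpow_mul hp1.le]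
        exact div_le_div_of_nonneg_right (Real.rpow_le_rpow_of_nonpos hX0 hX1 (by linarith)) (by positivity)
    _ = (X : ℝ) ^ (-s) * (X / (2 * p)) := by
        rw [sub_eq_neg_add, Real.rpow_add hX0, Real.rpow_one, mul_div_assoc]
    _ ≤ (X : ℝ) ^ (-s) * ∑ t ∈ F, (1 - (chi p hl t).re) := by gcongr
    _ ≤ _ := by
        rw [mul_sum]
        refine sum_le_sum fun t ht => ?_
        rw [show (chi p hl t).re = _ from Complex.exp_ofReal_mul_I_re _]
        exact mul_le_mul_of_nonneg_right (Real.rpow_le_rpow_of_nonpos (one_pos.trans_le (hb.one_le _))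
          (hH t ht) (by linarith)) (by linarith [Real.cos_le_one (2 * Real.pi * (l (t.out : B) : ℝ))])

end Crest.Agent.T24.Hgt
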