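import Crest.Agent.T24.HgtDefB_88

/-!
# Row 24, heights: the trace form and the good primes (`TrStmt`, `GpStmt`)
-/

set_option autoImplicit false
set_option linter.unusedSectionVars false

noncomputable section

namespace Crest.Agent.T24.Hgt

open Module

universe u

namespace T65

variable {B : Type*} [Ring B] [Algebra ℚ B]

theorem tr_apply (x : B) : tr B x = LinearMap.trace ℚ B (LinearMap.mulLeft ℚ x) := rfl

theorem tr_comm (x y : B) : tr B (x * y) = tr B (y * x) := by
  rw [tr_apply, tr_apply, LinearMap.mulLeft_mul, LinearMap.mulLeft_mul]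
  exact LinearMap.trace_mul_comm ℚ (LinearMap.mulLeft ℚ x) (LinearMap.mulLeft ℚ y)

variable [FiniteDimensional ℚ B]

theorem tr_one : tr B 1 = finrank ℚ B := by
  rw [tr_apply, LinearMap.mulLeft_one]
  exact LinearMap.trace_id ℚ B

theorem tr_one_ne [Nontrivial B] : tr B 1 ≠ 0 := by
  rw [tr_one]
  exact_mod_cast (Module.finrank_pos (R := ℚ) (M := B)).ne'

/-- the radical of the trace form -/
def rad (B : Type*) [Ring B] [Algebra ℚ B] : TwoSidedIdeal B :=
  TwoSidedIdeal.mk' {x | ∀ w, tr B (w * x) = 0} (fun w => by simp)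
    (fun {x y} hx hy w => by rw [mul_add, map_add, hx w, hy w, add_zero])
    (fun {x} hx w => by rw [mul_neg, map_neg, hx w, neg_zero])
    (fun {x y} hy w => by rw [← mul_assoc]; exact hy _)
    (fun {x y} hx w => by rw [← mul_assoc, tr_comm, ← mul_assoc]; exact hx _)

theorem mem_rad (x : B) : x ∈ rad B ↔ ∀ w, tr B (w * x) = 0 := by
  unfold rad
  rw [TwoSidedIdeal.mem_mk']
  rfl

theorem nondeg [IsSimpleRing B] (x : B) (hx : ∀ w, tr B (w * x) = 0) : x = 0 := by
  rcases eq_bot_or_eq_top (rad B) with h | h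
  · have : x ∈ rad B := (mem_rad x).2 hx
    rw [h] at this
    simpa using this
  · have : (1 : B) ∈ rad B := by rw [h]; trivial
    have h1 := (mem_rad (1 : B)).1 this 1
    rw [mul_one] at h1
    exact absurd h1 tr_one_ne

/-- the trace form -/
def form (B : Type*) [Ring B] [Algebra ℚ B] : LinearMap.BilinForm ℚ B :=
  (LinearMap.mul ℚ B).compr₂ (tr B)

theorem form_apply (x y : B) : form B x y = tr B (x * y) := rfl

theorem form_nondeg [IsSimpleRing B] : (form B).Nondegenerate :=
  ⟨fun x hx => nondeg x fun w => by rw [tr_comm]; exact hx w, fun y hy => nondeg y fun w => hy w⟩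

/-- the trace of the right multiplication -/
def trR (B : Type*) [Ring B] [Algebra ℚ B] : Module.Dual ℚ B :=
  (LinearMap.trace ℚ B).comp (LinearMap.mul ℚ B).flip

theorem trR_apply (x : B) : trR B x = LinearMap.trace ℚ B (LinearMap.mulRight ℚ x) := rfl

theorem trR_comm (x y : B) : trR B (x * y) = trR B (y * x) := by
  rw [trR_apply, trR_apply, LinearMap.mulRight_mul, LinearMap.mulRight_mul]
  exact LinearMap.trace_mul_comm ℚ (LinearMap.mulRight ℚ y) (LinearMap.mulRight ℚ x)

/-- a non-zero central element of a simple ring has a central inverse -/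
theorem central_inv [IsSimpleRing B] {z : B} (hz : ∀ x, z * x = x * z) (h0 : z ≠ 0) :
    ∃ t : B, (∀ x, t * x = x * t) ∧ t * z = 1 := by
  have hm : z ∈ Subring.center B := Subring.mem_center_iff.2 fun x => (hz x).symm
  obtain ⟨t, ht⟩ := (IsSimpleRing.isField_center B).mul_inv_cancel (a := ⟨z, hm⟩)
    (fun h => h0 (congrArg Subtype.val h))
  refine ⟨t, fun x => (Subring.mem_center_iff.1 t.2 x).symm, ?_⟩
  have := congrArg Subtype.val ht
  simp only [Subring.coe_mul, Subring.coe_one] at this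
  rw [← hz]; exact this

/-- left and right traces agree on a simple algebra -/
theorem trR_eq [IsSimpleRing B] (x : B) : trR B x = tr B x := by
  set c : B := ((form B).toDual form_nondeg).symm (trR B) with hc
  have h1 : ∀ y, tr B (c * y) = trR B y := fun y =>
    LinearMap.BilinForm.apply_toDual_symm_apply (hB := form_nondeg) (trR B) y
  have h2 : ∀ a, c * a = a * c := by
    intro a
    refine sub_eq_zero.1 (nondeg _ fun w => ?_)
    rw [mul_sub, map_sub, tr_comm w (c * a), mul_assoc, h1, trR_comm, ← h1, ← mul_assoc w,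
      tr_comm (w * a) c, sub_self]
  by_cases h : c - 1 = 0
  · rw [← h1, sub_eq_zero.1 h, one_mul]
  · exfalso
    obtain ⟨t, ht, ht1⟩ := central_inv (z := c - 1)
      (fun y => by rw [sub_mul, mul_sub, h2, one_mul, mul_one]) h
    have h3 : trR B t = tr B t := by
      rw [trR_apply, tr_apply]
      congr 1
      ext y
      simp [ht]
    have h4 : tr B (t * (c - 1)) = 0 := by
      rw [mul_sub, map_sub, mul_one, tr_comm t c, h1, h3, sub_self]
    rw [ht1] at h4
    exact tr_one_ne h4

variable [StarRing B]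

/-- `star` as a `ℚ`-linear equivalence -/
def st (B : Type*) [Ring B] [Algebra ℚ B] [StarRing B] : B ≃ₗ[ℚ] B where
  toFun := star
  invFun := star
  map_add' := star_add
  map_smul' := fun q x => star_rat_smul q x
  left_inv := star_star
  right_inv := star_star

theorem tr_star [IsSimpleRing B] (x : B) : tr B (star x) = tr B x := by
  rw [← trR_eq x, trR_apply, tr_apply, ← LinearMap.trace_conj' (LinearMap.mulRight ℚ x) (st B)]
  congr 1
  ext y
  simp [st, LinearEquiv.conj_apply]

theorem den_not_dvd {p : ℕ} (hp : p.Prime) {q : ℚ} (hq : padicNorm p q ≤ 1) : ¬ p ∣ q.den := by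
  have := Fact.mk hp
  intro hd
  have h1 : padicNorm p (q.den : ℚ) < 1 := (padicNorm.nat_lt_one_iff _).2 hd
  have h2 : padicNorm p (q.num : ℚ) < 1 := by
    rw [← Rat.mul_den_eq_num, padicNorm.mul]
    calc padicNorm p q * padicNorm p (q.den : ℚ) ≤ 1 * padicNorm p (q.den : ℚ) :=
          mul_le_mul_of_nonneg_right hq (padicNorm.nonneg _)
      _ < 1 := by rwa [one_mul]
  have h3 : (p : ℤ) ∣ q.num := (padicNorm.int_lt_one_iff _).1 h2
  have h4 : p ∣ q.num.natAbs := Int.natCast_dvd.1 h3
  have := Nat.dvd_gcd h4 hd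
  rw [q.reduced] at this
  exact hp.one_lt.ne' (Nat.dvd_one.1 this)

theorem smul_mem_Loc {O : Subring B} {p : ℕ} (hp : p.Prime) {q : ℚ} (hq : padicNorm p q ≤ 1) {y : B}
    (hy : y ∈ Loc O p) : q • y ∈ Loc O p := by
  obtain ⟨m, hm, hm0, hy⟩ := hy
  refine ⟨q.den * m, Nat.Coprime.mul_left ((hp.coprime_iff_not_dvd.2 (den_not_dvd hp hq)).symm) hm,
    mul_ne_zero q.den_nz hm0, ?_⟩
  have : ((q.den * m : ℕ) : B) * (q • y) = (q.num : B) * ((m : B) * y) := by
    rw [← nsmul_eq_mul, ← nsmul_eq_mul, ← zsmul_eq_mul, ← Nat.cast_smul_eq_nsmul ℚ,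
      ← Nat.cast_smul_eq_nsmul ℚ, ← Int.cast_smul_eq_zsmul ℚ, smul_smul, smul_smul,
      ← Rat.mul_den_eq_num]
    congr 1
    push_cast
    ring
  rw [this]
  exact O.mul_mem (intCast_mem O _) hy

theorem mem_Loc_of {O : Subring B} {p m : ℕ} (hp : p.Prime) (hm : ¬ p ∣ m) {y : B}
    (hy : (m : B) * y ∈ O) : y ∈ Loc O p :=
  ⟨m, (hp.coprime_iff_not_dvd.2 hm).symm, fun h => hm (h ▸ dvd_zero p), hy⟩

end T65

open T65

theorem trStmt : TrStmt.{u} := fun _ _ _ _ _ _ => ⟨tr_star, nondeg⟩

theorem gpStmt : GpStmt.{u} := by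
  intro B _ _ _ _ _ O θ hO
  classical
  obtain ⟨t, -, ht⟩ := central_inv hO.th_comm hO.th_ne
  obtain ⟨mt, hmt, hmtO⟩ := hO.full t
  let b := Module.finBasis ℚ B
  let d := (form B).dualBasis form_nondeg b
  choose mb hmb hmbO using fun i => hO.full (b i)
  choose md hmd hmdO using fun i => hO.full (d i)
  refine ⟨(2 * finrank ℚ B + 2).factorial * mt * ∏ i, (mb i * md i),
    mul_ne_zero (mul_ne_zero (Nat.factorial_ne_zero _) hmt)
      (Finset.prod_ne_zero_iff.2 fun i _ => mul_ne_zero (hmb i) (hmd i)), fun p hp hM => ?_⟩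
  have := Fact.mk hp
  have h1 : ¬ p ∣ (2 * finrank ℚ B + 2).factorial := fun h =>
    hM ((h.mul_right mt).mul_right _)
  have h2 : ¬ p ∣ mt := fun h => hM ((h.mul_left _).mul_right _)
  have h3 : ∀ i, ¬ p ∣ mb i * md i := fun i h =>
    hM ((h.trans (Finset.dvd_prod_of_mem (fun i => mb i * md i) (Finset.mem_univ i))).mul_left _)
  refine ⟨hp, ?_, ⟨t, mem_Loc_of hp h2 hmtO, ht⟩, fun x hx => ?_⟩
  · by_contra h
    exact h1 (hp.dvd_factorial.2 (by omega))
  · rw [← d.sum_repr x]
    refine Subring.sum_mem _ fun i _ => smul_mem_Loc hp ?_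
      (mem_Loc_of hp (fun h => h3 i (h.mul_left _)) (hmdO i))
    have e : d.repr x i = tr B (b i * x) := by
      rw [LinearMap.BilinForm.dualBasis_repr_apply, form_apply, tr_comm]
    have h4 := hx _ (hmbO i)
    rw [mul_assoc, ← nsmul_eq_mul, map_nsmul, nsmul_eq_mul, padicNorm.mul,
      (padicNorm.nat_eq_one_iff _).2 (fun h => h3 i (h.mul_right _)), one_mul] at h4
    rwa [e]

end Crest.Agent.T24.Hgt
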