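import Crest.Agent.T24.HgtA_88

/-! Row 24, heights: the upper bound for the local zeta function (packing of charts). -/

set_option autoImplicit false
set_option linter.unusedSectionVars false

noncomputable section

namespace Crest.Agent.T24.Hgt

open Module Finset

namespace U86

/-- disjoint cosets inside a union of classes -/
theorem pack {G I : Type*} [AddCommGroup G] (A₀ : AddSubgroup G) (h₀ : A₀.index ≠ 0) (s : Finset I)
    (A : I → AddSubgroup G) (hA : ∀ i ∈ s, (A i).index ≠ 0) (le : ∀ i ∈ s, A i ≤ A₀) (x : I → G)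
    (K : Finset (G ⧸ A₀)) (hK : ∀ i ∈ s, (x i : G ⧸ A₀) ∈ K)
    (dis : ∀ i ∈ s, ∀ j ∈ s, ∀ u ∈ A i, ∀ v ∈ A j, x i + u = x j + v → i = j) :
    ∑ i ∈ s, ((A i).index : ℝ)⁻¹ ≤ K.card * (A₀.index : ℝ)⁻¹ := by
  classical
  let N : AddSubgroup G := A₀ ⊓ ⨅ i : s, A i
  have : A₀.FiniteIndex := ⟨h₀⟩
  have : ∀ i : s, (A i).FiniteIndex := fun i => ⟨hA i i.2⟩
  have : (⨅ i : s, A i).FiniteIndex := AddSubgroup.finiteIndex_iInf this
  have : N.FiniteIndex := inferInstance
  let _ : Fintype (G ⧸ N) := Fintype.ofFinite _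
  let T : AddSubgroup G → G → Finset (G ⧸ N) := fun C y => univ.filter fun z => -y + z.out ∈ C
  have hT : ∀ C y, N ≤ C → ((T C y).card : ℝ) = N.index * (C.index : ℝ)⁻¹ := fun C y hC => by
    have hc : C.index ≠ 0 := ne_zero_of_dvd_ne_zero AddSubgroup.FiniteIndex.index_ne_zero
      (AddSubgroup.index_dvd_of_le hC)
    rw [eq_mul_inv_iff_mul_eq₀ (Nat.cast_ne_zero.2 hc), ← AddSubgroup.relIndex_mul_index hC]
    norm_cast
    congr 1
    rw [AddSubgroup.relIndex, AddSubgroup.index, ← Nat.card_eq_finsetCard]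
    refine (Nat.card_eq_of_bijective (fun z : C ⧸ N.addSubgroupOf C =>
      (⟨((y + z.out : G) : G ⧸ N), ?_⟩ : T C y)) ⟨fun z z' e => ?_, fun z => ?_⟩).symm
    · obtain ⟨n, hn⟩ := QuotientAddGroup.mk_out_eq_add N (y + z.out)
      rw [mem_filter, hn, add_assoc, neg_add_cancel_left]
      exact ⟨mem_univ _, C.add_mem z.out.2 (hC n.2)⟩
    · rw [← z.out_eq', ← z'.out_eq', QuotientAddGroup.eq, AddSubgroup.mem_addSubgroupOf]
      have := QuotientAddGroup.eq.1 (congrArg Subtype.val e)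
      rwa [neg_add_rev, add_assoc, neg_add_cancel_left] at this
    · refine ⟨((⟨_, (mem_filter.1 z.2).2⟩ : C) : C ⧸ N.addSubgroupOf C), Subtype.ext ?_⟩
      obtain ⟨n, hn⟩ := QuotientAddGroup.mk_out_eq_add (N.addSubgroupOf C)
        ⟨_, (mem_filter.1 z.2).2⟩
      simp only [hn, AddSubgroup.coe_add]
      rw [← add_assoc, add_neg_cancel_left, QuotientAddGroup.mk_add_of_mem _ (AddSubgroup.mem_addSubgroupOf.1 n.2),
        QuotientAddGroup.out_eq']
  have hN : ∀ i ∈ s, N ≤ A i := fun i hi => inf_le_right.trans (iInf_le (fun i : s => A i) ⟨i, hi⟩)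
  have pos : (0 : ℝ) < N.index := Nat.cast_pos.2 (Nat.pos_of_ne_zero
    AddSubgroup.FiniteIndex.index_ne_zero)
  refine le_of_mul_le_mul_left ?_ pos
  have h1 : (s.biUnion fun i => T (A i) (x i)).card = ∑ i ∈ s, (T (A i) (x i)).card :=
    card_biUnion fun i hi j hj hij => disjoint_left.2 fun z h h' => hij
      (dis i hi j hj _ (mem_filter.1 h).2 _ (mem_filter.1 h').2 (by simp))
  have h2 : (s.biUnion fun i => T (A i) (x i)) ⊆ K.biUnion fun k => T A₀ k.out := by
    refine biUnion_subset.2 fun i hi z hz => mem_biUnion.2 ⟨_, hK i hi, mem_filter.2 ⟨mem_univ _, ?_⟩⟩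
    obtain ⟨n, hn⟩ := QuotientAddGroup.mk_out_eq_add A₀ (x i)
    rw [hn, neg_add_rev, add_assoc]
    exact A₀.add_mem (A₀.neg_mem n.2) (le i hi (mem_filter.1 hz).2)
  have h3 := (h1.ge.trans (card_le_card h2)).trans card_biUnion_le
  have h4 : ((∑ i ∈ s, (T (A i) (x i)).card : ℕ) : ℝ) ≤ (∑ k ∈ K, (T A₀ k.out).card : ℕ) :=
    Nat.cast_le.2 h3
  push_cast at h4
  rw [sum_congr rfl fun i hi => hT _ _ (hN i hi), sum_congr rfl fun k _ => hT _ _ inf_le_left,
    sum_const, nsmul_eq_mul, ← mul_sum] at h4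
  linarith

/-- double counting -/
theorem dcount {Q : Type*} [Fintype Q] (P : Q → Prop) [DecidablePred P] (T : Finset ℕ)
    (φ : ℕ → Q → Q) (hφ : ∀ τ ∈ T, Function.Injective (φ τ)) {n : ℕ}
    (h : ∀ δ, (T.filter fun τ => P (φ τ δ)).card ≤ n) :
    T.card * (univ.filter P).card ≤ Fintype.card Q * n := by
  classical
  have h1 : ∀ τ ∈ T, (univ.filter P).card = (univ.filter fun δ => P (φ τ δ)).card := fun τ hτ =>
    (card_bijective (φ τ) (hφ τ hτ).bijective_of_finite (by simp)).symm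
  calc T.card * (univ.filter P).card = ∑ τ ∈ T, (univ.filter fun δ => P (φ τ δ)).card := by
        rw [← sum_congr rfl h1, sum_const, smul_eq_mul]
    _ = ∑ δ : Q, (T.filter fun τ => P (φ τ δ)).card := by
        simp only [card_filter]; exact sum_comm
    _ ≤ _ := by simpa using sum_le_card_nsmul univ _ n fun δ _ => h δ

variable {B : Type*} [Ring B] [Algebra ℚ B] [StarRing B]

theorem det_mulRight {b : B} (hb : star b = b) :
    LinearMap.det (LinearMap.mulRight ℚ b) = Algebra.norm ℚ b := by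
  let e : B ≃ₗ[ℚ] B := { starAddEquiv with map_smul' := map_rat_smul (starAddEquiv (R := B)) }
  rw [Algebra.norm_apply, ← LinearMap.det_conj (LinearMap.mulRight ℚ b) e]
  congr 1
  ext y
  show star (star y * b) = b * y
  rw [star_mul, star_star, hb]

/-- `x ↦ p b x b` -/
def cm (p : ℕ) (b : B) : B →ₗ[ℚ] B := (p : ℚ) • (LinearMap.mulLeft ℚ b ∘ₗ LinearMap.mulRight ℚ b)

theorem cm_apply (p : ℕ) (b x : B) : cm p b x = p * (b * (x * b)) := by
  rw [natCast_mul_eq]; rfl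

/-- `p b J b` -/
def sub (O : Subring B) (p : ℕ) (b : B) : AddSubgroup (Jn (Loc O p)) :=
  ((Jn (Loc O p)).map (cm p b).toAddMonoidHom).addSubgroupOf (Jn (Loc O p))

theorem mem_sb {O : Subring B} {p : ℕ} {b : B} {x : Jn (Loc O p)} :
    x ∈ sub O p b ↔ ∃ e ∈ Jn (Loc O p), (p : B) * (b * (e * b)) = x := by
  simp [sub, AddSubgroup.mem_addSubgroupOf, cm_apply]

theorem mem_O {O : Subring B} {p : ℕ} {x : B} (h1 : x ∈ Loc O p) (h2 : x ∈ OS O p) : x ∈ O := by
  obtain ⟨m, hm, -, h1⟩ := h1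
  obtain ⟨j, h2⟩ := h2
  obtain ⟨u, v, h⟩ := Nat.isCoprime_iff_coprime.2 (hm.pow_right j)
  have h' := congrArg (Int.cast : ℤ → B) h
  push_cast at h'
  rw [← one_mul x, ← h', add_mul, mul_assoc, mul_assoc]
  exact O.add_mem (O.mul_mem (intCast_mem O u) h1) (O.mul_mem (intCast_mem O v) h2)

/-- `J / p J` -/
abbrev Q (O : Subring B) (p : ℕ) : Type _ := Jn (Loc O p) ⧸ sub O p 1

variable {O : Subring B} {θ : B} {p : ℕ}

theorem pc (p : ℕ) (x : B) : x * p = p * x := (Nat.cast_commute p x).eq.symm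

theorem J1 : (1 : B) ∈ Jn (Loc O p) := ⟨star_one B, (Loc O p).one_mem⟩

theorem out (x : Jn (Loc O p)) : ∃ z ∈ Loc O p, ((x : Q O p).out : B) = x + p * z := by
  obtain ⟨m, hm⟩ := QuotientAddGroup.mk_out_eq_add (sub O p 1) x
  obtain ⟨e, he, k⟩ := mem_sb.1 m.2
  exact ⟨e, he.2, by rw [hm, AddSubgroup.coe_add, ← k, one_mul, mul_one]⟩

open Classical in
theorem cS [Fintype (Q O p)] (bas : Bas O p) :
    p * (univ.filter fun δ : Q O p => nr p (δ.out : B) < 1).card ≤
      Fintype.card (Q O p) * finrank ℚ B := by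
  have := dcount (fun δ : Q O p => nr p (δ.out : B) < 1) (range p)
    (fun τ δ => δ + ((τ • ⟨1, J1⟩ : Jn (Loc O p)) : Q O p))
    (fun _ _ => add_left_injective _) (n := finrank ℚ B) fun δ => by
      refine le_trans (card_le_card fun τ hτ => ?_)
        (bas.roots _ δ.out.2.2 1 (one_mem _) (Or.inr (nr_one p)))
      rw [mem_filter] at hτ ⊢
      obtain ⟨z, hz, k⟩ := out (δ.out + τ • ⟨1, J1⟩)
      rw [QuotientAddGroup.mk_add, QuotientAddGroup.out_eq'] at k
      rw [k, bas.cong _ (δ.out + τ • ⟨1, J1⟩).2.2 _ hz] at hτ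
      simpa using hτ
  rwa [card_range] at this

open Classical in
theorem cB [Fintype (Q O p)] (pp : p.Prime) (bas : Bas O p) {b : B} (hb : b ∈ Loc O p) :
    (p - 1) * (univ.filter fun δ : Q O p => nr p (1 - δ.out * b) < 1).card ≤
      Fintype.card (Q O p) * finrank ℚ B := by
  have pz : ∀ δ : Q O p, p • δ = 0 := fun δ => by
    rw [← δ.out_eq', ← QuotientAddGroup.mk_nsmul, QuotientAddGroup.eq_zero_iff, mem_sb]
    exact ⟨_, δ.out.2, by simp⟩
  have := dcount (fun δ : Q O p => nr p (1 - δ.out * b) < 1) ((range p).erase 0)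
    (fun τ δ => τ • δ) (fun τ hτ => (injective_iff_map_eq_zero
      (nsmulAddMonoidHom τ : Q O p →+ Q O p)).2 fun δ e => by
      have c : τ.Coprime p := (Nat.coprime_of_lt_prime (mem_erase.1 hτ).1
        (mem_range.1 (mem_erase.1 hτ).2) pp).symm
      exact AddMonoid.addOrderOf_eq_one_iff.1 (Nat.eq_one_of_dvd_coprimes c
        (addOrderOf_dvd_of_nsmul_eq_zero e) (addOrderOf_dvd_of_nsmul_eq_zero (pz δ))))
    (n := finrank ℚ B) fun δ => by
      refine le_trans (card_le_card fun τ hτ => ?_) (bas.roots 1 (one_mem _) _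
        (neg_mem (mul_mem δ.out.2.2 hb)) (Or.inl (nr_one p)))
      rw [mem_filter] at hτ ⊢
      obtain ⟨z, hz, k⟩ := out (τ • δ.out)
      rw [QuotientAddGroup.mk_nsmul, QuotientAddGroup.out_eq'] at k
      refine ⟨(mem_erase.1 hτ.1).2, (bas.cong _ (add_mem (one_mem _) (mul_mem (natCast_mem _ τ)
        (neg_mem (mul_mem δ.out.2.2 hb)))) _ (neg_mem (mul_mem hz hb))).1 ?_⟩
      convert hτ.2 using 2
      rw [k, AddSubgroup.coe_nsmul, nsmul_eq_mul]
      noncomm_ring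
  rwa [card_erase_of_mem (mem_range.2 pp.pos), card_range] at this

theorem herm {β w : B} (h0 : star w = w) (h1 : w * β = 1) : star β = β := by
  have : star β * w = 1 := by rw [← h0, ← star_mul, h1, star_one]
  rw [← mul_one (star β), ← h1, ← mul_assoc, this, one_mul]

/-- moving the centre of a chart -/
theorem move (h : Ord O θ) (pp : p.Prime) (bas : Bas O p) {w b d : B} (hw : star w = w)
    (hb : b ∈ Loc O p) (hd : d ∈ Jn (Loc O p)) (b1 : b * w = 1) (b2 : w * b = 1)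
    (k : ¬ nr p (1 - d * b) < 1) :
    ∃ β : Jn (Loc O p), β * (w - d) = 1 ∧ (w - d) * β = 1 ∧ nr p (β : B) = nr p b := by
  have uL : (1 - d * b : B) ∈ Loc O p := sub_mem (one_mem _) (mul_mem hd.2 hb)
  obtain ⟨y, hy, y1, y2⟩ := bas.unit _ uL ((bas.nr_le _ uL).antisymm (not_lt.1 k))
  have e : w - d = (1 - d * b) * w := by rw [sub_mul, one_mul, mul_assoc, b1, mul_one]
  have e1 : b * y * (w - d) = 1 := by rw [e, mul_assoc, ← mul_assoc y, y1, one_mul, b1]
  have e2 : (w - d) * (b * y) = 1 := by rw [e, mul_assoc, ← mul_assoc w, b2, one_mul, y2]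
  refine ⟨⟨b * y, herm ?_ e2, (Loc O p).mul_mem hb hy⟩, e1, e2, ?_⟩
  · rw [star_sub, hw, hd.1]
  · rw [nr_mul pp, h.nr_unit pp hy uL y1, mul_one]

/-- the inverse of a point of the coset -/
theorem inv (bas : Bas O p) {γ w : B} (hγ : γ ∈ Loc O p) (w1 : γ * w = 1) (w2 : w * γ = 1)
    {u : Jn (Loc O p)} (hu : u ∈ sub O p γ) :
    ∃ e ∈ Loc O p, (γ + u) * (w - p * e) = 1 ∧ (w - p * e) * (γ + u) = 1 := by
  obtain ⟨e, he, k⟩ := mem_sb.1 hu
  have zL := (Loc O p).mul_mem he.2 hγ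
  have uL := add_mem (one_mem _) (mul_mem (natCast_mem _ p) zL)
  obtain ⟨y, hy, y1, y2⟩ := bas.unit _ uL ((bas.nr_le _ uL).antisymm (not_lt.1 fun k =>
    absurd ((bas.cong 1 (one_mem _) _ zL).1 k) (by simp [nr_one])))
  have e1 : γ + u = γ * (1 + p * (e * γ)) := by
    rw [← k, mul_add, mul_one, ← mul_assoc γ (p : B), pc, mul_assoc]
  have e2 : w - p * (y * e) = y * w := by
    have : y * (1 + p * (e * γ)) * w = w := by rw [y1, one_mul]
    rw [mul_add, add_mul, mul_one, mul_assoc, mul_assoc, mul_assoc, w1, mul_one, ← mul_assoc, pc,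
      mul_assoc] at this
    exact sub_eq_of_eq_add this.symm
  refine ⟨y * e, (Loc O p).mul_mem hy he.2, ?_, ?_⟩
  · rw [e1, e2, mul_assoc, ← mul_assoc _ y, y2, one_mul, w1]
  · rw [e1, e2, mul_assoc, ← mul_assoc w, w2, one_mul, y1]

/-- a point determines the chart -/
theorem uniq (pp : p.Prime) {t t' : Cp O p} {δ δ' : Q O p} {c : Cp O p → B}
    (hc : ∀ t, c t ∈ Loc O p) {e1 e2 : B} (he1 : e1 ∈ Loc O p) (he2 : e2 ∈ Loc O p)
    (k : (t'.out - c t' - δ'.out - p * e2 : B) = t.out - c t - δ.out - p * e1) : t = t' ∧ δ = δ' := by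
  have pL : (p : B) ∈ Loc O p := natCast_mem _ p
  obtain rfl : t = t' := by
    rw [← t.out_eq', ← t'.out_eq', QuotientAddGroup.eq]
    have : ((-t.out + t'.out : Jn (OS O p)) : B) =
        c t' + δ'.out + p * e2 - (c t + δ.out + p * e1) := by
      rw [AddSubgroup.coe_add, AddSubgroup.coe_neg, ← sub_eq_zero, ← sub_eq_zero.2 k]
      abel
    exact ⟨(-t.out + t'.out).2.1, mem_O (Set.mem_of_eq_of_mem (s := Loc O p) this <|
      sub_mem (add_mem (add_mem (hc _) δ'.out.2.2) (mul_mem pL he2))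
        (add_mem (add_mem (hc _) δ.out.2.2) (mul_mem pL he1))) (-t.out + t'.out).2.2⟩
  refine ⟨rfl, ?_⟩
  rw [← δ.out_eq', ← δ'.out_eq', QuotientAddGroup.eq, mem_sb]
  have : (p : B) * (e1 - e2) = ((-δ.out + δ'.out : Jn (Loc O p)) : B) := by
    rw [AddSubgroup.coe_add, AddSubgroup.coe_neg, mul_sub, ← sub_eq_zero, ← sub_eq_zero.2 k]
    abel
  refine ⟨e1 - e2, ⟨(isUnit_natCast pp.ne_zero).mul_left_cancel ?_, (Loc O p).sub_mem he1 he2⟩, by
    rw [one_mul, mul_one, this]⟩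
  rw [← pc, ← star_natCast (R := B) p, ← star_mul, star_natCast, this]
  exact (-δ.out + δ'.out).2.1

end U86

open U86

universe u

theorem U86.idx (hI : IdxStmt.{u}) {B : Type u} [Ring B] [Algebra ℚ B] [StarRing B]
    [FiniteDimensional ℚ B] {O : Subring B} {θ : B} (h : Ord O θ) {p : ℕ} (hp : Gp O θ p) {b : B}
    (hb : b ∈ Jn (Loc O p)) (hu : IsUnit b) :
    (((sub O p b).index : ℝ) * nr p b) ^ 2 * (((p : ℝ)⁻¹) ^ finrank ℚ B) = 1 := by
  have pp := hp.prime
  have := Fact.mk pp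
  have hd : LinearMap.det (cm p b) = (p : ℚ) ^ finrank ℚ B * Algebra.norm ℚ b ^ 2 := by
    rw [cm, LinearMap.det_smul, LinearMap.det_comp, det_mulRight hb.1, sq]; rfl
  have := (hI B O θ h p pp (cm p b) (fun x hx => by
    rw [cm_apply]; exact mul_mem (natCast_mem _ p) (mul_mem hb.2 (mul_mem hx hb.2))) (by
      rw [hd]
      exact mul_ne_zero (pow_ne_zero _ (Nat.cast_ne_zero.2 pp.ne_zero))
        (pow_ne_zero _ (hu.map _).ne_zero))).2 hp (fun x => by
      simp only [cm_apply, star_mul, star_natCast, show star b = b from hb.1, pc, mul_assoc])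
    (fun x => by
      rw [cm_apply, cm_apply, mul_assoc θ x, ← mul_assoc b θ, ← h.th_comm b, mul_assoc θ b,
        ← mul_assoc (p : B) θ, ← h.th_comm, mul_assoc θ])
  rw [hd, padicNorm.mul, IsAbsoluteValue.abv_pow (padicNorm p), IsAbsoluteValue.abv_pow (padicNorm p),
    padicNorm.padicNorm_p pp.one_lt] at this
  have := congrArg (Rat.cast : ℚ → ℝ) this
  push_cast at this
  rw [← this, nr, sub, ← AddSubgroup.relIndex]
  ring

theorem upStmt (hB : BasStmt.{u}) (hI : IdxStmt.{u}) (hC : ChartStmt.{u}) : UpStmt.{u} := by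
  intro B _ _ _ _ _ O θ h p hp s hs F hF
  classical
  have pp := hp.prime
  have bas := hB B O θ h p pp
  have p0 : (0 : ℝ) < p := Nat.cast_pos.2 pp.pos
  obtain ⟨q, hq⟩ : ∃ q : ℝ, q = ((sub O p (1 : B)).index : ℝ) := ⟨_, rfl⟩
  have hq1 := idx hI h hp J1 isUnit_one
  rw [nr_one, mul_one, ← hq] at hq1
  have q0 : q ≠ 0 := by rintro h0; simp [h0] at hq1
  have qpos : 0 < q := lt_of_le_of_ne (hq ▸ Nat.cast_nonneg _) q0.symm
  have idx' : ∀ b ∈ Jn (Loc O p), IsUnit b → ((sub O p b).index : ℝ) * nr p b = q := fun b hb hu =>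
    (pow_left_inj₀ (mul_nonneg (Nat.cast_nonneg _) (nr_nonneg _ _)) qpos.le two_ne_zero).1
      (mul_right_cancel₀ (by positivity) ((idx hI h hp hb hu).trans hq1.symm))
  have fin : (sub O p (1 : B)).FiniteIndex := ⟨Nat.cast_ne_zero.1 (hq ▸ q0)⟩
  let _ : Fintype (Q O p) := Fintype.ofFinite _
  have cardQ : (Fintype.card (Q O p) : ℝ) = q := by
    rw [hq, AddSubgroup.index, Nat.card_eq_fintype_card]
  have c1 : (p : ℝ) * (univ.filter fun δ : Q O p => nr p (δ.out : B) < 1).card ≤ q * finrank ℚ B := by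
    rw [← cardQ]; exact_mod_cast cS bas
  have c2 : ∀ b ∈ Loc O p, q / 2 ≤
      (univ.filter fun δ : Q O p => ¬ nr p (1 - δ.out * b) < 1).card := fun b hb => by
    have h1 : ((p - 1 : ℕ) : ℝ) * (univ.filter fun δ : Q O p => nr p (1 - δ.out * b) < 1).card ≤
      q * finrank ℚ B := by rw [← cardQ]; exact_mod_cast cB pp bas hb
    have h2 : (2 * finrank ℚ B + 1 : ℝ) ≤ (p - 1 : ℕ) := by
      have := hp.big
      exact_mod_cast (by omega : 2 * finrank ℚ B + 1 ≤ p - 1)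
    have h3 := congrArg (Nat.cast : ℕ → ℝ) (card_filter_add_card_filter_not (s := univ)
      fun δ : Q O p => nr p (1 - δ.out * b) < 1)
    rw [card_univ, Nat.cast_add, cardQ] at h3
    generalize (univ.filter fun δ : Q O p => nr p (1 - δ.out * b) < 1).card = r at h1 h3
    have r0 : (0 : ℝ) ≤ r := Nat.cast_nonneg _
    have n0 : (0 : ℝ) ≤ finrank ℚ B := Nat.cast_nonneg _
    have : r ≤ q / 2 := by
      by_contra hr
      nlinarith [mul_le_mul_of_nonneg_right h2 r0, not_le.1 hr]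
    linarith
  choose c hc b hb b1 b2 b3 using fun t : Cp O p => hC B O θ h p hp (t.out : B) t.out.2.1
  have small : ∀ t ∈ F, nr p (b t) < 1 := fun t ht => lt_of_le_of_ne (bas.nr_le _ (hb t).2) fun e => by
    obtain ⟨y, hy, y1, -⟩ := bas.unit _ (hb t).2 e
    have : (t.out : B) = y + c t := by
      rw [← sub_eq_iff_eq_add, ← one_mul (_ - _), ← y1, mul_assoc, b1, mul_one]
    refine hF ((?_ : t = 0) ▸ ht)
    rw [← t.out_eq', QuotientAddGroup.eq_zero_iff]
    exact ⟨t.out.2.1, mem_O (Set.mem_of_eq_of_mem (s := Loc O p) this (add_mem hy (hc t).2)) t.out.2.2⟩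
  choose! β hβ using fun (i : Σ _ : Cp O p, Q O p) => move h pp bas (w := i.1.out - c i.1)
    (by rw [star_sub, i.1.out.2.1, (hc _).1]) (hb i.1).2 i.2.out.2 (b1 _) (b2 _)
  let S := F.sigma fun t => univ.filter fun δ : Q O p => ¬ nr p (1 - δ.out * b t) < 1
  have hS : ∀ i ∈ S, i.1 ∈ F ∧ ¬ nr p (1 - i.2.out * b i.1) < 1 := fun i hi =>
    ⟨(mem_sigma.1 hi).1, (mem_filter.1 (mem_sigma.1 hi).2).2⟩
  have ix : ∀ i ∈ S, ((sub O p (β i : B)).index : ℝ) * nr p (b i.1) = q := fun i hi => by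
    rw [← idx' _ (β _).2 ⟨⟨_, _, (hβ _ (hS i hi).2).1, (hβ _ (hS i hi).2).2.1⟩, rfl⟩,
      (hβ _ (hS i hi).2).2.2]
  have pk := pack (sub O p 1) fin.1 S (fun i => sub O p (β i : B))
    (fun i hi e => q0 (by rw [← ix i hi, e]; simp))
    (fun i _ u hu => by
      obtain ⟨e, he, k⟩ := mem_sb.1 hu
      have := (β i).2
      refine mem_sb.2 ⟨_, ⟨?_, (Loc O p).mul_mem this.2 ((Loc O p).mul_mem he.2 this.2)⟩, by
        rw [one_mul, mul_one, k]⟩
      show star _ = _
      rw [star_mul, star_mul, this.1, he.1, mul_assoc])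
    β (univ.filter fun δ => nr p (δ.out : B) < 1)
    (fun i hi => by
      obtain ⟨z, hz, k⟩ := out (β i)
      rw [mem_filter, k, bas.cong _ (β _).2.2 _ hz, (hβ _ (hS i hi).2).2.2]
      exact ⟨mem_univ _, small _ (hS i hi).1⟩)
    (fun i hi j hj u hu v hv e => by
      obtain ⟨e1, he1, k1, -⟩ := inv bas (β i).2.2 (hβ _ (hS i hi).2).1 (hβ _ (hS i hi).2).2.1 hu
      obtain ⟨e2, he2, -, k2⟩ := inv bas (β j).2.2 (hβ _ (hS j hj).2).1 (hβ _ (hS j hj).2).2.1 hv
      have e' : (β i + u : B) = β j + v := congrArg Subtype.val e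
      obtain ⟨k3, k4⟩ := uniq pp (fun t => (hc t).2) he1 he2 (left_inv_eq_right_inv k2 (e' ▸ k1))
      exact Sigma.ext k3 (heq_of_eq k4))
  rw [← hq, sum_congr rfl fun i hi => show _ = nr p (b i.1) * q⁻¹ from
    inv_eq_of_mul_eq_one_right (by rw [← mul_assoc, ix i hi, mul_inv_cancel₀ q0]), sum_sigma] at pk
  simp only [sum_const, nsmul_eq_mul] at pk
  have tot : ∑ t ∈ F, nr p (b t) ≤ 2 * finrank ℚ B * (p : ℝ)⁻¹ := by
    have h1 : ∑ t ∈ F, nr p (b t) / 2 ≤ _ := (sum_le_sum fun t _ => le_trans (le_of_eq (by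
      field_simp)) (mul_le_mul_of_nonneg_right (c2 _ (hb t).2)
        (mul_nonneg (nr_nonneg p (b t)) (inv_pos.2 qpos).le))).trans pk
    rw [← sum_div, ← div_eq_mul_inv, div_le_div_iff₀ two_pos qpos] at h1
    rw [← div_eq_mul_inv, le_div_iff₀ p0]
    nlinarith
  calc ∑ t ∈ F, Hp O p (t.out : B) 1 ^ (-s) ≤ ∑ t ∈ F, nr p (b t) * (p : ℝ) ^ (1 - s) :=
        sum_le_sum fun t ht => by
          have r0 : 0 < nr p (b t) := nr_pos pp ⟨⟨_, _, b1 t, b2 t⟩, rfl⟩
          rw [eq_inv_of_mul_eq_one_left (b3 t), Real.inv_rpow r0.le, Real.rpow_neg r0.le, inv_inv,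
            show s = 1 + (s - 1) by ring, Real.rpow_add r0, Real.rpow_one]
          refine mul_le_mul_of_nonneg_left ((Real.rpow_le_rpow r0.le (bas.gap _ (small t ht))
            (by linarith)).trans (le_of_eq ?_)) r0.le
          rw [Real.inv_rpow p0.le, ← Real.rpow_neg p0.le]
          congr 1; ring
    _ ≤ 2 * finrank ℚ B * (p : ℝ)⁻¹ * (p : ℝ) ^ (1 - s) := by
        rw [← sum_mul]; exact mul_le_mul_of_nonneg_right tot (by positivity)
    _ = _ := by
        rw [sub_eq_add_neg, Real.rpow_add p0, Real.rpow_one]; field_simp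

end Crest.Agent.T24.Hgt
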