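import Crest.Agent.T24.HgtDef_88

/-!
# Row 24 (helper22): `Hgt.weylStmt`, Weyl's criterion for weighted families, unfolded
-/

set_option autoImplicit false
set_option linter.unusedSectionVars false

noncomputable section

namespace Crest.Agent.T24.Hgt

open Filter Topology MeasureTheory Set UnitAddTorus

universe u

namespace W22

variable {ι : Type} [Fintype ι] {ψ : (ι → ℝ) → ℝ}

/-- the lattice point -/
def lp (m : ι → ℤ) : ι → ℝ := fun i => (m i : ℝ)

/-- the projection to the torus -/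
def pj (y : ι → ℝ) : UnitAddTorus ι := fun i => (y i : UnitAddCircle)

/-- Haar measure of the torus -/
def mu (ι : Type) [Fintype ι] : Measure (UnitAddTorus ι) :=
  Measure.pi fun _ => (AddCircle.haarAddCircle : Measure UnitAddCircle)

theorem mu_prob (ι : Type) [Fintype ι] : IsProbabilityMeasure (mu ι) := by
  unfold mu; infer_instance

/-- the periodisation -/
def per (ψ : (ι → ℝ) → ℝ) (y : ι → ℝ) : ℝ := ∑' m : ι → ℤ, ψ (y + lp m)

theorem exists_fin (hc : HasCompactSupport ψ) (A : ℝ) :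
    ∃ F : Finset (ι → ℤ), ∀ y : ι → ℝ, ‖y‖ ≤ A → ∀ m, m ∉ F → ψ (y + lp m) = 0 := by
  classical
  obtain ⟨R, hR⟩ := hc.isCompact.isBounded.exists_norm_le
  refine ⟨Fintype.piFinset fun _ => Finset.Icc (-⌈R + A⌉) ⌈R + A⌉, fun y hy m hm => ?_⟩
  by_contra h
  refine hm (Fintype.mem_piFinset.2 fun i => ?_)
  have h1 := hR _ (subset_tsupport ψ h)
  have h2 : ‖lp m‖ ≤ R + A := by
    have := norm_sub_le (y + lp m) y
    rw [add_sub_cancel_left] at this
    linarith
  have h3 : |(m i : ℝ)| ≤ (⌈R + A⌉ : ℝ) :=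
    ((norm_le_pi_norm (lp m) i).trans h2).trans (Int.le_ceil _)
  rw [Finset.mem_Icc, ← abs_le]
  exact_mod_cast h3

theorem summable_per (hc : HasCompactSupport ψ) (y : ι → ℝ) : Summable fun m : ι → ℤ => ψ (y + lp m) :=
  let ⟨_, h⟩ := exists_fin hc ‖y‖
  summable_of_ne_finset_zero (h y le_rfl)

theorem continuous_per (h : Continuous ψ) (hc : HasCompactSupport ψ) : Continuous (per ψ) := by
  refine continuous_iff_continuousAt.2 fun y => ?_
  obtain ⟨F, hF⟩ := exists_fin hc (‖y‖ + 1)
  have h1 : Continuous fun z => ∑ m ∈ F, ψ (z + lp m) := by fun_prop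
  refine h1.continuousAt.congr ?_
  filter_upwards [Metric.closedBall_mem_nhds y one_pos] with z hz
  refine (tsum_eq_sum (hF z ?_)).symm
  have := norm_le_norm_add_norm_sub' z y
  rw [mem_closedBall_iff_norm] at hz
  linarith

omit [Fintype ι] in
theorem per_add (ψ : (ι → ℝ) → ℝ) (y : ι → ℝ) (k : ι → ℤ) : per ψ (y + lp k) = per ψ y := by
  rw [per, per, ← (Equiv.addLeft k).tsum_eq fun m => ψ (y + lp m)]
  refine tsum_congr fun m => ?_
  congr 1
  funext i
  simp [lp, add_assoc]

omit [Fintype ι] in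
theorem per_congr (ψ : (ι → ℝ) → ℝ) {y z : ι → ℝ} (h : pj y = pj z) : per ψ y = per ψ z := by
  have h1 : ∀ i, ∃ k : ℤ, z i = y i + k := fun i => by
    obtain ⟨k, hk⟩ := AddSubgroup.mem_zmultiples_iff.1 (QuotientAddGroup.eq.1 (congrFun h i))
    exact ⟨k, by rw [zsmul_one] at hk; linarith⟩
  choose k hk using h1
  rw [show z = y + lp k from funext hk, per_add]

omit [Fintype ι] in
theorem quot_pj : IsOpenQuotientMap (pj (ι := ι)) :=
  IsOpenQuotientMap.piMap fun _ => QuotientAddGroup.isOpenQuotientMap_mk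

/-- the periodisation lives on the torus -/
theorem exists_tor (h : Continuous ψ) (hc : HasCompactSupport ψ) :
    ∃ f : C(UnitAddTorus ι, ℝ), ∀ y, f (pj y) = per ψ y := by
  have hs := (quot_pj (ι := ι)).surjective
  have e : ∀ y, per ψ (Function.surjInv hs (pj y)) = per ψ y := fun y =>
    per_congr ψ (Function.surjInv_eq hs _)
  refine ⟨⟨fun a => per ψ (Function.surjInv hs a), ?_⟩, e⟩
  rw [quot_pj.isQuotientMap.continuous_iff]
  exact (continuous_per h hc).congr fun y => (e y).symm

/-- the cubes -/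
def cube (m : ι → ℤ) : Set (ι → ℝ) := {y | ∀ i, y i ∈ Ioc (lp m i) (lp m i + 1)}

theorem meas_cube (m : ι → ℤ) : MeasurableSet (cube m) :=
  MeasurableSet.univ_pi' fun _ => measurableSet_Ioc

omit [Fintype ι] in
theorem mem_cube {m : ι → ℤ} {y : ι → ℝ} : y ∈ cube m ↔ ∀ i, ⌈y i⌉ = m i + 1 := by
  simp only [cube, mem_ofPred_eq, Int.ceil_eq_iff, lp, mem_Ioc]
  push_cast
  simp only [add_sub_cancel_right]

theorem int_per (h : Continuous ψ) (hc : HasCompactSupport ψ) :
    ∫ y in cube 0, per ψ y = ∫ y, ψ y := by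
  have hi := h.integrable_of_hasCompactSupport (μ := volume) hc
  have hU : ⋃ m : ι → ℤ, cube m = univ :=
    eq_univ_of_forall fun y => mem_iUnion.2 ⟨fun i => ⌈y i⌉ - 1, mem_cube.2 fun i => by simp⟩
  have h1 := hasSum_integral_iUnion (μ := volume) (f := ψ) meas_cube
    (fun m m' hm => disjoint_left.2 fun y a b => hm (funext fun i => by
      have := mem_cube.1 a i
      have := mem_cube.1 b i
      omega)) hi.integrableOn
  rw [hU, Measure.restrict_univ] at h1
  have h2 : ∀ m : ι → ℤ, ∫ y in cube m, ψ y = ∫ y in cube 0, ψ (y + lp m) := fun m => by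
    rw [← (measurePreserving_add_right volume (lp m)).setIntegral_preimage_emb
      (measurableEmbedding_addRight _) ψ (cube m)]
    congr 2
    ext y
    simp only [mem_preimage, mem_cube, Pi.add_apply, lp, Int.ceil_add_intCast, Pi.zero_apply]
    exact forall_congr' fun i => by omega
  obtain ⟨F, hF⟩ := exists_fin hc 1
  have hb : ∀ y ∈ cube (0 : ι → ℤ), ‖y‖ ≤ 1 := fun y hy =>
    (pi_norm_le_iff_of_nonneg zero_le_one).2 fun i => by
      have := hy i
      simp only [lp, Pi.zero_apply, Int.cast_zero, zero_add, mem_Ioc] at this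
      rw [Real.norm_eq_abs, abs_le]
      constructor <;> linarith [this.1, this.2]
  simp only [h2] at h1
  rw [← h1.tsum_eq, tsum_eq_sum (s := F) fun m hm => setIntegral_eq_zero_of_forall_eq_zero
    fun y hy => hF y (hb y hy) m hm,
    ← integral_finsetSum F fun m _ => (hi.comp_add_right (lp m)).integrableOn]
  exact setIntegral_congr_fun (meas_cube 0) fun y hy => tsum_eq_sum (hF y (hb y hy))

theorem int_tor (h : Continuous ψ) (hc : HasCompactSupport ψ) {f : UnitAddTorus ι → ℝ}
    (hf : ∀ y, f (pj y) = per ψ y) : ∫ a, f a ∂mu ι = ∫ y, ψ y := by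
  rw [← int_per h hc, ← funext hf]
  exact integral_preimage f (lp 0)

theorem int_mF {m : ι → ℤ} (hm : m ≠ 0) : ∫ a, mFourier m a ∂mu ι = 0 := by
  have h := orthonormal_iff_ite.1 (orthonormal_mFourier (d := ι)) 0 m
  simp only [ContinuousMap.inner_toLp, mFourier_zero, ContinuousMap.one_apply, map_one, mul_one,
    if_neg hm.symm] at h
  exact h

theorem mF_pj (m : ι → ℤ) (y : ι → ℝ) : mFourier m (pj y) =
    Complex.exp (2 * Real.pi * Complex.I * (∑ i, (m i : ℝ) * y i : ℝ)) := by
  simp only [mFourier, ContinuousMap.coe_mk, pj, fourier_coe_apply, ← Complex.exp_sum]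
  congr 1
  push_cast
  rw [Finset.mul_sum]
  exact Finset.sum_congr rfl fun i _ => by ring

variable {T : Type u} {w : T → ℝ} {a : T → UnitAddTorus ι}

/-- the weighted mean -/
def av (w : T → ℝ) (a : T → UnitAddTorus ι) (f : C(UnitAddTorus ι, ℂ)) : ℂ :=
  (∑' t, (w t : ℂ) * f (a t)) / (∑' t, w t : ℝ)

/-- a weight -/
def Wt (w : T → ℝ) : Prop := (∀ t, 0 ≤ w t) ∧ Summable w ∧ 0 < ∑' t, w t

theorem norm_le (h : Wt w) (f : C(UnitAddTorus ι, ℂ)) (t : T) : ‖(w t : ℂ) * f (a t)‖ ≤ w t * ‖f‖ := by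
  rw [norm_mul, Complex.norm_real, Real.norm_of_nonneg (h.1 t)]
  exact mul_le_mul_of_nonneg_left (f.norm_coe_le_norm _) (h.1 t)

theorem summ (h : Wt w) (f : C(UnitAddTorus ι, ℂ)) : Summable fun t => (w t : ℂ) * f (a t) :=
  Summable.of_norm_bounded (h.2.1.mul_right ‖f‖) (norm_le h f)

theorem av_add (h : Wt w) (f g : C(UnitAddTorus ι, ℂ)) : av w a (f + g) = av w a f + av w a g := by
  simp only [av, ContinuousMap.add_apply, mul_add]
  rw [(summ h f).tsum_add (summ h g), add_div]

theorem av_smul (c : ℂ) (f : C(UnitAddTorus ι, ℂ)) : av w a (c • f) = c * av w a f := by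
  simp only [av, ContinuousMap.smul_apply, smul_eq_mul, mul_left_comm _ c]
  rw [tsum_mul_left, mul_div_assoc]

theorem norm_av (h : Wt w) (f : C(UnitAddTorus ι, ℂ)) : ‖av w a f‖ ≤ ‖f‖ := by
  rw [av, norm_div, Complex.norm_real, Real.norm_of_nonneg h.2.2.le, div_le_iff₀ h.2.2, mul_comm,
    ← tsum_mul_right]
  exact tsum_of_norm_bounded (h.2.1.mul_right ‖f‖).hasSum (norm_le h f)

theorem av_one (h : Wt w) : av w a 1 = 1 := by
  simp only [av, ContinuousMap.one_apply, mul_one, ← Complex.ofReal_tsum]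
  exact div_self (Complex.ofReal_ne_zero.2 h.2.2.ne')

theorem ig (f : C(UnitAddTorus ι, ℂ)) : Integrable f (mu ι) :=
  haveI := mu_prob ι
  f.continuous.integrable_of_hasCompactSupport (HasCompactSupport.of_compactSpace f)

/-- Weyl's criterion on the torus -/
theorem weyl {l : Filter ℝ} {w : ℝ → T → ℝ} (hw : ∀ᶠ s in l, Wt (w s))
    (h : ∀ m : ι → ℤ, m ≠ 0 → Tendsto (fun s => av (w s) a (mFourier m)) l (𝓝 0))
    (f : C(UnitAddTorus ι, ℂ)) : Tendsto (fun s => av (w s) a f) l (𝓝 (∫ b, f b ∂mu ι)) := by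
  haveI := mu_prob ι
  have h1 : ∀ g ∈ Submodule.span ℂ (range (mFourier (d := ι))),
      Tendsto (fun s => av (w s) a g) l (𝓝 (∫ b, g b ∂mu ι)) := fun g hg => by
    induction hg using Submodule.span_induction with
    | mem g hg =>
      obtain ⟨m, rfl⟩ := hg
      by_cases hm : m = 0
      · subst hm
        rw [mFourier_zero]
        simp only [ContinuousMap.one_apply, integral_const, probReal_univ, one_smul]
        exact tendsto_const_nhds.congr' (hw.mono fun s hs => (av_one hs).symm)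
      · rw [int_mF hm]
        exact h m hm
    | zero => simpa [av] using tendsto_const_nhds
    | add f g _ _ hf hg =>
      simp only [ContinuousMap.add_apply]
      rw [integral_add (ig f) (ig g)]
      exact (hf.add hg).congr' (hw.mono fun s hs => (av_add hs f g).symm)
    | smul c f _ hf =>
      simp only [av_smul, ContinuousMap.smul_apply, smul_eq_mul, integral_const_mul]
      exact hf.const_mul c
  have h2 : f ∈ closure (Submodule.span ℂ (range (mFourier (d := ι))) : Set C(UnitAddTorus ι, ℂ)) := by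
    rw [← Submodule.topologicalClosure_coe, span_mFourier_closure_eq_top]
    trivial
  refine Metric.tendsto_nhds.2 fun ε hε => ?_
  obtain ⟨g, hg, hfg⟩ := Metric.mem_closure_iff.1 h2 (ε / 3) (by positivity)
  rw [dist_eq_norm] at hfg
  filter_upwards [hw, Metric.tendsto_nhds.1 (h1 g hg) (ε / 3) (by positivity)] with s hs h3
  have h4 : dist (av (w s) a f) (av (w s) a g) ≤ ‖f - g‖ := by
    have := av_add (a := a) hs (f - g) g
    rw [sub_add_cancel] at this
    rw [dist_eq_norm, this, add_sub_cancel_right]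
    exact norm_av hs _
  have h5 : dist (∫ b, g b ∂mu ι) (∫ b, f b ∂mu ι) ≤ ‖f - g‖ := by
    rw [dist_comm, dist_eq_norm, ← integral_sub (ig f) (ig g)]
    simpa using norm_integral_le_of_norm_le_const (μ := mu ι)
      (Eventually.of_forall fun b => (f - g).norm_coe_le_norm b)
  linarith [dist_triangle4 (av (w s) a f) (av (w s) a g) (∫ b, g b ∂mu ι) (∫ b, f b ∂mu ι)]

theorem summ_prod (h : Continuous ψ) (hc : HasCompactSupport ψ) (hw : Wt w) (x : T → ι → ℝ) :
    Summable fun q : T × (ι → ℤ) => w q.1 * ψ (x q.1 + lp q.2) := by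
  obtain ⟨f, hf⟩ := exists_tor h.abs hc.abs
  refine Summable.of_abs ((summable_prod_of_nonneg fun q => abs_nonneg _).2 ⟨fun t =>
    ((summable_per hc (x t)).mul_left (w t)).abs, ?_⟩)
  refine Summable.of_nonneg_of_le (fun t => tsum_nonneg fun _ => abs_nonneg _) (fun t => ?_)
    (hw.2.1.mul_right ‖f‖)
  simp only [abs_mul, abs_of_nonneg (hw.1 t), tsum_mul_left]
  refine mul_le_mul_of_nonneg_left ?_ (hw.1 t)
  exact (hf (x t)).symm.le.trans ((le_abs_self _).trans (f.norm_coe_le_norm _))

end W22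

open W22

theorem weylStmt : WeylStmt.{u} := fun T ι _ l x w hw h ψ hψ hc => by
  refine ⟨hw.mono fun s hs => summ_prod hψ hc hs x, ?_⟩
  obtain ⟨f, hf⟩ := exists_tor hψ hc
  have h1 := weyl (a := fun t => pj (x t)) hw (fun m hm => by simpa only [av, mF_pj] using h m hm)
    ⟨fun b => (f b : ℂ), by fun_prop⟩
  simp only [ContinuousMap.coe_mk, integral_complex_ofReal, int_tor hψ hc hf, av, hf,
    ← Complex.ofReal_mul, ← Complex.ofReal_tsum, ← Complex.ofReal_div, tendsto_ofReal_iff] at h1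
  refine h1.congr' (hw.mono fun s hs => ?_)
  have h2 := (summ_prod hψ hc hs x).tsum_prod
  simp only [tsum_mul_left] at h2
  exact congrArg (· / ∑' t, w s t) h2.symm

end Crest.Agent.T24.Hgt
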