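import Crest.Agent.T24.HgtC_88
import Crest.Agent.T24.HgtUp_86
import Crest.Agent.T24.HgtLow_41
import Crest.Agent.T24.HgtAsm_91
import Crest.Agent.T24.HgtIdx_84
import Crest.Agent.T24.HgtTr_65
import Crest.Agent.T24.HgtWeyl_22
import Crest.Agent.T24.HgtSpl_12

/-! # Row 24, heights: the unconditional output -/

set_option autoImplicit false

namespace Crest.Agent.T24.Hgt

universe u

theorem ht : HtStmt.{u} :=
  htStmt basStmt gpStmt (upStmt basStmt idxStmt (chartStmt trStmt)) (lowStmt basStmt trStmt idxStmt)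
    splStmt weylStmt

theorem exists_Ht {B : Type u} [Ring B] [Algebra ℚ B] [StarRing B] [FiniteDimensional ℚ B] [IsSimpleRing B]
    {O : Subring B} {θ : B} (h : Ord O θ) : ∃ M₀ : ℕ, M₀ ≠ 0 ∧ ∀ M : ℕ, M ≠ 0 → M₀ ∣ M → Ht O M :=
  ht B O θ h

end Crest.Agent.T24.Hgt
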