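import Crest.Agent.T24.HnAmb_7
import Crest.Agent.T24.HnLocD_73

/-! Row 24, Hilbert symbols: words and statements (helper56). -/

set_option autoImplicit false

noncomputable section

open scoped NumberField
open IsDedekindDomain

namespace Crest.Agent.T24.Hil

open Hn

/-- finite and real places -/
abbrev Pc (F : Type*) [Field F] : Type _ := Pl F ⊕ (F →+* ℝ)

section Words

variable {F : Type*} [Field F] [NumberField F]

/-- local squares -/
def SqP : Pc F → Subgroup Fˣ
  | .inl v => Sq v
  | .inr φ => Pos φ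

/-- local norms from `F(√d)` -/
def LNP (d : F) (p : Pc F) : Subgroup Fˣ := Nr d ⊔ SqP p

open Classical in
/-- the Hilbert symbol -/
def hil (p : Pc F) (a b : Fˣ) : ℤˣ := if a ∈ LNP (b : F) p then 1 else -1

theorem hil_eq_one {p : Pc F} {a b : Fˣ} : hil p a b = 1 ↔ a ∈ LNP (b : F) p := by
  unfold hil; split_ifs with h <;> simp [h]

theorem hil_inl {v : Pl F} {a b : Fˣ} : hil (.inl v) a b = 1 ↔ a ∈ LN (b : F) v := hil_eq_one

/-- the place below -/
def unP (F : Type*) [Field F] [NumberField F] {E : Type*} [Field E] [NumberField E] [Algebra F E] :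
    Pc E → Pc F
  | .inl w => .inl (un F w)
  | .inr ψ => .inr (ψ.comp (algebraMap F E))

/-- the diagonal form `a` has a non-trivial zero over `f : F →+* L` -/
def Iso {ι L : Type*} [Fintype ι] [Field L] (f : F →+* L) (a : ι → F) : Prop :=
  ∃ x : ι → L, x ≠ 0 ∧ ∑ i, f (a i) * x i ^ 2 = 0

end Words

universe u

/-- S1: the local index is at most two (hence the symbol is bimultiplicative) -/
def IdxStmt : Prop :=
  ∀ (F : Type u) [Field F] [NumberField F] (p : Pc F) (a b d : Fˣ),
    hil p (a * b) d = hil p a d * hil p b d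

/-- S2: reciprocity -/
def RecStmt : Prop :=
  ∀ (F : Type u) [Field F] [NumberField F] (a b : Fˣ) (S : Finset (Pc F)),
    (∀ p, p ∉ S → hil p a b = 1) → ∏ p ∈ S, hil p a b = 1

/-- S3: prescribed symbols, and prescribed square classes on a finite set -/
def PreStmt : Prop :=
  ∀ (F : Type u) [Field F] [NumberField F] (d : Fˣ) (S : Finset (Pc F)) (c : Pc F → Fˣ),
    ∏ p ∈ S, hil p (c p) d = 1 →
    ∃ a : Fˣ, (∀ p ∈ S, a / c p ∈ SqP p) ∧ ∀ p, p ∉ S → hil p a d = 1

/-- S4: Hasse-Minkowski for diagonal forms -/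
def HMStmt : Prop :=
  ∀ (F : Type u) [Field F] [NumberField F] (n : ℕ) (a : Fin n → F),
    (∀ v : Pl F, Iso (algebraMap F (v.adicCompletion F)) a) → (∀ φ : F →+* ℝ, Iso φ a) →
    Iso (RingHom.id F) a

/-- S5: norm functoriality -/
def NrmStmt : Prop :=
  ∀ (F E : Type u) [Field F] [NumberField F] [Field E] [NumberField E] [Algebra F E] (p : Pc F)
    (b : Eˣ) (d : Fˣ) (S : Finset (Pc E)), (∀ q, q ∈ S ↔ unP F q = p) →
    hil p (Units.map (Algebra.norm F : E →* F) b) d = ∏ q ∈ S, hil q b (io F E d)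

end Crest.Agent.T24.Hil
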