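import Crest.Agent.T24.HilDef_56
import Crest.Agent.T24.HnAll_7

/-!
# Row 24, Hilbert reciprocity, part A: the symbol, ramification vectors, partial reciprocity
-/

set_option autoImplicit false
set_option linter.unusedSectionVars false

noncomputable section

open scoped NumberField
open IsDedekindDomain

namespace Crest.Agent.T24.Hil.R7

open Hn Crest.Agent.R018.Selmerx380 Crest.Agent.R018.SLatx824

universe u

variable {F : Type u} [Field F] [NumberField F]

section Symbol

theorem neg_mem_Nr (d : Fˣ) : -d ∈ Nr (d : F) := ⟨0, 1, by simp⟩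

theorem sq_mem_Nr (d : F) (y : Fˣ) : y ^ 2 ∈ Nr d := ⟨y, 0, by simp⟩

theorem LNP_inr (d : Fˣ) (φ : F →+* ℝ) : LNP (d : F) (.inr φ) = LR (d : F) φ := by
  change Nr (d : F) ⊔ Pos φ = _
  unfold LR
  split_ifs with h
  · exact sup_eq_right.mpr (Nr_le_Pos h)
  · have h1 : 0 < φ d := lt_of_le_of_ne (not_lt.mp h) ((map_ne_zero φ).mpr d.ne_zero).symm
    refine (Subgroup.eq_top_iff' _).mpr fun a => ?_
    rcases lt_or_gt_of_ne ((map_ne_zero φ).mpr a.ne_zero) with h2 | h2
    · have : a = -d * (a / -d) := by rw [mul_div_cancel]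
      rw [this]
      refine Subgroup.mul_mem_sup (neg_mem_Nr d) ?_
      rw [mem_Pos, Units.val_div_eq_div_val, map_div₀, Units.val_neg, map_neg]
      exact div_pos_of_neg_of_neg h2 (by linarith)
    · exact Subgroup.mem_sup_right h2

theorem mem_LNP_inr {d a : Fˣ} {φ : F →+* ℝ} :
    a ∈ LNP (d : F) (.inr φ) ↔ (φ d < 0 → 0 < φ a) := by
  rw [LNP_inr]
  unfold LR
  split_ifs with h
  · simp [h, mem_Pos]
  · simp [h]

theorem notMem_Pos {d : Fˣ} {φ : F →+* ℝ} : d ∉ SqP (.inr φ) ↔ φ d < 0 := by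
  change ¬ 0 < φ d ↔ _
  rw [not_lt]
  exact ⟨fun h => lt_of_le_of_ne h ((map_ne_zero φ).mpr d.ne_zero), le_of_lt⟩

theorem LNP_top {p : Pc F} {d : Fˣ} (h : d ∈ SqP p) : LNP (d : F) p = ⊤ := by
  rcases p with v | φ
  · exact LN_eq_top v d h
  · rw [LNP_inr, LR, if_neg (fun h' => notMem_Pos.mpr h' h)]

theorem index_LNP {p : Pc F} {d : Fˣ} (h : d ∉ SqP p) : (LNP (d : F) p).index = 2 := by
  rcases p with v | φ
  · exact index_LN v d h
  · rw [LNP_inr, LR, if_pos (notMem_Pos.mp h), index_Pos]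

theorem sq_mem_SqP (p : Pc F) (y : Fˣ) : y ^ 2 ∈ SqP p := by
  rcases p with v | φ
  exacts [sq_mem_Sq v y, sq_mem_Pos φ y]

theorem index_SqP_ne (p : Pc F) : (SqP p).index ≠ 0 := by
  rcases p with v | φ
  · exact (l1Stmt F ∅).1 v
  · change (Pos φ).index ≠ 0
    rw [index_Pos]; exact two_ne_zero

theorem hil_eq_neg {p : Pc F} {a b : Fˣ} : hil p a b = -1 ↔ a ∉ LNP (b : F) p := by
  unfold hil; split_ifs with h <;> simp [h]

theorem hil_or (p : Pc F) (a b : Fˣ) : hil p a b = 1 ∨ hil p a b = -1 := Int.units_eq_one_or _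

theorem hil_mul (p : Pc F) (a b d : Fˣ) : hil p (a * b) d = hil p a d * hil p b d := by
  by_cases h : d ∈ SqP p
  · simp [hil, LNP_top h]
  · have := Subgroup.mul_mem_iff_of_index_two (index_LNP h) (a := a) (b := b)
    unfold hil
    by_cases ha : a ∈ LNP (d : F) p <;> by_cases hb : b ∈ LNP (d : F) p <;> simp_all

theorem hil_of_Nr (p : Pc F) {a d : Fˣ} (h : a ∈ Nr (d : F)) : hil p a d = 1 :=
  hil_eq_one.mpr (Subgroup.mem_sup_left h)

theorem hil_of_SqP {p : Pc F} {a : Fˣ} (h : a ∈ SqP p) (d : Fˣ) : hil p a d = 1 :=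
  hil_eq_one.mpr (Subgroup.mem_sup_right h)

theorem hil_of_SqP' {p : Pc F} {d : Fˣ} (h : d ∈ SqP p) (a : Fˣ) : hil p a d = 1 :=
  hil_eq_one.mpr (by rw [LNP_top h]; trivial)

theorem LNP_symm {p : Pc F} {a b : Fˣ} (h : a ∈ LNP (b : F) p) : b ∈ LNP (a : F) p := by
  rcases p with v | φ
  · obtain ⟨x, y, hxy⟩ := (Loc.mem_LN_iff v (b : F) a).mp h
    by_cases hy : y = 0
    · have : a ∈ SqP (.inl v) := (Loc.mem_Sq_iff v a).mpr ⟨x, by rw [hxy, hy]; ring⟩
      rw [LNP_top this]; trivial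
    · refine (Loc.mem_LN_iff v (a : F) b).mpr ⟨x / y, 1 / y, ?_⟩
      rw [hxy]; field_simp; ring
  · rw [mem_LNP_inr] at h ⊢
    intro ha
    by_contra hb
    have := h (notMem_Pos.mp hb)
    linarith

theorem hil_comm (p : Pc F) (a b : Fˣ) : hil p a b = hil p b a := by
  unfold hil
  by_cases h : a ∈ LNP (b : F) p
  · rw [if_pos h, if_pos (LNP_symm h)]
  · rw [if_neg h, if_neg fun h' => h (LNP_symm h')]

theorem hil_mul' (p : Pc F) (a b d : Fˣ) : hil p d (a * b) = hil p d a * hil p d b := by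
  rw [hil_comm, hil_mul, hil_comm p a, hil_comm p b]

theorem hil_one (p : Pc F) (d : Fˣ) : hil p 1 d = 1 := hil_of_SqP (one_mem _) d

theorem hil_inv (p : Pc F) (a d : Fˣ) : hil p a⁻¹ d = hil p a d := by
  unfold hil
  by_cases h : a ∈ LNP (d : F) p
  · rw [if_pos h, if_pos (inv_mem h)]
  · rw [if_neg h, if_neg fun h' => h (inv_mem_iff.mp h')]

theorem hil_div (p : Pc F) (a b d : Fˣ) : hil p (a / b) d = hil p a d * hil p b d := by
  rw [div_eq_mul_inv, hil_mul, hil_inv]

theorem hil_div' (p : Pc F) (a b d : Fˣ) : hil p d (a / b) = hil p d a * hil p d b := by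
  rw [hil_comm, hil_div, hil_comm p a, hil_comm p b]

theorem hil_add (p : Pc F) {x y s : Fˣ} (h : (x : F) + y = s) :
    hil p x y = hil p (-(x * y)) s := by
  have h1 : hil p (x / s) (y / s) = 1 := by
    refine hil_of_Nr p ⟨1, 1, ?_⟩
    have : (s : F) ≠ 0 := s.ne_zero
    rw [Units.val_div_eq_div_val, Units.val_div_eq_div_val]
    field_simp
    linear_combination h
  have h2 : hil p (-s) s = 1 := hil_of_Nr p (neg_mem_Nr s)
  have h3 : -(x * y) = x * y * (-s / s) := by
    rw [neg_div, div_self', mul_neg, mul_one]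
  rw [hil_div, hil_div', hil_div', hil_comm p s y] at h1
  rw [h3, hil_mul, hil_mul, hil_div, h2, one_mul]
  rcases hil_or p x y with e1 | e1 <;> rcases hil_or p x s with e2 | e2 <;>
    rcases hil_or p y s with e3 | e3 <;> rcases hil_or p s s with e4 | e4 <;> simp_all

theorem exists_hil {p : Pc F} {d : Fˣ} (h : d ∉ SqP p) : ∃ t, hil p t d = -1 := by
  by_contra h1
  push Not at h1
  have : LNP (d : F) p = ⊤ := (Subgroup.eq_top_iff' _).mpr fun t =>
    not_not.mp fun h2 => h1 t (hil_eq_neg.mpr h2)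
  have h2 := index_LNP h
  rw [this, Subgroup.index_top] at h2
  omega

theorem notMem_of_hil {p : Pc F} {a d : Fˣ} (h : hil p a d = -1) : d ∉ SqP p := fun h' => by
  rw [hil_of_SqP' h'] at h
  exact absurd h (by decide)

theorem hil_unit {v : Pl F} {a d : Fˣ} (h2 : v.valuation F 2 = 1) (hd : v.valuation F (d : F) = 1)
    (ha : v.valuation F (a : F) = 1) : hil (.inl v) a d = 1 :=
  hil_inl.mpr ((l5Stmt F v d a).2 h2 hd ha)

theorem hil_unif {v : Pl F} {c d : Fˣ} (h2 : v.valuation F 2 = 1) (hd : v.valuation F (d : F) = 1)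
    (hd' : d ∉ Sq v) (hc : ord (𝓞 F) v c = 1) : hil (.inl v) c d = -1 := by
  obtain ⟨t, ht⟩ := exists_hil (p := .inl v) hd'
  rw [hil_eq_neg] at ht ⊢
  intro h
  apply ht
  have : t = t / c ^ ord (𝓞 F) v t * c ^ ord (𝓞 F) v t := by rw [div_mul_cancel]
  rw [this]
  refine mul_mem (hil_eq_one.mp (hil_unit h2 hd ?_)) (zpow_mem h _)
  rw [valuation_eq_one_iff, ord_div, Crest.Agent.R018.SLatBx824.ord_zpow, hc, mul_one, sub_self]

/-- the vector of all symbols -/
def hv (d : Fˣ) : Fˣ →* (Pc F → ℤˣ) where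
  toFun a p := hil p a d
  map_one' := funext fun p => hil_one p d
  map_mul' a b := funext fun p => hil_mul p a b d

open Classical in
/-- the sign vector of a finite set -/
def dl (B : Finset (Pc F)) : Pc F → ℤˣ := fun q => if q ∈ B then -1 else 1

theorem dl_mul_self (B : Finset (Pc F)) : dl B * dl B = 1 :=
  funext fun _ => Int.units_mul_self _

theorem dl_prod (B : Finset (Pc F)) : dl B = ∏ p ∈ B, dl {p} := by
  classical
  funext q
  rw [Finset.prod_apply]
  simp only [dl, Finset.mem_singleton]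
  rw [Finset.prod_ite_eq]

theorem dl_mem {I : Subgroup (Pc F → ℤˣ)} {B : Finset (Pc F)} (h : ∀ p ∈ B, dl {p} ∈ I) :
    dl B ∈ I := by
  rw [dl_prod]; exact prod_mem h

/-- all places of `S` and all real places -/
def al (S : Finset (Pl F)) : Finset (Pc F) := S.disjSum Finset.univ

theorem notMem_al {S : Finset (Pl F)} {p : Pc F} (h : p ∉ al S) : ∃ v, v ∉ S ∧ p = .inl v := by
  rcases p with v | φ
  · exact ⟨v, by simpa [al] using h, rfl⟩
  · simp [al] at h

theorem exists_al (B : Finset (Pc F)) : ∃ S : Finset (Pl F), B ⊆ al S :=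
  ⟨B.toLeft, fun p hp => by rcases p with v | φ <;> simp [al, hp]⟩

theorem al_mono {S S' : Finset (Pl F)} (h : S ⊆ S') : al S ⊆ al S' :=
  Finset.disjSum_mono h le_rfl

theorem hil_out {S : Finset (Pl F)} (h2 : ∀ v, v ∉ S → v.valuation F 2 = 1) {a d : Fˣ}
    (ha : a ∈ (S : Set (Pl F)).unit F) (hd : d ∈ (S : Set (Pl F)).unit F) {p : Pc F}
    (hp : p ∉ al S) : hil p a d = 1 := by
  obtain ⟨v, hv, rfl⟩ := notMem_al hp
  exact hil_unit (h2 v hv) (hd v hv) (ha v hv)

theorem finite_rm (a d : Fˣ) : {p : Pc F | hil p a d = -1}.Finite := by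
  obtain ⟨S₀, h0⟩ := exists_supp a
  obtain ⟨S, hS, h2, -, hd⟩ := exists_big S₀ d
  refine (al S).finite_toSet.subset fun p hp => ?_
  by_contra h
  have := hil_out h2 (unit_mono hS h0) hd h
  rw [hp] at this
  exact absurd this (by decide)

/-- the ramified places of `(a, d)` -/
def rm (a d : Fˣ) : Finset (Pc F) := (finite_rm a d).toFinset

theorem mem_rm {a d : Fˣ} {p : Pc F} : p ∈ rm a d ↔ hil p a d = -1 := by simp [rm]

theorem hv_eq (a d : Fˣ) : hv d a = dl (rm a d) := by
  funext p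
  change hil p a d = dl _ p
  unfold dl
  split_ifs with h
  · exact mem_rm.mp h
  · exact (hil_or p a d).resolve_right fun h' => h (mem_rm.mpr h')

end Symbol

section Bad

/-- `(a, d)` is ramified exactly at `p` for some `a` -/
def Bad (d : Fˣ) (p : Pc F) : Prop := dl {p} ∈ (hv d).range

theorem Bad.notMem {d : Fˣ} {p : Pc F} (h : Bad d p) : d ∉ SqP p := by
  obtain ⟨a, ha⟩ := h
  exact notMem_of_hil (a := a) ((congrFun ha p).trans (by simp [dl]))

open Classical in
/-- the non-split places among `al S` -/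
def nsp (d : Fˣ) (S : Finset (Pl F)) : Finset (Pc F) := (al S).filter fun p => d ∉ SqP p

theorem card_nsp (d : Fˣ) (S : Finset (Pl F)) : (nsp d S).card = ns d S := by
  classical
  have : nsp d S = (S.filter fun v => d ∉ Sq v).disjSum
      (Finset.univ.filter fun φ : F →+* ℝ => φ d < 0) := by
    ext p
    rcases p with v | φ
    · rw [nsp, Finset.mem_filter, Finset.inl_mem_disjSum, Finset.mem_filter, al,
        Finset.inl_mem_disjSum]
      rfl
    · simp [nsp, al, notMem_Pos]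
  rw [this, Finset.card_disjSum, ns]

theorem mem_nsp {d : Fˣ} {S : Finset (Pl F)} {p : Pc F} : p ∈ nsp d S ↔ p ∈ al S ∧ d ∉ SqP p := by
  simp [nsp]

theorem iInf_Lf (d : Fˣ) (S : Finset (Pl F)) :
    ⨅ i, Lf (d : F) S i = ⨅ p ∈ nsp d S, LNP (d : F) p := by
  ext x
  simp only [Subgroup.mem_iInf]
  constructor
  · rintro h (v | φ) hp
    · exact h (.inl ⟨v, by simpa [al] using (mem_nsp.mp hp).1⟩)
    · rw [LNP_inr]; exact h (.inr φ)
  · intro h
    have h' : ∀ p ∈ al S, x ∈ LNP (d : F) p := fun p hp => by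
      by_cases h1 : d ∈ SqP p
      · rw [LNP_top h1]; trivial
      · exact h p (mem_nsp.mpr ⟨hp, h1⟩)
    rintro (v | φ)
    · exact h' (.inl v.1) (by simp [al])
    · have := h' (.inr φ) (by simp [al])
      rwa [LNP_inr] at this

/-- second inequality: two good places are the ramification set of some `(a, d)` -/
theorem pair {d : Fˣ} {p q : Pc F} (hp : d ∉ SqP p) (hq : d ∉ SqP q) (hp' : ¬ Bad d p)
    (hq' : ¬ Bad d q) : dl {p} * dl {q} ∈ (hv d).range := by
  classical
  by_cases hpq : p = q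
  · rw [hpq, dl_mul_self]; exact one_mem _
  by_contra h0
  have hd : d ∉ Sqs F := by
    rintro ⟨y, rfl⟩
    exact hp (sq_mem_SqP p y)
  obtain ⟨S₀, hS₀⟩ := exists_al {p, q}
  obtain ⟨S, hS, h2, hK, hdS⟩ := exists_big S₀ d
  obtain ⟨T, hT, hc⟩ := exists_aux l3Stmt l4Stmt h2 hdS hd
  have h3 := (core l1Stmt l2Stmt l3Stmt h2 hK hdS hd hT hc).2.2
  set U := ((S ∪ T : Finset (Pl F)) : Set (Pl F)).unit F with hU
  rw [iInf_Lf, ← card_nsp] at h3
  have hpN : p ∈ nsp d S := mem_nsp.mpr ⟨al_mono hS (hS₀ (by simp)), hp⟩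
  have hqN : q ∈ (nsp d S).erase p :=
    Finset.mem_erase.mpr ⟨Ne.symm hpq, mem_nsp.mpr ⟨al_mono hS (hS₀ (by simp)), hq⟩⟩
  set N' := ((nsp d S).erase p).erase q with hN'
  have h4 : (nsp d S).card = N'.card + 2 := by
    rw [← Finset.card_erase_add_one hpN, ← Finset.card_erase_add_one hqN]
  have h5 : (⨅ r ∈ N', LNP (d : F) r) ⊓ U ≤ ⨅ r ∈ nsp d S, LNP (d : F) r := by
    rintro u ⟨hu, huU⟩
    have h6 : ∀ r, r ≠ p → r ≠ q → hil r u d = 1 := by
      intro r h7 h8
      by_cases h9 : d ∈ SqP r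
      · exact hil_of_SqP' h9 u
      by_cases h10 : r ∈ al S
      · exact hil_eq_one.mpr (Subgroup.mem_iInf.mp (Subgroup.mem_iInf.mp hu r)
          (Finset.mem_erase.mpr ⟨h8, Finset.mem_erase.mpr ⟨h7, mem_nsp.mpr ⟨h10, h9⟩⟩⟩))
      · obtain ⟨v, hv, rfl⟩ := notMem_al h10
        have h11 : v ∉ T := fun h => h9 (hT.split v h)
        exact hil_unit (h2 v hv) (hdS v hv) (huU v (by simp [hv, h11]))
    have h7 : hil p u d = 1 ∧ hil q u d = 1 := by
      rcases hil_or p u d with e1 | e1 <;> rcases hil_or q u d with e2 | e2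
      · exact ⟨e1, e2⟩
      · refine absurd ⟨u, funext fun r => ?_⟩ hq'
        change hil r u d = _
        by_cases h8 : r = q
        · simp [dl, h8, e2]
        by_cases h9 : r = p
        · simp [dl, h9, hpq, e1]
        · simp [dl, h8, h6 r h9 h8]
      · refine absurd ⟨u, funext fun r => ?_⟩ hp'
        change hil r u d = _
        by_cases h8 : r = p
        · simp [dl, h8, e1]
        by_cases h9 : r = q
        · simp [dl, h9, Ne.symm hpq, e2]
        · simp [dl, h8, h6 r h8 h9]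
      · refine absurd ⟨u, funext fun r => ?_⟩ h0
        change hil r u d = _
        by_cases h8 : r = p
        · simp [dl, h8, e1, hpq]
        by_cases h9 : r = q
        · simp [dl, h9, Ne.symm hpq, e2]
        · simp [dl, h8, h9, h6 r h8 h9]
    refine Subgroup.mem_iInf.mpr fun r => Subgroup.mem_iInf.mpr fun _ => hil_eq_one.mp ?_
    by_cases h8 : r = p
    · rw [h8]; exact h7.1
    by_cases h9 : r = q
    · rw [h9]; exact h7.2
    · exact h6 r h8 h9
  have h6 : (⨅ r ∈ N', LNP (d : F) r).index ≤ 2 ^ N'.card ∧ (⨅ r ∈ N', LNP (d : F) r).index ≠ 0 := by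
    have h7 : ∀ r : N', (LNP (d : F) r.1).index = 2 := fun r =>
      index_LNP (mem_nsp.mp (Finset.mem_of_mem_erase (Finset.mem_of_mem_erase r.2))).2
    rw [iInf_subtype']
    refine ⟨(Subgroup.index_iInf_le _).trans (le_of_eq ?_),
      Subgroup.index_iInf_ne_zero fun r => by rw [h7 r]; exact two_ne_zero⟩
    simp only [h7, Finset.prod_const, Finset.card_univ, Fintype.card_coe]
  have h7 : (⨅ r ∈ N', LNP (d : F) r).relIndex U ≤ 2 ^ N'.card := by
    refine le_trans ?_ h6.1
    rw [← Subgroup.relIndex_top_right]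
    exact Subgroup.relIndex_le_of_le_right le_top (by rw [Subgroup.relIndex_top_right]; exact h6.2)
  have h8 := Subgroup.relIndex_le_of_le_left (L := U) h5 (by
    rw [Subgroup.inf_relIndex_right]
    exact fun h => h6.2 (Subgroup.index_eq_zero_of_relIndex_eq_zero h))
  rw [Subgroup.inf_relIndex_right] at h8
  rw [h4, pow_add] at h3
  have h9 : 0 < 2 ^ N'.card := by positivity
  omega

theorem exists_unif {S : Finset (Pl F)} (hK : Kill S) (v : Pl F) (hv : v ∉ S) :
    ∃ c : Fˣ, ord (𝓞 F) v c = 1 ∧ ∀ w, w ∉ S → w ≠ v → w.valuation F (c : F) = 1 := by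
  classical
  obtain ⟨c, hc⟩ := hK.ord (fun w => if w = v then 1 else 0)
    ((Set.finite_singleton v).subset fun w hw => by
      by_contra h4
      exact hw (if_neg h4))
  refine ⟨c, by rw [hc v hv, if_pos rfl], fun w hw hne => ?_⟩
  rw [valuation_eq_one_iff, hc w hw, if_neg hne]

/-- first inequality: some non-split place is good -/
theorem exists_good {d : Fˣ} (hd : d ∉ Sqs F) : ∃ p, d ∉ SqP p ∧ ¬ Bad d p := by
  classical
  by_contra h0
  push Not at h0
  obtain ⟨S, -, h2, hK, hdS⟩ := exists_big ∅ d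
  choose! a ha using h0
  choose R hR using fun p => exists_supp (a p)
  set S' := S ∪ (nsp d S).biUnion R with hS'
  have hSS : S ⊆ S' := Finset.subset_union_left
  set U := (S' : Set (Pl F)).unit F with hU
  have h3 : ∀ p ∈ nsp d S, dl {p} ∈ U.map (hv d) := fun p hp =>
    ⟨a p, unit_mono ((Finset.subset_biUnion_of_mem R hp).trans Finset.subset_union_right) (hR p),
      ha p (mem_nsp.mp hp).2⟩
  have h4 : ∀ p ∈ nsp d S', dl {p} ∈ U.map (hv d) := by
    intro p hp
    by_cases h5 : p ∈ al S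
    · exact h3 p (mem_nsp.mpr ⟨h5, (mem_nsp.mp hp).2⟩)
    obtain ⟨v, hv, rfl⟩ := notMem_al h5
    obtain ⟨c, hc, hc'⟩ := exists_unif hK v hv
    have hvS : v ∈ S' := by simpa [al] using (mem_nsp.mp hp).1
    have h6 : c ∈ U := fun w hw => hc' w (fun h => hw (hSS h)) (by rintro rfl; exact hw hvS)
    have h7 : .inl v ∈ rm c d := mem_rm.mpr (hil_unif (h2 v hv) (hdS v hv) (mem_nsp.mp hp).2 hc)
    have h8 : dl (rm c d) ∈ U.map (R7.hv d) := ⟨c, h6, hv_eq c d⟩
    rw [dl_prod, ← Finset.mul_prod_erase _ _ h7] at h8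
    refine (mul_mem_cancel_right (prod_mem fun q hq => h3 q ?_)).mp h8
    obtain ⟨h9, h10⟩ := Finset.mem_erase.mp hq
    rw [mem_rm] at h10
    refine mem_nsp.mpr ⟨?_, notMem_of_hil h10⟩
    by_contra h11
    obtain ⟨w, hw, rfl⟩ := notMem_al h11
    rw [hil_unit (h2 w hw) (hdS w hw) (hc' w hw fun h => h9 (by rw [h]))] at h10
    exact absurd h10 (by decide)
  obtain ⟨h5, h6⟩ := ambStmt F S' d hd (hK.mono hSS) (fun v hv => h2 v fun h => hv (hSS h))
    (unit_mono hSS hdS)
  change 2 * (Nr (d : F)).relIndex U ≤ 2 ^ ns d S' at h6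
  have h7 : Nr (d : F) ≤ ⨅ p ∈ nsp d S', LNP (d : F) p := le_iInf₂ fun _ _ => le_sup_left
  have h8 := two_pow_le_relIndex U (LNP (d : F)) (nsp d S') (fun p hp => by
      obtain ⟨g, hg, h9⟩ := h4 p hp
      refine ⟨g, hg, hil_eq_neg.mp ((congrFun h9 p).trans (by simp [dl])), fun q _ hne => ?_⟩
      exact hil_eq_one.mp ((congrFun h9 q).trans (by simp [dl, hne])))
    (fun h => h5 (Subgroup.relIndex_eq_zero_of_le_left h7 h))
  have h9 := Subgroup.relIndex_le_of_le_left h7 h5
  rw [card_nsp] at h8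
  have h10 : 0 < 2 ^ ns d S' := by positivity
  change (⨅ p ∈ nsp d S', LNP (d : F) p).relIndex U ≤ (Nr (d : F)).relIndex U at h9
  omega

/-- an even set of good places is a ramification set; an odd one is not -/
theorem even_of_mem {d : Fˣ} {B : Finset (Pc F)} (hB : ∀ p ∈ B, d ∉ SqP p ∧ ¬ Bad d p) :
    dl B ∈ (hv d).range ↔ Even B.card := by
  rcases B.eq_empty_or_nonempty with rfl | ⟨p, hp⟩
  · simp only [Finset.card_empty, Even.zero, iff_true]
    exact dl_mem (by simp)
  have h1 : dl {p} ^ B.card * dl B ∈ (hv d).range := by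
    rw [dl_prod B, ← Finset.prod_const, ← Finset.prod_mul_distrib]
    exact prod_mem fun q hq => pair (hB p hp).1 (hB q hq).1 (hB p hp).2 (hB q hq).2
  have h2 : dl ({p} : Finset (Pc F)) ^ 2 = 1 := by rw [pow_two, dl_mul_self]
  constructor
  · intro h
    by_contra h3
    obtain ⟨k, hk⟩ := Nat.not_even_iff_odd.mp h3
    rw [mul_mem_cancel_right h, hk, pow_succ, pow_mul, h2, one_pow, one_mul] at h1
    exact (hB p hp).2 h1
  · rintro ⟨k, hk⟩
    rwa [hk, ← two_mul, pow_mul, h2, one_pow, one_mul] at h1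

open Classical in
/-- partial reciprocity -/
theorem even_good (a d : Fˣ) : Even ((rm a d).filter fun p => ¬ Bad d p).card := by
  refine (even_of_mem (d := d) fun p hp => ?_).mp ?_
  · obtain ⟨h1, h2⟩ := Finset.mem_filter.mp hp
    exact ⟨notMem_of_hil (mem_rm.mp h1), h2⟩
  · have h1 : dl (rm a d) ∈ (hv d).range := ⟨a, hv_eq a d⟩
    rw [dl_prod, ← Finset.prod_filter_mul_prod_filter_not _ (Bad d)] at h1
    rw [dl_prod]
    exact (mul_mem_cancel_left (prod_mem fun q hq => (Finset.mem_filter.mp hq).2)).mp h1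

open Classical in
theorem prod_hil (a d : Fˣ) (G : Finset (Pc F)) :
    ∏ p ∈ G, hil p a d = (-1) ^ (G.filter fun p => p ∈ rm a d).card := by
  rw [← Finset.prod_const, Finset.prod_filter]
  exact Finset.prod_congr rfl fun p _ => congrFun (hv_eq a d) p

end Bad

end Crest.Agent.T24.Hil.R7
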