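import Crest.Agent.T24.HnAmb_7

/-!
# Row 24, Hasse norm theorem: the second inequality and the final count
-/

set_option autoImplicit false
set_option linter.unusedSectionVars false

noncomputable section

open scoped NumberField nonZeroDivisors
open IsDedekindDomain Module

namespace Crest.Agent.T24.Hn

open Crest.Agent.R018.Selmerx380 Crest.Agent.R018.SLatx824

section Grp

variable {G : Type*} [CommGroup G] {ι : Type*}

/-- independent elements give a large index -/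
theorem two_pow_le_relIndex (U : Subgroup G) (K : ι → Subgroup G) (I : Finset ι)
    (h : ∀ i ∈ I, ∃ g ∈ U, g ∉ K i ∧ ∀ j ∈ I, j ≠ i → g ∈ K j)
    (h0 : (⨅ i ∈ I, K i).relIndex U ≠ 0) : 2 ^ I.card ≤ (⨅ i ∈ I, K i).relIndex U := by
  classical
  induction I using Finset.induction_on with
  | empty => exact Nat.pos_of_ne_zero h0
  | insert j I hj ih =>
    rw [Finset.iInf_insert, ← Subgroup.relIndex_inf_mul_relIndex] at h0 ⊢
    have h1 := ih (fun i hi => by
      obtain ⟨g, hg, h2, h3⟩ := h i (Finset.mem_insert_of_mem hi)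
      exact ⟨g, hg, h2, fun k hk => h3 k (Finset.mem_insert_of_mem hk)⟩) (right_ne_zero_of_mul h0)
    obtain ⟨g, hg, h2, h3⟩ := h j (Finset.mem_insert_self _ _)
    have h4 : (K j).relIndex ((⨅ i ∈ I, K i) ⊓ U) ≠ 1 := by
      intro h5
      refine h2 (Subgroup.relIndex_eq_one.mp h5 ⟨?_, hg⟩)
      refine Subgroup.mem_iInf.mpr fun i => Subgroup.mem_iInf.mpr fun hi => ?_
      exact h3 i (Finset.mem_insert_of_mem hi) (by rintro rfl; exact hj hi)
    have h5 := left_ne_zero_of_mul h0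
    rw [Finset.card_insert_of_notMem hj, pow_succ, mul_comm]
    exact Nat.mul_le_mul (by omega) h1

/-- passing from the groups `Q i` to larger groups `L i` -/
theorem relIndex_iInf_mul_le [Fintype ι] (U : Subgroup G) (Q L : ι → Subgroup G)
    (h : ∀ i, Q i ≤ L i) (h0 : ∀ i, (Q i).index ≠ 0) :
    (⨅ i, Q i).relIndex U * ∏ i, (L i).index ≤ (∏ i, (Q i).index) * (⨅ i, L i).relIndex U := by
  have h1 : (⨅ i, Q i).relIndex U =
      (⨅ i, Q i).relIndex ((⨅ i, L i) ⊓ U) * (⨅ i, L i).relIndex U := by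
    rw [Subgroup.relIndex_inf_mul_relIndex, inf_eq_left.mpr (iInf_mono h)]
  have h2 : (⨅ i, Q i).relIndex ((⨅ i, L i) ⊓ U) ≤ ∏ i, (Q i).relIndex (L i) := by
    refine (Subgroup.relIndex_iInf_le Q).trans (Finset.prod_le_prod' fun i _ => ?_)
    refine Subgroup.relIndex_le_of_le_right (inf_le_left.trans (iInf_le L i)) fun h3 => h0 i ?_
    exact Subgroup.index_eq_zero_of_relIndex_eq_zero h3
  have h3 : ∏ i, (Q i).index = (∏ i, (Q i).relIndex (L i)) * ∏ i, (L i).index := by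
    rw [← Finset.prod_mul_distrib]
    exact Finset.prod_congr rfl fun i _ => (Subgroup.relIndex_mul_index (h i)).symm
  rw [h1, h3]
  calc _ = (⨅ i, Q i).relIndex ((⨅ i, L i) ⊓ U) * ((∏ i, (L i).index) * (⨅ i, L i).relIndex U) := by
        ring
    _ ≤ (∏ i, (Q i).relIndex (L i)) * ((∏ i, (L i).index) * (⨅ i, L i).relIndex U) := by gcongr
    _ = _ := by ring

end Grp

section Basic

variable {F : Type*} [Field F]

theorem sq_mem_Pos (φ : F →+* ℝ) (y : Fˣ) : y ^ 2 ∈ Pos φ := by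
  rw [mem_Pos, Units.val_pow_eq_pow_val, map_pow]
  exact pow_pos_of_ne_zero_even ((map_ne_zero φ).mpr y.ne_zero)
where pow_pos_of_ne_zero_even {x : ℝ} (h : x ≠ 0) : 0 < x ^ 2 := by positivity

theorem index_Pos (φ : F →+* ℝ) : (Pos φ).index = 2 := by
  rw [Subgroup.index_eq_two_iff_exists_notMem_and]
  refine ⟨-1, by simp [mem_Pos], fun b => ?_⟩
  rcases lt_or_gt_of_ne ((map_ne_zero φ).mpr b.ne_zero) with h | h
  · left; simpa [mem_Pos] using h
  · right; exact h

theorem Nr_le_Pos {d : F} {φ : F →+* ℝ} (h : φ d < 0) : Nr d ≤ Pos φ := by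
  rintro a ⟨x, y, ha⟩
  rw [mem_Pos]
  refine lt_of_le_of_ne ?_ ((map_ne_zero φ).mpr a.ne_zero).symm
  rw [ha, map_sub, map_mul, map_pow, map_pow]
  nlinarith [sq_nonneg (φ x), sq_nonneg (φ y)]

theorem Nr_of_sq [CharZero F] {d : Fˣ} (hd : d ∈ Sqs F) : Nr (d : F) = ⊤ := by
  obtain ⟨r, rfl⟩ := hd
  refine (Subgroup.eq_top_iff' _).mpr fun a => ⟨(a + 1) / 2, (a - 1) / (2 * r), ?_⟩
  have : (r : F) ≠ 0 := r.ne_zero
  simp only [powMonoidHom_apply, Units.val_pow_eq_pow_val]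
  field_simp
  ring

/-- local norms at a real place -/
def LR (d : F) (φ : F →+* ℝ) : Subgroup Fˣ := if φ d < 0 then Pos φ else ⊤

variable [NumberField F]

theorem sq_mem_Sq (v : Pl F) (y : Fˣ) : y ^ 2 ∈ Sq v := by
  refine ⟨(y : F)⁻¹, ?_⟩
  have h : v.valuation F 4 ≠ 0 := by simp
  have : ((y ^ 2 : Fˣ) : F) * (y : F)⁻¹ ^ 2 - 1 = 0 := by
    have : (y : F) ≠ 0 := y.ne_zero
    rw [Units.val_pow_eq_pow_val]; field_simp; ring
  rw [this, map_zero]
  exact zero_lt_iff.mpr h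

theorem unit_mono {S S' : Finset (Pl F)} (h : S ⊆ S') :
    (S : Set (Pl F)).unit F ≤ (S' : Set (Pl F)).unit F :=
  fun _ hx v hv => hx v fun h' => hv (h h')

theorem mem_sqr_unit {S : Finset (Pl F)} {u : Fˣ} (hu : u ∈ (S : Set (Pl F)).unit F)
    (h : u ∈ Sqs F) : u ∈ sqr ((S : Set (Pl F)).unit F) := by
  obtain ⟨y, rfl⟩ := h
  refine ⟨y, fun v hv => ?_, rfl⟩
  have := hu v hv
  rw [powMonoidHom_apply, Units.val_pow_eq_pow_val, map_pow] at this
  exact (pow_eq_one_iff_of_nonneg zero_le two_ne_zero).mp this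

theorem exists_supp (x : Fˣ) : ∃ S : Finset (Pl F), x ∈ (S : Set (Pl F)).unit F := by
  have h := Filter.eventually_cofinite.mp (ord_finite (R := 𝓞 F) x)
  refine ⟨h.toFinset, (mem_unit_iff _ _).mpr fun w hw => ?_⟩
  simpa using hw

/-- squares at all places of `S` and all real places, as one family -/
def Qf (S : Finset (Pl F)) : S ⊕ (F →+* ℝ) → Subgroup Fˣ := Sum.elim (fun v => Sq v.1) Pos

/-- local norms at all places of `S` and all real places, as one family -/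
def Lf (d : F) (S : Finset (Pl F)) : S ⊕ (F →+* ℝ) → Subgroup Fˣ :=
  Sum.elim (fun v => LN d v.1) (LR d)

theorem Qf_le (d : F) (S : Finset (Pl F)) (i : S ⊕ (F →+* ℝ)) : Qf S i ≤ Lf d S i := by
  rcases i with v | φ
  · exact le_sup_right
  · change Pos φ ≤ LR d φ
    unfold LR
    split_ifs
    · exact le_rfl
    · exact le_top

theorem Nr_le_Lf (d : F) (S : Finset (Pl F)) (i : S ⊕ (F →+* ℝ)) : Nr d ≤ Lf d S i := by
  rcases i with v | φ
  · exact le_sup_left
  · change _ ≤ LR d φ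
    unfold LR
    split_ifs with h
    · exact Nr_le_Pos h
    · exact le_top

/-- the auxiliary primes: outside `S`, split, with dual units -/
structure Aux (S : Finset (Pl F)) (d : Fˣ) (T : Finset (Pl F)) : Prop where
  out : ∀ v ∈ T, v ∉ S
  split : ∀ v ∈ T, d ∈ Sq v
  sur : ∀ v ∈ T, ∃ u ∈ (S : Set (Pl F)).unit F, u ∉ Sq v ∧ ∀ v' ∈ T, v' ≠ v → u ∈ Sq v'
  idx : (⨅ v ∈ T, Sq v).relIndex ((S : Set (Pl F)).unit F) = 2 ^ T.card

end Basic

universe u

section Main

variable {F : Type u} [Field F] [NumberField F] {S T : Finset (Pl F)} {d : Fˣ}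

theorem mem_biInf {T : Finset (Pl F)} {K : Pl F → Subgroup Fˣ} {x : Fˣ} :
    x ∈ ⨅ v ∈ T, K v ↔ ∀ v ∈ T, x ∈ K v := by
  simp only [Subgroup.mem_iInf]

open Classical in
theorem Aux.step (h3 : L3Stmt.{u}) (h2 : ∀ v, v ∉ S → v.valuation F 2 = 1) (h : Aux S d T)
    {u : Fˣ} (hu : u ∈ (S : Set (Pl F)).unit F) (huT : ∀ v ∈ T, u ∈ Sq v) {v : Pl F} (hvS : v ∉ S)
    (hd : d ∈ Sq v) (huv : u ∉ Sq v) : v ∉ T ∧ Aux S d (insert v T) := by
  have hvT : v ∉ T := fun h' => huv (huT v h')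
  refine ⟨hvT, fun w hw => ?_, fun w hw => ?_, fun w hw => ?_, ?_⟩
  · rcases Finset.mem_insert.mp hw with rfl | hw
    exacts [hvS, h.out w hw]
  · rcases Finset.mem_insert.mp hw with rfl | hw
    exacts [hd, h.split w hw]
  · rcases Finset.mem_insert.mp hw with rfl | hw
    · refine ⟨u, hu, huv, fun w' hw' hne => huT w' ?_⟩
      exact (Finset.mem_insert.mp hw').resolve_left hne
    · obtain ⟨u', hu', h4, h5⟩ := h.sur w hw
      by_cases h6 : u' ∈ Sq v
      · refine ⟨u', hu', h4, fun w' hw' hne => ?_⟩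
        rcases Finset.mem_insert.mp hw' with rfl | hw'
        exacts [h6, h5 w' hw' hne]
      · refine ⟨u' * u, mul_mem hu' hu, fun h7 => h4 ((mul_mem_cancel_right (huT w hw)).mp h7),
          fun w' hw' hne => ?_⟩
        rcases Finset.mem_insert.mp hw' with rfl | hw'
        · exact h3 F w' u' u (h2 _ hvS) (hu' _ hvS) (hu _ hvS) h6 huv
        · exact mul_mem (h5 w' hw' hne) (huT w' hw')
  · rw [Finset.iInf_insert, ← Subgroup.relIndex_inf_mul_relIndex, h.idx,
      Finset.card_insert_of_notMem hvT, pow_succ, mul_comm]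
    congr 1
    rw [Subgroup.relIndex_eq_two_iff_exists_notMem_and]
    refine ⟨u, ⟨mem_biInf.mpr huT, hu⟩, huv, fun b hb => ?_⟩
    by_cases h6 : b ∈ Sq v
    · exact Or.inr h6
    · exact Or.inl (h3 F v b u (h2 _ hvS) (hb.2 _ hvS) (hu _ hvS) h6 huv)

theorem exists_aux (h3 : L3Stmt.{u}) (h4 : L4Stmt.{u}) (h2 : ∀ v, v ∉ S → v.valuation F 2 = 1)
    (hdS : d ∈ (S : Set (Pl F)).unit F) (hd : d ∉ Sqs F) :
    ∃ T, Aux S d T ∧ T.card + 1 = S.card + Fintype.card (NumberField.InfinitePlace F) := by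
  classical
  set U := (S : Set (Pl F)).unit F with hU
  have sU : (sqr U).relIndex U = 2 ^ (S.card + Fintype.card (NumberField.InfinitePlace F)) :=
    suStmt F S
  have hle : ∀ T : Finset (Pl F), sqr U ≤ (⨅ v ∈ T, Sq v) ⊓ U := fun T =>
    le_inf (by rintro _ ⟨y, _, rfl⟩; exact mem_biInf.mpr fun v _ => sq_mem_Sq v y) (sq_le U)
  have key : ∀ n : ℕ, ∃ T, Aux S d T ∧
      ((∀ u ∈ U, (∀ v ∈ T, u ∈ Sq v) → u * d ∈ sqr U ∨ u ∈ sqr U) ∨ n ≤ T.card) := by
    intro n
    induction n with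
    | zero => exact ⟨∅, ⟨by simp, by simp, by simp, by simp⟩, Or.inr (Nat.zero_le _)⟩
    | succ n ih =>
      obtain ⟨T, hT, h | h⟩ := ih
      · exact ⟨T, hT, Or.inl h⟩
      by_cases h5 : ∀ u ∈ U, (∀ v ∈ T, u ∈ Sq v) → u * d ∈ sqr U ∨ u ∈ sqr U
      · exact ⟨T, hT, Or.inl h5⟩
      push Not at h5
      obtain ⟨u, hu, huT, h6, h7⟩ := h5
      have h8 := h4 F d u (fun h' => h7 (mem_sqr_unit hu h'))
        (fun h' => h6 (mem_sqr_unit (mul_mem hu hdS) (mul_comm d u ▸ h')))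
      obtain ⟨v, hv, hvS⟩ := h8.exists_notMem_finset S
      obtain ⟨h9, h10⟩ := hT.step h3 h2 hu huT hvS hv.1 hv.2
      exact ⟨_, h10, Or.inr (by rw [Finset.card_insert_of_notMem h9]; omega)⟩
  obtain ⟨T, hT, h⟩ := key (S.card + Fintype.card (NumberField.InfinitePlace F) + 1)
  have h5 := Subgroup.relIndex_mul_relIndex _ _ _ (hle T) (inf_le_right (b := U))
  rw [Subgroup.inf_relIndex_right, hT.idx, sU] at h5
  rcases h with h | h
  · refine ⟨T, hT, ?_⟩
    have h6 : (sqr U).relIndex ((⨅ v ∈ T, Sq v) ⊓ U) = 2 := by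
      rw [Subgroup.relIndex_eq_two_iff_exists_notMem_and]
      refine ⟨d, ⟨mem_biInf.mpr hT.split, hdS⟩, ?_, fun b hb => h b hb.2 (mem_biInf.mp hb.1)⟩
      rintro ⟨y, _, hy⟩
      exact hd ⟨y, hy⟩
    rw [h6, ← pow_succ'] at h5
    exact Nat.pow_right_injective le_rfl h5
  · exfalso
    have h6 := (Nat.pow_dvd_pow_iff_le_right one_lt_two).mp (Dvd.intro_left _ h5)
    omega

theorem Aux.adj (h3 : L3Stmt.{u}) (h2 : ∀ v, v ∉ S → v.valuation F 2 = 1) (h : Aux S d T)
    (y : Pl F → Fˣ) (hy : ∀ v ∈ T, v.valuation F (y v : F) = 1) :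
    ∃ u ∈ (S : Set (Pl F)).unit F, ∀ v ∈ T, u * y v ∈ Sq v := by
  classical
  choose! g hg hg1 hg2 using h.sur
  refine ⟨∏ v ∈ T.filter fun v => y v ∉ Sq v, g v,
    prod_mem fun v hv => hg v (Finset.mem_filter.mp hv).1, fun v hv => ?_⟩
  by_cases h4 : y v ∈ Sq v
  · refine mul_mem (prod_mem fun w hw => ?_) h4
    obtain ⟨h5, h6⟩ := Finset.mem_filter.mp hw
    exact hg2 w h5 v hv (by rintro rfl; exact h6 h4)
  · rw [← Finset.prod_erase_mul _ _ (Finset.mem_filter.mpr ⟨hv, h4⟩), mul_assoc]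
    refine mul_mem (prod_mem fun w hw => ?_) ?_
    · obtain ⟨h5, h6⟩ := Finset.mem_erase.mp hw
      exact hg2 w (Finset.mem_filter.mp h6).1 v hv h5.symm
    · exact h3 F v _ _ (h2 _ (h.out v hv)) (hg v hv v (h.out v hv)) (hy v hv) (hg1 v hv) h4

open Classical in
theorem Aux.surj (h3 : L3Stmt.{u}) (h2 : ∀ v, v ∉ S → v.valuation F 2 = 1) (hK : Kill S)
    (h : Aux S d T) {v : Pl F} (hv : v ∈ T) (x : Fˣ) :
    ∃ g ∈ ((S ∪ T : Finset (Pl F)) : Set (Pl F)).unit F, g / x ∈ Sq v ∧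
      ∀ v' ∈ T, v' ≠ v → g ∈ Sq v' := by
  obtain ⟨c, hc⟩ := hK.ord (fun w => if w = v then ord (𝓞 F) v x else 0)
    ((Set.finite_singleton v).subset fun w hw => by
      by_contra h4
      exact hw (if_neg h4))
  obtain ⟨u, hu, h4⟩ := h.adj h3 h2 (fun w => if w = v then c / x else c) (fun w hw => by
    rw [valuation_eq_one_iff]
    by_cases h5 : w = v
    · subst h5
      rw [if_pos rfl, ord_div, hc w (h.out w hw), if_pos rfl, sub_self]
    · rw [if_neg h5, hc w (h.out w hw), if_neg h5])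
  refine ⟨u * c, mul_mem (unit_mono Finset.subset_union_left hu) ?_, ?_, fun w hw hne => ?_⟩
  · rw [mem_unit_iff]
    intro w hw
    rw [Finset.mem_coe, Finset.mem_union, not_or] at hw
    rw [hc w hw.1, if_neg]
    rintro rfl
    exact hw.2 hv
  · have := h4 v hv
    rwa [if_pos rfl, ← mul_div_assoc] at this
  · have := h4 w hw
    rwa [if_neg hne] at this

open Classical in
/-- an `S ∪ T`-unit which is a square at all places of `S` and totally positive is a square -/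
theorem Aux.inj (hL2 : L2Stmt.{u}) (h3 : L3Stmt.{u}) (h2 : ∀ v, v ∉ S → v.valuation F 2 = 1)
    (hK : Kill S) (h : Aux S d T) {b : Fˣ}
    (hb : b ∈ ((S ∪ T : Finset (Pl F)) : Set (Pl F)).unit F) (hS : ∀ v ∈ S, b ∈ Sq v)
    (hR : ∀ φ : F →+* ℝ, 0 < φ b) : b ∈ Sqs F := by
  by_contra hb'
  obtain ⟨h4, h5⟩ := ambStmt F (S ∪ T) b hb' (hK.mono Finset.subset_union_left)
    (fun v hv => h2 v fun h' => hv (Finset.mem_union_left _ h')) hb
  have h6 : (Finset.univ.filter fun φ : F →+* ℝ => φ b < 0) = ∅ :=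
    Finset.filter_eq_empty_iff.mpr fun φ _ => not_lt.mpr (hR φ).le
  rw [h6, Finset.card_empty, add_zero] at h5
  set T' := (S ∪ T).filter fun v => b ∉ Sq v with hT'
  have h7 : ∀ v ∈ T', v ∈ T ∧ b ∉ Sq v := by
    intro v hv
    obtain ⟨h8, h9⟩ := Finset.mem_filter.mp hv
    exact ⟨(Finset.mem_union.mp h8).resolve_left fun h' => h9 (hS v h'), h9⟩
  have h8 : Nr (b : F) ≤ ⨅ v ∈ T', LN (b : F) v := le_iInf₂ fun v _ => le_sup_left
  have h9 := two_pow_le_relIndex (((S ∪ T : Finset (Pl F)) : Set (Pl F)).unit F)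
    (LN (b : F)) T' (fun v hv => by
      obtain ⟨x, hx⟩ : ∃ x, x ∉ LN (b : F) v := by
        by_contra h10
        push Not at h10
        exact hL2 F v b (h7 v hv).2 ((Subgroup.eq_top_iff' _).mpr h10)
      obtain ⟨g, hg, h10, h11⟩ := h.surj h3 h2 hK (h7 v hv).1 x
      refine ⟨g, hg, fun h12 => hx ?_, fun w hw hne => Subgroup.mem_sup_right (h11 w (h7 w hw).1 hne)⟩
      have h13 := div_mem h12 (Subgroup.mem_sup_right (S := Nr (b : F)) h10)
      rwa [div_div_cancel] at h13)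
    (fun h0 => h4 (Subgroup.relIndex_eq_zero_of_le_left h8 h0))
  have h10 := Subgroup.relIndex_le_of_le_left h8 h4
  have h11 : 0 < 2 ^ T'.card := by positivity
  omega

open Classical in
/-- number of non-split places among `S` and the real places -/
def ns (d : Fˣ) (S : Finset (Pl F)) : ℕ :=
  (S.filter fun v => d ∉ Sq v).card + (Finset.univ.filter fun φ : F →+* ℝ => φ d < 0).card

theorem index_LN_ne_zero (h1 : L1Stmt.{u}) (d : F) (v : Pl F) : (LN d v).index ≠ 0 := fun h0 =>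
  (h1 F ∅).1 v (Nat.eq_zero_of_zero_dvd (h0 ▸ Subgroup.index_dvd_of_le le_sup_right))

open Classical in
theorem prod_index_LR (d : F) : ∏ φ : F →+* ℝ, (LR d φ).index =
    2 ^ (Finset.univ.filter fun φ : F →+* ℝ => φ d < 0).card := by
  rw [← Finset.prod_const, Finset.prod_filter]
  refine Finset.prod_congr rfl fun φ _ => ?_
  unfold LR
  split_ifs
  · exact index_Pos φ
  · exact Subgroup.index_top

open Classical in
theorem le_prod_index_LN (h1 : L1Stmt.{u}) (hL2 : L2Stmt.{u}) (d : Fˣ) (S : Finset (Pl F)) :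
    2 ^ (S.filter fun v => d ∉ Sq v).card ≤ ∏ v ∈ S, (LN (d : F) v).index := by
  rw [← Finset.prod_const, Finset.prod_filter]
  refine Finset.prod_le_prod' fun v _ => ?_
  have h3 := index_LN_ne_zero h1 (d : F) v
  split_ifs with h
  · omega
  · have := mt Subgroup.index_eq_one.mp (hL2 F v d h)
    omega

open Classical in
/-- **the count**: both inequalities -/
theorem core (h1 : L1Stmt.{u}) (hL2 : L2Stmt.{u}) (h3 : L3Stmt.{u})
    (h2 : ∀ v, v ∉ S → v.valuation F 2 = 1) (hK : Kill S) (hdS : d ∈ (S : Set (Pl F)).unit F)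
    (hd : d ∉ Sqs F) (h : Aux S d T)
    (hT : T.card + 1 = S.card + Fintype.card (NumberField.InfinitePlace F)) :
    (⨅ i, Lf (d : F) S i) ⊓ ((S ∪ T : Finset (Pl F)) : Set (Pl F)).unit F ≤ Nr (d : F) ∧
    ∏ i, (Lf (d : F) S i).index = 2 ^ ns d S ∧
    2 * (⨅ i, Lf (d : F) S i).relIndex (((S ∪ T : Finset (Pl F)) : Set (Pl F)).unit F) =
      2 ^ ns d S := by
  set U := ((S ∪ T : Finset (Pl F)) : Set (Pl F)).unit F with hU
  set r := Fintype.card (NumberField.InfinitePlace F) with hr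
  have hQ : ∀ i, (Qf S i).index ≠ 0 := by
    rintro (v | φ)
    · exact (h1 F S).1 v
    · change (Pos φ).index ≠ 0
      rw [index_Pos]; exact two_ne_zero
  have e1 : ∏ i, (Qf S i).index ≤ 2 ^ (2 * (S.card + r)) := by
    rw [Fintype.prod_sum_type]
    change (∏ v : S, (Sq v.1).index) * ∏ φ : F →+* ℝ, (Pos φ).index ≤ _
    rw [Finset.prod_coe_sort S fun v => (Sq v).index]
    simp only [index_Pos, Finset.prod_const, Finset.card_univ]
    refine (Nat.mul_le_mul_right _ (h1 F S).2).trans (le_of_eq ?_)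
    rw [mul_add, hr, two_card_inf, pow_add, pow_add, pow_mul]
    ring
  have e2 : 2 ^ (S.card + T.card + r) ≤ (⨅ i, Qf S i).relIndex U := by
    have sU : (sqr U).relIndex U = 2 ^ ((S ∪ T).card + r) := suStmt F (S ∪ T)
    rw [Finset.card_union_of_disjoint (Finset.disjoint_right.mpr fun v hv => h.out v hv)] at sU
    rw [← sU, ← Subgroup.inf_relIndex_right (⨅ i, Qf S i)]
    refine Subgroup.relIndex_le_of_le_left ?_ ?_
    · rintro b ⟨hb, hb'⟩
      have hb2 := Subgroup.mem_iInf.mp hb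
      exact mem_sqr_unit hb' (h.inj hL2 h3 h2 hK hb' (fun v hv => hb2 (.inl ⟨v, hv⟩))
        fun φ => hb2 (.inr φ))
    · rw [Subgroup.inf_relIndex_right]
      exact fun h0 => Subgroup.index_iInf_ne_zero hQ (Subgroup.index_eq_zero_of_relIndex_eq_zero h0)
  have e3 := relIndex_iInf_mul_le U (Qf S) (Lf (d : F) S) (Qf_le _ S) hQ
  have e4 : ∏ i, (Lf (d : F) S i).index ≤ 2 * (⨅ i, Lf (d : F) S i).relIndex U := by
    refine Nat.le_of_mul_le_mul_left (c := 2 ^ (S.card + T.card + r)) ?_ (by positivity)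
    refine (Nat.mul_le_mul_right _ e2).trans (e3.trans ((Nat.mul_le_mul_right _ e1).trans ?_))
    rw [← mul_assoc, ← pow_succ]
    exact Nat.mul_le_mul_right _ (Nat.pow_le_pow_right two_pos (by omega))
  have e5 : 2 ^ ns d S ≤ ∏ i, (Lf (d : F) S i).index := by
    rw [Fintype.prod_sum_type]
    change _ ≤ (∏ v : S, (LN (d : F) v.1).index) * ∏ φ : F →+* ℝ, (LR (d : F) φ).index
    rw [Finset.prod_coe_sort S fun v => (LN (d : F) v).index, prod_index_LR, ns, pow_add]
    exact Nat.mul_le_mul_right _ (le_prod_index_LN h1 hL2 d S)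
  obtain ⟨e6, e7⟩ := ambStmt F (S ∪ T) d hd (hK.mono Finset.subset_union_left)
    (fun v hv => h2 v fun h' => hv (Finset.mem_union_left _ h'))
    (unit_mono Finset.subset_union_left hdS)
  have e8 : ((S ∪ T).filter fun v => d ∉ Sq v) = S.filter fun v => d ∉ Sq v := by
    rw [Finset.filter_union, Finset.filter_eq_empty_iff.mpr fun v hv => not_not.mpr (h.split v hv),
      Finset.union_empty]
  rw [e8] at e7
  change 2 * (Nr (d : F)).relIndex U ≤ 2 ^ ns d S at e7
  change (Nr (d : F)).relIndex U ≠ 0 at e6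
  have e9 : Nr (d : F) ≤ ⨅ i, Lf (d : F) S i := le_iInf (Nr_le_Lf _ S)
  have e10 := Subgroup.relIndex_le_of_le_left e9 e6
  have e11 := Subgroup.relIndex_inf_mul_relIndex (Nr (d : F)) (⨅ i, Lf (d : F) S i) U
  rw [inf_eq_left.mpr e9] at e11
  refine ⟨Subgroup.relIndex_eq_one.mp ?_, by omega, by omega⟩
  have e12 : (⨅ i, Lf (d : F) S i).relIndex U = (Nr (d : F)).relIndex U := by omega
  rw [e12] at e11
  exact (mul_eq_right₀ e6).mp e11

/-- a large finite set of places -/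
theorem exists_big (S₀ : Finset (Pl F)) (d : Fˣ) : ∃ S : Finset (Pl F), S₀ ⊆ S ∧
    (∀ v, v ∉ S → v.valuation F 2 = 1) ∧ Kill S ∧ d ∈ (S : Set (Pl F)).unit F := by
  classical
  obtain ⟨S₁, h1⟩ := exists_kill F
  obtain ⟨S₂, h2⟩ := exists_supp (Units.mk0 (2 : F) two_ne_zero)
  obtain ⟨S₃, h3⟩ := exists_supp d
  refine ⟨S₀ ∪ (S₁ ∪ (S₂ ∪ S₃)), Finset.subset_union_left, fun v hv => h2 v fun h => hv ?_,
    h1.mono fun v h => ?_, unit_mono (fun v h => ?_) h3⟩
  · simp [Finset.mem_coe.mp h]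
  · simp [h]
  · simp [h]

end Main

/-- **Hasse norm theorem** for quadratic extensions of number fields. -/
theorem hnStmt_of (h1 : L1Stmt.{u}) (h2 : L2Stmt.{u}) (h3 : L3Stmt.{u}) (h4 : L4Stmt.{u}) :
    HNStmt.{u} := by
  classical
  intro F _ _ d a ha hR
  by_cases hd : d ∈ Sqs F
  · rw [Nr_of_sq hd]; trivial
  obtain ⟨S₀, h0⟩ := exists_supp a
  obtain ⟨S, hS, e2, hK, hdS⟩ := exists_big S₀ d
  obtain ⟨T, hT, hc⟩ := exists_aux h3 h4 e2 hdS hd
  refine (core h1 h2 h3 e2 hK hdS hd hT hc).1 ⟨Subgroup.mem_iInf.mpr ?_,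
    unit_mono (hS.trans Finset.subset_union_left) h0⟩
  rintro (v | φ)
  · exact ha v
  · change a ∈ LR (d : F) φ
    unfold LR
    split_ifs with h
    · exact hR φ h
    · trivial

/-- the local norm index at a non-split place is two -/
theorem index_LN_of (h1 : L1Stmt.{u}) (h2 : L2Stmt.{u}) (h3 : L3Stmt.{u}) (h4 : L4Stmt.{u})
    {F : Type u} [Field F] [NumberField F] (v : Pl F) (d : Fˣ) (hv : d ∉ Sq v) :
    (LN (d : F) v).index = 2 := by
  classical
  have hd : d ∉ Sqs F := by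
    rintro ⟨y, rfl⟩
    exact hv (sq_mem_Sq v y)
  obtain ⟨S, hS, e2, hK, hdS⟩ := exists_big {v} d
  obtain ⟨T, hT, hc⟩ := exists_aux h3 h4 e2 hdS hd
  have h5 := (core h1 h2 h3 e2 hK hdS hd hT hc).2.1
  rw [Fintype.prod_sum_type] at h5
  change (∏ v : S, (LN (d : F) v.1).index) * ∏ φ : F →+* ℝ, (LR (d : F) φ).index = _ at h5
  rw [Finset.prod_coe_sort S fun v => (LN (d : F) v).index, prod_index_LR, ns, pow_add] at h5
  have h6 := Nat.eq_of_mul_eq_mul_right (by positivity) h5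
  have hvS : v ∈ S := hS (Finset.mem_singleton_self v)
  have h7 := le_prod_index_LN h1 h2 d (S.erase v)
  have h8 : (S.filter fun v => d ∉ Sq v).card = ((S.erase v).filter fun v => d ∉ Sq v).card + 1 := by
    rw [Finset.filter_erase, Finset.card_erase_add_one (Finset.mem_filter.mpr ⟨hvS, hv⟩)]
  rw [← Finset.mul_prod_erase _ _ hvS, h8, pow_succ, mul_comm (2 ^ _)] at h6
  have h9 := index_LN_ne_zero h1 (d : F) v
  have h10 := mt Subgroup.index_eq_one.mp (h2 F v d hv)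
  have h11 : (LN (d : F) v).index ≤ 2 :=
    Nat.le_of_mul_le_mul_right ((Nat.mul_le_mul_left _ h7).trans h6.le) (by positivity)
  omega

end Crest.Agent.T24.Hn
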