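import Mathlib

/-!
# Row 24, HOL, leaf H2: periods on a ball of a subgroup (digital line lemma) (helper46)

`Val f La p e E`: the elements of `E` are periods of `f` on `La ∩ {p < e}` (centre `0`: use `fun y => f (y_b + y)`).
-/

set_option autoImplicit false

namespace Crest.Agent.T24.Per

open Finset

variable {V A : Type*} [AddCommGroup V] [Module ℚ V] {f : V → A} {La : AddSubgroup V} {p : Seminorm ℚ V}
  {e : ℝ} {E : Set V}

/-- the elements of `E` are periods of `f` on `La ∩ {p < e}` -/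
def Val (f : V → A) (La : AddSubgroup V) (p : Seminorm ℚ V) (e : ℝ) (E : Set V) : Prop :=
  ∀ x ∈ E, ∀ y ∈ La, p y < e → p (y + x) < e → f (y + x) = f y

/-- the small part of `E` spans `E` -/
def Sm (p : Seminorm ℚ V) (E : Set V) : Prop :=
  ∀ η : ℝ, 0 < η → E ⊆ Submodule.span ℚ {x ∈ E | p x < η}

theorem Val.mono (h : Val f La p e E) {e' : ℝ} {E' : Set V} {La' : AddSubgroup V} (he : e' ≤ e)
    (hE : E' ⊆ E) (hL : La' ≤ La) : Val f La' p e' E' :=
  fun x hx y hy h1 h2 => h x (hE hx) y (hL hy) (h1.trans_le he) (h2.trans_le he)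

theorem Val.inter {A' A'' : Type*} {f' : V → A'} {E' : Set V} (h : Val f La p e E)
    (h' : Val f' La p e E') (op : A → A' → A'') : Val (fun y => op (f y) (f' y)) La p e (E ∩ E') :=
  fun x hx y hy h1 h2 => congrArg₂ op (h x hx.1 y hy h1 h2) (h' x hx.2 y hy h1 h2)

theorem Val.comp {A' : Type*} (h : Val f La p e E) (g : A → A') : Val (fun y => g (f y)) La p e E :=
  fun x hx y hy h1 h2 => congrArg g (h x hx y hy h1 h2)

theorem Val.congr {f' : V → A} (h : Val f La p e E) (hE : E ⊆ La)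
    (hf : ∀ y ∈ La, p y < e → f' y = f y) : Val f' La p e E := fun x hx y hy h1 h2 => by
  rw [hf _ (La.add_mem hy (hE hx)) h2, hf _ hy h1, h x hx y hy h1 h2]

theorem Val.neg (h : Val f La p e E) (hE : E ⊆ La) {x : V} (hx : x ∈ E) {y : V} (hy : y ∈ La)
    (h1 : p y < e) (h2 : p (y + -x) < e) : f (y + -x) = f y := by
  have := h x hx (y + -x) (La.add_mem hy (La.neg_mem (hE hx))) h2 (by simpa using h1)
  simpa using this.symm

/-- a function with all periods is constant -/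
theorem Val.const (h : Val f La p e E) {y : V} (hy : y ∈ E) (h1 : p y < e) : f y = f 0 := by
  simpa using h y hy 0 La.zero_mem (by rw [map_zero]; exact (apply_nonneg p y).trans_lt h1) (by simpa using h1)

theorem small (hV : Val f La p e E) (hE : E ⊆ La) (T : Finset V) (hT : ↑T ⊆ E) (c : V → ℤ)
    (hc : ∀ g ∈ T, |c g| ≤ 1) {y : V} (hy : y ∈ La) (h : p y + ∑ g ∈ T, p g < e) :
    f (y + ∑ g ∈ T, c g • g) = f y := by
  classical
  induction T using Finset.induction_on generalizing y with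
  | empty => simp
  | insert g T hg ih =>
    rw [sum_insert hg] at h
    have hgE : g ∈ E := hT (mem_insert_self g T)
    have h0 : 0 ≤ ∑ g ∈ T, p g := sum_nonneg fun _ _ => apply_nonneg p _
    have h1 := apply_nonneg p g
    have h2 := map_add_le_add p y g
    have h3 := map_add_le_add p y (-g)
    rw [map_neg_eq_map] at h3
    have key : f (y + c g • g) = f y ∧ p (y + c g • g) ≤ p y + p g := by
      obtain h4 | h4 | h4 : c g = 1 ∨ c g = 0 ∨ c g = -1 := by
        have := abs_le.1 (hc g (mem_insert_self g T)); omega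
      · rw [h4, one_smul]; exact ⟨hV g hgE y hy (by linarith) (by linarith), h2⟩
      · rw [h4, zero_smul, add_zero]; exact ⟨rfl, by linarith⟩
      · rw [h4, neg_one_smul]; exact ⟨hV.neg hE hgE hy (by linarith) (by linarith), h3⟩
    rw [sum_insert hg, ← add_assoc, ih (fun x hx => hT (mem_insert_of_mem hx))
      (fun x hx => hc x (mem_insert_of_mem hx)) (La.add_mem hy (La.zsmul_mem (hE hgE) _))
      (by linarith [key.2]), key.1]

theorem round (p : Seminorm ℚ V) (T : Finset V) (q : V → ℚ) :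
    p (∑ g ∈ T, ⌊q g⌋ • g - ∑ g ∈ T, q g • g) ≤ ∑ g ∈ T, p g := by
  rw [← sum_sub_distrib]
  refine (le_sum_of_subadditive p (map_zero p).le (map_add_le_add p) T _).trans (sum_le_sum fun g _ => ?_)
  rw [← Int.cast_smul_eq_zsmul ℚ, ← sub_smul, map_smul_eq_mul]
  refine mul_le_of_le_one_left (apply_nonneg p g) ?_
  rw [← Rat.norm_cast_real, Real.norm_eq_abs, ← Rat.cast_abs, ← Rat.cast_one, Rat.cast_le, abs_le]
  constructor <;> linarith [Int.floor_le (q g), Int.lt_floor_add_one (q g)]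

/-- the digital line -/
theorem line (hV : Val f La p e E) (hE : E ⊆ La) (T : Finset V) (hT : ↑T ⊆ E) (a : V → ℤ) {y : V}
    (hy : y ∈ La) {r : ℝ} (h1 : p y < r) (h2 : p (y + ∑ g ∈ T, a g • g) < r)
    (hr : r + 2 * ∑ g ∈ T, p g ≤ e) : f (y + ∑ g ∈ T, a g • g) = f y := by
  obtain ⟨L, hL0, hL⟩ : ∃ L : ℕ, 0 < L ∧ ∀ g ∈ T, |(a g : ℚ)| ≤ L :=
    ⟨∑ g ∈ T, (a g).natAbs + 1, Nat.succ_pos _, fun g hg => by
      have := single_le_sum (f := fun g => (a g).natAbs) (fun _ _ => Nat.zero_le _) hg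
      rw [← Int.cast_abs, ← Int.natCast_natAbs, Int.cast_natCast, Nat.cast_le]; omega⟩
  have hL1 : (0 : ℚ) < L := Nat.cast_pos.2 hL0
  have key : ∀ s : ℕ, s ≤ L → f (y + ∑ g ∈ T, ⌊(s / L : ℚ) * a g⌋ • g) = f y := by
    intro s hs
    induction s with
    | zero => simp
    | succ s ih =>
      rw [← ih (by omega)]
      have t0 : (0 : ℚ) ≤ s / L := by positivity
      have t1 : (s / L : ℚ) ≤ 1 := by rw [div_le_one hL1, Nat.cast_le]; omega
      have hp : p (y + ∑ g ∈ T, ⌊(s / L : ℚ) * a g⌋ • g) < r + ∑ g ∈ T, p g := by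
        have e1 : y + ∑ g ∈ T, ⌊(s / L : ℚ) * a g⌋ • g =
            ((1 - s / L : ℚ) • y + (s / L : ℚ) • (y + ∑ g ∈ T, a g • g)) +
            (∑ g ∈ T, ⌊(s / L : ℚ) * a g⌋ • g - ∑ g ∈ T, ((s / L : ℚ) * a g) • g) := by
          simp only [smul_add, smul_sum, mul_smul, Int.cast_smul_eq_zsmul, sub_smul, one_smul]; abel
        have e2 := map_add_le_add p ((1 - s / L : ℚ) • y) ((s / L : ℚ) • (y + ∑ g ∈ T, a g • g))
        have e3 : p ((1 - s / L : ℚ) • y) + p ((s / L : ℚ) • (y + ∑ g ∈ T, a g • g)) < r := by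
          have a0 : (0 : ℝ) ≤ ((s / L : ℚ) : ℝ) := by exact_mod_cast t0
          have a1 : ((s / L : ℚ) : ℝ) ≤ 1 := by exact_mod_cast t1
          rw [map_smul_eq_mul, map_smul_eq_mul, ← Rat.norm_cast_real, ← Rat.norm_cast_real, Rat.cast_sub,
            Rat.cast_one, Real.norm_of_nonneg a0, Real.norm_of_nonneg (sub_nonneg.2 a1)]
          rcases le_total (p y) (p (y + ∑ g ∈ T, a g • g)) with h | h <;> nlinarith
        rw [e1]
        linarith [map_add_le_add p ((1 - s / L : ℚ) • y + (s / L : ℚ) • (y + ∑ g ∈ T, a g • g))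
          (∑ g ∈ T, ⌊(s / L : ℚ) * a g⌋ • g - ∑ g ∈ T, ((s / L : ℚ) * a g) • g),
          round p T fun g => (s / L : ℚ) * a g]
      rw [← small hV hE T hT (fun g => ⌊((s + 1 : ℕ) / L : ℚ) * a g⌋ - ⌊(s / L : ℚ) * a g⌋) (fun g hg => ?_)
        (y := y + ∑ g ∈ T, ⌊(s / L : ℚ) * a g⌋ • g)
        (La.add_mem hy (La.sum_mem fun g hg => La.zsmul_mem (hE (hT hg)) _)) (by linarith)]
      · simp only [sub_smul, sum_sub_distrib]; congr 1; abel
      · have e1 : ((s + 1 : ℕ) / L : ℚ) * a g = (s / L : ℚ) * a g + a g / L := by push_cast; ring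
        have e2 := abs_le.1 (hL g hg)
        have e3 : (a g / L : ℚ) ≤ 1 := (div_le_one hL1).2 e2.2
        have e4 : -1 ≤ (a g / L : ℚ) := by rw [le_div_iff₀ hL1]; linarith
        have e5 := Int.floor_mono (add_le_add_right e3 ((s / L : ℚ) * a g))
        have e6 := Int.floor_mono (add_le_add_right e4 ((s / L : ℚ) * a g))
        rw [Int.floor_add_one] at e5
        rw [← sub_eq_add_neg, Int.floor_sub_one] at e6
        rw [e1, abs_le]; constructor <;> omega
  simpa [hL1.ne'] using key L le_rfl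

theorem Sm.exists_finset [Module.Finite ℚ V] (hs : Sm p E) {σ : ℝ} (hσ : 0 < σ) :
    ∃ T : Finset V, ↑T ⊆ E ∧ E ⊆ Submodule.span ℚ (T : Set V) ∧ ∑ g ∈ T, p g ≤ σ := by
  obtain ⟨T, h1, h2, h3, -⟩ := Submodule.exists_finset_span_eq_linearIndepOn ℚ
    {x ∈ E | p x < σ / (Module.finrank ℚ V + 1)}
  refine ⟨T, fun x hx => (h1 hx).1, by rw [h3]; exact hs _ (by positivity), ?_⟩
  refine (sum_le_card_nsmul T _ _ fun g hg => (h1 hg).2.le).trans ?_
  have : (T.card : ℝ) ≤ Module.finrank ℚ V := by rw [h2]; exact_mod_cast Submodule.finrank_le _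
  rw [nsmul_eq_mul, ← mul_div_assoc, div_le_iff₀ (by positivity)]
  nlinarith

theorem exists_round (p : Seminorm ℚ V) {T : Finset V} {x : V} (hx : x ∈ Submodule.span ℚ (T : Set V)) :
    ∃ a : V → ℤ, p (x + ∑ g ∈ T, a g • g) ≤ ∑ g ∈ T, p g := by
  obtain ⟨q, -, hq⟩ := Submodule.mem_span_finset.1 (Submodule.neg_mem _ hx)
  exact ⟨fun g => ⌊q g⌋, by simpa [hq, add_comm] using round p T q⟩

/-- **PER** -/
theorem per [Module.Finite ℚ V] (hE : E ⊆ La) (h4 : ∀ x ∈ E, p x < e / 4) (hs : Sm p E)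
    (hV : Val f La p e E) : Val f La p (e / 4) (AddSubgroup.closure E) := by
  intro x hx y hy h1 h2
  have hcl : AddSubgroup.closure E ≤ La := (AddSubgroup.closure_le La).2 hE
  have he : 0 < e := by linarith [apply_nonneg p y]
  obtain ⟨M, hM⟩ : ∃ M : ℕ, ∀ T : Finset V, ↑T ⊆ E → E ⊆ Submodule.span ℚ (T : Set V) →
      ∃ a : V → ℤ, p (x + ∑ g ∈ T, a g • g) ≤ M * ∑ g ∈ T, p g ∧ ∀ y ∈ La,
        p y + (M + 2) * ∑ g ∈ T, p g < 3 / 4 * e → f (y + (x + ∑ g ∈ T, a g • g)) = f y := by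
    clear h1 h2 hy y
    have one : ∀ x ∈ La, p x < e / 4 → (∀ y ∈ La, p y < e → p (y + x) < e → f (y + x) = f y) →
        ∀ T : Finset V, ↑T ⊆ E → x ∈ Submodule.span ℚ (T : Set V) →
        ∃ a : V → ℤ, p (x + ∑ g ∈ T, a g • g) ≤ (1 : ℕ) * ∑ g ∈ T, p g ∧ ∀ y ∈ La,
          p y + ((1 : ℕ) + 2) * ∑ g ∈ T, p g < 3 / 4 * e → f (y + (x + ∑ g ∈ T, a g • g)) = f y := by
      intro x hx h1 h2 T hT h3
      obtain ⟨a, ha⟩ := exists_round p h3
      have h0 : 0 ≤ ∑ g ∈ T, p g := sum_nonneg fun _ _ => apply_nonneg p _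
      refine ⟨a, by simpa using ha, fun y hy h => ?_⟩
      push_cast at h
      have b1 := map_add_le_add p y x
      have b2 := map_add_le_add p y (x + ∑ g ∈ T, a g • g)
      rw [← add_assoc] at b2 ⊢
      rw [line hV hE T hT a (La.add_mem hy hx) (r := p y + e / 4 + ∑ g ∈ T, p g) (by linarith) (by linarith)
        (by linarith), h2 y hy (by linarith) (by linarith)]
    induction hx using AddSubgroup.closure_induction'' with
    | mem x hx => exact ⟨1, fun T hT h => one x (hE hx) (h4 x hx) (hV x hx) T hT (h hx)⟩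
    | neg_mem x hx =>
      exact ⟨1, fun T hT h => one (-x) (La.neg_mem (hE hx)) (by rw [map_neg_eq_map]; exact h4 x hx)
        (fun y hy => hV.neg hE hx hy) T hT (Submodule.neg_mem _ (h hx))⟩
    | zero => exact ⟨0, fun T _ _ => ⟨0, by simp, by simp⟩⟩
    | add x x' hx hx' ih ih' =>
      obtain ⟨M, hM⟩ := ih
      obtain ⟨M', hM'⟩ := ih'
      refine ⟨M + M', fun T hT h => ?_⟩
      obtain ⟨a, a1, a2⟩ := hM T hT h
      obtain ⟨b, b1, b2⟩ := hM' T hT h
      have h0 : 0 ≤ ∑ g ∈ T, p g := sum_nonneg fun _ _ => apply_nonneg p _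
      have e1 : x + x' + ∑ g ∈ T, (a + b) g • g = (x + ∑ g ∈ T, a g • g) + (x' + ∑ g ∈ T, b g • g) := by
        simp only [Pi.add_apply, add_smul, sum_add_distrib]; abel
      refine ⟨a + b, ?_, fun y hy h => ?_⟩
      · rw [e1]; push_cast
        linarith [map_add_le_add p (x + ∑ g ∈ T, a g • g) (x' + ∑ g ∈ T, b g • g)]
      · push_cast at h
        have := mul_nonneg (Nat.cast_nonneg (α := ℝ) M') h0
        rw [e1, ← add_assoc, b2 _ (La.add_mem hy (La.add_mem (hcl hx)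
          (La.sum_mem fun g hg => La.zsmul_mem (hE (hT hg)) _)))
          (by linarith [map_add_le_add p y (x + ∑ g ∈ T, a g • g)]), a2 y hy (by linarith)]
  obtain ⟨T, hT, h3, hσ⟩ := hs.exists_finset (σ := e / (2 * (M + 2))) (by positivity)
  obtain ⟨a, a1, a2⟩ := hM T hT h3
  have h0 : 0 ≤ ∑ g ∈ T, p g := sum_nonneg fun _ _ => apply_nonneg p _
  rw [le_div_iff₀ (by positivity)] at hσ
  have := mul_nonneg (Nat.cast_nonneg (α := ℝ) M) h0
  rw [← a2 y hy (by linarith), ← add_assoc, line hV hE T hT a (La.add_mem hy (hcl hx))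
    (r := e / 4 + M * ∑ g ∈ T, p g) (by linarith)
    (by rw [add_assoc]; linarith [map_add_le_add p y (x + ∑ g ∈ T, a g • g)]) (by linarith)]

/-- a subgroup whose small part spans it is generated by its small part -/
theorem Sm.le_closure [Module.Finite ℚ V] {P : AddSubgroup V} (hs : Sm p P) {η : ℝ} (hη : 0 < η) :
    P ≤ AddSubgroup.closure {x ∈ (P : Set V) | p x < η} := fun x hx => by
  obtain ⟨T, hT, h3, hσ⟩ := hs.exists_finset (half_pos hη)
  obtain ⟨a, ha⟩ := exists_round p (h3 hx)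
  have h1 : x + ∑ g ∈ T, a g • g ∈ {x ∈ (P : Set V) | p x < η} :=
    ⟨P.add_mem hx (P.sum_mem fun g hg => P.zsmul_mem (hT hg) _), (ha.trans hσ).trans_lt (half_lt_self hη)⟩
  have h2 : ∀ g ∈ T, g ∈ {x ∈ (P : Set V) | p x < η} := fun g hg => ⟨hT hg, by
    linarith [single_le_sum (f := fun g => p g) (fun _ _ => apply_nonneg p _) hg]⟩
  simpa using AddSubgroup.sub_mem _ (AddSubgroup.subset_closure h1) (AddSubgroup.sum_mem _ fun g hg =>
    AddSubgroup.zsmul_mem _ (AddSubgroup.subset_closure (h2 g hg)) (a g))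

theorem Sm.closure (hs : Sm p E) : Sm p (AddSubgroup.closure E) := fun η hη =>
  (AddSubgroup.closure_le (Submodule.span ℚ _).toAddSubgroup).2 fun _ hx =>
    Submodule.span_mono (fun _ hy => And.intro (AddSubgroup.subset_closure hy.1) hy.2) (hs η hη hx)

theorem Sm.iSup {ι : Sort*} {P : ι → AddSubgroup V} (hs : ∀ i, Sm p (P i)) :
    Sm p (⨆ i, P i : AddSubgroup V) := fun η hη =>
  (iSup_le fun i _ hx => Submodule.span_mono (fun _ hy => And.intro (le_iSup P i hy.1) hy.2)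
    (hs i η hη hx) : ⨆ i, P i ≤ (Submodule.span ℚ _).toAddSubgroup)

/-- **sums of period groups** -/
theorem per_iSup [Module.Finite ℚ V] {ι : Sort*} {P : ι → AddSubgroup V} (hL : ∀ i, P i ≤ La)
    (hs : ∀ i, Sm p (P i)) (hV : ∀ i, Val f La p e (P i)) :
    Val f La p (e / 4) (⨆ i, P i : AddSubgroup V) := by
  intro x hx y hy h1 h2
  have he : 0 < e / 4 := (apply_nonneg p y).trans_lt h1
  refine per (E := {x | ∃ i, x ∈ P i ∧ p x < e / 4}) (fun _ ⟨i, h, _⟩ => hL i h) (fun _ ⟨_, _, h⟩ => h)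
    (fun η hη x ⟨i, h, _⟩ => Submodule.span_mono ?_ (hs i (min η (e / 4)) (lt_min hη he) h))
    (fun x ⟨i, h, _⟩ => hV i x h) x ?_ y hy h1 h2
  · exact fun z hz => ⟨⟨i, hz.1, hz.2.trans_le (min_le_right _ _)⟩, hz.2.trans_le (min_le_left _ _)⟩
  · exact (iSup_le fun i => ((hs i).le_closure he).trans
      (AddSubgroup.closure_mono fun z hz => Exists.intro i hz) : ⨆ i, P i ≤ _) hx

/-- local-global: multiples prime to every prime -/
theorem mem_of_primes {G : Type*} [AddCommGroup G] {P : AddSubgroup G} {x : G}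
    (h : ∀ q : ℕ, q.Prime → ∃ M : ℕ, ¬ q ∣ M ∧ M • x ∈ P) : x ∈ P := by
  classical
  have hex : ∃ M : ℕ, 0 < M ∧ M • x ∈ P := by
    obtain ⟨M, h1, h2⟩ := h 2 Nat.prime_two
    exact ⟨M, Nat.pos_of_ne_zero fun h0 => h1 (h0 ▸ dvd_zero _), h2⟩
  obtain ⟨h0, h1⟩ := Nat.find_spec hex
  by_cases h2 : Nat.find hex = 1
  · rwa [h2, one_smul] at h1
  obtain ⟨q, hq, hd⟩ := Nat.exists_prime_and_dvd h2
  obtain ⟨M, h3, h4⟩ := h q hq
  have h5 : (M % Nat.find hex) • x ∈ P := by
    have : (M % Nat.find hex) • x = M • x - (M / Nat.find hex) • Nat.find hex • x := by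
      rw [eq_sub_iff_add_eq, ← mul_smul, ← add_smul, Nat.mod_add_div']
    rw [this]; exact P.sub_mem h4 (P.nsmul_mem h1 _)
  have h6 : M % Nat.find hex = 0 := by
    by_contra h6
    exact Nat.find_min hex (Nat.mod_lt M h0) ⟨Nat.pos_of_ne_zero h6, h5⟩
  exact absurd (hd.trans (Nat.dvd_of_mod_eq_zero h6)) h3

end Crest.Agent.T24.Per
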