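import Crest.Agent.T24.HolCDef_25
import Crest.Agent.T24.HolPer_46
import Crest.Agent.T24.HolId_32
import Crest.Agent.T24.InNear_23

/-!
# Row 24, HOL, leaf H5 (helper25): period modules
-/

set_option autoImplicit false

noncomputable section

namespace Crest.Agent.T24.HolC

open Filter NumberField Asa In Module Polynomial Csa
open scoped Topology

section top

variable {N : ℕ} {B : Type*} [Ring B] [Algebra ℚ B] [FiniteDimensional ℚ B]

variable (B) in
theorem exists_sem : ∃ p : Seminorm ℚ B, ∀ a : B,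
    (na a).HasBasis (fun ε : ℝ => 0 < ε) fun ε => {x | p (x - a) < ε} := by
  obtain ⟨n, ρ, h⟩ := exists_rep B
  refine ⟨Seminorm.of (fun x => ‖ρ x‖) (fun x y => by rw [map_add]; exact norm_add_le _ _)
    fun q x => ?_, fun a => ?_⟩
  · rw [map_rat_smul, ← Rat.cast_smul_eq_qsmul ℝ, norm_smul, Rat.norm_cast_real]
  · rw [h]
    refine (Metric.nhds_basis_ball.comap ρ).congr (fun _ => Iff.rfl) fun ε _ => ?_
    ext x
    simp only [Set.mem_preimage, mem_ball_iff_norm, ← map_sub, Set.mem_ofPred_eq]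
    rfl

theorem ng_iv (hN : 2 ≤ N) {α : Type*} {l : Filter α} {f : α → B} {a : B} (ha : IsUnit a)
    (hf : Tendsto f l (ng N a)) : (∀ᶠ i in l, IsUnit (f i)) ∧
      Tendsto (fun i => Ring.inverse (f i)) l (ng N (Ring.inverse a)) := by
  obtain ⟨u, rfl⟩ := ha
  have h1 : Tendsto (fun i => ↑u⁻¹ * f i) l (ng N 1) := by simpa using ng_mul (ng_const ↑u⁻¹) hf
  have h2 : ∀ᶠ i in l, IsUnit (f i) := (h1.eventually (ng_isUnit hN)).mono fun i h => by
    simpa using u.isUnit.mul h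
  refine ⟨h2, ?_⟩
  have h3 := ng_mul (ng_inv hN h1) (ng_const (↑u⁻¹ : B))
  rw [one_mul] at h3
  rw [Ring.inverse_unit]
  refine h3.congr' (h2.mono fun i h => ?_)
  obtain ⟨v, hv⟩ := h
  simp only [← hv]
  rw [← Units.val_mul, Ring.inverse_unit, Ring.inverse_unit, ← Units.val_mul]
  simp

end top

variable {K : Type*} [Field K] [NumberField K] [StarRing K] {N : ℕ}

variable (K N) in
/-- integral at the non-split places and at `N` -/
def Rb : Subring K where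
  carrier := {c | ∀ w : Pl K, (¬ Split w ∨ (N : 𝓞 K) ∈ w.asIdeal) → w.valuation K c ≤ 1}
  mul_mem' ha hb w hw := by rw [map_mul]; exact mul_le_one' (ha w hw) (hb w hw)
  one_mem' w _ := by simp
  add_mem' ha hb w hw := Valuation.map_add_le _ (ha w hw) (hb w hw)
  zero_mem' w _ := by simp
  neg_mem' ha w hw := by rw [Valuation.map_neg]; exact ha w hw

theorem int_mem (r : 𝓞 K) : (r : K) ∈ Rb K N := fun w _ => val_int w r

omit [StarRing K] in
theorem exists_nat (c : K) : ∃ b : ℕ, b ≠ 0 ∧ ∃ r : 𝓞 K, (r : K) = b * c := by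
  obtain ⟨b, h1, -, h2⟩ := N23.exists_den_coprime (N := 1) (c := c) fun v hv =>
    absurd ((Ideal.eq_top_iff_one _).2 (by simpa using hv)) v.isPrime.ne_top
  exact ⟨b, h1, h2⟩

omit [StarRing K] in
theorem ev_int (hN : 2 ≤ N) :
    ∀ᶠ x in ng N (0 : K), ∀ w : Pl K, (N : 𝓞 K) ∈ w.asIdeal → w.valuation K x ≤ 1 := by
  filter_upwards [ng_le_nr _ ((N23.basis_val (Basis.singleton Unit K) (by omega : N ≠ 0) 0).mem_of_mem
    (i := 0) trivial)] with x hx w hw
  simpa using hx w hw ()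

theorem ev_mul (hN : 2 ≤ N) {M₀ : ℕ} (h0 : M₀ ≠ 0) :
    ∀ᶠ x in ng N (0 : K), ∃ M : ℕ, M.Coprime N ∧ ∃ r ∈ Rb K N, M * x = M₀ * r := by
  have h : Tendsto (fun x : K => x * (M₀ : K)⁻¹) (ng N 0) (ng N 0) := by
    simpa using ng_mul (tendsto_id (x := ng N (0 : K))) (ng_const (M₀ : K)⁻¹)
  filter_upwards [h.eventually (ev_int hN)] with x hx
  obtain ⟨b, -, h1, r, h2⟩ := N23.exists_den_coprime hx
  have : (M₀ : K) ≠ 0 := by exact_mod_cast h0
  exact ⟨b, h1, r, int_mem r, by rw [h2]; field_simp⟩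

theorem exists_mul {q : ℕ} (hq : q.Prime) (hN : ¬ q ∣ N) {x : K}
    (h : ∀ w : Pl K, (q : 𝓞 K) ∈ w.asIdeal → ¬ Split w → w.valuation K x ≤ 1) :
    ∃ M : ℕ, ¬ q ∣ M ∧ M * x ∈ Rb K N := by
  obtain ⟨b, h0, r, hr⟩ := exists_nat x
  obtain ⟨k, M, h1, rfl⟩ := Nat.exists_eq_pow_mul_and_not_dvd h0 q hq.ne_one
  refine ⟨M, h1, fun w hw => ?_⟩
  by_cases hw' : (q : 𝓞 K) ∈ w.asIdeal
  · rw [map_mul]
    refine mul_le_one' (N23.val_nat w M) (h w hw' (hw.resolve_right fun h2 => ?_))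
    exact (N23.val_N.2 hw').ne (N23.val_coprime h2 ((Nat.Prime.coprime_iff_not_dvd hq).2 hN))
  · have := val_int w r
    rwa [hr, Nat.cast_mul, Nat.cast_pow, mul_assoc, map_mul, map_pow, N23.val_eq_one hw', one_pow,
      one_mul] at this

theorem exists_small (hN : 2 ≤ N) (hnd : ∀ V ∈ ng N (1 : K), {w ∈ V | star w * w = 1}.Infinite)
    {V : Set K} (hV : V ∈ ng N (0 : K)) : ∃ s ∈ V, s ≠ 0 ∧ s ∈ Rb K N := by
  have h : Tendsto (fun w : K => 1 - w) (ng N 1) (ng N 0) := by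
    simpa using ng_sub (ng_const 1) (tendsto_id (x := ng N (1 : K)))
  obtain ⟨w, ⟨⟨h1, h2⟩, h3⟩, h4⟩ := (hnd _ (h (inter_mem hV (ev_int hN)))).exists_notMem_finset {1}
  refine ⟨1 - w, h1, sub_ne_zero.2 (Ne.symm (by simpa using h4)), fun v hv => hv.elim (fun hv => ?_) (h2 v)⟩
  have h5 : v.valuation K (star w) = v.valuation K w := not_not.1 fun h => hv ⟨w, h⟩
  have h6 := congrArg (v.valuation K) h3
  rw [map_mul, h5, map_one, ← sq, pow_eq_one_iff_of_nonneg zero_le two_ne_zero] at h6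
  exact Valuation.map_sub_le _ (by simp) h6.le

/-- the span of the `w⁻¹ - 1` -/
def II (V : Set K) : AddSubgroup K := AddSubgroup.closure ((fun w => w⁻¹ - 1) '' V)

variable {B A : Type*} [Ring B] [Algebra K B] [Algebra ℚ B] [FiniteDimensional K B]

theorem sm_of_st (hN : 2 ≤ N) (hnd : ∀ V ∈ ng N (1 : K), {w ∈ V | star w * w = 1}.Infinite)
    {p : Seminorm ℚ B} (hp : ∀ ε > 0, {x | p x < ε} ∈ ng N (0 : B)) {P : AddSubgroup B}
    (hP : ∀ r ∈ Rb K N, ∀ x ∈ P, r • x ∈ P) : Per.Sm p P := fun η hη x hx => by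
  let ω := integralBasis K
  have h : ∀ᶠ s in ng N (0 : K), ∀ i, p (s • ω i • x) < η := eventually_all.2 fun i => by
    have := ng_smul K (tendsto_id (x := ng N (0 : K))) (ng_const (ω i • x))
    rw [zero_smul] at this
    exact this (hp η hη)
  obtain ⟨s, h1, h2, h3⟩ := exists_small hN hnd h
  have e : x = ∑ i, ω.repr s⁻¹ i • s • ω i • x := by
    simp_rw [smul_comm s, ← smul_assoc _ (ω _), ← Finset.sum_smul]
    rw [ω.sum_repr, inv_smul_smul₀ h2]
  rw [e]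
  refine Submodule.sum_mem _ fun i _ => Submodule.smul_mem _ _ (Submodule.subset_span ⟨?_, h1 i⟩)
  exact hP _ h3 _ (hP _ (by rw [integralBasis_apply]; exact int_mem _) _ hx)

omit [StarRing K] [Algebra ℚ B] [FiniteDimensional K B] [NumberField K] in
theorem smul_mem_closure {V : Set K} {c : K} (hc : c ∈ II V) (u : B) :
    c • u ∈ AddSubgroup.closure ((fun w => (w⁻¹ - 1) • u) '' V) := by
  have := AddSubgroup.mem_map_of_mem (LinearMap.toSpanSingleton K B u).toAddMonoidHom hc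
  rwa [II, AddMonoidHom.map_closure, Set.image_image] at this

theorem sm_steps {V : Set K} (hV : ∀ w ∈ V, star w * w = 1)
    (hI : ∀ V' ∈ ng N (1 : K), ∃ M₀ : ℕ, M₀ ≠ 0 ∧ ∀ c ∈ Rb K N, M₀ * c ∈ II (V ∩ V'))
    {p : Seminorm ℚ B} (hp : ∀ ε > 0, {x | p x < ε} ∈ ng N (0 : B)) (u : B) :
    Per.Sm p ((fun w => (w⁻¹ - 1) • u) '' V) := by
  rintro η hη _ ⟨w, -, rfl⟩
  have h := ng_smul K (ng_sub (ng_map (N := N) (starAddEquiv : K ≃+ K).toAddMonoidHom 1)
    (ng_const 1)) (ng_const u)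
  simp only [AddEquiv.coe_toAddMonoidHom, starAddEquiv_apply, star_one, sub_self, zero_smul] at h
  obtain ⟨M₀, h0, hM⟩ := hI _ (h (hp η hη))
  obtain ⟨b, b0, r, hr⟩ := exists_nat (w⁻¹ - 1)
  have h1 := smul_mem_closure (hM r (int_mem r)) u
  have h2 : AddSubgroup.closure ((fun w => (w⁻¹ - 1) • u) '' (V ∩ _)) ≤
      (Submodule.span ℚ {x ∈ (fun w => (w⁻¹ - 1) • u) '' V | p x < η}).toAddSubgroup :=
    (AddSubgroup.closure_le _).2 (by
      rintro _ ⟨w, ⟨h1, h2⟩, rfl⟩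
      refine Submodule.subset_span ⟨⟨w, h1, rfl⟩, ?_⟩
      change p ((w⁻¹ - 1) • u) < η
      rw [← eq_inv_of_mul_eq_one_left (hV w h1)]
      exact h2)
  have h3 := Submodule.smul_mem _ ((M₀ * b : ℕ) : ℚ)⁻¹ (h2 h1)
  rwa [hr, ← mul_assoc, ← Nat.cast_mul, mul_smul, Nat.cast_smul_eq_nsmul,
    ← Nat.cast_smul_eq_nsmul ℚ, inv_smul_smul₀ (by simp [h0, b0])] at h3

variable (K N) in
/-- `P` is a module of periods -/
structure Gd (La : AddSubgroup B) (p : Seminorm ℚ B) (f : B → A) (e : ℝ) (P : AddSubgroup B) :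
    Prop where
  st : ∀ r ∈ Rb K N, ∀ x ∈ P, r • x ∈ P
  le : P ≤ La
  val : Per.Val f La p e P

variable (K N) in
/-- the sum of all modules of periods -/
def Mx (La : AddSubgroup B) (p : Seminorm ℚ B) (f : B → A) (e : ℝ) : AddSubgroup B :=
  ⨆ P : {P // Gd K N La p f e P}, P.1

variable {La : AddSubgroup B} {p : Seminorm ℚ B} {f : B → A} {e : ℝ} {P : AddSubgroup B}

omit [FiniteDimensional K B] in
theorem Gd.le_Mx (h : Gd K N La p f e P) : P ≤ Mx K N La p f e :=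
  le_iSup (fun P : {P // Gd K N La p f e P} => P.1) ⟨P, h⟩

theorem gd_Mx (hs : ∀ P : AddSubgroup B, (∀ r ∈ Rb K N, ∀ x ∈ P, r • x ∈ P) → Per.Sm p P) :
    Gd K N La p f (e / 4) (Mx K N La p f e) := by
  have := fdQ K B
  refine ⟨fun r hr x hx => ?_, iSup_le fun P => P.2.le,
    Per.per_iSup (fun P => P.2.le) (fun P => hs _ P.2.st) fun P => P.2.val⟩
  exact (iSup_le fun P x hx => P.2.le_Mx (P.2.st r hr x hx) :
    Mx K N La p f e ≤ (Mx K N La p f e).comap (DistribSMul.toAddMonoidHom B r)) hx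

omit [FiniteDimensional K B] in
theorem Gd.inf {f₁ f₂ : B → A} {P₁ P₂ : AddSubgroup B} (h₁ : Gd K N La p f₁ e P₁)
    (h₂ : Gd K N La p f₂ e P₂) (op : A → A → A)
    (hf : ∀ y ∈ La, p y < e → f y = op (f₁ y) (f₂ y)) : Gd K N La p f e (P₁ ⊓ P₂) :=
  ⟨fun r hr x hx => ⟨h₁.st r hr x hx.1, h₂.st r hr x hx.2⟩, inf_le_left.trans h₁.le,
    (h₁.val.inter h₂.val op).congr (fun _ hx => h₁.le hx.1) hf⟩

end Crest.Agent.T24.HolC
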