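import Crest.Agent.T24.HolCA_25

/-!
# Row 24, HOL, leaf H5 (helper25): the constancy theorem from the local inputs
-/

set_option autoImplicit false

noncomputable section

namespace Crest.Agent.T24.HolC

open Filter NumberField Asa In Module Polynomial Csa
open scoped Topology

variable {K B A : Type*} [Field K] [NumberField K] [StarRing K] [Ring B] [StarRing B] [Algebra K B]
  [Algebra ℚ B] [Algebra.IsCentral K B] [IsSimpleRing B] [FiniteDimensional K B] [CommGroup A]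

/-- the coefficient of the Lagrange identity -/
def be (κ : Fin (deg K B) → K) (b : B) (j : Fin (deg K B)) : K :=
  (rch K b).eval (κ j) / ∏ i ∈ Finset.univ.erase j, (κ j - κ i)

variable (K) in
/-- all relations on a fixed box -/
structure Bx (N M₀ : ℕ) (W : Fin 3 → Set B) (V : Set K) (La : AddSubgroup B) (p : Seminorm ℚ B)
    (e : ℝ) (F : B → B → B → A) : Prop where
  coc : ∀ i l m, i ≠ l → l ≠ m → i ≠ m → ∀ g ∈ W i, ∀ g' ∈ W l, ∀ g'' ∈ W m, ∀ y ∈ La, p y < e →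
    F g g'' y = F g g' y * F g' g'' y
  anti : ∀ i l, i ≠ l → ∀ g ∈ W i, ∀ g' ∈ W l, ∀ y ∈ La, p y < e → F g g' y * F g' g y = 1
  step : ∀ i l, i ≠ l → ∀ g ∈ W i, ∀ g' ∈ W l, ∀ κ ∈ V, IsUnit (star g' * g - algebraMap K B κ) ∧
    ∀ w ∈ V, ∀ s, s = (w⁻¹ - 1) • (1 - κ) • (g * Ring.inverse (star g' * g - algebraMap K B κ)) →
      s ∈ La ∧ p s < e / 4 ∧ ∀ y ∈ La, p y < e → F g g' (y + s) = F g g' y
  sm : ∀ P : AddSubgroup B, (∀ r ∈ Rb K N, ∀ x ∈ P, r • x ∈ P) → Per.Sm p P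
  sms : ∀ u : B, Per.Sm p ((fun w => (w⁻¹ - 1) • u) '' V)
  ne : M₀ ≠ 0
  id : ∀ c ∈ Rb K N, M₀ * c ∈ II V
  pos : 0 < e

variable {N M₀ : ℕ} {W : Fin 3 → Set B} {V : Set K} {La : AddSubgroup B} {p : Seminorm ℚ B}
  {e : ℝ} {F : B → B → B → A} (h : Bx K N M₀ W V La p e F) {i l m : Fin 3} {g g' g'' : B}

include h

omit [Algebra.IsCentral K B] [IsSimpleRing B] in
theorem Bx.one (hil : i ≠ l) (hg : g ∈ W i) (hg' : g' ∈ W l) {κ : K} (hκ : κ ∈ V) {r : K}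
    (hr : r ∈ Rb K N) : (M₀ * r) • (1 - κ) • (g * Ring.inverse (star g' * g - algebraMap K B κ)) ∈
      Mx K N La p (F g g') (e / 4) := by
  have := fdQ K B
  set u := (1 - κ) • (g * Ring.inverse (star g' * g - algebraMap K B κ))
  have hs := (h.step i l hil g hg g' hg' κ hκ).2
  have h1 : (fun w => (w⁻¹ - 1) • u) '' V ⊆ La := by
    rintro _ ⟨w, hw, rfl⟩; exact (hs w hw _ rfl).1
  have h2 := Per.per (f := F g g') h1 (by rintro _ ⟨w, hw, rfl⟩; exact (hs w hw _ rfl).2.1) (h.sms u)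
    (by rintro _ ⟨w, hw, rfl⟩ y hy h1 -; exact (hs w hw _ rfl).2.2 y hy h1)
  let P := (Rb K N).toAddSubgroup.map (LinearMap.toSpanSingleton K B ((M₀ : K) • u)).toAddMonoidHom
  have h3 : P ≤ AddSubgroup.closure ((fun w => (w⁻¹ - 1) • u) '' V) := by
    rintro _ ⟨c, hc, rfl⟩
    simpa [smul_smul, mul_comm] using smul_mem_closure (h.id c hc) u
  refine Gd.le_Mx (P := P) ⟨?_, h3.trans ((AddSubgroup.closure_le _).2 h1), h2.mono le_rfl h3 le_rfl⟩
    ⟨r, hr, by simp [smul_smul, mul_comm]⟩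
  rintro a ha _ ⟨c, hc, rfl⟩
  exact ⟨a * c, (Rb K N).mul_mem ha hc, by simp [mul_smul]⟩

theorem Bx.lag (hil : i ≠ l) (hg : g ∈ W i) (hg' : g' ∈ W l) {κ : Fin (deg K B) → K}
    (hκ : Function.Injective κ) (hV : ∀ j, κ j ∈ V ∧ κ j ≠ 1) {c : K}
    (hc : ∀ j, ∃ r ∈ Rb K N, c * be κ (star g' * g) j / (1 - κ j) = M₀ * r) :
    c • g ∈ Mx K N La p (F g g') (e / 4) := by
  have hu := fun j => (h.step i l hil g hg g' hg' _ (hV j).1).1
  have h1 := Id32.lag (s := Finset.univ) hκ.injOn (rch_monic K (star g' * g))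
    (by rw [rch_natDegree, Finset.card_univ, Fintype.card_fin]) (aeval_rch _)
    fun j _ => by simpa using (hu j).neg
  have h0 : c • g = ∑ j, c • (g * be κ (star g' * g) j •
      Ring.inverse (algebraMap K B (κ j) - star g' * g)) := by
    rw [← Finset.smul_sum, ← Finset.mul_sum]
    exact congrArg (c • ·) ((mul_one g).symm.trans (congrArg (g * ·) h1.symm))
  rw [h0]
  refine sum_mem fun j _ => ?_
  obtain ⟨r, hr, e⟩ := hc j
  have h2 := neg_mem (h.one hil hg hg' (hV j).1 hr)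
  have h3 : Ring.inverse (algebraMap K B (κ j) - star g' * g) =
      -Ring.inverse (star g' * g - algebraMap K B (κ j)) := by
    obtain ⟨u, hu⟩ := hu j
    rw [← neg_sub, ← hu, ← Units.val_neg, Ring.inverse_unit, Ring.inverse_unit]; simp
  rwa [← e, smul_smul, div_mul_cancel₀ _ (sub_ne_zero.2 (hV j).2.symm), ← smul_neg, ← mul_neg, ← h3,
    mul_smul, ← mul_smul_comm] at h2

omit [Algebra.IsCentral K B] [IsSimpleRing B] in
theorem Bx.tri (hil : i ≠ l) (hml : m ≠ l) (hmi : m ≠ i) (hg : g ∈ W i) (hg' : g' ∈ W l)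
    (hg'' : g'' ∈ W m) : Mx K N La p (F g'' g) (e / 4) ⊓ Mx K N La p (F g'' g') (e / 4) ≤
      Mx K N La p (F g g') (e / 4 / 4) :=
  ((gd_Mx h.sm).inf (gd_Mx h.sm) (fun a b => a⁻¹ * b) fun y hy h1 => by
    have h2 : p y < e := by linarith [h.pos]
    rw [h.coc i m l hmi.symm hml hil g hg g'' hg'' g' hg' y hy h2,
      eq_inv_of_mul_eq_one_left (h.anti i m hmi.symm g hg g'' hg'' y hy h2)]).le_Mx

omit h in
variable (K) in
/-- good nodes at `q` -/
def Nd (q : ℕ) (V : Set K) (b : B) : Prop := ∀ c : K, ∃ κ : Fin (deg K B) → K,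
  Function.Injective κ ∧ ∀ j, κ j ∈ V ∧ κ j ≠ 1 ∧ ∀ w : Pl K, (q : 𝓞 K) ∈ w.asIdeal → ¬ Split w →
    w.valuation K (c * be κ b j / (1 - κ j)) ≤ 1

theorem Bx.nd {q : ℕ} (hq : q.Prime) (hN : ¬ q ∣ N) (hil : i ≠ l) (hg : g ∈ W i) (hg' : g' ∈ W l)
    (hn : Nd K q V (star g' * g)) (c : K) :
    ∃ M : ℕ, ¬ q ∣ M ∧ M • c • g ∈ Mx K N La p (F g g') (e / 4) := by
  obtain ⟨κ, h1, h2⟩ := hn (c / M₀)
  choose M hM hr using fun j => exists_mul hq hN (h2 j).2.2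
  refine ⟨∏ j, M j, fun hd => ?_, ?_⟩
  · obtain ⟨j, -, hj⟩ := (Prime.dvd_finsetProd_iff hq.prime _).1 hd
    exact hM j hj
  rw [← Nat.cast_smul_eq_nsmul K, smul_smul]
  refine h.lag hil hg hg' h1 (fun j => ⟨(h2 j).1, (h2 j).2.1⟩) fun j =>
    ⟨_, mul_mem (natCast_mem _ (∏ k ∈ Finset.univ.erase j, M k)) (hr j), ?_⟩
  have : (M₀ : K) ≠ 0 := by exact_mod_cast h.ne
  rw [← Finset.prod_erase_mul _ _ (Finset.mem_univ j)]
  push_cast
  field_simp

omit h in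
variable (K) in
/-- all vectors are periods up to a multiple prime to `q` -/
def Qp (N : ℕ) (La : AddSubgroup B) (p : Seminorm ℚ B) (f : B → A) (e : ℝ) (q : ℕ) : Prop :=
  ∃ P, Gd K N La p f e P ∧ ∀ x : B, ∃ M : ℕ, ¬ q ∣ M ∧ M • x ∈ P

omit h [StarRing B] [Algebra ℚ B] [Algebra.IsCentral K B] [IsSimpleRing B] [FiniteDimensional K B] in
theorem both {q : ℕ} (hq : q.Prime) {P P' : AddSubgroup B} {x x' : B}
    (h1 : ∃ M : ℕ, ¬ q ∣ M ∧ M • x ∈ P) (h2 : ∃ M : ℕ, ¬ q ∣ M ∧ M • x' ∈ P') :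
    ∃ M : ℕ, ¬ q ∣ M ∧ M • x ∈ P ∧ M • x' ∈ P' := by
  obtain ⟨M, a1, a2⟩ := h1
  obtain ⟨M', b1, b2⟩ := h2
  refine ⟨M * M', fun hd => (hq.dvd_mul.1 hd).elim a1 b1, ?_, ?_⟩
  · rw [mul_comm, mul_smul]; exact P.nsmul_mem a2 _
  · rw [mul_smul]; exact P'.nsmul_mem b2 _

theorem Bx.link {q : ℕ} (hq : q.Prime) (hN : ¬ q ∣ N) (hil : i ≠ l) (hml : m ≠ l) (hmi : m ≠ i)
    (hg : g ∈ W i) (hg' : g' ∈ W l) (hs : Submodule.span K
      {x | x ∈ W m ∧ Nd K q V (star g * x) ∧ Nd K q V (star g' * x)} = ⊤) :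
    Qp K N La p (F g g') (e / 4 / 4 / 4) q := by
  refine ⟨_, gd_Mx h.sm, fun x => ?_⟩
  suffices H : ∀ c : K, ∃ M : ℕ, ¬ q ∣ M ∧ M • c • x ∈ Mx K N La p (F g g') (e / 4 / 4) by
    simpa using H 1
  have hx : x ∈ Submodule.span K _ := hs ▸ Submodule.mem_top
  induction hx using Submodule.span_induction with
  | mem x hx =>
    intro c
    obtain ⟨M, h1, h2⟩ := both hq (h.nd hq hN hmi hx.1 hg hx.2.1 c) (h.nd hq hN hml hx.1 hg' hx.2.2 c)
    exact ⟨M, h1, h.tri hil hml hmi hg hg' hx.1 h2⟩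
  | zero => exact fun c => ⟨1, hq.not_dvd_one, by simp⟩
  | add x y _ _ hx hy =>
    intro c
    obtain ⟨M, h1, h2, h3⟩ := both hq (hx c) (hy c)
    exact ⟨M, h1, by rw [smul_add, smul_add]; exact add_mem h2 h3⟩
  | smul a x _ hx => exact fun c => by rw [smul_smul c]; exact hx _

omit [Algebra.IsCentral K B] [IsSimpleRing B] [FiniteDimensional K B] in
theorem Bx.trans {q : ℕ} (hq : q.Prime) (hil : i ≠ l) (hlm : l ≠ m) (him : i ≠ m)
    (hg : g ∈ W i) (hg' : g' ∈ W l) (hg'' : g'' ∈ W m) {e' : ℝ} (he : e' ≤ e)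
    (h1 : Qp K N La p (F g g') e' q) (h2 : Qp K N La p (F g' g'') e' q) :
    Qp K N La p (F g g'') e' q := by
  obtain ⟨P, a1, a2⟩ := h1
  obtain ⟨P', b1, b2⟩ := h2
  exact ⟨_, a1.inf b1 (· * ·) fun y hy h1 =>
    h.coc i l m hil hlm him g hg g' hg' g'' hg'' y hy (h1.trans_le he), fun x => both hq (a2 x) (b2 x)⟩

/-- the chain from the base `0` to the base `1` -/
theorem Bx.chain {q : ℕ} (hq : q.Prime) (hN : ¬ q ∣ N) {z : ℕ → B} {M : ℕ} (h0 : z 0 ∈ W 0)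
    (hz : ∀ t ≤ M, z (t + 1) ∈ W (if Even t then 1 else 2))
    (hs : ∀ t ≤ M, Submodule.span K {x | x ∈ W (if t = 0 then 2 else 0) ∧
      Nd K q V (star (z t) * x) ∧ Nd K q V (star (z (t + 1)) * x)} = ⊤) :
    Qp K N La p (F (z 0) (z (M + 1))) (e / 4 / 4 / 4) q := by
  induction M with
  | zero => exact h.link hq hN (by simp) (by simp) (by simp) h0 (hz 0 le_rfl) (hs 0 le_rfl)
  | succ M ih =>
    have k1 : (if Even M then (1 : Fin 3) else 2) ≠ if Even (M + 1) then 1 else 2 := by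
      by_cases hM : Even M <;> simp [Nat.even_add_one, hM]
    have k2 : ∀ t : ℕ, (0 : Fin 3) ≠ if Even t then 1 else 2 := fun t => by split_ifs <;> simp
    exact h.trans hq (k2 _) k1 (k2 _) h0 (hz M M.le_succ) (hz _ le_rfl) (by linarith [h.pos])
      (ih (fun t ht => hz t (by omega)) fun t ht => hs t (by omega))
      (h.link hq hN k1 (k2 _) (k2 _) (hz M M.le_succ) (hz _ le_rfl) (by simpa using hs _ le_rfl))

/-- uniform periods at `N` -/
theorem Bx.atN (hN : 2 ≤ N) {a : B} (h0 : g ∈ W 0) (hV : (V \ {1}).Infinite)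
    (hs : Submodule.span K (W 2) = ⊤) : ∀ᶠ q : B × B in ng N a ×ˢ ng N (0 : B), q.1 ∈ W 1 →
      ∃ M : ℕ, M.Coprime N ∧ M • q.2 ∈ Mx K N La p (F g q.1) (e / 4 / 4) := by
  have := fdQ K B
  let κ : Fin (deg K B) → K := fun j => hV.natEmbedding _ j
  have hκ : Function.Injective κ := fun i j h => Fin.ext ((hV.natEmbedding _).injective (Subtype.ext h))
  have hκV : ∀ j, κ j ∈ V ∧ κ j ≠ 1 := fun j => (hV.natEmbedding _ j).2
  obtain ⟨s, h1, h2, h3⟩ := exists_linearIndependent K (W 2)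
  let b : Basis s K B := Basis.mk h3 (by rw [Subtype.range_coe, h2, hs])
  have := Module.Finite.finite_basis b
  have := Fintype.ofFinite s
  have hb : ∀ t, b t ∈ W 2 := fun t => by rw [Basis.mk_apply]; exact h1 t.2
  have key : ∀ {f : B × B → B} {a₀ : B}, Tendsto f (ng N a ×ˢ ng N (0 : B)) (ng N a₀) →
      ∀ᶠ q : B × B in ng N a ×ˢ ng N (0 : B), ∀ t j, ∃ M : ℕ, M.Coprime N ∧ ∃ r ∈ Rb K N,
        M * (b.repr q.2 t * be κ (star (f q) * b t) j / (1 - κ j)) = M₀ * r := fun {f a₀} hf =>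
    eventually_all.2 fun t => eventually_all.2 fun j => by
      refine Tendsto.eventually (l₂ := ng N (0 : K)) (f := fun q : B × B =>
        b.repr q.2 t * be κ (star (f q) * b t) j / (1 - κ j)) ?_ (ev_mul hN h.ne)
      have h4 := ng_mul (ng_lin (starAddEquiv : B ≃+ B).toAddMonoidHom hf) (ng_const (b t))
      have h5 : Tendsto (fun q => (rch K (star (f q) * b t)).eval (κ j)) (ng N a ×ˢ ng N (0 : B))
          (ng N ((rch K (star a₀ * b t)).eval (κ j))) := by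
        simp only [eval_rch]
        exact (ng_Nrd K _).comp (ng_sub (ng_const _) h4)
      have h6 := ng_mul (ng_mul (ng_lin (b.coord t).toAddMonoidHom
        (tendsto_snd (f := ng N a) (g := ng N (0 : B)))) (ng_mul h5
          (ng_const (∏ i ∈ Finset.univ.erase j, (κ j - κ i))⁻¹))) (ng_const (1 - κ j)⁻¹)
      simpa [be, div_eq_mul_inv] using h6
  filter_upwards [key (ng_const g), key tendsto_fst] with q a1 a2 hq
  choose M hM r hr e1 using a1
  choose M' hM' r' hr' e2 using a2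
  let T : ℕ := (∏ t, ∏ j, M t j) * ∏ t, ∏ j, M' t j
  refine ⟨T, Nat.Coprime.mul_left (Nat.Coprime.prod_left fun t _ => Nat.Coprime.prod_left fun j _ =>
    hM t j) (Nat.Coprime.prod_left fun t _ => Nat.Coprime.prod_left fun j _ => hM' t j), ?_⟩
  rw [← b.sum_repr q.2, Finset.smul_sum]
  refine sum_mem fun t _ => h.tri (by simp) (by simp) (by simp) h0 hq (hb t) ?_
  rw [← Nat.cast_smul_eq_nsmul K, smul_smul]
  have dv : ∀ (M : s → Fin (deg K B) → ℕ) j, M t j ∣ ∏ t, ∏ j, M t j := fun M j =>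
    (Finset.dvd_prod_of_mem _ (Finset.mem_univ j)).trans
      (Finset.dvd_prod_of_mem (fun t => ∏ j, M t j) (Finset.mem_univ t))
  refine ⟨h.lag (by simp) (hb t) h0 hκ hκV fun j => ?_, h.lag (by simp) (hb t) hq hκ hκV fun j => ?_⟩
  · obtain ⟨c, hc⟩ : M t j ∣ T := (dv M j).mul_right _
    exact ⟨_, mul_mem (natCast_mem _ c) (hr t j), by
      rw [hc, mul_left_comm, ← e1]; push_cast; ring⟩
  · obtain ⟨c, hc⟩ : M' t j ∣ T := (dv M' j).mul_left _
    exact ⟨_, mul_mem (natCast_mem _ c) (hr' t j), by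
      rw [hc, mul_left_comm, ← e2]; push_cast; ring⟩

omit h [Algebra.IsCentral K B] [IsSimpleRing B] in
/-- extraction of a box -/
theorem Hyp.box {o : Fin 3 → B} {y₀ : B} {R : B → B → B → A} (H : Hyp K N o y₀ R) (hN : 2 ≤ N)
    (hnd : ∀ V ∈ ng N (1 : K), {w ∈ V | star w * w = 1}.Infinite)
    (hI : ∀ V ∈ ng N (1 : K), ∃ M₀ : ℕ, M₀ ≠ 0 ∧ ∀ c ∈ Rb K N,
      (M₀ : K) * c ∈ AddSubgroup.closure {x | ∃ w ∈ V, star w * w = 1 ∧ x = 1 - w}) :
    ∃ (M₀ : ℕ) (W : Fin 3 → Set B) (V : Set K) (La : AddSubgroup B) (p : Seminorm ℚ B) (e : ℝ),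
      (∀ i, W i ∈ ng N (o i)) ∧ V ∈ ng N (1 : K) ∧ (La : Set B) ∈ ng N (0 : B) ∧
      (∀ ε > 0, {x | p x < ε} ∈ ng N (0 : B)) ∧
      Bx K N M₀ (fun i => W i ∩ unitary B) (V ∩ {w | star w * w = 1}) La p e
        fun g g' y => R g g' (y₀ + y) := by
  classical
  have := fdQ K B
  obtain ⟨p, hp⟩ := exists_sem B
  obtain ⟨Λ, hΛ⟩ := exists_lat N B
  have hp0 : ∀ ε > 0, {x | p x < ε} ∈ ng N (0 : B) := fun ε hε =>
    ng_le_na _ (by simpa using (hp 0).mem_of_mem hε)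
  let G : Filter ((Fin 3 → B) × K × K) := pi (fun i => ng N (o i)) ×ˢ ng N (1 : K) ×ˢ ng N (1 : K)
  have t1 : ∀ i, Tendsto (fun q : (Fin 3 → B) × K × K => q.1 i) G (ng N (o i)) := fun i =>
    (tendsto_eval_pi _ i).comp tendsto_fst
  have t2 : Tendsto (fun q : (Fin 3 → B) × K × K => q.2.1) G (ng N 1) := tendsto_fst.comp tendsto_snd
  have t3 : Tendsto (fun q : (Fin 3 → B) × K × K => q.2.2) G (ng N 1) := tendsto_snd.comp tendsto_snd
  have u1 := fun i => (t1 i).comp (tendsto_fst (g := ng N y₀))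
  have u2 := t2.comp (tendsto_fst (g := ng N y₀))
  have u3 := t3.comp (tendsto_fst (g := ng N y₀))
  have u4 := tendsto_snd (f := G) (g := ng N y₀)
  have c1 := eventually_all.2 fun i => eventually_all.2 fun l => eventually_all.2 fun m =>
    eventually_all.2 fun a => eventually_all.2 fun b => eventually_all.2 fun c =>
      ((u1 i).prodMk ((u1 l).prodMk ((u1 m).prodMk u4))).eventually (H.coc i l m a b c)
  have c2 := eventually_all.2 fun i => eventually_all.2 fun l => eventually_all.2 fun a =>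
    ((u1 i).prodMk ((u1 l).prodMk u4)).eventually (H.anti i l a)
  have c3 := eventually_all.2 fun i => eventually_all.2 fun l => eventually_all.2 fun a =>
    ((u1 i).prodMk ((u1 l).prodMk (u4.prodMk (u2.prodMk u3)))).eventually (H.step i l a)
  obtain ⟨pa, h1, pb, h2, h3⟩ := eventually_prod_iff.1 (c1.and (c2.and c3))
  obtain ⟨⟨a, e⟩, ⟨-, he⟩, h4⟩ := ((hΛ.nr_basis y₀).inf (hp y₀)).mem_iff.1 h2
  have hLa : ((dp Λ a).toAddSubgroup : Set B) ∈ ng N (0 : B) :=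
    ng_le_nr _ (nr_zero (N := N) (V := B) ▸ hΛ.dp_mem a)
  have c4 : ∀ᶠ q in G, ∀ i l, i ≠ l → IsUnit (star (q.1 l) * q.1 i - algebraMap K B q.2.2) ∧
      (star q.2.1 - 1) • (1 - q.2.2) • (q.1 i * Ring.inverse (star (q.1 l) * q.1 i -
        algebraMap K B q.2.2)) ∈ ((dp Λ a).toAddSubgroup : Set B) ∩ {x | p x < e / 4} :=
    eventually_all.2 fun i => eventually_all.2 fun l => eventually_all.2 fun hil => by
      obtain ⟨a1, a2⟩ := ng_iv hN (by simpa using H.unit i l hil) (ng_sub (ng_mul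
        (ng_lin (starAddEquiv : B ≃+ B).toAddMonoidHom (t1 l)) (t1 i))
        (ng_lin (algebraMap K B).toAddMonoidHom t3))
      have a3 := ng_smul K (ng_sub (ng_lin (starAddEquiv : K ≃+ K).toAddMonoidHom t2) (ng_const 1))
        (ng_smul K (ng_sub (ng_const 1) t3) (ng_mul (t1 i) a2))
      rw [sub_self (1 : K), zero_smul, smul_zero] at a3
      exact a1.and (a3 (inter_mem hLa (hp0 _ (by positivity))))
  obtain ⟨W', hW', VV, hVV, h5⟩ := mem_prod_iff.1 (h1.and c4)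
  obtain ⟨V₁, hV₁, V₂, hV₂, h6⟩ := mem_prod_iff.1 hVV
  obtain ⟨I, W, hW, h7⟩ := mem_pi'.1 hW'
  have ho : ∀ i, o i ∈ W i := fun i => self_of_ng (N := N) (p := (· ∈ W i)) (hW i)
  have key := fun (x : Fin 3 → B) (hx : ∀ i, x i ∈ W i) w κ (hw : w ∈ V₁ ∩ V₂) (hκ : κ ∈ V₁ ∩ V₂) =>
    h5 (Set.mk_mem_prod (h7 fun i _ => hx i) (h6 (Set.mk_mem_prod hw.1 hκ.2)))
  have h11 : (1 : K) ∈ V₁ ∩ V₂ := self_of_ng (N := N) (p := (· ∈ V₁ ∩ V₂)) (inter_mem hV₁ hV₂)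
  have hY : ∀ y ∈ (dp Λ a).toAddSubgroup, p y < e → pb (y₀ + y) := fun y a1 a2 =>
    h4 ⟨by simpa using a1, by simpa using a2⟩
  have up : ∀ {x : Fin 3 → B} {i g}, (∀ j, x j ∈ W j) → g ∈ W i →
      ∀ j, Function.update x i g j ∈ W j := fun {x i g} hx hg j => by
    by_cases hj : j = i
    · subst hj; simpa using hg
    · simpa [hj] using hx j
  have hI' : ∀ V' ∈ ng N (1 : K), ∃ M₀ : ℕ, M₀ ≠ 0 ∧ ∀ c ∈ Rb K N,
      M₀ * c ∈ II (V₁ ∩ V₂ ∩ {w | star w * w = 1} ∩ V') := fun V' hV' => by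
    have := ng_map (N := N) (starAddEquiv : K ≃+ K).toAddMonoidHom 1
    simp only [AddEquiv.coe_toAddMonoidHom, starAddEquiv_apply, star_one] at this
    obtain ⟨M₀, a1, a2⟩ := hI _ (this (inter_mem (inter_mem hV₁ hV₂) hV'))
    refine ⟨M₀, a1, fun c hc => (AddSubgroup.closure_le _).2 ?_ (a2 c hc)⟩
    rintro _ ⟨w, b1, b2, rfl⟩
    refine neg_sub w 1 ▸ neg_mem (AddSubgroup.subset_closure ⟨star w, ⟨⟨b1.1, ?_⟩, b1.2⟩, ?_⟩)
    · change star (star w) * star w = 1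
      rw [star_star, mul_comm, b2]
    · simp only [eq_inv_of_mul_eq_one_left b2, inv_inv]
  obtain ⟨M₀, a1, a2⟩ := hI' _ univ_mem
  refine ⟨M₀, W, V₁ ∩ V₂, _, p, e, hW, inter_mem hV₁ hV₂, hLa, hp0,
    fun i l m a b c g hg g' hg' g'' hg'' y b1 b2 => ?_, fun i l a g hg g' hg' y b1 b2 => ?_,
    fun i l a g hg g' hg' κ hκ => ?_, fun P => sm_of_st hN hnd hp0,
    sm_steps (fun w hw => hw.2) hI' hp0, a1, by simpa using a2, he⟩
  · have := (h3 (key _ (up (up (up ho hg.1) hg'.1) hg''.1) 1 1 h11 h11).1 (hY y b1 b2)).1 i l m a b c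
    simp only [Function.comp, Function.update_self, Function.update_of_ne a, Function.update_of_ne b,
      Function.update_of_ne c] at this
    exact this hg.2 hg'.2 hg''.2
  · have := (h3 (key _ (up (up ho hg.1) hg'.1) 1 1 h11 h11).1 (hY y b1 b2)).2.1 i l a
    simp only [Function.comp, Function.update_self, Function.update_of_ne a] at this
    exact this hg.2 hg'.2
  have k1 := fun w hw => (key _ (up (up ho hg.1) hg'.1) w κ hw hκ.1).2 i l a
  simp only [Function.update_self, Function.update_of_ne a] at k1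
  refine ⟨(k1 1 h11).1, fun w hw s hs => ?_⟩
  have k2 := (k1 w hw.1).2
  rw [eq_inv_of_mul_eq_one_left hw.2, ← hs] at k2
  refine ⟨k2.1, k2.2, fun y b1 b2 => ?_⟩
  have := (h3 (key _ (up (up ho hg.1) hg'.1) w κ hw.1 hκ.1).1 (hY y b1 b2)).2.2 i l a
  simp only [Function.comp, Function.update_self, Function.update_of_ne a] at this
  rw [hs, ← add_assoc, ← mul_smul]
  exact this hg.2 hg'.2 hw.2 hκ.2

omit h in
/-- **CONST** from the local inputs -/
theorem Hyp.const {o : Fin 3 → B} {y₀ : B} {R : B → B → B → A} (H : Hyp K N o y₀ R) (hN : 2 ≤ N)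
    (hnd : ∀ V ∈ ng N (1 : K), {w ∈ V | star w * w = 1}.Infinite)
    (hI : ∀ V ∈ ng N (1 : K), ∃ M₀ : ℕ, M₀ ≠ 0 ∧ ∀ c ∈ Rb K N,
      (M₀ : K) * c ∈ AddSubgroup.closure {x | ∃ w ∈ V, star w * w = 1 ∧ x = 1 - w})
    (hsp : ∀ a : unitary B, ∀ W ∈ ng N (a : B), Submodule.span K (W ∩ unitary B) = ⊤)
    (hch : ∀ q : ℕ, q.Prime → ¬ q ∣ N → ∀ V ∈ ng N (1 : K), ∀ g g' : unitary B, ∃ M₀ : ℕ, ∀ M ≥ M₀,
      ∀ (a a' : ℕ → unitary B) (W W' : ℕ → Set B),
      (∀ t, W t ∈ ng N (a t : B) ∧ W' t ∈ ng N (a' t : B)) → ∃ z : ℕ → unitary B, z 0 = g ∧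
        z (M + 1) = g' ∧ (∀ t, 0 < t → t ≤ M → (z t : B) ∈ W t) ∧ ∀ t ≤ M, Submodule.span K
          {x : B | x ∈ W' t ∩ unitary B ∧ Nd K q (V ∩ {w | star w * w = 1}) (star (z t : B) * x) ∧
            Nd K q (V ∩ {w | star w * w = 1}) (star (z (t + 1) : B) * x)} = ⊤) :
    ∀ᶠ q : B × B × B in ng N (o 1) ×ˢ ng N y₀ ×ˢ ng N y₀,
      q.1 ∈ unitary B → R (o 0) q.1 q.2.1 = R (o 0) q.1 q.2.2 := by
  have := fdQ K B
  obtain ⟨M₀, W, V, La, p, e, hW, hV, hLa, hp, h⟩ := H.box hN hnd hI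
  have ho : ∀ i, o i ∈ W i ∩ unitary B := fun i =>
    ⟨self_of_ng (N := N) (p := (· ∈ W i)) (hW i), H.uni i⟩
  have h1 := h.atN (a := o 1) hN (ho 0) ((hnd V hV).sdiff (Set.finite_singleton 1))
    (hsp ⟨o 2, H.uni 2⟩ _ (hW 2))
  have t0 : Tendsto (fun y => y - y₀) (ng N y₀) (ng N 0) := by
    simpa using ng_sub (tendsto_id (x := ng N y₀)) (ng_const y₀)
  have h2 : ∀ᶠ q : B × B in ng N (o 1) ×ˢ ng N y₀,
      q.1 ∈ unitary B → R (o 0) q.1 q.2 = R (o 0) q.1 y₀ := by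
    filter_upwards [(tendsto_fst.prodMk (t0.comp tendsto_snd)).eventually h1,
      tendsto_fst (hW 1), (t0.comp tendsto_snd) (hp (e / 4 / 4 / 4 / 4) (by linarith [h.pos]))]
      with q a1 a2 a3 hq
    obtain ⟨M, b1, b2⟩ := a1 ⟨a2, hq⟩
    have key : q.2 - y₀ ∈ Mx K N La p (fun y => R (o 0) q.1 (y₀ + y)) (e / 4 / 4 / 4) := by
      refine Per.mem_of_primes fun r hr => ?_
      by_cases hrN : r ∣ N
      · exact ⟨M, fun hd => hr.one_lt.ne' (Nat.eq_one_of_dvd_coprimes b1 hd hrN),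
          (gd_Mx h.sm).le_Mx b2⟩
      obtain ⟨M₁, hM⟩ := hch r hr hrN V hV ⟨o 0, H.uni 0⟩ ⟨q.1, hq⟩
      obtain ⟨z, z0, z1, z2, z3⟩ := hM (2 * M₁) (by omega)
        (fun t => ⟨_, H.uni (if Even (t - 1) then 1 else 2)⟩)
        (fun t => ⟨_, H.uni (if t = 0 then 2 else 0)⟩) _ _ fun t => ⟨hW _, hW _⟩
      obtain ⟨P, c1, c2⟩ := h.chain hr hrN (z := fun t => z t) (M := 2 * M₁) (by rw [z0]; exact ho 0)
        (fun t ht => ⟨by
          rcases ht.eq_or_lt with rfl | ht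
          · rw [z1, if_pos (even_two_mul _)]; exact a2
          · exact z2 (t + 1) t.succ_pos ht, (z _).2⟩) z3
      rw [z0, z1] at c1
      exact (c2 _).imp fun M hM => ⟨hM.1, c1.le_Mx hM.2⟩
    simpa using (gd_Mx h.sm).val.const key a3
  filter_upwards [(tendsto_fst.prodMk (tendsto_fst.comp tendsto_snd)).eventually h2,
    (tendsto_fst.prodMk (tendsto_snd.comp tendsto_snd)).eventually h2] with q a1 a2 hq
  exact (a1 hq).trans (a2 hq).symm

end Crest.Agent.T24.HolC
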