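import Crest.Agent.T24.InG_71
import Crest.Agent.T24.Def_26

/-!
# Row 24, HOL, leaf H5 (helper25): words
-/

set_option autoImplicit false

namespace Crest.Agent.T24.HolC

open Filter NumberField Asa In

universe u v w

section

variable (K : Type*) {B A : Type*} [Field K] [StarRing K] [Ring B] [StarRing B] [Algebra K B]
  [Algebra ℚ B] [Algebra ℚ K] [CommGroup A]

/-- cocycle, antisymmetry and step relations for the three bases `o i` near the point `y₀` -/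
structure Hyp (N : ℕ) (o : Fin 3 → B) (y₀ : B) (R : B → B → B → A) : Prop where
  uni : ∀ i, o i ∈ unitary B
  unit : ∀ i l, i ≠ l → IsUnit (star (o l) * o i - 1)
  coc : ∀ i l m, i ≠ l → l ≠ m → i ≠ m →
    ∀ᶠ q : B × B × B × B in ng N (o i) ×ˢ ng N (o l) ×ˢ ng N (o m) ×ˢ ng N y₀,
      q.1 ∈ unitary B → q.2.1 ∈ unitary B → q.2.2.1 ∈ unitary B →
        R q.1 q.2.2.1 q.2.2.2 = R q.1 q.2.1 q.2.2.2 * R q.2.1 q.2.2.1 q.2.2.2
  anti : ∀ i l, i ≠ l → ∀ᶠ q : B × B × B in ng N (o i) ×ˢ ng N (o l) ×ˢ ng N y₀,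
    q.1 ∈ unitary B → q.2.1 ∈ unitary B → R q.1 q.2.1 q.2.2 * R q.2.1 q.1 q.2.2 = 1
  step : ∀ i l, i ≠ l → ∀ᶠ q : B × B × B × K × K in
      ng N (o i) ×ˢ ng N (o l) ×ˢ ng N y₀ ×ˢ ng N (1 : K) ×ˢ ng N (1 : K),
    q.1 ∈ unitary B → q.2.1 ∈ unitary B → star q.2.2.2.1 * q.2.2.2.1 = 1 →
      star q.2.2.2.2 * q.2.2.2.2 = 1 →
      R q.1 q.2.1 (q.2.2.1 + (((q.2.2.2.1)⁻¹ - 1) * (1 - q.2.2.2.2)) •
        (q.1 * Ring.inverse (star q.2.1 * q.1 - algebraMap K B q.2.2.2.2))) = R q.1 q.2.1 q.2.2.1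

end

/-- (I): the span of the `1 - w`, `w` of norm one near `1` -/
def IdealStmt : Prop := ∀ (K : Type u) [Field K] [NumberField K] [StarRing K],
  (∃ c : K, star c ≠ c) → ∀ N : ℕ, 2 ≤ N → ∀ V ∈ ng N (1 : K), ∃ M₀ : ℕ, M₀ ≠ 0 ∧ ∀ c : K,
    (∀ w : Pl K, (¬ Split w ∨ (N : 𝓞 K) ∈ w.asIdeal) → w.valuation K c ≤ 1) →
    (M₀ : K) * c ∈ AddSubgroup.closure {x | ∃ w ∈ V, star w * w = 1 ∧ x = 1 - w}

/-- CONST -/
def ConstStmt : Prop := ∀ (K : Type u) [Field K] [NumberField K] [StarRing K] (B : Type v) [Ring B]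
  [StarRing B] [Algebra K B] [StarModule K B] [Algebra ℚ B] [Algebra.IsCentral K B] [IsSimpleRing B]
  [FiniteDimensional K B], (∃ c : K, star c ≠ c) → 3 ≤ Csa.deg K B → ∀ N : ℕ, 2 ≤ N →
  ∀ (A : Type w) [CommGroup A] (o : Fin 3 → B) (y₀ : B) (R : B → B → B → A), Hyp K N o y₀ R →
  ∀ᶠ q : B × B × B in ng N (o 1) ×ˢ ng N y₀ ×ˢ ng N y₀,
    q.1 ∈ unitary B → R (o 0) q.1 q.2.1 = R (o 0) q.1 q.2.2

end Crest.Agent.T24.HolC
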