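import Crest.Agent.T24.HolN_28
import Crest.Agent.T24.HolPB_80

/-! Row 24, HOL, leaf H4 (helper28): the global chain. -/

set_option autoImplicit false
set_option linter.unusedSectionVars false

noncomputable section

namespace Crest.Agent.T24.Hol28

open Module NumberField Csa Asa Topology Filter Ev In H80
open scoped Valued

universe u v

theorem open_ch {A : Type*} [Ring A] [StarRing A] [TopologicalSpace A] [IsTopologicalRing A]
    [ContinuousStar A] {S : A → Prop} (hS : ∀ u, S u → ∀ᶠ x in 𝓝 u, x ∈ unitary A → S x)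
    {g g' : unitary A} {n : ℕ} (h : Ch (fun u : unitary A => S u) g n g') :
    ∃ (z y : ℕ → A) (Z Y : ℕ → Set A), z 0 = g ∧ z n = g' ∧
      (∀ t, star (z t) * z t = 1 ∧ star (y t) * y t = 1 ∧ Z t ∈ 𝓝 (z t) ∧ Y t ∈ 𝓝 (y t)) ∧
      ∀ t < n, ∀ a ∈ unitary A, ∀ b ∈ unitary A, b ∈ Y t → a ∈ Z t ∨ a ∈ Z (t + 1) →
        S (star a * b) := by
  obtain ⟨z, y, h0, h1, h2⟩ := h
  have key : ∀ (q : Prop) (a b : unitary A), (q → S (a⁻¹ * b : unitary A)) →
      ∃ Z ∈ 𝓝 (a : A), ∃ Y ∈ 𝓝 (b : A), q → ∀ a' ∈ unitary A, ∀ b' ∈ unitary A, b' ∈ Y → a' ∈ Z →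
        S (star a' * b') := fun q a b h => by
    by_cases hq : q
    · have hc : Continuous fun x : A × A => star x.1 * x.2 := by fun_prop
      obtain ⟨Z, hZ, Y, hY, h3⟩ := mem_nhds_prod_iff.1
        ((hc.tendsto ((a : A), (b : A))).eventually (hS _ (h hq)))
      exact ⟨Z, hZ, Y, hY, fun _ a' ha b' hb h4 h5 =>
        h3 (Set.mk_mem_prod h5 h4) (mul_mem (Unitary.star_mem ha) hb)⟩
    · exact ⟨_, univ_mem, _, univ_mem, fun h => absurd h hq⟩
  choose Z₁ a1 Y₁ a2 a3 using fun t => key (t < n) (z t) (y t) fun h => (h2 t h).1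
  choose Z₂ b1 Y₂ b2 b3 using fun t => key (t < n) (z (t + 1)) (y t) fun h => (h2 t h).2
  refine ⟨fun t => z t, fun t => y t, fun t => Z₁ t ∩ Nat.casesOn t Set.univ Z₂, fun t => Y₁ t ∩ Y₂ t,
    congrArg _ h0, congrArg _ h1, fun t => ⟨(z t).2.1, (y t).2.1, inter_mem (a1 t) ?_,
    inter_mem (a2 t) (b2 t)⟩, fun t ht a ha b hb h3 h4 =>
    h4.elim (fun h => a3 t ht a ha b hb h3.1 h.1) fun h => b3 t ht a ha b hb h3.2 h.2⟩
  cases t with
  | zero => exact univ_mem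
  | succ t => exact b1 t

variable {k : Type u} {K B : Type*} [Field k] [NumberField k] [Field K] [NumberField K]
  [Algebra k K] [StarRing K] [Quad k K] [Ring B] [StarRing B] [Algebra K B] [StarModule K B]
  [Algebra.IsCentral K B] [IsSimpleRing B] [FiniteDimensional K B] [Algebra k B]
  [IsScalarTower k K B]

/-- weak approximation for `U`: global target on `S` and at infinity, local targets on `P` -/
theorem wa_two {S P : Finset (Pl k)} (hd : Disjoint S P) (a : unitary B) {W : Set B}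
    (hW : W ∈ nb k K B S a) (c : ∀ v : Pl k, BC k K B (Kv v)) (hc : ∀ v ∈ P, star (c v) * c v = 1)
    (C : ∀ v : Pl k, Set (BC k K B (Kv v))) (hC : ∀ v ∈ P, C v ∈ 𝓝 (c v)) :
    ∃ u : unitary B, W ∈ nb k K B S u ∧ ∀ v ∈ P, C v ∈ 𝓝 (BC.inc k K B (Kv v) u) := by
  classical
  obtain ⟨U, hU, h⟩ := mem_nb.1 hW
  let res : AS k K B (S ∪ P) → AS k K B S := fun x =>
    (x.1, fun v => x.2 ⟨v.1, Finset.mem_union_left _ v.2⟩)
  have hr : Continuous res := by fun_prop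
  let g : AS k K B (S ∪ P) :=
    (BC.inc k K B _ a, fun v => if v.1 ∈ P then c v.1 else BC.inc k K B _ a)
  have e : ∀ (R : Type u) [CommRing R] [Algebra k R],
      star (BC.inc k K B R a) * BC.inc k K B R a = 1 := fun R _ _ => by
    rw [BC.star_inc, ← map_mul, a.2.1, map_one]
  have hg : star g * g = 1 := Prod.ext (e _) (funext fun v => by
    change star (g.2 v) * g.2 v = 1
    simp only [g]
    split_ifs with hv
    exacts [hc _ hv, e _])
  have h1 : res g = jA k K B S a :=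
    Prod.ext rfl (funext fun v => if_neg (Finset.disjoint_left.1 hd v.2))
  have h2 : ∀ᶠ x in 𝓝 g, res x ∈ interior U ∧
      ∀ v : P, x.2 ⟨v.1, Finset.mem_union_right _ v.2⟩ ∈ interior (C v.1) :=
    (hr.continuousAt.eventually_mem (h1 ▸ interior_mem_nhds.2 hU)).and (eventually_all.2 fun v =>
      ((continuous_apply _).comp continuous_snd).continuousAt.eventually_mem (by
        simpa only [g, Function.comp, if_pos v.2] using interior_mem_nhds.2 (hC _ v.2)))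
  obtain ⟨u, h3, h4, h5⟩ := wa_U hg h2
  have := Opn.dedekind' K (A := B)
  exact ⟨⟨u, h3, mul_eq_one_comm.1 h3⟩, mem_nb.2 ⟨U, mem_interior_iff_mem_nhds.1 h4, h⟩,
    fun v hv => mem_interior_iff_mem_nhds.1 (h5 ⟨v, hv⟩)⟩

variable (k) in
theorem loc_ch (hd : 3 ≤ deg K B) (g g' : unitary B) (v : Pl k) : ∃ M₀, ∀ M, M₀ ≤ M →
    ∃ (z y : ℕ → BC k K B (Kv v)) (Z Y : ℕ → Set (BC k K B (Kv v))), ∀ [IsEmpty (K →ₐ[k] Kv v)],
      z 0 = BC.inc k K B _ g ∧ z M = BC.inc k K B _ g' ∧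
      (∀ t, star (z t) * z t = 1 ∧ star (y t) * y t = 1 ∧ Z t ∈ 𝓝 (z t) ∧ Y t ∈ 𝓝 (y t)) ∧
      ∀ t < M, ∀ a ∈ unitary _, ∀ b ∈ unitary _, b ∈ Y t → a ∈ Z t ∨ a ∈ Z (t + 1) →
        Om (BC k K K (Kv v)) (deg K B) (star a * b) := by
  rcases isEmpty_or_nonempty (K →ₐ[k] Kv v) with _ | ⟨⟨ι⟩⟩
  · obtain ⟨ψ⟩ := Loc.bc_mat K B v
    obtain ⟨M₀, h⟩ := local_chain (Quad.ne (Kv v)) (by omega) ψ (Loc.bc_iso K B v hd)
      (toU k K B _ g) (toU k K B _ g')
    refine ⟨M₀, fun M hM => ?_⟩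
    obtain ⟨z, y, Z, Y, h1⟩ := open_ch (fun u => Om.ev (Kv v) (BC.deg_E k K _ B)) (h M hM)
    exact ⟨z, y, Z, Y, h1⟩
  · exact ⟨0, fun _ _ => ⟨0, 0, fun _ => ∅, fun _ => ∅, fun [h : _] => h.elim ι⟩⟩

end Crest.Agent.T24.Hol28

namespace Crest.Agent.T24.H80

open NumberField Csa Asa Topology Filter Ev In Hol28

universe u v

theorem chainStmt28 : ChainStmt.{u, v} := by
  classical
  intro K _ _ _ B _ _ _ _ _ _ _ _ hne hd N p hN hp hpN g g'
  obtain ⟨k, _⟩ := exists_quad hne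
  have h0 : N ≠ 0 := by omega
  have h1 : N * p ≠ 0 := mul_ne_zero h0 hp.ne_zero
  let P := (SN k p).filter fun v => IsEmpty (K →ₐ[k] Kv v)
  have hP : ∀ v, v ∈ P ↔ (p : 𝓞 k) ∈ v.asIdeal ∧ IsEmpty (K →ₐ[k] Kv v) := fun v => by
    rw [Finset.mem_filter, mem_SN hp.ne_zero]
  have hSP : Disjoint (SN k N) P := Finset.disjoint_left.2 fun v h2 h3 =>
    (N23.val_N.2 ((hP v).1 h3).1).ne
      (N23.val_coprime ((mem_SN h0).1 h2) ((hp.coprime_iff_not_dvd).2 hpN))
  have s1 : SN k N ⊆ SN k (N * p) := fun v hv => (mem_SN h1).2 (by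
    rw [Nat.cast_mul]; exact Ideal.mul_mem_right _ _ ((mem_SN h0).1 hv))
  have s2 : P ⊆ SN k (N * p) := fun v hv => (mem_SN h1).2 (by
    rw [Nat.cast_mul]; exact Ideal.mul_mem_left _ _ ((hP v).1 hv).1)
  choose M₀ hM using loc_ch k hd g g'
  refine ⟨P.sup M₀, fun M hM' a a' W W' hW => ?_⟩
  simp only [ng_eq k K h0] at hW
  choose z y Z Y h using fun v => hM v (max (M₀ v) (M + 1)) le_sup_left
  replace h := fun v (hv : v ∈ P) => by
    have := @h v ((hP v).1 hv).2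
    rw [max_eq_right (((Finset.le_sup hv).trans hM').trans M.le_succ)] at this
    exact this
  choose x x1 x2 using fun t => wa_two hSP (a t) (hW t).1 (fun v => z v t)
    (fun v hv => ((h v hv).2.2.1 t).1) (fun v => Z v t) fun v hv => ((h v hv).2.2.1 t).2.2.1
  choose b b1 b2 using fun t => wa_two hSP (a' t) (hW t).2 (fun v => y v t)
    (fun v hv => ((h v hv).2.2.1 t).2.1) (fun v => Y v t) fun v hv => ((h v hv).2.2.1 t).2.2.2
  let ζ : ℕ → unitary B := fun t => if t = 0 then g else if t = M + 1 then g' else x t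
  have hζ : ∀ t, ∀ v ∈ P, BC.inc k K B (Kv v) (ζ t) ∈ Z v t := fun t v hv => by
    refine mem_of_mem_nhds ?_
    simp only [ζ]
    split_ifs with c1 c2
    · rw [← (h v hv).1, c1]; exact ((h v hv).2.2.1 _).2.2.1
    · rw [← (h v hv).2.1, c2]; exact ((h v hv).2.2.1 _).2.2.1
    · exact x2 t v hv
  refine ⟨ζ, if_pos rfl, (if_neg M.succ_ne_zero).trans (if_pos rfl), fun t t1 t2 => ?_,
    fun t ht => eq_top_iff.2 ?_⟩
  · simp only [ζ, if_neg t1.ne', if_neg (Nat.lt_succ_of_le t2).ne]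
    exact self_of_nb (x1 t)
  have h2 : ∀ᶠ c in ng (N * p) (b t : B), c ∈ W' t ∧ ∀ v ∈ P, BC.inc k K B (Kv v) c ∈ Y v t := by
    rw [ng_eq k K h1]
    exact Eventually.and (nb_anti s1 _ (b1 t)) ((eventually_all_finset _).2 fun v hv =>
      (nb_fin tendsto_id (s2 hv)).eventually_mem (b2 t v hv))
  rw [← span0Stmt K B hne (N * p) (hN.trans (Nat.le_mul_of_pos_right _ hp.pos)) (b t) _ h2]
  refine Submodule.span_mono fun c hc => ?_
  have key : ∀ s, s = t ∨ s = t + 1 → Ed K N p (ζ s : B) c := fun s hs V hV => by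
    have h3 : ∀ v : Pl k, (p : 𝓞 k) ∈ v.asIdeal → ∀ [IsEmpty (K →ₐ[k] Kv v)],
        Om (BC k K K (Kv v)) (deg K B) (BC.inc k K B (Kv v) (star (ζ s : B) * c)) := fun v hv i => by
      have hv' := (hP v).2 ⟨hv, i⟩
      rw [map_mul]
      exact (h v hv').2.2.2 t (Nat.lt_succ_of_le ht) _ (toU k K B _ (ζ s)).2 _
        (toU k K B _ ⟨c, hc.1⟩).2 (hc.2.2 v hv')
        (hs.elim (fun e => .inl (e ▸ hζ s v hv')) fun e => .inr (e ▸ hζ s v hv'))
    refine ⟨nod_of_om k hN hp hpN (fun v hv _ => ?_) hV, nod_of_om k hN hp hpN h3 hV⟩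
    simpa only [BC.star_inc, star_mul, star_star] using (h3 v hv).adj
  exact ⟨hc.1, hc.2.1, key _ (.inl rfl), key _ (.inr rfl)⟩

end Crest.Agent.T24.H80
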