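import Crest.Agent.T24.Def_26
import Crest.Agent.T24.InG_71
import Crest.Agent.T24.HolId_32

/-!
# Row 24, HOL (helper32): section 4 of `docs/T24_lead.md`, the rule (d)
-/

set_option autoImplicit false
set_option linter.unusedSectionVars false

namespace Crest.Agent.T24.HolD

open Filter Ring In Id32

section alg
variable {B : Type*} [Ring B]

theorem inv_y1 {u z : B} (hu : IsUnit u) (hz : IsUnit z) (h : IsUnit (z + u)) :
    inverse (u * inverse z * u + u) = inverse u - inverse (z + u) := by
  have e : u * inverse z * u + u = u * inverse z * (z + u) := by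
    linear_combination (norm := noncomm_ring) -(u * inverse_mul_cancel z hz)
  rw [e, inv_mul (hu.mul hz.ringInverse) h, inv_mul hu hz.ringInverse, inv_inv' hz]
  linear_combination (norm := noncomm_ring)
    inverse_mul_cancel _ h * inverse u - inverse (z + u) * mul_inverse_cancel u hu

theorem xi_one_sub {z : B} (hz : IsUnit z) : xi (1 - inverse z) = z := by
  rw [xi, sub_sub_cancel, inv_inv' hz]

theorem xi_one_add {u : B} (hu : IsUnit u) : xi (1 + inverse u) = -u := by
  rw [xi, sub_add_cancel_left, inv_neg hu.ringInverse, inv_inv' hu]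

variable [StarRing B]

theorem one_add_unitary {u : B} (hu : IsUnit u) (h : u + star u = -1) : 1 + inverse u ∈ unitary B := by
  have h1 := mul_inverse_cancel u hu
  have h2 := inverse_mul_cancel u hu
  have h3 := mul_inverse_cancel _ hu.star
  have h4 := inverse_mul_cancel _ hu.star
  rw [Unitary.mem_iff, star_add, star_one, ← Ring.inverse_star]
  constructor
  · linear_combination (norm := noncomm_ring)
      inverse (star u) * h * inverse u - inverse (star u) * h1 - h4 * inverse u
  · linear_combination (norm := noncomm_ring)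
      inverse u * h * inverse (star u) - h2 * inverse (star u) - inverse u * h3

/-- `1 - g⁻¹ y` is congruent to the inverse of `(z + u)⁻¹ - u⁻¹` -/
theorem third {u z : B} (hu : IsUnit u) (h : u + star u = -1) (hz : IsUnit z) (hzu : IsUnit (z + u))
    (hw : IsUnit (inverse (z + u) - inverse u)) :
    1 - star (1 + inverse u) * (1 - inverse z) =
      star (inverse u) * inverse (inverse (z + u) - inverse u) * inverse u := by
  have h1 := mul_inverse_cancel u hu
  have h2 := inverse_mul_cancel u hu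
  have h4 := inverse_mul_cancel _ hu.star
  have e : inverse (inverse (z + u) - inverse u) = -(u * inverse z * (z + u)) := by
    refine inv_eq hw ?_
    have : inverse (z + u) - inverse u = -(inverse (z + u) * z * inverse u) := by
      linear_combination (norm := noncomm_ring)
        inverse_mul_cancel _ hzu * inverse u - inverse (z + u) * h1
    rw [this]
    linear_combination (norm := noncomm_ring)
      inverse (z + u) * z * h2 * inverse z * (z + u) +
        inverse (z + u) * mul_inverse_cancel z hz * (z + u) + inverse_mul_cancel _ hzu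
  have k : inverse (star u) * u = -1 - inverse (star u) := by
    linear_combination (norm := noncomm_ring) inverse (star u) * h - h4
  have k' : inverse (star u) * inverse u = -inverse u - inverse (star u) := by
    linear_combination (norm := noncomm_ring)
      inverse (star u) * h * inverse u - inverse (star u) * h1 - h4 * inverse u
  rw [e, star_add, star_one, ← Ring.inverse_star]
  linear_combination (norm := noncomm_ring)
    k * inverse z * (z + u) * inverse u - (1 + inverse (star u)) * inverse_mul_cancel z hz * inverse u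
      - (1 + inverse (star u)) * inverse z * h1 - k'

end alg

variable {K : Type*} [Field K] [NumberField K] [StarRing K] {B : Type*} [Ring B] [StarRing B]
  [Algebra K B] [StarModule K B] [Algebra ℚ B] [FiniteDimensional K B] {A : Type*} [CommGroup A]

variable (K) in
/-- the exact rules of `F` -/
structure Ru (F : B → A) (Adm : B → Prop) : Prop where
  unit : ∀ {x}, Adm x → IsUnit x
  C : ∀ {x q}, Adm x → IsUnit q → Adm (star q * x * q) ∧ F (star q * x * q) = F x
  I : ∀ {x}, Adm x → Adm (inverse x) ∧ F (inverse x) = (F x)⁻¹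
  R : ∀ {x} {r : K}, Adm x → star r = r → r ≠ 0 → Adm (r • x) ∧ F (r • x) = F x

/-- the three-step function -/
noncomputable def rr (F : B → A) (g y : B) : A :=
  F (1 - y) * F (inverse (1 - y) - inverse (1 - g)) / F (1 - star g * y)

noncomputable def phi (F : B → A) (c : K) (x : B) : A := F (c • x) / F (c • 1)

variable {F : B → A} {Adm : B → Prop} {N : ℕ}

theorem Ru.st (h : Ru K F Adm) {x : B} (hx : Adm x) : Adm (star x) ∧ F (star x) = (F x)⁻¹ := by
  have := h.C (h.I hx).1 (h.unit hx)
  rwa [inverse_mul_cancel_right _ _ (h.unit hx), (h.I hx).2] at this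

theorem Ru.neg (h : Ru K F Adm) {x : B} (hx : Adm x) : Adm (-x) ∧ F (-x) = F x := by
  simpa using h.R (r := -1) hx (by simp) (by simp)

theorem Ru.rho (h : Ru K F Adm) {u z : B} (hu : IsUnit u) (hh : u + star u = -1) (hz : Adm z)
    (hw : Adm (inverse (z + u) - inverse u)) (hzu : Adm (z + u)) :
    rr F (1 + inverse u) (1 - inverse z) * F z = F (z + u) * F (inverse (z + u) - inverse u) := by
  have h1 := xi_one_sub (h.unit hz)
  have h2 := xi_one_add hu
  rw [xi] at h1 h2
  rw [rr, h1, h2, sub_neg_eq_add, sub_sub_cancel, (h.I hz).2,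
    third hu hh (h.unit hz) (h.unit hzu) (h.unit hw), (h.C (h.I hw).1 hu.ringInverse).2, (h.I hw).2,
    div_inv_eq_mul, mul_assoc, mul_assoc, mul_comm _ (F z), mul_left_comm _ (F z), inv_mul_cancel_left]

/-- the symmetry `z ↦ u z⁻¹ u` -/
theorem Ru.sym (h : Ru K F Adm) {u z : B} (hu : IsUnit u) (hh : u + star u = -1) (hz : Adm z)
    (hzu : Adm (z + u)) (hy : Adm (u * inverse z * u)) (hyu : Adm (u * inverse z * u + u)) :
    rr F (1 + inverse u) (1 - inverse (u * inverse z * u)) * F (u * inverse z * u) *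
      (rr F (1 + inverse u) (1 - inverse z) * F z) = 1 := by
  have e := inv_y1 hu (h.unit hz) (h.unit hzu)
  have e1 : inverse (z + u) - inverse u = -inverse (u * inverse z * u + u) := by rw [e, neg_sub]
  have e2 : inverse (u * inverse z * u + u) - inverse u = -inverse (z + u) := by rw [e]; abel
  have a1 := h.neg (h.I hyu).1
  have a2 := h.neg (h.I hzu).1
  rw [h.rho hu hh hz (e1 ▸ a1.1) hzu, h.rho hu hh hy (e2 ▸ a2.1) hyu, e1, e2, a1.2, a2.2, (h.I hyu).2,
    (h.I hzu).2, mul_mul_mul_comm, mul_comm (F _)⁻¹, ← mul_mul_mul_comm]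
  simp

/-! ## The germ `φ` -/

variable {ψ : K → A} {om u₀ : K}

theorem ng_star {α : Type*} {l : Filter α} {f : α → B} {a : B} (hf : Tendsto f l (ng N a)) :
    Tendsto (fun i => star (f i)) l (ng N (star a)) := ng_lin (starAddEquiv (R := B)).toAddMonoidHom hf

theorem ng_csmul {α : Type*} {l : Filter α} (c : K) {f : α → B} {a : B} (hf : Tendsto f l (ng N a)) :
    Tendsto (fun i => c • f i) l (ng N (c • a)) := ng_smul K (ng_const c) hf

variable (N F Adm ψ om u₀) in
/-- the data of section 4 -/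
structure Dat : Prop where
  hN : 2 ≤ N
  ru : Ru K F Adm
  uni : star om * om = 1
  u0 : u₀ * (om - 1) = 1
  near : ∀ᶠ z in ng N (1 : B), Adm (u₀ • z)
  So : ∀ x, Adm x → Adm (om • x) → F (om • x) = ψ om * F x
  S : ∀ᶠ c in ng N (1 : K), ∀ x, Adm x → Adm (c • x) → F (c • x) = ψ c * F x

namespace Dat
variable (D : Dat F Adm N ψ om u₀)
include D

theorem ne : u₀ ≠ 0 := left_ne_zero_of_mul_eq_one D.u0

theorem star_u0 : star u₀ = -(om * u₀) := by
  have h := congrArg star D.u0
  rw [star_mul', star_sub, star_one] at h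
  linear_combination -(om * u₀) * h + star u₀ * u₀ * D.uni - star u₀ * D.u0

theorem h_u0 : u₀ + star u₀ = -1 := by rw [D.star_u0]; linear_combination -D.u0

theorem adm1 : Adm (u₀ • (1 : B)) := self_of_ng (p := fun z : B => Adm (u₀ • z)) D.near

theorem st_aux {x : B} (h : Adm (u₀ • x)) (h' : Adm (u₀ • star x)) :
    F (u₀ • star x) = (ψ om)⁻¹ * (F (u₀ • x))⁻¹ := by
  have h1 := D.ru.neg (D.ru.st h).1
  rw [(D.ru.st h).2, star_smul, D.star_u0, neg_smul, neg_neg, mul_smul] at h1
  rw [← h1.2, D.So _ h' h1.1, inv_mul_cancel_left]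

theorem inv_aux {x : B} (hx : IsUnit x) (h : Adm (u₀ • x)) (h' : Adm (u₀ • inverse x)) :
    F (u₀ • inverse x) = (ψ om)⁻¹ * (F (u₀ • x))⁻¹ := by
  have h0 := D.ru.C (D.ru.I h).1 (isUnit_smul D.ne (isUnit_one (M := B)))
  have h1 := D.ru.neg h0.1
  rw [h0.2, (D.ru.I h).2, inv_smul D.ne hx, star_smul, star_one, smul_mul_assoc, smul_mul_assoc, one_mul,
    smul_mul_smul_comm, inv_mul_cancel₀ D.ne, one_smul, mul_one, D.star_u0, neg_smul, neg_neg,
    mul_smul] at h1
  rw [← h1.2, D.So _ h' h1.1, inv_mul_cancel_left]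

theorem base : (ψ om)⁻¹ = F (u₀ • 1) * F (u₀ • 1) := by
  have := D.st_aux D.adm1 (by rw [star_one]; exact D.adm1)
  rw [star_one] at this
  exact (eq_mul_inv_iff_mul_eq.1 this).symm

omit D in
theorem one : phi F u₀ 1 = 1 := div_self' _

theorem inv' : ∀ᶠ x in ng N (1 : B), phi F u₀ (inverse x) = (phi F u₀ x)⁻¹ := by
  have := fdQ K B
  filter_upwards [D.near, (ng_inverse D.hN).eventually D.near, ng_isUnit D.hN] with x h h' hx
  rw [phi, phi, D.inv_aux hx h h', D.base, inv_div, mul_right_comm, mul_div_cancel_right,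
    div_eq_mul_inv]

theorem inv : ∀ᶠ x in ng N (1 : B), ∀ y, x * y = 1 → phi F u₀ y = (phi F u₀ x)⁻¹ := by
  have := fdQ K B
  filter_upwards [D.inv', ng_isUnit D.hN] with x h hx y hy
  rw [← inv_eq hx hy, h]

theorem st : ∀ᶠ x in ng N (1 : B), phi F u₀ (star x) = (phi F u₀ x)⁻¹ := by
  have h1 : Tendsto (fun x : B => star x) (ng N 1) (ng N 1) := by
    simpa using ng_star (tendsto_id (x := ng N (1 : B)))
  filter_upwards [D.near, h1.eventually D.near] with x h h'
  rw [phi, phi, D.st_aux h h', D.base, inv_div, mul_right_comm, mul_div_cancel_right, div_eq_mul_inv]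

theorem cg' {q x : B} (hq : IsUnit q) (h : Adm (u₀ • x)) : phi F u₀ (star q * x * q) = phi F u₀ x := by
  rw [phi, phi, ← (D.ru.C h hq).2, mul_smul_comm, smul_mul_assoc]

theorem cg : ∀ᶠ p : B × B in ng N (1 : B) ×ˢ ng N (1 : B),
    phi F u₀ (star p.1 * p.2 * p.1) = phi F u₀ p.2 := by
  have := fdQ K B
  filter_upwards [(ng_isUnit D.hN).prod_mk D.near] with p h using D.cg' h.1 h.2

theorem sc : ∀ᶠ p : K × B in ng N (1 : K) ×ˢ ng N (1 : B),
    phi F u₀ (p.1 • p.2) = phi F u₀ (p.1 • 1) * phi F u₀ p.2 := by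
  have h1 : Tendsto (fun p : K × B => p.1 • p.2) (ng N 1 ×ˢ ng N 1) (ng N 1) := by
    simpa using ng_smul K (tendsto_fst (f := ng N (1 : K)) (g := ng N (1 : B))) tendsto_snd
  have h2 : Tendsto (fun p : K × B => p.1 • (1 : B)) (ng N 1 ×ˢ ng N 1) (ng N 1) := by
    simpa using ng_smul K (tendsto_fst (f := ng N (1 : K)) (g := ng N (1 : B))) (ng_const (1 : B))
  filter_upwards [D.S.prod_mk D.near, h1.eventually D.near, h2.eventually D.near] with p h h' h''
  rw [smul_comm] at h' h''
  rw [phi, phi, phi, smul_comm, h.1 _ h.2 h', smul_comm u₀, h.1 _ D.adm1 h'', mul_div_cancel_right,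
    mul_div_assoc]

theorem re' {c : K} (hc : star c = c) (h0 : c ≠ 0) {x : B} (h : Adm (u₀ • x)) :
    phi F u₀ (c • x) = phi F u₀ x := by
  rw [phi, phi, smul_comm, (D.ru.R h hc h0).2]

theorem re : ∀ᶠ c in ng N (1 : K), star c = c → phi F u₀ (c • 1) = 1 := by
  filter_upwards [ng_isUnit (B := K) D.hN] with c h hc
  rw [D.re' hc h.ne_zero D.adm1, one]

theorem adm_add {α : Type*} {l : Filter α} {f g : α → B} (hf : Tendsto f l (ng N 1))
    (hg : Tendsto g l (ng N 1)) : ∀ᶠ i in l, Adm (u₀ • f i + u₀ • g i) := by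
  have := fdQ K B
  have h1 : Tendsto (fun i => (2 : K)⁻¹ • (f i + g i)) l (ng N 1) := by
    have := ng_csmul (2 : K)⁻¹ (ng_add hf hg)
    rwa [← two_smul K, inv_smul_smul₀ two_ne_zero] at this
  filter_upwards [h1.eventually D.near] with i h
  have := (D.ru.R (r := 2) h (by simp) two_ne_zero).1
  rwa [smul_comm, smul_inv_smul₀ two_ne_zero, smul_add] at this

theorem lim_inv {α : Type*} {l : Filter α} {f : α → B} (hf : Tendsto f l (ng N 1)) :
    Tendsto (fun i => inverse (u₀ • f i)) l (ng N (algebraMap K B (om - 1))) := by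
  have := fdQ K B
  have h := ng_csmul u₀⁻¹ (ng_inv D.hN hf)
  rw [← Algebra.algebraMap_eq_smul_one, ← eq_inv_of_mul_eq_one_right D.u0] at h
  refine h.congr' ((hf.eventually (ng_isUnit D.hN)).mono fun i hi => ?_)
  rw [eq_inv_of_mul_eq_one_right D.u0]
  exact (inv_smul D.ne hi).symm

/-- (d) on the quadric `h (u₀ v) = -1` -/
theorem dd0 (hc : ∀ᶠ q : B × B × B in ng N (algebraMap K B om) ×ˢ ng N (algebraMap K B (2 - om)) ×ˢ
      ng N (algebraMap K B (2 - om)), q.1 ∈ unitary B → rr F q.1 q.2.1 = rr F q.1 q.2.2) :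
    ∀ᶠ q : B × B × B in ng N (1 : B) ×ˢ ng N (1 : B) ×ˢ ng N (1 : B),
      u₀ • q.1 + star (u₀ • q.1) = -1 →
        phi F u₀ (q.1 * q.2.1 * q.1) * phi F u₀ q.2.2 = phi F u₀ (q.1 * q.2.2 * q.1) * phi F u₀ q.2.1 := by
  have := fdQ K B
  set L : Filter (B × B × B) := ng N (1 : B) ×ˢ ng N (1 : B) ×ˢ ng N (1 : B)
  have hv : Tendsto (fun q : B × B × B => q.1) L (ng N 1) := tendsto_fst
  have hg : Tendsto (fun q : B × B × B => 1 + inverse (u₀ • q.1)) L (ng N (algebraMap K B om)) := by
    simpa using ng_add (ng_const 1) (D.lim_inv hv)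
  have hy : ∀ f : B × B × B → B, Tendsto f L (ng N 1) →
      Tendsto (fun q => 1 - inverse (u₀ • f q)) L (ng N (algebraMap K B (2 - om))) := fun f hf => by
    have := ng_sub (ng_const 1) (D.lim_inv hf)
    rwa [← map_one (algebraMap K B), ← map_sub, show 1 - (om - 1) = 2 - om by ring, map_one] at this
  have key : ∀ f : B × B × B → B, Tendsto f L (ng N 1) → ∀ᶠ q in L,
      u₀ • q.1 + star (u₀ • q.1) = -1 →
      rr F (1 + inverse (u₀ • q.1)) (1 - inverse (u₀ • (1 : B))) ^ 2 *
        (phi F u₀ (q.1 * f q * q.1) * (phi F u₀ (f q))⁻¹) * (F (u₀ • 1) * F (u₀ • 1)) = 1 := fun f hf => by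
    have h1 := ng_inv D.hN hf
    have h2 := ng_mul_one (ng_mul_one hv hf) hv
    filter_upwards [hv.eventually (ng_isUnit D.hN), hf.eventually (ng_isUnit D.hN), hf.eventually D.inv',
      h1.eventually D.near, h2.eventually D.near, D.adm_add h1 hv, D.adm_add h2 hv,
      (hg.prodMk ((hy _ h1).prodMk (hy _ (ng_const 1)))).eventually hc,
      (hg.prodMk ((hy _ h2).prodMk (hy _ (ng_const 1)))).eventually hc] with q uv uf e a1 a2 a3 a4 c1 c2 hh
    have hu := isUnit_smul D.ne uv
    have e1 : u₀ • q.1 * inverse (u₀ • inverse (f q)) * u₀ • q.1 = u₀ • (q.1 * f q * q.1) := by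
      rw [inv_smul D.ne uf.ringInverse, inv_inv' uf, smul_mul_smul_comm, mul_inv_cancel₀ D.ne, one_smul,
        mul_smul_comm]
    have k := D.ru.sym hu hh a1 a3 (e1 ▸ a2) (e1 ▸ a4)
    rw [e1, c1 (one_add_unitary hu hh), c2 (one_add_unitary hu hh)] at k
    rw [← e, ← k, phi, phi, mul_assoc, mul_mul_mul_comm (_ / _), div_mul_cancel, div_mul_cancel, pow_two,
      mul_mul_mul_comm]
  filter_upwards [key _ (tendsto_fst.comp tendsto_snd), key _ (tendsto_snd.comp tendsto_snd)]
    with q k1 k2 hh
  have := mul_left_cancel (mul_right_cancel ((k1 hh).trans (k2 hh).symm))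
  exact div_eq_div_iff_mul_eq_mul.1 (by simpa only [div_eq_mul_inv, Function.comp] using this)

/-- (d) -/
theorem dd (hc : ∀ᶠ q : B × B × B in ng N (algebraMap K B om) ×ˢ ng N (algebraMap K B (2 - om)) ×ˢ
      ng N (algebraMap K B (2 - om)), q.1 ∈ unitary B → rr F q.1 q.2.1 = rr F q.1 q.2.2)
    (lh : ∀ V ∈ ng N (1 : B), ∀ V' ∈ ng N (1 : K), ∀ᶠ hh in ng N (1 : B), star hh = hh →
      ∃ r ∈ V', ∃ p ∈ V, star r = r ∧ star p * p = r • hh) :
    ∀ᶠ p : B × B in ng N (1 : B) ×ˢ ng N (1 : B),
      phi F u₀ (p.1 * p.2 * p.1) = phi F u₀ (p.1 ^ 2) * phi F u₀ p.2 := by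
  have := fdQ K B
  set L : Filter ((K × B) × B × B) := (ng N (1 : K) ×ˢ ng N (1 : B)) ×ˢ ng N (1 : B) ×ˢ ng N (1 : B)
  have hr : Tendsto (fun q : (K × B) × B × B => q.1.1) L (ng N 1) := tendsto_fst.comp tendsto_fst
  have hp : Tendsto (fun q : (K × B) × B × B => q.1.2) L (ng N 1) := tendsto_snd.comp tendsto_fst
  have hv : Tendsto (fun q : (K × B) × B × B => q.2.1) L (ng N 1) := tendsto_fst.comp tendsto_snd
  have hx : Tendsto (fun q : (K × B) × B × B => q.2.2) L (ng N 1) := tendsto_snd.comp tendsto_snd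
  have hs : Tendsto (fun q : (K × B) × B × B => star q.1.2) L (ng N 1) := by simpa using ng_star hp
  have h1 : Tendsto (fun q : (K × B) × B × B => q.1.1 • (inverse (star q.1.2) * q.2.1 * inverse q.1.2))
      L (ng N 1) := by
    simpa using ng_smul K hr (ng_mul_one (ng_mul_one (ng_inv D.hN hs) hv) (ng_inv D.hN hp))
  have h2 := ng_mul_one (ng_mul_one hp hx) hs
  have h3 := ng_mul_one (ng_mul_one hp (ng_const 1)) hs
  have key : ∀ᶠ q in L, star q.1.1 = q.1.1 →
      star q.1.2 * q.1.2 = q.1.1 • -(u₀ • q.2.1 + star (u₀ • q.2.1)) →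
      phi F u₀ (q.2.1 * q.2.2 * q.2.1) = phi F u₀ (q.2.1 ^ 2) * phi F u₀ q.2.2 := by
    filter_upwards [(h1.prodMk (h2.prodMk h3)).eventually (D.dd0 hc), hr.eventually (ng_isUnit D.hN),
      hp.eventually (ng_isUnit D.hN), hx.eventually D.near,
      (ng_mul_one (ng_mul_one h1 h2) h1).eventually D.near,
      (ng_mul_one (ng_mul_one h1 h3) h1).eventually D.near] with ⟨⟨r, p⟩, v, x⟩ k ur up ax a1 a2 sr e
    simp only at *
    have r0 := ur.ne_zero
    have i1 := mul_inverse_cancel p up
    have i2 := inverse_mul_cancel p up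
    have i3 := mul_inverse_cancel _ up.star
    have i4 := inverse_mul_cancel _ up.star
    have hq : u₀ • r • (inverse (star p) * v * inverse p) +
        star (u₀ • r • (inverse (star p) * v * inverse p)) = -1 := by
      have : u₀ • r • (inverse (star p) * v * inverse p) +
          star (u₀ • r • (inverse (star p) * v * inverse p)) =
          -(inverse (star p) * (r • -(u₀ • v + star (u₀ • v))) * inverse p) := by
        simp only [star_smul, star_mul, sr, ← Ring.inverse_star, star_star, smul_neg, smul_add, mul_neg,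
          neg_mul, neg_neg, mul_add, add_mul, mul_smul_comm, smul_mul_assoc, mul_assoc, smul_comm u₀ r]
      rw [this, ← e]
      linear_combination (norm := noncomm_ring) -(i4 * p * inverse p) - i1
    have e1 : ∀ y : B, v * y * v = (r * r)⁻¹ • (star p * (r • (inverse (star p) * v * inverse p) *
        (p * y * star p) * r • (inverse (star p) * v * inverse p)) * p) := fun y => by
      simp only [mul_smul_comm, smul_mul_assoc, smul_smul, inv_mul_cancel₀ (mul_ne_zero r0 r0), one_smul]
      linear_combination (norm := noncomm_ring)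
        -(i3 * v * inverse p * p * y * star p * inverse (star p) * v * inverse p * p)
          - v * i2 * y * star p * inverse (star p) * v * inverse p * p
          - v * y * i3 * v * inverse p * p - v * y * v * i2
    have e2 : ∀ y : B, Adm (u₀ • (r • (inverse (star p) * v * inverse p) * (p * y * star p) *
        r • (inverse (star p) * v * inverse p))) → phi F u₀ (v * y * v) =
        phi F u₀ (r • (inverse (star p) * v * inverse p) * (p * y * star p) *
          r • (inverse (star p) * v * inverse p)) := fun y hy => by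
      rw [e1, D.re' (by rw [star_inv₀, star_mul', sr]) (inv_ne_zero (mul_ne_zero r0 r0))
        (by simpa only [mul_smul_comm u₀, smul_mul_assoc u₀] using (D.ru.C hy up).1), D.cg' up hy]
    have e3 : ∀ y : B, Adm (u₀ • y) → phi F u₀ (p * y * star p) = phi F u₀ y := fun y hy => by
      simpa only [star_star] using D.cg' up.star hy
    have k' := k hq
    rw [← e2 _ a1, ← e2 _ a2, e3 _ ax, e3 _ D.adm1, one, mul_one, mul_one] at k'
    rw [k', pow_two]
  obtain ⟨P, hP, Q, hQ, H⟩ := eventually_prod_iff.1 key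
  obtain ⟨P₁, hP₁, P₂, hP₂, H'⟩ := eventually_prod_iff.1 hP
  have h4 : Tendsto (fun q : B × B => -(u₀ • q.1 + star (u₀ • q.1))) (ng N 1 ×ˢ ng N 1) (ng N 1) := by
    have h := ng_csmul u₀ (tendsto_fst (f := ng N (1 : B)) (g := ng N (1 : B)))
    have := ng_neg (ng_add h (ng_star h))
    rwa [star_smul, star_one, ← add_smul, D.h_u0, neg_smul, neg_neg, one_smul] at this
  filter_upwards [hQ, h4.eventually (lh _ hP₂ _ hP₁)] with q hq k
  obtain ⟨r, h₁, p, h₂, sr, e⟩ := k (by rw [star_neg, star_add, star_star, add_comm])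
  exact H (x := (r, p)) (H' h₁ h₂) hq sr e

end Dat

/-- (LH1) with `r = Nrd hh` gives the form used in `Dat.dd` -/
theorem lh_of_nrd [Algebra.IsCentral K B] [IsSimpleRing B]
    (h : ∀ V ∈ ng N (1 : B), ∀ᶠ hh in ng N (1 : B), star hh = hh →
      ∃ p ∈ V, star p * p = Csa.Nrd K hh • hh) :
    ∀ V ∈ ng N (1 : B), ∀ V' ∈ ng N (1 : K), ∀ᶠ hh in ng N (1 : B), star hh = hh →
      ∃ r ∈ V', ∃ p ∈ V, star r = r ∧ star p * p = r • hh := fun V hV V' hV' => by
  filter_upwards [h V hV, ng_Nrd_one K hV'] with hh k hr hs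
  obtain ⟨p, hp, e⟩ := k hs
  exact ⟨_, hr, p, hp, by rw [← Nrd_star, hs], e⟩

end Crest.Agent.T24.HolD
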