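import Crest.Agent.T24.HolDef_95
import Crest.Agent.T24.HolD_32
import Crest.Agent.T24.HolCDef_25

/-!
# Row 24, holonomy step (helper95): the glue
-/

set_option autoImplicit false
set_option linter.unusedSectionVars false

noncomputable section

namespace Crest.Agent.T24.Hol

open Ring Filter Csa Asa In Stab HolD NumberField

universe u v w

section Words
variable (N : ℕ) (K B : Type*) [Field K] [NumberField K] [StarRing K] [Ring B] [StarRing B]
  [Algebra K B] [StarModule K B] [Algebra ℚ B] [Algebra.IsCentral K B] [IsSimpleRing B]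
  [FiniteDimensional K B] (A : Type*) [CommGroup A]

/-- H1: cocycle, antisymmetry and steps -/
def H1 : Prop := ∀ (F : B → A) (Adm : B → Prop) (ψ : K → A), Sys N F Adm ψ →
  ∀ᶠ om in ng N (1 : K), star om * om = 1 → om ≠ 1 →
    HolC.Hyp K N (fun i : Fin 3 => algebraMap K B (om ^ (i : ℕ))) (algebraMap K B (2 - om))
      (fun g g' y => rr F (star g * g') (star g * y))

variable {B A} in
/-- the germ rules of `φ` -/
structure Ph (φ : B → A) : Prop where
  one : φ 1 = 1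
  inv : ∀ᶠ x in ng N (1 : B), ∀ y, x * y = 1 → φ y = (φ x)⁻¹
  st : ∀ᶠ x in ng N (1 : B), φ (star x) = (φ x)⁻¹
  cg : ∀ᶠ p : B × B in ng N (1 : B) ×ˢ ng N (1 : B), φ (star p.1 * p.2 * p.1) = φ p.2
  sc : ∀ᶠ p : K × B in ng N (1 : K) ×ˢ ng N (1 : B), φ (p.1 • p.2) = φ (p.1 • 1) * φ p.2
  re : ∀ᶠ c in ng N (1 : K), star c = c → φ (c • 1) = 1
  dd : ∀ᶠ p : B × B in ng N (1 : B) ×ˢ ng N (1 : B), φ (p.1 * p.2 * p.1) = φ (p.1 ^ 2) * φ p.2

/-- H7: the end of the argument -/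
def H7 : Prop := ∀ n : ℕ, n ≠ 0 → (∀ a : A, a ^ n = 1) → ∀ φ : B → A, Ph N K φ →
  ∃ N' : ℕ, 2 ≤ N' ∧ ng N' (1 : B) ≤ ng N 1 ∧
    ∀ᶠ x in ng N' (1 : B), star (Nrd K x) = Nrd K x → φ x = 1

variable {N K B A}

theorem exists_om (hN : 2 ≤ N) (hne : ∃ c : K, star c ≠ c) {p : K → Prop}
    (hp : ∀ᶠ om in ng N (1 : K), p om) : ∃ om, star om * om = 1 ∧ om ≠ 1 ∧ p om := by
  obtain ⟨c, hc⟩ := hne
  set θ := c - star c with hθ
  have θ0 : θ ≠ 0 := sub_ne_zero.2 hc.symm
  have sθ : star θ = -θ := by simp [hθ]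
  let t : ℕ → K := fun j => ((N : ℚ) / (N + 1)) ^ j • θ
  have ht : Tendsto t atTop (ng N 0) := tendsto_small θ
  have st : ∀ j, star (t j) = -t j := fun j => by
    simp only [t, Algebra.smul_def, eq_ratCast, star_mul', star_ratCast, sθ, mul_neg]
  have h1 : Tendsto (fun j => 1 + t j) atTop (ng N 1) := by simpa using ng_add (ng_const 1) ht
  have h2 : Tendsto (fun j => 1 - t j) atTop (ng N 1) := by simpa using ng_sub (ng_const 1) ht
  have h3 := ng_mul_one h1 (ng_inv hN h2)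
  obtain ⟨j, a, b, d⟩ := ((h3.eventually hp).and ((h1.eventually (ng_isUnit hN)).and
    (h2.eventually (ng_isUnit hN)))).exists
  have b0 := b.ne_zero
  have d0 := d.ne_zero
  rw [inverse_eq_inv'] at a
  refine ⟨_, ?_, fun h => ?_, a⟩
  · rw [star_mul', star_inv₀, star_add, star_sub, star_one, st, sub_neg_eq_add, ← sub_eq_add_neg]
    field_simp
  · have t0 : t j ≠ 0 := smul_ne_zero (pow_ne_zero _ (by positivity)) θ0
    rw [mul_inv_eq_one₀ d0] at h
    exact t0 (by linear_combination (2 : K)⁻¹ * h)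

theorem Sys.dat (hN : 2 ≤ N) {F : B → A} {Adm : B → Prop} {ψ : K → A} (h : Sys N F Adm ψ) :
    ∀ᶠ om in ng N (1 : K), star om * om = 1 → om ≠ 1 → HolD.Dat F Adm N ψ om (om - 1)⁻¹ := by
  have := fdQ K B
  obtain ⟨Z, hZ, V, hV, hO⟩ := h.O
  filter_upwards [hZ, h.S] with om oZ oS o1 o0
  have u0 : (om - 1)⁻¹ * (om - 1) = 1 := inv_mul_cancel₀ (sub_ne_zero.2 o0)
  have n0 : (om - 1)⁻¹ ≠ 0 := left_ne_zero_of_mul_eq_one u0
  have su : star (om - 1)⁻¹ = -(om * (om - 1)⁻¹) := by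
    have h := congrArg star u0
    rw [star_mul', star_sub, star_one] at h
    linear_combination -(om * (om - 1)⁻¹) * h + star (om - 1)⁻¹ * (om - 1)⁻¹ * o1
      - star (om - 1)⁻¹ * u0
  refine ⟨hN, ⟨h.unit _, h.C _ _, h.I _, h.re _ _⟩, o1, u0, ?_, oS, h.S⟩
  have h4 : Tendsto (fun z : B => (-1 : K)⁻¹ • ((om - 1)⁻¹ • z + star ((om - 1)⁻¹ • z)))
      (ng N 1) (ng N 1) := by
    have h := ng_csmul (om - 1)⁻¹ (tendsto_id (x := ng N (1 : B)))
    have := ng_csmul (-1 : K)⁻¹ (ng_add h (ng_star h))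
    rwa [star_smul, star_one, ← add_smul, smul_smul, su, show (-1 : K)⁻¹ *
      ((om - 1)⁻¹ + -(om * (om - 1)⁻¹)) = 1 by rw [inv_neg, inv_one]; linear_combination u0,
      one_smul] at this
  filter_upwards [hV, h4.eventually hV] with z hz hz'
  refine hO _ (om - 1)⁻¹ (-1) n0 ?_ ?_ (by simp) (by simp) hz'
  · rwa [su, neg_neg, mul_div_cancel_right₀ _ n0]
  · rwa [inv_smul_smul₀ n0]

end Words

section Glob
variable {K : Type v} {B : Type w} [Field K] [NumberField K] [StarRing K] [Ring B] [StarRing B]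
  [Algebra K B] [StarModule K B] [Algebra.IsCentral K B] [IsSimpleRing B] [FiniteDimensional K B]
  [Algebra ℚ B] {A : Type} [CommGroup A] {m : ℕ} {f : B → A}

/-- the last link -/
theorem link (hs : Stb K B) (hf : Ch (fun x => x ∈ unitary B ∧ x ∈ Deep K B m) f) {om : K}
    (o1 : star om * om = 1) (o0 : om ≠ 1) (od : algebraMap K B om ∈ Deep K B m) {g : B}
    (hg : g ∈ unitary B) (gd : g ∈ Deep K B m) (hu : IsUnit (1 - om • g)) :
    phi (FF K f) (om - 1)⁻¹ ((1 - om) • inverse (1 - om • g)) = f g ∧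
      star ((1 - om) • inverse (1 - om • g)) = (1 - om) • inverse (1 - om • g) * g := by
  have n0 : om - 1 ≠ 0 := sub_ne_zero.2 o0
  have ou : algebraMap K B om ∈ unitary B := by
    rw [Unitary.mem_iff, star_algebraMap, ← map_mul, ← map_mul, o1, mul_comm, o1]; simp
  have key : ∀ g : B, g ∈ unitary B → g ∈ Deep K B m → IsUnit (1 - om • g) →
      FF K f ((om - 1)⁻¹ • (1 - om) • inverse (1 - om • g)) = f (algebraMap K B om) * f g := by
    intro g hg gd hu
    rw [Algebra.smul_def om g] at hu ⊢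
    have h1 := FF_val hs hf (mul_mem ou hg) (mul_mem od gd) hu
    obtain ⟨ux, ⟨r, p, h⟩, hd⟩ := h1.1
    have e : aa ((-1 : K) • inverse (1 - algebraMap K B om * g)) =
        aa (inverse (1 - algebraMap K B om * g)) := by rw [aa_smul ux (by simp)]; simp
    have h' : Tr K ((-1 : K) • inverse (1 - algebraMap K B om * g)) (-r) p :=
      ⟨neg_ne_zero.2 h.1, by rw [star_neg, h.2.1], h.2.2.1, by rw [h.2.2.2]; simp⟩
    rw [smul_smul, show (om - 1)⁻¹ * (1 - om) = -1 by field_simp; ring,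
      FF_eq hs hf (Stab.isUnit_smul (by simp) ux) h' (e ▸ hd), e, ← FF_eq hs hf ux h hd, h1.2,
      hf.f_mul _ _ ⟨ou, od⟩ ⟨hg, gd⟩]
  have e1 : (1 : B) - om • 1 = (1 - om) • 1 := by rw [sub_smul, one_smul]
  have m0 : 1 - om ≠ 0 := sub_ne_zero.2 o0.symm
  have k1 := key 1 (one_mem _) (one_mem _) (e1 ▸ Stab.isUnit_smul m0 isUnit_one)
  rw [e1, Stab.inv_smul m0 isUnit_one, smul_inv_smul₀ m0, inverse_one, f_one hf, mul_one] at k1
  refine ⟨by rw [phi, key g hg gd hu, k1, mul_div_cancel_left], ?_⟩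
  have e2 := (Unitary.mem_iff.1 hg).2
  have e3 := mul_inverse_cancel _ hu.star
  have e4 := inverse_mul_cancel _ hu
  rw [star_smul, ← Ring.inverse_star, star_sub (1 : B), star_one, star_smul]
  rw [star_sub, star_one, star_smul] at e3
  have e5 : (1 - om • g) * inverse (1 - star om • star g) = -(om • g) := by
    have : (1 : B) - om • g = -(om • g) * (1 - star om • star g) := by
      rw [neg_mul, mul_sub, mul_one, smul_mul_smul_comm, e2, mul_comm om, o1, one_smul, neg_sub]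
    rw [this, mul_assoc, e3, mul_one]
  have e6 : inverse (1 - star om • star g) = -(om • (inverse (1 - om • g) * g)) := by
    rw [← mul_smul_comm, ← mul_neg, ← e5, ← mul_assoc, e4, one_mul]
  rw [e6, smul_neg, smul_smul, ← neg_smul, smul_mul_assoc, star_sub, star_one]
  congr 1
  linear_combination o1

theorem hol_of (hne : ∃ c : K, star c ≠ c) (hd : 3 ≤ deg K B) {N n : ℕ} (hN : 2 ≤ N) (hn : n ≠ 0)
    (hA : ∀ a : A, a ^ n = 1) (hs : Stb K B) (hL : LH1 N K B)
    (hD : ∀ᶠ u in ng N (1 : B), u ∈ Deep K B m) (h1 : H1 N K B A) (h5 : HolC.ConstStmt.{v, w, 0})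
    (h7 : H7 N K B A) (hf : Ch (fun x => x ∈ unitary B ∧ x ∈ Deep K B m) f) :
    ∃ N : ℕ, 2 ≤ N ∧ ∀ᶠ x in ng N (1 : B), x ∈ unitary B → Nrd K x = 1 → f x = 1 := by
  have := fdQ K B
  have S := sys hN hs hL.lh hD hf
  have alg : Tendsto (algebraMap K B) (ng N 1) (ng N 1) := by
    simpa using ng_map (N := N) (algebraMap K B).toAddMonoidHom 1
  obtain ⟨om, o1, o0, ⟨a1, a2⟩, od⟩ :=
    exists_om hN hne (((S.dat hN).and (h1 _ _ _ S)).and (alg.eventually hD))
  have D := a1 o1 o0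
  have c := h5 K B hne hd N hN A _ _ _ (a2 o1 o0)
  simp only [Fin.val_one, pow_one, Fin.val_zero, pow_zero, map_one, star_one, one_mul] at c
  obtain ⟨N', hN', hdv, H⟩ := h7 n hn hA _ ⟨HolD.Dat.one, D.inv, D.st, D.cg, D.sc, D.re,
    D.dd c (lh_of_nrd fun V hV => (hL V hV).mono fun _ hx hs =>
      let ⟨p, hp, _, e⟩ := hx hs; ⟨p, hp, e⟩)⟩
  have m0 : 1 - om ≠ 0 := sub_ne_zero.2 o0.symm
  have t1 : Tendsto (fun g : B => (1 - om)⁻¹ • (1 - om • g)) (ng N' 1) (ng N' 1) := by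
    have := ng_csmul (1 - om)⁻¹ (ng_sub (ng_const (N := N') (1 : B))
      (ng_csmul om (tendsto_id (x := ng N' (1 : B)))))
    rwa [show (1 : B) - om • 1 = (1 - om) • 1 by rw [sub_smul, one_smul], inv_smul_smul₀ m0] at this
  refine ⟨N', hN', ?_⟩
  filter_upwards [(ng_inv hN' t1).eventually H, t1.eventually (ng_isUnit hN'),
    hdv hD] with g k hu gd hg g1
  have hu' : IsUnit (1 - om • g) := by
    have := Stab.isUnit_smul m0 hu
    rwa [smul_inv_smul₀ m0] at this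
  rw [Stab.inv_smul (inv_ne_zero m0) hu', inv_inv] at k
  obtain ⟨l1, l2⟩ := link hs hf o1 o0 od hg gd hu'
  rw [← l1, k (by rw [← Nrd_star, l2, map_mul, g1, mul_one])]

end Glob

end Crest.Agent.T24.Hol
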