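import Crest.Agent.T24.InG_71

/-!
# Row 24, HOL step H6 (helper48): the relation (d) `φ (v x v) = φ (v²) φ x` from CONST and (LH1)
-/

set_option autoImplicit false

namespace Crest.Agent.T24.D48

open Filter In
open Ring (inverse)

variable {k B A : Type*} [Field k] [Ring B] [StarRing B] [Algebra k B] [CommGroup A]

/-- the exact rules (C), (I) of `F` -/
structure Rl (k : Type*) [Field k] [Algebra k B] (Adm : B → Prop) (F : B → A) : Prop where
  cg : ∀ x q, Adm x → IsUnit q → F (star q * x * q) = F x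
  sc : ∀ (r : k) x, r ≠ 0 → Adm x → Adm (r • x) ∧ F (r • x) = F x
  iv : ∀ x, Adm x → F (inverse x) = (F x)⁻¹

/-- the three step function `r (g; y)` (`g` unitary) -/
noncomputable def rr (F : B → A) (g y : B) : A :=
  F (1 - y) * F (inverse (1 - y) - inverse (1 - g)) / F (1 - star g * y)

variable {Adm : B → Prop} {F : B → A}

theorem star_g {u : Bˣ} (hu : (u : B) + star (u : B) = -1) :
    star (1 + (↑u⁻¹ : B)) = -(star (↑u⁻¹ : B) * u) := by
  have h1 : star (↑u⁻¹ : B) * star (u : B) = 1 := by rw [← star_mul, Units.mul_inv, star_one]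
  rw [star_add, star_one, eq_neg_of_add_eq_zero_left (show (u : B) + (star (u : B) + 1) = 0 by
    rw [← add_assoc, hu, neg_add_cancel]), mul_neg, neg_neg, mul_add, h1, mul_one]

theorem unitary_g {u : Bˣ} (hu : (u : B) + star (u : B) = -1) :
    star (1 + (↑u⁻¹ : B)) * (1 + ↑u⁻¹) = 1 := by
  have h1 : star (↑u⁻¹ : B) * star (u : B) = 1 := by rw [← star_mul, Units.mul_inv, star_one]
  rw [star_g hu, neg_mul, mul_assoc, mul_add, mul_one, Units.mul_inv, ← mul_neg,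
    show -((u : B) + 1) = star (u : B) by rw [← sub_eq_iff_eq_add'.2 hu.symm]; abel, h1]

theorem rr_eq (R : Rl k Adm F) {u z : Bˣ} (hu : (u : B) + star (u : B) = -1) (hz : Adm z)
    (h1 : Adm (u * ↑z⁻¹ * u + u)) :
    rr F (1 + ↑u⁻¹) (1 - ↑z⁻¹) = (F z)⁻¹ * F (z + u) / F (u * ↑z⁻¹ * u + u) := by
  have h2 : star (↑u⁻¹ : B) * star (u : B) = 1 := by rw [← star_mul, Units.mul_inv, star_one]
  have e1 : (1 : B) - (1 + ↑u⁻¹) = ↑(-u⁻¹) := by simp
  have e2 : 1 - star (1 + (↑u⁻¹ : B)) * (1 - ↑z⁻¹) =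
      star (↑u⁻¹ : B) * ((-1 : k) • ((u : B) * ↑z⁻¹ * u + u)) * ↑u⁻¹ := by
    have h3 : star (↑u⁻¹ : B) * u = -1 - star (↑u⁻¹ : B) := by
      have h4 : star (↑u⁻¹ : B) * ((u : B) + star (u : B)) = star (↑u⁻¹ : B) * (-1) := by rw [hu]
      rw [mul_add, h2, mul_neg, mul_one] at h4
      rw [eq_sub_of_add_eq h4]
      abel
    rw [star_g hu, neg_smul, one_smul, mul_assoc, neg_mul ((u : B) * ↑z⁻¹ * u + u), add_mul,
      Units.mul_inv_cancel_right, Units.mul_inv, mul_neg, mul_add, ← mul_assoc, h3]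
    noncomm_ring
  have h3 := R.sc (-1) _ (by simp) h1
  rw [rr, sub_sub_cancel, e1, e2, R.cg _ _ h3.1 (Units.isUnit _), h3.2, Ring.inverse_unit,
    Ring.inverse_unit, inv_inv, ← Ring.inverse_unit z, R.iv _ hz]
  simp

theorem rr_mul (R : Rl k Adm F) {u z : Bˣ} (hu : (u : B) + star (u : B) = -1) (hz : Adm z)
    (hz' : Adm (u * ↑z⁻¹ * u)) (h1 : Adm (u * ↑z⁻¹ * u + u)) (h2 : Adm (z + u)) :
    rr F (1 + ↑u⁻¹) (1 - ↑z⁻¹) * rr F (1 + ↑u⁻¹) (1 - ↑(u * z⁻¹ * u)⁻¹) =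
      (F z * F (u * ↑z⁻¹ * u))⁻¹ := by
  have e : (u : B) * ↑(u * z⁻¹ * u)⁻¹ * u = z := by simp [mul_assoc]
  rw [rr_eq R hu hz h1, rr_eq R hu (z := u * z⁻¹ * u) (by simpa using hz') (e.symm ▸ h2), e]
  simp only [Units.val_mul]
  generalize F (z : B) = a, F ((z : B) + u) = b, F ((u : B) * ↑z⁻¹ * u + u) = c,
    F ((u : B) * ↑z⁻¹ * u) = d
  rw [div_mul_div_comm, div_eq_iff_eq_mul, mul_inv_rev]
  simp only [mul_comm, mul_left_comm, mul_assoc]

variable {N : ℕ} [Algebra ℚ B] [FiniteDimensional ℚ B] {α : Type*} {l : Filter α}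

omit [StarRing B] in
theorem ng_unit (hN : 2 ≤ N) {f : α → B} {a : B} (ha : IsUnit a) (hf : Tendsto f l (ng N a)) :
    (∀ᶠ i in l, IsUnit (f i)) ∧ Tendsto (fun i => inverse (f i)) l (ng N (inverse a)) := by
  have h1 := ng_mul (ng_const (inverse a)) hf
  rw [Ring.inverse_mul_cancel _ ha] at h1
  refine ⟨(h1.eventually (ng_isUnit hN)).mono fun i hi => ?_, ?_⟩
  · simpa only [← mul_assoc, Ring.mul_inverse_cancel _ ha, one_mul] using ha.mul hi
  · have h2 := ng_mul (ng_inv hN h1) (ng_const (inverse a))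
    rw [one_mul] at h2
    refine h2.congr fun i => ?_
    rw [Ring.inverse_mul (Or.inl ha.ringInverse), Ring.inverse_inverse ha, mul_assoc,
      Ring.mul_inverse_cancel _ ha, mul_one]

omit [FiniteDimensional ℚ B] in
theorem ng_star {f : α → B} {a : B} (hf : Tendsto f l (ng N a)) :
    Tendsto (fun i => star (f i)) l (ng N (star a)) :=
  ng_lin (starAddEquiv (R := B)).toAddMonoidHom hf

end Crest.Agent.T24.D48
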