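import Mathlib

/-!
# Row 24, end of the holonomy step, part A: germs of functions on a group (abstract)
-/

set_option autoImplicit false
set_option linter.unusedSectionVars false

namespace Crest.Agent.T24.HolE

open Filter

universe u v

/-- a filter of neighbourhoods of `1` in a group -/
structure GF {G : Type*} [Group G] (F : Filter G) : Prop where
  one : ∀ U ∈ F, (1 : G) ∈ U
  mul : Tendsto (fun p : G × G => p.1 * p.2) (F ×ˢ F) F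
  inv : Tendsto (fun x : G => x⁻¹) F F

variable {G : Type u} [Group G] {A : Type v} [CommGroup A] {F : Filter G} {φ : G → A}

namespace GF

variable {α : Type*} {l : Filter α}

theorem tmul (h : GF F) {f g : α → G} (hf : Tendsto f l F) (hg : Tendsto g l F) :
    Tendsto (fun i => f i * g i) l F := h.mul.comp (hf.prodMk hg)

theorem tinv (h : GF F) {f : α → G} (hf : Tendsto f l F) : Tendsto (fun i => (f i)⁻¹) l F :=
  h.inv.comp hf

theorem tone (h : GF F) : Tendsto (fun _ : α => (1 : G)) l F :=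
  fun U hU => mem_map.2 (univ_mem' fun _ => h.one U hU)

theorem tpow (h : GF F) {f : α → G} (hf : Tendsto f l F) (n : ℕ) :
    Tendsto (fun i => f i ^ n) l F := by
  induction n with
  | zero => simpa using h.tone
  | succ n ih => simpa only [pow_succ] using h.tmul ih hf

theorem exists_mul (h : GF F) {U : Set G} (hU : U ∈ F) :
    ∃ V ∈ F, V ⊆ U ∧ (∀ x ∈ V, x⁻¹ ∈ V) ∧ ∀ x ∈ V, ∀ y ∈ V, x * y ∈ U := by
  obtain ⟨V₁, h₁, V₂, h₂, hV⟩ := mem_prod_iff.1 (h.mul hU)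
  have hW : V₁ ∩ V₂ ∩ U ∈ F := inter_mem (inter_mem h₁ h₂) hU
  refine ⟨{x | x ∈ V₁ ∩ V₂ ∩ U ∧ x⁻¹ ∈ V₁ ∩ V₂ ∩ U}, inter_mem hW (h.inv hW), fun x hx => hx.1.2,
    fun x hx => ⟨hx.2, by simpa using hx.1⟩, fun x hx y hy => ?_⟩
  exact hV (Set.mk_mem_prod hx.1.1.1 hy.1.1.2)

end GF

/-- two variables near `1` -/
def E2 (F : Filter G) (P : G → G → Prop) : Prop := ∀ᶠ p : G × G in F ×ˢ F, P p.1 p.2

/-- three variables near `1` -/
def E3 (F : Filter G) (P : G → G → G → Prop) : Prop :=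
  ∀ᶠ p : G × G × G in F ×ˢ F ×ˢ F, P p.1 p.2.1 p.2.2

theorem E2.ev {P : G → G → Prop} (h : E2 F P) {α : Type*} {l : Filter α} {f g : α → G}
    (hf : Tendsto f l F) (hg : Tendsto g l F) : ∀ᶠ i in l, P (f i) (g i) :=
  (hf.prodMk hg).eventually h

theorem E3.ev {P : G → G → G → Prop} (h : E3 F P) {α : Type*} {l : Filter α} {f g k : α → G}
    (hf : Tendsto f l F) (hg : Tendsto g l F) (hk : Tendsto k l F) :
    ∀ᶠ i in l, P (f i) (g i) (k i) :=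
  (hf.prodMk (hg.prodMk hk)).eventually h

theorem E2.set {P : G → G → Prop} (h : E2 F P) : ∃ U ∈ F, ∀ x ∈ U, ∀ y ∈ U, P x y := by
  obtain ⟨V₁, h₁, V₂, h₂, hV⟩ := mem_prod_iff.1 h
  exact ⟨V₁ ∩ V₂, inter_mem h₁ h₂, fun x hx y hy => hV (Set.mk_mem_prod hx.1 hy.2)⟩

theorem E3.set {P : G → G → G → Prop} (h : E3 F P) :
    ∃ U ∈ F, ∀ x ∈ U, ∀ y ∈ U, ∀ z ∈ U, P x y z := by
  obtain ⟨V₁, h₁, V₂, h₂, hV⟩ := mem_prod_iff.1 h
  obtain ⟨V₃, h₃, V₄, h₄, hW⟩ := mem_prod_iff.1 h₂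
  exact ⟨V₁ ∩ V₃ ∩ V₄, inter_mem (inter_mem h₁ h₃) h₄, fun x hx y hy z hz =>
    hV (Set.mk_mem_prod hx.1.1 (hW (Set.mk_mem_prod hy.1.2 hz.2)))⟩

theorem E2.of_set {P : G → G → Prop} {U : Set G} (hU : U ∈ F) (h : ∀ x ∈ U, ∀ y ∈ U, P x y) :
    E2 F P := mem_of_superset (prod_mem_prod hU hU) fun _ hp => h _ hp.1 _ hp.2

theorem E2.mono {P : G → G → Prop} (h : E2 F P) {F' : Filter G} (hF : F' ≤ F) : E2 F' P :=
  Eventually.filter_mono (prod_mono hF hF) h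

theorem E3.mono {P : G → G → G → Prop} (h : E3 F P) {F' : Filter G} (hF : F' ≤ F) : E3 F' P :=
  Eventually.filter_mono (prod_mono hF (prod_mono hF hF)) h

omit [Group G] in
theorem t31 : Tendsto (fun p : G × G × G => p.1) (F ×ˢ F ×ˢ F) F := tendsto_fst
omit [Group G] in
theorem t32 : Tendsto (fun p : G × G × G => p.2.1) (F ×ˢ F ×ˢ F) F := tendsto_fst.comp tendsto_snd
omit [Group G] in
theorem t33 : Tendsto (fun p : G × G × G => p.2.2) (F ×ˢ F ×ˢ F) F := tendsto_snd.comp tendsto_snd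

/-- the commutator -/
def cm (v w : G) : G := v * w * v⁻¹ * w⁻¹

theorem GF.tcm (h : GF F) {α : Type*} {l : Filter α} {f g : α → G} (hf : Tendsto f l F)
    (hg : Tendsto g l F) : Tendsto (fun i => cm (f i) (g i)) l F :=
  h.tmul (h.tmul (h.tmul hf hg) (h.tinv hf)) (h.tinv hg)

/-- the rules used in the first half: `σ` is the involution -/
structure Ru (F : Filter G) (σ : G → G) (φ : G → A) : Prop where
  gf : GF F
  st : Tendsto σ F F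
  one : φ 1 = 1
  inv : ∀ᶠ x in F, φ x⁻¹ = (φ x)⁻¹
  cg : E2 F fun q x => φ (q * x * σ q) = φ x
  stinv : ∀ q, σ q⁻¹ = (σ q)⁻¹
  dd : E2 F fun v x => φ (v * x * v) = φ (v ^ 2) * φ x

namespace Ru

variable {σ : G → G}

theorem mono (h : Ru F σ φ) {F' : Filter G} (hF : F' ≤ F) (g : GF F') (s : Tendsto σ F' F') :
    Ru F' σ φ :=
  ⟨g, s, h.one, h.inv.filter_mono hF, h.cg.mono hF, h.stinv, h.dd.mono hF⟩

/-- commutators are multipliers -/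
theorem cm_mul (h : Ru F σ φ) : E3 F fun v w x => φ (cm v w * x) = φ (cm v w) * φ x := by
  have g := h.gf
  have key : E3 F fun v w x => φ (cm v w * x) =
      φ ((v * w) ^ 2) * (φ (v⁻¹ ^ 2) * φ (w⁻¹ ^ 2)) * φ x := by
    have a1 := g.tmul (g.tmul (g.tinv t32) t33) (g.tinv t32)
    have a2 := g.tmul (g.tmul (g.tinv t31) a1) (g.tinv t31)
    filter_upwards [h.dd.ev (g.tinv t32) t33, h.dd.ev (g.tinv t31) a1,
      h.dd.ev (g.tmul t31 t32) a2] with p h1 h2 h3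
    rw [h2, h1] at h3
    rw [mul_assoc, mul_assoc, ← h3]
    congr 1
    simp only [cm]
    group
  filter_upwards [key, key.ev t31 t32 g.tone] with p h1 h2
  rw [mul_one, h.one, mul_one] at h2
  rw [h1, h2]

/-- conjugates of commutators are multipliers with the same value -/
theorem conj_mul (h : Ru F σ φ) {α : Type*} {l : Filter α} {p v w x : α → G} (hp : Tendsto p l F)
    (hv : Tendsto v l F) (hw : Tendsto w l F) (hx : Tendsto x l F) :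
    ∀ᶠ i in l, φ (p i * cm (v i) (w i) * (p i)⁻¹ * x i) = φ (cm (v i) (w i)) * φ (x i) := by
  have g := h.gf
  have a1 := g.tmul (g.tmul (g.tinv hp) hx) (h.st.comp (g.tinv hp))
  filter_upwards [h.cg.ev (g.tinv hp) hx, h.cm_mul.ev hv hw a1,
    h.cg.ev hp (g.tmul (g.tcm hv hw) a1)] with i h1 h2 h3
  simp only [Function.comp_apply] at h2 h3
  rw [← h1, ← h2, ← h3, h.stinv]
  congr 1
  group

theorem be_mul (h : Ru F σ φ) :
    E3 F fun v v' w => φ (cm (v * v') w) = φ (cm v w) * φ (cm v' w) := by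
  filter_upwards [h.conj_mul t31 t32 t33 (h.gf.tcm t31 t33)] with p h1
  rw [mul_comm, ← h1]
  congr 1
  simp only [cm]
  group

theorem be_swap (h : Ru F σ φ) : E2 F fun v w => φ (cm w v) = (φ (cm v w))⁻¹ := by
  filter_upwards [(h.gf.tcm tendsto_fst tendsto_snd).eventually h.inv] with p h1
  rw [← h1]
  congr 1
  simp only [cm]
  group

theorem be_mul' (h : Ru F σ φ) :
    E3 F fun v v' w => φ (cm w (v * v')) = φ (cm w v) * φ (cm w v') := by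
  filter_upwards [h.be_mul, h.be_swap.ev (h.gf.tmul t31 t32) t33, h.be_swap.ev t31 t33,
    h.be_swap.ev t32 t33] with p h1 h2 h3 h4
  rw [h2, h3, h4, h1, mul_inv]

/-- if the pairing is trivial, factors can be swapped -/
theorem swap (h : Ru F σ φ) (hb : E2 F fun v w => φ (cm v w) = 1) :
    E3 F fun x y z => φ (x * y * z) = φ (y * x * z) := by
  have g := h.gf
  filter_upwards [h.cm_mul.ev t31 t32 (g.tmul (g.tmul t32 t31) t33), hb.ev t31 t32] with p h1 h2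
  rw [h2, one_mul] at h1
  rw [← h1]
  congr 1
  simp only [cm]
  group

/-- if the pairing is trivial, squares are multipliers -/
theorem sq (h : Ru F σ φ) (hb : E2 F fun v w => φ (cm v w) = 1) :
    E2 F fun v x => φ (v ^ 2 * x) = φ (v ^ 2) * φ x := by
  have g := h.gf
  filter_upwards [h.dd, h.conj_mul tendsto_fst tendsto_snd tendsto_fst
    (g.tmul (g.tpow tendsto_fst 2) tendsto_snd), hb.ev tendsto_snd tendsto_fst] with p h1 h2 h3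
  rw [h3, one_mul] at h2
  rw [← h1, ← h2]
  congr 1
  simp only [cm]
  group

end Ru

/-- approximate square roots -/
def Rt (F : Filter G) : Prop := ∀ U ∈ F, ∃ V ∈ F, ∀ x ∈ V, ∀ W ∈ F, ∃ v ∈ U, ∃ w ∈ W, x = v ^ 2 * w

/-- the germ at `1` of `z ↦ a φ (x z)` -/
def la (F : Filter G) (φ : G → A) (a : A) (x : G) : Germ F A := ↑fun z => a * φ (x * z)

theorem la_eq {a a' : A} {x x' : G} :
    la F φ a x = la F φ a' x' ↔ ∀ᶠ z in F, a * φ (x * z) = a' * φ (x' * z) := Germ.coe_eq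

/-- the chain of neighbourhoods -/
structure Ch (F : Filter G) (φ : G → A) (U₀ U₁ U₂ U₃ : Set G) : Prop where
  m₁ : U₁ ∈ F
  m₃ : U₃ ∈ F
  one : (1 : G) ∈ U₃
  sw : ∀ x ∈ U₀, ∀ y ∈ U₀, ∀ z ∈ U₀, φ (x * y * z) = φ (y * x * z)
  sq : ∀ v ∈ U₀, ∀ x ∈ U₀, φ (v ^ 2 * x) = φ (v ^ 2) * φ x
  s₁ : U₁ ⊆ U₀
  p₁ : ∀ x ∈ U₁, ∀ y ∈ U₁, x * y ∈ U₀
  s₂ : U₂ ⊆ U₁
  rt : ∀ x ∈ U₂, ∀ W ∈ F, ∃ v ∈ U₁, ∃ w ∈ W, x = v ^ 2 * w
  s₃ : U₃ ⊆ U₂
  p₃ : ∀ x ∈ U₃, ∀ y ∈ U₃, x * y ∈ U₂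
  i₃ : ∀ x ∈ U₃, x⁻¹ ∈ U₃

theorem exists_ch (g : GF F) (h1 : E3 F fun x y z => φ (x * y * z) = φ (y * x * z))
    (h2 : E2 F fun v x => φ (v ^ 2 * x) = φ (v ^ 2) * φ x) (hr : Rt F) :
    ∃ U₀ U₁ U₂ U₃, Ch F φ U₀ U₁ U₂ U₃ := by
  obtain ⟨Va, ha, h1⟩ := h1.set
  obtain ⟨Vb, hb, h2⟩ := h2.set
  obtain ⟨U₁, m₁, s₁, -, p₁⟩ := g.exists_mul (inter_mem ha hb)
  obtain ⟨V, hV, rt⟩ := hr U₁ m₁
  obtain ⟨U₃, m₃, s₃, i₃, p₃⟩ := g.exists_mul (inter_mem hV m₁)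
  exact ⟨Va ∩ Vb, U₁, V ∩ U₁, U₃, m₁, m₃, g.one _ m₃,
    fun x hx y hy z hz => h1 x hx.1 y hy.1 z hz.1, fun v hv x hx => h2 v hv.2 x hx.2, s₁, p₁,
    Set.inter_subset_right, fun x hx => rt x hx.1, s₃, p₃, i₃⟩

namespace Ch

variable {U₀ U₁ U₂ U₃ : Set G}

theorem s₃₁ (c : Ch F φ U₀ U₁ U₂ U₃) : U₃ ⊆ U₁ := c.s₃.trans c.s₂

theorem la_sq (c : Ch F φ U₀ U₁ U₂ U₃) (a : A) {v x : G} (hv : v ∈ U₁) (hx : x ∈ U₁) :
    la F φ a (v ^ 2 * x) = la F φ (a * φ (v ^ 2)) x := by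
  rw [la_eq]
  filter_upwards [c.m₁] with z hz
  rw [mul_assoc (v ^ 2), c.sq v (c.s₁ hv) _ (c.p₁ x hx z hz), mul_assoc]

theorem ext (c : Ch F φ U₀ U₁ U₂ U₃) {a a' : A} {y y' z : G} (hy : y ∈ U₁) (hy' : y' ∈ U₁)
    (h : la F φ a y = la F φ a' y') (hz : z ∈ U₂) : a * φ (y * z) = a' * φ (y' * z) := by
  obtain ⟨u, hu, w, ⟨hw, hw₁⟩, rfl⟩ := c.rt z hz _ (inter_mem (la_eq.1 h) c.m₁)
  have e : ∀ y ∈ U₁, φ (y * (u ^ 2 * w)) = φ (u ^ 2) * φ (y * w) := fun y hy => by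
    rw [← mul_assoc, c.sw y (c.s₁ hy) _ (by rw [pow_two]; exact c.p₁ u hu u hu) w (c.s₁ hw₁),
      mul_assoc, c.sq u (c.s₁ hu) _ (c.p₁ y hy w hw₁)]
  have hw' : a * φ (y * w) = a' * φ (y' * w) := hw
  rw [e y hy, e y' hy', mul_left_comm, hw', mul_left_comm]

theorem la_mul (c : Ch F φ U₀ U₁ U₂ U₃) {a a' : A} {y y' x : G} (hy : y ∈ U₁) (hy' : y' ∈ U₁)
    (h : la F φ a y = la F φ a' y') (hx : x ∈ U₃) : la F φ a (x * y) = la F φ a' (x * y') := by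
  rw [la_eq]
  filter_upwards [c.m₃] with z hz
  have hx₀ := c.s₁ (c.s₃₁ hx)
  have hz₀ := c.s₁ (c.s₃₁ hz)
  rw [c.sw x hx₀ y (c.s₁ hy) z hz₀, c.sw x hx₀ y' (c.s₁ hy') z hz₀, mul_assoc y, mul_assoc y']
  exact c.ext hy hy' h (c.p₃ x hx z hz)

end Ch

/-- the set on which the germ of the group acts -/
abbrev Sg (F : Filter G) (φ : G → A) (U : Set G) : Type (max u v) :=
  {s : Germ F A // ∃ a, ∃ y ∈ U, s = la F φ a y}

namespace Ch

variable {U₀ U₁ U₂ U₃ : Set G}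

theorem exists_T (c : Ch F φ U₀ U₁ U₂ U₃) {x : G} (hx : x ∈ U₃) :
    ∃ T : Sg F φ U₃ → Sg F φ U₃, ∀ s a, ∀ y ∈ U₁, s.1 = la F φ a y → (T s).1 = la F φ a (x * y) := by
  have : ∀ s : Sg F φ U₃, ∃ t : Sg F φ U₃, ∀ a, ∀ y ∈ U₁, s.1 = la F φ a y →
      t.1 = la F φ a (x * y) := by
    rintro ⟨s, a₀, y₀, hy₀, rfl⟩
    obtain ⟨v, hv, w, hw, e⟩ := c.rt _ (c.p₃ x hx y₀ hy₀) _ c.m₃
    refine ⟨⟨la F φ a₀ (x * y₀), _, w, hw, by rw [e, c.la_sq a₀ hv (c.s₃₁ hw)]⟩, fun a y hy h => ?_⟩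
    exact c.la_mul (c.s₃₁ hy₀) hy h hx
  choose T hT using this
  exact ⟨T, hT⟩

theorem exists_perm (c : Ch F φ U₀ U₁ U₂ U₃) (x : G) :
    ∃ T : Equiv.Perm (Sg F φ U₃), (x ∉ U₃ → T = 1) ∧ (x ∈ U₃ →
      ∀ s a, ∀ y ∈ U₁, s.1 = la F φ a y → (T s).1 = la F φ a (x * y)) := by
  by_cases hx : x ∈ U₃
  · obtain ⟨T, hT⟩ := c.exists_T hx
    obtain ⟨T', hT'⟩ := c.exists_T (c.i₃ x hx)
    refine ⟨⟨T, T', ?_, ?_⟩, fun h => absurd hx h, fun _ => hT⟩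
    · rintro ⟨s, a, y, hy, rfl⟩
      apply Subtype.ext
      rw [hT' _ a _ (c.s₂ (c.p₃ x hx y hy)) (hT _ a y (c.s₃₁ hy) rfl), inv_mul_cancel_left]
    · rintro ⟨s, a, y, hy, rfl⟩
      apply Subtype.ext
      rw [hT _ a _ (c.s₂ (c.p₃ _ (c.i₃ x hx) y hy)) (hT' _ a y (c.s₃₁ hy) rfl),
        mul_inv_cancel_left]
  · exact ⟨1, fun _ => rfl, fun h => absurd h hx⟩

end Ch

/-- the germ homomorphism whose kernel consists of periods of `φ` -/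
theorem exists_hom (g : GF F) (h1 : E3 F fun x y z => φ (x * y * z) = φ (y * x * z))
    (h2 : E2 F fun v x => φ (v ^ 2 * x) = φ (v ^ 2) * φ x) (hr : Rt F) :
    ∃ (X : Type (max u v)) (_ : CommGroup X) (θ : G → X),
      (E2 F fun x y => θ (x * y) = θ x * θ y) ∧
      (∀ᶠ x in F, ∀ n : ℕ, φ (x ^ 2) ^ n = 1 → θ x ^ (2 * n) = 1) ∧
      E2 F fun x z => θ x = 1 → φ (x * z) = φ z := by
  obtain ⟨U₀, U₁, U₂, U₃, c⟩ := exists_ch g h1 h2 hr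
  choose T hT₀ hT using c.exists_perm
  have two : ∀ x ∈ U₃, ∀ x' ∈ U₃, ∀ s a, ∀ y ∈ U₃, s.1 = la F φ a y →
      ((T x * T x') s).1 = la F φ a (x * x' * y) := fun x hx x' hx' s a y hy hs => by
    rw [Equiv.Perm.mul_apply, hT x hx _ a _ (c.s₂ (c.p₃ x' hx' y hy)) (hT x' hx' s a y (c.s₃₁ hy) hs),
      mul_assoc]
  have hc : ∀ x x', T x * T x' = T x' * T x := by
    intro x x'
    by_cases hx : x ∈ U₃
    · by_cases hx' : x' ∈ U₃
      · ext ⟨s, a, y, hy, rfl⟩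
        rw [two x hx x' hx' _ a y hy rfl, two x' hx' x hx _ a y hy rfl, la_eq]
        filter_upwards [c.m₁] with z hz
        rw [mul_assoc _ y, mul_assoc _ y, c.sw x (c.s₁ (c.s₃₁ hx)) x' (c.s₁ (c.s₃₁ hx')) _
          (c.p₁ y (c.s₃₁ hy) z hz)]
      · rw [hT₀ x' hx', mul_one, one_mul]
    · rw [hT₀ x hx, mul_one, one_mul]
  have hm : ∀ x ∈ U₃, ∀ x' ∈ U₃, x * x' ∈ U₃ → T (x * x') = T x * T x' := by
    intro x hx x' hx' hxx
    ext ⟨s, a, y, hy, rfl⟩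
    rw [two x hx x' hx' _ a y hy rfl, hT _ hxx _ a y (c.s₃₁ hy) rfl]
  obtain ⟨U₄, m₄, s₄, -, p₄⟩ := g.exists_mul c.m₃
  refine ⟨Subgroup.closure (Set.range T), Subgroup.closureCommGroupOfComm ?_,
    fun x => ⟨T x, Subgroup.subset_closure ⟨x, rfl⟩⟩, ?_, ?_, ?_⟩
  · rintro _ ⟨x, rfl⟩ _ ⟨y, rfl⟩
    exact hc x y
  · exact E2.of_set m₄ fun x hx y hy => Subtype.ext (hm x (s₄ hx) y (s₄ hy) (p₄ x hx y hy))
  · filter_upwards [m₄] with x hx n hn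
    apply Subtype.ext
    change T x ^ (2 * n) = 1
    have hxx : x ^ 2 ∈ U₃ := by rw [pow_two]; exact p₄ x hx x hx
    rw [pow_mul, pow_two, ← hm x (s₄ hx) x (s₄ hx) (p₄ x hx x hx), ← pow_two]
    ext ⟨s, a, y, hy, rfl⟩
    have : ∀ j : ℕ, ((T (x ^ 2) ^ j) ⟨_, a, y, hy, rfl⟩).1 = la F φ (a * φ (x ^ 2) ^ j) y := by
      intro j
      induction j with
      | zero => simp
      | succ j ih =>
        rw [pow_succ', Equiv.Perm.mul_apply, hT _ hxx _ _ y (c.s₃₁ hy) ih,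
          c.la_sq _ (c.s₃₁ (s₄ hx)) (c.s₃₁ hy), pow_succ (φ _), mul_assoc]
    rw [this, hn, mul_one]
    rfl
  · refine E2.of_set c.m₃ fun x hx z hz h => ?_
    have h' : T x = 1 := congrArg Subtype.val h
    have e := hT x hx ⟨_, 1, 1, c.one, rfl⟩ 1 1 (c.s₃₁ c.one) rfl
    rw [h', mul_one] at e
    have := c.ext (c.s₃₁ c.one) (c.s₃₁ hx) e (c.s₃ hz)
    simpa using this.symm

end Crest.Agent.T24.HolE
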