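import Mathlib
import Crest.Agent.T24.LanD_73
import Crest.Agent.T24.LanE_73
import Crest.Agent.T24.BcB_98
import Crest.Agent.T24.EmbDef_13

/-!
# Row 24 (helper73): local classification of hermitian units, Landherr's theorem for two forms
-/

set_option autoImplicit false
set_option linter.unusedSectionVars false

noncomputable section

open NumberField IsDedekindDomain Module WithZero Polynomial Matrix
open Crest.Agent.T24.Asa Crest.Agent.T24.Csa Crest.NumberTheoryR.UnitaryMP

namespace Crest.Agent.T24.Lan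

universe u v w

theorem nm_norm {F E : Type*} [Field F] [Field E] [StarRing E] [Algebra F E] [Quad F E] {θ : E}
    {d : F} (hθ : star θ = -θ) (hd : algebraMap F E d = θ * θ) {x : F} (hx : Nm d x) :
    ∃ z : E, star z * z = algebraMap F E x := by
  obtain ⟨s, t, rfl⟩ := hx
  refine ⟨algebraMap F E s + algebraMap F E t * θ, ?_⟩
  rw [star_add, star_mul', Quad.star_k, Quad.star_k, hθ, map_sub, map_mul, map_pow, map_pow, hd]
  ring

/-- binary hermitian forms over a quadratic extension of `k_v` are universal -/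
theorem univ_quad {k : Type*} [Field k] [NumberField k] (v : Pl k) (E : Type*) [Field E]
    [StarRing E] [Algebra (Kv v) E] [Quad (Kv v) E] : Univ E := by
  have : CharZero (Kv v) := algebraRat.charZero _
  have : CharZero E := charZero_of_injective_algebraMap (algebraMap (Kv v) E).injective
  have hfix : ∀ c : E, star c = c → ∃ a, algebraMap (Kv v) E a = c := fun c hc =>
    exists_of_star_eq Quad.fr Quad.star_k (Quad.ne (k := Kv v)) hc
  obtain ⟨θ, h0, hθ⟩ := exists_skew (Quad.ne (k := Kv v) (K := E))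
  obtain ⟨d, hd⟩ := hfix (θ * θ) (by rw [star_mul, hθ, neg_mul_neg])
  have hd0 : d ≠ 0 := by
    rintro rfl
    exact mul_ne_zero h0 h0 (by rw [← hd, map_zero])
  obtain ⟨δ, r, hr⟩ := (Hil.lc_inl v).exists_sq (v.denseRange_algebraMap k) hd0
  rw [div_eq_iff hd0] at hr
  have hθ' : star (algebraMap (Kv v) E r * θ) = -(algebraMap (Kv v) E r * θ) := by
    rw [star_mul', Quad.star_k, hθ, mul_neg]
  have hd' : algebraMap (Kv v) E (algebraMap k (Kv v) δ) =
      (algebraMap (Kv v) E r * θ) * (algebraMap (Kv v) E r * θ) := by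
    rw [hr, map_mul, map_mul, hd]; ring
  have hδ : δ ∉ Hn.Sq v := fun h => by
    obtain ⟨s, hs⟩ := (Hn.Loc.mem_Sq_iff v δ).mp h
    have h1 : algebraMap (Kv v) E r * θ ≠ 0 := fun h => by
      rw [h, mul_zero] at hd'
      simp at hd'
    rw [hs, map_mul] at hd'
    rcases mul_self_eq_mul_self_iff.mp hd' with h2 | h2
    · have := Quad.star_k (K := E) s
      rw [h2, hθ'] at this
      exact h1 (by linear_combination (-1 / 2 : E) * this)
    · have := Quad.star_k (K := E) s
      rw [h2, star_neg, hθ'] at this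
      exact h1 (by linear_combination (1 / 2 : E) * this)
  intro a b ha hb ha' hb'
  obtain ⟨a, rfl⟩ := hfix a ha'
  obtain ⟨b, rfl⟩ := hfix b hb'
  obtain ⟨x, y, hx, hy, h⟩ := univ_adic v hδ (a := a) (b := b) (by simpa using ha)
    (by simpa using hb)
  obtain ⟨x', hx'⟩ := nm_norm hθ' hd' hx
  obtain ⟨y', hy'⟩ := nm_norm hθ' hd' hy
  exact ⟨x', y', by rw [hx', hy', ← map_mul, ← map_mul, ← map_add, h, map_one]⟩

section Two

variable {k : Type u} {K B : Type*} [Field k] [NumberField k] [Field K] [NumberField K]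
  [Algebra k K] [StarRing K] [Quad k K] [Ring B] [StarRing B] [Algebra K B] [StarModule K B]
  [Algebra k B] [IsScalarTower k K B] [FiniteDimensional K B]

/-- at a split place all hermitian units are congruent -/
theorem cong_split {R : Type*} [CommRing R] [Algebra k R] (ι : K →ₐ[k] R) {h h' : BC k K B R}
    (hh : star h = h) (hh' : star h' = h') (hu : IsUnit h) : ∃ Z, h' = star Z * h * Z := by
  obtain ⟨θ, δ, h0, hθ, hδ⟩ := BC.exists_delta k K
  obtain ⟨u, rfl⟩ := hu
  have hi : star (↑u⁻¹ : BC k K B R) = ↑u⁻¹ := by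
    rw [← mul_one (star _), ← u.mul_inv, ← mul_assoc]
    conv_lhs => rw [← hh, ← star_mul, u.mul_inv, star_one, one_mul]
  let e : BC k K K R := algebraMap k R 2⁻¹ • (1 + ι θ⁻¹ • BC.inc k K K R θ)
  have h1 : (ι θ⁻¹ • BC.inc k K K R θ) * (ι θ⁻¹ • BC.inc k K K R θ) = 1 := by
    rw [smul_mul_smul_comm, ← map_mul (BC.inc k K K R), ← hδ, AlgHom.commutes,
      IsScalarTower.algebraMap_apply k R (BC k K K R), Algebra.smul_def, ← map_mul,
      ← ι.commutes, hδ, ← map_mul, ← map_mul]
    field_simp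
    simp
  have h2 : algebraMap R (BC k K K R) (algebraMap k R 2⁻¹) * 2 = 1 := by
    rw [← IsScalarTower.algebraMap_apply, ← map_ofNat (algebraMap k (BC k K K R)) 2, ← map_mul]
    simp
  have h3 : star e = 1 - e := by
    simp only [e, BC.star_rsmul, star_add, star_one, BC.star_inc, hθ, map_neg, smul_neg]
    rw [Algebra.smul_def, Algebra.smul_def (algebraMap k R 2⁻¹)]
    linear_combination h2
  have h4 : e * (1 - e) = 0 := by
    simp only [e]
    rw [Algebra.smul_def (algebraMap k R 2⁻¹)]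
    set a := algebraMap R (BC k K K R) (algebraMap k R 2⁻¹)
    set t := ι θ⁻¹ • BC.inc k K K R θ
    linear_combination (-a * a) * h1 - a * (1 + t) * h2
  clear_value e
  refine ⟨e • (↑u⁻¹ * h') + (1 - e) • 1, ?_⟩
  have h5 : star (1 - e) = e := by rw [star_sub, star_one, h3, sub_sub_cancel]
  have h6 : e * e = e := by linear_combination -h4
  have h7 : (1 - e) * (1 - e) = 1 - e := by linear_combination -h4
  rw [star_add, star_smul, star_smul, h3, h5, star_mul, hh', hi, star_one]
  simp only [add_mul, mul_add, smul_mul_assoc, mul_smul_comm, smul_add, smul_smul, h4, h6, h7,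
    mul_comm (1 - e) e, zero_smul, mul_one, one_mul, zero_add, add_zero, Units.inv_mul_cancel_right,
    Units.mul_inv_cancel_left]
  rw [← add_smul]; simp

/-- the twisted involution -/
def twA (g : Bˣ) : B →+ B := AddMonoidHom.mk' (fun x => ↑g⁻¹ * star x * g) fun x y => by
  rw [star_add, mul_add, add_mul]

theorem twA_apply (g : Bˣ) (x : B) : twA g x = ↑g⁻¹ * star x * g := rfl

theorem star_inv_of {g : Bˣ} (hg : star (g : B) = g) : star (↑g⁻¹ : B) = ↑g⁻¹ := by
  rw [← mul_one (star _), ← g.mul_inv, ← mul_assoc]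
  conv_lhs => rw [← hg, ← star_mul, g.mul_inv, star_one, one_mul]

variable (k K) in
theorem isInv_tw {g : Bˣ} (hg : star (g : B) = g) : IsUnitaryInvolution (sig k K) (twA g) :=
  ⟨fun x y => by simp [twA_apply, mul_assoc],
    fun x => by simp [twA_apply, mul_assoc, hg, star_inv_of hg],
    fun c => by
      rw [twA_apply, Csa.star_algebraMap, mul_assoc, Algebra.commutes, Units.inv_mul_cancel_left,
        sig_apply]⟩

theorem gd_of_bc₂ {κ : Type*} [Fintype κ] [DecidableEq κ] (b : Basis κ k B) {T : Type*}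
    [NormedField T] [Algebra k T] (hT : DenseRange (algebraMap k T)) {g h : Bˣ}
    {Z : BC k K B T} (hZ : BC.inc k K B T h = star Z * BC.inc k K B T g * Z) {r : ℝ} (hr : 0 < r) :
    ∃ z, Gd b (algebraMap k T) (twA g) (↑g⁻¹ * h) r z := by
  let W := BC.inc k K B T ↑h⁻¹ * (star Z * BC.inc k K B T g)
  have h1 : Z * W = 1 := mul_eq_one_symm (BC.bas k K B T b) (by
    rw [mul_assoc, ← hZ, ← map_mul, h.inv_mul, map_one])
  have h2 : BC.inc k K B T ↑g⁻¹ * star W * BC.inc k K B T h * W = 1 := by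
    calc _ = BC.inc k K B T ↑g⁻¹ * (star (Z * W) * BC.inc k K B T g * (Z * W)) := by
          rw [hZ, star_mul Z W]; simp only [mul_assoc]
      _ = 1 := by rw [h1, star_one, one_mul, mul_one, ← map_mul, g.inv_mul, map_one]
  have ho : IsOpen (⋂ j : κ × κ, {Y : BC k K B T | ‖(BC.bas k K B T b).coord j.1
      ((BC.inc k K B T ↑g⁻¹ * star Y * BC.inc k K B T h * Y - 1) * BC.inc k K B T (b j.2))‖ < r}) :=
    isOpen_iInter_of_finite fun j => isOpen_lt
      ((IsModuleTopology.continuous_of_linearMap ((BC.bas k K B T b).coord j.1)).comp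
        (by fun_prop)).norm continuous_const
  obtain ⟨y, hy⟩ := (denseRange_inc k K B T hT).exists_mem_open ho
    ⟨W, Set.mem_iInter.mpr fun j => by simpa [h2] using hr⟩
  refine ⟨y, fun p q => ?_⟩
  have := Set.mem_iInter.mp hy (p, q)
  rw [Algebra.leftMulMatrix_eq_repr_mul, ← repr_inc k K B T, twA_apply, mul_assoc _ (g : B),
    Units.mul_inv_cancel_left]
  simpa using this

variable (K) in
/-- **Landherr's theorem** for two hermitian units, hypotheses only at the non-split places -/
theorem landherr₂' {θ : K} {δ : kˣ} (hθ : star θ = -θ) (hδ : θ ^ 2 = algebraMap k K δ) {g h : B}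
    (hg : star g = g) (hh : star h = h) (hgu : IsUnit g) (hu : IsUnit h)
    (hfin : ∀ v : Pl k, δ ∉ Hn.Sq v →
      ∃ Z : BC k K B (Kv v), BC.inc k K B _ h = star Z * BC.inc k K B _ g * Z)
    (hreal : ∀ φ : k →+* ℝ, φ δ < 0 →
      ∃ Z : BC k K B (Emb.Rp φ), BC.inc k K B _ h = star Z * BC.inc k K B _ g * Z) :
    ∃ z : B, h = star z * g * z := by
  classical
  have := finite_kB k K B
  obtain ⟨g, rfl⟩ := hgu
  obtain ⟨h, rfl⟩ := hu
  obtain ⟨z, hz⟩ := landherr_core (isInv_tw k K hg) (finBasis k B) (finBasis K B) Quad.fr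
    (sig_ne k K) hθ hδ (h := ↑g⁻¹ * h) (h' := ↑h⁻¹ * g)
    (by simp [twA_apply, mul_assoc, hh, star_inv_of hg]) (by simp [mul_assoc])
    (fun v hv => by
      obtain ⟨Z, hZ⟩ := hfin v hv
      exact gd_of_bc₂ _ (v.denseRange_algebraMap k) hZ (by simp)) fun φ hφ => by
      obtain ⟨Z, hZ⟩ := hreal φ hφ
      exact gd_of_bc₂ (T := Emb.Rp φ) _ (dense_real φ) hZ (by positivity)
  rw [twA_apply, mul_assoc, mul_assoc, Units.mul_right_inj] at hz
  exact ⟨z, by rw [hz, mul_assoc]⟩

variable (K) in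
/-- **Landherr's theorem** for two hermitian units -/
theorem landherr₂ {g h : B} (hg : star g = g) (hh : star h = h) (hgu : IsUnit g) (hu : IsUnit h)
    (hfin : ∀ v : Pl k, ∃ Z : BC k K B (Kv v), BC.inc k K B _ h = star Z * BC.inc k K B _ g * Z)
    (hreal : ∀ φ : k →+* ℝ,
      ∃ Z : BC k K B (Emb.Rp φ), BC.inc k K B _ h = star Z * BC.inc k K B _ g * Z) :
    ∃ z : B, h = star z * g * z := by
  obtain ⟨θ, δ, hθ, hδ⟩ := exists_theta Quad.fr (sig_ne k K)
  exact landherr₂' K hθ hδ hg hh hgu hu (fun v _ => hfin v) fun φ _ => hreal φ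

variable [Algebra.IsCentral K B] [IsSimpleRing B]

/-- local classification at a non-split place, given the splitting -/
theorem cong_nonsplit_of (v : Pl k) [IsEmpty (K →ₐ[k] Kv v)] {n : ℕ}
    (e : BC k K B (Kv v) ≃ₐ[BC k K K (Kv v)] Matrix (Fin n) (Fin n) (BC k K K (Kv v)))
    {h h' : BC k K B (Kv v)} (hh : star h = h) (hh' : star h' = h') (hu : IsUnit h)
    {z : BC k K K (Kv v)} (hz : z ≠ 0)
    (hN : BC.nrdK k K B _ h' = BC.nrdK k K B _ h * (star z * z)) :
    ∃ Z : (BC k K B (Kv v))ˣ, h' = star (Z : BC k K B (Kv v)) * h * Z :=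
  cong_of_Nrd (univ_quad v _) (Quad.ne (k := Kv v)) e hh hh' hu hz
    (by rwa [BC.Nrd_E, BC.Nrd_E])

end Two

end Crest.Agent.T24.Lan

namespace Crest.Agent.T24.Emb

universe u v w

theorem lanStmt : LanStmt.{u, v, w} := fun D _ hh hu h1 h2 => Lan.landherr D.K hh hu h1 h2

end Crest.Agent.T24.Emb
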