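import Crest.Agent.T24.EvA_20
import Crest.Agent.T24.InNearG_23
import Crest.Agent.T24.LanF_73
import Crest.Agent.T24.LocL_59

/-!
# Row 24, holonomy step (helper28): hermitian elements near `1` are `p* p`, with `p` near `1`
-/

set_option autoImplicit false
set_option linter.unusedSectionVars false

noncomputable section

namespace Crest.Agent.T24.Hol28

open Module NumberField WithZero Csa Asa Topology Filter Ev
open scoped Valued

universe u v w

section Loc
variable (F : Type*) [NontriviallyNormedField F] [CompleteSpace F] [CharZero F]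
  {A : Type*} [Ring A] [StarRing A] [Algebra F A] [FiniteDimensional F A] [TopologicalSpace A]
  [IsTopologicalAddGroup A] [ContinuousSMul F A] [T2Space A]

theorem antiL (h : ∀ c : F, star (algebraMap F A c) = algebraMap F A c) :
    Opn.AntiL F (starAddEquiv (R := A)).toAddMonoidHom := ⟨⟨star_mul, star_star⟩, h⟩

/-- a unitary element is approached by Cayley transforms, on an open set of parameters -/
theorem loc_wa (h : ∀ c : F, star (algebraMap F A c) = algebraMap F A c) {θ : A} (hθ : IsUnit θ)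
    (hc : ∀ z, Commute θ z) (hs : star θ = -θ) {g : A} (hg : star g * g = 1) {V : Set A}
    (hV : V ∈ 𝓝 g) : ∃ a : A, ∀ᶠ b in 𝓝 a, IsUnit (1 - (b - star b)) ∧ Opn.cay (b - star b) ∈ V := by
  have := Opn.topRing F (A := A)
  have hτ := antiL F h
  obtain ⟨X, hX, h1, h2⟩ := hτ.cay_dense two_ne_zero hθ hc hs hg (interior_mem_nhds.2 hV)
  have hX' : star X = -X := hX
  have e : (2⁻¹ : F) • X - star ((2⁻¹ : F) • X) = X := by
    rw [show star ((2⁻¹ : F) • X) = (2⁻¹ : F) • star X from hτ.smul _ _, hX', smul_neg,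
      sub_neg_eq_add, ← add_smul]
    norm_num
  have hp : Tendsto (fun b : A => b - star b) (𝓝 ((2⁻¹ : F) • X)) (𝓝 X) := by
    have hc : Continuous fun b : A => b - star b := continuous_id.sub hτ.continuous
    simpa only [e] using hc.tendsto ((2⁻¹ : F) • X)
  exact ⟨_, ((hp.const_sub 1).eventually (Opn.ev_isUnit F h1)).and
    (((Opn.cay_continuousAt F h1).tendsto.comp hp) (mem_interior_iff_mem_nhds.1 h2))⟩

theorem loc_sqrt (h : ∀ c : F, star (algebraMap F A c) = algebraMap F A c) {V : Set A}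
    (hV : V ∈ 𝓝 (1 : A)) : ∀ᶠ H in 𝓝 (1 : A), star H = H → ∃ s ∈ V, IsUnit s ∧ star s * s = H := by
  filter_upwards [(antiL F h).cong_near_herm two_ne_zero isUnit_one (star_one A) hV] with H h1 h2
  obtain ⟨s, h3, h4, h5⟩ := h1 h2
  exact ⟨s, h3, h4, by simpa using h5⟩

theorem loc_sol (h : ∀ c : F, star (algebraMap F A c) = algebraMap F A c) {θ : A} (hθ : IsUnit θ)
    (hc : ∀ z, Commute θ z) (hs : star θ = -θ) {V : Set A} (hV : V ∈ 𝓝 (1 : A)) :
    ∀ᶠ H in 𝓝 (1 : A), ∀ z : A, star z * z = H → ∃ a : A, ∀ᶠ b in 𝓝 a,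
      IsUnit (1 - (b - star b)) ∧ Opn.cay (b - star b) * z ∈ V := by
  have := Opn.topRing F (A := A)
  have := Opn.dedekind F (A := A)
  filter_upwards [loc_sqrt F h (interior_mem_nhds.2 hV), Opn.ev_isUnit F isUnit_one] with H h1 h2 z hz
  obtain ⟨s, h3, -, h5⟩ := h1 (by rw [← hz, star_mul, star_star])
  obtain ⟨z, rfl⟩ := isUnit_of_mul_isUnit_right (hz ▸ h2)
  refine loc_wa F h hθ hc hs (g := s * ↑z⁻¹) ?_ (V := (fun u => u * ↑z) ⁻¹' V) ?_
  · rw [star_mul, mul_assoc, ← mul_assoc (star s), h5, ← hz, mul_assoc, z.mul_inv, mul_one,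
      ← star_mul, z.mul_inv, star_one]
  · refine (continuous_id.mul continuous_const).continuousAt.preimage_mem_nhds ?_
    simpa using mem_interior_iff_mem_nhds.1 h3

end Loc

variable {k : Type u} {K B : Type*} [Field k] [NumberField k] [Field K] [NumberField K]
  [Algebra k K] [StarRing K] [Quad k K] [Ring B] [StarRing B] [Algebra K B] [StarModule K B]
  [Algebra.IsCentral K B] [IsSimpleRing B] [FiniteDimensional K B] [Algebra k B]
  [IsScalarTower k K B]

variable (k K B) in
/-- additive weak approximation at `S` and at infinity -/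
theorem dense_jA (S : Finset (Pl k)) : DenseRange (jA k K B S) := by
  let e := eb k K B
  let s : (Fin (finrank k B) → RS k S) → AS k K B S := fun c =>
    (∑ j, (c j).1 • BC.inc k K B _ (e j), fun v => ∑ j, (c j).2 v • BC.inc k K B _ (e j))
  have hs : Function.Surjective s := fun a =>
    ⟨fun j => ((BC.bas k K B _ e).repr a.1 j, fun v => (BC.bas k K B _ e).repr (a.2 v) j),
      Prod.ext (BC.eq_sum e a.1).symm (funext fun v => (BC.eq_sum e (a.2 v)).symm)⟩
  have hc : Continuous s := by fun_prop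
  refine (hs.denseRange.comp (DenseRange.piMap fun _ => dense_RS S) hc).mono ?_
  rintro _ ⟨c, rfl⟩
  refine ⟨∑ j, c j • e j, Prod.ext ?_ (funext fun v => ?_)⟩
  · rw [jA_fst, map_sum]; simp only [inc_ksmul]; rfl
  · rw [jA_snd, map_sum]; simp only [inc_ksmul]; rfl

theorem star_real (c : ℝ) : star (algebraMap ℝ (BC k K B (Inf k)) c) = algebraMap ℝ _ c :=
  BC.star_algebraMap (algebraMap ℝ (Inf k) c)

theorem theta_inc (R : Type*) [CommRing R] [Algebra k R] {θ : K} (h0 : θ ≠ 0) (hθ : star θ = -θ) :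
    IsUnit (BC.inc k K B R (algebraMap K B θ)) ∧
      (∀ z, Commute (BC.inc k K B R (algebraMap K B θ)) z) ∧
      star (BC.inc k K B R (algebraMap K B θ)) = -BC.inc k K B R (algebraMap K B θ) :=
  ⟨(h0.isUnit.map _).map _, fun z => BC.cen_comm k K B R (BC.inc k K K R θ) z, by
    rw [BC.star_inc, T24.star_algebraMap, hθ, map_neg, map_neg]⟩

theorem inc_cay (R : Type*) [CommRing R] [Algebra k R] {b : B} (h : IsUnit (1 - (b - star b))) :
    BC.inc k K B R (Opn.cay (b - star b)) =
      Opn.cay (BC.inc k K B R b - star (BC.inc k K B R b)) := by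
  rw [BC.star_inc, ← map_sub]
  exact Opn.map_cay (BC.inc k K B R).toRingHom h

theorem cay_unitary {b : B} (h : IsUnit (1 - (b - star b))) :
    star (Opn.cay (b - star b)) * Opn.cay (b - star b) = 1 :=
  (show Opn.Anti (starAddEquiv (R := B)).toAddMonoidHom from ⟨star_mul, star_star⟩).cay_unitary
    (show star (b - star b) = _ by rw [star_sub, star_star, neg_sub]) h

theorem exists_param {S : Finset (Pl k)} {a : AS k K B S} {P : BC k K B (Inf k) → Prop}
    {Q : ∀ v : S, BC k K B (Kv v.1) → Prop} (hP : ∀ᶠ x in 𝓝 a.1, P x)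
    (hQ : ∀ v, ∀ᶠ x in 𝓝 (a.2 v), Q v x) :
    ∃ b : B, P (BC.inc k K B _ b) ∧ ∀ v, Q v (BC.inc k K B _ b) := by
  have : ∀ᶠ x : AS k K B S in 𝓝 a, P x.1 ∧ ∀ v, Q v (x.2 v) :=
    ((continuous_fst.tendsto a).eventually hP).and (eventually_all.2 fun v =>
      (((continuous_apply v).comp continuous_snd).tendsto a).eventually (hQ v))
  obtain ⟨_, h, b, rfl⟩ := mem_closure_iff_nhds.1 (dense_jA k K B S a) _ this
  exact ⟨b, h⟩

theorem exists_box {S : Finset (Pl k)} {a : AS k K B S} {U : Set (AS k K B S)} (hU : U ∈ 𝓝 a) :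
    ∃ V ∈ 𝓝 a.1, ∃ W : ∀ v : S, Set (BC k K B (Kv v.1)), (∀ v, W v ∈ 𝓝 (a.2 v)) ∧
      ∀ x : AS k K B S, x.1 ∈ V → (∀ v, x.2 v ∈ W v) → x ∈ U := by
  obtain ⟨V, hV, W, hW, h⟩ := mem_nhds_prod_iff.1 hU
  rw [nhds_pi, mem_pi] at hW
  obtain ⟨I, -, W', h1, h2⟩ := hW
  exact ⟨V, hV, W', h1, fun x h3 h4 => h ⟨h3, h2 fun v _ => h4 v⟩⟩

/-- **weak approximation for `U`** at `S` and at all infinite places -/
theorem wa_U {S : Finset (Pl k)} {g : AS k K B S} (hg : star g * g = 1) {U : Set (AS k K B S)}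
    (hU : U ∈ 𝓝 g) : ∃ u : B, star u * u = 1 ∧ jA k K B S u ∈ U := by
  obtain ⟨θ, h0, hθ⟩ := exists_skew (Quad.ne (k := k) (K := K))
  obtain ⟨V, hV, W, hW, h⟩ := exists_box hU
  have t := fun (R : Type u) [CommRing R] [Algebra k R] => theta_inc (B := B) (k := k) R h0 hθ
  obtain ⟨a, ha⟩ := loc_wa ℝ star_real (t _).1 (t _).2.1 (t _).2.2 (congrArg Prod.fst hg) hV
  choose c hc using fun v : S =>
    haveI : CharZero (Kv v.1) := algebraRat.charZero _
    loc_wa (Kv v.1) BC.star_algebraMap (t _).1 (t _).2.1 (t _).2.2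
      (congrFun (congrArg Prod.snd hg) v) (hW v)
  obtain ⟨b, h1, h2⟩ := exists_param (a := (a, c)) ha hc
  have hu : IsUnit (1 - (b - star b)) := isUnit_of_inc (k := k) (K := K) (R := Inf k) (by
    rw [map_sub, map_sub, map_one]; exact h1.1)
  refine ⟨_, cay_unitary hu, h _ ?_ fun v => ?_⟩
  · rw [jA_fst, inc_cay _ hu]; exact h1.2
  · rw [jA_snd, inc_cay _ hu]; exact (h2 v).2

/-- if `H` near `1` is a norm `z* z`, then it is the norm of an element near `1` -/
theorem near_nb {S : Finset (Pl k)} {W : Set B} (hW : W ∈ nb k K B S 1) :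
    ∀ᶠ H in nb k K B S 1, ∀ z : B, star z * z = H → ∃ p ∈ W, star p * p = H := by
  obtain ⟨θ, h0, hθ⟩ := exists_skew (Quad.ne (k := k) (K := K))
  obtain ⟨U, hU, hUW⟩ := mem_nb.1 hW
  rw [map_one] at hU
  obtain ⟨V, hV, W', hW', h⟩ := exists_box hU
  have t := fun (R : Type u) [CommRing R] [Algebra k R] => theta_inc (B := B) (k := k) R h0 hθ
  have k1 := nb_inf (tendsto_id (x := nb k K B S 1))
  have k2 := fun v : S => nb_fin (tendsto_id (x := nb k K B S 1)) v.2
  rw [map_one] at k1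
  simp only [map_one] at k2
  filter_upwards [k1.eventually (loc_sol ℝ star_real (t _).1 (t _).2.1 (t _).2.2 hV),
    eventually_all.2 fun v : S =>
      haveI : CharZero (Kv v.1) := algebraRat.charZero _
      (k2 v).eventually (loc_sol (Kv v.1) BC.star_algebraMap (t _).1 (t _).2.1 (t _).2.2 (hW' v))]
    with H h1 h2 z hz
  have e : ∀ (R : Type u) [CommRing R] [Algebra k R],
      star (BC.inc k K B R z) * BC.inc k K B R z = BC.inc k K B R H := fun R _ _ => by
    rw [BC.star_inc, ← map_mul, hz]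
  obtain ⟨a, ha⟩ := h1 _ (e _)
  choose c hc using fun v => h2 v _ (e _)
  obtain ⟨b, h3, h4⟩ := exists_param (a := (a, c)) ha hc
  have hu : IsUnit (1 - (b - star b)) := isUnit_of_inc (k := k) (K := K) (R := Inf k) (by
    rw [map_sub, map_sub, map_one]; exact h3.1)
  refine ⟨Opn.cay (b - star b) * z, hUW _ (h _ ?_ fun v => ?_), ?_⟩
  · rw [jA_fst, map_mul, inc_cay _ hu]; exact h3.2
  · rw [jA_snd, map_mul, inc_cay _ hu]; exact (h4 v).2
  · rw [star_mul, mul_assoc, ← mul_assoc (star (Opn.cay _)), cay_unitary hu, one_mul, hz]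

variable (k) in
/-- the places dividing `N` -/
def SN (N : ℕ) : Finset (Pl k) := by
  classical exact if h : N = 0 then ∅ else (In.N23.finite_N (K := k) h).toFinset

theorem mem_SN {N : ℕ} (hN : N ≠ 0) {v : Pl k} : v ∈ SN k N ↔ (N : 𝓞 k) ∈ v.asIdeal := by
  simp [SN, hN]

variable (k K) in
theorem na_eq (a : B) : In.na a = nb k K B ∅ a := by
  refine le_antisymm (tendsto_id'.1 (nb_of ?_ (by simp))) ?_
  · have := finite_kB k K B
    have h := In.na_real ((BC.crd₀ k K B (Inf k)).toLinearMap.toAddMonoidHom.comp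
      (BC.inc k K B (Inf k)).toRingHom.toAddMonoidHom) a
    simpa [Function.comp_def] using ((BC.crd₀ k K B (Inf k)).symm.continuous.tendsto _).comp h
  · refine (In.basis_na (eb k K B) a).ge_iff.2 fun ε hε => ?_
    filter_upwards [eventually_all.2 fun φ : k →+* ℂ => eventually_all.2 fun i =>
      ev_inf (nb_lin (tendsto_id (x := nb k K B ∅ a)) ((eb k K B).coord i)) (.mk φ) hε]
      with x hx φ i
    rw [map_sub, Finsupp.sub_apply]
    exact hx φ i

variable (k K) in
/-- the germ filter in the words of the completions -/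
theorem ng_eq [Algebra ℚ B] {N : ℕ} (hN : N ≠ 0) (a : B) : In.ng N a = nb k K B (SN k N) a := by
  refine le_antisymm (tendsto_id'.1 (nb_of_repr (eb k K B) fun i => nbk_of_val (fun w ε hε => ?_)
    fun v hv m => ?_)) (le_inf ?_ ((nb_anti (Finset.empty_subset _) a).trans (na_eq k K a).ge))
  · exact ev_inf (nb_lin (tendsto_id'.2 ((In.ng_le_na a).trans (na_eq k K a).le))
      ((eb k K B).coord i)) w hε
  · filter_upwards [In.ng_le_nr a ((In.N23.basis_val (eb k K B) hN a).mem_of_mem (i := m) trivial)]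
      with x hx
    simpa using hx v ((mem_SN hN).1 hv) i
  · refine (In.N23.basis_val (eb k K B) hN a).ge_iff.2 fun m _ => ?_
    filter_upwards [(eventually_all_finset _).2 fun v hv => eventually_all.2 fun i =>
      ev_val (nb_lin (tendsto_id (x := nb k K B (SN k N) a)) ((eb k K B).coord i)) hv m]
      with x hx v hv i
    simpa using hx v ((mem_SN hN).2 hv) i

variable (k K) in
include k K in
theorem near_ng [Algebra ℚ B] {N : ℕ} (hN : N ≠ 0) {W : Set B} (hW : W ∈ In.ng N (1 : B)) :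
    ∀ᶠ H in In.ng N (1 : B), ∀ z : B, star z * z = H → ∃ p ∈ W, star p * p = H := by
  rw [ng_eq k K hN] at hW ⊢
  exact near_nb hW

variable (k K) in
include k K in
theorem na_eq_ng [Algebra ℚ B] (a : B) : In.na a = In.ng 1 a := by
  rw [ng_eq k K one_ne_zero, na_eq k K]
  congr 1
  refine (Finset.eq_empty_of_forall_notMem fun v hv => v.isPrime.ne_top ?_).symm
  simpa [Ideal.eq_top_iff_one] using (mem_SN one_ne_zero).1 hv

/-- hermitian units with square norm are norms at the finite places -/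
theorem loc_sq (v : Pl k) {h : B} {s : k} (hh : star h = h) (hs : s ≠ 0)
    (hN : Nrd K h = algebraMap k K (s ^ 2)) :
    ∃ Z : BC k K B (Kv v), BC.inc k K B _ h = star Z * Z := by
  have h1 : star (BC.inc k K B (Kv v) h) = BC.inc k K B (Kv v) h := by rw [BC.star_inc, hh]
  rcases isEmpty_or_nonempty (K →ₐ[k] Kv v) with _ | ⟨⟨ι⟩⟩
  · obtain ⟨e⟩ := Loc.bc_mat K B v
    obtain ⟨Z, hZ⟩ := Lan.cong_nonsplit_of v e (star_one _) h1 isUnit_one
      (z := BC.inc k K K _ (algebraMap k K s)) (by simpa using hs) (by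
        rw [BC.nrdK_inc, hN, map_one, one_mul, BC.star_inc, Quad.star_k, ← map_mul, ← map_mul, sq])
    exact ⟨Z, by simpa using hZ⟩
  · obtain ⟨Z, hZ⟩ := Lan.cong_split ι (star_one _) h1 isUnit_one
    exact ⟨Z, by simpa using hZ⟩

/-- a hermitian unit of square norm that is a norm at infinity is a norm -/
theorem norm_of_sq {h : B} {s : k} (hh : star h = h) (hs : s ≠ 0)
    (hN : Nrd K h = algebraMap k K (s ^ 2))
    (hi : ∃ Z : BC k K B (Inf k), BC.inc k K B _ h = star Z * Z) : ∃ z : B, h = star z * z :=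
  Lan.landherr_inf K hh ((isUnit_iff_Nrd (K := K) h).2 (by simpa [hN] using hs))
    (fun v => loc_sq v hh hs hN) hi

theorem exists_r {h : B} (hh : star h = h) : ∃ r : k, algebraMap k K r = Nrd K h :=
  exists_of_star_eq Quad.fr Quad.star_k (Quad.ne k) (by rw [← T24.Nrd_star, hh])

variable (k) in
/-- (LH) a hermitian element near `1` at infinity is, up to its norm, a norm -/
theorem lh [Algebra ℚ B] (hd : Odd (deg K B)) : ∀ᶠ h in In.na (1 : B), star h = h →
    ∃ (r : k) (p : B), algebraMap k K r = Nrd K h ∧ r ≠ 0 ∧ IsUnit p ∧ star p * p = r • h := by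
  have := In.fdQ K B
  have ht : Tendsto (fun h : B => Nrd K h • h) (In.na 1) (nb k K B ∅ 1) := by
    rw [← na_eq, na_eq_ng k K]
    simpa using In.ng_smul K (In.ng_Nrd_one (N := 1) K (B := B)) tendsto_id
  have k1 := nb_inf ht
  rw [map_one] at k1
  filter_upwards [k1.eventually (loc_sqrt ℝ star_real univ_mem),
    ev_isUnit (tendsto_id'.2 (na_eq k K (1 : B)).le) isUnit_one] with h h1 h2 hh
  obtain ⟨r, hr⟩ := exists_r (k := k) (K := K) hh
  have h0 : r ≠ 0 := by
    rintro rfl
    exact (isUnit_iff_Nrd (K := K) h).1 h2 (by rw [← hr, map_zero])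
  obtain ⟨n, hn⟩ := hd
  have h3 : star (r • h) = r • h := by rw [star_ksmul k K B, hh]
  rw [← hr, algebraMap_smul] at h1
  obtain ⟨Z, -, -, hZ⟩ := h1 (by rw [BC.star_inc, h3])
  obtain ⟨z, hz⟩ := norm_of_sq (K := K) h3 (pow_ne_zero (n + 1) h0) (by
    rw [← algebraMap_smul K, Nrd_smul, ← hr, hn, ← map_pow, ← map_mul]
    congr 1; ring) ⟨Z, hZ.symm⟩
  have := Opn.dedekind' K (A := B)
  refine ⟨r, z, hr, h0, isUnit_of_mul_isUnit_right (x := star z) ?_, hz.symm⟩
  rw [← hz, Algebra.smul_def]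
  exact (h0.isUnit.map _).mul h2

variable (k) in
/-- (LH1) the same with `p` near `1` -/
theorem lh1 [Algebra ℚ B] (hd : Odd (deg K B)) {N : ℕ} (hN : N ≠ 0) {V : Set B}
    (hV : V ∈ In.ng N (1 : B)) : ∀ᶠ h in In.ng N (1 : B), star h = h →
    ∃ (r : k) (p : B), algebraMap k K r = Nrd K h ∧ r ≠ 0 ∧ p ∈ V ∧ IsUnit p ∧
      star p * p = r • h := by
  have := In.fdQ K B
  have ht : Tendsto (fun h : B => Nrd K h • h) (In.ng N 1) (In.ng N 1) := by
    simpa using In.ng_smul K (In.ng_Nrd_one (N := N) K (B := B)) tendsto_id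
  filter_upwards [In.ng_le_na _ (lh k hd), ht.eventually (near_ng k K hN hV)] with h h1 h2 hh
  obtain ⟨r, z, h3, h4, h5, h6⟩ := h1 hh
  obtain ⟨p, h7, h8⟩ := h2 z (by rw [h6, ← h3, algebraMap_smul])
  rw [← h3, algebraMap_smul] at h8
  have := Opn.dedekind' K (A := B)
  refine ⟨r, p, h3, h4, h7, isUnit_of_mul_isUnit_right (x := star p) ?_, h8⟩
  rw [h8, ← h6]
  exact h5.star.mul h5

end Crest.Agent.T24.Hol28
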