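import Crest.Agent.T24.WallB_86
import Crest.Agent.T24.Csa6_50
import Crest.Agent.T24.CsaP_50
import Crest.Agent.T24.OpnB_6

/-!
# Row 24, HOL, leaf H4 (helper80), part A: the local set `Om`
-/

set_option autoImplicit false
set_option linter.unusedSectionVars false

noncomputable section

namespace Crest.Agent.T24.H80

open Filter Topology Finset Polynomial Module Csa Matrix

theorem greedy {α β : Type*} {d : ℕ} (X : Fin d → Set α) (hX : ∀ j, (X j).Infinite)
    (f g : Fin d → α → β) (hf : ∀ j, Function.Injective (f j)) (hg : ∀ j, Function.Injective (g j)) :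
    ∃ t : Fin d → α, (∀ j, t j ∈ X j) ∧ Function.Injective (fun j => f j (t j)) ∧
      Function.Injective fun j => g j (t j) := by
  induction d with
  | zero => exact ⟨Fin.elim0, fun j => j.elim0, fun j => j.elim0, fun j => j.elim0⟩
  | succ d ih =>
    obtain ⟨t, h1, h2, h3⟩ := ih (fun j => X j.succ) (fun _ => hX _) (fun j => f j.succ)
      (fun j => g j.succ) (fun _ => hf _) fun _ => hg _
    obtain ⟨y, hy, hy'⟩ := (hX 0).exists_notMem_finite
      (((Set.finite_range fun j : Fin d => f j.succ (t j)).preimage (hf 0).injOn).union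
        ((Set.finite_range fun j : Fin d => g j.succ (t j)).preimage (hg 0).injOn))
    rw [Set.mem_union, not_or] at hy'
    have key : ∀ f : Fin (d + 1) → α → β, (fun j => f j ((Fin.cons y t : Fin (d + 1) → α) j)) =
        Fin.cons (f 0 y) fun j : Fin d => f j.succ (t j) := fun f =>
      funext fun j => Fin.cases rfl (fun _ => rfl) j
    refine ⟨Fin.cons y t, fun j => Fin.cases hy h1 j, ?_, ?_⟩
    · rw [key]; exact Fin.cons_injective_iff.2 ⟨hy'.1, h2⟩
    · rw [key]; exact Fin.cons_injective_iff.2 ⟨hy'.2, h3⟩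

section Grp
variable {G : Type*} [Group G]

/-- chains of length `n` -/
def Ch (S : G → Prop) (g : G) (n : ℕ) (u : G) : Prop := ∃ z y : ℕ → G, z 0 = g ∧ z n = u ∧
  ∀ t < n, S ((z t)⁻¹ * y t) ∧ S ((z (t + 1))⁻¹ * y t)

theorem Ch.step {S : G → Prop} {g u a b : G} {n : ℕ} (h : Ch S g n u) (ha : S a) (hb : S b) :
    Ch S g (n + 1) (u * (a * b⁻¹)) := by
  obtain ⟨z, y, h0, h1, h2⟩ := h
  refine ⟨Function.update z (n + 1) (u * (a * b⁻¹)), Function.update y n (u * a), by simpa using h0,
    by simp, fun t ht => ?_⟩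
  rcases (Nat.lt_succ_iff_lt_or_eq.1 ht) with h | rfl
  · rw [Function.update_of_ne (by omega), Function.update_of_ne (by omega),
      Function.update_of_ne (by omega)]
    exact h2 t h
  · rw [Function.update_of_ne (by omega), Function.update_self, Function.update_self, h1]
    exact ⟨by simpa using ha, by simpa [mul_assoc] using hb⟩

theorem ch_of {S : G → Prop} {a : G} (ha : S a)
    (h : ∀ u, u ∈ Subgroup.closure {x | ∃ a b, S a ∧ S b ∧ x = a * b⁻¹}) (g g' : G) :
    ∃ M₀, ∀ M, M₀ ≤ M → Ch S g M g' := by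
  obtain ⟨n, hn⟩ : ∃ n, Ch S g n (g * (g⁻¹ * g')) := by
    refine Subgroup.closure_induction_right (p := fun x _ => ∃ n, Ch S g n (g * x))
      ⟨0, fun _ => g, fun _ => g, rfl, by simp, by simp⟩ ?_ ?_ (h (g⁻¹ * g'))
    · rintro x - _ ⟨a, b, h1, h2, rfl⟩ ⟨n, hn⟩
      exact ⟨n + 1, mul_assoc g x _ ▸ hn.step h1 h2⟩
    · rintro x - _ ⟨a, b, h1, h2, rfl⟩ ⟨n, hn⟩
      exact ⟨n + 1, by simpa [mul_assoc] using hn.step h2 h1⟩
  rw [mul_inv_cancel_left] at hn
  refine ⟨n, fun M hM => ?_⟩
  induction M, hM using Nat.le_induction with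
  | base => exact hn
  | succ M _ ih => simpa using ih.step ha ha

end Grp

theorem starRing_ext {R : Type*} [Ring R] {S T : StarRing R} (h : ∀ x, S.star x = T.star x) :
    S = T := by
  rcases S with @⟨@⟨@⟨⟨f⟩, _⟩, _⟩, _⟩
  rcases T with @⟨@⟨@⟨⟨g⟩, _⟩, _⟩, _⟩
  obtain rfl : f = g := funext h
  rfl

variable (E : Type*) {A : Type*} [Field E] [CharZero E] [StarRing E] [Ring A] [StarRing A]
  [Algebra E A] [StarModule E A] [Algebra.IsCentral E A] [IsSimpleRing A] [FiniteDimensional E A]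

/-- `d` distinct eigenvalues of norm one, different from `1` -/
def Om (d : ℕ) (u : A) : Prop := ∃ l : Fin d → E, Function.Injective l ∧
  ∀ j, star (l j) * l j = 1 ∧ l j ≠ 1 ∧ Nrd E (algebraMap E A (l j) - u) = 0

variable {E}

theorem Om.adj {d : ℕ} {u : A} (h : Om E d u) : Om E d (star u) := by
  obtain ⟨l, h1, h2⟩ := h
  refine ⟨fun j => star (l j), star_injective.comp h1, fun j => ⟨?_, ?_, ?_⟩⟩
  · rw [star_star, mul_comm]; exact (h2 j).1
  · exact fun h => (h2 j).2.1 (star_eq_iff_star_eq.1 h ▸ star_one E)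
  · rw [← Csa.star_algebraMap, ← star_sub, Wall.Nrd_star', (h2 j).2.2, star_zero]

theorem Om.conj {d : ℕ} {u g g' : A} (h : Om E d u) (hg : g' * g = 1) : Om E d (g * u * g') := by
  obtain ⟨l, h1, h2⟩ := h
  exact ⟨l, h1, fun j => ⟨(h2 j).1, (h2 j).2.1, by
    rw [← eval_rch, rch_conj hg, eval_rch, (h2 j).2.2]⟩⟩

theorem infinite_one (hne : ∃ c : E, star c ≠ c) : {x : E | star x * x = 1}.Infinite := by
  obtain ⟨θ, h0, hθ⟩ := exists_skew hne
  have h1 : ∀ n : ℕ, (n : E) - θ ≠ 0 := fun n h => h0 (by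
    have := congrArg star h
    rw [star_sub, star_natCast, hθ, star_zero] at this
    linear_combination (1 / 2 : E) * (this - h))
  have h2 : ∀ n : ℕ, (n : E) + θ ≠ 0 := fun n h => h1 n (by
    have := congrArg star h
    rwa [star_add, star_natCast, hθ, star_zero, ← sub_eq_add_neg] at this)
  refine Set.infinite_of_injective_forall_mem (f := fun n : ℕ => ((n : E) + θ) / (n - θ))
    (fun n m h => ?_) fun n => ?_
  · rw [div_eq_div_iff (h1 n) (h1 m)] at h
    exact Nat.cast_injective (R := E)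
      (mul_left_cancel₀ h0 (by linear_combination (-1 / 2 : E) * h))
  · have := h1 n
    have := h2 n
    rw [Set.mem_ofPred_eq, star_div₀, star_add, star_sub, star_natCast, hθ, sub_neg_eq_add,
      ← sub_eq_add_neg]
    field_simp

theorem exists_dg (hne : ∃ c : E, star c ≠ c) {d : ℕ} [NeZero d]
    (ψ : A ≃ₐ[E] Matrix (Fin d) (Fin d) E) : ∃ dg : (Fin d → E) →ₐ[E] A,
      (∀ x, star (dg x) = dg (star x)) ∧ ∀ x, Nrd E (dg x) = ∏ i, x i := by
  rename_i iE _ _ _ _ _ _ _ _
  obtain ⟨S, M, e, a, h1, h2⟩ := exists_star_of_equiv hne ψ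
  obtain rfl : iE = S := starRing_ext fun x => by
    have := @star_smul E E iE.toStar S.toStar _ M x 1
    rw [@star_one E _ S.toStarMul, smul_eq_mul, smul_eq_mul, mul_one, mul_one] at this
    exact this.symm
  refine ⟨e.symm.toAlgHom.comp (diagonalAlgHom E), fun x => e.injective ?_, fun x => ?_⟩
  · have h3 := h2 (e.symm (diagonal x))
    change e (star (e.symm (diagonal x))) = e (e.symm (diagonal (star x)))
    rw [e.apply_symm_apply] at h3 ⊢
    rw [diagonal_conjTranspose] at h3
    ext i j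
    have h4 := congrFun (congrFun h3 i) j
    rw [diagonal_mul, mul_diagonal] at h4
    refine mul_left_cancel₀ (h1 i).1 (h4.trans ?_)
    by_cases h : i = j
    · subst h; rw [mul_comm]
    · simp [h]
  · have := det_eq e.toAlgHom (by rw [e.toLinearEquiv.finrank_eq, finrank_mat])
      (e.symm (diagonal x))
    change (e (e.symm (diagonal x))).det = _ at this
    rw [e.apply_symm_apply, det_diagonal] at this
    exact this.symm

/-- the unitary group is generated by the quotients of elements of `Om` -/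
theorem local_chain (hne : ∃ c : E, star c ≠ c) {d : ℕ} (hd : 2 ≤ d)
    (ψ : A ≃ₐ[E] Matrix (Fin d) (Fin d) E) (iso : ∃ b : A, b ≠ 0 ∧ star b * b = 0)
    (g g' : unitary A) : ∃ M₀, ∀ M, M₀ ≤ M → Ch (fun u : unitary A => Om E d (u : A)) g M g' := by
  have : NeZero d := ⟨by omega⟩
  obtain ⟨dg, h1, h2⟩ := exists_dg hne ψ
  have h3 : ∀ x : Fin d → E, (∀ j, star (x j) * x j = 1) → dg x ∈ unitary A := fun x hx => by
    have : star x * x = 1 := funext hx
    rw [Unitary.mem_iff, h1, ← map_mul, ← map_mul, mul_comm x, this, map_one]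
    exact ⟨rfl, rfl⟩
  have h4 : ∀ (c : E) (x : Fin d → E), Nrd E (algebraMap E A c - dg x) = ∏ i, (c - x i) :=
    fun c x => by rw [← dg.commutes, ← map_sub, h2]; rfl
  have h5 : ∀ x : Fin d → E, Function.Injective x → (∀ j, star (x j) * x j = 1 ∧ x j ≠ 1) →
      Om E d (dg x) := fun x hx h => ⟨x, hx, fun j => ⟨(h j).1, (h j).2, by
        rw [h4]; exact prod_eq_zero (mem_univ j) (sub_self _)⟩⟩
  set N : Subgroup (unitary A) :=
    Subgroup.closure {x | ∃ a b : unitary A, Om E d (a : A) ∧ Om E d (b : A) ∧ x = a * b⁻¹}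
  have h6 : ∀ (x : Fin d → E) (hx : ∀ j, star (x j) * x j = 1), ∃ t : unitary A,
      Om E d (t : A) ∧ (⟨dg x, h3 x hx⟩ : unitary A) ∈ N := fun x hx => by
    have h0 : ∀ j, x j ≠ 0 := fun j => right_ne_zero_of_mul_eq_one (hx j)
    obtain ⟨t, a1, a2, a3⟩ := greedy (fun j => {y : E | star y * y = 1} \ {1, (x j)⁻¹})
      (fun j => (infinite_one hne).sdiff (Set.toFinite _)) (fun _ => id) (fun j y => x j * y)
      (fun _ => Function.injective_id) fun j => mul_right_injective₀ (h0 j)
    simp only [Set.mem_sdiff, Set.mem_ofPred_eq, Set.mem_insert_iff, Set.mem_singleton_iff,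
      not_or] at a1
    have a4 : ∀ j, star ((x * t) j) * (x * t) j = 1 := fun j => by
      rw [Pi.mul_apply, star_mul', mul_mul_mul_comm, hx, (a1 j).1, one_mul]
    have a5 := h5 t a2 fun j => ⟨(a1 j).1, (a1 j).2.1⟩
    refine ⟨⟨_, h3 t fun j => (a1 j).1⟩, a5, Subgroup.subset_closure ⟨⟨_, h3 _ a4⟩,
      ⟨_, h3 t fun j => (a1 j).1⟩, h5 _ a3 fun j => ⟨a4 j, fun h =>
        (a1 j).2.2 (eq_inv_of_mul_eq_one_right h)⟩, a5, ?_⟩⟩
    exact eq_mul_inv_of_mul_eq (Subtype.ext (map_mul dg x t).symm)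
  have h7 : ∀ c : E, star c * c = 1 → ∀ j,
      star (Pi.mulSingle (M := fun _ => E) (0 : Fin d) c j) * Pi.mulSingle (M := fun _ => E) 0 c j = 1 :=
    fun c hc j => by by_cases h : j = 0 <;> simp [h, hc]
  have h8 : ∀ c : E, Nrd E (dg (Pi.mulSingle (0 : Fin d) c)) = c := fun c => by
    rw [h2, Fintype.prod_pi_mulSingle']
  obtain ⟨a, ha, hm⟩ := h6 _ (h7 (-1) (by simp))
  obtain ⟨b, hb⟩ : ∃ b, dg (Pi.mulSingle (0 : Fin d) (-1)) * b ≠ b * dg (Pi.mulSingle 0 (-1)) := by
    by_contra h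
    push Not at h
    obtain ⟨c, hc⟩ := (Algebra.IsCentral.mem_center_iff E).1
      (Subalgebra.mem_center_iff.2 fun b => (h b).symm)
    have a1 := h4 1 (Pi.mulSingle (0 : Fin d) (-1))
    rw [prod_eq_zero (mem_univ (⟨1, by omega⟩ : Fin d)) (by
      rw [Pi.mulSingle_eq_of_ne (by simp [Fin.ext_iff]), sub_self]), hc, ← map_sub,
      Nrd_algebraMap, pow_eq_zero_iff (deg_pos E A).ne', sub_eq_zero] at a1
    have a2 := h8 (-1)
    rw [hc, ← a1, map_one, map_one] at a2
    norm_num at a2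
  have h9 : Wall.su E A ≤ N := by
    refine Wall.su_le_of_normal ψ (exists_skew hne) (Wall.sukAll_self E) iso (fun g _ x hx => ?_) hm hb
    refine (show N.map (MulAut.conj g).toMonoidHom ≤ N from ?_) ⟨x, hx, rfl⟩
    rw [MonoidHom.map_closure]
    refine Subgroup.closure_mono ?_
    rintro _ ⟨_, ⟨a, b, b1, b2, rfl⟩, rfl⟩
    exact ⟨g * a * g⁻¹, g * b * g⁻¹, b1.conj g.2.1, b2.conj g.2.1, by simp [mul_assoc]⟩
  refine ch_of (S := fun u : unitary A => Om E d (u : A)) ha (fun u => ?_) g g'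
  have a1 : star (Nrd E (u : A)) * Nrd E (u : A) = 1 := by
    rw [← Wall.Nrd_star', ← map_mul, u.2.1, map_one]
  obtain ⟨-, -, a2⟩ := h6 _ (h7 _ a1)
  have a3 := N.mul_mem (h9 (x := u * (⟨_, h3 _ (h7 _ a1)⟩ : unitary A)⁻¹) ?_) a2
  · rwa [inv_mul_cancel_right] at a3
  · change Nrd E ((u : A) * star (dg _)) = 1
    rw [map_mul, Wall.Nrd_star', h8, mul_comm, a1]

theorem rch_eq_prod {d : ℕ} (hd : deg E A = d) {u : A} {l : Fin d → E} (h1 : Function.Injective l)
    (h2 : ∀ j, Nrd E (algebraMap E A (l j) - u) = 0) : rch E u = ∏ j, (X - C (l j)) := by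
  have a1 : (∏ j, (X - C (l j))).Monic := monic_prod_of_monic _ _ fun j _ => monic_X_sub_C _
  have a2 : (rch E u).degree = d := by
    rw [degree_eq_natDegree (rch_monic E u).ne_zero, rch_natDegree, hd]
  refine eq_of_degree_sub_lt_of_eval_index_eq univ h1.injOn ?_ fun j _ => ?_
  · have := degree_sub_lt_left (q := ∏ j, (X - C (l j))) (by rw [a2]; simp [degree_prod])
      (rch_monic E u).ne_zero (by rw [(rch_monic E u).leadingCoeff, a1.leadingCoeff])
    simpa [a2] using this
  · rw [eval_rch, h2, eval_prod]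
    exact (prod_eq_zero (mem_univ j) (by simp)).symm

section Top
variable (F : Type*) [NontriviallyNormedField F] [CompleteSpace F] [Algebra F E] [Algebra F A]
  [IsScalarTower F E A] [FiniteDimensional F E] [FiniteDimensional F A] [TopologicalSpace E]
  [IsTopologicalAddGroup E] [ContinuousSMul F E] [T2Space E] [ContinuousStar E] [TopologicalSpace A]
  [IsTopologicalAddGroup A] [ContinuousSMul F A] [T2Space A]

include F in
theorem continuous_rch (j : ℕ) : Continuous fun x : A => (rch E x).coeff j := by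
  have := Opn.topRing F (A := E)
  let e := Module.finBasis E A
  have h (x : A) : (rch E x).coeff j = MvPolynomial.eval (fun i => e.repr x i) (rchP E e j) := by
    rw [eval_rchP, e.sum_repr]
  simp only [h]
  exact (MvPolynomial.continuous_eval _).comp (continuous_pi fun i =>
    ((e.coord i).restrictScalars F).continuous_of_finiteDimensional)

include F in
/-- `Om` is open in the unitary group -/
theorem Om.ev {d : ℕ} (hd : deg E A = d) {u : A} (h : Om E d u) :
    ∀ᶠ x in 𝓝 u, x ∈ unitary A → Om E d x := by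
  have := Opn.topRing F (A := E)
  obtain ⟨l, h1, h2⟩ := h
  have h3 := rch_eq_prod hd h1 fun j => (h2 j).2.2
  have h4 : ∀ᶠ z in 𝓝 l, ∀ i j, z j ≠ 1 ∧ z j ≠ 0 ∧ (i ≠ j → z i ≠ z j ∧ star (z j) * z i ≠ 1) := by
    refine eventually_all.2 fun i => eventually_all.2 fun j =>
      ((continuous_apply j).continuousAt.eventually_ne (h2 j).2.1).and (((continuous_apply
        j).continuousAt.eventually_ne (right_ne_zero_of_mul_eq_one (h2 j).1)).and ?_)
    by_cases hij : i = j
    · simp [hij]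
    have a1 : ∀ᶠ z : Fin d → E in 𝓝 l, z i - z j ≠ 0 :=
      ContinuousAt.eventually_ne (by fun_prop) (sub_ne_zero.2 (h1.ne hij))
    have a2 : ∀ᶠ z : Fin d → E in 𝓝 l, star (z j) * z i ≠ 1 :=
      ContinuousAt.eventually_ne (by fun_prop) fun h => hij (h1 (mul_left_cancel₀
        (left_ne_zero_of_mul_eq_one h) (h.trans (h2 j).1.symm)))
    filter_upwards [a1, a2] with z a1 a2 _ using ⟨sub_ne_zero.1 a1, a2⟩
  rw [nhds_pi, Filter.Eventually, mem_pi'] at h4
  obtain ⟨I, V, hV, h4⟩ := h4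
  have a0 : ∀ x : A, (rch E x).natDegree < d + 1 := fun x => by rw [rch_natDegree, hd]; omega
  have h5 : ∀ j, ∀ᶠ x in 𝓝 u, ∃ z ∈ V j, Nrd E (algebraMap E A z - x) = 0 := fun j => by
    have a1 : (derivative (rch E u)).eval (l j) ≠ 0 := by
      have := (h3 ▸ separable_prod_X_sub_C_iff.2 h1 : (rch E u).Separable).aeval_derivative_ne_zero
        (x := l j) (by rw [coe_aeval_eq_eval, eval_rch, (h2 j).2.2])
      rwa [coe_aeval_eq_eval] at this
    filter_upwards [Opn.hensel F (l := 𝓝 u) (d + 1) (c := fun i x => (rch E x).coeff i)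
      (y := fun _ => l j) (u := fun _ => ((derivative (rch E u)).eval (l j))⁻¹)
      (fun i => (continuous_rch F i).tendsto u) tendsto_const_nhds tendsto_const_nhds
      (by rw [← eval_eq_sum_range' (a0 u), eval_rch, (h2 j).2.2])
      (by
        convert inv_mul_cancel₀ a1 using 2
        rw [derivative_eval, sum_over_range' _ (by simp) _ (a0 u)]
        simp only [mul_assoc]) (hV j)] with x hx
    obtain ⟨z, -, b1, b2⟩ := hx ⊤ (fun x _ y _ => Commute.all x y) (fun _ => trivial) trivial trivial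
    exact ⟨z, b1, by rw [← eval_rch, eval_eq_sum_range' (a0 x), b2]⟩
  filter_upwards [eventually_all.2 h5] with x hx hu
  choose z b1 b2 using hx
  have b3 := h4 (show z ∈ Set.pi I V from fun j _ => b1 j)
  have b4 : Function.Injective z := fun i j h => by_contra fun hij => ((b3 i j).2.2 hij).1 h
  refine ⟨z, b4, fun j => ⟨?_, (b3 j j).1, b2 j⟩⟩
  have b5 : star (z j) ≠ 0 := star_ne_zero.2 (b3 j j).2.1
  have b6 : Nrd E (algebraMap E A (star (z j))⁻¹ - x) = 0 := by
    have : algebraMap E A (star (z j))⁻¹ - x =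
        (-(star (z j))⁻¹) • (star (algebraMap E A (z j) - x) * x) := by
      rw [star_sub, sub_mul, hu.1, Csa.star_algebraMap, ← Algebra.smul_def, smul_sub, smul_smul,
        neg_mul, inv_mul_cancel₀ b5, Algebra.algebraMap_eq_smul_one, neg_smul, neg_smul, one_smul]
      abel
    rw [this, Nrd_smul, map_mul, Wall.Nrd_star', b2, star_zero, zero_mul, mul_zero]
  rw [← eval_rch, rch_eq_prod hd b4 b2, eval_prod, prod_eq_zero_iff] at b6
  obtain ⟨i, -, hi⟩ := b6
  rw [eval_sub, eval_X, eval_C, sub_eq_zero] at hi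
  have b7 : star (z j) * z i = 1 := by rw [← hi, mul_inv_cancel₀ b5]
  by_cases hij : i = j
  · rwa [hij] at b7
  · exact absurd b7 ((b3 i j).2.2 hij).2

end Top

end Crest.Agent.T24.H80
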