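import Crest.Agent.T24.HolPDef_80
import Crest.Agent.T24.OpnB_6
import Crest.Agent.T24.Csa4_50

/-! Row 24, HOL, leaf H4 (helper28): spanning by unitary elements, nodes near `1`. -/

set_option autoImplicit false

namespace Crest.Agent.T24.Hol28

open Filter Topology In

universe u v

/-- rational subspaces are closed for the archimedean filter -/
theorem mem_of_na {V α : Type*} [AddCommGroup V] [Module ℚ V] {l : Filter α} [l.NeBot]
    (M : Submodule ℚ V) {f : α → V} {x : V} (hf : Tendsto f l (na x)) (h : ∀ᶠ i in l, f i ∈ M) :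
    x ∈ M := by
  by_contra hx
  obtain ⟨g, h1, h2⟩ := M.exists_dual_map_eq_bot_of_notMem hx inferInstance
  have h3 := tendsto_na.1 hf ((Rat.castHom ℝ).toAddMonoidHom.comp g.toAddMonoidHom)
  have h4 := tendsto_nhds_unique h3 (tendsto_const_nhds (x := (0 : ℝ)) |>.congr' (h.mono fun i hi => by
    have : g (f i) = 0 := (Submodule.mem_bot ℚ).1 (h2 ▸ Submodule.mem_map_of_mem hi)
    simp [this]))
  exact h1 (by simpa using h4)

variable {B : Type*} [Ring B] [StarRing B] [Algebra ℚ B] [FiniteDimensional ℚ B] {N : ℕ}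

/-- the small rational parameters -/
def tq (N k : ℕ) : ℚ := ((N : ℚ) / (N + 1)) ^ k

theorem tq_ne (hN : 2 ≤ N) (k : ℕ) : tq N k ≠ 0 := by unfold tq; positivity

theorem tq_inj (hN : 2 ≤ N) : Function.Injective (tq N) :=
  (pow_right_strictAnti₀ (by positivity) ((div_lt_one (by positivity)).2 (lt_add_one _))).injective

omit [StarRing B] in
theorem one_sub_tq (X : B) : Tendsto (fun k => 1 - tq N k • X) atTop (ng N 1) := by
  simpa [tq] using ng_sub (ng_const 1) (tendsto_small (N := N) X)

omit [StarRing B] in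
theorem cay_tq (hN : 2 ≤ N) (X : B) : Tendsto (fun k => Opn.cay (tq N k • X)) atTop (ng N 1) := by
  refine ng_mul_one ?_ (ng_inv hN (one_sub_tq X))
  simpa [tq] using ng_add (ng_const 1) (tendsto_small (N := N) X)

theorem cay_mem {X : B} (hX : star X = -X) (q : ℚ) (h : IsUnit (1 - q • X)) :
    Opn.cay (q • X) ∈ unitary B := by
  have := Opn.dedekind' ℚ (A := B)
  have h1 : star (Opn.cay (q • X)) * Opn.cay (q • X) = 1 :=
    (show Opn.Anti (starAddEquiv (R := B)).toAddMonoidHom from ⟨star_mul, star_star⟩).cay_unitary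
      (by rw [map_rat_smul, ← smul_neg, ← hX]; rfl) h
  exact ⟨h1, mul_eq_one_comm.1 h1⟩

theorem skew_mem (hN : 2 ≤ N) (M : Submodule ℚ B) (a : unitary B) {W : Set B} (hW : W ∈ ng N (a : B))
    (hM : ∀ h ∈ unitary B, h ∈ W → h ∈ M) {X : B} (hX : star X = -X) : a * X ∈ M := by
  have h1 : Tendsto (fun k => a * X * Ring.inverse (1 - tq N k • X)) atTop (ng N (a * X)) := by
    simpa using ng_mul (ng_const ((a : B) * X)) (ng_inv hN (one_sub_tq X))
  have h2 : Tendsto (fun k => a * Opn.cay (tq N k • X)) atTop (ng N (a : B)) := by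
    simpa using ng_mul (ng_const (a : B)) (cay_tq hN X)
  refine mem_of_na M (h1.mono_right (ng_le_na _)) ?_
  filter_upwards [h2.eventually hW, (one_sub_tq X).eventually (ng_isUnit hN)] with k h3 h4
  have h5 := M.sub_mem (hM _ (mul_mem a.2 (cay_mem hX _ h4)) h3) (hM _ a.2 (self_of_ng hW))
  have e : a * Opn.cay (tq N k • X) - a =
      (2 * tq N k) • (a * X * Ring.inverse (1 - tq N k • X)) := by
    nth_rewrite 2 [← mul_one (a : B)]
    nth_rewrite 1 [← Ring.mul_inverse_cancel _ h4]
    rw [Opn.cay, ← mul_sub, ← sub_mul, mul_assoc, ← mul_smul_comm, ← smul_mul_assoc, mul_smul,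
      two_smul]
    congr 2
    abel
  rwa [e, M.smul_mem_iff (mul_ne_zero two_ne_zero (tq_ne hN k))] at h5

end Crest.Agent.T24.Hol28

namespace Crest.Agent.T24.H80

open Filter In Hol28

universe u v

theorem span0Stmt28 : Span0Stmt.{u, v} := by
  intro K _ _ _ B _ _ _ _ _ _ hne N hN a W hW
  have := fdQ K B
  obtain ⟨θ, h0, hθ⟩ := Csa.exists_skew hne
  set M := Submodule.span K {h | h ∈ unitary B ∧ h ∈ W}
  have h := fun X => skew_mem hN (M.restrictScalars ℚ) a hW
    (fun h h1 h2 => Submodule.subset_span ⟨h1, h2⟩) (X := X)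
  refine eq_top_iff.2 fun y _ => ?_
  set z : B := star (a : B) * y
  have h1 : (a : B) * (z - star z) ∈ M := h _ (by rw [star_sub, star_star, neg_sub])
  have h2 : (a : B) * (θ • (z + star z)) ∈ M := h _ (by
    rw [star_smul, hθ, star_add, star_star, add_comm, neg_smul])
  rw [mul_smul_comm, M.smul_mem_iff h0] at h2
  have h3 := M.add_mem h1 h2
  rwa [← mul_add, sub_add_add_cancel, ← two_smul K, mul_smul_comm, M.smul_mem_iff two_ne_zero,
    ← mul_assoc, a.2.2, one_mul] at h3

theorem nodes0Stmt28 : Nodes0Stmt.{u} := by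
  intro K _ _ _ hne N hN V hV
  obtain ⟨θ, h0, hθ⟩ := Csa.exists_skew hne
  obtain ⟨n, hn⟩ := eventually_atTop.1 (((cay_tq hN θ).eventually hV).and
    ((one_sub_tq θ).eventually (ng_isUnit hN)))
  refine Set.infinite_of_injective_forall_mem (f := fun k => Opn.cay (tq N (n + k) • θ))
    (fun k l h => ?_) fun k => ⟨(hn _ le_self_add).1, (cay_mem hθ _ (hn _ le_self_add).2).1⟩
  have h2 : IsUnit (2 : K) := two_ne_zero.isUnit
  have := congrArg Opn.icay h
  simp only [(Opn.icay_cay h2 (hn _ le_self_add).2).2] at this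
  exact add_left_cancel (tq_inj hN (smul_left_injective ℚ h0 this))

end Crest.Agent.T24.H80
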