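import Crest.Agent.T24.HolLH_28
import Crest.Agent.T24.HolS_28
import Crest.Agent.T24.LocJ_53
import Crest.Agent.T24.LocM_59
import Crest.Agent.T24.HolPA_80

/-! Row 24, HOL, leaf H4 (helper28): interpolation nodes near the local roots. -/

set_option autoImplicit false

noncomputable section

namespace Crest.Agent.T24.Hol28

open Module NumberField WithZero Csa Asa Topology Filter Ev Polynomial In Finset
open scoped Valued

universe u v

variable {K : Type u} [Field K] [NumberField K]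

theorem ngK_eq {N : ℕ} (hN : N ≠ 0) (a : K) : ng N a = nbk K (SN K N) a := by
  let e := Basis.singleton Unit K
  refine le_antisymm (tendsto_id'.1 (nbk_of_val (fun w ε hε => ?_) fun v hv m => ?_))
    (((N23.basis_val e hN a).inf (basis_na e a)).ge_iff.2 fun p hp => ?_)
  · filter_upwards [ng_le_na a ((basis_na e a).mem_of_mem hε)] with x hx
    rw [← w.norm_embedding_eq]
    simpa [e, -map_sub] using hx w.embedding ()
  · filter_upwards [ng_le_nr a ((N23.basis_val e hN a).mem_of_mem (i := m) trivial)] with x hx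
    simpa [e] using hx v ((mem_SN hN).1 hv) ()
  · filter_upwards [(eventually_all_finset _).2 fun v hv => ev_val tendsto_id hv p.1,
      eventually_all.2 fun φ : K →+* ℂ => ev_inf tendsto_id (.mk φ) hp.2] with x h1 h2
    exact ⟨fun v hv _ => by simpa [e] using h1 v ((mem_SN hN).2 hv),
      fun φ _ => by simpa [e, -map_sub] using h2 φ⟩

theorem exists_inj {α : Type*} {d : ℕ} {G : Fin d → Set α} (h : ∀ j, (G j).Infinite) :
    ∃ κ : Fin d → α, Function.Injective κ ∧ ∀ j, κ j ∈ G j := by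
  induction d with
  | zero => exact ⟨Fin.elim0, fun i => i.elim0, fun i => i.elim0⟩
  | succ d ih =>
    obtain ⟨κ, h1, h2⟩ := ih fun j => h j.succ
    obtain ⟨a, h3, h4⟩ := (h 0).exists_notMem_finite (Set.finite_range κ)
    exact ⟨Fin.cons a κ, Fin.cons_injective_iff.2 ⟨h4, h1⟩, Fin.cases h3 h2⟩

theorem exists_ball {w : Pl K} {x : Kv w} {U : Set (Kv w)} (hU : U ∈ 𝓝 x) :
    ∃ m : ℕ, ∀ y, Valued.v (y - x) ≤ exp (-(m : ℤ)) → y ∈ U := by
  obtain ⟨ε, hε, h⟩ := Metric.mem_nhds_iff.1 hU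
  obtain ⟨m, hm⟩ := Hsm.exists_exp_norm w hε
  exact ⟨m, fun y hy => h (mem_ball_iff_norm.2 (hm _ hy))⟩

variable [StarRing K]

theorem exists_90 (hne : ∃ c : K, star c ≠ c) {w : Pl K} (hw : ¬ Split w) {ρ : Kv w}
    (h : Loc.sw hw ρ * ρ = 1) : ∃ x, x ≠ 0 ∧ x / Loc.sw hw x = ρ := by
  by_cases h1 : 1 + ρ = 0
  · obtain ⟨θ, h0, hθ⟩ := exists_skew hne
    have h2 : algebraMap K (Kv w) θ ≠ 0 := by simpa using h0
    refine ⟨_, h2, ?_⟩
    rw [Loc.sw_algebraMap, hθ, map_neg, div_neg, div_self h2, eq_neg_of_add_eq_zero_right h1]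
  · refine ⟨_, h1, ?_⟩
    rw [div_eq_iff ((_root_.map_ne_zero _).2 h1), map_add, map_one, mul_add, mul_comm ρ (Loc.sw hw ρ), h,
      mul_one, add_comm]

/-- weak approximation for the elements of norm one -/
theorem wa_one (hne : ∃ c : K, star c ≠ c) {N : ℕ} (hN : 2 ≤ N) (P : Finset (Pl K))
    (hP : ∀ w ∈ P, ¬ Split w ∧ (N : 𝓞 K) ∉ w.asIdeal) (ρ : ∀ w : Pl K, Kv w)
    (hρ : ∀ w ∈ P, ∀ hw : ¬ Split w, Loc.sw hw (ρ w) * ρ w = 1) (U : ∀ w : Pl K, Set (Kv w))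
    (hU : ∀ w ∈ P, U w ∈ 𝓝 (ρ w)) {V : Set K} (hV : V ∈ ng N (1 : K)) :
    ∃ κ ∈ V, star κ * κ = 1 ∧ ∀ w ∈ P, algebraMap K (Kv w) κ ∈ U w := by
  classical
  have h0 : N ≠ 0 := by omega
  have h1 : Tendsto (fun y : K => y * Ring.inverse (star y)) (ng N 1) (ng N 1) :=
    ng_mul_one tendsto_id (ng_inv hN (by
      have := ng_map (N := N) (starAddEquiv (R := K)).toAddMonoidHom 1
      rwa [show (starAddEquiv (R := K)).toAddMonoidHom 1 = 1 from star_one K] at this))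
  obtain ⟨m₀, ε, hε, h2⟩ := Ev.exists_box (ngK_eq h0 (1 : K) ▸ (h1.eventually hV).and (ng_isUnit hN))
  have h3 : ∀ w : Pl K, ∃ (x : Kv w) (m : ℕ), w ∈ P → ∀ y : K,
      Valued.v (algebraMap K (Kv w) y - x) ≤ exp (-(m : ℤ)) →
        algebraMap K (Kv w) (y * Ring.inverse (star y)) ∈ U w := fun w => by
    by_cases hw : w ∈ P
    · obtain ⟨x, hx, h4⟩ := exists_90 hne (hP w hw).1 (hρ w hw _)
      have h5 : ContinuousAt (fun y => y / Loc.sw (hP w hw).1 y) x :=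
        continuousAt_id.div (Loc.continuous_sw _).continuousAt (by simpa using hx)
      obtain ⟨m, hm⟩ := exists_ball (h5.preimage_mem_nhds (h4.symm ▸ hU w hw))
      refine ⟨x, m, fun _ y hy => ?_⟩
      simpa [Loc.sw_algebraMap, div_eq_mul_inv] using hm _ hy
    · exact ⟨0, 0, fun h => absurd h hw⟩
  choose x m hm using h3
  obtain ⟨v₀, hv₀⟩ := exists_notMem (SN K N ∪ P)
  obtain ⟨y, h4, h5, -⟩ := approxC (SN K N ∪ P) v₀ hv₀ (fun w => if w ∈ P then x w else 1)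
    (m₀ + P.sup m) 1 hε
  have h6 := h2 y (fun v hv => ?_) fun w => by
    rw [← mixedEmbedding.normAtPlace_apply, map_sub, map_one]; exact h5 w
  · refine ⟨_, h6.1, ?_, fun w hw => hm w hw y ?_⟩
    · have := h6.2.ne_zero
      have := star_ne_zero.2 this
      rw [Ring.inverse_eq_inv, star_mul', star_inv₀, star_star]
      field_simp
    · have := h4 w (mem_union_right _ hw)
      rw [if_pos hw] at this
      exact this.trans (exp_neg_anti ((le_sup hw).trans le_add_self))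
  · have := h4 v (mem_union_left _ hv)
    rw [if_neg fun h => (hP v h).2 ((mem_SN h0).1 hv)] at this
    rw [← Hn.Loc.valued_algebraMap, map_sub, map_one]
    exact this.trans (exp_neg_anti le_self_add)

theorem inf_one (hne : ∃ c : K, star c ≠ c) {N : ℕ} (hN : 2 ≤ N) (P : Finset (Pl K))
    (hP : ∀ w ∈ P, ¬ Split w ∧ (N : 𝓞 K) ∉ w.asIdeal) (ρ : ∀ w : Pl K, Kv w)
    (hρ : ∀ w ∈ P, ∀ hw : ¬ Split w, Loc.sw hw (ρ w) * ρ w = 1) (h1 : ∀ w ∈ P, ρ w ≠ 1)
    (U : ∀ w : Pl K, Set (Kv w)) (hU : ∀ w ∈ P, U w ∈ 𝓝 (ρ w)) {V : Set K}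
    (hV : V ∈ ng N (1 : K)) :
    {κ | κ ∈ V ∧ star κ * κ = 1 ∧ ∀ w ∈ P, algebraMap K (Kv w) κ ∈ U w}.Infinite := by
  rcases P.eq_empty_or_nonempty with rfl | ⟨w₀, h₀⟩
  · simpa using H80.nodes0Stmt28 K hne N hN V hV
  intro hF
  have h2 : ∀ᶠ y in ng N (1 : K), ∀ x ∈ hF.toFinset, x ≠ 1 → y ≠ x :=
    (eventually_all_finset _).2 fun x _ => by
      by_cases hx : x = 1
      · exact .of_forall fun _ h => absurd hx h
      rw [ngK_eq (by omega)]
      exact (ev_ne (nbk_sub tendsto_id (nbk_const x)) (sub_ne_zero.2 (Ne.symm hx))).mono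
        fun y hy _ => sub_ne_zero.1 hy
  obtain ⟨κ, h3, h4, h5⟩ := wa_one hne hN P hP ρ hρ (fun w => U w ∩ {1}ᶜ)
    (fun w hw => inter_mem (hU w hw) (compl_singleton_mem_nhds (h1 w hw))) (inter_mem hV h2)
  refine h3.2 κ (hF.mem_toFinset.2 ⟨h3.1, h4, fun w hw => (h5 w hw).1⟩) (fun h => ?_) rfl
  exact (h5 w₀ h₀).2 (by simp [h])

/-- `f` has `d` distinct roots of norm one, different from `1`, in `K_w` -/
def Rt {w : Pl K} (hw : ¬ Split w) (d : ℕ) (f : K[X]) : Prop :=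
  ∃ ρ : Fin d → Kv w, Function.Injective ρ ∧
    ∀ j, Loc.sw hw (ρ j) * ρ j = 1 ∧ ρ j ≠ 1 ∧ aeval (ρ j) f = 0

omit [StarRing K] in
theorem exists_cube {w : Pl K} {d : ℕ} {f : K[X]} {ρ : Fin d → Kv w} (hi : Function.Injective ρ)
    (h : ∀ j, ρ j ≠ 1 ∧ aeval (ρ j) f = 0) (c : K) (m : ℕ) :
    ∃ U : Fin d → Set (Kv w), (∀ j, U j ∈ 𝓝 (ρ j)) ∧ ∀ κ : Fin d → K,
      (∀ j, algebraMap K (Kv w) (κ j) ∈ U j) → ∀ j,
      w.valuation K (c * (f.eval (κ j) / ∏ i ∈ univ.erase j, (κ j - κ i)) / (1 - κ j)) ≤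
        exp (-(m : ℤ)) := by
  have h1 : ∀ᶠ y in 𝓝 ρ, ∀ j, Valued.v (algebraMap K (Kv w) c *
      (aeval (y j) f / ∏ i ∈ univ.erase j, (y j - y i)) / (1 - y j)) ≤ exp (-(m : ℤ)) := by
    refine eventually_all.2 fun j => ContinuousAt.eventually_mem (f := fun y : Fin d → Kv w =>
      algebraMap K (Kv w) c * (aeval (y j) f / ∏ i ∈ univ.erase j, (y j - y i)) / (1 - y j)) ?_
      ((isOpen_val w m).mem_nhds (by simp [(h j).2]))
    refine (continuousAt_const.mul (ContinuousAt.div ?_ (by fun_prop) ?_)).div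
      (continuousAt_const.sub (continuous_apply j).continuousAt) (sub_ne_zero.2 (h j).1.symm)
    · exact (f.continuous_aeval.comp (continuous_apply j)).continuousAt
    · exact prod_ne_zero_iff.2 fun i hi' => sub_ne_zero.2 (hi.ne (ne_of_mem_erase hi').symm)
  rw [nhds_pi, Filter.Eventually, Filter.mem_pi] at h1
  obtain ⟨I, -, U, h2, h3⟩ := h1
  refine ⟨U, h2, fun κ hκ j => ?_⟩
  have := h3 (a := fun j => algebraMap K (Kv w) (κ j)) (fun j _ => hκ j) j
  rw [← Hn.Loc.valued_algebraMap]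
  simpa [aeval_algebraMap_apply] using this

variable {B : Type v} [Ring B] [Algebra K B] [Algebra.IsCentral K B] [IsSimpleRing B]
  [FiniteDimensional K B]

/-- local roots give good nodes -/
theorem nod_of (hne : ∃ c : K, star c ≠ c) {N p : ℕ} (hN : 2 ≤ N) (hp : p.Prime) (hpN : ¬ p ∣ N)
    {b : B} (h : ∀ w : Pl K, (p : 𝓞 K) ∈ w.asIdeal → ∀ hw : ¬ Split w, Rt hw (deg K B) (rch K b))
    {V : Set K} (hV : V ∈ ng N (1 : K)) : H80.Nod K p V b := by
  classical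
  intro c m
  let P := (SN K p).filter fun w => ¬ Split w
  have hP : ∀ w, w ∈ P ↔ (p : 𝓞 K) ∈ w.asIdeal ∧ ¬ Split w := fun w => by
    rw [mem_filter, mem_SN hp.ne_zero]
  have h1 : ∀ w : Pl K, ∃ (ρ : Fin (deg K B) → Kv w) (U : Fin (deg K B) → Set (Kv w)), w ∈ P →
      (∀ j, (∀ hw : ¬ Split w, Loc.sw hw (ρ j) * ρ j = 1) ∧ ρ j ≠ 1 ∧ U j ∈ 𝓝 (ρ j)) ∧
      ∀ κ : Fin (deg K B) → K, (∀ j, algebraMap K (Kv w) (κ j) ∈ U j) → ∀ j, w.valuation K
        (c * ((rch K b).eval (κ j) / ∏ i ∈ univ.erase j, (κ j - κ i)) / (1 - κ j)) ≤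
          exp (-(m : ℤ)) := fun w => by
    by_cases hw : w ∈ P
    · obtain ⟨ρ, h1, h2⟩ := h w ((hP w).1 hw).1 ((hP w).1 hw).2
      obtain ⟨U, h3, h4⟩ := exists_cube h1 (fun j => (h2 j).2) c m
      exact ⟨ρ, U, fun _ => ⟨fun j => ⟨fun _ => (h2 j).1, (h2 j).2.1, h3 j⟩, h4⟩⟩
    · exact ⟨0, fun _ => ∅, fun h => absurd h hw⟩
  choose ρ U h1 using h1
  have h2 : ∀ w ∈ P, ¬ Split w ∧ (N : 𝓞 K) ∉ w.asIdeal := fun w hw => ⟨((hP w).1 hw).2, fun h' =>
    (N23.val_N.2 ((hP w).1 hw).1).ne (N23.val_coprime h' ((hp.coprime_iff_not_dvd).2 hpN))⟩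
  obtain ⟨κ, h3, h4⟩ := exists_inj fun j => (inf_one hne hN P h2 (fun w => ρ w j)
    (fun w hw => ((h1 w hw).1 j).1) (fun w hw => ((h1 w hw).1 j).2.1) (fun w => U w j)
    (fun w hw => ((h1 w hw).1 j).2.2) hV).sdiff
    ((finite_setOfPred_isRoot (rch_monic K b).ne_zero).insert 1)
  refine ⟨κ, h3, fun j => ⟨(h4 j).1.1, (h4 j).1.2.1, fun h => (h4 j).2 (.inl h), ?_,
    fun w hw hw' => (h1 w ((hP w).2 ⟨hw, hw'⟩)).2 κ
      (fun j => (h4 j).1.2.2 w ((hP w).2 ⟨hw, hw'⟩)) j⟩⟩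
  rw [isUnit_iff_Nrd (K := K), ← eval_rch]
  exact fun h => (h4 j).2 (.inr h)

variable (k : Type*) [Field k] [NumberField k] [Algebra k K] [Quad k K]

theorem exists_toW {w : Pl K} (hw : ¬ Split w) : ∃ f : BC k K K (Kv (below k w)) →+* Kv w,
    (∀ c, f (BC.inc k K K _ c) = algebraMap K _ c) ∧ ∀ x, f (star x) = Loc.sw hw (f x) := by
  let _ := (Hsm.cmap k w).toRingHom.toAlgebra
  have : IsScalarTower k (Kv (below k w)) (Kv w) :=
    .of_algebraMap_eq fun x => ((Hsm.cmap k w).commutes x).symm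
  have h : ∀ s, Loc.sw hw (Hsm.cmap k w s) = Hsm.cmap k w s := fun s =>
    ((below k w).denseRange_algebraMap k).induction_on s (isClosed_eq
      ((Loc.continuous_sw hw).comp (Hsm.continuous_cmap k w)) (Hsm.continuous_cmap k w)) fun y => by
      rw [AlgHom.commutes, IsScalarTower.algebraMap_apply k K, Loc.sw_algebraMap, Quad.star_k]
  let f := BC.lift k K K (Kv (below k w)) (IsScalarTower.toAlgHom k K (Kv w))
  have h1 : ∀ c, f (BC.inc k K K _ c) = algebraMap K _ c := BC.lift_inc k K K _ _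
  refine ⟨f.toRingHom, h1, fun x => ?_⟩
  change f _ = Loc.sw hw (f x)
  refine BC.ind x (by simp) (fun r c => ?_) fun x y hx hy => by simp only [star_add, map_add, hx, hy]
  rw [BC.star_rsmul, BC.star_inc, map_smul, map_smul, h1, h1, Algebra.smul_def, Algebra.smul_def,
    map_mul, Loc.sw_algebraMap]
  exact congrArg (· * _) (h r).symm

variable [StarRing B] [StarModule K B] [Algebra k B] [IsScalarTower k K B]

theorem rt_of_om {w : Pl K} (hw : ¬ Split w) [IsEmpty (K →ₐ[k] Kv (below k w))] {d : ℕ} {b : B}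
    (h : H80.Om (BC k K K (Kv (below k w))) d (BC.inc k K B (Kv (below k w)) b)) :
    Rt hw d (rch K b) := by
  obtain ⟨f, h1, h2⟩ := exists_toW k hw
  obtain ⟨l, h3, h4⟩ := h
  refine ⟨f ∘ l, f.injective.comp h3, fun j => ⟨?_, fun h => (h4 j).2.1 (f.injective ?_), ?_⟩⟩
  · rw [Function.comp, ← h2, ← map_mul, (h4 j).1, map_one]
  · rw [map_one]; exact h
  · have := congrArg f (h4 j).2.2
    rw [← eval_rch, BC.rch_inc, eval_map, hom_eval₂, map_zero] at this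
    rw [aeval_def, ← show f.comp _ = algebraMap K _ from RingHom.ext h1]
    exact this

/-- `Om` at the non-split places over `p` gives good nodes -/
theorem nod_of_om {N p : ℕ} (hN : 2 ≤ N) (hp : p.Prime) (hpN : ¬ p ∣ N) {b : B}
    (h : ∀ v : Pl k, (p : 𝓞 k) ∈ v.asIdeal → ∀ [IsEmpty (K →ₐ[k] Kv v)],
      H80.Om (BC k K K (Kv v)) (deg K B) (BC.inc k K B (Kv v) b))
    {V : Set K} (hV : V ∈ ng N (1 : K)) : H80.Nod K p V b :=
  nod_of (Quad.ne k) hN hp hpN (fun w h1 hw =>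
    haveI := (Loc.isEmpty_iff (k := k)).2 hw
    rt_of_om k hw (h _ (by simpa [below, Ideal.mem_comap] using h1))) hV

end Crest.Agent.T24.Hol28
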