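import Crest.Agent.T24.HolPDef_80
import Crest.Agent.T24.HolId_32

/-!
# Row 24, HOL (helper32): unitary elements near a unitary element span; norm one elements near `1`
-/

set_option autoImplicit false

namespace Crest.Agent.T24.H80

open Filter In Ring Id32

universe u v

namespace S32

theorem ng_unique {V : Type*} [AddCommGroup V] [Module ℚ V] {N : ℕ} {α : Type*} {l : Filter α} [l.NeBot]
    {f : α → V} {a b : V} (ha : Tendsto f l (ng N a)) (hb : Tendsto f l (ng N b)) : a = b := by
  rw [← sub_eq_zero, ← Module.forall_dual_apply_eq_zero_iff ℚ]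
  intro φ
  let ψ : V →+ ℝ := (Rat.castHom ℝ).toAddMonoidHom.comp φ.toAddMonoidHom
  have : (φ a : ℝ) = φ b :=
    tendsto_nhds_unique (tendsto_na.1 (tendsto_ng.1 ha).2 ψ) (tendsto_na.1 (tendsto_ng.1 hb).2 ψ)
  rw [map_sub, Rat.cast_injective this, sub_self]

theorem exists_skew {K : Type*} [Field K] [StarRing K] (h : ∃ c : K, star c ≠ c) :
    ∃ θ : K, θ ≠ 0 ∧ star θ = -θ :=
  let ⟨c, hc⟩ := h
  ⟨c - star c, sub_ne_zero.2 hc.symm, by rw [star_sub, star_star, neg_sub]⟩

/-- the Cayley transform of a skew element -/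
theorem cayley {B : Type*} [Ring B] [StarRing B] {s : B} (hs : star s = -s) (h : IsUnit (1 - s)) :
    xi s + xi s - 1 ∈ unitary B := by
  have h' : IsUnit (1 - -s) := by simpa [hs] using h.star
  have h1 := xi_mul h
  have h2 := mul_xi h
  have h3 := xi_mul h'
  have h4 := mul_xi h'
  rw [Unitary.mem_iff, star_sub, star_add, star_one, star_xi, hs]
  constructor
  · linear_combination (norm := noncomm_ring) 2 • (h3 * xi s) + 2 • (xi (-s) * h2)
  · linear_combination (norm := noncomm_ring) 2 • (h1 * xi (-s)) + 2 • (xi s * h4)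

end S32

open S32

theorem span0Stmt32 : Span0Stmt.{u, v} := by
  intro K _ _ _ B _ _ _ _ _ _ hne N hN a W hW
  have := fdQ K B
  obtain ⟨θ, θ0, hθ⟩ := exists_skew hne
  set S := Submodule.span K {h | h ∈ unitary B ∧ h ∈ W}
  have ha : (a : B) ∈ S := Submodule.subset_span ⟨a.2, self_of_ng (p := (· ∈ W)) hW⟩
  have key : ∀ s : B, star s = -s → (a : B) * s ∈ S := fun s hs => by
    rw [← Subspace.forall_mem_dualAnnihilator_apply_eq_zero_iff]
    intro φ hφ
    rw [Submodule.mem_dualAnnihilator] at hφ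
    have h0 := tendsto_small (N := N) s
    have h1 : Tendsto (fun k : ℕ => 1 - ((N : ℚ) / (N + 1)) ^ k • s) atTop (ng N 1) := by
      simpa using ng_sub (ng_const 1) h0
    have h2 := ng_inv hN h1
    have h3 := ng_mul (ng_const (a : B)) (ng_sub (ng_add h2 h2) (ng_const 1))
    rw [add_sub_cancel_right, mul_one] at h3
    have h4 := ng_lin φ.toAddMonoidHom (ng_mul (ng_const ((a : B) * s)) h2)
    rw [mul_one] at h4
    refine ng_unique h4 ((ng_const 0).congr' ?_)
    filter_upwards [h1.eventually (ng_isUnit hN), h3 hW] with k hk hw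
    set t : ℚ := ((N : ℚ) / (N + 1)) ^ k
    have t0 : t ≠ 0 := by positivity
    have hu := cayley (s := t • s) (by rw [star_rat_smul, hs, smul_neg]) hk
    have m1 : (a : B) * (xi (t • s) + xi (t • s) - 1) ∈ S := Submodule.subset_span ⟨mul_mem a.2 hu, hw⟩
    have e : (a : B) * (xi (t • s) + xi (t • s) - 1) - a = (2 * t) • ((a : B) * s * xi (t • s)) := by
      have := mul_xi hk
      rw [sub_mul, one_mul, smul_mul_assoc, sub_eq_iff_eq_add] at this
      rw [mul_smul, two_smul, mul_assoc, ← mul_smul_comm]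
      linear_combination (norm := noncomm_ring) 2 • ((a : B) * this)
    have m2 := hφ _ (S.sub_mem m1 ha)
    rw [e, map_rat_smul, smul_eq_zero] at m2
    exact (m2.resolve_left (mul_ne_zero two_ne_zero t0)).symm
  refine eq_top_iff.2 fun x _ => ?_
  obtain ⟨y, rfl⟩ : ∃ y, x = (a : B) * y := ⟨star (a : B) * x, by rw [← mul_assoc, a.2.2, one_mul]⟩
  have k1 := key (y - star y) (by rw [star_sub, star_star, neg_sub])
  have k2 := key (θ • (y + star y)) (by rw [star_smul, hθ, star_add, star_star, add_comm, neg_smul])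
  have := S.smul_mem (2 : K)⁻¹ (S.add_mem k1 (S.smul_mem θ⁻¹ k2))
  rwa [mul_smul_comm, inv_smul_smul₀ θ0, ← mul_add, sub_add_add_cancel, mul_add, ← two_smul K,
    inv_smul_smul₀ two_ne_zero] at this

theorem nodes0Stmt32 : Nodes0Stmt.{u} := by
  intro K _ _ _ hne N hN V hV
  obtain ⟨θ, θ0, hθ⟩ := exists_skew hne
  have h1 : Tendsto (fun k : ℕ => 1 - ((N : ℚ) / (N + 1)) ^ k • θ) atTop (ng N 1) := by
    simpa using ng_sub (ng_const 1) (tendsto_small (N := N) θ)
  have h2 := ng_inv hN h1
  have h3 := ng_sub (ng_add h2 h2) (ng_const 1)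
  rw [add_sub_cancel_right] at h3
  have h4 := Nat.frequently_atTop_iff_infinite.1 ((h1.eventually (ng_isUnit hN)).and (h3 hV)).frequently
  refine Set.infinite_of_injOn_mapsTo (f := fun k : ℕ => xi (((N : ℚ) / (N + 1)) ^ k • θ) +
    xi (((N : ℚ) / (N + 1)) ^ k • θ) - 1) (fun k hk k' hk' e => ?_) (fun k hk => ⟨hk.2, ?_⟩) h4
  · have e1 : xi (((N : ℚ) / (N + 1)) ^ k • θ) = xi (((N : ℚ) / (N + 1)) ^ k' • θ) := by
      linear_combination (2 : K)⁻¹ * e
    have e2 := congrArg inverse e1
    rw [inv_xi hk.1, inv_xi hk'.1, sub_right_inj] at e2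
    exact pow_right_injective₀ (by positivity) ((div_lt_one (by positivity)).2 (lt_add_one _)).ne
      (smul_left_injective ℚ θ0 e2)
  · exact (cayley (by rw [star_rat_smul, hθ, smul_neg]) hk.1).1

end Crest.Agent.T24.H80
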