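import Crest.Agent.T24.InDef_71
import Crest.Agent.T24.HsmC_23

/-!
# Row 24, inner step: weak approximation, common torus, Hasse–Schilling–Maass near `1`.
-/

set_option autoImplicit false

namespace Crest.Agent.T24.In

open Filter Module Polynomial NumberField Topology
open Crest.Agent.T24.Csa Crest.Agent.T24.Hsm Crest.Agent.T24.Asa

universe u v w

/-- weak approximation: `N`-adic and real -/
theorem waStmt : WaStmt.{u} := by
  intro N hN K _ _ b V hV r ε hε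
  obtain ⟨p, hp⟩ := Ideal.exists_maximal (𝓞 K)
  let v₀ : Pl K := ⟨p, hp.isPrime, Ring.ne_bot_of_isMaximal_of_not_isField hp
    (RingOfIntegers.not_isField K)⟩
  obtain ⟨z, -, hz, -⟩ := approx_real (K := K) ∅ v₀ (by simp) (fun _ => 0) (fun ρ => r ρ - ρ b)
    hε
  obtain ⟨m, hm⟩ := exists_of_nr (N := N) (p := fun x => x ∈ V) hV
    (Submodule.fg_span_singleton (R := ZN N) z)
  have hN1 : (1 : ℝ) < N := by exact_mod_cast hN
  have h0 : Tendsto (fun k : ℕ => ((N : ℝ) ^ k + 1)⁻¹) atTop (𝓝 0) :=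
    (tendsto_atTop_add_const_right _ 1 (tendsto_pow_atTop_atTop_of_one_lt hN1)).inv_tendsto_atTop
  have h1 : ∀ᶠ k : ℕ in atTop, ∀ ρ : K →+* ℝ,
      |ρ b + (1 - ((N : ℝ) ^ k + 1)⁻¹) * ρ z - r ρ| < ε := by
    rw [eventually_all]
    intro ρ
    have : Tendsto (fun k : ℕ => |ρ b + (1 - ((N : ℝ) ^ k + 1)⁻¹) * ρ z - r ρ|) atTop
        (𝓝 |ρ b + (1 - 0) * ρ z - r ρ|) :=
      ((tendsto_const_nhds.add ((tendsto_const_nhds.sub h0).mul_const _)).sub_const _).abs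
    refine this.eventually (gt_mem_nhds ?_)
    have := hz ρ
    rwa [show ρ b + (1 - 0) * ρ z - r ρ = ρ z - (r ρ - ρ b) by ring]
  obtain ⟨k, hk, hkm, hk1⟩ := (h1.and ((eventually_ge_atTop m).and (eventually_ge_atTop 1))).exists
  have hco : (N ^ k + 1).Coprime N := by
    obtain ⟨j, rfl⟩ : ∃ j, k = j + 1 := ⟨k - 1, by omega⟩
    rw [pow_succ, Nat.coprime_mul_right_add_left]
    exact Nat.coprime_one_left N
  refine ⟨b + (N : ℚ) ^ k • ((((N ^ k + 1 : ℕ) : ℚ))⁻¹ • z), hm _ ?_, fun ρ => ?_⟩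
  · rw [add_sub_cancel_left]
    exact dp_anti _ hkm (smul_mem_dp k (zsmul_mem (inv_mem_ZN hco)
      (Submodule.mem_span_singleton_self z)))
  · convert hk ρ using 3
    have : (N : ℝ) ^ k + 1 ≠ 0 := by positivity
    rw [map_add, map_rat_smul, map_rat_smul]
    simp only [Rat.smul_def]
    push_cast
    field_simp
    ring

namespace Ct37

variable {N : ℕ} {K : Type u} [Field K] [NumberField K]

theorem wa_nhds (hN : 2 ≤ N) {b : K} {V : Set K} (hV : V ∈ nr N b) (r : (K →+* ℝ) → ℝ)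
    (W : (K →+* ℝ) → Set ℝ) (hW : ∀ ρ, W ρ ∈ 𝓝 (r ρ)) : ∃ y ∈ V, ∀ ρ : K →+* ℝ, ρ y ∈ W ρ := by
  choose ε hε h using fun ρ => Metric.mem_nhds_iff.1 (hW ρ)
  obtain ⟨δ, hδ, h'⟩ := exists_min Finset.univ ε hε
  obtain ⟨y, hy, h''⟩ := waStmt N hN K b V hV r δ hδ
  exact ⟨y, hy, fun ρ => h ρ (by
    rw [Metric.mem_ball, Real.dist_eq]
    exact (h'' ρ).trans_le (h' ρ (Finset.mem_univ _)))⟩

/-- removing a `d`-th power -/
theorem lam (hN : 2 ≤ N) {d : ℕ} (hd : d ≠ 0) {V V₁ : Set K} (hV : V ∈ nr N (1 : K))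
    (hV₁ : V₁ ∈ nr N (1 : K)) : ∃ V' ∈ nr N (1 : K), ∀ a ∈ V', ∀ W : (K →+* ℝ) → Set ℝ,
      (∀ ρ, W ρ ∈ 𝓝 (1 : ℝ)) → ∃ l ∈ V, ∃ a' ∈ V₁, l ^ d * a' = a ∧
        ∀ ρ : K →+* ℝ, 0 < ρ a → ρ a' ∈ W ρ := by
  have h1 : Tendsto (fun p : K × K => p.1 * Ring.inverse p.2 ^ d)
      (nr N (1 : K) ×ˢ nr N (1 : K)) (nr N 1) := by
    refine nr_mul_one tendsto_fst ?_
    have h0 : Tendsto (fun p : K × K => Ring.inverse p.2) (nr N (1 : K) ×ˢ nr N (1 : K)) (nr N 1) :=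
      (nr_inverse (B := K) hN).comp tendsto_snd
    simpa using nr_pow h0 d
  obtain ⟨V₂, hV₂, h2⟩ := Filter.mem_prod_self_iff.1 (h1 hV₁)
  refine ⟨V₂, hV₂, fun a ha W hW => ?_⟩
  have hc : ∀ ρ : K →+* ℝ, {x : ℝ | 0 < ρ a → ρ a * x⁻¹ ^ d ∈ W ρ} ∈
      𝓝 ((ρ a) ^ ((d : ℝ)⁻¹)) := by
    intro ρ
    by_cases h : 0 < ρ a
    · have hr : 0 < (ρ a) ^ ((d : ℝ)⁻¹) := Real.rpow_pos_of_pos h _
      have hcont : ContinuousAt (fun x : ℝ => ρ a * x⁻¹ ^ d) ((ρ a) ^ ((d : ℝ)⁻¹)) :=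
        continuousAt_const.mul ((continuousAt_inv₀ hr.ne').pow d)
      have e : ρ a * ((ρ a) ^ ((d : ℝ)⁻¹))⁻¹ ^ d = 1 := by
        rw [inv_pow, Real.rpow_inv_natCast_pow h.le hd, mul_inv_cancel₀ h.ne']
      filter_upwards [hcont.eventually (show W ρ ∈ 𝓝 _ by beta_reduce; rw [e]; exact hW ρ)] with x hx _
      exact hx
    · exact Eventually.of_forall fun x h' => absurd h' h
  obtain ⟨l, ⟨⟨hl1, hl2⟩, hl3⟩, hl⟩ := wa_nhds hN
    (inter_mem (inter_mem hV hV₂) (ev_isUnit (B := K) hN)) _ _ hc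
  have hl0 : l ≠ 0 := IsUnit.ne_zero hl3
  refine ⟨l, hl1, a * l⁻¹ ^ d, ?_,
    by rw [mul_left_comm, ← mul_pow, mul_inv_cancel₀ hl0, one_pow, mul_one], fun ρ h => ?_⟩
  · have := h2 (Set.mk_mem_prod ha hl2)
    simpa [Ring.inverse_eq_inv] using this
  · simpa using hl ρ h

/-- the interpolating polynomial -/
noncomputable def ip {R : Type*} [CommRing R] (P : R[X]) (t₁ t₂ c₁ c₂ a₁ a₂ : R) : R[X] :=
  P + (C ((a₁ - 1) * c₁ + (a₂ - 1) * c₂) * X + C (-((a₁ - 1) * c₁ * t₂ + (a₂ - 1) * c₂ * t₁)))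

theorem ip_coeff {R : Type*} [CommRing R] (P : R[X]) (t₁ t₂ c₁ c₂ a₁ a₂ : R) (i : ℕ) :
    (ip P t₁ t₂ c₁ c₂ a₁ a₂).coeff i - P.coeff i =
      (a₁ - 1) * (if i = 1 then c₁ else if i = 0 then -(c₁ * t₂) else 0) +
      (a₂ - 1) * (if i = 1 then c₂ else if i = 0 then -(c₂ * t₁) else 0) := by
  rw [ip, coeff_add, add_sub_cancel_left, coeff_add, coeff_C_mul_X, coeff_C]
  split_ifs with h1 h2 <;> first | omega | ring

theorem ip_monic {R : Type*} [CommRing R] [Nontrivial R] {P : R[X]} (hP : P.Monic)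
    (hd : 2 ≤ P.natDegree) (t₁ t₂ c₁ c₂ a₁ a₂ : R) :
    (ip P t₁ t₂ c₁ c₂ a₁ a₂).Monic ∧ (ip P t₁ t₂ c₁ c₂ a₁ a₂).natDegree = P.natDegree := by
  have h : (C ((a₁ - 1) * c₁ + (a₂ - 1) * c₂) * X +
      C (-((a₁ - 1) * c₁ * t₂ + (a₂ - 1) * c₂ * t₁))).natDegree < P.natDegree :=
    lt_of_le_of_lt natDegree_linear_le (by omega)
  exact ⟨hP.add_of_left (degree_lt_degree h), natDegree_add_eq_left_of_natDegree_lt h⟩

end Ct37

open Ct37 in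
/-- common torus -/
theorem ctStmt (hNear : NearStmt.{u, v}) : CtStmt.{u, v} := by
  intro N hN K _ _ B _ _ _ _ _ _ hS hd y₀ hy₀ t₁ t₂ ht U hU V hV
  obtain ⟨W, hW, hP⟩ := hNear N hN K B hS y₀ hy₀ U hU
  set P₀ := rch K y₀ with hP₀
  have hm : P₀.Monic := rch_monic K y₀
  have hdeg : P₀.natDegree = deg K B := rch_natDegree y₀
  let c₁ : K := P₀.eval t₁ / (t₁ - t₂)
  let c₂ : K := P₀.eval t₂ / (t₂ - t₁)
  let e₁ : ℕ → K := fun i => if i = 1 then c₁ else if i = 0 then -(c₁ * t₂) else 0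
  let e₂ : ℕ → K := fun i => if i = 1 then c₂ else if i = 0 then -(c₂ * t₁) else 0
  have he : ∀ i, 2 ≤ i → e₁ i = 0 ∧ e₂ i = 0 := fun i hi => by
    simp only [e₁, e₂, if_neg (show i ≠ 1 by omega), if_neg (show i ≠ 0 by omega), and_self]
  have h1 : ∀ i, ∀ᶠ p : K × K in nr N (1 : K) ×ˢ nr N (1 : K),
      (p.1 - 1) * e₁ i + (p.2 - 1) * e₂ i ∈ W := by
    intro i
    have : Tendsto (fun p : K × K => (p.1 - 1) * e₁ i + (p.2 - 1) * e₂ i)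
        (nr N (1 : K) ×ˢ nr N (1 : K)) (nr N ((1 - 1) * e₁ i + (1 - 1) * e₂ i)) :=
      nr_add (nr_mul (nr_sub tendsto_fst (nr_const _)) (nr_const _))
        (nr_mul (nr_sub tendsto_snd (nr_const _)) (nr_const _))
    rw [sub_self, zero_mul, zero_mul, add_zero, nr_zero] at this
    exact this hW
  obtain ⟨V₁, hV₁, h2⟩ := Filter.mem_prod_self_iff.1 ((h1 0).and (h1 1))
  have h3 : ∀ ρ : K →+* ℝ, ∃ Z ∈ 𝓝 (1 : ℝ), Spl B (deg K B) ρ ∨ ∀ a₁ a₂ : K, ρ a₁ ∈ Z →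
      ρ a₂ ∈ Z → ∀ x, ¬ ((ip P₀ t₁ t₂ c₁ c₂ a₁ a₂).map ρ).IsRoot x := by
    intro ρ
    by_cases hρ : Spl B (deg K B) ρ
    · exact ⟨Set.univ, univ_mem, Or.inl hρ⟩
    obtain ⟨ε, hε, h⟩ := noRoot_eps (hm.map ρ)
      fun x hx => hρ (spl_of_root (finrank_eq_deg_sq K B) hy₀ hx)
    have h4 : ∀ i, ∀ᶠ p : ℝ × ℝ in 𝓝 (1 : ℝ) ×ˢ 𝓝 (1 : ℝ),
        |(p.1 - 1) * ρ (e₁ i) + (p.2 - 1) * ρ (e₂ i)| < ε := by
      intro i
      have hc : Continuous fun p : ℝ × ℝ => |(p.1 - 1) * ρ (e₁ i) + (p.2 - 1) * ρ (e₂ i)| := by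
        fun_prop
      rw [← nhds_prod_eq]
      exact hc.continuousAt.eventually (gt_mem_nhds (by simpa using hε))
    obtain ⟨Z, hZ, h5⟩ := Filter.mem_prod_self_iff.1 ((h4 0).and (h4 1))
    refine ⟨Z, hZ, Or.inr fun a₁ a₂ ha₁ ha₂ => ?_⟩
    obtain ⟨m1, m2⟩ := ip_monic hm (hdeg ▸ hd) t₁ t₂ c₁ c₂ a₁ a₂
    refine h _ (m1.map ρ) (by rw [m1.natDegree_map, hm.natDegree_map, m2]) fun i _ => ?_
    rw [coeff_map, coeff_map, ← map_sub, ip_coeff]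
    change |ρ ((a₁ - 1) * e₁ i + (a₂ - 1) * e₂ i)| < ε
    have h6 := h5 (Set.mk_mem_prod ha₁ ha₂)
    rcases Nat.lt_or_ge i 2 with hi | hi
    · interval_cases i
      · simpa using h6.1
      · simpa using h6.2
    · simpa [(he i hi).1, (he i hi).2] using hε
  choose Z hZ h4 using h3
  obtain ⟨V', hV', h5⟩ := lam hN (show deg K B ≠ 0 by omega) hV hV₁
  refine ⟨V', hV', fun a₁ ha₁ a₂ ha₂ p₁ p₂ => ?_⟩
  obtain ⟨l₁, hl₁, b₁, hb₁, e1, r₁⟩ := h5 a₁ ha₁ Z hZ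
  obtain ⟨l₂, hl₂, b₂, hb₂, e2, r₂⟩ := h5 a₂ ha₂ Z hZ
  obtain ⟨m1, m2⟩ := ip_monic hm (hdeg ▸ hd) t₁ t₂ c₁ c₂ b₁ b₂
  obtain ⟨y, hy, hyP⟩ := hP _ m1 (m2.trans hdeg) (fun i => by
      rw [ip_coeff]
      change (b₁ - 1) * e₁ i + (b₂ - 1) * e₂ i ∈ W
      have h6 := h2 (Set.mk_mem_prod hb₁ hb₂)
      rcases Nat.lt_or_ge i 2 with hi | hi
      · interval_cases i
        · exact h6.1
        · exact h6.2
      · simpa [(he i hi).1, (he i hi).2] using zero_mem_of_sm hW) (fun ρ => by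
      rcases p₁ ρ with h | q₁
      · exact Or.inl h
      rcases p₂ ρ with h | q₂
      · exact Or.inl h
      exact (h4 ρ).imp id fun h => h _ _ (r₁ ρ q₁) (r₂ ρ q₂))
  have ht1 : t₁ - t₂ ≠ 0 := sub_ne_zero.2 ht
  have ht2 : t₂ - t₁ ≠ 0 := sub_ne_zero.2 ht.symm
  refine ⟨y, hy, l₁, hl₁, l₂, hl₂, ?_, ?_⟩
  · rw [hyP, ← e1]
    simp only [ip, eval_add, eval_mul, eval_C, eval_X, c₁, c₂]
    field_simp
    ring
  · rw [hyP, ← e2]
    simp only [ip, eval_add, eval_mul, eval_C, eval_X, c₁, c₂]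
    field_simp
    ring

/-- Hasse–Schilling–Maass near `1` -/
theorem hsStmt (hNear : NearStmt.{u, v}) : HsStmt.{u, v} := by
  intro N hN K _ _ B _ _ _ _ _ _ hS U hU
  have := fdQ K B
  rcases Nat.lt_or_ge (deg K B) 2 with hd | hd
  · have hd1 : deg K B = 1 := by have := deg_pos K B; omega
    have h1 : Tendsto (algebraMap K B) (nr N (1 : K)) (nr N (1 : B)) := by
      simpa using nr_map (N := N) (algebraMap K B).toAddMonoidHom (1 : K)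
    filter_upwards [h1 hU] with e he _
    exact ⟨_, he, by rw [Nrd_algebraMap, hd1, pow_one]⟩
  obtain ⟨y₀, hy₀⟩ := exists_separable (K := K) (B := B)
  obtain ⟨t, ht⟩ : ∃ t : K, (rch K y₀).eval t ≠ 0 := by
    by_contra h
    push Not at h
    exact (rch_monic K y₀).ne_zero (Polynomial.funext (by simpa using h))
  obtain ⟨z, hz⟩ : IsUnit (algebraMap K B t - y₀) := (isUnit_iff_Nrd _).2 (by rwa [← eval_rch])
  have h1 : Tendsto (fun p : K × B => p.1 • ((algebraMap K B t - p.2) * ((z⁻¹ : Bˣ) : B)))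
      (nr N (1 : K) ×ˢ nr N y₀) (nr N ((1 : K) • ((algebraMap K B t - y₀) * ((z⁻¹ : Bˣ) : B)))) :=
    nr_smul K tendsto_fst (nr_mul (nr_sub (nr_const _) tendsto_snd) (nr_const _))
  rw [← hz, Units.mul_inv, one_smul] at h1
  obtain ⟨V, hV, U', hU', h2⟩ := Filter.mem_prod_iff.1 (h1 hU)
  obtain ⟨V', hV', h3⟩ := ctStmt hNear N hN K B hS hd y₀ hy₀ t (t + 1) (by simp) U' hU' V hV
  filter_upwards [hV'] with e he hp
  obtain ⟨y, hy, l, hl, -, -, h4, -⟩ := h3 e he 1 (self_of_nr (p := fun x => x ∈ V') hV') hp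
    fun ρ => Or.inr (by simp)
  refine ⟨_, h2 (Set.mk_mem_prod hl hy), ?_⟩
  rw [Nrd_smul, map_mul, ← eval_rch, ← mul_assoc, h4, eval_rch, ← hz, mul_assoc, ← map_mul,
    Units.mul_inv, map_one, mul_one]

end Crest.Agent.T24.In
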