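import Crest.Agent.T24.InA_71
import Crest.Agent.T24.HsmA_23
import Crest.Agent.T24.CsaP_50
import Crest.Agent.T24.AsaA_53

/-!
# Row 24, inner step (helper71): words and leaves

`LH N θ`: `θ` is multiplicative `N`-adically near `1`.  `W N K B X`: the relative theorem of Wang.
-/

set_option autoImplicit false

namespace Crest.Agent.T24.In

open Filter Module Polynomial NumberField
open Crest.Agent.T24.Csa Crest.Agent.T24.Hsm Crest.Agent.T24.Asa

universe u v w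

/-- `θ` is multiplicative near `1` -/
def LH (N : ℕ) {B X : Type*} [Ring B] [Algebra ℚ B] [Mul X] (θ : B → X) : Prop :=
  ∀ᶠ p : B × B in nr N (1 : B) ×ˢ nr N (1 : B), θ (p.1 * p.2) = θ p.1 * θ p.2

section Words

variable (N : ℕ) (K : Type*) [Field K] [NumberField K] (B : Type*) [Ring B] [Algebra K B]

/-- `B` is split at every finite place not dividing `N` -/
def SplN : Prop :=
  ∀ v : Pl K, (N : 𝓞 K) ∉ v.asIdeal → Spl B (deg K B) (algebraMap K (v.adicCompletion K))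

variable {K} in
/-- positive at the real places where `B` is not split -/
def Pos (a : K) : Prop := ∀ ρ : K →+* ℝ, Spl B (deg K B) ρ ∨ 0 < ρ a

theorem fdQ [Algebra ℚ B] [FiniteDimensional K B] : FiniteDimensional ℚ B :=
  Module.Finite.trans K B

variable [Algebra ℚ B] [Algebra.IsCentral K B] [IsSimpleRing B] [FiniteDimensional K B]

/-- the relative theorem of Wang for `B` and characters with values in `X` -/
def W (X : Type*) [CommGroup X] : Prop :=
  ∀ (θ : B → X) (n : ℕ), n ≠ 0 → LH N θ →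
    (∀ᶠ x in nr N (1 : B), Nrd K x = 1 → θ x ^ n = 1) →
    ∀ᶠ x in nr N (1 : B), Nrd K x = 1 → θ x = 1

end Words

section Cont

variable {N : ℕ} {α : Type*} {l : Filter α}

theorem nr_mv {R : Type*} [CommRing R] [Algebra ℚ R] [FiniteDimensional ℚ R] {ι : Type*}
    {f : α → ι → R} {a : ι → R} (h : ∀ j, Tendsto (fun i => f i j) l (nr N (a j)))
    (P : MvPolynomial ι R) :
    Tendsto (fun i => MvPolynomial.eval (f i) P) l (nr N (MvPolynomial.eval a P)) := by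
  induction P using MvPolynomial.induction_on with
  | C c => simpa using nr_const c
  | add p q hp hq => simpa using nr_add hp hq
  | mul_X p j hp => simpa using nr_mul hp (h j)

variable (K : Type*) [Field K] [NumberField K] {B : Type*} [Ring B] [Algebra K B] [Algebra ℚ B]
  [FiniteDimensional K B]

theorem nr_smul {c : α → K} {f : α → B} {c₀ : K} {a : B} (hc : Tendsto c l (nr N c₀))
    (hf : Tendsto f l (nr N a)) : Tendsto (fun i => c i • f i) l (nr N (c₀ • a)) := by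
  have := fdQ K B
  simp only [Algebra.smul_def]
  exact nr_mul (nr_lin (algebraMap K B).toAddMonoidHom hc) hf

variable [Algebra.IsCentral K B] [IsSimpleRing B]

theorem nr_rch (a : B) (j : ℕ) :
    Tendsto (fun x : B => (rch K x).coeff j) (nr N a) (nr N ((rch K a).coeff j)) := by
  let e := Module.finBasis K B
  have h (x : B) : (rch K x).coeff j = MvPolynomial.eval (fun i => e.repr x i) (rchP K e j) := by
    rw [eval_rchP, e.sum_repr]
  simp only [h]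
  exact nr_mv (fun i => nr_map (e.coord i).toAddMonoidHom a) _

theorem nr_Nrd (a : B) : Tendsto (Nrd K) (nr N a) (nr N (Nrd K a)) :=
  nr_mul (nr_const _) (nr_rch K a 0)

theorem nr_Nrd_one : Tendsto (Nrd K) (nr N (1 : B)) (nr N (1 : K)) := by
  simpa using nr_Nrd (N := N) K (1 : B)

end Cont

/-! ### Leaves of pure ring theory -/

/-- germ invariance under every unit -/
def InvStmt : Prop := ∀ N : ℕ, 2 ≤ N → ∀ (B : Type v) [Ring B] [Algebra ℚ B]
  [FiniteDimensional ℚ B] (X : Type w) [CommGroup X] (θ : B → X), LH N θ → ∀ s : Bˣ,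
  ∀ᶠ x in nr N (1 : B), θ ((s : B) * x * (s⁻¹ : Bˣ)) = θ x

/-- relative Dieudonné determinant -/
def DetStmt : Prop := ∀ N : ℕ, 2 ≤ N → ∀ (B : Type v) [Ring B] [Algebra ℚ B]
  [FiniteDimensional ℚ B] (X : Type w) [CommGroup X] (θ : B → X), LH N θ →
  ∀ (ι : Type) [Fintype ι] [DecidableEq ι], ∃ Θ : Matrix ι ι B → X, LH N Θ ∧
    ∀ᶠ d in nr N (1 : ι → B), Θ (Matrix.diagonal d) = ∏ i, θ (d i)

/-- reduction of a matrix to one diagonal entry -/
def RedStmt : Prop := ∀ N : ℕ, 2 ≤ N → ∀ (B : Type v) [Ring B] [Algebra ℚ B]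
  [FiniteDimensional ℚ B] (X : Type w) [CommGroup X] (ι : Type) [Fintype ι] [DecidableEq ι]
  (Φ : Matrix ι ι B → X), LH N Φ → ∀ i₀ : ι, ∀ U ∈ nr N (1 : B),
  ∀ᶠ A in nr N (1 : Matrix ι ι B), ∃ d ∈ U, Φ A = Φ (Matrix.diagonal (Function.update 1 i₀ d))

/-- approximate roots (Newton), uniformly near `1` -/
def RootStmt : Prop := ∀ N : ℕ, 2 ≤ N → ∀ (B : Type v) [Ring B] [Algebra ℚ B]
  [FiniteDimensional ℚ B] (r : ℕ), r ≠ 0 → ∀ V ∈ nr N (1 : B), ∀ᶠ g in nr N (1 : B),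
  ∃ h : ℕ → B, (∀ j, h j ∈ V ∧ ∀ y, Commute g y → Commute (h j) y) ∧
    Tendsto (fun j => h j ^ r) atTop (nr N g)

/-- a cyclic subextension inside a `p`-extension -/
def PgStmt : Prop := ∀ (K M : Type u) [Field K] [Field M] [Algebra K M] [FiniteDimensional K M]
  [IsGalois K M] (p : ℕ), p.Prime → IsPGroup p (M ≃ₐ[K] M) → ∀ L : IntermediateField K M, L ≠ ⊥ →
  ∃ E : IntermediateField K M, E ≤ L ∧ E ≠ ⊥ ∧ IsGalois K E ∧ IsCyclic (E ≃ₐ[K] E)

/-! ### Leaves on number fields and central simple algebras -/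

/-- weak approximation: `N`-adic and real -/
def WaStmt : Prop := ∀ N : ℕ, 2 ≤ N → ∀ (K : Type u) [Field K] [NumberField K] (b : K),
  ∀ V ∈ nr N b, ∀ (r : (K →+* ℝ) → ℝ) (ε : ℝ), 0 < ε → ∃ y ∈ V, ∀ ρ : K →+* ℝ, |ρ y - r ρ| < ε

/-- the filter `nr N` in valuation words (coordinates in a basis) -/
def ValStmt : Prop := ∀ N : ℕ, 2 ≤ N → ∀ (K : Type u) [Field K] [NumberField K] (B : Type v)
  [AddCommGroup B] [Module ℚ B] [Module K B] (ι : Type w) [Finite ι] (e : Basis ι K B) (a : B),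
  (nr N a).HasBasis (fun _ : ℕ => True) fun m => {x | ∀ v : Pl K, (N : 𝓞 K) ∈ v.asIdeal →
    ∀ i, v.valuation K (e.repr (x - a) i) ≤ WithZero.exp (-(m : ℤ))}

/-- a polynomial near a separable reduced polynomial is the reduced polynomial of a near element -/
def NearStmt : Prop := ∀ N : ℕ, 2 ≤ N → ∀ (K : Type u) [Field K] [NumberField K] (B : Type v)
  [Ring B] [Algebra K B] [Algebra ℚ B] [Algebra.IsCentral K B] [IsSimpleRing B]
  [FiniteDimensional K B], SplN N K B → ∀ y₀ : B, (rch K y₀).Separable → ∀ U ∈ nr N y₀,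
  ∃ V ∈ sm N K, ∀ P : K[X], P.Monic → P.natDegree = deg K B →
    (∀ i, P.coeff i - (rch K y₀).coeff i ∈ V) →
    (∀ ρ : K →+* ℝ, Spl B (deg K B) ρ ∨ ∀ x : ℝ, ¬ (P.map ρ).IsRoot x) →
    ∃ y ∈ U, rch K y = P

/-- reduced norms are positive at the ramified real places -/
def PosStmt : Prop := ∀ (K : Type u) [Field K] [NumberField K] (B : Type v) [Ring B] [Algebra K B]
  [Algebra.IsCentral K B] [IsSimpleRing B] [FiniteDimensional K B] (x : B), IsUnit x →
  Pos B (Nrd K x)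

/-- common torus -/
def CtStmt : Prop := ∀ N : ℕ, 2 ≤ N → ∀ (K : Type u) [Field K] [NumberField K] (B : Type v)
  [Ring B] [Algebra K B] [Algebra ℚ B] [Algebra.IsCentral K B] [IsSimpleRing B]
  [FiniteDimensional K B], SplN N K B → 2 ≤ deg K B → ∀ y₀ : B, (rch K y₀).Separable →
  ∀ t₁ t₂ : K, t₁ ≠ t₂ → ∀ U ∈ nr N y₀, ∀ V ∈ nr N (1 : K), ∃ V' ∈ nr N (1 : K),
  ∀ a₁ ∈ V', ∀ a₂ ∈ V', Pos B a₁ → Pos B a₂ → ∃ y ∈ U, ∃ l₁ ∈ V, ∃ l₂ ∈ V,
    l₁ ^ deg K B * (rch K y).eval t₁ = a₁ * (rch K y₀).eval t₁ ∧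
    l₂ ^ deg K B * (rch K y).eval t₂ = a₂ * (rch K y₀).eval t₂

/-- Hasse–Schilling–Maass near `1` -/
def HsStmt : Prop := ∀ N : ℕ, 2 ≤ N → ∀ (K : Type u) [Field K] [NumberField K] (B : Type v)
  [Ring B] [Algebra K B] [Algebra ℚ B] [Algebra.IsCentral K B] [IsSimpleRing B]
  [FiniteDimensional K B], SplN N K B → ∀ U ∈ nr N (1 : B),
  ∀ᶠ e in nr N (1 : K), Pos B e → ∃ c ∈ U, Nrd K c = e

/-- the reduced norm on a maximal central simple `E`-subalgebra -/
def NormStmt : Prop := ∀ (K : Type u) [Field K] [CharZero K] (E : Type u) [Field E] [CharZero E]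
  [Algebra K E] [FiniteDimensional K E] (B : Type v) [Ring B] [Algebra K B] [Algebra.IsCentral K B]
  [IsSimpleRing B] [FiniteDimensional K B] (C : Type w) [Ring C] [Algebra E C]
  [Algebra.IsCentral E C] [IsSimpleRing C] [FiniteDimensional E C] (j : C →+* B),
  (∀ c : K, j (algebraMap E C (algebraMap K E c)) = algebraMap K B c) →
  deg K B = finrank K E * deg E C → ∀ x : C, Nrd K (j x) = Algebra.norm K (Nrd E x)

/-- the centraliser of a subfield -/
def CtrStmt : Prop := ∀ (K : Type u) [Field K] [CharZero K] (E : Type u) [Field E]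
  [Algebra K E] [FiniteDimensional K E] (B : Type v) [Ring B] [Algebra K B] [Algebra.IsCentral K B]
  [IsSimpleRing B] [FiniteDimensional K B] (i : E →ₐ[K] B),
  ∃ (C : Type v) (_ : Ring C) (_ : Algebra E C) (_ : Algebra.IsCentral E C) (_ : IsSimpleRing C)
    (_ : FiniteDimensional E C) (j : C →+* B), Function.Injective j ∧
    (∀ a : E, j (algebraMap E C a) = i a) ∧
    (∀ x : B, (∀ a : E, Commute x (i a)) → ∃ c, j c = x) ∧
    deg K B = finrank K E * deg E C ∧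
    ∀ (F : Type u) [Field F] (g : E →+* F), Spl B (deg K B) (g.comp (algebraMap K E)) →
      Spl C (deg E C) g

/-- split outside `N` -/
def SplStmt : Prop := ∀ (K : Type u) [Field K] [NumberField K] (B : Type v) [Ring B] [Algebra K B]
  [Algebra.IsCentral K B] [IsSimpleRing B] [FiniteDimensional K B] (S : Finset (Pl K)),
  ∃ N : ℕ, 2 ≤ N ∧ SplN N K B ∧ ∀ v ∈ S, (N : 𝓞 K) ∈ v.asIdeal

/-- the commutator pairing is trivial on deep elements -/
def PairStmt : Prop := ∀ N : ℕ, 2 ≤ N → ∀ (K : Type u) [Field K] [NumberField K] (B : Type v)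
  [Ring B] [Algebra K B] [Algebra ℚ B] [Algebra.IsCentral K B] [IsSimpleRing B]
  [FiniteDimensional K B], SplN N K B → ∀ (E : Subgroup Bˣ),
  (∀ᶠ x in nr N (1 : B), ∀ g : Bˣ, (g : B) = x → g ∈ E) →
  ∀ (A : Type w) [CommGroup A] (Ψ : Bˣ → A),
  (∀ g ∈ E, ∀ h ∈ E, Nrd K (g : B) = 1 → Nrd K (h : B) = 1 → Ψ (g * h) = Ψ g * Ψ h) →
  (∀ x ∈ E, ∀ g ∈ E, Nrd K (g : B) = 1 → Ψ (x * g * x⁻¹) = Ψ g) →
  ∃ U ∈ nr N (1 : B), ∀ x y : Bˣ, (x : B) ∈ U → (y : B) ∈ U → Ψ (x * y * x⁻¹ * y⁻¹) = 1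

/-- the relative theorem of Wang -/
def WStmt : Prop := ∀ N : ℕ, 2 ≤ N → ∀ (K : Type u) [Field K] [NumberField K] (B : Type v)
  [Ring B] [Algebra K B] [Algebra ℚ B] [Algebra.IsCentral K B] [IsSimpleRing B]
  [FiniteDimensional K B], SplN N K B → ∀ (X : Type w) [CommGroup X], W N K B X

/-- THE INNER STEP, `N`-adic words -/
def InnerN : Prop := ∀ N : ℕ, 2 ≤ N → ∀ (K : Type u) [Field K] [NumberField K] (B : Type v)
  [Ring B] [Algebra K B] [Algebra ℚ B] [Algebra.IsCentral K B] [IsSimpleRing B]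
  [FiniteDimensional K B], SplN N K B → ∀ (E : Subgroup Bˣ),
  (∀ᶠ x in nr N (1 : B), ∀ g : Bˣ, (g : B) = x → g ∈ E) →
  ∀ (A : Type w) [CommGroup A] (n : ℕ), n ≠ 0 → ∀ (Ψ : Bˣ → A),
  (∀ g ∈ E, Nrd K (g : B) = 1 → Ψ g ^ n = 1) →
  (∀ g ∈ E, ∀ h ∈ E, Nrd K (g : B) = 1 → Nrd K (h : B) = 1 → Ψ (g * h) = Ψ g * Ψ h) →
  (∀ x ∈ E, ∀ g ∈ E, Nrd K (g : B) = 1 → Ψ (x * g * x⁻¹) = Ψ g) →
  ∀ᶠ x in nr N (1 : B), ∀ g : Bˣ, (g : B) = x → Nrd K x = 1 → Ψ g = 1

/-- `x` is congruent to `1` to depth `m` at the places of `S`, in the basis `e` -/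
def Cg {K : Type*} [Field K] [NumberField K] {B : Type*} [Ring B] [Algebra K B] {ι : Type*}
    (e : Basis ι K B) (S : Finset (Pl K)) (m : ℕ) (x : B) : Prop :=
  ∀ v ∈ S, ∀ i, v.valuation K (e.repr (x - 1) i) ≤ WithZero.exp (-(m : ℤ))

/-- THE INNER STEP, valuation words -/
def InnerStmt : Prop := ∀ (K : Type u) [Field K] [NumberField K] (B : Type v)
  [Ring B] [Algebra K B] [Algebra.IsCentral K B] [IsSimpleRing B] [FiniteDimensional K B]
  (e : Basis (Fin (finrank K B)) K B) (S : Finset (Pl K)) (m : ℕ) (E : Subgroup Bˣ),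
  (∀ g : Bˣ, Cg e S m (g : B) → g ∈ E) →
  ∀ (A : Type w) [CommGroup A] (n : ℕ), n ≠ 0 → ∀ (Ψ : Bˣ → A),
  (∀ g ∈ E, Nrd K (g : B) = 1 → Ψ g ^ n = 1) →
  (∀ g ∈ E, ∀ h ∈ E, Nrd K (g : B) = 1 → Nrd K (h : B) = 1 → Ψ (g * h) = Ψ g * Ψ h) →
  (∀ x ∈ E, ∀ g ∈ E, Nrd K (g : B) = 1 → Ψ (x * g * x⁻¹) = Ψ g) →
  ∃ (S' : Finset (Pl K)) (m' : ℕ), ∀ g : Bˣ, Cg e S' m' (g : B) → Nrd K (g : B) = 1 → Ψ g = 1

end Crest.Agent.T24.In
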