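import Crest.Agent.T24.InDef_71

/-!
# Row 24, inner step (helper71): the relative Dieudonné determinant
-/

set_option autoImplicit false
set_option linter.unusedSectionVars false

namespace Crest.Agent.T24.In

open Filter Matrix

universe v w

section Abs

variable {R : Type*} [Ring R] {X : Type*} [CommGroup X]

/-- `1 + I` is a group and `θ` is a homomorphism on it -/
structure RH (I : NonUnitalSubring R) (θ : R → X) : Prop where
  inv : ∀ x, x - 1 ∈ I → ∃ y, y - 1 ∈ I ∧ x * y = 1 ∧ y * x = 1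
  hom : ∀ x y, x - 1 ∈ I → y - 1 ∈ I → θ (x * y) = θ x * θ y

variable {I : NonUnitalSubring R} {θ : R → X}

theorem g_one : (1 : R) - 1 ∈ I := by rw [sub_self]; exact zero_mem _

theorem g_mul {x y : R} (hx : x - 1 ∈ I) (hy : y - 1 ∈ I) : x * y - 1 ∈ I := by
  have : x * y - 1 = (x - 1) * (y - 1) + (x - 1) + (y - 1) := by noncomm_ring
  rw [this]; exact add_mem (add_mem (mul_mem hx hy) hx) hy

theorem g_left {x y : R} (hx : x - 1 ∈ I) (hy : y ∈ I) : x * y ∈ I := by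
  have : x * y = (x - 1) * y + y := by noncomm_ring
  rw [this]; exact add_mem (mul_mem hx hy) hy

theorem g_right {x y : R} (hx : x ∈ I) (hy : y - 1 ∈ I) : x * y ∈ I := by
  have : x * y = x * (y - 1) + x := by noncomm_ring
  rw [this]; exact add_mem (mul_mem hx hy) hx

theorem RH.one (h : RH I θ) : θ 1 = 1 := by
  have := h.hom 1 1 g_one g_one
  rw [mul_one] at this
  exact mul_eq_left.1 this.symm

theorem RH.swap (h : RH I θ) {x l : R} (hx : x ∈ I) (hl : l ∈ I) :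
    θ (1 + x * l) = θ (1 + l * x) := by
  have h1 : (1 + x) - 1 ∈ I := by rwa [add_sub_cancel_left]
  have h2 : (1 - l) - 1 ∈ I := by rw [sub_sub_cancel_left]; exact neg_mem hl
  obtain ⟨y, hy, e1, e2⟩ := h.inv _ h1
  have h3 : (1 - y * x * (1 - l)) - 1 ∈ I := by
    rw [sub_sub_cancel_left]; exact neg_mem (g_right (g_left hy hx) h2)
  have h4 : (1 - (1 - l) * (y * x)) - 1 ∈ I := by
    rw [sub_sub_cancel_left]; exact neg_mem (g_left h2 (g_left hy hx))
  have c1 : (1 + x) * (y * x) = x := by rw [← mul_assoc, e1, one_mul]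
  have c2 : y * x * (1 + x) = x := by
    rw [mul_assoc, show x * (1 + x) = (1 + x) * x by noncomm_ring, ← mul_assoc, e2, one_mul]
  have a1 : 1 + x * l = (1 + x) * (1 - y * x * (1 - l)) := by
    rw [mul_sub, ← mul_assoc, c1]; noncomm_ring
  have a2 : 1 + l * x = (1 - (1 - l) * (y * x)) * (1 + x) := by
    rw [sub_mul, mul_assoc, c2]; noncomm_ring
  have a3 := h.hom _ _ h2 h3
  rw [show (1 - l) * (1 - y * x * (1 - l)) = (1 - (1 - l) * (y * x)) * (1 - l) by noncomm_ring,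
    h.hom _ _ h4 h2, mul_comm, mul_right_inj] at a3
  rw [a1, a2, h.hom _ _ h1 h3, h.hom _ _ h4 h1, a3, mul_comm]

/-- all entries lie in `I` -/
def Ent (I : NonUnitalSubring R) {m n : Type*} (A : Matrix m n R) : Prop := ∀ i j, A i j ∈ I

section Ent
variable {m n k : Type*}

theorem Ent.zero : Ent I (0 : Matrix m n R) := fun _ _ => zero_mem _

theorem Ent.add {A B : Matrix m n R} (hA : Ent I A) (hB : Ent I B) : Ent I (A + B) :=
  fun i j => add_mem (hA i j) (hB i j)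

theorem Ent.neg {A : Matrix m n R} (hA : Ent I A) : Ent I (-A) := fun i j => neg_mem (hA i j)

theorem Ent.mul [Fintype n] {A : Matrix m n R} {B : Matrix n k R} (hA : Ent I A) (hB : Ent I B) :
    Ent I (A * B) := fun i j => by
  rw [mul_apply]; exact sum_mem fun l _ => mul_mem (hA i l) (hB l j)

theorem Ent.left [Fintype m] [DecidableEq m] {A : Matrix m m R} {B : Matrix m k R}
    (hA : Ent I (A - 1)) (hB : Ent I B) : Ent I (A * B) := by
  have : A * B = (A - 1) * B + B := by rw [Matrix.sub_mul, Matrix.one_mul, sub_add_cancel]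
  rw [this]; exact (hA.mul hB).add hB

theorem Ent.right [Fintype n] [DecidableEq n] {A : Matrix m n R} {B : Matrix n n R}
    (hA : Ent I A) (hB : Ent I (B - 1)) : Ent I (A * B) := by
  have : A * B = A * (B - 1) + A := by rw [Matrix.mul_sub, Matrix.mul_one, sub_add_cancel]
  rw [this]; exact (hA.mul hB).add hA

theorem ent_blocks [DecidableEq m] [DecidableEq n] {a : Matrix m m R} {b : Matrix m n R}
    {c : Matrix n m R} {d : Matrix n n R} :
    Ent I (fromBlocks a b c d - 1) ↔ Ent I (a - 1) ∧ Ent I b ∧ Ent I c ∧ Ent I (d - 1) := by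
  have : fromBlocks a b c d - 1 = fromBlocks (a - 1) b c (d - 1) := by
    rw [← fromBlocks_one, sub_eq_add_neg, fromBlocks_neg, fromBlocks_add]
    simp [sub_eq_add_neg]
  rw [this]
  refine ⟨fun h => ⟨fun i j => h (.inl i) (.inl j), fun i j => h (.inl i) (.inr j),
    fun i j => h (.inr i) (.inl j), fun i j => h (.inr i) (.inr j)⟩, ?_⟩
  rintro ⟨h1, h2, h3, h4⟩ (i | i) (j | j)
  exacts [h1 i j, h2 i j, h3 i j, h4 i j]

end Ent

variable (I) in
/-- matrices over `I` -/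
def mat (ι : Type*) [Fintype ι] [DecidableEq ι] : NonUnitalSubring (Matrix ι ι R) where
  carrier := {A | Ent I A}
  add_mem' := Ent.add
  zero_mem' := Ent.zero
  mul_mem' := Ent.mul
  neg_mem' := Ent.neg

section Block
variable {m n : Type*} [Fintype m] [DecidableEq m] [Fintype n] [DecidableEq n]
  {θ₁ : Matrix m m R → X} {θ₂ : Matrix n n R → X}

/-- `L D U` -/
def ldu (c : Matrix n m R) (a : Matrix m m R) (d : Matrix n n R) (b : Matrix m n R) :
    Matrix (m ⊕ n) (m ⊕ n) R := fromBlocks a (a * b) (c * a) (c * a * b + d)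

theorem exists_ldu (h₁ : RH (mat I m) θ₁) {A : Matrix (m ⊕ n) (m ⊕ n) R} (hA : Ent I (A - 1)) :
    ∃ c a d b, Ent I c ∧ Ent I (a - 1) ∧ Ent I (d - 1) ∧ Ent I b ∧ A = ldu c a d b := by
  rw [← fromBlocks_toBlocks A] at hA ⊢
  obtain ⟨ha, hb, hc, hd⟩ := ent_blocks.1 hA
  obtain ⟨a', ha', e1, e2⟩ := h₁.inv _ ha
  refine ⟨A.toBlocks₂₁ * a', _, A.toBlocks₂₂ - A.toBlocks₂₁ * a' * A.toBlocks₁₂,
    a' * A.toBlocks₁₂, hc.right ha', ha, ?_, Ent.left ha' hb, ?_⟩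
  · rw [sub_right_comm, sub_eq_add_neg]
    exact hd.add ((hc.right ha').mul hb).neg
  · rw [ldu, Matrix.mul_assoc _ a', e2, Matrix.mul_one, ← Matrix.mul_assoc, e1, Matrix.one_mul,
      ← Matrix.mul_assoc, add_sub_cancel]

theorem ldu_ent {c : Matrix n m R} {a : Matrix m m R} {d : Matrix n n R} {b : Matrix m n R}
    (hc : Ent I c) (ha : Ent I (a - 1)) (hd : Ent I (d - 1)) (hb : Ent I b) :
    Ent I (ldu c a d b - 1) := by
  refine ent_blocks.2 ⟨ha, ha.left hb, hc.right ha, ?_⟩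
  rw [add_sub_assoc]
  exact ((hc.right ha).mul hb).add hd

theorem ldu_mul {c₁ c₂ c₃ : Matrix n m R} {a₁ a₂ a₃ a₁' a₂' : Matrix m m R}
    {d₁ d₂ d₃ : Matrix n n R} {b₁ b₂ b₃ : Matrix m n R} (e1 : a₁' * a₁ = 1) (e2 : a₂ * a₂' = 1)
    (h : fromBlocks (1 + b₁ * c₂) b₁ c₂ 1 = ldu c₃ a₃ d₃ b₃) :
    ldu c₁ a₁ d₁ b₁ * ldu c₂ a₂ d₂ b₂ =
      ldu (c₁ + d₁ * c₃ * a₁') (a₁ * a₃ * a₂) (d₁ * d₃ * d₂) (a₂' * b₃ * d₂ + b₂) := by
  have f1 : ldu c₁ a₁ d₁ b₁ = fromBlocks a₁ 0 (c₁ * a₁) d₁ * fromBlocks 1 b₁ 0 1 := by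
    simp [ldu, fromBlocks_multiply]
  have f2 : ldu c₂ a₂ d₂ b₂ = fromBlocks 1 0 c₂ 1 * fromBlocks a₂ (a₂ * b₂) 0 d₂ := by
    simp [ldu, fromBlocks_multiply, Matrix.mul_assoc]
  have f3 : fromBlocks 1 b₁ 0 1 * fromBlocks 1 0 c₂ 1 = ldu c₃ a₃ d₃ b₃ := by
    rw [← h]; simp [fromBlocks_multiply]
  have g0 : ∀ z : Matrix m m R, a₁' * (a₁ * z) = z := fun z => by
    rw [← Matrix.mul_assoc, e1, Matrix.one_mul]
  have g2 : ∀ z : Matrix m n R, a₂ * (a₂' * z) = z := fun z => by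
    rw [← Matrix.mul_assoc, e2, Matrix.one_mul]
  rw [f1, f2, Matrix.mul_assoc, ← Matrix.mul_assoc (fromBlocks 1 b₁ 0 1), f3]
  simp only [ldu, fromBlocks_multiply, Matrix.mul_add, Matrix.add_mul, Matrix.mul_assoc,
    Matrix.mul_zero, Matrix.zero_mul, add_zero, g0, g2]
  congr 1 <;> abel

theorem block (h₁ : RH (mat I m) θ₁) (h₂ : RH (mat I n) θ₂)
    (h : ∀ (b : Matrix m n R) (c : Matrix n m R), Ent I b → Ent I c →
      θ₁ (1 + b * c) = θ₂ (1 + c * b)) :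
    ∃ Θ : Matrix (m ⊕ n) (m ⊕ n) R → X, RH (mat I (m ⊕ n)) Θ ∧
      ∀ a d, Ent I (a - 1) → Θ (fromBlocks a 0 0 d) = θ₁ a * θ₂ d := by
  let Θ : Matrix (m ⊕ n) (m ⊕ n) R → X := fun A => θ₁ A.toBlocks₁₁ *
    θ₂ (A.toBlocks₂₂ - A.toBlocks₂₁ * Ring.inverse A.toBlocks₁₁ * A.toBlocks₁₂)
  have hΘ : ∀ c a d b, Ent I (a - 1) → Θ (ldu c a d b) = θ₁ a * θ₂ d := fun c a d b ha => by
    obtain ⟨a', -, e1, e2⟩ := h₁.inv _ ha
    have : Ring.inverse a * a = 1 := Ring.inverse_mul_cancel _ ⟨⟨a, a', e1, e2⟩, rfl⟩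
    simp only [Θ, ldu, toBlocks_fromBlocks₁₁, toBlocks_fromBlocks₁₂, toBlocks_fromBlocks₂₁,
      toBlocks_fromBlocks₂₂]
    rw [Matrix.mul_assoc (c * a), ← Matrix.mul_assoc (Ring.inverse a), this, Matrix.one_mul,
      add_sub_cancel_left]
  refine ⟨Θ, ⟨fun A hA => ?_, fun A B hA hB => ?_⟩, fun a d ha => ?_⟩
  · obtain ⟨c, a, d, b, hc, ha, hd, hb, rfl⟩ := exists_ldu h₁ hA
    obtain ⟨a', ha', e1, e2⟩ := h₁.inv _ ha
    obtain ⟨d', hd', e3, e4⟩ := h₂.inv _ hd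
    have f : ldu c a d b = fromBlocks 1 0 c 1 * fromBlocks a 0 0 d * fromBlocks 1 b 0 1 := by
      simp [ldu, fromBlocks_multiply]
    have i1 : (fromBlocks 1 0 c 1 : Matrix (m ⊕ n) (m ⊕ n) R) * fromBlocks 1 0 (-c) 1 = 1 := by
      simp [fromBlocks_multiply]
    have i2 : (fromBlocks 1 0 (-c) 1 : Matrix (m ⊕ n) (m ⊕ n) R) * fromBlocks 1 0 c 1 = 1 := by
      simp [fromBlocks_multiply]
    have i3 : (fromBlocks 1 b 0 1 : Matrix (m ⊕ n) (m ⊕ n) R) * fromBlocks 1 (-b) 0 1 = 1 := by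
      simp [fromBlocks_multiply]
    have i4 : (fromBlocks 1 (-b) 0 1 : Matrix (m ⊕ n) (m ⊕ n) R) * fromBlocks 1 b 0 1 = 1 := by
      simp [fromBlocks_multiply]
    have i5 : fromBlocks a 0 0 d * fromBlocks a' 0 0 d' = 1 := by
      simp [fromBlocks_multiply, e1, e3]
    have i6 : fromBlocks a' 0 0 d' * fromBlocks a 0 0 d = 1 := by
      simp [fromBlocks_multiply, e2, e4]
    refine ⟨fromBlocks 1 (-b) 0 1 * (fromBlocks a' 0 0 d' * fromBlocks 1 0 (-c) 1), ?_, ?_, ?_⟩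
    · have o1 : Ent I ((1 : Matrix m m R) - 1) := g_one (I := mat I m)
      have o2 : Ent I ((1 : Matrix n n R) - 1) := g_one (I := mat I n)
      have o3 := g_mul (I := mat I (m ⊕ n)) (ent_blocks.2 ⟨ha', .zero, .zero, hd'⟩)
          (ent_blocks.2 ⟨o1, .zero, hc.neg, o2⟩)
      exact g_mul (I := mat I (m ⊕ n)) (ent_blocks.2 ⟨o1, hb.neg, .zero, o2⟩) o3
    · rw [f, mul_assoc, ← mul_assoc (fromBlocks 1 b 0 1), i3, one_mul, mul_assoc,
        ← mul_assoc (fromBlocks a 0 0 d), i5, one_mul, i1]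
    · rw [f, mul_assoc, mul_assoc, ← mul_assoc (fromBlocks 1 0 (-c) 1),
        ← mul_assoc (fromBlocks 1 0 (-c) 1), i2, one_mul, ← mul_assoc (fromBlocks a' 0 0 d'), i6,
        one_mul, i4]
  · obtain ⟨c₁, a₁, d₁, b₁, hc₁, ha₁, hd₁, hb₁, rfl⟩ := exists_ldu h₁ hA
    obtain ⟨c₂, a₂, d₂, b₂, hc₂, ha₂, hd₂, hb₂, rfl⟩ := exists_ldu h₁ hB
    have h1 : Ent I (1 + b₁ * c₂ - 1) := by rw [add_sub_cancel_left]; exact hb₁.mul hc₂
    have h2 : Ent I (1 + c₂ * b₁ - 1) := by rw [add_sub_cancel_left]; exact hc₂.mul hb₁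
    obtain ⟨c₃, a₃, d₃, b₃, hc₃, ha₃, hd₃, hb₃, e⟩ := exists_ldu h₁
      (ent_blocks.2 ⟨h1, hb₁, hc₂, g_one (I := mat I n)⟩)
    obtain ⟨a₁', -, -, e1⟩ := h₁.inv _ ha₁
    obtain ⟨a₂', -, e2, -⟩ := h₁.inv _ ha₂
    have key : θ₁ a₃ * θ₂ d₃ = 1 := by
      obtain ⟨k1, k2, k3, k4⟩ := fromBlocks_inj.1 e
      have k5 : d₃ * (1 + c₂ * b₁) = 1 := by
        have k6 : d₃ = 1 - c₃ * b₁ := by rw [k4, k2, Matrix.mul_assoc, add_sub_cancel_left]
        have k7 : c₃ * b₁ * (1 + c₂ * b₁) = c₂ * b₁ := by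
          conv_rhs => rw [k3, ← k1]
          simp only [Matrix.mul_add, Matrix.add_mul, Matrix.mul_assoc, Matrix.mul_one]
        rw [k6, sub_mul, k7, one_mul, add_sub_cancel_right]
      rw [← k1, h _ _ hb₁ hc₂, mul_comm, ← h₂.hom _ _ hd₃ h2, k5, h₂.one]
    have m1 := g_mul (I := mat I m) ha₁ ha₃
    have m2 := g_mul (I := mat I n) hd₁ hd₃
    rw [ldu_mul e1 e2 e, hΘ _ _ _ _ (g_mul (I := mat I m) m1 ha₂), hΘ _ _ _ _ ha₁, hΘ _ _ _ _ ha₂,
      h₁.hom _ _ m1 ha₂, h₁.hom _ _ ha₁ ha₃, h₂.hom _ _ m2 hd₂, h₂.hom _ _ hd₁ hd₃]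
    calc _ = θ₁ a₁ * θ₂ d₁ * (θ₁ a₂ * θ₂ d₂) * (θ₁ a₃ * θ₂ d₃) := by ac_rfl
      _ = _ := by rw [key, mul_one]
  · rw [← hΘ 0 a d 0 ha]; simp [ldu]

end Block

theorem RH.unit (h : RH I θ) : RH (mat I Unit) fun A => θ (A () ()) := by
  have e : ∀ A : Matrix Unit Unit R, A - 1 ∈ mat I Unit ↔ A () () - 1 ∈ I := fun A =>
    ⟨fun h => by simpa using h () (), fun h _ _ => by simpa using h⟩
  refine ⟨fun A hA => ?_, fun A B hA hB => ?_⟩
  · obtain ⟨y, hy, e1, e2⟩ := h.inv _ ((e A).1 hA)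
    refine ⟨of fun _ _ => y, (e _).2 hy, ?_, ?_⟩ <;> ext ⟨⟩ ⟨⟩ <;> simp [mul_apply, e1, e2]
  · rw [← h.hom _ _ ((e A).1 hA) ((e B).1 hB)]; simp [mul_apply]

variable (I θ) in
/-- a determinant on `1 + M_ι(I)` -/
def HasDet (ι : Type*) [Fintype ι] [DecidableEq ι] : Prop :=
  ∃ Θ : Matrix ι ι R → X, RH (mat I ι) Θ ∧
    ∀ d : ι → R, (∀ i, d i - 1 ∈ I) → Θ (diagonal d) = ∏ i, θ (d i)

theorem ent_diagonal {ι : Type*} [DecidableEq ι] {d : ι → R} (h : ∀ i, d i - 1 ∈ I) :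
    Ent I (diagonal d - 1) := fun i j => by
  by_cases e : i = j
  · subst e; simpa using h i
  · simp [e, zero_mem]

theorem ent_sub {α β : Type*} [DecidableEq α] [DecidableEq β] (e : α ≃ β) (A : Matrix β β R)
    (hA : Ent I (A - 1)) : Ent I (A.submatrix e e - 1) :=
  fun i j => by simpa [one_apply] using hA (e i) (e j)

theorem HasDet.equiv {ι κ : Type*} [Fintype ι] [DecidableEq ι] [Fintype κ] [DecidableEq κ]
    (e : ι ≃ κ) (h : HasDet I θ ι) : HasDet I θ κ := by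
  obtain ⟨Θ, h1, h2⟩ := h
  refine ⟨fun A => Θ (A.submatrix e e), ⟨fun A hA => ?_, fun A B hA hB => ?_⟩, fun d hd => ?_⟩
  · obtain ⟨y, hy, e1, e2⟩ := h1.inv _ (ent_sub e A hA)
    have : (A.submatrix e e).submatrix e.symm e.symm = A := by simp
    refine ⟨y.submatrix e.symm e.symm, ent_sub e.symm y hy, ?_, ?_⟩
    · rw [← this, submatrix_mul_equiv, e1, submatrix_one_equiv]
    · rw [← this, submatrix_mul_equiv, e2, submatrix_one_equiv]
  · rw [← h1.hom _ _ (ent_sub e A hA) (ent_sub e B hB), submatrix_mul_equiv]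
  · simp only [submatrix_diagonal_equiv]
    exact (h2 _ fun i => hd (e i)).trans (e.prod_comp fun i => θ (d i))

theorem HasDet.succ (h : RH I θ) {ι : Type*} [Fintype ι] [DecidableEq ι] (H : HasDet I θ ι) :
    HasDet I θ (Unit ⊕ ι) := by
  obtain ⟨Θ, h1, h2⟩ := H
  obtain ⟨Θ', h3, h4⟩ := block h.unit h1 (fun b c hb hc => by
    rcases isEmpty_or_nonempty ι with hι | ⟨⟨i₀⟩⟩
    · rw [Subsingleton.elim (1 + c * b) 1, h1.one]
      simp [mul_apply, h.one]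
    let b' : Matrix ι ι R := of fun i j => if i = i₀ then b () j else 0
    let c' : Matrix ι ι R := of fun i j => if j = i₀ then c i () else 0
    have hb' : b' ∈ mat I ι := fun i j => by
      simp only [b', of_apply]; split_ifs; exacts [hb _ _, zero_mem _]
    have hc' : c' ∈ mat I ι := fun i j => by
      simp only [c', of_apply]; split_ifs; exacts [hc _ _, zero_mem _]
    have e1 : c' * b' = c * b := by
      ext i j; simp [b', c', mul_apply]
    have e2 : 1 + b' * c' = diagonal (Function.update 1 i₀ ((1 + b * c : Matrix Unit Unit R) () ())) := by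
      ext i j
      by_cases a1 : i = i₀ <;> by_cases a2 : j = i₀
      · subst a1 a2; simp [b', c', mul_apply]
      · subst a1; simp [b', c', mul_apply, a2, Ne.symm a2]
      · subst a2; simp [b', c', mul_apply, a1]
      · simp [b', c', mul_apply, a1, a2, diagonal_apply, one_apply]
    rw [← e1, h1.swap hc' hb', e2, h2, Finset.prod_eq_single i₀]
    · simp
    · intro i _ hi; simp [hi, h.one]
    · simp
    · intro i
      by_cases a1 : i = i₀
      · subst a1; simpa using hb.mul hc () ()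
      · simp [a1, zero_mem])
  refine ⟨Θ', h3, fun d hd => ?_⟩
  have : diagonal d = fromBlocks (diagonal fun i => d (.inl i)) 0 0 (diagonal fun i => d (.inr i)) := by
    rw [fromBlocks_diagonal]; congr 1; ext (i | i) <;> rfl
  rw [this, h4 _ _ (ent_diagonal fun i => hd _), h2 _ fun i => hd _]
  simp

theorem hasDet (h : RH I θ) (ι : Type*) [Fintype ι] [DecidableEq ι] : HasDet I θ ι := by
  have : ∀ n, HasDet I θ (Fin n) := fun n => by
    induction n with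
    | zero =>
      exact ⟨fun _ => 1, ⟨fun A _ => ⟨1, g_one, Subsingleton.elim _ _, Subsingleton.elim _ _⟩,
        fun _ _ _ _ => (mul_one _).symm⟩, fun d _ => by simp⟩
    | succ n ih =>
      exact (ih.succ h).equiv (Fintype.equivOfCardEq (by simp [add_comm]))
  exact (this _).equiv (Fintype.equivFin ι).symm

end Abs

variable {N : ℕ} {B : Type*} [Ring B] [Algebra ℚ B]

/-- `N ^ m O` -/
def dpR (O : Subalgebra (ZN N) B) (m : ℕ) : NonUnitalSubring B where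
  carrier := dp O.toSubmodule m
  add_mem' := add_mem
  zero_mem' := zero_mem _
  mul_mem' ha hb := mul_mem_dp_left O (dp_le _ _ ha) hb
  neg_mem' := neg_mem

theorem LH.exists_rh [FiniteDimensional ℚ B] (hN : 2 ≤ N) {X : Type*} [CommGroup X] {θ : B → X}
    (h : LH N θ) {O : Subalgebra (ZN N) B} (hO : Lat N O.toSubmodule) :
    ∃ m₀, ∀ m, m₀ ≤ m → RH (dpR O m) θ := by
  obtain ⟨U, hU, V, hV, hUV⟩ := eventually_prod_iff.1 h
  obtain ⟨m₀, hm₀⟩ := exists_of_nr (hU.and hV) hO.fg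
  refine ⟨m₀ + 1, fun m hm => ⟨fun x hx => ?_, fun x y hx hy => ?_⟩⟩
  · obtain ⟨y, hy, e1, e2⟩ := exists_qinv hN hO.fg (by omega : 1 ≤ m) hx
    rw [add_sub_cancel] at e1 e2
    exact ⟨1 + y, by rwa [add_sub_cancel_left], e1, e2⟩
  · exact hUV (hm₀ x (dp_anti _ (by omega) hx)).1 (hm₀ y (dp_anti _ (by omega) hy)).2

theorem RH.lh {X : Type*} [CommGroup X] {θ : B → X} {I : NonUnitalSubring B} (h : RH I θ)
    (hI : ∀ᶠ x in nr N (1 : B), x - 1 ∈ I) : LH N θ :=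
  (hI.prod_mk hI).mono fun _ hp => h.hom _ _ hp.1 hp.2

theorem detStmt : DetStmt.{v, w} := by
  intro N hN B _ _ _ X _ θ h ι _ _
  obtain ⟨O, hO⟩ := exists_od N B
  obtain ⟨m, hm⟩ := h.exists_rh hN hO
  obtain ⟨Θ, h1, h2⟩ := hasDet (hm m le_rfl) ι
  refine ⟨Θ, h1.lh ?_, ?_⟩
  · refine eventually_all.2 fun i => eventually_all.2 fun j => ?_
    exact (nr_map (Matrix.entryAddMonoidHom B i j) 1).eventually (hO.ev_nr _ m)
  · have : ∀ᶠ d in nr N (1 : ι → B), ∀ i, d i - 1 ∈ dpR O m := eventually_all.2 fun i =>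
      (nr_map (Pi.evalAddMonoidHom (fun _ => B) i) 1).eventually (hO.ev_nr _ m)
    exact this.mono h2

end Crest.Agent.T24.In
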