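import Crest.Agent.T24.InG_71
import Crest.Agent.T24.InDet_71

/-!
# Row 24, inner step (helper71): germ invariance, germ determinant, reduction to one entry
-/

set_option autoImplicit false
set_option linter.unusedSectionVars false

namespace Crest.Agent.T24.In

open Filter Matrix

variable {N : ℕ} {B : Type*} [Ring B] [Algebra ℚ B] [FiniteDimensional ℚ B]
  {X : Type*} [CommGroup X] {θ : B → X} {α : Type*} {l : Filter α}

theorem LG.mul (h : LG N θ) {f g : α → B} (hf : Tendsto f l (ng N 1)) (hg : Tendsto g l (ng N 1)) :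
    ∀ᶠ i in l, θ (f i * g i) = θ (f i) * θ (g i) := (hf.prodMk hg).eventually h

theorem LG.one (h : LG N θ) : θ 1 = 1 := by
  have := (h.mul (ng_const (l := (⊤ : Filter Unit)) 1) (ng_const 1)).exists.choose_spec
  rw [mul_one] at this
  exact mul_eq_left.1 this.symm

theorem LG.pow (h : LG N θ) {f : α → B} (hf : Tendsto f l (ng N 1)) (n : ℕ) :
    ∀ᶠ i in l, θ (f i ^ n) = θ (f i) ^ n := by
  induction n with
  | zero => simp [h.one]
  | succ n ih =>
    filter_upwards [ih, h.mul (by simpa using ng_pow hf n) hf] with i h1 h2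
    rw [pow_succ, h2, h1, pow_succ]

theorem LG.comp (h : LG N θ) {C : Type*} [Ring C] [Algebra ℚ C] {φ : C → B}
    (h1 : Tendsto φ (ng N 1) (ng N 1)) (h2 : ∀ x y, φ (x * y) = φ x * φ y) :
    LG N fun x => θ (φ x) :=
  (h.mul (h1.comp tendsto_fst) (h1.comp tendsto_snd)).mono fun _ hp =>
    (congrArg θ (h2 _ _)).trans hp

theorem ng_hom {C : Type*} [Ring C] [Algebra ℚ C] (φ : C →+* B) :
    Tendsto φ (ng N 1) (ng N 1) := by
  simpa using ng_map (N := N) φ.toAddMonoidHom 1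

theorem LG.comp_hom (h : LG N θ) {C : Type*} [Ring C] [Algebra ℚ C] (φ : C →+* B) :
    LG N fun x => θ (φ x) := h.comp (ng_hom φ) (map_mul φ)

theorem LG.swap (hN : 2 ≤ N) (h : LG N θ) {x y : α → B} (hx : Tendsto x l (ng N 0))
    (hy : Tendsto y l (ng N 0)) : ∀ᶠ i in l, θ (1 + x i * y i) = θ (1 + y i * x i) := by
  have h1 : Tendsto (fun i => 1 + x i) l (ng N 1) := by simpa using ng_add (ng_const 1) hx
  have h2 : Tendsto (fun i => 1 - y i) l (ng N 1) := by simpa using ng_sub (ng_const 1) hy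
  have h0 : Tendsto (fun i => Ring.inverse (1 + x i) * x i) l (ng N 0) := by
    simpa using ng_mul (ng_inv hN h1) hx
  have h3 : Tendsto (fun i => 1 - Ring.inverse (1 + x i) * x i * (1 - y i)) l (ng N 1) := by
    simpa using ng_sub (ng_const 1) (ng_mul h0 h2)
  have h4 : Tendsto (fun i => 1 - (1 - y i) * (Ring.inverse (1 + x i) * x i)) l (ng N 1) := by
    simpa using ng_sub (ng_const 1) (ng_mul h2 h0)
  filter_upwards [h1.eventually (ng_isUnit hN), h.mul h2 h3, h.mul h4 h2, h.mul h1 h3,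
    h.mul h4 h1] with i hu a3 a4 a5 a6
  have e1 := Ring.mul_inverse_cancel _ hu
  have e2 := Ring.inverse_mul_cancel _ hu
  generalize Ring.inverse (1 + x i) = z at *
  generalize x i = x at *
  generalize y i = y at *
  have c1 : (1 + x) * (z * x) = x := by rw [← mul_assoc, e1, one_mul]
  have c2 : z * x * (1 + x) = x := by
    rw [mul_assoc, show x * (1 + x) = (1 + x) * x by noncomm_ring, ← mul_assoc, e2, one_mul]
  have a1 : 1 + x * y = (1 + x) * (1 - z * x * (1 - y)) := by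
    rw [mul_sub, ← mul_assoc, c1]; noncomm_ring
  have a2 : 1 + y * x = (1 - (1 - y) * (z * x)) * (1 + x) := by
    rw [sub_mul, mul_assoc, c2]; noncomm_ring
  rw [show (1 - y) * (1 - z * x * (1 - y)) = (1 - (1 - y) * (z * x)) * (1 - y) by noncomm_ring,
    a4, mul_comm, mul_right_inj] at a3
  rw [a1, a2, a5, a6, a3, mul_comm]

/-- germ invariance under every unit -/
theorem LG.inv (hN : 2 ≤ N) (h : LG N θ) {s s' : B} (hs : s' * s = 1) :
    ∀ᶠ x in ng N (1 : B), θ (s * x * s') = θ x := by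
  obtain ⟨U, hU, V, hV, H⟩ := eventually_prod_iff.1
    (h.swap hN (l := ng N 0 ×ˢ ng N 0) tendsto_fst tendsto_snd)
  obtain ⟨k, hk⟩ := ((tendsto_small s').eventually hV).exists
  have h0 : ((N : ℚ) / (N + 1)) ^ k ≠ 0 := by positivity
  generalize ((N : ℚ) / (N + 1)) ^ k = t at *
  have h1 : Tendsto (fun x : B => (t⁻¹ • s) * (x - 1)) (ng N 1) (ng N 0) := by
    simpa using ng_mul (ng_const (t⁻¹ • s)) (ng_sub (tendsto_id (x := ng N (1 : B))) (ng_const 1))
  have hs' : s * s' = 1 := (dedekind (B := B)).mul_eq_one_symm hs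
  filter_upwards [h1.eventually hU] with x hx
  have := H hx hk
  simp only [smul_mul_assoc, mul_smul_comm, smul_smul, mul_inv_cancel₀ h0, inv_mul_cancel₀ h0,
    one_smul] at this
  rw [← mul_assoc, hs, one_mul, add_sub_cancel, mul_sub, sub_mul, mul_one, hs',
    add_sub_cancel] at this
  exact this

theorem LG.kill (hN : 2 ≤ N) (h : LG N θ) {s s' : B} (hs : s' * s = 1) {f : α → B}
    (hf : Tendsto f l (ng N 1)) (e : ∀ i, s * f i * s' = f i * f i) : ∀ᶠ i in l, θ (f i) = 1 := by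
  filter_upwards [hf.eventually (h.inv hN hs), h.mul hf hf] with i h1 h2
  rw [e, h2] at h1
  exact mul_eq_left.1 h1

section Block

variable {m n : Type*} [Fintype m] [DecidableEq m] [Fintype n] [DecidableEq n]

/-- lower factor -/
noncomputable def lC (A : Matrix (m ⊕ n) (m ⊕ n) B) : Matrix n m B :=
  A.toBlocks₂₁ * Ring.inverse A.toBlocks₁₁

/-- upper factor -/
noncomputable def lB (A : Matrix (m ⊕ n) (m ⊕ n) B) : Matrix m n B :=
  Ring.inverse A.toBlocks₁₁ * A.toBlocks₁₂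

/-- Schur complement -/
noncomputable def lD (A : Matrix (m ⊕ n) (m ⊕ n) B) : Matrix n n B :=
  A.toBlocks₂₂ - lC A * A.toBlocks₁₂

theorem eq_ldu {A : Matrix (m ⊕ n) (m ⊕ n) B} (h : IsUnit A.toBlocks₁₁) :
    A = ldu (lC A) A.toBlocks₁₁ (lD A) (lB A) := by
  rw [ldu, lB, lD, Matrix.mul_assoc (lC A), ← Matrix.mul_assoc A.toBlocks₁₁,
    Ring.mul_inverse_cancel _ h, Matrix.one_mul, add_sub_cancel, lC, Matrix.mul_assoc,
    Ring.inverse_mul_cancel _ h, Matrix.mul_one, fromBlocks_toBlocks]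

theorem lD_ldu (c : Matrix n m B) {a : Matrix m m B} (d : Matrix n n B) (b : Matrix m n B)
    (h : IsUnit a) : lD (ldu c a d b) = d := by
  simp only [lD, lC, ldu, toBlocks_fromBlocks₁₁, toBlocks_fromBlocks₁₂, toBlocks_fromBlocks₂₁,
    toBlocks_fromBlocks₂₂]
  rw [Matrix.mul_assoc (c * a), ← Matrix.mul_assoc (Ring.inverse a), Ring.inverse_mul_cancel _ h,
    Matrix.one_mul, add_sub_cancel_left]

theorem ng_blocks {a : α → Matrix m m B} {b : α → Matrix m n B} {c : α → Matrix n m B}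
    {d : α → Matrix n n B} (ha : Tendsto a l (ng N 1)) (hb : Tendsto b l (ng N 0))
    (hc : Tendsto c l (ng N 0)) (hd : Tendsto d l (ng N 1)) :
    Tendsto (fun i => fromBlocks (a i) (b i) (c i) (d i)) l (ng N 1) := by
  rw [← fromBlocks_one]
  refine ng_mat.2 ?_
  rintro (i | i) (j | j)
  exacts [ng_mat.1 ha i j, ng_mat.1 hb i j, ng_mat.1 hc i j, ng_mat.1 hd i j]

theorem ng_ldu (hN : 2 ≤ N) {f : α → Matrix (m ⊕ n) (m ⊕ n) B} (hf : Tendsto f l (ng N 1)) :
    Tendsto (fun i => (f i).toBlocks₁₁) l (ng N 1) ∧ Tendsto (fun i => lB (f i)) l (ng N 0) ∧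
      Tendsto (fun i => lC (f i)) l (ng N 0) ∧ Tendsto (fun i => lD (f i)) l (ng N 1) := by
  rw [← fromBlocks_one] at hf
  have h1 : Tendsto (fun i => (f i).toBlocks₁₁) l (ng N 1) :=
    ng_mat.2 fun i j => ng_mat.1 hf (.inl i) (.inl j)
  have h2 : Tendsto (fun i => (f i).toBlocks₁₂) l (ng N 0) :=
    ng_mat.2 fun i j => ng_mat.1 hf (.inl i) (.inr j)
  have h3 : Tendsto (fun i => (f i).toBlocks₂₁) l (ng N 0) :=
    ng_mat.2 fun i j => ng_mat.1 hf (.inr i) (.inl j)
  have h4 : Tendsto (fun i => (f i).toBlocks₂₂) l (ng N 1) :=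
    ng_mat.2 fun i j => ng_mat.1 hf (.inr i) (.inr j)
  have h0 := ng_inv (B := Matrix m m B) hN h1
  have h5 : Tendsto (fun i => lC (f i)) l (ng N 0) := by
    have := ng_matmul h3 h0
    rwa [Matrix.zero_mul] at this
  have h6 := ng_matmul h0 h2
  have h7 := ng_sub h4 (ng_matmul h5 h2)
  rw [Matrix.mul_zero] at h6
  rw [Matrix.mul_zero, sub_zero] at h7
  exact ⟨h1, h6, h5, h7⟩

theorem ldu_prod {A A' : Matrix (m ⊕ n) (m ⊕ n) B} (h : IsUnit A.toBlocks₁₁)
    (h' : IsUnit A'.toBlocks₁₁) (h3 : IsUnit (1 + lB A * lC A')) :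
    (A * A').toBlocks₁₁ = A.toBlocks₁₁ * (1 + lB A * lC A') * A'.toBlocks₁₁ ∧
    lD (A * A') = lD A * lD (fromBlocks (1 + lB A * lC A') (lB A) (lC A') 1) * lD A' ∧
    lD (fromBlocks (1 + lB A * lC A') (lB A) (lC A') 1) * (1 + lC A' * lB A) = 1 := by
  have e := eq_ldu (A := fromBlocks (1 + lB A * lC A') (lB A) (lC A') 1)
    (by rwa [toBlocks_fromBlocks₁₁])
  rw [toBlocks_fromBlocks₁₁] at e
  have e1 := ldu_mul (c₁ := lC A) (d₁ := lD A) (d₂ := lD A') (b₂ := lB A')
    (Ring.inverse_mul_cancel _ h) (Ring.mul_inverse_cancel _ h') e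
  rw [← eq_ldu h, ← eq_ldu h'] at e1
  refine ⟨by rw [e1]; rfl, by rw [e1, lD_ldu _ _ _ ((h.mul h3).mul h')], ?_⟩
  simp only [lD, lC.eq_1 (fromBlocks _ _ _ _), toBlocks_fromBlocks₁₁, toBlocks_fromBlocks₁₂,
    toBlocks_fromBlocks₂₁, toBlocks_fromBlocks₂₂]
  have e2 := Ring.inverse_mul_cancel _ h3
  generalize Ring.inverse (1 + lB A * lC A') = z at *
  have : lB A * (1 + lC A' * lB A) = (1 + lB A * lC A') * lB A := by
    simp only [Matrix.mul_add, Matrix.add_mul, Matrix.mul_assoc, Matrix.mul_one, Matrix.one_mul]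
  rw [sub_mul, one_mul, Matrix.mul_assoc, this, Matrix.mul_assoc, ← Matrix.mul_assoc z, e2,
    Matrix.one_mul, add_sub_cancel_right]

theorem blockG (hN : 2 ≤ N) {θ₁ : Matrix m m B → X} {θ₂ : Matrix n n B → X} (h₁ : LG N θ₁)
    (h₂ : LG N θ₂) (h : ∀ᶠ p : Matrix m n B × Matrix n m B in ng N 0 ×ˢ ng N 0,
      θ₁ (1 + p.1 * p.2) = θ₂ (1 + p.2 * p.1)) :
    LG N fun A : Matrix (m ⊕ n) (m ⊕ n) B => θ₁ A.toBlocks₁₁ * θ₂ (lD A) := by
  obtain ⟨a1, b1, -, d1⟩ := ng_ldu hN (tendsto_fst (f := ng N (1 : Matrix (m ⊕ n) (m ⊕ n) B))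
    (g := ng N (1 : Matrix (m ⊕ n) (m ⊕ n) B)))
  obtain ⟨a2, -, c2, d2⟩ := ng_ldu hN (tendsto_snd (f := ng N (1 : Matrix (m ⊕ n) (m ⊕ n) B))
    (g := ng N (1 : Matrix (m ⊕ n) (m ⊕ n) B)))
  have a3 := ng_add (ng_const 1) (ng_matmul b1 c2)
  have a4 := ng_add (ng_const 1) (ng_matmul c2 b1)
  rw [Matrix.mul_zero, add_zero] at a3 a4
  obtain ⟨-, -, -, d3⟩ := ng_ldu hN (ng_blocks a3 b1 c2 (ng_const 1))
  filter_upwards [a1.eventually (ng_isUnit hN), a2.eventually (ng_isUnit hN),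
    a3.eventually (ng_isUnit hN), (b1.prodMk c2).eventually h, h₁.mul a1 a3,
    h₁.mul (ng_mul_one a1 a3) a2, h₂.mul d1 d3, h₂.mul (ng_mul_one d1 d3) d2, h₂.mul d3 a4]
    with p u1 u2 u3 k1 k2 k3 k4 k5 k6
  obtain ⟨e1, e2, e3⟩ := ldu_prod u1 u2 u3
  rw [e3, h₂.one, ← k1] at k6
  rw [e1, e2, k3, k2, k5, k4, eq_inv_of_mul_eq_one_left k6.symm]
  simp only [mul_assoc, mul_comm, mul_left_comm, mul_inv_cancel_left]

end Block

/-- `d` at the place `i`, `1` elsewhere -/
def En {ι : Type*} [DecidableEq ι] (i : ι) (d : B) : Matrix ι ι B :=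
  diagonal (Function.update 1 i d)

section En
variable {ι : Type*} [Fintype ι] [DecidableEq ι]

theorem En_mul (i : ι) (a b : B) : En i (a * b) = En i a * En i b := by
  rw [En, En, En, diagonal_mul_diagonal]
  congr 1; ext j
  by_cases h : j = i <;> simp [h]

theorem ng_diagonal {d : α → ι → B} (h : Tendsto d l (ng N 1)) :
    Tendsto (fun i => diagonal (d i)) l (ng N 1) := ng_lin (diagonalAddMonoidHom ι B) h

theorem ng_update (i : ι) :
    Tendsto (fun d : B => Function.update (1 : ι → B) i d) (ng N 1) (ng N 1) :=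
  ng_pi fun j => by
    by_cases h : j = i
    · subst h; simp only [Function.update_self]; exact tendsto_id
    · simpa [h] using ng_const 1

theorem ng_En (i : ι) : Tendsto (En i : B → _) (ng N 1) (ng N 1) := ng_diagonal (ng_update i)

theorem LG.En_eq (hN : 2 ≤ N) {Φ : Matrix ι ι B → X} (h : LG N Φ) (i j : ι) :
    ∀ᶠ d in ng N (1 : B), Φ (En i d) = Φ (En j d) := by
  filter_upwards [(ng_En j).eventually (h.inv hN (Matrix.swap_mul_self (R := B) i j))] with d hd
  rw [← hd, Matrix.swap, Equiv.Perm.permMatrix, PEquiv.toMatrix_toPEquiv_mul,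
    PEquiv.mul_toMatrix_toPEquiv, submatrix_submatrix, Equiv.symm_swap, En, En, Function.comp_id,
    Function.id_comp, submatrix_diagonal_equiv]
  congr 2; ext k
  by_cases h1 : k = i
  · simp [h1]
  · have : Equiv.swap i j k ≠ j := fun e =>
      h1 ((Equiv.swap i j).injective (e.trans (Equiv.swap_apply_left i j).symm))
    simp [h1, this]

end En

variable (N θ) in
/-- a germ determinant -/
def GDet (ι : Type*) [Fintype ι] [DecidableEq ι] : Prop :=
  ∃ Θ : Matrix ι ι B → X, LG N Θ ∧ ∀ᶠ d in ng N (1 : ι → B), Θ (diagonal d) = ∏ i, θ (d i)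

theorem ng_sub_equiv {ι κ : Type*} [Fintype ι] [DecidableEq ι] [Fintype κ] [DecidableEq κ]
    (e : ι ≃ κ) : Tendsto (fun A : Matrix κ κ B => A.submatrix e e) (ng N 1) (ng N 1) := by
  rw [← submatrix_one_equiv e]
  exact ng_mat.2 fun i j => ng_mat.1 tendsto_id (e i) (e j)

theorem LG.equiv {ι κ : Type*} [Fintype ι] [DecidableEq ι] [Fintype κ] [DecidableEq κ]
    (e : ι ≃ κ) {Θ : Matrix ι ι B → X} (h : LG N Θ) :
    LG N fun A : Matrix κ κ B => Θ (A.submatrix e e) :=
  h.comp (ng_sub_equiv e) fun _ _ => (submatrix_mul_equiv _ _ _ e _).symm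

theorem ng_apply {ι : Type*} (i : ι) : Tendsto (fun d : ι → B => d i) (ng N 1) (ng N 1) :=
  ng_map (Pi.evalAddMonoidHom (fun _ => B) i) 1

theorem GDet.equiv {ι κ : Type*} [Fintype ι] [DecidableEq ι] [Fintype κ] [DecidableEq κ]
    (e : ι ≃ κ) (h : GDet N θ ι) : GDet N θ κ := by
  obtain ⟨Θ, h1, h2⟩ := h
  refine ⟨_, h1.equiv e, ?_⟩
  have : Tendsto (fun d : κ → B => d ∘ e) (ng N 1) (ng N 1) := ng_pi fun i => ng_apply (e i)
  filter_upwards [this.eventually h2] with d hd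
  rw [submatrix_diagonal_equiv, hd]
  exact e.prod_comp fun i => θ (d i)

theorem ng_unit : Tendsto (fun A : Matrix Unit Unit B => A () ()) (ng N 1) (ng N 1) :=
  ng_mat.1 tendsto_id () ()

theorem GDet.succ (hN : 2 ≤ N) (h : LG N θ) {ι : Type*} [Fintype ι] [DecidableEq ι]
    (H : GDet N θ ι) : GDet N θ (Unit ⊕ ι) := by
  obtain ⟨Θ, h1, h2⟩ := H
  have h0 : LG N fun A : Matrix Unit Unit B => θ (A () ()) :=
    h.comp ng_unit fun x y => by simp [mul_apply]
  refine ⟨_, blockG hN h0 h1 ?_, ?_⟩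
  · rcases isEmpty_or_nonempty ι with hι | ⟨⟨i₀⟩⟩
    · refine Eventually.of_forall fun p => ?_
      rw [Subsingleton.elim (1 + p.2 * p.1) 1, h1.one]
      simp [mul_apply, h.one]
    let b' : Matrix Unit ι B → Matrix ι ι B := fun b => of fun i j => if i = i₀ then b () j else 0
    let c' : Matrix ι Unit B → Matrix ι ι B := fun c => of fun i j => if j = i₀ then c i () else 0
    have hb' : Tendsto b' (ng N 0) (ng N 0) := ng_mat.2 fun i j => by
      simp only [b', of_apply]; split_ifs; exacts [ng_mat.1 tendsto_id () j, ng_const 0]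
    have hc' : Tendsto c' (ng N 0) (ng N 0) := ng_mat.2 fun i j => by
      simp only [c', of_apply]; split_ifs; exacts [ng_mat.1 tendsto_id i (), ng_const 0]
    have a3 := ng_add (ng_const 1) (ng_matmul (N := N) (l := ng N (0 : Matrix Unit ι B) ×ˢ
      ng N (0 : Matrix ι Unit B)) tendsto_fst tendsto_snd)
    rw [Matrix.mul_zero, add_zero] at a3
    filter_upwards [h1.swap hN (hc'.comp tendsto_snd) (hb'.comp tendsto_fst),
      ((ng_update i₀).comp (ng_unit.comp a3)).eventually h2] with ⟨b, c⟩ k1 k2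
    have e1 : c' c * b' b = c * b := by
      ext i j; simp [b', c', mul_apply]
    have e2 : 1 + b' b * c' c =
        diagonal (Function.update 1 i₀ ((1 + b * c : Matrix Unit Unit B) () ())) := by
      ext i j
      by_cases a1 : i = i₀ <;> by_cases a2 : j = i₀
      · subst a1 a2; simp [b', c', mul_apply]
      · subst a1; simp [b', c', mul_apply, a2, Ne.symm a2]
      · subst a2; simp [b', c', mul_apply, a1]
      · simp [b', c', mul_apply, a1, a2, diagonal_apply, one_apply]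
    simp only [Function.comp] at k1 k2 ⊢
    rw [← e1, k1, e2, k2, Finset.prod_eq_single i₀]
    · simp
    · intro i _ hi; simp [hi, h.one]
    · simp
  · have : Tendsto (fun d : Unit ⊕ ι → B => fun i => d (.inr i)) (ng N 1) (ng N 1) :=
      ng_pi fun i => ng_apply _
    filter_upwards [this.eventually h2] with d hd
    simp [lD, toBlocks₁₂_diagonal, toBlocks₂₂_diagonal, toBlocks₁₁_diagonal, hd]

/-- the relative Dieudonné determinant, germ form -/
theorem gDet (hN : 2 ≤ N) (h : LG N θ) (ι : Type*) [Fintype ι] [DecidableEq ι] : GDet N θ ι := by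
  have : ∀ n, GDet N θ (Fin n) := fun n => by
    induction n with
    | zero => exact ⟨fun _ => 1, .of_forall fun _ => (mul_one _).symm, .of_forall fun _ => by simp⟩
    | succ n ih => exact (ih.succ hN h).equiv (Fintype.equivOfCardEq (by simp [add_comm]))
  exact (this _).equiv (Fintype.equivFin ι).symm

variable (N B X) in
/-- reduction to one diagonal entry -/
def GRed (ι : Type*) [Fintype ι] [DecidableEq ι] : Prop :=
  ∀ Φ : Matrix ι ι B → X, LG N Φ → ∀ i₀ : ι, ∀ U ∈ ng N (1 : B),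
    ∀ᶠ A in ng N (1 : Matrix ι ι B), ∃ d ∈ U, Φ A = Φ (En i₀ d)

theorem GRed.equiv {ι κ : Type*} [Fintype ι] [DecidableEq ι] [Fintype κ] [DecidableEq κ]
    (e : ι ≃ κ) (h : GRed N B X ι) : GRed N B X κ := by
  intro Φ hΦ i₀ U hU
  filter_upwards [(ng_sub_equiv e).eventually (h _ (hΦ.equiv e.symm) (e.symm i₀) U hU)]
    with A ⟨d, hd, hA⟩
  refine ⟨d, hd, ?_⟩
  rw [submatrix_submatrix, e.self_comp_symm, submatrix_id_id, En, submatrix_diagonal_equiv] at hA
  rw [hA, En]
  congr 2; ext k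
  by_cases h1 : k = i₀ <;> simp [h1]

theorem GRed.succ (hN : 2 ≤ N) {ι : Type*} [Fintype ι] [DecidableEq ι] (H : GRed N B X ι) :
    GRed N B X (Unit ⊕ ι) := by
  intro Φ h i₀ U hU
  obtain ⟨a1, b1, c1, d1⟩ := ng_ldu (m := Unit) (n := ι) (B := B) hN (l := ng N 1) tendsto_id
  have t1 := ng_blocks (ng_const 1) (ng_const 0) c1 (ng_const 1)
  have t2 := ng_blocks (ng_const 1) b1 (ng_const 0) (ng_const 1)
  have t3 := ng_blocks (n := ι) a1 (ng_const 0) (ng_const 0) (ng_const 1)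
  have t4 := ng_blocks (m := Unit) (ng_const 1) (ng_const 0) (ng_const 0) d1
  let s : Matrix (Unit ⊕ ι) (Unit ⊕ ι) B := fromBlocks 1 0 0 ((2 : ℚ) • 1)
  let s' : Matrix (Unit ⊕ ι) (Unit ⊕ ι) B := fromBlocks 1 0 0 ((2 : ℚ)⁻¹ • 1)
  have k1 := h.kill hN (s := s) (s' := s') (by simp [s, s', fromBlocks_multiply, smul_smul]) t1
    fun A => by simp [s, s', fromBlocks_multiply, smul_smul, ← two_smul ℚ]
  have k2 := h.kill hN (s := s') (s' := s) (by simp [s, s', fromBlocks_multiply, smul_smul]) t2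
    fun A => by simp [s, s', fromBlocks_multiply, smul_smul, ← two_smul ℚ]
  have key : ∀ᶠ A in ng N (1 : Matrix (Unit ⊕ ι) (Unit ⊕ ι) B),
      Φ A = Φ (En i₀ (A.toBlocks₁₁ () ())) * Φ (fromBlocks 1 0 0 (lD A)) := by
    filter_upwards [k1, k2, a1.eventually (ng_isUnit hN), h.mul t3 t4, h.mul t1 (ng_mul_one t3 t4),
      h.mul (ng_mul_one t1 (ng_mul_one t3 t4)) t2,
      (ng_unit.comp a1).eventually (h.En_eq hN (.inl ()) i₀)] with A k1 k2 u k3 k4 k5 k6
    simp only [id, Function.comp] at *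
    rw [k4, k3, k1, k2, one_mul, mul_one] at k5
    have e1 : fromBlocks A.toBlocks₁₁ 0 0 1 = En (Sum.inl () : Unit ⊕ ι) (A.toBlocks₁₁ () ()) := by
      ext (i | i) (j | j) <;> simp [En, one_apply, diagonal_apply]
    rw [← k6, ← e1, ← k5]
    conv_lhs => rw [eq_ldu u]
    simp [ldu, fromBlocks_multiply]
  rcases isEmpty_or_nonempty ι with hι | ⟨⟨j₀⟩⟩
  · filter_upwards [key, (ng_unit.comp a1).eventually hU] with A hA hA'
    refine ⟨_, hA', ?_⟩
    rw [hA, Subsingleton.elim (lD A) 1, fromBlocks_one, h.one, mul_one]; rfl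
  have h' : LG N fun d : Matrix ι ι B => Φ (fromBlocks 1 0 0 d) :=
    h.comp (ng_blocks (ng_const 1) (ng_const 0) (ng_const 0) tendsto_id)
      fun _ _ => by simp [fromBlocks_multiply]
  obtain ⟨V, hV, W, hW, hVW⟩ := eventually_prod_iff.1
    (((ng_mul_one tendsto_fst tendsto_snd).eventually hU).and
      (h.mul ((ng_En i₀).comp tendsto_fst) ((ng_En i₀).comp tendsto_snd)))
  filter_upwards [key, (ng_unit.comp a1).eventually hV,
    d1.eventually (H _ h' j₀ _ (hW.and (h.En_eq hN (.inr j₀) i₀)))] with A hA hA' ⟨d, hd, e⟩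
  obtain ⟨k7, k8⟩ := hVW hA' hd.1
  refine ⟨_, k7, ?_⟩
  have e1 : fromBlocks 1 0 0 (En j₀ d) = En (Sum.inr j₀ : Unit ⊕ ι) d := by
    ext (i | i) (j | j) <;> simp [En, diagonal_apply, Function.update_apply]
  simp only [id, Function.comp] at *
  rw [En_mul, k8, hA, e, e1, hd.2]

theorem gRed (hN : 2 ≤ N) (ι : Type*) [Fintype ι] [DecidableEq ι] : GRed N B X ι := by
  have : ∀ n, GRed N B X (Fin n) := fun n => by
    induction n with
    | zero => exact fun _ _ i => i.elim0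
    | succ n ih => exact (ih.succ hN).equiv (Fintype.equivOfCardEq (by simp [add_comm]))
  exact (this _).equiv (Fintype.equivFin ι).symm

end Crest.Agent.T24.In
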