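import Crest.Agent.T24.InG_71
import Crest.Agent.T24.InCtr_50

/-!
# Row 24, inner step (helper50): the germ statement in valuation words
-/

set_option autoImplicit false

namespace Crest.Agent.T24.In

open Filter Module NumberField
open Crest.Agent.T24.Csa Crest.Agent.T24.Asa

universe u v w

theorem finite_over {K : Type*} [Field K] [NumberField K] {N : ℕ} (hN : N ≠ 0) :
    {v : Pl K | (N : 𝓞 K) ∈ v.asIdeal}.Finite := by
  have h0 : Ideal.span {(N : 𝓞 K)} ≠ 0 := by
    rwa [Ne, Ideal.zero_eq_bot, Ideal.span_singleton_eq_bot, Nat.cast_eq_zero]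
  exact (Ideal.finite_factors h0).subset fun v hv => Ideal.dvd_span_singleton.2 hv

theorem germStmt (hW : GermW.{u, v, w}) (hV : ValG.{u, v, 0}) : GermStmt.{u, v, w} := by
  intro K _ _ B _ _ _ _ _ e S m ε hε A _ n hn hA θ hθ
  let _ : Algebra ℚ B := ((algebraMap K B).comp (algebraMap ℚ K)).toAlgebra'
    fun c x => Algebra.commutes _ _
  obtain ⟨N, hN, hs, hS⟩ := splStmt K B S
  have hb := hV N hN K B _ e 1
  have h1 : ∀ᶠ x in ng N (1 : B), Cl e S m ε x := hb.eventually_iff.2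
    ⟨(m, ε), hε, fun x hx => ⟨fun v hv i => hx.1 v (hS v hv) i, hx.2⟩⟩
  obtain ⟨p, hp, H⟩ := hb.eventually_iff.1 (hW N hN K B hs A n hn hA θ
    ((h1.prod_mk h1).mono fun q hq => hθ _ _ hq.1 hq.2))
  have hfin := finite_over (K := K) (N := N) (by omega)
  exact ⟨hfin.toFinset, p.1, p.2, hp, fun x hx =>
    H ⟨fun v hv i => hx.1 v (hfin.mem_toFinset.2 hv) i, hx.2⟩⟩

end Crest.Agent.T24.In
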