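import Crest.Agent.T24.InDef_71

/-!
# Row 24, inner step: the leaves of pure ring theory INV, RED, ROOT (helper3)
-/

set_option autoImplicit false

namespace Crest.Agent.T24.In

open Filter

universe v w

namespace R3

variable {N : ℕ}

section ring
variable {B : Type*} [Ring B] [Algebra ℚ B] {X : Type*} [CommGroup X] {θ : B → X}
  {O : Subalgebra (ZN N) B} {m : ℕ}

theorem qadd_mem {x y : B} (hx : x ∈ dp O.toSubmodule m) (hy : y ∈ dp O.toSubmodule m) :
    x + y + x * y ∈ dp O.toSubmodule m :=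
  add_mem (add_mem hx hy) (mul_mem_dp_right O hx (dp_le _ _ hy))

omit [Algebra ℚ B] in
theorem one_add_mul (x y : B) : (1 + x) * (1 + y) = 1 + (x + y + x * y) := by noncomm_ring

/-- `θ` is a homomorphism on `1 + N ^ m O` -/
def Hom (O : Subalgebra (ZN N) B) (m : ℕ) (θ : B → X) : Prop :=
  ∀ x ∈ dp O.toSubmodule m, ∀ y ∈ dp O.toSubmodule m, θ ((1 + x) * (1 + y)) = θ (1 + x) * θ (1 + y)

theorem Hom.mono (h : Hom O m θ) {m' : ℕ} (hm : m ≤ m') : Hom O m' θ :=
  fun x hx y hy => h x (dp_anti _ hm hx) y (dp_anti _ hm hy)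

theorem exists_hom (h : LH N θ) (hO : O.toSubmodule.FG) : ∃ m, 1 ≤ m ∧ Hom O m θ := by
  obtain ⟨pa, ha, pb, hb, h⟩ := eventually_prod_iff.1 h
  obtain ⟨a, ha⟩ := exists_of_nr ha hO
  obtain ⟨b, hb⟩ := exists_of_nr hb hO
  exact ⟨a + b + 1, by omega, fun x hx y hy => h
    (ha _ (by rw [add_sub_cancel_left]; exact dp_anti _ (by omega) hx))
    (hb _ (by rw [add_sub_cancel_left]; exact dp_anti _ (by omega) hy))⟩

theorem Hom.one (h : Hom O m θ) : θ 1 = 1 := by
  have := h 0 (zero_mem _) 0 (zero_mem _)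
  simpa using this

/-- `θ (1 + x l) = θ (1 + l x)` -/
theorem Hom.swap [FiniteDimensional ℚ B] (hN : 2 ≤ N) (hO : O.toSubmodule.FG) (hm : 1 ≤ m)
    (h : Hom O m θ) {x l : B} (hx : x ∈ dp O.toSubmodule m) (hl : l ∈ dp O.toSubmodule m) :
    θ (1 + x * l) = θ (1 + l * x) := by
  obtain ⟨c, hc, c1, c2⟩ := exists_inv hN hO (dp_anti _ hm hx)
  have hu : 1 + -l ∈ O := add_mem O.one_mem (neg_mem (dp_le _ _ hl))
  have h1 : -(c * x * (1 + -l)) ∈ dp O.toSubmodule m :=
    neg_mem (mul_mem_dp_right O (mul_mem_dp_left O hc hx) hu)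
  have h2 : -((1 + -l) * (c * x)) ∈ dp O.toSubmodule m :=
    neg_mem (mul_mem_dp_left O hu (mul_mem_dp_left O hc hx))
  have e1 : 1 + x * l = (1 + x) * (1 + -(c * x * (1 + -l))) := by
    have : (1 + x) * (c * x * (1 + -l)) = x * (1 + -l) := by rw [← mul_assoc, ← mul_assoc, c1, one_mul]
    rw [mul_add, mul_neg, this]; noncomm_ring
  have e2 : 1 + l * x = (1 + -((1 + -l) * (c * x))) * (1 + x) := by
    have : (1 + -l) * (c * x) * (1 + x) = (1 + -l) * x := by
      rw [mul_assoc, mul_assoc, show x * (1 + x) = (1 + x) * x by noncomm_ring, ← mul_assoc c, c2,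
        one_mul]
    rw [add_mul, neg_mul, this]; noncomm_ring
  have e3 : (1 + -((1 + -l) * (c * x))) * (1 + -l) = (1 + -l) * (1 + -(c * x * (1 + -l))) := by
    noncomm_ring
  have a := h _ h2 _ (neg_mem hl)
  rw [e3, h _ (neg_mem hl) _ h1, mul_comm] at a
  rw [e1, e2, h _ hx _ h1, h _ h2 _ hx, mul_right_cancel a, mul_comm]

theorem binom {h δ : B} {n : ℕ} (hh : h ∈ O) (hδ : δ ∈ dp O.toSubmodule n) (hc : Commute h δ)
    (r : ℕ) : (h + δ) ^ (r + 1) - h ^ (r + 1) - (r + 1 : ℕ) • (h ^ r * δ) ∈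
      dp O.toSubmodule (n + n) := by
  induction r with
  | zero => simp
  | succ r ih =>
    have a := add_mem (mul_mem_dp_right O ih (add_mem hh (dp_le _ _ hδ)))
      (nsmul_mem (mul_mem_dp_left O (O.pow_mem hh r) (mul_mem_dp O hδ hδ)) (r + 1))
    convert a using 1
    have e : h ^ r * δ * h = h ^ (r + 1) * δ := by rw [mul_assoc, ← hc.eq, ← mul_assoc, ← pow_succ]
    rw [pow_succ (h + δ) (r + 1), pow_succ h (r + 1), sub_mul, sub_mul, smul_mul_assoc,
      mul_add (h ^ r * δ), e, mul_add (h ^ (r + 1)), mul_assoc (h ^ r), succ_nsmul _ (r + 1),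
      smul_add]
    abel

theorem pow_sub_one_mem {h : B} (hh : h - 1 ∈ dp O.toSubmodule m) (r : ℕ) :
    h ^ r - 1 ∈ dp O.toSubmodule m := by
  induction r with
  | zero => simp
  | succ r ih =>
    have a := qadd_mem ih hh
    convert a using 1
    rw [pow_succ]; noncomm_ring

omit [Ring B] [Algebra ℚ B] in
/-- division by `r` costs a bounded depth -/
theorem exists_div {V : Type*} [AddCommGroup V] [Module ℚ V] (N : ℕ) (r : ℚ) : ∃ k : ℕ,
    ∀ (Λ : Submodule (ZN N) V) (n : ℕ), ∀ x ∈ dp Λ (n + k), r • x ∈ dp Λ n := by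
  obtain ⟨k, hk⟩ := exists_pow_mul_mem N r
  refine ⟨k, ?_⟩
  rintro Λ n _ ⟨x, hx, rfl⟩
  refine ⟨_, zsmul_mem hk hx, ?_⟩
  rw [smul_smul, smul_smul, pow_add]; congr 1; ring

end ring

section mat
variable {B : Type*} [Ring B] [Algebra ℚ B] {ι : Type} [Fintype ι] [DecidableEq ι]
  {X : Type*} [CommGroup X] {Φ : Matrix ι ι B → X} {O : Subalgebra (ZN N) B} {m : ℕ}

variable (ι) in
/-- matrices over an order -/
def mo (O : Subalgebra (ZN N) B) : Subalgebra (ZN N) (Matrix ι ι B) where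
  carrier := {A | ∀ i j, A i j ∈ O}
  mul_mem' ha hb i j := by
    rw [Matrix.mul_apply]; exact sum_mem fun k _ => mul_mem (ha i k) (hb k j)
  add_mem' ha hb i j := add_mem (ha i j) (hb i j)
  algebraMap_mem' c i j := by
    rw [Matrix.algebraMap_matrix_apply]
    split_ifs
    · exact O.algebraMap_mem c
    · exact zero_mem _

theorem mo_fg (hO : O.toSubmodule.FG) : (mo ι O).toSubmodule.FG := by
  have h := Submodule.fg_pi (ι := ι) fun _ => Submodule.fg_pi (ι := ι) fun _ => hO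
  have e : (mo ι O).toSubmodule =
      Submodule.pi Set.univ fun _ : ι => Submodule.pi Set.univ fun _ : ι => O.toSubmodule :=
    Submodule.ext fun _ => ⟨fun h i _ j _ => h i j, fun h i j => h i trivial j trivial⟩
  rw [e]; exact h

theorem mem_mo {A : Matrix ι ι B} :
    A ∈ dp (mo ι O).toSubmodule m ↔ ∀ i j, A i j ∈ dp O.toSubmodule m := by
  refine ⟨?_, fun h => ?_⟩
  · rintro ⟨Y, hY, rfl⟩ i j
    exact ⟨Y i j, hY i j, rfl⟩
  · choose Y h1 h2 using h
    exact ⟨Matrix.of Y, h1, Matrix.ext h2⟩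

theorem single_mem (i j : ι) {x : B} (hx : x ∈ dp O.toSubmodule m) :
    Matrix.single i j x ∈ dp (mo ι O).toSubmodule m := mem_mo.2 fun a b => by
  by_cases h : i = a ∧ j = b
  · obtain ⟨rfl, rfl⟩ := h; rwa [Matrix.single_apply_same]
  · rw [Matrix.single_apply_of_ne _ _ _ _ _ h]; exact zero_mem _

theorem split {x : B} (hx : x ∈ dp O.toSubmodule (m + m)) : ∃ c ∈ dp O.toSubmodule m,
    ∃ y ∈ dp O.toSubmodule m, c * y = x ∧ y * c = x := by
  obtain ⟨z, hz, rfl⟩ := hx
  refine ⟨_, smul_mem_dp m O.one_mem, _, smul_mem_dp m hz, ?_, ?_⟩ <;>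
    rw [smul_mul_smul_comm, ← pow_add] <;> simp

/-- deep elementary matrices are killed -/
theorem elem (h : Hom (mo ι O) m Φ) {i j : ι} (hij : i ≠ j) {x : B}
    (hx : x ∈ dp O.toSubmodule (m + m)) : Φ (1 + Matrix.single i j x) = 1 := by
  obtain ⟨c, hc, y, hy, e, -⟩ := split hx
  have hx' := dp_anti _ (Nat.le_add_right m m) hx
  have a := h _ (single_mem i i hc) _ (single_mem i j hy)
  have b := h _ (single_mem i j (add_mem hy hx')) _ (single_mem i i hc)
  have d := h _ (single_mem i j hy) _ (single_mem i j hx')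
  rw [one_add_mul, Matrix.single_mul_single_same, e] at a
  rw [one_add_mul, Matrix.single_mul_single_of_ne _ _ _ _ hij.symm, Matrix.single_add] at b
  rw [one_add_mul, Matrix.single_mul_single_of_ne _ _ _ _ hij.symm, add_zero] at d
  rw [d, add_zero, add_comm (_ + _) (Matrix.single i i c), ← add_assoc (Matrix.single i i c), a,
    mul_comm] at b
  simpa using b

/-- reduction to one diagonal entry -/
theorem red [FiniteDimensional ℚ B] (hN : 2 ≤ N) (hO : O.toSubmodule.FG) (hm : 1 ≤ m)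
    (h : Hom (mo ι O) m Φ) (i₀ : ι) {Z : Matrix ι ι B} (hZ : Z ∈ dp (mo ι O).toSubmodule (m + m)) :
    ∃ z ∈ dp O.toSubmodule (m + m), Φ (1 + Z) = Φ (1 + Matrix.single i₀ i₀ z) := by
  have h2 := h.mono (Nat.le_add_right m m)
  let P : Matrix ι ι B → Prop := fun Z => Z ∈ dp (mo ι O).toSubmodule (m + m) ∧
    ∃ z ∈ dp O.toSubmodule (m + m), Φ (1 + Z) = Φ (1 + Matrix.single i₀ i₀ z)
  have P0 : P 0 := ⟨zero_mem _, 0, zero_mem _, by simp⟩
  have Pm : ∀ Y Y', P Y → P Y' → P (Y + Y' + Y * Y') := by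
    rintro Y Y' ⟨a, z, hz, e⟩ ⟨a', z', hz', e'⟩
    refine ⟨qadd_mem a a', _, qadd_mem hz hz', ?_⟩
    rw [← one_add_mul, h2 _ a _ a', e, e', ← h2 _ (single_mem _ _ hz) _ (single_mem _ _ hz'),
      one_add_mul, Matrix.single_mul_single_same, ← Matrix.single_add, ← Matrix.single_add]
  have Ps : ∀ i j, ∀ x ∈ dp O.toSubmodule (m + m), P (Matrix.single i j x) := fun i j x hx => by
    refine ⟨single_mem i j hx, ?_⟩
    rcases eq_or_ne i j with rfl | hij
    · obtain ⟨c, hc, y, hy, e, e'⟩ := split hx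
      have := h.swap hN (mo_fg hO) hm (single_mem i i₀ hc) (single_mem i₀ i hy)
      rw [Matrix.single_mul_single_same, Matrix.single_mul_single_same, e, e'] at this
      exact ⟨x, hx, this⟩
    · exact ⟨0, zero_mem _, by rw [elem h hij hx]; simpa using h.one.symm⟩
  have Pt : ∀ (i : ι) (v : ι → B), (∀ j, v j ∈ dp O.toSubmodule (m + m)) → ∀ (T : Finset ι) (j : ι),
      i ∉ T → P (∑ k ∈ T, Matrix.single i k (v k)) ∧
        P (∑ k ∈ T, Matrix.single i k (v k) + Matrix.single i j (v j)) := fun i v hv T => by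
    have key : ∀ (T : Finset ι) (j : ι), i ∉ T → P (∑ k ∈ T, Matrix.single i k (v k)) →
        P (∑ k ∈ T, Matrix.single i k (v k) + Matrix.single i j (v j)) := fun T j hT hP => by
      have := Pm _ _ hP (Ps i j _ (hv j))
      have e : (∑ k ∈ T, Matrix.single i k (v k)) * Matrix.single i j (v j) = 0 := by
        rw [Finset.sum_mul]
        exact Finset.sum_eq_zero fun k hk =>
          Matrix.single_mul_single_of_ne _ _ _ _ (fun e : k = i => hT (e ▸ hk)) _
      rwa [e, add_zero] at this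
    induction T using Finset.induction_on with
    | empty => exact fun j hT => ⟨P0, key _ j hT P0⟩
    | insert a T ha ih =>
      intro j hT
      have := (ih a fun h => hT (Finset.mem_insert_of_mem h)).2
      rw [add_comm, ← Finset.sum_insert (f := fun k => Matrix.single i k (v k)) ha] at this
      exact ⟨this, key _ j hT this⟩
  have main : ∀ (S : Finset ι) (Z : Matrix ι ι B), Z ∈ dp (mo ι O).toSubmodule (m + m) →
      (∀ k, k ∉ S → ∀ j, Z k j = 0) → P Z := fun S => by
    induction S using Finset.induction_on with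
    | empty => exact fun Z _ h0 => (Matrix.ext fun k j => h0 k (by simp) j : Z = 0) ▸ P0
    | insert i S _ ih =>
      intro Z hZ h0
      have pR := (Pt i (Z i) (mem_mo.1 hZ i) (Finset.univ.erase i) i (by simp)).2
      rw [Finset.sum_erase_add (f := fun k => Matrix.single i k (Z i k)) _ (Finset.mem_univ i)] at pR
      set R := ∑ k, Matrix.single i k (Z i k) with hR
      obtain ⟨Y, hY, y1, y2⟩ := exists_qinv hN (mo_fg hO) (by omega) pR.1
      have e1 : R + Y + R * Y = 0 := by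
        rw [one_add_mul] at y1; exact add_eq_left.1 y1
      have hrow : ∀ k, k ∉ S → ∀ j, Z k j = R k j := fun k hk j => by
        rw [hR, Matrix.sum_apply]
        rcases eq_or_ne i k with rfl | hik
        · rw [Finset.sum_eq_single j (fun b _ hb => Matrix.single_apply_of_col_ne _ _ hb _)
            (by simp), Matrix.single_apply_same]
        · rw [h0 k (by simp [hk, hik.symm]), Finset.sum_eq_zero fun b _ =>
            Matrix.single_apply_of_row_ne hik _ _ _]
      have p1 := ih (Z + Y + Z * Y) (qadd_mem hZ hY) fun k hk j => by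
        have := congrFun (congrFun e1 k) j
        simp only [Matrix.add_apply, Matrix.mul_apply, hrow k hk] at this ⊢
        exact this
      have p2 := Pm _ _ p1 pR
      have e2 : Z + Y + Z * Y + R + (Z + Y + Z * Y) * R = Z := add_left_cancel (a := 1) (by
        rw [← one_add_mul, ← one_add_mul, mul_assoc, y2, mul_one])
      rwa [e2] at p2
  exact (main Finset.univ Z hZ (by simp)).2

end mat

end R3

open R3

/-- INV -/
theorem invStmt : InvStmt.{v, w} := by
  intro N hN B _ _ _ X _ θ h s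
  obtain ⟨O, hO⟩ := exists_od N B
  obtain ⟨m, hm, h⟩ := exists_hom h hO.fg
  obtain ⟨j, hj⟩ := hO.abs ((s⁻¹ : Bˣ) : B)
  have hq : (N : ℚ) ^ (m + j) ≠ 0 := pow_ne_zero _ (Nat.cast_ne_zero.2 (by omega))
  have hl : (N : ℚ) ^ (m + j) • ((s⁻¹ : Bˣ) : B) ∈ dp O.toSubmodule m :=
    ⟨_, hj, by rw [pow_add, mul_smul]⟩
  filter_upwards [(nr_map (N := N) (AddMonoidHom.mulLeft (((N : ℚ) ^ (m + j))⁻¹ • (s : B)))
    (1 : B)).eventually (hO.ev_nr _ m)] with x hx
  rw [← map_sub, AddMonoidHom.coe_mulLeft] at hx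
  have := h.swap hN hO.fg hm hx hl
  rw [← mul_assoc, smul_mul_smul_comm, smul_mul_assoc, smul_mul_smul_comm, mul_inv_cancel₀ hq,
    inv_mul_cancel₀ hq, one_smul, one_smul, Units.inv_mul, one_mul, add_sub_cancel, mul_sub, sub_mul,
    mul_one, Units.mul_inv, add_sub_cancel] at this
  exact this

/-- RED -/
theorem redStmt : RedStmt.{v, w} := by
  intro N hN B _ _ _ X _ ι _ _ Φ h i₀ U hU
  obtain ⟨O, hO⟩ := exists_od N B
  obtain ⟨m, hm, h⟩ := exists_hom h (mo_fg hO.fg)
  obtain ⟨a, ha⟩ := exists_of_nr (p := (· ∈ U)) hU hO.fg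
  have hev : ∀ᶠ A in nr N (1 : Matrix ι ι B), ∀ i j,
      A i j - (1 : Matrix ι ι B) i j ∈ dp O.toSubmodule (m + a + (m + a)) :=
    eventually_all.2 fun i => eventually_all.2 fun j =>
      (nr_map (N := N) (Matrix.entryAddMonoidHom B i j) 1).eventually (hO.ev_nr _ _)
  filter_upwards [hev] with A hA
  obtain ⟨z, hz, e⟩ := red hN hO.fg (by omega) (h.mono (Nat.le_add_right m a)) i₀ (Z := A - 1)
    (mem_mo.2 hA)
  refine ⟨1 + z, ha _ (by rw [add_sub_cancel_left]; exact dp_anti _ (by omega) hz), ?_⟩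
  rw [add_sub_cancel] at e
  rw [e]
  congr 1
  ext i j
  rcases eq_or_ne i j with rfl | hij
  · rcases eq_or_ne i₀ i with rfl | hi
    · simp
    · simp [hi, hi.symm]
  · have : ¬ (i₀ = i ∧ i₀ = j) := fun h => hij (h.1.symm.trans h.2)
    simp [hij, Matrix.single_apply_of_ne _ _ _ _ _ this]

/-- ROOT -/
theorem rootStmt : RootStmt.{v} := by
  intro N hN B _ _ _ r hr V hV
  obtain ⟨r, rfl⟩ := Nat.exists_eq_succ_of_ne_zero hr
  obtain ⟨O, hO⟩ := exists_od N B
  obtain ⟨a, ha⟩ := exists_of_nr (p := (· ∈ V)) hV hO.fg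
  obtain ⟨k, hk⟩ := exists_div (V := B) N ((r + 1 : ℕ) : ℚ)⁻¹
  filter_upwards [hO.ev_nr 1 (a + 1 + k + k)] with g hg
  let h : ℕ → B := fun j => Nat.rec 1 (fun _ x => x + ((r + 1 : ℕ) : ℚ)⁻¹ • (g - x ^ (r + 1))) j
  have key : ∀ j, h j - 1 ∈ dp O.toSubmodule (a + 1) ∧ (∀ y, Commute g y → Commute (h j) y) ∧
      g - h j ^ (r + 1) ∈ dp O.toSubmodule (a + 1 + k + j + k) := by
    intro j
    induction j with
    | zero => exact ⟨by simp [h], fun y _ => Commute.one_left y, by simpa [h] using hg⟩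
    | succ j ih =>
      obtain ⟨h1, h2, h3⟩ := ih
      have e : h (j + 1) = h j + ((r + 1 : ℕ) : ℚ)⁻¹ • (g - h j ^ (r + 1)) := rfl
      have hδ := hk _ _ _ h3
      have hO1 : h j ∈ O := by
        have := add_mem (dp_le _ _ h1) O.one_mem
        rwa [sub_add_cancel] at this
      have hc : Commute (h j) (((r + 1 : ℕ) : ℚ)⁻¹ • (g - h j ^ (r + 1))) :=
        ((h2 g (Commute.refl g)).sub_right ((Commute.refl _).pow_right _)).smul_right _
      refine ⟨?_, fun y hy => ?_, ?_⟩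
      · rw [e, add_sub_right_comm]; exact add_mem h1 (dp_anti _ (by omega) hδ)
      · rw [e]; exact (h2 y hy).add_left ((hy.sub_left ((h2 y hy).pow_left _)).smul_left _)
      · have b1 := dp_anti _ (show a + 1 + k + (j + 1) + k ≤ _ by omega) (binom hO1 hδ hc r)
        have b2 := dp_anti _ (show a + 1 + k + (j + 1) + k ≤ _ by omega)
          (mul_mem_dp O (pow_sub_one_mem h1 r) h3)
        have b3 := neg_mem (add_mem b1 b2)
        rw [e]
        convert b3 using 1
        rw [mul_smul_comm, ← Nat.cast_smul_eq_nsmul ℚ, smul_smul,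
          mul_inv_cancel₀ (Nat.cast_ne_zero.2 hr), one_smul, sub_mul, one_mul]
        abel
  refine ⟨h, fun j => ⟨ha _ (dp_anti _ (by omega) (key j).1), (key j).2.1⟩, ?_⟩
  rw [hO.tendsto_nr]
  intro m
  filter_upwards [eventually_ge_atTop m] with j hj
  rw [← neg_sub]
  exact neg_mem (dp_anti _ (by omega) (key j).2.2)

end Crest.Agent.T24.In
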