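import Crest.Agent.T24.InRing_3

/-!
# Row 24, inner step: an archimedean ring seminorm; one Newton iteration for all places (helper3)
-/

set_option autoImplicit false

namespace Crest.Agent.T24.In.R3

open Filter Finset Topology

variable {N : ℕ} {B : Type*} [Ring B] [Algebra ℚ B]

theorem l1_mul {ι : Type*} [Fintype ι] (a b : Matrix ι ι ℚ) :
    ∑ i, ∑ j, |((a * b) i j : ℝ)| ≤ (∑ i, ∑ j, |(a i j : ℝ)|) * ∑ i, ∑ j, |(b i j : ℝ)| := by
  rw [sum_mul]
  refine sum_le_sum fun i _ => ?_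
  calc ∑ j, |((a * b) i j : ℝ)| ≤ ∑ j, ∑ k, |(a i k : ℝ)| * |(b k j : ℝ)| := sum_le_sum fun j _ => by
        rw [Matrix.mul_apply]; push_cast
        exact (abs_sum_le_sum_abs _ _).trans_eq (sum_congr rfl fun k _ => abs_mul _ _)
    _ ≤ _ := by
        rw [sum_comm, sum_mul]
        refine sum_le_sum fun k _ => ?_
        rw [← mul_sum]
        exact mul_le_mul_of_nonneg_left (single_le_sum (f := fun k => ∑ j, |(b k j : ℝ)|)
          (fun _ _ => sum_nonneg fun _ _ => abs_nonneg _) (mem_univ k)) (abs_nonneg _)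

variable (B) in
/-- a ring seminorm that defines the archimedean topology -/
theorem exists_sn [FiniteDimensional ℚ B] : ∃ p : RingSeminorm B,
    (∀ (q : ℚ) x, p (q • x) = |(q : ℝ)| * p x) ∧ (∀ φ : B →+ ℝ, ∃ C, 0 ≤ C ∧ ∀ x, |φ x| ≤ C * p x) ∧
    ∀ {α : Type*} (l : Filter α) (f : α → B) (a : B),
      (∀ φ : B →+ ℝ, Tendsto (fun i => φ (f i)) l (𝓝 (φ a))) →
        Tendsto (fun i => p (f i - a)) l (𝓝 0) := by
  classical
  let e := Module.finBasis ℚ B
  let M := Algebra.leftMulMatrix e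
  let ψ : Fin _ → Fin _ → B →+ ℝ := fun i j => (Rat.castHom ℝ).toAddMonoidHom.comp
    ((Matrix.entryAddMonoidHom ℚ i j).comp M.toRingHom.toAddMonoidHom)
  have hψ : ∀ i j x, ψ i j x = (M x i j : ℝ) := fun _ _ _ => rfl
  let p : RingSeminorm B :=
    { toFun := fun x => ∑ i, ∑ j, |ψ i j x|
      map_zero' := by simp
      add_le' := fun x y => by
        simp only [map_add, ← sum_add_distrib]
        exact sum_le_sum fun _ _ => sum_le_sum fun _ _ => abs_add_le _ _
      neg' := fun x => by simp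
      mul_le' := fun x y => by simp only [hψ, map_mul]; exact l1_mul _ _ }
  have hp : ∀ x, p x = ∑ i, ∑ j, |ψ i j x| := fun _ => rfl
  refine ⟨p, fun q x => ?_, fun φ => ?_, fun l f a h => ?_⟩
  · simp only [hp, map_rat_smul, Rat.smul_def, abs_mul, mul_sum]
  · refine ⟨∑ i, ∑ j, |(e.repr 1 j : ℝ) * φ (e i)|, by positivity, fun x => ?_⟩
    have h1 : φ x = ∑ i, ∑ j, ψ i j x * ((e.repr 1 j : ℝ) * φ (e i)) := by
      conv_lhs => rw [← e.sum_repr x, map_sum]
      refine sum_congr rfl fun i _ => ?_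
      have := congrFun (Algebra.leftMulMatrix_mulVec_repr e x 1) i
      rw [mul_one] at this
      rw [map_rat_smul, ← this, Rat.smul_def, Matrix.mulVec, dotProduct]
      push_cast
      rw [sum_mul]
      exact sum_congr rfl fun j _ => mul_assoc _ _ _
    rw [h1, sum_mul]
    refine (abs_sum_le_sum_abs _ _).trans (sum_le_sum fun i _ => ?_)
    rw [sum_mul]
    refine (abs_sum_le_sum_abs _ _).trans (sum_le_sum fun j _ => ?_)
    rw [abs_mul, mul_comm]
    refine mul_le_mul_of_nonneg_left ?_ (abs_nonneg _)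
    exact (single_le_sum (f := fun j => |ψ i j x|) (fun _ _ => abs_nonneg _) (mem_univ j)).trans
      (single_le_sum (f := fun i => ∑ j, |ψ i j x|) (fun _ _ => by positivity) (mem_univ i))
  · have := tendsto_finsetSum univ fun i _ => tendsto_finsetSum univ fun j _ =>
      ((h (ψ i j)).sub_const (ψ i j a)).abs
    simpa only [hp, map_sub, sub_self, abs_zero, sum_const_zero] using this

/-- the Newton iteration for the root of order `r + 1` -/
noncomputable def nw (r : ℕ) (g : B) (j : ℕ) : B :=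
  Nat.rec 1 (fun _ x => x + ((r + 1 : ℕ) : ℚ)⁻¹ • (g - x ^ (r + 1))) j

theorem nw_succ (r : ℕ) (g : B) (j : ℕ) :
    nw r g (j + 1) = nw r g j + ((r + 1 : ℕ) : ℚ)⁻¹ • (g - nw r g j ^ (r + 1)) := rfl

theorem nw_comm (r : ℕ) {g y : B} (hy : Commute g y) (j : ℕ) : Commute (nw r g j) y := by
  induction j with
  | zero => exact Commute.one_left y
  | succ j ih => exact ih.add_left ((hy.sub_left (ih.pow_left _)).smul_left _)

theorem nw_comm' (r : ℕ) (g : B) (j : ℕ) :
    Commute (nw r g j) (((r + 1 : ℕ) : ℚ)⁻¹ • (g - nw r g j ^ (r + 1))) :=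
  ((nw_comm r (Commute.refl g) j).sub_right ((Commute.refl _).pow_right _)).smul_right _

theorem nw_err (r : ℕ) (g h : B) : g - (h + ((r + 1 : ℕ) : ℚ)⁻¹ • (g - h ^ (r + 1))) ^ (r + 1) =
    -(((h + ((r + 1 : ℕ) : ℚ)⁻¹ • (g - h ^ (r + 1))) ^ (r + 1) - h ^ (r + 1) -
      (r + 1 : ℕ) • (h ^ r * ((r + 1 : ℕ) : ℚ)⁻¹ • (g - h ^ (r + 1)))) +
      (h ^ r - 1) * (g - h ^ (r + 1))) := by
  rw [mul_smul_comm, ← Nat.cast_smul_eq_nsmul ℚ, smul_smul,
    mul_inv_cancel₀ (Nat.cast_ne_zero.2 r.succ_ne_zero), one_smul, sub_mul, one_mul]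
  abel

/-- `N`-adic convergence -/
theorem nw_adic (N r : ℕ) : ∃ k : ℕ, ∀ (O : Subalgebra (ZN N) B) (a : ℕ) (g : B),
    g - 1 ∈ dp O.toSubmodule (a + k) → ∀ j, nw r g j - 1 ∈ dp O.toSubmodule a ∧
      g - nw r g j ^ (r + 1) ∈ dp O.toSubmodule j := by
  obtain ⟨k, hk⟩ := exists_div (V := B) N ((r + 1 : ℕ) : ℚ)⁻¹
  refine ⟨1 + k + k, fun O a g hg j => ?_⟩
  suffices h : nw r g j - 1 ∈ dp O.toSubmodule (a + 1) ∧
      g - nw r g j ^ (r + 1) ∈ dp O.toSubmodule (a + 1 + k + j + k) from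
    ⟨dp_anti _ (by omega) h.1, dp_anti _ (by omega) h.2⟩
  induction j with
  | zero => exact ⟨by simp [nw], by simpa [nw, add_assoc] using hg⟩
  | succ j ih =>
    obtain ⟨h1, h3⟩ := ih
    have hδ := hk _ _ _ h3
    have hO1 : nw r g j ∈ O := by
      have := add_mem (dp_le _ _ h1) O.one_mem
      rwa [sub_add_cancel] at this
    rw [nw_succ, nw_err, add_sub_right_comm]
    exact ⟨add_mem h1 (dp_anti _ (by omega) hδ), neg_mem (add_mem
      (dp_anti _ (by omega) (binom hO1 hδ (nw_comm' r g j) r))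
      (dp_anti _ (by omega) (mul_mem_dp O (pow_sub_one_mem h1 r) h3)))⟩

omit [Algebra ℚ B] in
theorem sn_pow (p : RingSeminorm B) (r : ℕ) : ∃ C : ℝ, 0 ≤ C ∧ ∀ h : B, p (h - 1) ≤ 1 →
    p (h ^ r - 1) ≤ C * p (h - 1) ∧ ∀ δ : B, p δ ≤ 1 → Commute h δ →
      p ((h + δ) ^ (r + 1) - h ^ (r + 1) - (r + 1 : ℕ) • (h ^ r * δ)) ≤ C * p δ ^ 2 := by
  have hn : ∀ (n : ℕ) (x : B), p (n • x) ≤ n * p x := fun n x => by
    induction n with
    | zero => simp
    | succ n ih => rw [succ_nsmul]; push_cast; linarith [map_add_le_add p (n • x) x]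
  induction r with
  | zero => exact ⟨0, le_rfl, fun h _ => ⟨by simp, fun δ _ _ => by simp⟩⟩
  | succ r ih =>
    obtain ⟨C, C0, ih⟩ := ih
    refine ⟨3 * C + (r + 1) * (C + 1), by positivity, fun h hh => ?_⟩
    obtain ⟨i1, i2⟩ := ih h hh
    have u0 := apply_nonneg p (h - 1)
    have r0 : (0 : ℝ) ≤ r * (C + 1) := by positivity
    refine ⟨?_, fun δ hδ hc => ?_⟩
    · rw [show h ^ (r + 1) - 1 = (h ^ r - 1) * (h - 1) + (h ^ r - 1) + (h - 1) by
        rw [pow_succ]; noncomm_ring]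
      have a := map_add_le_add p ((h ^ r - 1) * (h - 1) + (h ^ r - 1)) (h - 1)
      have b := map_add_le_add p ((h ^ r - 1) * (h - 1)) (h ^ r - 1)
      have c := (map_mul_le_mul p (h ^ r - 1) (h - 1)).trans
        (mul_le_of_le_one_right (apply_nonneg p _) hh)
      nlinarith
    · have i3 := i2 δ hδ hc
      set E := (h + δ) ^ (r + 1) - h ^ (r + 1) - (r + 1 : ℕ) • (h ^ r * δ) with hE
      have e : h ^ r * δ * h = h ^ (r + 1) * δ := by rw [mul_assoc, ← hc.eq, ← mul_assoc, ← pow_succ]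
      have e2 : (h + δ) ^ (r + 1 + 1) - h ^ (r + 1 + 1) - (r + 1 + 1 : ℕ) • (h ^ (r + 1) * δ) =
          E * (h + δ) + (r + 1) • (h ^ r * (δ * δ)) := by
        rw [hE, pow_succ (h + δ) (r + 1), pow_succ h (r + 1), sub_mul, sub_mul, smul_mul_assoc,
          mul_add (h ^ r * δ), e, mul_add (h ^ (r + 1)), mul_assoc (h ^ r), succ_nsmul _ (r + 1),
          smul_add]
        abel
      have E0 := apply_nonneg p E
      have a1 : p (E * (h + δ)) ≤ 3 * p E := by
        rw [show E * (h + δ) = E * (h - 1) + E * δ + E by noncomm_ring]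
        linarith [map_add_le_add p (E * (h - 1) + E * δ) E, map_add_le_add p (E * (h - 1)) (E * δ),
          (map_mul_le_mul p E (h - 1)).trans (mul_le_of_le_one_right E0 hh),
          (map_mul_le_mul p E δ).trans (mul_le_of_le_one_right E0 hδ)]
      have a2 : p (h ^ r * (δ * δ)) ≤ (C + 1) * p δ ^ 2 := by
        rw [show h ^ r * (δ * δ) = (h ^ r - 1) * (δ * δ) + δ * δ by noncomm_ring]
        have b1 := map_mul_le_mul p δ δ
        have b2 := (map_mul_le_mul p (h ^ r - 1) (δ * δ)).trans (mul_le_mul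
          (i1.trans (mul_le_of_le_one_right C0 hh)) b1 (apply_nonneg p _) C0)
        nlinarith [map_add_le_add p ((h ^ r - 1) * (δ * δ)) (δ * δ)]
      have a3 := (hn (r + 1) _).trans (mul_le_mul_of_nonneg_left a2 (Nat.cast_nonneg _))
      rw [e2]
      push_cast at a3
      nlinarith [map_add_le_add p (E * (h + δ)) ((r + 1) • (h ^ r * (δ * δ)))]

/-- archimedean convergence -/
theorem nw_arch (p : RingSeminorm B) (hp : ∀ (q : ℚ) x, p (q • x) = |(q : ℝ)| * p x) (r : ℕ) :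
    ∃ η : ℝ, 0 < η ∧ ∀ g : B, p (g - 1) ≤ η → ∀ j, p (nw r g j - 1) ≤ 2 * p (g - 1) ∧
      p (g - nw r g j ^ (r + 1)) ≤ p (g - 1) * (1 / 2) ^ j := by
  obtain ⟨C, C0, hC⟩ := sn_pow p r
  refine ⟨1 / (8 * (C + 1)), by positivity, fun g hg j => ?_⟩
  have g0 := apply_nonneg p (g - 1)
  rw [le_div_iff₀ (by positivity)] at hg
  suffices h : p (nw r g j - 1) ≤ 2 * (p (g - 1) - p (g - 1) * (1 / 2) ^ j) ∧
      p (g - nw r g j ^ (r + 1)) ≤ p (g - 1) * (1 / 2) ^ j from
    ⟨by linarith [h.1, (by positivity : 0 ≤ p (g - 1) * (1 / 2) ^ j)], h.2⟩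
  induction j with
  | zero => simp [nw]
  | succ j ih =>
    obtain ⟨h1, h2⟩ := ih
    have t0 : 0 ≤ p (g - 1) * (1 / 2) ^ j := by positivity
    have t1 : p (g - 1) * (1 / 2) ^ j ≤ p (g - 1) :=
      mul_le_of_le_one_right g0 (pow_le_one₀ (by norm_num) (by norm_num))
    have e0 := apply_nonneg p (g - nw r g j ^ (r + 1))
    have Cg : 0 ≤ C * p (g - 1) := by positivity
    have hδ : p (((r + 1 : ℕ) : ℚ)⁻¹ • (g - nw r g j ^ (r + 1))) ≤ p (g - nw r g j ^ (r + 1)) := by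
      rw [hp]
      refine mul_le_of_le_one_left e0 ?_
      push_cast
      rw [abs_of_nonneg (by positivity)]
      exact inv_le_one_of_one_le₀ (by linarith [Nat.cast_nonneg (α := ℝ) r])
    obtain ⟨a1, a2⟩ := hC (nw r g j) (by linarith)
    have a3 := a2 _ (by linarith) (nw_comm' r g j)
    have a4 := mul_le_mul_of_nonneg_left (pow_le_pow_left₀ (apply_nonneg p _) hδ 2) C0
    have a5 := (map_mul_le_mul p (nw r g j ^ r - 1) (g - nw r g j ^ (r + 1))).trans
      (mul_le_mul_of_nonneg_right a1 e0)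
    have a6 : C * p (nw r g j - 1) ≤ 1 / 4 := by nlinarith [mul_nonneg C0 t0]
    have a7 : C * p (g - nw r g j ^ (r + 1)) ≤ 1 / 4 := by
      nlinarith [mul_le_mul_of_nonneg_left (h2.trans t1) C0]
    rw [nw_succ, nw_err, add_sub_right_comm, map_neg_eq_map, pow_succ (1 / 2 : ℝ)]
    refine ⟨(map_add_le_add p _ _).trans (by linarith), (map_add_le_add p _ _).trans ?_⟩
    nlinarith [mul_le_mul_of_nonneg_right a6 e0, mul_le_mul_of_nonneg_right a7 e0]

end Crest.Agent.T24.In.R3
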