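import Mathlib

/-!
# Row 24: angles between subspaces, fixed vectors of isometric representations (helper16)
-/

set_option autoImplicit false

namespace Crest.Agent.T24.Kaz

open Finset
open scoped RealInnerProductSpace

variable {V : Type*} [NormedAddCommGroup V] [InnerProductSpace ℝ V]

/-! ## Angles -/

/-- the cosine of the angle between `U` and `W` (modulo `U ⊓ W`) is at most `c` -/
def Ang (U W : Submodule ℝ V) (c : ℝ) : Prop :=
  ∀ a ∈ U, ∀ b ∈ W, (∀ u ∈ U, u ∈ W → ⟪u, a⟫ = 0) → ⟪a, b⟫ ≤ c * ‖a‖ * ‖b‖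

/-- the component orthogonal to `U` -/
noncomputable def Q (U : Submodule ℝ V) [U.HasOrthogonalProjection] : V →L[ℝ] V :=
  ContinuousLinearMap.id ℝ V - U.starProjection

theorem Q_apply (U : Submodule ℝ V) [U.HasOrthogonalProjection] (v : V) :
    Q U v = v - U.starProjection v := rfl

theorem Q_inner (U : Submodule ℝ V) [U.HasOrthogonalProjection] (v : V) {w : V} (hw : w ∈ U) :
    ⟪Q U v, w⟫ = 0 := U.starProjection_inner_eq_zero v w hw

theorem Q_of_mem {U : Submodule ℝ V} [U.HasOrthogonalProjection] {v : V} (h : v ∈ U) : Q U v = 0 := by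
  rw [Q_apply, Submodule.starProjection_eq_self_iff.2 h, sub_self]

theorem mem_of_Q {U : Submodule ℝ V} [U.HasOrthogonalProjection] {v : V} (h : Q U v = 0) : v ∈ U :=
  Submodule.starProjection_eq_self_iff.1 (sub_eq_zero.1 h).symm

theorem Q_inner_Q (U : Submodule ℝ V) [U.HasOrthogonalProjection] (u v : V) :
    ⟪Q U u, v⟫ = ⟪Q U u, Q U v⟫ := by
  rw [Q_apply U v, inner_sub_right, Q_inner U u (U.starProjection_apply_mem v), sub_zero]

theorem P_inner (U : Submodule ℝ V) [U.HasOrthogonalProjection] (v : V) {w : V} (hw : w ∈ U) :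
    ⟪U.starProjection v, w⟫ = ⟪v, w⟫ := by
  have := Q_inner U v hw
  rw [Q_apply, inner_sub_left] at this
  linarith

theorem norm_Q_sq (U : Submodule ℝ V) [U.HasOrthogonalProjection] (v : V) :
    ‖Q U v‖ ^ 2 = ‖v‖ ^ 2 - ‖U.starProjection v‖ ^ 2 := by
  have h := P_inner U v (U.starProjection_apply_mem v)
  rw [Q_apply, norm_sub_sq_real, ← h, real_inner_self_eq_norm_sq]
  ring

theorem norm_Q_le (U : Submodule ℝ V) [U.HasOrthogonalProjection] (v : V) : ‖Q U v‖ ≤ ‖v‖ := by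
  refine (pow_le_pow_iff_left₀ (norm_nonneg _) (norm_nonneg _) two_ne_zero).1 ?_
  rw [norm_Q_sq]
  exact sub_le_self _ (sq_nonneg _)

theorem Ang.symm {U W : Submodule ℝ V} [(U ⊓ W).HasOrthogonalProjection] {c : ℝ} (h : Ang U W c)
    (h0 : 0 ≤ c) : Ang W U c := fun b hb a ha hb' => by
  have hm := (U ⊓ W).starProjection_apply_mem a
  have h1 := h (Q (U ⊓ W) a) (U.sub_mem ha hm.1) b hb fun u hu hu' => by
    rw [real_inner_comm]; exact Q_inner _ a ⟨hu, hu'⟩
  rw [Q_apply, inner_sub_left, hb' _ hm.2 hm.1, sub_zero, ← Q_apply] at h1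
  rw [real_inner_comm, mul_right_comm]
  exact h1.trans (by gcongr; exact norm_Q_le _ _)

theorem Ang.norm_QP {U W : Submodule ℝ V} [U.HasOrthogonalProjection] [W.HasOrthogonalProjection]
    [(U ⊓ W).HasOrthogonalProjection] {c : ℝ} (h : Ang U W c) (h0 : 0 ≤ c) {b : V} (hb : b ∈ W) :
    ‖Q W (U.starProjection b)‖ ≤ c * ‖b‖ := by
  have hm := (U ⊓ W).starProjection_apply_mem b
  have ha : U.starProjection b - (U ⊓ W).starProjection b ∈ U :=
    U.sub_mem (U.starProjection_apply_mem b) hm.1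
  have h1 := h _ ha (Q (U ⊓ W) b) (W.sub_mem hb hm.2) fun u hu hu' => by
    rw [real_inner_comm, inner_sub_left, P_inner U b hu, P_inner (U ⊓ W) b ⟨hu, hu'⟩, sub_self]
  have h2 : Q (U ⊓ W) b = Q U b + (U.starProjection b - (U ⊓ W).starProjection b) := by
    rw [Q_apply, Q_apply]; abel
  have h3 : Q W (U.starProjection b) = Q W (U.starProjection b - (U ⊓ W).starProjection b) := by
    rw [map_sub, Q_of_mem hm.2, sub_zero]
  rw [h3]
  refine (norm_Q_le _ _).trans ?_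
  have h4 := norm_Q_le (U ⊓ W) b
  conv_lhs at h1 => rw [h2, inner_add_right, real_inner_comm, Q_inner U b ha, zero_add,
    real_inner_self_eq_norm_sq]
  generalize ‖U.starProjection b - (U ⊓ W).starProjection b‖ = x at h1 ⊢
  by_contra h5
  have h6 : 0 ≤ c * ‖b‖ := by positivity
  nlinarith [mul_le_mul_of_nonneg_left h4 (mul_nonneg h0 (h6.trans (not_le.1 h5).le))]

/-- the angle between the orthogonal complements, in the form used below -/
theorem Ang.Q_ge {U W : Submodule ℝ V} [U.HasOrthogonalProjection] [W.HasOrthogonalProjection]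
    [(U ⊓ W).HasOrthogonalProjection] {c : ℝ} (h : Ang U W c) (h0 : 0 ≤ c) (h1 : c ≤ 1) (v : V) :
    -(c / 2 * (‖Q U v‖ ^ 2 + ‖Q W v‖ ^ 2)) ≤ ⟪Q U v, Q W v⟫ := by
  have hm := (U ⊓ W).starProjection_apply_mem v
  set v₀ := (U ⊓ W).starProjection v with hv₀
  have ha : U.starProjection v - v₀ ∈ U := U.sub_mem (U.starProjection_apply_mem v) hm.1
  have hb : W.starProjection v - v₀ ∈ W := W.sub_mem (W.starProjection_apply_mem v) hm.2
  have hab := h _ ha _ hb fun u hu hu' => by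
    rw [real_inner_comm, inner_sub_left, P_inner U v hu, P_inner (U ⊓ W) v ⟨hu, hu'⟩, sub_self]
  have hx := Q_inner U v ha
  have hy := Q_inner W v hb
  have e1 : Q U v = (v - v₀) - (U.starProjection v - v₀) := by rw [Q_apply]; abel
  have e2 : Q W v = (v - v₀) - (W.starProjection v - v₀) := by rw [Q_apply]; abel
  rw [e1] at hx ⊢
  rw [e2] at hy ⊢
  generalize U.starProjection v - v₀ = a at *
  generalize W.starProjection v - v₀ = b at *
  generalize v - v₀ = t at *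
  have key : 0 ≤ ‖(1 + c) • t - (a + b)‖ ^ 2 := sq_nonneg _
  rw [norm_sub_sq_real, norm_add_sq_real, norm_smul, mul_pow, Real.norm_eq_abs, sq_abs,
    real_inner_smul_left, inner_add_right] at key
  rw [inner_sub_left, real_inner_self_eq_norm_sq] at hx hy
  rw [norm_sub_sq_real, norm_sub_sq_real, inner_sub_left, inner_sub_right, inner_sub_right,
    real_inner_self_eq_norm_sq, real_inner_comm t a]
  have h2 : ⟪a, b⟫ ≤ c / 2 * (‖a‖ ^ 2 + ‖b‖ ^ 2) := by
    nlinarith [mul_nonneg h0 (sq_nonneg (‖a‖ - ‖b‖))]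
  have h3 : ⟪t, a⟫ = ‖a‖ ^ 2 := by linarith
  have h4 : ⟪t, b⟫ = ‖b‖ ^ 2 := by linarith
  rw [h3, h4] at key ⊢
  have h5 := mul_nonneg (sub_nonneg.2 h1) (sub_nonneg.2 h2)
  have h6 : 0 < 1 + c := by linarith
  by_contra h7
  nlinarith [mul_pos h6 (sub_pos.2 (not_le.1 h7))]

/-- spectral gap for a family of subspaces with small angles -/
theorem gap [CompleteSpace V] {ι : Type*} [Fintype ι] [DecidableEq ι] (U : ι → Submodule ℝ V)
    [∀ i, (U i).HasOrthogonalProjection] [(⨅ i, U i).HasOrthogonalProjection] (c : ι → ι → ℝ) {l : ℝ}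
    (hs : ∀ i j, c i j = c j i) (hl : ∀ i, ∑ j ∈ univ.erase i, c i j ≤ 1 - l)
    (hQ : ∀ i j, i ≠ j → ∀ v, -(c i j / 2 * (‖Q (U i) v‖ ^ 2 + ‖Q (U j) v‖ ^ 2)) ≤
      ⟪Q (U i) v, Q (U j) v⟫) (h0 : 0 ≤ l) (v : V) :
    l * ‖Q (⨅ i, U i) v‖ ^ 2 ≤ ∑ i, ‖Q (U i) v‖ ^ 2 := by
  set D : V →L[ℝ] V := ∑ i, Q (U i) with hD
  have hD' : ∀ u, D u = ∑ i, Q (U i) u := fun u => by simp [hD]
  have h1 : ∀ u, l * ∑ i, ‖Q (U i) u‖ ^ 2 ≤ ‖D u‖ ^ 2 := fun u => by
    rw [← real_inner_self_eq_norm_sq, hD', sum_inner]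
    have h2 : ∀ i, ‖Q (U i) u‖ ^ 2 - ∑ j ∈ univ.erase i,
        c i j / 2 * (‖Q (U i) u‖ ^ 2 + ‖Q (U j) u‖ ^ 2) ≤ ⟪Q (U i) u, ∑ j, Q (U j) u⟫ := fun i => by
      rw [inner_sum, ← add_sum_erase _ _ (mem_univ i), real_inner_self_eq_norm_sq, sub_eq_add_neg,
        ← sum_neg_distrib]
      exact add_le_add le_rfl (sum_le_sum fun j hj => hQ i j (ne_of_mem_erase hj).symm u)
    refine le_trans ?_ (sum_le_sum fun i _ => h2 i)
    have h3 : ∑ i, ∑ j ∈ univ.erase i, c i j / 2 * ‖Q (U j) u‖ ^ 2 =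
        ∑ i, ∑ j ∈ univ.erase i, c i j / 2 * ‖Q (U i) u‖ ^ 2 := by
      rw [sum_comm' (t' := univ) (s' := fun j => univ.erase j) (by simp [eq_comm])]
      exact sum_congr rfl fun i _ => sum_congr rfl fun j _ => by rw [hs]
    simp only [mul_add, sum_add_distrib, sum_sub_distrib]
    rw [h3, ← sum_add_distrib, ← sum_sub_distrib, mul_sum]
    refine sum_le_sum fun i _ => ?_
    rw [← sum_mul, ← sum_div]
    nlinarith [mul_le_mul_of_nonneg_right (hl i) (sq_nonneg ‖Q (U i) u‖)]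
  have h4 : ∀ u t, ⟪D u, t⟫ = ∑ i, ⟪Q (U i) u, Q (U i) t⟫ := fun u t => by
    rw [hD', sum_inner]; exact sum_congr rfl fun i _ => Q_inner_Q _ _ _
  have h5 : ∀ t ∈ (D.range : Submodule ℝ V).topologicalClosure,
      l * ‖t‖ ^ 2 ≤ ∑ i, ‖Q (U i) t‖ ^ 2 := fun t ht => by
    refine closure_minimal (t := {t | l * ‖t‖ ^ 2 ≤ ∑ i, ‖Q (U i) t‖ ^ 2}) ?_
      (isClosed_le (by fun_prop) (by fun_prop)) ht
    rintro _ ⟨u, rfl⟩
    have h6 : ‖D u‖ ^ 2 ≤ ∑ i, ‖Q (U i) u‖ * ‖Q (U i) (D u)‖ := by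
      rw [← real_inner_self_eq_norm_sq, h4]
      exact sum_le_sum fun i _ => real_inner_le_norm _ _
    have h7 := sum_mul_sq_le_sq_mul_sq univ (fun i => ‖Q (U i) u‖) fun i => ‖Q (U i) (D u)‖
    have h8 := pow_le_pow_left₀ (sq_nonneg _) h6 2
    have h9 : 0 ≤ ∑ i, ‖Q (U i) (D u)‖ ^ 2 := sum_nonneg fun _ _ => sq_nonneg _
    show l * ‖D u‖ ^ 2 ≤ ∑ i, ‖Q (U i) (D u)‖ ^ 2
    rcases (sq_nonneg ‖D u‖).eq_or_lt with h | h
    · rw [← h, mul_zero]; exact h9
    · refine le_of_mul_le_mul_left ?_ h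
      nlinarith [mul_le_mul_of_nonneg_left (h8.trans h7) h0, mul_le_mul_of_nonneg_right (h1 u) h9]
  have h6 : Q (⨅ i, U i) v ∈ (D.range : Submodule ℝ V).topologicalClosure := by
    rw [← Submodule.orthogonal_orthogonal_eq_closure, Submodule.mem_orthogonal]
    intro t ht
    rw [real_inner_comm]
    refine Q_inner _ v ((Submodule.mem_iInf _).2 fun i => mem_of_Q ?_)
    have h7 := (Submodule.mem_orthogonal _ _).1 ht (D t) ⟨t, rfl⟩
    rw [h4, sum_eq_zero_iff_of_nonneg fun _ _ => real_inner_self_nonneg] at h7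
    exact inner_self_eq_zero.1 (h7 i (mem_univ i))
  refine (h5 _ h6).trans (le_of_eq (sum_congr rfl fun i _ => ?_))
  rw [Q_apply (⨅ i, U i), map_sub, Q_of_mem ((Submodule.mem_iInf _).1
    ((⨅ i, U i).starProjection_apply_mem v) i), sub_zero]

/-! ## Fixed vectors -/

variable {G : Type*} [Group G] (π : G →* (V ≃ₗᵢ[ℝ] V))

theorem pi_mul (g h : G) (v : V) : π (g * h) v = π g (π h v) := by rw [map_mul]; rfl

theorem pi_inner (g : G) (u v : V) : ⟪π g u, π g v⟫ = ⟪u, v⟫ := (π g).inner_map_map u v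

/-- vectors fixed by `H` -/
def Fix (H : Subgroup G) : Submodule ℝ V where
  carrier := {v | ∀ g ∈ H, π g v = v}
  add_mem' ha hb g hg := by rw [map_add, ha g hg, hb g hg]
  zero_mem' g _ := map_zero _
  smul_mem' c v hv g hg := by rw [map_smul, hv g hg]

theorem isClosed_Fix (H : Subgroup G) : IsClosed (Fix π H : Set V) := by
  have : (Fix π H : Set V) = ⋂ g ∈ H, {v | π g v = v} := by ext; simp [Fix]
  rw [this]
  exact isClosed_biInter fun g _ => isClosed_eq (π g).continuous continuous_id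

variable [CompleteSpace V]

theorem hop {U : Submodule ℝ V} (h : IsClosed (U : Set V)) : U.HasOrthogonalProjection :=
  haveI := h.completeSpace_coe
  inferInstance

instance (H : Subgroup G) : (Fix π H).HasOrthogonalProjection := hop (isClosed_Fix π H)

instance (H H' : Subgroup G) : (Fix π H ⊓ Fix π H').HasOrthogonalProjection :=
  hop ((isClosed_Fix π H).inter (isClosed_Fix π H'))

instance {ι : Type*} (H : ι → Subgroup G) : (⨅ i, Fix π (H i)).HasOrthogonalProjection :=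
  hop (by rw [Submodule.coe_iInf]; exact isClosed_iInter fun i => isClosed_Fix π (H i))

/-- the projection on the fixed vectors lies in the closed convex hull of the orbit -/
theorem hull (H : Subgroup G) {C : Set V} (hc : IsClosed C) (hv : Convex ℝ C) {v : V}
    (h : ∀ g ∈ H, π g v ∈ C) : (Fix π H).starProjection v ∈ C := by
  set P := (Fix π H).starProjection with hP
  have hPg : ∀ g ∈ H, ∀ u, P (π g u) = P u := fun g hg u => by
    refine Submodule.eq_starProjection_of_mem_of_inner_eq_zero ((Fix π H).starProjection_apply_mem u)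
      fun w hw => ?_
    rw [inner_sub_left, P_inner _ u hw, ← pi_inner π g u w, hw g hg, sub_self]
  set C' : Set V := {u | P u = P v} ∩ ⋂ g ∈ H, π g ⁻¹' C with hC'
  have c1 : IsClosed C' := (isClosed_eq P.continuous continuous_const).inter
    (isClosed_biInter fun g _ => hc.preimage (π g).continuous)
  have c2 : Convex ℝ C' := ((convex_singleton (P v)).linear_preimage P.toLinearMap).inter
    (convex_iInter₂ fun g _ => hv.linear_preimage (π g).toLinearEquiv.toLinearMap)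
  obtain ⟨u, hu, hmin⟩ := exists_norm_eq_iInf_of_complete_convex (K := C')
    ⟨v, rfl, Set.mem_iInter₂.2 h⟩ c1.isComplete c2 0
  rw [norm_eq_iInf_iff_real_inner_le_zero c2 hu] at hmin
  have hfix : u ∈ Fix π H := fun g hg => by
    have h1 := hmin (π g u) ⟨(hPg g hg u).trans hu.1, Set.mem_iInter₂.2 fun g' hg' => by
      have := Set.mem_iInter₂.1 hu.2 (g' * g) (H.mul_mem hg' hg)
      rwa [Set.mem_preimage, pi_mul] at this⟩
    rw [zero_sub, inner_neg_left, inner_sub_right, real_inner_self_eq_norm_sq] at h1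
    have h2 := norm_sub_sq_real (π g u) u
    rw [(π g).norm_map, real_inner_comm] at h2
    exact sub_eq_zero.1 (norm_eq_zero.1 (pow_eq_zero_iff two_ne_zero |>.1
      (le_antisymm (by linarith) (sq_nonneg _))))
  have h3 : P v = u := hu.1.symm.trans (Submodule.starProjection_eq_self_iff.2 hfix)
  rw [h3]
  simpa using Set.mem_iInter₂.1 hu.2 1 H.one_mem

theorem norm_Q_Fix_le (H : Subgroup G) {v : V} {ε : ℝ} (h : ∀ g ∈ H, ‖π g v - v‖ ≤ ε) :
    ‖Q (Fix π H) v‖ ≤ ε := by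
  have := hull π H (C := Metric.closedBall v ε) Metric.isClosed_closedBall (convex_closedBall v ε)
    (v := v) fun g hg => by rw [mem_closedBall_iff_norm]; exact h g hg
  rwa [mem_closedBall_iff_norm'] at this

theorem orth {A B : Subgroup G} {a b : V} (h : ∀ y ∈ B, π y a ∈ Fix π A)
    (h0 : ∀ u ∈ Fix π A, u ∈ Fix π B → ⟪u, a⟫ = 0) (hb : b ∈ Fix π B) : ⟪a, b⟫ = 0 := by
  have h1 := (Fix π B).starProjection_apply_mem a
  have h2 := h0 _ (hull π B (isClosed_Fix π A) (Fix π A).convex h) h1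
  rw [real_inner_comm, ← P_inner _ a h1, inner_self_eq_zero] at h2
  rw [← P_inner _ a hb, h2, inner_zero_left]

/-- commuting subgroups -/
theorem ang_comm {A B : Subgroup G} (h : ∀ x ∈ A, ∀ y ∈ B, x * y = y * x) :
    Ang (Fix π A) (Fix π B) 0 := fun a ha b hb h0 => by
  rw [orth π (fun y hy x hx => by rw [← pi_mul, h x hx y hy, pi_mul, ha x hx]) h0 hb]
  simp

/-- Heisenberg groups -/
theorem ang_heis {A B Z : Subgroup G} {κ : Type*} [Fintype κ] [Nontrivial κ] (y : κ → G)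
    (hA : ∀ z ∈ Z, ∀ x ∈ A, x * z = z * x)
    (hAB : ∀ x ∈ A, ∀ y ∈ B, ∃ z ∈ Z, x * y = y * x * z) (hy : ∀ k, y k ∈ B)
    (hz : ∀ k l, k ≠ l → ∀ z ∈ Z, ∃ x ∈ A, x * ((y k)⁻¹ * y l) = (y k)⁻¹ * y l * x * z) :
    Ang (Fix π A) (Fix π B) (1 / √(Fintype.card κ)) := fun a ha b hb h0 => by
  classical
  have hm := (Fix π Z).starProjection_apply_mem a
  have h1 : (Fix π Z).starProjection a ∈ Fix π A := hull π Z (isClosed_Fix π A) (Fix π A).convex
    fun z hz x hx => by rw [← pi_mul, hA z hz x hx, pi_mul, ha x hx]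
  have h2 : ⟪(Fix π Z).starProjection a, b⟫ = 0 := by
    refine orth π (A := A) (fun y hy x hx => ?_) (fun u hu hu' => ?_) hb
    · obtain ⟨z, hz, e⟩ := hAB x hx y hy
      rw [← pi_mul, e, pi_mul, pi_mul, hm z hz, h1 x hx]
    · rw [real_inner_comm, P_inner _ a, real_inner_comm, h0 u hu hu']
      intro z hz'
      obtain ⟨k, l, hkl⟩ := exists_pair_ne κ
      obtain ⟨x, hx, e⟩ := hz k l hkl z hz'
      have hy' := B.mul_mem (B.inv_mem (hy k)) (hy l)
      apply (π ((y k)⁻¹ * y l * x)).injective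
      rw [← pi_mul, ← e, pi_mul, pi_mul _ _ x, hu' _ hy', hu x hx, hu' _ hy']
  have ha' : Q (Fix π Z) a ∈ Fix π A := (Fix π A).sub_mem ha h1
  have hP : (Fix π Z).starProjection (Q (Fix π Z) a) = 0 := by
    rw [Q_apply, map_sub, Submodule.starProjection_eq_self_iff.2 hm, sub_self]
  have hn : ‖Q (Fix π Z) a‖ ≤ ‖a‖ := norm_Q_le _ _
  have e : ⟪a, b⟫ = ⟪Q (Fix π Z) a, b⟫ := by rw [Q_apply, inner_sub_left, h2, sub_zero]
  rw [e]
  generalize Q (Fix π Z) a = a' at *
  have h3 : ∀ k l, k ≠ l → ⟪π (y k) a', π (y l) a'⟫ = 0 := fun k l hkl => by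
    have h4 := hull π Z (C := {u | ⟪π (y k) a', π (y l) u⟫ = ⟪π (y k) a', π (y l) a'⟫})
      (isClosed_eq (by fun_prop) continuous_const)
      ((convex_singleton _).linear_preimage
        ((innerSL ℝ (π (y k) a')).toLinearMap ∘ₗ (π (y l)).toLinearEquiv.toLinearMap))
      (v := a') fun z hz' => by
        obtain ⟨x, hx, e⟩ := hz k l hkl z hz'
        have h5 : ∀ u, ⟪π (y k) a', π (y l) u⟫ = ⟪a', π ((y k)⁻¹ * y l) u⟫ := fun u => by
          rw [← pi_inner π (y k) a', ← pi_mul, mul_inv_cancel_left]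
        show ⟪_, _⟫ = ⟪_, _⟫
        rw [h5, h5]
        conv_lhs => rw [← ha' x hx, ← pi_mul π z, ← hA z hz' x hx, ← pi_mul, ← mul_assoc, ← e, pi_mul,
          pi_inner]
    rw [hP] at h4
    simpa using h4.symm
  have h4 : ‖∑ k, π (y k) a'‖ ^ 2 = Fintype.card κ * ‖a'‖ ^ 2 := by
    rw [← real_inner_self_eq_norm_sq, sum_inner, ← card_univ, ← nsmul_eq_mul, ← sum_const]
    refine sum_congr rfl fun k _ => ?_
    rw [inner_sum, sum_eq_single k (fun l _ h => h3 k l h.symm) (by simp), pi_inner,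
      real_inner_self_eq_norm_sq]
  have h5 : ⟪∑ k, π (y k) a', b⟫ = Fintype.card κ * ⟪a', b⟫ := by
    rw [sum_inner, ← card_univ, ← nsmul_eq_mul, ← sum_const]
    exact sum_congr rfl fun k _ => by rw [← pi_inner π (y k) a' b, hb _ (hy k)]
  have hc : (0 : ℝ) < Fintype.card κ := Nat.cast_pos.2 Fintype.card_pos
  have hs := Real.sqrt_pos.2 hc
  have h6 : ‖∑ k, π (y k) a'‖ = √(Fintype.card κ) * ‖a'‖ := by
    rw [← Real.sqrt_sq (norm_nonneg (∑ k, π (y k) a')), h4, Real.sqrt_mul hc.le,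
      Real.sqrt_sq (norm_nonneg _)]
  have h7 := real_inner_le_norm (∑ k, π (y k) a') b
  rw [h5, h6] at h7
  have h8 : √(Fintype.card κ : ℝ) * ⟪a', b⟫ ≤ ‖a'‖ * ‖b‖ := by
    refine le_of_mul_le_mul_left ?_ hs
    rw [← mul_assoc, Real.mul_self_sqrt hc.le, ← mul_assoc]
    exact h7
  rw [mul_assoc, one_div, ← div_eq_inv_mul, le_div_iff₀' hs]
  exact h8.trans (mul_le_mul_of_nonneg_right hn (norm_nonneg _))

end Crest.Agent.T24.Kaz
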