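import Crest.Agent.T24.SaK_83
import Crest.Prelude.Def_UnitaryMP

/-! Row 24: the line trick (avoidance of codimension two sets under strong approximation). -/

set_option autoImplicit false
set_option linter.unusedSectionVars false

open scoped NumberField Polynomial
open IsDedekindDomain WithZero NumberField

noncomputable section

namespace Crest.Agent.T24.Line

/-! ### algebra -/

/-- relatively prime polynomials over a GCD domain generate a non-zero constant -/
theorem exists_C {R : Type*} [CommRing R] [IsDomain R] [IsGCDMonoid R] {F G : R[X]}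
    (hF : F ≠ 0) (h : IsRelPrime F G) :
    ∃ (r : R) (U V : R[X]), r ≠ 0 ∧ U * F + V * G = Polynomial.C r := by
  let _ : NormalizedGCDMonoid R := Nonempty.some inferInstance
  let E := FractionRing R
  have hinj : Function.Injective (algebraMap R E) := IsFractionRing.injective R E
  have hc : IsCoprime (F.map (algebraMap R E)) (G.map (algebraMap R E)) := by
    refine isCoprime_of_dvd _ _ (fun h0 => hF ((Polynomial.map_eq_zero_iff hinj).1 h0.1)) ?_
    intro z hz hz0 hzF hzG
    obtain ⟨b, hb, hb2⟩ := IsLocalization.integerNormalization_spec (nonZeroDivisors R) z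
    set q := IsLocalization.integerNormalization (nonZeroDivisors R) z with hq
    have hb0 : algebraMap R E b ≠ 0 := by
      simpa using nonZeroDivisors.ne_zero hb
    have hq0 : q ≠ 0 := by
      rw [hq, Ne, IsFractionRing.integerNormalization_eq_zero_iff]; exact hz0
    have hcont : algebraMap R E q.content ≠ 0 := by
      simpa [Polynomial.content_eq_zero_iff] using hq0
    have e1 : Polynomial.C (algebraMap R E q.content) * q.primPart.map (algebraMap R E) =
        Polynomial.C (algebraMap R E b) * z := by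
      rw [← Polynomial.map_C, ← Polynomial.map_mul, ← q.eq_C_content_mul_primPart, hb2,
        Polynomial.C_mul', algebraMap_smul]
    have u1 : IsUnit (Polynomial.C (algebraMap R E b)) :=
      Polynomial.isUnit_C.2 (isUnit_iff_ne_zero.2 hb0)
    have u2 : IsUnit (Polynomial.C (algebraMap R E q.content)) :=
      Polynomial.isUnit_C.2 (isUnit_iff_ne_zero.2 hcont)
    have hd : q.primPart.map (algebraMap R E) ∣ z :=
      u1.dvd_mul_left.1 (e1 ▸ dvd_mul_left _ _)
    have hu := h (q.isPrimitive_primPart.dvd_of_fraction_map_dvd_fraction_map (hd.trans hzF))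
      (q.isPrimitive_primPart.dvd_of_fraction_map_dvd_fraction_map (hd.trans hzG))
    have hu2 : IsUnit (Polynomial.C (algebraMap R E b) * z) := by
      rw [← e1]
      exact u2.mul (hu.map (Polynomial.mapRingHom (algebraMap R E)))
    exact hz (isUnit_of_mul_isUnit_right hu2)
  obtain ⟨A, B, hAB⟩ := hc
  obtain ⟨a, ha, ha2⟩ := IsLocalization.integerNormalization_spec (nonZeroDivisors R) A
  obtain ⟨b, hb, hb2⟩ := IsLocalization.integerNormalization_spec (nonZeroDivisors R) B
  refine ⟨a * b, Polynomial.C b * IsLocalization.integerNormalization (nonZeroDivisors R) A,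
    Polynomial.C a * IsLocalization.integerNormalization (nonZeroDivisors R) B,
    mul_ne_zero (nonZeroDivisors.ne_zero ha) (nonZeroDivisors.ne_zero hb), ?_⟩
  apply Polynomial.map_injective _ hinj
  simp only [Polynomial.map_add, Polynomial.map_mul, Polynomial.map_C, ha2, hb2, map_mul]
  rw [← algebraMap_smul E a A, ← algebraMap_smul E b B, ← Polynomial.C_mul', ← Polynomial.C_mul']
  linear_combination (Polynomial.C (algebraMap R E a) * Polynomial.C (algebraMap R E b)) * hAB

section Shift

variable {ι : Type*} {K : Type*} [Field K]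

/-- `p ↦ p (X + t b)` -/
def sh (b : ι → K) : MvPolynomial ι K →+* (MvPolynomial ι K)[X] :=
  MvPolynomial.eval₂Hom (Polynomial.C.comp MvPolynomial.C) fun i =>
    Polynomial.C (MvPolynomial.X i) + Polynomial.C (MvPolynomial.C (b i)) * Polynomial.X

@[simp] theorem sh_C (b : ι → K) (c : K) :
    sh b (MvPolynomial.C c) = Polynomial.C (MvPolynomial.C c) := by simp [sh]

@[simp] theorem sh_X (b : ι → K) (i : ι) : sh b (MvPolynomial.X i) =
    Polynomial.C (MvPolynomial.X i) + Polynomial.C (MvPolynomial.C (b i)) * Polynomial.X := by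
  simp [sh]

/-- the automorphism of `K[X][t]` -/
def th (b : ι → K) : (MvPolynomial ι K)[X] →+* (MvPolynomial ι K)[X] :=
  Polynomial.eval₂RingHom (sh b) Polynomial.X

@[simp] theorem th_C (b : ι → K) (p : MvPolynomial ι K) : th b (Polynomial.C p) = sh b p := by
  simp [th]

@[simp] theorem th_X (b : ι → K) : th b Polynomial.X = Polynomial.X := by simp [th]

theorem th_sh (b : ι → K) (p : MvPolynomial ι K) : th (-b) (sh b p) = Polynomial.C p := by
  have : (th (-b)).comp (sh b) = Polynomial.C := by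
    refine MvPolynomial.ringHom_ext (fun c => by simp) fun i => ?_
    simp only [RingHom.comp_apply, sh_X, map_add, map_mul, th_C, th_X, sh_C, Pi.neg_apply, map_neg]
    ring
  exact congrArg (fun f => f p) this

theorem th_th (b : ι → K) (F : (MvPolynomial ι K)[X]) : th b (th (-b) F) = F := by
  have : (th b).comp (th (-b)) = RingHom.id _ := by
    refine Polynomial.ringHom_ext (fun p => ?_) (by simp)
    have := th_sh (-b) p
    rw [neg_neg] at this
    simpa using this
  exact congrArg (fun f => f F) this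

theorem sh_ne_zero (b : ι → K) {f : MvPolynomial ι K} (hf : f ≠ 0) : sh b f ≠ 0 := by
  intro h
  have := th_sh b f
  rw [h, map_zero] at this
  exact hf (Polynomial.C_eq_zero.1 this.symm)

theorem relPrime_sh (b : ι → K) {f g : MvPolynomial ι K} (hf : f ≠ 0) (h : IsRelPrime f g) :
    IsRelPrime (sh b f) (sh b g) := by
  intro d hd1 hd2
  have h1 := map_dvd (th (-b)) hd1
  have h2 := map_dvd (th (-b)) hd2
  rw [th_sh] at h1 h2
  have h3 : (th (-b) d).natDegree = 0 := by
    have := Polynomial.natDegree_le_of_dvd h1 (Polynomial.C_ne_zero.2 hf)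
    simpa using this
  rw [Polynomial.eq_C_of_natDegree_eq_zero h3] at h1 h2
  have h4 := h (by simpa using (Polynomial.C_dvd_iff_dvd_coeff _ _).1 h1 0)
    (by simpa using (Polynomial.C_dvd_iff_dvd_coeff _ _).1 h2 0)
  rw [← th_th b d, Polynomial.eq_C_of_natDegree_eq_zero h3]
  exact (h4.map Polynomial.C).map _

/-- evaluation of a polynomial in `K[X][t]` -/
def ev2 (a : ι → K) (t : K) : (MvPolynomial ι K)[X] →+* K :=
  Polynomial.eval₂RingHom (MvPolynomial.eval a) t

@[simp] theorem ev2_C (a : ι → K) (t : K) (p : MvPolynomial ι K) :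
    ev2 a t (Polynomial.C p) = MvPolynomial.eval a p := by simp [ev2]

@[simp] theorem ev2_X (a : ι → K) (t : K) : ev2 a t Polynomial.X = t := by simp [ev2]

theorem ev2_sh (a b : ι → K) (t : K) (p : MvPolynomial ι K) :
    ev2 a t (sh b p) = MvPolynomial.eval (fun i => a i + b i * t) p := by
  have : (ev2 a t).comp (sh b) = MvPolynomial.eval (fun i => a i + b i * t) :=
    MvPolynomial.ringHom_ext (fun c => by simp) fun i => by simp
  exact congrArg (fun f => f p) this

theorem ev2_eq (a : ι → K) (t : K) (F : (MvPolynomial ι K)[X]) :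
    ev2 a t F = (F.map (MvPolynomial.eval a)).eval t := by
  rw [Polynomial.eval_map]; rfl

theorem prod_lin {R : Type*} [CommRing R] (s : Finset ι) (m : ι → ℕ) (u v : ι → R) :
    (∏ i ∈ s, (Polynomial.C (u i) + Polynomial.C (v i) * Polynomial.X) ^ m i).natDegree ≤
      ∑ i ∈ s, m i ∧
    (∏ i ∈ s, (Polynomial.C (u i) + Polynomial.C (v i) * Polynomial.X) ^ m i).coeff
      (∑ i ∈ s, m i) = ∏ i ∈ s, v i ^ m i := by
  classical
  have h1 : ∀ i, (Polynomial.C (u i) + Polynomial.C (v i) * Polynomial.X).natDegree ≤ 1 :=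
    fun i => by compute_degree
  induction s using Finset.induction_on with
  | empty => simp
  | insert j s hj ih =>
    rw [Finset.prod_insert hj, Finset.sum_insert hj, Finset.prod_insert hj]
    have h2 : ((Polynomial.C (u j) + Polynomial.C (v j) * Polynomial.X) ^ m j).natDegree ≤ m j :=
      (Polynomial.natDegree_pow_le_of_le _ (h1 j)).trans (by simp)
    refine ⟨Polynomial.natDegree_mul_le.trans (add_le_add h2 ih.1), ?_⟩
    rw [Polynomial.coeff_mul_add_eq_of_natDegree_le h2 ih.1, ih.2]
    congr 1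
    have := Polynomial.coeff_pow_of_natDegree_le (m := m j) (h1 j)
    simpa using this

theorem top (b : ι → K) (f : MvPolynomial ι K) {D : ℕ} (hD : f.totalDegree ≤ D) :
    (sh b f).natDegree ≤ D ∧ (sh b f).coeff D =
      MvPolynomial.C (MvPolynomial.eval b (MvPolynomial.homogeneousComponent D f)) := by
  classical
  have key : ∀ m ∈ f.support, ∀ c : K, (sh b (MvPolynomial.monomial m c)).natDegree ≤ D ∧
      (sh b (MvPolynomial.monomial m c)).coeff D = MvPolynomial.C (MvPolynomial.eval b
        (MvPolynomial.homogeneousComponent D (MvPolynomial.monomial m c))) := by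
    intro m hm c
    have hm' : ∑ i ∈ m.support, m i ≤ D := (MvPolynomial.le_totalDegree hm).trans hD
    have hp := prod_lin m.support m (fun i => (MvPolynomial.X i : MvPolynomial ι K))
      (fun i => MvPolynomial.C (b i))
    have e : sh b (MvPolynomial.monomial m c) = Polynomial.C (MvPolynomial.C c) *
        ∏ i ∈ m.support, (Polynomial.C (MvPolynomial.X i) +
          Polynomial.C (MvPolynomial.C (b i)) * Polynomial.X) ^ m i := by
      rw [MvPolynomial.monomial_eq, map_mul, sh_C, Finsupp.prod, map_prod]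
      simp
    rw [e]
    refine ⟨(Polynomial.natDegree_C_mul_le _ _).trans (hp.1.trans hm'), ?_⟩
    rw [Polynomial.coeff_C_mul, MvPolynomial.homogeneousComponent_of_mem
      (MvPolynomial.isHomogeneous_monomial (n := ∑ i ∈ m.support, m i) c (by
        rw [Finsupp.degree_apply]))]
    split_ifs with h
    · rw [h, hp.2, MvPolynomial.eval_monomial, Finsupp.prod]
      simp
    · rw [Polynomial.coeff_eq_zero_of_natDegree_lt (lt_of_le_of_lt hp.1
        (lt_of_le_of_ne hm' (Ne.symm h)))]
      simp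
  constructor
  · rw [f.as_sum, map_sum]
    exact Polynomial.natDegree_sum_le_of_forall_le _ _ fun m hm => (key m hm _).1
  · conv_lhs => rw [f.as_sum, map_sum, Polynomial.finsetSum_coeff]
    conv_rhs => rw [f.as_sum, map_sum, map_sum, map_sum]
    exact Finset.sum_congr rfl fun m hm => (key m hm _).2

theorem top_ne_zero {f : MvPolynomial ι K} (hf : f ≠ 0) :
    MvPolynomial.homogeneousComponent f.totalDegree f ≠ 0 := by
  classical
  obtain ⟨m, hm, hm2⟩ := Finset.exists_mem_eq_sup f.support
    (MvPolynomial.support_nonempty.2 hf) (fun s => s.sum fun _ e => e)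
  intro h
  have := congrArg (MvPolynomial.coeff m) h
  rw [MvPolynomial.coeff_homogeneousComponent, if_pos, MvPolynomial.coeff_zero] at this
  · exact (MvPolynomial.mem_support_iff.1 hm) this
  · rw [MvPolynomial.totalDegree, hm2, Finsupp.degree_apply]; rfl

theorem exists_ne_zero {f : MvPolynomial ι K} (hf : f ≠ 0) (s : ι → Set K)
    (hs : ∀ i, (s i).Infinite) : ∃ x : ι → K, (∀ i, x i ∈ s i) ∧ MvPolynomial.eval x f ≠ 0 := by
  by_contra h
  push Not at h
  exact hf (MvPolynomial.funext_set s hs fun x hx => by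
    rw [h x fun i => hx i trivial, map_zero])

/-- **Criterion** for relative primality: one line over an extension field. -/
theorem relPrime_of_line {L : Type*} [Field L] [Algebra K L] {f g : MvPolynomial ι K}
    (a b : ι → L)
    (hc : IsCoprime (MvPolynomial.aeval (fun i => Polynomial.C (a i) + Polynomial.C (b i) *
        Polynomial.X) f : L[X])
      (MvPolynomial.aeval (fun i => Polynomial.C (a i) + Polynomial.C (b i) * Polynomial.X) g))
    (hf : f ≠ 0)
    (hd : f.totalDegree ≤ (MvPolynomial.aeval (fun i => Polynomial.C (a i) + Polynomial.C (b i) *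
        Polynomial.X) f : L[X]).natDegree) : IsRelPrime f g := by
  set ψ : MvPolynomial ι K →ₐ[K] L[X] := MvPolynomial.aeval (fun i => Polynomial.C (a i) +
    Polynomial.C (b i) * Polynomial.X) with hψ
  have hle : ∀ p, (ψ p).natDegree ≤ p.totalDegree := by
    intro p
    rw [p.as_sum, map_sum]
    refine Polynomial.natDegree_sum_le_of_forall_le _ _ fun m hm => ?_
    rw [← p.as_sum, hψ, MvPolynomial.aeval_monomial, Finsupp.prod, Polynomial.algebraMap_apply]
    exact (Polynomial.natDegree_C_mul_le _ _).trans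
      ((prod_lin m.support m a b).1.trans (MvPolynomial.le_totalDegree hm))
  rintro d ⟨e, rfl⟩ hd2
  have hu : IsUnit (ψ d) := hc.isUnit_of_dvd' (map_dvd ψ (dvd_mul_right d e)) (map_dvd ψ hd2)
  have hd0 : d ≠ 0 := left_ne_zero_of_mul hf
  have he0 : e ≠ 0 := right_ne_zero_of_mul hf
  rw [MvPolynomial.totalDegree_mul_of_isDomain hd0 he0, map_mul] at hd
  have h1 := Polynomial.natDegree_mul_le (p := ψ d) (q := ψ e)
  have h2 := Polynomial.natDegree_eq_zero_of_isUnit hu
  have h3 := hle e
  have h4 : d.totalDegree = 0 := by omega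
  rw [MvPolynomial.totalDegree_eq_zero_iff_eq_C] at h4
  rw [h4] at hd0 ⊢
  exact (isUnit_iff_ne_zero.2 (by simpa using hd0)).map MvPolynomial.C

end Shift

/-! ### integrality at almost all places -/

section Integral

variable {ι : Type*} {K : Type*} [Field K] [NumberField K]

/-- `p` has integral coefficients at `w` (as far as evaluation sees) -/
def IntAt (w : HeightOneSpectrum (𝓞 K)) (p : MvPolynomial ι K) : Prop :=
  (∀ x : ι → K, (∀ i, w.valuation K (x i) ≤ 1) → w.valuation K (MvPolynomial.eval x p) ≤ 1) ∧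
  ∀ x y : ι → K, (∀ i, w.valuation K (x i) ≤ 1) → (∀ i, w.valuation K (y i) ≤ 1) →
    (∀ i, w.valuation K (x i - y i) < 1) →
    w.valuation K (MvPolynomial.eval x p - MvPolynomial.eval y p) < 1

theorem intAt_fin (p : MvPolynomial ι K) : {w | ¬ IntAt w p}.Finite := by
  induction p using MvPolynomial.induction_on with
  | C c =>
    refine (fin_gt c).subset fun w hw => ?_
    by_contra h
    exact hw ⟨fun x _ => by simpa using h, fun x y _ _ _ => by simp⟩
  | add p q hp hq =>
    refine (hp.union hq).subset fun w hw => ?_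
    by_contra h
    simp only [Set.mem_union, Set.mem_ofPred_eq, not_or, not_not] at h
    refine hw ⟨fun x hx => ?_, fun x y hx hy hxy => ?_⟩
    · rw [map_add]
      exact (w.valuation K).map_add_le (h.1.1 x hx) (h.2.1 x hx)
    · rw [map_add, map_add, add_sub_add_comm]
      exact (w.valuation K).map_add_lt (h.1.2 x y hx hy hxy) (h.2.2 x y hx hy hxy)
  | mul_X p i hp =>
    refine hp.subset fun w hw h => hw ⟨fun x hx => ?_, fun x y hx hy hxy => ?_⟩
    · rw [map_mul, MvPolynomial.eval_X, map_mul]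
      exact mul_le_one' (h.1 x hx) (hx i)
    · have e : MvPolynomial.eval x (p * MvPolynomial.X i) - MvPolynomial.eval y
          (p * MvPolynomial.X i) = (MvPolynomial.eval x p - MvPolynomial.eval y p) * x i +
            MvPolynomial.eval y p * (x i - y i) := by
        simp only [map_mul, MvPolynomial.eval_X]; ring
      rw [e]
      refine (w.valuation K).map_add_lt ?_ ?_
      · rw [map_mul]
        exact (mul_le_of_le_one_right' (hx i)).trans_lt (h.2 x y hx hy hxy)
      · rw [map_mul]
        exact (mul_le_of_le_one_left' (h.1 y hy)).trans_lt (hxy i)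

theorem intAt2_fin (F : (MvPolynomial ι K)[X]) :
    {w : HeightOneSpectrum (𝓞 K) | ¬ ∀ (x : ι → K) (t : K), (∀ i, w.valuation K (x i) ≤ 1) →
      w.valuation K t ≤ 1 → w.valuation K (ev2 x t F) ≤ 1}.Finite := by
  induction F using Polynomial.induction_on' with
  | add p q hp hq =>
    refine (hp.union hq).subset fun w hw => ?_
    by_contra h
    simp only [Set.mem_union, Set.mem_ofPred_eq, not_or, not_not] at h
    refine hw fun x t hx ht => ?_
    rw [map_add]
    exact (w.valuation K).map_add_le (h.1 x t hx ht) (h.2 x t hx ht)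
  | monomial n p =>
    refine (intAt_fin p).subset fun w hw h => hw fun x t hx ht => ?_
    rw [← Polynomial.C_mul_X_pow_eq_monomial, map_mul, map_pow, ev2_C, ev2_X, map_mul, map_pow]
    exact mul_le_one' (h.1 x hx) (pow_le_one₀ zero_le ht)

/-- a polynomial of degree `≤ D` with unit top coefficient has at most `D` small values among
pairwise incongruent nodes -/
theorem card_bad (w : HeightOneSpectrum (𝓞 K)) {P : K[X]} {D M : ℕ} (hP : P.natDegree ≤ D)
    (hc : w.valuation K (P.coeff D) = 1)
    (hM : ∀ j : ℕ, 0 < j → j ≤ M → w.valuation K (j : K) = 1) :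
    ((Finset.range (M + 1)).filter fun j : ℕ => w.valuation K (P.eval (j : K)) < 1).card ≤ D := by
  classical
  by_contra h
  obtain ⟨s, hs, hcard⟩ := Finset.exists_subset_card_eq (Nat.succ_le_of_lt (not_le.1 h))
  have hdeg : P.degree < s.card := by
    rw [hcard]
    exact lt_of_le_of_lt (Polynomial.degree_le_of_natDegree_le hP) (by exact_mod_cast D.lt_succ_self)
  have h1 := Lagrange.coeff_eq_sum (s := s) (v := fun j : ℕ => (j : K))
    (fun i _ j _ hij => Nat.cast_injective (R := K) hij) hdeg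
  rw [hcard, Nat.succ_sub_one] at h1
  have hu : ∀ i ∈ s, ∀ j ∈ s.erase i, w.valuation K ((i : K) - j) = 1 := by
    intro i hi j hj
    have hi' := Finset.mem_range.1 (Finset.mem_filter.1 (hs hi)).1
    have hj' := Finset.mem_range.1 (Finset.mem_filter.1 (hs (Finset.mem_of_mem_erase hj))).1
    rcases lt_or_gt_of_ne (Finset.ne_of_mem_erase hj) with h | h
    · rw [← Nat.cast_sub h.le]
      exact hM _ (by omega) (by omega)
    · rw [Valuation.map_sub_swap, ← Nat.cast_sub h.le]
      exact hM _ (by omega) (by omega)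
  have h2 : w.valuation K (P.coeff D) < 1 := by
    rw [h1]
    refine (w.valuation K).map_sum_lt one_ne_zero fun i hi => ?_
    rw [map_div₀, map_prod, Finset.prod_eq_one (hu i hi), div_one]
    exact (Finset.mem_filter.1 (hs hi)).2
  exact h2.ne hc

end Integral

section Main

variable {k K : Type*} [Field k] [NumberField k] [Field K] [NumberField K] [Algebra k K]

theorem val_under (w : HeightOneSpectrum (𝓞 K)) :
    ∃ e : ℕ, e ≠ 0 ∧ ∀ x : k,
      w.valuation K (algebraMap k K x) = (w.under (𝓞 k)).valuation k x ^ e := by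
  have : w.asIdeal.LiesOver (w.under (𝓞 k)).asIdeal := ⟨rfl⟩
  exact ⟨_, Ideal.IsDedekindDomain.ramificationIdx'_ne_zero_of_liesOver w.asIdeal
    (w.under (𝓞 k)).ne_bot, fun x =>
      (HeightOneSpectrum.valuation_liesOver K (w.under (𝓞 k)) w x).symm⟩

theorem under_le {w : HeightOneSpectrum (𝓞 K)} {x : k}
    (h : (w.under (𝓞 k)).valuation k x ≤ 1) : w.valuation K (algebraMap k K x) ≤ 1 := by
  obtain ⟨e, -, he⟩ := val_under (k := k) w
  rw [he]; exact pow_le_one₀ zero_le h

theorem under_lt {w : HeightOneSpectrum (𝓞 K)} {x : k}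
    (h : (w.under (𝓞 k)).valuation k x < 1) : w.valuation K (algebraMap k K x) < 1 := by
  obtain ⟨e, he0, he⟩ := val_under (k := k) w
  rw [he]; exact pow_lt_one₀ zero_le h he0

theorem fibre (v : HeightOneSpectrum (𝓞 k)) :
    ∃ T : Finset (HeightOneSpectrum (𝓞 K)), T.card ≤ Module.finrank (𝓞 k) (𝓞 K) ∧
      ∀ w : HeightOneSpectrum (𝓞 K), w.under (𝓞 k) = v → w ∈ T := by
  classical
  have := v.isPrime
  have := v.isMaximal
  have hfin : (v.asIdeal.primesOver (𝓞 K)).Finite := IsDedekindDomain.primesOver_finite _ _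
  have : Fintype (v.asIdeal.primesOver (𝓞 K)) := hfin.fintype
  have h1 := Ideal.sum_ramification_inertia_eq_finrank (R := 𝓞 k) (S := 𝓞 K) v.asIdeal
  have h2 : Fintype.card (v.asIdeal.primesOver (𝓞 K)) ≤ Module.finrank (𝓞 k) (𝓞 K) := by
    rw [← h1, Fintype.card_eq_sum_ones]
    refine Finset.sum_le_sum fun q _ => ?_
    have := q.2.1
    have := q.2.2
    exact Nat.mul_pos (Ideal.ramificationIdx_pos _ _) (Ideal.inertiaDeg_pos _ _)
  have hinj : Set.InjOn (fun w : HeightOneSpectrum (𝓞 K) => w.asIdeal)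
      ((fun w : HeightOneSpectrum (𝓞 K) => w.asIdeal) ⁻¹' (hfin.toFinset : Set _)) :=
    fun _ _ _ _ h => HeightOneSpectrum.ext h
  refine ⟨hfin.toFinset.preimage _ hinj, ?_, fun w hw => ?_⟩
  · refine le_trans ?_ h2
    rw [Finset.card_preimage, ← Set.Finite.card_toFinset hfin]
    exact Finset.card_filter_le _ _
  · rw [Finset.mem_preimage, Set.Finite.mem_toFinset]
    exact ⟨w.isPrime, ⟨by rw [← hw]; rfl⟩⟩

/-- evaluation of a polynomial over `K` at a point of `k^ι` -/
def ev {ι : Type*} (s : ι → k) (p : MvPolynomial ι K) : K :=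
  MvPolynomial.eval (fun i => algebraMap k K (s i)) p

theorem line_aux {ι : Type*} [Fintype ι] {f g h : MvPolynomial ι K} (hf : f ≠ 0)
    (hfg : IsRelPrime f g) (hh : h ≠ 0) :
    ∃ S₀ : Finset (HeightOneSpectrum (𝓞 k)), ∀ S : Finset (HeightOneSpectrum (𝓞 k)), S₀ ⊆ S →
      ∀ v₀, v₀ ∉ S → ∀ (a : HeightOneSpectrum (𝓞 k) → ι → k) (m : ℕ) (x : ι → k) (ε : ℝ), 0 < ε →
      ∃ s : ι → k, (∀ v ∈ S, ∀ i, v.valuation k (s i - a v i) ≤ exp (-(m : ℤ))) ∧
        (∀ (φ : k →+* ℂ) i, ‖φ (s i - x i)‖ < ε) ∧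
        (∀ v, v ∉ S → v ≠ v₀ → ∀ i, v.valuation k (s i) ≤ 1) ∧ ev s h ≠ 0 ∧
        ∀ w : HeightOneSpectrum (𝓞 K), w.under (𝓞 k) ∉ S → w.under (𝓞 k) ≠ v₀ →
          w.valuation K (ev s f) = 1 ∨ w.valuation K (ev s g) = 1 := by
  classical
  have hinj : Function.Injective (algebraMap k K) := (algebraMap k K).injective
  set D := f.totalDegree with hD
  obtain ⟨b', hb', hc⟩ := exists_ne_zero (top_ne_zero hf) (fun _ => Set.range (Nat.cast : ℕ → K))
    (fun _ => Set.infinite_range_of_injective Nat.cast_injective)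
  choose b hb using hb'
  obtain rfl : b' = fun i => (b i : K) := funext fun i => (hb i).symm
  set c := MvPolynomial.eval (fun i => (b i : K)) (MvPolynomial.homogeneousComponent D f) with hcd
  obtain ⟨hdeg, hcoef⟩ := top (fun i => (b i : K)) f le_rfl
  obtain ⟨r, U, V, hr, hUV⟩ := exists_C (sh_ne_zero (fun i => (b i : K)) hf)
    (relPrime_sh (fun i => (b i : K)) hf hfg)
  set M := D * Module.finrank (𝓞 k) (𝓞 K) with hM
  have hMf : ((M.factorial : ℕ) : K) ≠ 0 := by exact_mod_cast M.factorial_ne_zero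
  have hT := (((((intAt_fin f).union (intAt_fin g)).union (intAt2_fin U)).union
    (intAt2_fin V)).union (fin_ne hc)).union (fin_ne hMf)
  refine ⟨hT.toFinset.image (HeightOneSpectrum.under (𝓞 k)), fun S hS v₀ hv₀ a m x ε hε => ?_⟩
  have good : ∀ w : HeightOneSpectrum (𝓞 K), w.under (𝓞 k) ∉ S →
      IntAt w f ∧ IntAt w g ∧
      (∀ (x : ι → K) (t : K), (∀ i, w.valuation K (x i) ≤ 1) →
        w.valuation K t ≤ 1 → w.valuation K (ev2 x t U) ≤ 1) ∧
      (∀ (x : ι → K) (t : K), (∀ i, w.valuation K (x i) ≤ 1) →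
        w.valuation K t ≤ 1 → w.valuation K (ev2 x t V) ≤ 1) ∧
      w.valuation K c = 1 ∧ ∀ j : ℕ, 0 < j → j ≤ M → w.valuation K (j : K) = 1 := by
    intro w hw
    have h1 : w ∉ hT.toFinset := fun h => hw (hS (Finset.mem_image_of_mem _ h))
    simp only [Set.Finite.mem_toFinset, Set.mem_union, Set.mem_ofPred_eq, not_or, not_not] at h1
    obtain ⟨⟨⟨⟨⟨h1, h2⟩, h3⟩, h4⟩, h5⟩, h6⟩ := h1
    refine ⟨h1, h2, h3, h4, h5, fun j hj hjM => ?_⟩
    obtain ⟨e, he⟩ := Nat.dvd_factorial hj hjM
    rw [he, Nat.cast_mul, map_mul] at h6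
    exact le_antisymm (val_nat w j) (h6 ▸ mul_le_of_le_one_right' (val_nat w e))
  obtain ⟨a', ha', hra⟩ := exists_ne_zero (mul_ne_zero hr hh)
    (fun i => algebraMap k K '' Box S v₀ (fun v => a v i) m (x i) (ε / 2))
    (fun i => (Box_infinite S v₀ hv₀ _ m _ (half_pos hε)).image hinj.injOn)
  choose y hy hya using ha'
  obtain rfl : a' = fun i => algebraMap k K (y i) := funext fun i => (hya i).symm
  rw [map_mul] at hra
  have hry := left_ne_zero_of_mul hra
  have hhy := right_ne_zero_of_mul hra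
  have yint : ∀ w : HeightOneSpectrum (𝓞 K), w.under (𝓞 k) ∉ S → w.under (𝓞 k) ≠ v₀ →
      ∀ i, w.valuation K (algebraMap k K (y i)) ≤ 1 := fun w h1 h2 i =>
    under_le ((hy i).2.1 _ h1 h2)
  -- a good residue class at every place outside `S`
  have hj : ∀ v : HeightOneSpectrum (𝓞 k), ∃ j : ℕ, v ∉ S → v ≠ v₀ →
      ∀ w : HeightOneSpectrum (𝓞 K), w.under (𝓞 k) = v →
      w.valuation K (MvPolynomial.eval (fun i => algebraMap k K (y i) + (b i : K) * j) f) = 1 := by
    intro v
    by_cases hv : v ∈ S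
    · exact ⟨0, fun h => absurd hv h⟩
    obtain ⟨T, hT1, hT2⟩ := fibre (K := K) v
    let P : K[X] := (sh (fun i => (b i : K)) f).map (MvPolynomial.eval fun i => algebraMap k K (y i))
    have hP1 : P.natDegree ≤ D := Polynomial.natDegree_map_le.trans hdeg
    have hP2 : P.coeff D = c := by
      rw [Polynomial.coeff_map, hcoef, MvPolynomial.eval_C]
    have hP3 : ∀ t, P.eval t =
        MvPolynomial.eval (fun i => algebraMap k K (y i) + (b i : K) * t) f := fun t => by
      rw [← ev2_eq, ev2_sh]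
    let bad := (T.filter fun w => w.under (𝓞 k) = v).biUnion fun w =>
      (Finset.range (M + 1)).filter fun j : ℕ => w.valuation K (P.eval (j : K)) < 1
    have hbad : bad.card < (Finset.range (M + 1)).card := by
      rw [Finset.card_range]
      refine Nat.lt_succ_of_le ((Finset.card_biUnion_le_card_mul _ _ D fun w hw => ?_).trans ?_)
      · have hw' := good w (by rw [(Finset.mem_filter.1 hw).2]; exact hv)
        exact card_bad w hP1 (hP2 ▸ hw'.2.2.2.2.1) hw'.2.2.2.2.2
      · rw [hM, mul_comm]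
        exact Nat.mul_le_mul_left _ ((Finset.card_filter_le _ _).trans hT1)
    obtain ⟨j, hj1, hj2⟩ := Finset.exists_mem_notMem_of_card_lt_card hbad
    refine ⟨j, fun _ hv' w hw => le_antisymm ?_ ?_⟩
    · subst hw
      refine (good w hv).1.1 _ fun i => (w.valuation K).map_add_le (yint w hv hv' i) ?_
      rw [map_mul]
      exact mul_le_one' (val_nat w _) (val_nat w _)
    · by_contra hlt
      refine hj2 (Finset.mem_biUnion.2 ⟨w, Finset.mem_filter.2 ⟨hT2 w hw, hw⟩, ?_⟩)
      exact Finset.mem_filter.2 ⟨hj1, by rw [hP3]; exact not_le.1 hlt⟩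
  choose j hj using hj
  set P₁ : Finset (HeightOneSpectrum (𝓞 k)) :=
    (((fin_ne hry).toFinset.image (HeightOneSpectrum.under (𝓞 k))).erase v₀) with hP₁
  have hB : (0 : ℝ) < 1 + ∑ i, (b i : ℝ) := by positivity
  let H : K[X] := (sh (fun i => (b i : K)) h).map (MvPolynomial.eval fun i => algebraMap k K (y i))
  have hH : ∀ t, H.eval t =
      MvPolynomial.eval (fun i => algebraMap k K (y i) + (b i : K) * t) h := fun t => by
    rw [← ev2_eq, ev2_sh]
  have hH0 : H ≠ 0 := by
    intro h0
    have := hH 0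
    rw [h0] at this
    simp only [Polynomial.eval_zero, mul_zero, add_zero] at this
    exact hhy this.symm
  have hbox := (Box_infinite (S ∪ P₁) v₀ (by simp [hv₀, hP₁])
    (fun v => if v ∈ S then 0 else (j v : k)) (m + 1) 0 (div_pos (half_pos hε) hB)).image
    hinj.injOn
  obtain ⟨_, ⟨t, ht, rfl⟩, ht2⟩ := hbox.exists_notMem_finite (Polynomial.finite_setOfPred_isRoot hH0)
  obtain ⟨ht1, ht3, ht4⟩ := ht
  have hexp : (exp (-((m + 1 : ℕ) : ℤ)) : ℤᵐ⁰) < 1 := by
    rw [← exp_zero, exp_lt_exp]; omega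
  have tint : ∀ v, v ∉ S → v ≠ v₀ → v.valuation k t ≤ 1 := by
    intro v hv hv'
    by_cases h1 : v ∈ P₁
    · have h2 := ht1 v (Finset.mem_union_right _ h1)
      simp only [if_neg hv] at h2
      have := (v.valuation k).map_add_le (h2.trans hexp.le) (val_nat v (j v))
      rwa [sub_add_cancel] at this
    · exact ht3 v (by simp [hv, h1]) hv'
  have hev : ∀ p : MvPolynomial ι K, ev (fun i => y i + b i * t) p =
      MvPolynomial.eval (fun i => algebraMap k K (y i) + (b i : K) * algebraMap k K t) p := by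
    intro p; simp [ev]
  refine ⟨fun i => y i + b i * t, fun v hv i => ?_, fun φ i => ?_, fun v hv hv' i => ?_, ?_,
    fun w hw hw' => ?_⟩
  · rw [add_sub_right_comm]
    refine (v.valuation k).map_add_le ((hy i).1 v hv) ?_
    have h2 := ht1 v (Finset.mem_union_left _ hv)
    simp only [if_pos hv, sub_zero] at h2
    rw [map_mul]
    refine (mul_le_of_le_one_left' (val_nat v _)).trans (h2.trans ?_)
    rw [exp_le_exp]; omega
  · rw [add_sub_right_comm, map_add, map_mul, map_natCast]
    have h1 := (hy i).2.2 φ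
    have h2 := (lt_div_iff₀ hB).1 (ht4 φ)
    rw [sub_zero] at h2
    have h3 : (b i : ℝ) ≤ ∑ i, (b i : ℝ) :=
      Finset.single_le_sum (f := fun i => (b i : ℝ)) (fun _ _ => Nat.cast_nonneg _)
        (Finset.mem_univ i)
    have h4 := norm_add_le (φ (y i - x i)) ((b i : ℂ) * φ t)
    rw [norm_mul, Complex.norm_natCast] at h4
    nlinarith [norm_nonneg (φ t)]
  · refine (v.valuation k).map_add_le ((hy i).2.1 v hv hv') ?_
    rw [map_mul]
    exact mul_le_one' (val_nat v _) (tint v hv hv')
  · rw [hev, ← hH]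
    exact ht2
  · have hg := good w hw
    have t1 : w.valuation K (algebraMap k K t) ≤ 1 := under_le (tint _ hw hw')
    have s1 : ∀ u : K, w.valuation K u ≤ 1 →
        ∀ i, w.valuation K (algebraMap k K (y i) + (b i : K) * u) ≤ 1 := fun u hu i =>
      (w.valuation K).map_add_le (yint w hw hw' i) (by
        rw [map_mul]; exact mul_le_one' (val_nat w _) hu)
    rw [hev, hev]
    by_cases h1 : w.under (𝓞 k) ∈ P₁
    · left
      have h2 := ht1 _ (Finset.mem_union_right _ h1)
      simp only [if_neg hw] at h2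
      have h3 := under_lt (K := K) (h2.trans_lt hexp)
      rw [map_sub, map_natCast] at h3
      have h4 := hg.1.2 _ _ (s1 _ t1) (s1 _ (val_nat w (j (w.under (𝓞 k))))) fun i => by
        rw [add_sub_add_left_eq_sub, ← mul_sub, map_mul]
        exact (mul_le_of_le_one_left' (val_nat w _)).trans_lt h3
      have h5 := hj _ hw hw' w rfl
      have h6 := (w.valuation K).map_add_eq_of_lt_right (h4.trans_eq h5.symm)
      rw [sub_add_cancel] at h6
      exact h6.trans h5
    · have h2 : w.valuation K (MvPolynomial.eval (fun i => algebraMap k K (y i)) r) = 1 := by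
        by_contra h2
        exact h1 (Finset.mem_erase.2 ⟨hw', Finset.mem_image_of_mem _ (by simpa using h2)⟩)
      have h3 := congrArg (ev2 (fun i => algebraMap k K (y i)) (algebraMap k K t)) hUV
      rw [map_add, map_mul, map_mul, ev2_C, ev2_sh, ev2_sh] at h3
      by_contra h4
      rw [not_or] at h4
      have l1 := lt_of_le_of_ne (hg.1.1 _ (s1 _ t1)) h4.1
      have l2 := lt_of_le_of_ne (hg.2.1.1 _ (s1 _ t1)) h4.2
      rw [← h3] at h2
      refine ((w.valuation K).map_add_lt ?_ ?_).ne h2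
      · rw [map_mul]
        exact (mul_le_of_le_one_left' (hg.2.2.1 _ _ (yint w hw hw') t1)).trans_lt l1
      · rw [map_mul]
        exact (mul_le_of_le_one_left' (hg.2.2.2.1 _ _ (yint w hw hw') t1)).trans_lt l2

/-- **Line trick.** -/
theorem line {ι : Type*} [Fintype ι] {f g h : MvPolynomial ι K}
    (hfg : IsRelPrime f g) (hh : h ≠ 0) :
    ∃ S₀ : Finset (HeightOneSpectrum (𝓞 k)), ∀ S : Finset (HeightOneSpectrum (𝓞 k)), S₀ ⊆ S →
      ∀ v₀, v₀ ∉ S → ∀ (a : HeightOneSpectrum (𝓞 k) → ι → k) (m : ℕ) (x : ι → k) (ε : ℝ), 0 < ε →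
      ∃ s : ι → k, (∀ v ∈ S, ∀ i, v.valuation k (s i - a v i) ≤ exp (-(m : ℤ))) ∧
        (∀ (φ : k →+* ℂ) i, ‖φ (s i - x i)‖ < ε) ∧
        (∀ v, v ∉ S → v ≠ v₀ → ∀ i, v.valuation k (s i) ≤ 1) ∧ ev s h ≠ 0 ∧
        ∀ w : HeightOneSpectrum (𝓞 K), w.under (𝓞 k) ∉ S → w.under (𝓞 k) ≠ v₀ →
          w.valuation K (ev s f) = 1 ∨ w.valuation K (ev s g) = 1 := by
  by_cases hf : f = 0
  · have hg : g ≠ 0 := by
      subst hf
      exact (isRelPrime_zero_left.1 hfg).ne_zero
    obtain ⟨S₀, h0⟩ := line_aux (k := k) hg hfg.symm hh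
    refine ⟨S₀, fun S hS v₀ hv₀ a m x ε hε => ?_⟩
    obtain ⟨s, h1, h2, h3, h4, h5⟩ := h0 S hS v₀ hv₀ a m x ε hε
    exact ⟨s, h1, h2, h3, h4, fun w hw hw' => (h5 w hw hw').symm⟩
  · exact line_aux hf hfg hh

theorem ev_map {ι : Type*} (σ : K ≃ₐ[k] K) (s : ι → k) (f : MvPolynomial ι K) :
    ev s (MvPolynomial.map (σ : K →+* K) f) = σ (ev s f) := by
  induction f using MvPolynomial.induction_on with
  | C c => simp [ev]
  | add p q hp hq => simp only [ev, map_add] at *; rw [hp, hq]
  | mul_X p i hp =>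
    simp only [ev, map_mul, MvPolynomial.map_X, MvPolynomial.eval_X, AlgEquiv.commutes] at *
    rw [hp]

open Crest.NumberTheoryR.UnitaryMP in
/-- **Line trick**, conjugate form: `f s` is a unit at all non-split places off `S ∪ {v₀}`. -/
theorem line_sigma {ι : Type*} [Fintype ι] (σ : K ≃ₐ[k] K) {f h : MvPolynomial ι K}
    (hf : IsRelPrime f (MvPolynomial.map (σ : K →+* K) f)) (hh : h ≠ 0) :
    ∃ S₀ : Finset (HeightOneSpectrum (𝓞 k)), ∀ S : Finset (HeightOneSpectrum (𝓞 k)), S₀ ⊆ S →
      ∀ v₀, v₀ ∉ S → ∀ (a : HeightOneSpectrum (𝓞 k) → ι → k) (m : ℕ) (x : ι → k) (ε : ℝ), 0 < ε →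
      ∃ s : ι → k, (∀ v ∈ S, ∀ i, v.valuation k (s i - a v i) ≤ exp (-(m : ℤ))) ∧
        (∀ (φ : k →+* ℂ) i, ‖φ (s i - x i)‖ < ε) ∧
        (∀ v, v ∉ S → v ≠ v₀ → ∀ i, v.valuation k (s i) ≤ 1) ∧ ev s h ≠ 0 ∧
        ∀ w : HeightOneSpectrum (𝓞 K), w.under (𝓞 k) ∉ S → w.under (𝓞 k) ≠ v₀ →
          ¬ SplitsBelow σ w → w.valuation K (ev s f) = 1 := by
  obtain ⟨S₀, h0⟩ := line (k := k) hf hh
  refine ⟨S₀, fun S hS v₀ hv₀ a m x ε hε => ?_⟩
  obtain ⟨s, h1, h2, h3, h4, h5⟩ := h0 S hS v₀ hv₀ a m x ε hε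
  refine ⟨s, h1, h2, h3, h4, fun w hw hw' hσ => ?_⟩
  rcases h5 w hw hw' with h | h
  · exact h
  · rw [ev_map] at h
    by_contra h'
    exact hσ ⟨ev s f, by rw [h]; exact Ne.symm h'⟩

end Main

end Crest.Agent.T24.Line
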