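import Crest.Agent.T24.LocA_59

/-!
# Row 24 (helper59): structure of central division algebras over local fields

`Cyc F π ζ M r` : `π ζ = ζ ^ r π`.  `WW F ζ` is the unramified maximal subfield, `h.sig` the conjugation by `π`,
`h.n` its order; `h.rank : finrank F D = h.n ^ 2`, `h.bas` the basis `π ^ j` over `WW F ζ`.
-/

set_option autoImplicit false

namespace Crest.Agent.T24.Loc

open Finset Module

section res
variable {E : Type*} [NormedDivisionRing E] [IsUltrametricDist E] {π ζ : E} {M : ℕ}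

omit [IsUltrametricDist E] in
/-- successive approximation -/
theorem le_of_approx {A C : AddSubgroup E} (hA : IsClosed (A : Set E)) (hAC : A ≤ C) {θ : ℝ} (hθ : θ < 1)
    (h : ∀ x ∈ C, x ≠ 0 → ∃ a ∈ A, ‖x - a‖ ≤ θ * ‖x‖) : C ≤ A := fun x hx => by
  have key : ∀ k : ℕ, ∃ a ∈ A, ‖x - a‖ ≤ max θ 0 ^ k * ‖x‖ := fun k => by
    induction k with
    | zero => exact ⟨0, A.zero_mem, by simp⟩
    | succ k ih =>
      obtain ⟨a, ha, h1⟩ := ih
      by_cases h0 : x - a = 0
      · exact ⟨a, ha, by rw [h0, norm_zero]; positivity⟩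
      obtain ⟨b, hb, h2⟩ := h _ (C.sub_mem hx (hAC ha)) h0
      refine ⟨a + b, A.add_mem ha hb, ?_⟩
      rw [← sub_sub, pow_succ', mul_assoc]
      exact h2.trans (mul_le_mul (le_max_left _ _) h1 (norm_nonneg _) (le_max_right _ _))
  rw [← SetLike.mem_coe, ← hA.closure_eq, Metric.mem_closure_iff]
  intro ε hε
  have h1 := (tendsto_pow_atTop_nhds_zero_of_lt_one (le_max_right θ 0) (max_lt hθ one_pos)).mul_const ‖x‖
  rw [zero_mul] at h1
  obtain ⟨k, hk⟩ := (h1.eventually (gt_mem_nhds hε)).exists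
  obtain ⟨a, ha, h2⟩ := key k
  exact ⟨a, ha, by rw [dist_eq_norm]; exact h2.trans_lt hk⟩

/-- the centraliser of an element, as an additive subgroup -/
def cz {R : Type*} [Ring R] (x : R) : AddSubgroup R where
  carrier := {y | Commute x y}
  add_mem' := Commute.add_right
  zero_mem' := Commute.zero_right x
  neg_mem' := Commute.neg_right

omit [IsUltrametricDist E] in
theorem norm_eq_one_of_pow {x : E} {n : ℕ} (hn : n ≠ 0) (h : x ^ n = 1) : ‖x‖ = 1 :=
  (pow_eq_one_iff_of_nonneg (norm_nonneg x) hn).1 (by rw [← norm_pow, h, norm_one])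

omit [IsUltrametricDist E] in
theorem geom_zero {y : E} {n : ℕ} (h : y ^ n = 1) (h1 : y ≠ 1) : ∑ i ∈ range n, y ^ i = 0 := by
  have := mul_geom_sum y n
  rw [h, sub_self, mul_eq_zero, sub_eq_zero] at this
  exact this.resolve_left h1

namespace Res
variable (h : Res π ζ M)
include h

omit [IsUltrametricDist E] in
theorem norm_pos : 0 < ‖π‖ := norm_pos_iff.2 h.ne
omit [IsUltrametricDist E] in
theorem norm_z : ‖ζ‖ = 1 := norm_eq_one_of_pow h.pos.ne' h.pow
omit [IsUltrametricDist E] in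
theorem z_ne : ζ ≠ 0 := norm_ne_zero_iff.1 (by rw [h.norm_z]; exact one_ne_zero)
omit [IsUltrametricDist E] in
theorem norm_zp (i : ℕ) : ‖ζ ^ i‖ = 1 := by rw [norm_pow, h.norm_z, one_pow]
omit [IsUltrametricDist E] in
theorem zp_pow (i : ℕ) : (ζ ^ i) ^ M = 1 := by rw [← pow_mul, mul_comm, pow_mul, h.pow, one_pow]
theorem norm_M : ‖(M : E)‖ = 1 := by
  rw [← norm_one (α := E), ← norm_neg (1 : E)]
  exact norm_eq_of_lt (by simpa using h.card)
theorem M_ne : (M : E) ≠ 0 := norm_ne_zero_iff.1 (by rw [h.norm_M]; exact one_ne_zero)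

omit [IsUltrametricDist E] in
theorem change {π' : E} (h1 : ‖π'‖ = ‖π‖) : Res π' ζ M :=
  { h with
    ne := norm_pos_iff.1 (h1 ▸ h.norm_pos)
    lt := h1 ▸ h.lt
    le := h1 ▸ h.le }

omit [IsUltrametricDist E] in
theorem le_mul {x y : E} (h1 : ‖x‖ < ‖y‖) : ‖x‖ ≤ ‖π‖ * ‖y‖ := by
  have hy : 0 < ‖y‖ := (norm_nonneg x).trans_lt h1
  have := h.le (x * y⁻¹) (by rwa [norm_mul, norm_inv, ← div_eq_mul_inv, div_lt_one hy])
  rwa [norm_mul, norm_inv, ← div_eq_mul_inv, div_le_iff₀ hy] at this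

omit [IsUltrametricDist E] in
theorem val {x : E} (hx : x ≠ 0) : ∃ k : ℤ, ‖x‖ = ‖π‖ ^ k := by
  obtain ⟨k, h1, h2⟩ := exists_mem_Ioc_zpow (norm_pos_iff.2 hx) ((one_lt_inv₀ h.norm_pos).2 h.lt)
  rw [inv_zpow'] at h1 h2
  refine ⟨-(k + 1), h2.antisymm (not_lt.1 fun h3 => ?_)⟩
  have := h.le_mul (x := x) (y := π ^ (-(k + 1))) (by rwa [norm_zpow])
  rw [norm_zpow, ← zpow_one_add₀ h.norm_pos.ne', show 1 + -(k + 1) = -k by ring] at this
  exact absurd h1 (not_lt.2 this)

omit [IsUltrametricDist E] in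
theorem val_nat {x : E} (hx : x ≠ 0) (h1 : ‖x‖ ≤ 1) : ∃ k : ℕ, ‖x‖ = ‖π‖ ^ k := by
  obtain ⟨k, hk⟩ := h.val hx
  have : 0 ≤ k := by rwa [hk, zpow_le_one_iff_right_of_lt_one₀ h.norm_pos h.lt] at h1
  lift k to ℕ using this
  exact ⟨k, by simpa using hk⟩

omit [IsUltrametricDist E] in
theorem approx {x y : E} (hy : y ≠ 0) (h1 : ‖x‖ = ‖y‖) : ∃ i : ℕ, ‖x - ζ ^ i * y‖ < ‖y‖ := by
  have h0 := norm_pos_iff.2 hy
  obtain ⟨i, hi⟩ := h.gen (x * y⁻¹) (by rw [norm_mul, norm_inv, h1, mul_inv_cancel₀ h0.ne'])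
  refine ⟨i, ?_⟩
  rw [show x - ζ ^ i * y = (x * y⁻¹ - ζ ^ i) * y by rw [sub_mul, inv_mul_cancel_right₀ hy], norm_mul]
  exact mul_lt_of_lt_one_left h0 hi

theorem zp_eq {i j : ℕ} (h1 : ‖ζ ^ i - ζ ^ j‖ < 1) : ζ ^ i = ζ ^ j :=
  eq_of_pow_eq h.norm_M ((Commute.refl ζ).pow_pow i j) (h.norm_zp j) h1 (by rw [h.zp_pow, h.zp_pow])

theorem norm_zp_sub {i j : ℕ} (h1 : ζ ^ i ≠ ζ ^ j) : ‖ζ ^ i - ζ ^ j‖ = 1 :=
  (norm_sub_le_of (h.norm_zp i).le (h.norm_zp j).le).antisymm (not_lt.1 (mt h.zp_eq h1))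

/-- the residue ring is commutative -/
theorem res_comm {x y : E} (hx : ‖x‖ ≤ 1) (hy : ‖y‖ ≤ 1) : ‖x * y - y * x‖ < 1 := by
  rcases hx.lt_or_eq with h1 | h1
  · refine norm_sub_lt_of ?_ ?_ <;> rw [norm_mul]
    · exact mul_lt_one_of_nonneg_of_lt_one_left (norm_nonneg _) h1 hy
    · exact mul_lt_one_of_nonneg_of_lt_one_right hy (norm_nonneg _) h1
  rcases hy.lt_or_eq with h2 | h2
  · refine norm_sub_lt_of ?_ ?_ <;> rw [norm_mul]
    · exact mul_lt_one_of_nonneg_of_lt_one_right hx (norm_nonneg _) h2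
    · exact mul_lt_one_of_nonneg_of_lt_one_left (norm_nonneg _) h2 hx
  obtain ⟨i, hi⟩ := h.gen x h1
  obtain ⟨j, hj⟩ := h.gen y h2
  refine tri_lt (y := ζ ^ i * ζ ^ j) ((norm_mul_sub_mul (h.norm_zp i).le hy (le_max_left _ _)
    (le_max_right _ _)).trans_lt (max_lt hi hj)) ?_
  rw [norm_sub_rev, ((Commute.refl ζ).pow_pow i j).eq]
  exact (norm_mul_sub_mul (h.norm_zp j).le hx (le_max_left _ _) (le_max_right _ _)).trans_lt (max_lt hj hi)

omit [IsUltrametricDist E] in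
theorem eq_top {A : AddSubgroup E} (hA : IsClosed (A : Set E)) (h1 : ∀ (i : ℕ) (k : ℤ), ζ ^ i * π ^ k ∈ A)
    (x : E) : x ∈ A :=
  le_of_approx (C := ⊤) hA le_top h.lt (fun x _ hx => by
    obtain ⟨k, hk⟩ := h.val hx
    rw [← norm_zpow] at hk
    obtain ⟨i, hi⟩ := h.approx (zpow_ne_zero k h.ne) hk
    exact ⟨_, h1 i k, h.le_mul (hk ▸ hi)⟩) trivial

omit [IsUltrametricDist E] in
theorem central {x : E} (h1 : Commute x ζ) (h2 : Commute x π) (y : E) : Commute x y :=
  h.eq_top (A := cz x) (isClosed_eq (continuous_const_mul x) (continuous_mul_const x))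
    (fun i k => (h1.pow_right i).mul_right (h2.zpow_right₀ k)) y

/-- an element that conjugates `y` to a given congruent root of unity -/
theorem exists_conj {x a b : E} (ha : a ^ M = 1) (hb : b ^ M = 1) (h1 : ‖a * x - x * b‖ < ‖x‖) :
    ‖∑ i ∈ range M, a ^ i * x * b⁻¹ ^ i‖ = ‖x‖ ∧
      a * ∑ i ∈ range M, a ^ i * x * b⁻¹ ^ i = (∑ i ∈ range M, a ^ i * x * b⁻¹ ^ i) * b := by
  have hb1 := norm_eq_one_of_pow h.pos.ne' hb
  have hb0 : b ≠ 0 := norm_ne_zero_iff.1 (by rw [hb1]; exact one_ne_zero)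
  have h2 : ‖(M : E) * x‖ = ‖x‖ := by rw [norm_mul, h.norm_M, one_mul]
  refine ⟨(norm_eq_of_lt ?_).trans h2, ?_⟩
  · refine (twist_near (norm_eq_one_of_pow h.pos.ne' ha) (by rw [norm_inv, hb1, inv_one]) M).trans_lt ?_
    rwa [h2, show a * x * b⁻¹ - x = (a * x - x * b) * b⁻¹ by rw [sub_mul, mul_inv_cancel_right₀ hb0],
      norm_mul, norm_inv, hb1, inv_one, mul_one]
  · conv_rhs => rw [← twist ha (show b⁻¹ ^ M = 1 by rw [inv_pow, hb, inv_one]), inv_mul_cancel_right₀ hb0]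

theorem exists_normal : ∃ (π' : E) (r : ℕ), Res π' ζ M ∧ π' * ζ = ζ ^ r * π' := by
  obtain ⟨r, hr⟩ := h.approx (x := π * ζ) h.ne (by rw [norm_mul, h.norm_z, mul_one])
  obtain ⟨h1, h2⟩ := h.exists_conj (h.zp_pow r) h.pow (x := π) (by rwa [norm_sub_rev])
  exact ⟨_, r, h.change h1, h2.symm⟩

end Res
end res

section W
variable (F : Type*) [Field F] {D : Type*} [DivisionRing D] [Algebra F D]

/-- the subfield generated by `ζ` -/
def WW (ζ : D) : Subalgebra F D := Algebra.adjoin F {ζ}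

variable {F}

theorem self_mem_WW (ζ : D) : ζ ∈ WW F ζ := Algebra.self_mem_adjoin_singleton F ζ

theorem comm_WW {ζ x y : D} (hx : x ∈ WW F ζ) (h : Commute y ζ) : Commute y x :=
  Algebra.commute_of_mem_adjoin_singleton_of_commute hx h

theorem comm_WW' {ζ x y : D} (hx : x ∈ WW F ζ) (hy : y ∈ WW F ζ) : Commute x y :=
  comm_WW hy (comm_WW hx (Commute.refl ζ)).symm

/-- `ζ` as an element of `WW F ζ` -/
def zz (F : Type*) [Field F] [Algebra F D] (ζ : D) : WW F ζ := ⟨ζ, self_mem_WW ζ⟩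

@[simp] theorem coe_zz (ζ : D) : (zz F ζ : D) = ζ := rfl

variable [FiniteDimensional F D]

theorem isField_WW (ζ : D) : IsField (WW F ζ) :=
  ⟨exists_pair_ne _, fun x y => Subtype.ext (comm_WW' x.2 y.2).eq, fun {a} ha =>
    LinearMap.surjective_of_injective (f := LinearMap.mulLeft F a) (mul_right_injective₀ ha) 1⟩

noncomputable instance (ζ : D) : Field (WW F ζ) := (isField_WW ζ).toField

theorem coe_inv_WW {ζ : D} (x : WW F ζ) : ((x⁻¹ : WW F ζ) : D) = (x : D)⁻¹ :=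
  map_inv₀ (WW F ζ).val x

end W

section cyc
variable {F : Type*} [NontriviallyNormedField F] {D : Type*} [NormedDivisionRing D] [NormedAlgebra F D]
  {π ζ : D} {M r : ℕ}

variable (F) in
/-- a uniformiser that normalises the Teichmüller group -/
structure Cyc (π ζ : D) (M r : ℕ) : Prop extends Res π ζ M where
  conj : π * ζ = ζ ^ r * π
  fin : FiniteDimensional F D

theorem exists_cyc [ProperSpace F] [IsUltrametricDist D] [FiniteDimensional F D] :
    ∃ (π ζ : D) (M r : ℕ), Cyc F π ζ M r := by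
  have := FiniteDimensional.proper F D
  obtain ⟨c, h0, h1⟩ := NormedField.exists_norm_lt_one F
  obtain ⟨π, ζ, h⟩ := exists_res (E := D) ⟨algebraMap F D c, by simpa using h0, by simpa using h1⟩
  obtain ⟨π', r, h2, h3⟩ := h.exists_normal
  exact ⟨π', ζ, _, r, h2, h3, ‹_›⟩

variable [FiniteDimensional F D]

noncomputable instance (ζ : D) : NormedField (WW F ζ) :=
  { (inferInstance : Field (WW F ζ)), (inferInstance : NormedRing (WW F ζ)) with
    norm_mul := fun x y => norm_mul (x : D) y }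

noncomputable instance (ζ : D) : NormedAlgebra F (WW F ζ) := (WW F ζ).toNormedAlgebra

theorem norm_WW (x : WW F ζ) : ‖x‖ = ‖(x : D)‖ := rfl

namespace Cyc
variable (h : Cyc F π ζ M r)
include h

omit [FiniteDimensional F D] in
theorem conj_pow (s : ℕ) : π ^ s * ζ = ζ ^ r ^ s * π ^ s := by
  induction s with
  | zero => simp
  | succ s ih =>
    rw [pow_succ, mul_assoc, h.conj, ← mul_assoc, (SemiconjBy.pow_right ih r).eq, ← pow_mul, mul_assoc,
      ← pow_succ, ← pow_succ]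

/-- conjugation by `π` -/
noncomputable def sig : WW F ζ ≃ₐ[F] WW F ζ :=
  let f : D →ₐ[F] D :=
    { toFun x := π * x * π⁻¹
      map_one' := by simp [h.ne]
      map_mul' x y := by simp [mul_assoc, h.ne]
      map_zero' := by simp
      map_add' x y := by simp [mul_add, add_mul]
      commutes' c := by rw [← Algebra.commutes, mul_inv_cancel_right₀ h.ne] }
  let g : WW F ζ →ₐ[F] WW F ζ := (f.comp (WW F ζ).val).codRestrict _ fun x => by
    have : (WW F ζ).map f ≤ WW F ζ := by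
      rw [WW, AlgHom.map_adjoin_singleton, Algebra.adjoin_le_iff, Set.singleton_subset_iff]
      change π * ζ * π⁻¹ ∈ WW F ζ
      rw [h.conj, mul_inv_cancel_right₀ h.ne]
      exact pow_mem (self_mem_WW ζ) r
    exact this ⟨x, x.2, rfl⟩
  AlgEquiv.ofBijective g g.bijective

theorem coe_sig (w : WW F ζ) : (h.sig w : D) = π * w * π⁻¹ := rfl

theorem sig_mul (w : WW F ζ) : (h.sig w : D) * π = π * w := by
  rw [coe_sig, inv_mul_cancel_right₀ h.ne]

theorem sig_pow_mul (s : ℕ) (w : WW F ζ) : ((h.sig ^ s) w : D) * π ^ s = π ^ s * w := by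
  induction s with
  | zero => simp
  | succ s ih =>
    rw [pow_succ', AlgEquiv.mul_apply, pow_succ' π, ← mul_assoc, sig_mul, mul_assoc, ih, mul_assoc]

theorem norm_sig_pow (s : ℕ) (w : WW F ζ) : ‖(h.sig ^ s) w‖ = ‖w‖ := by
  have := congrArg norm (h.sig_pow_mul s w)
  rw [norm_mul, norm_mul, mul_comm] at this
  exact mul_left_cancel₀ (norm_ne_zero_iff.2 (pow_ne_zero s h.ne)) this

theorem norm_sig (w : WW F ζ) : ‖h.sig w‖ = ‖w‖ := by simpa using h.norm_sig_pow 1 w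

theorem sig_pow_zz (s : ℕ) : (h.sig ^ s) (zz F ζ) = zz F ζ ^ r ^ s :=
  Subtype.ext (mul_right_cancel₀ (pow_ne_zero s h.ne) (by rw [sig_pow_mul]; exact h.conj_pow s))

/-- the degree -/
noncomputable def n : ℕ := orderOf h.sig

theorem n_pos : 0 < h.n := orderOf_pos _

theorem comm_iff {s : ℕ} : Commute (π ^ s) ζ ↔ h.n ∣ s := by
  rw [n, orderOf_dvd_iff_pow_eq_one]
  refine ⟨fun h1 => AlgEquiv.ext fun w => Subtype.ext (mul_right_cancel₀ (pow_ne_zero s h.ne) ?_),
    fun h1 => ?_⟩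
  · rw [sig_pow_mul]; exact (comm_WW w.2 h1).eq
  · simpa [h1, commute_iff_eq] using (h.sig_pow_mul s (zz F ζ)).symm

theorem zp_eq_iff {s : ℕ} : ζ ^ r ^ s = ζ ↔ h.n ∣ s := by
  rw [← comm_iff, commute_iff_eq, h.conj_pow, mul_left_inj' (pow_ne_zero s h.ne)]

variable [IsUltrametricDist D]

theorem dvd_nat {x : D} (hx : Commute x ζ) {k : ℕ} (hk : ‖x‖ = ‖π‖ ^ k) : h.n ∣ k := by
  have h0 := pow_ne_zero k h.ne
  have h1 : ‖x * (π ^ k)⁻¹‖ = 1 := by
    rw [norm_mul, norm_inv, norm_pow, hk, mul_inv_cancel₀ (pow_pos h.norm_pos k).ne']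
  have h2 := h.res_comm h1.le h.norm_z.le
  rw [← mul_assoc, ← hx.eq, mul_assoc x ζ, show ζ * (π ^ k)⁻¹ = (π ^ k)⁻¹ * ζ ^ r ^ k by
    rw [eq_inv_mul_iff_mul_eq₀ h0, ← mul_assoc, h.conj_pow, mul_inv_cancel_right₀ h0], ← mul_assoc,
    ← mul_sub, norm_mul, h1, one_mul] at h2
  exact h.zp_eq_iff.1 (by simpa using (h.zp_eq (i := 1) (by simpa using h2)).symm)

theorem dvd_int {x : D} (hx : Commute x ζ) {k : ℤ} (hk : ‖x‖ = ‖π‖ ^ k) : (h.n : ℤ) ∣ k := by
  obtain ⟨k, rfl | rfl⟩ := k.eq_nat_or_neg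
  · exact Int.natCast_dvd_natCast.2 (h.dvd_nat hx (by simpa using hk))
  · exact dvd_neg.2 (Int.natCast_dvd_natCast.2 (h.dvd_nat hx.inv_left₀ (by simp [hk])))

variable [Algebra.IsCentral F D]

omit [IsUltrametricDist D] [FiniteDimensional F D] in
theorem mem_bot {x : D} (h1 : Commute x ζ) (h2 : Commute x π) : ∃ c : F, algebraMap F D c = x :=
  Algebra.mem_bot.1 (Algebra.IsCentral.out
    (Subalgebra.mem_center_iff.2 fun y => (h.central h1 h2 y).eq.symm))

/-- the uniformiser `π ^ n` of `F` -/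
noncomputable def vp : F := (h.mem_bot (h.comm_iff.2 dvd_rfl) ((Commute.refl π).pow_left _)).choose

omit [IsUltrametricDist D] in
theorem vp_eq : algebraMap F D h.vp = π ^ h.n :=
  (h.mem_bot (h.comm_iff.2 dvd_rfl) ((Commute.refl π).pow_left _)).choose_spec

omit [IsUltrametricDist D] in
theorem norm_vp : ‖h.vp‖ = ‖π‖ ^ h.n := by rw [← norm_pow, ← vp_eq, norm_algebraMap']

omit [IsUltrametricDist D] in
theorem vp_ne : h.vp ≠ 0 := norm_pos_iff.1 (h.norm_vp ▸ pow_pos h.norm_pos _)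

omit [IsUltrametricDist D] in
theorem vp_lt : ‖h.vp‖ < 1 := h.norm_vp ▸ pow_lt_one₀ (norm_nonneg _) h.lt h.n_pos.ne'

theorem val_comm {x : D} (hx : Commute x ζ) (h0 : x ≠ 0) : ∃ k : ℤ, ‖x‖ = ‖h.vp‖ ^ k := by
  obtain ⟨k, hk⟩ := h.val h0
  obtain ⟨k, rfl⟩ := h.dvd_int hx hk
  exact ⟨k, by rw [hk, zpow_mul, norm_vp, zpow_natCast]⟩

theorem le_vp {x : D} (hx : Commute x ζ) (h1 : ‖x‖ < 1) : ‖x‖ ≤ ‖h.vp‖ := by
  by_cases h0 : x = 0
  · simp [h0]
  obtain ⟨k, hk⟩ := h.val_comm hx h0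
  rw [hk] at h1 ⊢
  have h2 := norm_pos_iff.2 h.vp_ne
  rw [zpow_lt_one_iff_right_of_lt_one₀ h2 h.vp_lt] at h1
  simpa using zpow_le_zpow_right_of_le_one₀ h2 h.vp_lt.le (show 1 ≤ k by omega)

/-- `vp` is a uniformiser of `F` -/
theorem le_vp' {c : F} (h1 : ‖c‖ < 1) : ‖c‖ ≤ ‖h.vp‖ := by
  simpa using h.le_vp (x := algebraMap F D c) (Algebra.commutes c ζ) (by simpa using h1)

/-- `W` is unramified over `F` with the residue field of `D` -/
theorem resW : Res (algebraMap F (WW F ζ) h.vp) (zz F ζ) M where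
  ne := by simpa using h.vp_ne
  lt := by simpa using h.vp_lt
  le x hx := by rw [norm_algebraMap']; exact h.le_vp (comm_WW' x.2 (self_mem_WW ζ)) hx
  pos := h.pos
  pow := Subtype.ext h.pow
  dvd i hi := h.dvd i hi
  gen x hx := h.gen x hx
  card := h.card

theorem mem_WW [CompleteSpace F] {x : D} : x ∈ WW F ζ ↔ Commute x ζ := by
  refine ⟨fun hx => comm_WW' hx (self_mem_WW ζ), fun hx => ?_⟩
  refine le_of_approx (A := (WW F ζ).toSubring.toAddSubgroup) (C := cz ζ)
    (WW F ζ).toSubmodule.closed_of_finiteDimensional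
    (fun y hy => comm_WW hy (Commute.refl ζ)) h.lt (fun y hy h0 => ?_) hx.symm
  obtain ⟨k, hk⟩ := h.val_comm (Commute.symm hy) h0
  have h1 : ‖y‖ = ‖algebraMap F D (h.vp ^ k)‖ := by rw [norm_algebraMap', norm_zpow, hk]
  obtain ⟨i, hi⟩ := h.approx ((map_ne_zero _).2 (zpow_ne_zero k h.vp_ne)) h1
  exact ⟨_, (WW F ζ).mul_mem (pow_mem (self_mem_WW ζ) i) (algebraMap_mem _ _), h.le_mul (h1 ▸ hi)⟩

omit [IsUltrametricDist D] in
theorem fixed {w : WW F ζ} (hw : h.sig w = w) : ∃ c : F, algebraMap F _ c = w := by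
  obtain ⟨c, hc⟩ := h.mem_bot (comm_WW' w.2 (self_mem_WW ζ)) (by simpa [hw, commute_iff_eq] using h.sig_mul w)
  exact ⟨c, Subtype.ext hc⟩

omit [IsUltrametricDist D] in
theorem fixedField_eq : IntermediateField.fixedField (Subgroup.zpowers h.sig) = ⊥ :=
  eq_bot_iff.2 fun _ hw => IntermediateField.mem_bot.2
    (h.fixed ((IntermediateField.mem_fixedField_iff _ _).1 hw _ (Subgroup.mem_zpowers _)))

omit [IsUltrametricDist D] in
theorem rankW : finrank F (WW F ζ) = h.n := by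
  have := IntermediateField.finrank_fixedField_eq_card (Subgroup.zpowers h.sig)
  rwa [h.fixedField_eq, IntermediateField.finrank_bot', Nat.card_zpowers] at this

omit [IsUltrametricDist D] in
theorem galois : IsGalois F (WW F ζ) :=
  IsGalois.of_fixedField_eq_bot F _
    (eq_bot_iff.2 (h.fixedField_eq ▸ IntermediateField.fixedField_antitone le_top))

omit [IsUltrametricDist D] in
theorem zpowers_eq : Subgroup.zpowers h.sig = ⊤ := by
  have := h.galois
  rw [← IntermediateField.fixingSubgroup_fixedField (Subgroup.zpowers h.sig), h.fixedField_eq,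
    IntermediateField.fixingSubgroup_bot]

omit [IsUltrametricDist D] in
theorem bij_pow : Function.Bijective fun j : Fin h.n => h.sig ^ (j : ℕ) := by
  have := h.galois
  rw [Nat.bijective_iff_injective_and_card, IsGalois.card_aut_eq_finrank, h.rankW]
  exact ⟨fun i j hij => Fin.ext (pow_injOn_Iio_orderOf i.2 j.2 hij), by simp⟩

omit [IsUltrametricDist D] in
theorem norm_eq (w : WW F ζ) :
    algebraMap F _ (Algebra.norm F w) = ∏ j ∈ range h.n, (h.sig ^ j) w := by
  have := h.galois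
  rw [Algebra.norm_eq_prod_automorphisms, prod_range]
  exact (h.bij_pow.prod_comp fun g => g w).symm

omit [IsUltrametricDist D] in
theorem trace_eq (w : WW F ζ) :
    algebraMap F _ (Algebra.trace F _ w) = ∑ j ∈ range h.n, (h.sig ^ j) w := by
  have := h.galois
  rw [trace_eq_sum_automorphisms, sum_range]
  exact (h.bij_pow.sum_comp fun g => g w).symm

omit [IsUltrametricDist D] [Algebra.IsCentral F D] in
theorem sig_zz_inj {i j : ℕ} (hi : i < h.n) (hj : j < h.n)
    (hij : (h.sig ^ i) (zz F ζ) = (h.sig ^ j) (zz F ζ)) : i = j := by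
  refine pow_injOn_Iio_orderOf hi hj (AlgEquiv.coe_toAlgHom_injective ?_)
  exact AlgHom.ext_of_eq_adjoin rfl fun x hx => by
    obtain rfl := Set.mem_singleton_iff.1 hx
    exact hij

omit [IsUltrametricDist D] [Algebra.IsCentral F D] in
theorem linInd : LinearIndependent (WW F ζ) fun j : Fin h.n => π ^ (j : ℕ) :=
  Module.End.eigenvectors_linearIndependent' (LinearMap.mulRight (WW F ζ) ζ)
    (fun j : Fin h.n => (h.sig ^ (j : ℕ)) (zz F ζ)) (fun i j hij => Fin.ext (h.sig_zz_inj i.2 j.2 hij)) _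
    fun j => ⟨Module.End.mem_eigenspace_iff.2 (h.sig_pow_mul j (zz F ζ)).symm, pow_ne_zero _ h.ne⟩

omit [IsUltrametricDist D] in
theorem zpow_eq (k : ℤ) : ∃ (c : F) (j : Fin h.n), π ^ k = algebraMap F D c * π ^ (j : ℕ) := by
  have h0 : (0 : ℤ) < h.n := by exact_mod_cast h.n_pos
  have h1 := Int.emod_nonneg k h0.ne'
  have h2 := Int.emod_lt_of_pos k h0
  refine ⟨h.vp ^ (k / h.n), ⟨(k % h.n).toNat, by omega⟩, ?_⟩
  rw [map_zpow₀, vp_eq, ← zpow_natCast, ← zpow_mul, ← zpow_natCast, ← zpow_add₀ h.ne,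
    Int.toNat_of_nonneg h1, Int.mul_ediv_add_emod]

variable [CompleteSpace F]

omit [IsUltrametricDist D] in
theorem span_top : ⊤ ≤ Submodule.span (WW F ζ) (Set.range fun j : Fin h.n => π ^ (j : ℕ)) := fun x _ =>
  h.eq_top (A := (Submodule.span (WW F ζ) _).toAddSubgroup)
    ((Submodule.span (WW F ζ) _).restrictScalars F).closed_of_finiteDimensional (fun i k => by
      obtain ⟨c, j, hj⟩ := h.zpow_eq k
      rw [hj, ← mul_assoc]
      exact Submodule.smul_mem _ (zz F ζ ^ i * algebraMap F _ c) (Submodule.subset_span ⟨j, rfl⟩)) x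

/-- the basis `π ^ j` of `D` over `W` -/
noncomputable def bas : Basis (Fin h.n) (WW F ζ) D := Basis.mk h.linInd h.span_top

omit [IsUltrametricDist D] in
theorem bas_apply (j : Fin h.n) : h.bas j = π ^ (j : ℕ) := Basis.mk_apply _ _ j

omit [IsUltrametricDist D] in
theorem rank : finrank F D = h.n ^ 2 := by
  rw [← finrank_mul_finrank F (WW F ζ) D, h.rankW, finrank_eq_card_basis h.bas, Fintype.card_fin, sq]

omit [IsUltrametricDist D] in
theorem n_eq {n : ℕ} (hn : finrank F D = n ^ 2) : h.n = n :=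
  Nat.pow_left_injective two_ne_zero (h.rank.symm.trans hn)

/-- `W` splits `D` -/
noncomputable def rep : D →ₐ[F] Matrix (Fin h.n) (Fin h.n) (WW F ζ) where
  toFun x := Matrix.of fun i j => h.bas.repr (π ^ (i : ℕ) * x) j
  map_one' := by
    ext i j : 1
    rw [Matrix.of_apply, mul_one, ← bas_apply, Basis.repr_self, Finsupp.single_apply, Matrix.one_apply]
  map_mul' x y := by
    ext i k : 1
    rw [Matrix.of_apply, Matrix.mul_apply, ← mul_assoc]
    conv_lhs => rw [← h.bas.sum_repr (π ^ (i : ℕ) * x), sum_mul, map_sum, Finsupp.finsetSum_apply]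
    exact sum_congr rfl fun j _ => by rw [smul_mul_assoc, map_smul, bas_apply]; rfl
  map_zero' := by ext i j : 1; simp
  map_add' x y := by ext i j : 1; simp [mul_add]
  commutes' c := by
    ext i j : 1
    rw [Matrix.of_apply, ← Algebra.commutes, ← bas_apply,
      show algebraMap F D c * h.bas i = algebraMap F (WW F ζ) c • h.bas i from rfl, map_smul, Basis.repr_self,
      Matrix.algebraMap_matrix_apply]
    simp [Finsupp.single_apply, Algebra.algebraMap_eq_smul_one]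

omit [IsUltrametricDist D] in
theorem rep_W (w : WW F ζ) : h.rep w = Matrix.diagonal fun j : Fin h.n => (h.sig ^ (j : ℕ)) w := by
  ext i j : 1
  change h.bas.repr (π ^ (i : ℕ) * w) j = _
  rw [← h.sig_pow_mul, ← h.bas_apply, show ((h.sig ^ (i : ℕ)) w : D) * h.bas i = (h.sig ^ (i : ℕ)) w • h.bas i from rfl,
    map_smul, Basis.repr_self, Matrix.diagonal_apply]
  simp [Finsupp.single_apply]

omit [IsUltrametricDist D] in
theorem det_rep_W (w : WW F ζ) : (h.rep w).det = algebraMap F _ (Algebra.norm F w) := by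
  rw [rep_W, Matrix.det_diagonal, norm_eq, prod_range]

end Cyc
end cyc

end Crest.Agent.T24.Loc
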