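import Crest.Agent.T24.WgNrd_25
import Crest.Agent.T24.WallB_86
import Crest.Agent.T24.Csa4_50

/-!
# Row 24 (helper15): `SL₁ (C)` over `ℝ`, `ℂ` and `SU (A)` over `ℂ / ℝ` are path connected
-/

set_option autoImplicit false
set_option linter.unusedSectionVars false

noncomputable section

namespace Crest.Agent.T24.L15

open Module Matrix Csa Wg Wall

/-! ## paths -/

section pth
variable {G : Type*} [Group G] [TopologicalSpace G] [IsTopologicalGroup G] {S : Subgroup G}

/-- the elements joined to `1` by a path in `S` -/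
def Pth (S : Subgroup G) : Subgroup G where
  carrier := {u | ∃ f : ℝ → G, Continuous f ∧ f 0 = 1 ∧ f 1 = u ∧ ∀ t, f t ∈ S}
  one_mem' := ⟨fun _ => 1, continuous_const, rfl, rfl, fun _ => S.one_mem⟩
  mul_mem' := by
    rintro _ _ ⟨f, f1, f2, rfl, f4⟩ ⟨g, g1, g2, rfl, g4⟩
    exact ⟨fun t => f t * g t, f1.mul g1, by simp only [f2, g2, mul_one], rfl,
      fun t => S.mul_mem (f4 t) (g4 t)⟩
  inv_mem' := by
    rintro _ ⟨f, f1, f2, rfl, f4⟩
    exact ⟨fun t => (f t)⁻¹, f1.inv, by simp only [f2, inv_one], rfl, fun t => S.inv_mem (f4 t)⟩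

theorem mem_Pth {u : G} :
    u ∈ Pth S ↔ ∃ f : ℝ → G, Continuous f ∧ f 0 = 1 ∧ f 1 = u ∧ ∀ t, f t ∈ S := Iff.rfl

instance [h : S.Normal] : (Pth S).Normal := ⟨by
  rintro _ ⟨f, f1, f2, rfl, f4⟩ g
  exact ⟨fun t => g * f t * g⁻¹, by fun_prop, by simp only [f2, mul_one, mul_inv_cancel], rfl,
    fun t => h.conj_mem _ (f4 t) g⟩⟩

theorem Pth_le : Pth S ≤ S := by
  rintro _ ⟨f, -, -, rfl, f4⟩
  exact f4 1

theorem eq_top_of_pth (h : S ≤ Pth S) (H : Subgroup S) (hH : IsOpen (H : Set S)) : H = ⊤ := by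
  refine eq_top_iff.2 fun u _ => ?_
  obtain ⟨f, f1, f2, f3, f4⟩ := h u.2
  let g : ℝ → S := fun t => ⟨f t, f4 t⟩
  have hg : Continuous g := f1.subtype_mk _
  have h1 : IsClopen (g ⁻¹' (H : Set S)) := IsClopen.preimage ⟨H.isClosed_of_isOpen hH, hH⟩ hg
  have h2 := h1.eq_univ ⟨0, by
    rw [Set.mem_preimage, show g 0 = 1 from Subtype.ext f2]; exact H.one_mem⟩
  have h3 : (1 : ℝ) ∈ g ⁻¹' (H : Set S) := h2 ▸ Set.mem_univ _
  rwa [Set.mem_preimage, show g 1 = u from Subtype.ext f3] at h3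

theorem Pth.map {G' : Type*} [Group G'] [TopologicalSpace G'] [IsTopologicalGroup G']
    {S' : Subgroup G'} (φ : G →* G') (hφ : Continuous φ) (h : ∀ u ∈ S, φ u ∈ S') {u : G}
    (hu : u ∈ Pth S) : φ u ∈ Pth S' := by
  obtain ⟨f, f1, f2, rfl, f4⟩ := hu
  exact ⟨fun t => φ (f t), hφ.comp f1, by simp only [f2, map_one], rfl, fun t => h _ (f4 t)⟩

theorem pth_circle (Θ : Circle → G) (hc : Continuous Θ) (h1 : Θ 1 = 1) (hS : ∀ z, Θ z ∈ S)
    (z : Circle) : Θ z ∈ Pth S := by
  obtain ⟨x, rfl⟩ := Circle.exp_surjective z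
  exact ⟨fun t => Θ (Circle.exp (t * x)), by fun_prop, by simp only [zero_mul, Circle.exp_zero, h1],
    by simp only [one_mul], fun _ => hS _⟩

end pth

/-! ## matrices over a division ring -/

section mat
variable {D ι Q : Type*} [DivisionRing D] [Fintype ι] [DecidableEq ι] [Group Q]
  (f : (Matrix ι ι D)ˣ →* Q) (hf : ∀ (i j : ι) (h : i ≠ j) (c : D), f (tv h c) = 1)
include hf

theorem dg_eq (i j : ι) (d : Dˣ) : f (dg i d) = f (dg j d) := by
  by_cases h : i = j
  · rw [h]
  have h' : j ≠ i := Ne.symm h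
  have : dg i d * (tv h 1 * (tv h' (-1) * tv h 1)) =
      tv h 1 * (tv h' (-1) * (tv h 1 * dg j d)) := by
    refine ext_of fun N => ?_
    simp only [Units.val_mul, Matrix.mul_assoc, tv_mul, dg_mul]
    refine congrArg _ (funext fun k => ?_)
    by_cases hk : k = i
    · subst hk
      simp [T_ne h', T_ne h, Sc_ne h]
    · by_cases hj : k = j
      · subst hj
        simp [T_ne h', Sc_ne h, Sc_ne h']
      · simp only [T_ne hk, Sc_ne hk, T_ne hj, Sc_ne hj]
  have := congrArg f this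
  simpa only [map_mul, hf, one_mul, mul_one] using this

theorem exists_dg' (i₀ : ι) (u : (Matrix ι ι D)ˣ) : ∃ d : Dˣ, f u = f (dg i₀ d) := by
  have hli : LinearIndependent D (u : Matrix ι ι D).row := by
    rw [Fintype.linearIndependent_iff]
    intro g hg
    have h1 : Matrix.vecMul g (u : Matrix ι ι D) = 0 := by
      rw [Matrix.vecMul_eq_sum]; exact hg
    have h3 := congrArg (fun v => Matrix.vecMul v (↑u⁻¹ : Matrix ι ι D)) h1
    simp only [Matrix.vecMul_vecMul, Units.mul_inv, Matrix.vecMul_one, Matrix.zero_vecMul] at h3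
    exact congrFun h3
  have := connect (D := D) (P := fun M : ι → ι → D => ∃ v : (Matrix ι ι D)ˣ,
      (v : Matrix ι ι D) = Matrix.of M ∧ ∃ d : Dˣ, f v = f (dg i₀ d))
    (by
      rintro M i j c hij ⟨v, hv, d, hd⟩
      exact ⟨tv hij c * v, by rw [Units.val_mul, hv, tv_mul], d, by rw [map_mul, hf, one_mul, hd]⟩)
    (by
      rintro M i c hc ⟨v, hv, d, hd⟩
      exact ⟨dg i (Units.mk0 c hc) * v, by rw [Units.val_mul, hv, dg_mul]; rfl,
        Units.mk0 c hc * d, by rw [map_mul, map_mul, map_mul, hd, dg_eq f hf i i₀]⟩)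
    (M := Matrix.of.symm (1 : Matrix ι ι D)) ⟨1, rfl, 1, by simp⟩
    (by
      rw [← (Pi.basisFun D ι).span_eq]
      congr 2
      funext i j
      simp [Matrix.one_apply, Pi.single_apply, eq_comm]) hli
  obtain ⟨v, hv, d, hd⟩ := this
  exact ⟨d, (Units.ext hv : v = u) ▸ hd⟩

end mat

/-! ## `SL₁` -/

section sl
variable (F C : Type*) [Field F] [CharZero F] [Ring C] [Algebra F C] [Algebra.IsCentral F C]
  [IsSimpleRing C] [FiniteDimensional F C]

/-- the elements of reduced norm one -/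
def SL1 : Subgroup Cˣ := (((Nrd F : C →*₀ F) : C →* F).comp (Units.coeHom C)).ker

instance : (SL1 F C).Normal := MonoidHom.normal_ker _

variable {F C}

theorem mem_SL1 {u : Cˣ} : u ∈ SL1 F C ↔ Nrd F (u : C) = 1 := Iff.rfl

variable [TopologicalSpace F] [TopologicalSpace C] [IsTopologicalRing C] [ContinuousSMul F C]

theorem unip {ρ : ℝ → F} (hρ : Continuous ρ) (h0 : ρ 0 = 0) (h1 : ρ 1 = 1) {n : C} (hn : n * n = 0)
    {u : Cˣ} (hu : (u : C) = 1 + n) : u ∈ Pth (SL1 F C) := by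
  have e : ∀ a b : F, a + b = 0 → (1 + a • n) * (1 + b • n) = 1 := fun a b h => by
    rw [mul_add, mul_one, add_mul, one_mul, smul_mul_smul_comm, hn, smul_zero, add_zero, add_assoc,
      ← add_smul, h, zero_smul, add_zero]
  refine ⟨fun t => ⟨1 + ρ t • n, 1 + (-ρ t) • n, e _ _ (by simp), e _ _ (by simp)⟩,
    Units.continuous_iff.2 ⟨?_, ?_⟩, Units.ext (by simp [h0]), Units.ext (by simp [h1, hu]),
    fun t => Nrd_one_add_of_nilpotent ⟨2, ?_⟩⟩
  · change Continuous fun t => 1 + ρ t • n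
    fun_prop
  · change Continuous fun t => 1 + (-ρ t) • n
    simp only [neg_smul]
    fun_prop
  · rw [pow_two, smul_mul_smul_comm, hn, smul_zero]

variable {D : Type*} [DivisionRing D] [Algebra F D] [Algebra.IsCentral F D] [FiniteDimensional F D]
  {r : ℕ} [NeZero r] (e : C ≃ₐ[F] Matrix (Fin r) (Fin r) D)

theorem sl_gen {ρ : ℝ → F} (hρ : Continuous ρ) (h0 : ρ 0 = 0) (h1 : ρ 1 = 1)
    (hD : ∀ d : Dˣ, Nrd F (d : D) = 1 → emb e d ∈ Pth (SL1 F C)) : SL1 F C ≤ Pth (SL1 F C) := by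
  intro u hu
  let f := (QuotientGroup.mk' (Pth (SL1 F C))).comp
    (Units.map (e.symm : Matrix (Fin r) (Fin r) D →* C))
  obtain ⟨d, hd⟩ := exists_dg' f (fun i j h c => (QuotientGroup.eq_one_iff _).2
    (unip hρ h0 h1 (n := e.symm (Matrix.single i j c))
      (by rw [← map_mul, Matrix.single_mul_single_of_ne _ _ _ _ h.symm, map_zero])
      (by rw [← map_one e.symm, ← map_add]; rfl))) 0
    (Units.map (e : C →* Matrix (Fin r) (Fin r) D) u)
  have h2 : Units.map (e.symm : Matrix (Fin r) (Fin r) D →* C)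
    (Units.map (e : C →* Matrix (Fin r) (Fin r) D) u) = u := Units.ext (e.symm_apply_apply _)
  have h3 : u⁻¹ * emb e d ∈ Pth (SL1 F C) := by
    rw [← QuotientGroup.eq, ← h2]; exact hd
  have h4 : emb e d ∈ SL1 F C := by
    simpa using (SL1 F C).mul_mem hu (Pth_le h3)
  have h5 := hD d ((Nrd_emb e d).symm.trans h4)
  simpa using (Pth _).mul_mem h5 ((Pth _).inv_mem h3)

theorem eq_one_of_surj (h : Function.Surjective (algebraMap F D)) {d : Dˣ} (hd : Nrd F (d : D) = 1) :
    d = 1 := by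
  obtain ⟨c, hc⟩ := h d
  have : deg F D = 1 := deg_eq F
    (Algebra.finrank_eq_one_iff_bijective_algebraMap.2 ⟨(algebraMap F D).injective, h⟩)
  rw [← hc, Nrd_algebraMap, this, pow_one] at hd
  exact Units.ext (by rw [← hc, hd, map_one]; rfl)

end sl

theorem sl_complex (C : Type*) [Ring C] [Algebra ℂ C] [Algebra.IsCentral ℂ C] [IsSimpleRing C]
    [FiniteDimensional ℂ C] [TopologicalSpace C] [IsTopologicalRing C] [ContinuousSMul ℂ C] :
    SL1 ℂ C ≤ Pth (SL1 ℂ C) := by
  obtain ⟨r, _, D, _, _, _, _, ⟨e⟩⟩ := exists_setup ℂ C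
  exact sl_gen e Complex.continuous_ofReal rfl rfl fun d hd => by
    rw [eq_one_of_surj IsAlgClosed.algebraMap_bijective_of_isIntegral.2 hd, map_one]
    exact one_mem _

theorem exists_lift {D : Type*} [DivisionRing D] [Algebra ℝ D] [FiniteDimensional ℝ D] (z : D) :
    z ∈ Set.range (algebraMap ℝ D) ∨ ∃ φ : ℂ →ₐ[ℝ] D, z ∈ Set.range φ := by
  have hA := isField_sub (Algebra.adjoin ℝ {z}) fun x hx y hy =>
    (Algebra.commute_of_mem_adjoin_singleton_of_commute hy
      (Algebra.commute_of_mem_adjoin_self hx).symm).eq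
  let _ := hA.toField
  have hz := Algebra.self_mem_adjoin_singleton ℝ z
  rcases Real.nonempty_algEquiv_or (Algebra.adjoin ℝ {z}) with ⟨⟨e⟩⟩ | ⟨⟨e⟩⟩
  · exact Or.inl ⟨e ⟨z, hz⟩, by
      have := ((Algebra.adjoin ℝ {z}).val.comp e.symm.toAlgHom).commutes (e ⟨z, hz⟩)
      simpa using this.symm⟩
  · exact Or.inr ⟨(Algebra.adjoin ℝ {z}).val.comp e.symm.toAlgHom, e ⟨z, hz⟩, by simp⟩

theorem sl_real (C : Type*) [Ring C] [Algebra ℝ C] [Algebra.IsCentral ℝ C] [IsSimpleRing C]
    [FiniteDimensional ℝ C] [TopologicalSpace C] [IsTopologicalRing C] [ContinuousSMul ℝ C] :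
    SL1 ℝ C ≤ Pth (SL1 ℝ C) := by
  obtain ⟨r, _, D, _, _, _, _, ⟨e⟩⟩ := exists_setup ℝ C
  refine sl_gen e continuous_id rfl rfl fun d hd => ?_
  by_cases hs : Function.Surjective (algebraMap ℝ D)
  · rw [eq_one_of_surj hs hd, map_one]
    exact one_mem _
  obtain ⟨φ, z, hz⟩ : ∃ φ : ℂ →ₐ[ℝ] D, (d : D) ∈ Set.range φ := by
    rcases exists_lift (d : D) with ⟨c, hc⟩ | h
    · obtain ⟨y, hy⟩ := not_forall.1 hs
      obtain ⟨φ, -⟩ := (exists_lift y).resolve_left hy
      exact ⟨φ, algebraMap ℝ ℂ c, by rw [φ.commutes, hc]⟩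
    · exact h
  have hN : ∀ w, Nrd ℝ (φ w) = Complex.normSq w ^ (deg ℝ D / finrank ℝ ℂ) := fun w => by
    rw [Nrd_field, Algebra.norm_complex_apply]
  have hm : deg ℝ D / finrank ℝ ℂ ≠ 0 :=
    (Nat.div_pos (Nat.le_of_dvd (deg_pos ℝ D) (finrank_dvd_deg φ)) finrank_pos).ne'
  have h1 : ‖z‖ = 1 := by
    rw [← hz, hN, pow_eq_one_iff_of_nonneg (Complex.normSq_nonneg _) hm, Complex.normSq_eq_norm_sq,
      pow_eq_one_iff_of_nonneg (norm_nonneg _) two_ne_zero] at hd
    exact hd
  let Θ : Circle →* Cˣ := (emb e).comp ((Units.map (φ : ℂ →* D)).comp Circle.toUnits)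
  let L : ℂ →ₗ[ℝ] C := e.symm.toLinearMap ∘ₗ Matrix.singleLinearMap ℝ 0 0 ∘ₗ φ.toLinearMap
  have hL : ∀ w : Circle, (Θ w : C) = 1 + L (w - 1) := fun w => e.injective (by
    change e (e.symm (Matrix.diagonal (Pi.mulSingle 0 (φ w)))) =
      e (1 + e.symm (Matrix.single 0 0 (φ (w - 1))))
    rw [map_add, map_one, e.apply_symm_apply, e.apply_symm_apply]
    ext i j
    by_cases hi : i = 0 <;> by_cases hj : j = 0 <;> by_cases hij : i = j <;>
      simp_all [eq_comm])
  have hc : Continuous fun w : Circle => (Θ w : C) := by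
    simp only [hL]
    exact continuous_const.add (L.continuous_of_finiteDimensional.comp
      (continuous_subtype_val.sub continuous_const))
  have := pth_circle (S := SL1 ℝ C) Θ (Units.continuous_iff.2 ⟨hc, by
      simp only [← map_inv]; exact hc.comp continuous_inv⟩) (map_one Θ)
    (fun w => (Nrd_emb e _).trans ((hN w).trans (by rw [Circle.normSq_coe, one_pow])))
    ⟨z, mem_sphere_zero_iff_norm.2 h1⟩
  rwa [show d = Units.map (φ : ℂ →* D) (Circle.toUnits ⟨z, mem_sphere_zero_iff_norm.2 h1⟩) from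
    Units.ext hz.symm]

/-! ## `SU` -/

section su
variable {E A : Type*} [Field E] [CharZero E] [StarRing E] [Ring A] [StarRing A] [Algebra E A]
  [StarModule E A] [Algebra.IsCentral E A] [IsSimpleRing A] [FiniteDimensional E A]

/-- a hermitian element of rank at most one and trace `a` -/
structure R1 (n : A) (a : E) : Prop where
  st : star n = n
  mul : n * n = a • n
  nrd : ∀ c : E, Nrd E (1 + c • n) = 1 + a * c

theorem gen [IsAlgClosed E] (hθ : ∃ θ : E, θ ≠ 0 ∧ star θ = -θ) (N : Subgroup (unitary A))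
    (hN : ∀ (n : A) (a c : E) (u : unitary A), R1 n a → star a = a → (u : A) = 1 + c • n → u ∈ N)
    (u : unitary A) : u ∈ N := by
  obtain ⟨r, _, D, _, _, _, _, ⟨ψ⟩⟩ := exists_setup E A
  have hs : Function.Surjective (algebraMap E D) := IsAlgClosed.algebraMap_bijective_of_isIntegral.2
  have hd : deg E D = 1 := deg_eq E
    (Algebra.finrank_eq_one_iff_bijective_algebraMap.2 ⟨(algebraMap E D).injective, hs⟩)
  have : CharZero D := charZero_of_injective_algebraMap (algebraMap E D).injective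
  obtain ⟨_, _, F, h⟩ := exists_HF ψ hθ
  have h : Adj ψ F := h
  suffices H : F.U ≤ N.map (act ψ) by
    obtain ⟨w, hw, k⟩ := H (h.act_mem u)
    exact act_inj k ▸ hw
  refine F.cd fun v c hc hv => ?_
  obtain ⟨u', hu'⟩ := h.act_surj (F.qr_mem hc hv)
  refine ⟨u', ?_, hu'⟩
  obtain ⟨n, hn⟩ := exists_lin ψ ⟨⟨fun x => F.h x v • v, fun x y => by simp [add_smul]⟩,
    fun a x => by simp [mul_smul]⟩
  replace hn : ∀ x, x ᵥ* ψ n = F.h x v • v := hn
  obtain ⟨c, rfl⟩ := hs c
  obtain ⟨a, ha⟩ := hs (F.h v v)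
  have hc' : ∀ (c : E) x, x ᵥ* ψ (c • n) = (F.h x v * algebraMap E D c) • v := fun c x => by
    rw [map_smul, vecMul_smul, hn, ← Algebra.commutes, mul_smul, algebraMap_smul]
  have st : star n = n := ext_vec (ψ := ψ) fun y => F.ext_right fun x => by
    rw [← h, hn, hn]; simp
  refine hN n a (star (-c⁻¹)) u' ⟨st, ext_vec (ψ := ψ) fun x => ?_, fun c => ?_⟩
    ((algebraMap E D).injective (by rw [algebraMap_star_comm, ha, F.symm])) (star_injective ?_)
  · rw [map_mul, ← vecMul_vecMul, hn, hn, hc', F.smul_left, ha]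
  · rw [Nrd_rk' (ψ := ψ) (F := F) v v (algebraMap E D c) fun x => by
      rw [map_add, vecMul_add, map_one, vecMul_one, hc'], ← ha, ← map_mul, ← map_one (algebraMap E D),
      ← map_add, Nrd_algebraMap, hd, pow_one]
  · refine ext_vec (ψ := ψ) fun x => ?_
    rw [← act_apply, hu', F.qr_apply, star_add, star_one, star_smul, star_star, st, map_add, vecMul_add,
      map_one, vecMul_one, hc', map_neg, map_inv₀, mul_neg, neg_smul, sub_eq_add_neg]

theorem R1.norm {n : A} {a : E} (h : R1 n a) (ha : star a = a) (h0 : a ≠ 0) : R1 (a⁻¹ • n) (1 : E) :=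
  ⟨by rw [star_smul, star_inv₀, ha, h.st], by
    rw [smul_mul_smul_comm, h.mul, smul_smul, one_smul, inv_mul_cancel_right₀ h0], fun c => by
    rw [smul_smul, h.nrd, one_mul, mul_comm c, mul_inv_cancel_left₀ h0]⟩

variable [Algebra ℝ E] (ε : ℂ ≃ₐ[ℝ] E) (hε : ∀ z, star (ε z) = ε (star z))

/-- the quasi-reflections along a fixed line -/
def sH {e : A} (h : R1 e (1 : E)) : Circle →* unitary A :=
  have m : ∀ x y : E, (1 + (x - 1) • e) * (1 + (y - 1) • e) = 1 + (x * y - 1) • e := fun x y => by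
    rw [mul_add, mul_one, add_mul, one_mul, smul_mul_smul_comm, h.mul, one_smul, add_assoc,
      ← add_smul, ← add_smul]
    congr 2; ring
  { toFun := fun z => ⟨1 + (ε z - 1) • e, by
      have : ε (star (z : ℂ)) * ε z = 1 := by
        rw [← map_mul, Complex.star_def, ← Circle.coe_inv_eq_conj, ← Circle.coe_mul, inv_mul_cancel,
          Circle.coe_one, map_one]
      rw [Unitary.mem_iff, star_add, star_one, star_smul, h.st, star_sub, star_one, hε, m, m, this,
        mul_comm, this]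
      simp⟩
    map_one' := Subtype.ext (by simp)
    map_mul' := fun z w => Subtype.ext (by
      change 1 + (ε ((z : ℂ) * w) - 1) • e = (1 + (ε z - 1) • e) * (1 + (ε w - 1) • e)
      rw [m, map_mul]) }

theorem sH_val {e : A} (h : R1 e (1 : E)) (z : Circle) :
    (sH ε hε h z : A) = 1 + (ε z - 1) • e := rfl

theorem Nrd_sH {e : A} (h : R1 e (1 : E)) (z : Circle) : Nrd E (sH ε hε h z : A) = ε z := by
  rw [sH_val, h.nrd]; ring

variable [Algebra ℝ A] [IsScalarTower ℝ E A] [TopologicalSpace A] [IsTopologicalRing A]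
  [ContinuousStar A] [ContinuousSMul ℝ A]

theorem cont_sH {e : A} (h : R1 e (1 : E)) : Continuous (sH ε hε h) := by
  let L : ℂ →ₗ[ℝ] A := ((LinearMap.toSpanSingleton E A e).restrictScalars ℝ) ∘ₗ ε.toLinearMap
  refine Continuous.subtype_mk (f := fun z : Circle => 1 + (ε z - 1) • e) ?_ _
  have : ∀ z : Circle, (ε z - 1) • e = L (z - 1) := fun z => by simp [L]
  simp only [this]
  exact continuous_const.add (L.continuous_of_finiteDimensional.comp
    (continuous_subtype_val.sub continuous_const))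

instance : (su E A).Normal := MonoidHom.normal_ker _

include hε in
theorem unipU {u : unitary A} {x : A} (hu : (u : A) = 1 + x) (h1 : x * x = 0) (h2 : star x = -x) :
    u ∈ Pth (su E A) := by
  have hs : ∀ t : ℝ, star (t • x) = -(t • x) := fun t => by
    rw [← algebraMap_smul E t x, star_smul, h2, ← ε.commutes, hε, smul_neg]
    simp
  have hm : ∀ t : ℝ, t • x * t • x = 0 := fun t => by rw [smul_mul_smul_comm, h1, smul_zero]
  have hU : ∀ t : ℝ, 1 + t • x ∈ unitary A := fun t => by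
    have := hm t
    rw [Unitary.mem_iff, star_add, star_one, hs]
    generalize t • x = y at this
    constructor <;> simp [mul_add, add_mul, this]
  exact ⟨fun t => ⟨1 + t • x, hU t⟩, Continuous.subtype_mk (by fun_prop) _, Subtype.ext (by simp),
    Subtype.ext (by simp [hu]), fun t => Nrd_one_add_of_nilpotent ⟨2, by rw [pow_two, hm]⟩⟩

include hε in
theorem su_pth : su E A ≤ Pth (su E A) := by
  have : IsAlgClosed E := IsAlgClosed.of_exists_root E fun p _ hp => by
    obtain ⟨x, hx⟩ := IsAlgClosed.exists_root (p.map (ε.symm : E →+* ℂ)) (by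
      rw [Polynomial.degree_map]; exact (Polynomial.degree_pos_of_irreducible hp).ne')
    refine ⟨ε x, ε.symm.injective ?_⟩
    rw [map_zero, ← hx.eq_zero, Polynomial.eval_map]
    simpa using (Polynomial.eval₂_at_apply (p := p) (ε.symm : E →+* ℂ) (ε x)).symm
  have hθ : ∃ θ : E, θ ≠ 0 ∧ star θ = -θ := ⟨ε Complex.I, by simp, by rw [hε, ← map_neg]; simp⟩
  have z0 : ∀ (n : A) (c : E) (u : unitary A), R1 n (0 : E) → (u : A) = 1 + c • n →
      u ∈ Pth (su E A) := fun n c u h hu => by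
    have h1 : ∀ a b : E, a • n * b • n = 0 := fun a b => by
      rw [smul_mul_smul_comm, h.mul, zero_smul, smul_zero]
    refine unipU ε hε hu (h1 _ _) ?_
    have h2 := u.2.1
    rw [hu, star_add, star_one, mul_add, mul_one, add_mul, one_mul, star_smul, h.st, h1, add_zero,
      add_assoc, add_eq_left] at h2
    rw [star_smul, h.st]
    exact eq_neg_of_add_eq_zero_left h2
  intro u hu
  by_cases h0 : ∃ e : A, R1 e (1 : E)
  swap
  · refine gen hθ _ (fun n a c u h ha hu => ?_) u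
    by_cases a0 : a = 0
    · exact z0 n c u (a0 ▸ h) hu
    · exact absurd ⟨_, h.norm ha a0⟩ h0
  obtain ⟨e₀, h₀⟩ := h0
  have := gen hθ (Pth (su E A) ⊔ (sH ε hε h₀).range) (fun n a c u h ha hu => ?_) u
  · obtain ⟨y, hy, _, ⟨z, rfl⟩, rfl⟩ := Subgroup.mem_sup_of_normal_left.1 this
    have h1 := Nrd_sH ε hε h₀ z
    rw [mem_su.1 (((su E A).mul_mem_cancel_left (Pth_le hy)).1 hu), ← map_one ε] at h1
    rwa [Circle.ext (ε.injective h1.symm : (z : ℂ) = (1 : Circle)), map_one, mul_one]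
  by_cases a0 : a = 0
  · exact Subgroup.mem_sup_left (z0 n c u (a0 ▸ h) hu)
  have h1 := h.norm ha a0
  obtain ⟨z, hz⟩ := ε.surjective (Nrd E (u : A))
  have h2 : ‖z‖ = 1 := by
    have h3 := Nrd_unitary (K := E) u.2
    rw [← hz, hε, ← map_mul, ← map_one ε] at h3
    have h4 := congrArg norm (ε.injective h3)
    rw [norm_mul, norm_star, norm_one] at h4
    nlinarith [norm_nonneg z]
  let w : Circle := ⟨z, mem_sphere_zero_iff_norm.2 h2⟩
  have h3 : u = sH ε hε h1 w := Subtype.ext (by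
    rw [sH_val, show ε w = Nrd E (u : A) from hz, hu, h.nrd, smul_smul, add_sub_cancel_left,
      mul_right_comm, mul_inv_cancel₀ a0, one_mul])
  have h4 := pth_circle (S := su E A) (fun z => sH ε hε h1 z * (sH ε hε h₀ z)⁻¹)
    ((cont_sH ε hε h1).mul (cont_sH ε hε h₀).inv) (by simp) (fun z => by
      rw [← map_inv, mem_su, Submonoid.coe_mul, map_mul, Nrd_sH, Nrd_sH, ← map_mul, ← Circle.coe_mul,
        mul_inv_cancel, Circle.coe_one, map_one]) w
  exact Subgroup.mem_sup_of_normal_left.2 ⟨_, h4, _, ⟨w, rfl⟩, by rw [h3, inv_mul_cancel_right]⟩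

end su

/-- a quadratic extension of `ℝ` with its conjugation is `ℂ` -/
theorem exists_eps (E : Type*) [Field E] [StarRing E] [Algebra ℝ E] (h2 : finrank ℝ E = 2)
    (hk : ∀ c : ℝ, star (algebraMap ℝ E c) = algebraMap ℝ E c) (hne : ∃ c : E, star c ≠ c) :
    ∃ ε : ℂ ≃ₐ[ℝ] E, ∀ z, star (ε z) = ε (star z) := by
  have : FiniteDimensional ℝ E := Module.finite_of_finrank_pos (by omega)
  rcases Real.nonempty_algEquiv_or E with ⟨⟨e⟩⟩ | ⟨⟨e⟩⟩
  · have := e.toLinearEquiv.finrank_eq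
    rw [h2, finrank_self] at this
    omega
  let s : E ≃ₐ[ℝ] E := { starRingAut with commutes' := hk }
  refine ⟨e.symm, fun z => e.injective ?_⟩
  rcases Complex.real_algHom_eq_id_or_conj ((e.symm.trans (s.trans e)).toAlgHom) with h | h
  · obtain ⟨c, hc⟩ := hne
    have := DFunLike.congr_fun h (e c)
    exact absurd (e.injective (by simpa [s] using this)) hc
  · simpa [s] using DFunLike.congr_fun h z

end Crest.Agent.T24.L15
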