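import Crest.Agent.T24.LocC_59
import Crest.Agent.T24.WgWang_25

/-!
# Row 24 (helper59): `SK₁ = 1` over local fields; normal subgroups of `SL_m(D)`
-/

set_option autoImplicit false

namespace Crest.Agent.T24.Loc

open Finset Module Csa

theorem nm_eq_norm (F : Type*) [NontriviallyNormedField F] [ProperSpace F] {D : Type*} [NormedDivisionRing D]
    [NormedAlgebra F D] [FiniteDimensional F D] (x : D) : nm F x = ‖x‖ := by
  obtain ⟨C, hC, h⟩ := nm_cmp F (finBasis F D)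
  obtain ⟨C', hC', h'⟩ := (finBasis F D).equivFunL.symm.toContinuousLinearMap.bound
  have key : ∀ x : D, x ≠ 0 → ‖x‖ ≤ nm F x := fun x hx => by
    have h0 : 0 < nm F x := (nm_nonneg F x).lt_of_ne fun h => hx ((nm_eq_zero F).1 h.symm)
    by_contra h1
    obtain ⟨n, hn⟩ := pow_unbounded_of_one_lt (C' * C) ((one_lt_div h0).2 (not_le.1 h1))
    rw [div_pow, lt_div_iff₀ (pow_pos h0 n), ← nm_pow, ← norm_pow, mul_assoc] at hn
    refine absurd hn (not_lt.2 (le_trans ?_ (mul_le_mul_of_nonneg_left (h _).2 hC'.le)))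
    simpa using h' ((finBasis F D).equivFun (x ^ n))
  by_cases hx : x = 0
  · rw [hx, norm_zero, nm_eq_zero]
  refine le_antisymm ?_ (key x hx)
  have h1 := mul_le_mul_of_nonneg_left (key _ (inv_ne_zero hx)) (nm_nonneg F x)
  rwa [← nm_mul, mul_inv_cancel₀ hx, nm_one, norm_inv, ← div_eq_mul_inv, div_le_one (norm_pos_iff.2 hx)] at h1

namespace Cyc
variable {F : Type*} [NontriviallyNormedField F] {D : Type*} [NormedDivisionRing D] [NormedAlgebra F D]
  {π ζ : D} {M r : ℕ} [FiniteDimensional F D] (h : Cyc F π ζ M r) [IsUltrametricDist D]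
  [Algebra.IsCentral F D] [ProperSpace F]
include h

omit [Algebra.IsCentral F D] in
/-- every unit is `w [ζ, a]` with `w` in the unramified subfield -/
theorem exists_comm {x : D} (hx : ‖x‖ = 1) :
    ∃ w a : D, Commute w ζ ∧ ‖a - 1‖ < 1 ∧ x * a * ζ = w * ζ * a := by
  have := FiniteDimensional.proper F D
  have hS : IsCompact ((Metric.sphere (0 : D) 1 ×ˢ Metric.closedBall (1 : D) ‖π‖) ∩ {p | Commute p.1 ζ}) :=
    ((isCompact_sphere _ _).prod (isCompact_closedBall _ _)).inter_right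
      (isClosed_eq (by fun_prop) (by fun_prop))
  obtain ⟨i₀, h0⟩ := h.gen x hx
  have h1 : (ζ ^ i₀, (1 : D)) ∈ (Metric.sphere (0 : D) 1 ×ˢ Metric.closedBall (1 : D) ‖π‖) ∩
      {p | Commute p.1 ζ} := ⟨⟨by simp [h.norm_z], by simp⟩, (Commute.refl ζ).pow_left _⟩
  obtain ⟨⟨w, a⟩, ⟨⟨hw, ha⟩, hc⟩, hm⟩ := hS.exists_isMinOn ⟨_, h1⟩
    (f := fun p => ‖x * p.2 * ζ - p.1 * ζ * p.2‖) (by fun_prop)
  simp only [mem_sphere_iff_norm, sub_zero, mem_closedBall_iff_norm, Set.mem_ofPred_eq] at hw ha hc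
  have ha1 := ha.trans_lt h.lt
  refine ⟨w, a, hc, ha1, sub_eq_zero.1 (by_contra fun hy => ?_)⟩
  set y := x * a * ζ - w * ζ * a with hy'
  have hm' : ∀ w' a' : D, ‖w'‖ = 1 → ‖a' - 1‖ ≤ ‖π‖ → Commute w' ζ → ‖y‖ ≤ ‖x * a' * ζ - w' * ζ * a'‖ :=
    fun w' a' h1 h2 h3 => hm (a := (w', a')) ⟨⟨by simpa using h1, mem_closedBall_iff_norm.2 h2⟩, h3⟩
  have hy1 : ‖y‖ < 1 := (hm h1).trans_lt (by simpa [← sub_mul, h.norm_z] using h0)
  obtain ⟨k, hk⟩ := h.val_nat hy hy1.le
  rw [← norm_pow] at hk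
  obtain ⟨i, hi⟩ := h.approx (pow_ne_zero k h.ne) hk
  have hp : 0 < ‖π ^ k‖ := hk ▸ norm_pos_iff.2 hy
  by_cases hn : h.n ∣ k
  · refine absurd (hm' (w + ζ ^ i * π ^ k * ζ⁻¹) a ?_ ha (hc.add_left ((((Commute.refl ζ).pow_left i).mul_left
      (h.comm_iff.2 hn)).mul_left (Commute.refl ζ).inv_left₀))) (not_le.2 ?_)
    · rw [← hw]
      refine norm_eq_of_lt ?_
      rwa [add_sub_cancel_left, norm_mul, norm_mul, norm_inv, h.norm_z, h.norm_zp, ← hk, hw, inv_one, one_mul,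
        mul_one]
    · rw [show x * a * ζ - (w + ζ ^ i * π ^ k * ζ⁻¹) * ζ * a = y - ζ ^ i * π ^ k - ζ ^ i * π ^ k * (a - 1) by
        rw [add_mul, inv_mul_cancel_right₀ h.z_ne, hy']; noncomm_ring, hk]
      refine norm_sub_lt_of hi ?_
      rw [norm_mul, norm_mul, h.norm_zp, one_mul]
      exact mul_lt_of_lt_one_right hp ha1
  · have hu : ‖ζ ^ r ^ k - ζ‖ = 1 := by simpa using h.norm_zp_sub (j := 1) (by simpa using mt h.zp_eq_iff.1 hn)
    set u := ζ ^ r ^ k - ζ with hu'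
    have hu0 : u ≠ 0 := norm_ne_zero_iff.1 (by rw [hu]; exact one_ne_zero)
    have hw0 : w ≠ 0 := norm_ne_zero_iff.1 (by rw [hw]; exact one_ne_zero)
    set β := w⁻¹ * ζ ^ i * u⁻¹ with hβ
    have hβ1 : ‖β‖ = 1 := by simp [hβ, hw, hu, h.norm_z]
    have hβ2 : Commute β ζ := (hc.inv_left₀.mul_left ((Commute.refl ζ).pow_left i)).mul_left
      (((Commute.refl ζ).pow_left _).sub_left (Commute.refl ζ)).inv_left₀
    have hβ3 : w * β * u = ζ ^ i := by rw [hβ, ← mul_assoc, inv_mul_cancel_right₀ hu0, mul_inv_cancel_left₀ hw0]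
    have hxw : ‖x - w‖ < 1 := by
      rw [← mul_one ‖x - w‖, ← h.norm_z, ← norm_mul, h.norm_z,
        show (x - w) * ζ = y - x * (a - 1) * ζ + w * ζ * (a - 1) by rw [hy']; noncomm_ring]
      exact norm_add_lt_of (norm_sub_lt_of hy1 (by simpa [hx, h.norm_z] using ha1))
        (by simpa [hw, h.norm_z] using ha1)
    refine absurd (hm' w (a - β * π ^ k) hw ?_ hc) (not_le.2 ?_)
    · rw [sub_right_comm]
      exact norm_sub_le_of ha (h.le _ (by rwa [norm_mul, hβ1, one_mul, ← hk]))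
    · rw [show x * (a - β * π ^ k) * ζ - w * ζ * (a - β * π ^ k) =
          y - ζ ^ i * π ^ k - (x - w) * (β * ζ ^ r ^ k * π ^ k) by
        rw [← hβ3, hu', hy', mul_sub, sub_mul, mul_assoc x (β * _), mul_assoc β, h.conj_pow, mul_sub (w * ζ),
          mul_assoc w ζ (β * _), ← mul_assoc ζ β, ← hβ2.eq]; noncomm_ring, hk]
      refine norm_sub_lt_of hi ?_
      rw [norm_mul, norm_mul, norm_mul, hβ1, h.norm_zp, one_mul, one_mul]
      exact mul_lt_of_lt_one_left hp hxw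

variable [CharZero F] [IsUltrametricDist F]

omit [IsUltrametricDist D] [IsUltrametricDist F] in
theorem norm_Nrd (x : D) : ‖Nrd F x‖ = ‖x‖ ^ h.n := by rw [← nm_pow_deg, nm_eq_norm, h.deg_eq]

omit [IsUltrametricDist F] in
/-- an element of reduced norm one is a product of two commutators -/
theorem exists_comm₂ {x : D} (hx : Nrd F x = 1) :
    ∃ a b : D, a ≠ 0 ∧ b ≠ 0 ∧ x = (b * π * b⁻¹ * π⁻¹) * (ζ * a * ζ⁻¹ * a⁻¹) := by
  have h1 : ‖x‖ = 1 := (pow_eq_one_iff_of_nonneg (norm_nonneg _) h.n_pos.ne').1 (by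
    rw [← h.norm_Nrd, hx, norm_one])
  obtain ⟨w, a, h2, h3, h4⟩ := h.exists_comm h1
  have ha : a ≠ 0 := fun h0 => by simp [h0] at h3
  have h5 := congrArg (Nrd F) h4
  rw [map_mul, map_mul, map_mul, map_mul, hx, one_mul, mul_assoc, mul_comm, eq_comm, mul_eq_right₀
    (mul_ne_zero ((map_ne_zero _).2 h.z_ne) ((map_ne_zero _).2 ha))] at h5
  have := h.galois
  obtain ⟨b, hb, h6, -⟩ := Wg.h90_pos (σ := h.sig) (u := ⟨w, h.mem_WW.2 h2⟩) (fun _ => h.zpowers_eq ▸ trivial)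
    ((h.Nrd_W _).symm.trans h5) (fun _ => False) fun _ => False.elim
  have hb0 : (b : D) ≠ 0 := by simpa using hb
  have h7 : w * (π * b * π⁻¹) = b := congrArg Subtype.val h6
  refine ⟨a, b, ha, hb0, ?_⟩
  rw [show (b : D) * π * (b : D)⁻¹ * π⁻¹ = w by
    nth_rw 1 [← h7]; simp [mul_assoc, h.ne, hb0], ← mul_assoc, ← mul_assoc, ← mul_assoc, ← h4,
    mul_inv_cancel_right₀ h.z_ne, mul_inv_cancel_right₀ ha]

end Cyc

section sk
variable (F : Type*) [NontriviallyNormedField F] [ProperSpace F] [IsUltrametricDist F] [CharZero F]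

theorem sk_div (D : Type*) [DivisionRing D] [Algebra F D] [FiniteDimensional F D] [Algebra.IsCentral F D] :
    Wg.SK F D := fun x hx => by
  let := ndr F D
  let := nalg F D
  have := ultra F D
  obtain ⟨π, ζ, M, r, h⟩ := exists_cyc (F := F) (D := D)
  obtain ⟨a, b, ha, hb, h1⟩ := h.exists_comm₂ hx
  have : x = Units.mk0 b hb * Units.mk0 π h.ne * (Units.mk0 b hb)⁻¹ * (Units.mk0 π h.ne)⁻¹ *
      (Units.mk0 ζ h.z_ne * Units.mk0 a ha * (Units.mk0 ζ h.z_ne)⁻¹ * (Units.mk0 a ha)⁻¹) :=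
    Units.ext (by simpa using h1)
  rw [this]
  simp only [map_mul, map_inv, mul_inv_cancel_comm, mul_inv_cancel, mul_one]

/-- **`SK₁ = 1` over a local field** -/
theorem sk_local (B : Type*) [Ring B] [Algebra F B] [Algebra.IsCentral F B] [IsSimpleRing B]
    [FiniteDimensional F B] : Wg.SK F B := by
  obtain ⟨r, e, D, _, _, _, _, hr, -, -, -, ⟨φ⟩⟩ := Hsm.exists_wedderburn F B (finrank_eq_deg_sq F B)
  have : NeZero r := ⟨hr.ne'⟩
  exact Wg.SK.of_matrix φ (sk_div F D)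

end sk

section sl
open Wg
variable {D ι : Type*} [DivisionRing D] [Fintype ι] [DecidableEq ι]

theorem eq_top_of_tv {H : Subgroup (Matrix ι ι D)ˣ} (h1 : ∀ {i j : ι} (h : i ≠ j) (c : D), tv h c ∈ H)
    (h2 : ∀ (i : ι) (d : Dˣ), dg i d ∈ H) (u : (Matrix ι ι D)ˣ) : u ∈ H := by
  have hli : LinearIndependent D (u : Matrix ι ι D).row := by
    rw [Fintype.linearIndependent_iff]
    intro g hg
    have h1 : Matrix.vecMul g (u : Matrix ι ι D) = 0 := by
      rw [Matrix.vecMul_eq_sum]; exact hg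
    have h3 := congrArg (fun v => Matrix.vecMul v (↑u⁻¹ : Matrix ι ι D)) h1
    simp only [Matrix.vecMul_vecMul, Units.mul_inv, Matrix.vecMul_one, Matrix.zero_vecMul] at h3
    exact congrFun h3
  obtain ⟨v, hv, hd⟩ := connect (D := D) (P := fun M : ι → ι → D => ∃ v : (Matrix ι ι D)ˣ,
      (v : Matrix ι ι D) = Matrix.of M ∧ v ∈ H)
    (by
      rintro M i j c hij ⟨v, hv, hd⟩
      exact ⟨tv hij c * v, by rw [Units.val_mul, hv, tv_mul], H.mul_mem (h1 _ _) hd⟩)
    (by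
      rintro M i c hc ⟨v, hv, hd⟩
      exact ⟨dg i (Units.mk0 c hc) * v, by rw [Units.val_mul, hv, dg_mul]; rfl, H.mul_mem (h2 _ _) hd⟩)
    (M := Matrix.of.symm (1 : Matrix ι ι D)) ⟨1, rfl, H.one_mem⟩
    (by
      rw [← (Pi.basisFun D ι).span_eq]
      congr 2
      funext i j
      simp [Matrix.one_apply, Pi.single_apply, eq_comm]) hli
  exact (Units.ext hv : v = u) ▸ hd

theorem dg_tv (k : ι) (d : Dˣ) {i j : ι} (h : i ≠ j) (c : D) : dg k d * tv h c * (dg k d)⁻¹ =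
    tv h ((Pi.mulSingle k (d : D) : ι → D) i * c * (Pi.mulSingle k (↑d⁻¹ : D) : ι → D) j) := by
  rw [← map_inv]
  refine Units.ext ?_
  change _ * (1 + _) * _ = 1 + _
  rw [mul_add, add_mul, mul_one, ← Units.val_mul, ← map_mul, mul_inv_cancel, map_one, Units.val_one, dg_val, dg_val]
  congr 1
  ext s t
  rw [Matrix.mul_diagonal, Matrix.diagonal_mul, Matrix.single_apply, Matrix.single_apply]
  split_ifs with h1
  · rw [h1.1, h1.2]
  · simp

/-- the elementary group -/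
def El (ι D : Type*) [DivisionRing D] [Fintype ι] [DecidableEq ι] : Subgroup (Matrix ι ι D)ˣ :=
  Subgroup.closure {g | ∃ (i j : ι) (h : i ≠ j) (c : D), g = tv h c}

theorem tv_El {i j : ι} (h : i ≠ j) (c : D) : tv h c ∈ El ι D := Subgroup.subset_closure ⟨i, j, h, c, rfl⟩

instance : (El ι D).Normal := by
  have key : ∀ (k : ι) (d : Dˣ), ∀ x ∈ El ι D, dg k d * x * (dg k d)⁻¹ ∈ El ι D := fun k d =>
    (Subgroup.closure_le ((El ι D).comap (MulAut.conj (dg k d)).toMonoidHom)).2 fun _ ⟨i, j, h, c, hg⟩ => by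
      change dg k d * _ * _ ∈ El ι D
      rw [hg, dg_tv]; exact tv_El _ _
  refine Subgroup.normalizer_eq_top_iff.1 (eq_top_iff.2 fun u _ => eq_top_of_tv
    (fun h c => Subgroup.le_normalizer (tv_El h c)) (fun k d x => ⟨key k d x, fun hx => ?_⟩) u)
  simpa [mul_assoc] using key k d⁻¹ _ hx

theorem commutator_le_El [Nontrivial ι] : commutator (Matrix ι ι D)ˣ ≤ El ι D := by
  let f := QuotientGroup.mk' (El ι D)
  have h1 : ∀ {i j : ι} (h : i ≠ j) (c : D), f (tv h c) = 1 := fun h c => (QuotientGroup.eq_one_iff _).2 (tv_El h c)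
  have h2 : ∀ (i j : ι) (d : Dˣ), f (dg i d) = f (dg j d) := fun i j d => by
    by_cases h : i = j
    · rw [h]
    have h' : j ≠ i := Ne.symm h
    have : dg i d * (tv h 1 * (tv h' (-1) * tv h 1)) = tv h 1 * (tv h' (-1) * (tv h 1 * dg j d)) := by
      refine ext_of fun N => ?_
      simp only [Units.val_mul, Matrix.mul_assoc, tv_mul, dg_mul]
      refine congrArg _ (funext fun k => ?_)
      by_cases hk : k = i
      · subst hk
        simp [T_ne h', T_ne h, Sc_ne h]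
      · by_cases hj : k = j
        · subst hj
          simp [T_ne h', Sc_ne h, Sc_ne h']
        · simp only [T_ne hk, Sc_ne hk, T_ne hj, Sc_ne hj]
    simpa only [map_mul, h1, one_mul, mul_one] using congrArg f this
  have h3 : ∀ u, (∀ (i : ι) (d : Dˣ), f u * f (dg i d) = f (dg i d) * f u) → ∀ v, f u * f v = f v * f u :=
    fun u hu v => Subgroup.mem_centralizer_singleton_iff.1 (eq_top_of_tv
      (H := (Subgroup.centralizer {f u}).comap f) (fun h c => by simp [h1])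
      (fun i d => Subgroup.mem_centralizer_singleton_iff.2 (hu i d).symm) v) |>.symm
  have h4 : ∀ (i : ι) (d : Dˣ) v, f (dg i d) * f v = f v * f (dg i d) := fun i d => h3 _ fun j c => by
    obtain ⟨k, hk⟩ := exists_ne i
    rw [h2 j k, ← map_mul, ← map_mul]
    refine congrArg f (Units.ext ?_)
    simp only [Units.val_mul, dg_val, Matrix.diagonal_mul_diagonal]
    exact congrArg _ (Pi.mulSingle_commute (f := fun _ => D) hk.symm d c).eq
  rw [commutator_def, Subgroup.commutator_le]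
  intro u _ v _
  rw [← QuotientGroup.eq_one_iff, ← QuotientGroup.mk'_apply, map_commutatorElement, commutatorElement_eq_one_iff_mul_comm]
  exact h3 u (fun i d => (h4 i d u).symm) v

variable {F : Type*} [Field F] [CharZero F] {A : Type*} [Ring A] [Algebra F A] [Algebra.IsCentral F A]
  [IsSimpleRing A] [FiniteDimensional F A]

/-- normal subgroups of `SL₁(A)`, `A` not a division algebra -/
theorem sl_le_of_normal (hA : ∃ x : A, x ≠ 0 ∧ ¬ IsUnit x) (hS : SK F A) {N : Subgroup Aˣ}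
    (hN : ∀ g : Aˣ, Nrd F (g : A) = 1 → ∀ x ∈ N, g * x * g⁻¹ ∈ N)
    (h0 : ∀ x : A, x * x = 0 → ∃ a : F, a ≠ 0 ∧ ∀ u : Aˣ, (u : A) = 1 + a ^ 2 • x → u ∈ N)
    {u : Aˣ} (hu : Nrd F (u : A) = 1) : u ∈ N := by
  obtain ⟨r, e, D, _, _, _, _, hr, -, -, -, ⟨φ⟩⟩ := Hsm.exists_wedderburn F A (finrank_eq_deg_sq F A)
  have : NeZero r := ⟨hr.ne'⟩
  have : Nontrivial (Fin r) := Fin.nontrivial_iff_two_le.2 (by
    by_contra h1
    obtain rfl : r = 1 := by omega
    obtain ⟨x, h2, h3⟩ := hA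
    let q := φ.toRingEquiv.trans (Matrix.uniqueRingEquiv (m := Fin 1) (A := D))
    exact h3 (by simpa using (Ne.isUnit (show q x ≠ 0 by simpa using h2)).map q.symm))
  let g : (Matrix (Fin r) (Fin r) D)ˣ ≃* Aˣ := Units.mapEquiv φ.symm.toMulEquiv
  have h1 : El (Fin r) D ≤ N.comap g.toMonoidHom := (Subgroup.closure_le _).2 fun _ ⟨i, j, h, c, hg⟩ => by
    obtain ⟨a, ha, h2⟩ := h0 (φ.symm (Matrix.single i j c)) (by
      rw [← map_mul, Matrix.single_mul_single_of_ne _ _ _ _ h.symm, map_zero])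
    let d : Dˣ := Units.mk0 (algebraMap F D a⁻¹) (by simpa using ha)
    have h3 := hN (g (dg i d * dg j d⁻¹)) (by
      change Nrd F (φ.symm _) = 1
      rw [Nrd_equiv, Units.val_mul, map_mul, Wg.Nrd_dg, Wg.Nrd_dg, ← map_mul, Units.mul_inv, map_one])
      (g (tv h (a ^ 2 • c))) (h2 _ (by
        change φ.symm (1 + _) = _
        rw [map_add, map_one, ← map_smul, Matrix.smul_single]))
    rw [← map_inv, ← map_mul, ← map_mul, mul_inv_rev, mul_assoc (dg i d), ← mul_assoc, mul_assoc (dg i d), dg_tv,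
      dg_tv] at h3
    rw [Pi.mulSingle_eq_same, Pi.mulSingle_eq_same, Pi.mulSingle_eq_of_ne h, Pi.mulSingle_eq_of_ne h.symm, inv_inv,
      one_mul, mul_one, Units.val_mk0, ← Algebra.commutes, ← Algebra.smul_def, ← Algebra.smul_def, smul_smul,
      smul_smul, show a⁻¹ * a⁻¹ * a ^ 2 = 1 by field_simp, one_smul] at h3
    exact hg ▸ h3
  have h2 : g.symm u ∈ commutator _ := by
    rw [← Abelianization.ker_of, MonoidHom.mem_ker]
    exact (of_map g.symm.toMonoidHom ((hS u hu).trans (map_one _).symm)).trans (by simp)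
  simpa using h1 (commutator_le_El h2)

end sl

end Crest.Agent.T24.Loc
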