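import Crest.Agent.T24.NaKoop_39

/-!
# Row 24, NA + TW: classes of continuous invariant functions in the Koopman representation.
-/

set_option autoImplicit false

noncomputable section

namespace Crest.Agent.T24.Na.K39

open Topology Filter MeasureTheory Set
open scoped ENNReal

universe u v w

/-- continuous, invariant, and bounded in `ℓ²(Y)` on `C` -/
structure Gd {G Γ Y : Type*} [Group G] [TopologicalSpace G] [Group Γ] [MulAction Γ Y] (ι : Γ →* G)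
    (C : Set G) (Ψ : G → Y → ℝ) : Prop where
  cont : ∀ y, Continuous fun g => Ψ g y
  inv : ∀ γ g y, Ψ (ι γ * g) (γ • y) = Ψ g y
  bd : ∃ b : ℝ, ∀ g ∈ C, ∀ T : Finset Y, ∑ y ∈ T, Ψ g y ^ 2 ≤ b ^ 2

theorem exists_cl {G : Type u} {Γ : Type v} [Group G] [TopologicalSpace G] [IsTopologicalGroup G]
    [LocallyCompactSpace G] [SecondCountableTopology G] [T2Space G] [Group Γ] (ι : Γ →* G)
    (hd : ∃ U ∈ 𝓝 (1 : G), ∀ γ, ι γ ∈ U → γ = 1)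
    (hc : ∃ C : Set G, IsCompact C ∧ ∀ g, ∃ γ, (ι γ)⁻¹ * g ∈ C)
    (Y : Type w) [Countable Y] [MulAction Γ Y] :
    ∃ (V : Type (max u w)) (_ : NormedAddCommGroup V) (_ : InnerProductSpace ℝ V)
      (_ : CompleteSpace V) (π : G →* (V ≃ₗᵢ[ℝ] V)) (cl : (G → Y → ℝ) → V) (C : Set G) (c₀ : ℝ),
      IsCompact C ∧ 0 ≤ c₀ ∧
      (∀ Ψ Ψ', Gd ι C Ψ → Gd ι C Ψ' → cl (Ψ + Ψ') = cl Ψ + cl Ψ') ∧
      (∀ Ψ k, Gd ι C Ψ → π k (cl Ψ) = cl fun g => Ψ (g * k)) ∧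
      (∀ Ψ (b : ℝ), Gd ι C Ψ → 0 ≤ b → (∀ g ∈ C, ∀ T : Finset Y, ∑ y ∈ T, Ψ g y ^ 2 ≤ b ^ 2) →
        ‖cl Ψ‖ ≤ c₀ * b) ∧
      (∀ Ψ Ψ', Gd ι C Ψ → Gd ι C Ψ' → cl Ψ = cl Ψ' → Ψ = Ψ') ∧
      (∀ (Ψ : G → Y → ℝ) k, Gd ι C Ψ → Gd ι C fun g => Ψ (g * k)) ∧
      ∀ Ψ k, Gd ι C Ψ → π k (cl Ψ) = cl Ψ → ∀ g y, Ψ (g * k) y = Ψ g y := by
  classical
  borelize G
  let _ : MeasurableSpace Y := ⊤
  have : DiscreteMeasurableSpace Y := ⟨fun _ => trivial⟩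
  obtain ⟨hΓ, ⟨c, h⟩, hu⟩ := exists_co ι hd hc
  let μ : Measure G := Measure.haar
  have := hu μ
  let ω : Measure Y := wm 1
  have : SMulInvariantMeasure Γ Y ω := wm_inv fun _ _ => rfl
  obtain ⟨C, hC, hCx⟩ := h.cpt
  have hF : Fd c ⊆ C := fun x hx => by simpa [show c x = 1 from hx] using hCx x
  have hfin : μ (Fd c) ≠ ∞ := ne_top_of_le_ne_top hC.measure_lt_top.ne (measure_mono hF)
  have hm : ∀ {Ψ : G → Y → ℝ}, Gd ι C Ψ → Measurable (Function.uncurry Ψ) := fun hΨ =>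
    measurable_from_prod_countable_left fun y => (hΨ.cont y).measurable
  have hi : ∀ {Ψ : G → Y → ℝ}, Gd ι C Ψ → Inv ι (Function.uncurry Ψ) := fun hΨ γ p => hΨ.inv γ _ _
  have hb : ∀ {Ψ : G → Y → ℝ} {b : ℝ}, Gd ι C Ψ →
      (∀ g ∈ C, ∀ T : Finset Y, ∑ y ∈ T, Ψ g y ^ 2 ≤ b ^ 2) →
      ∫⁻ p, ‖Function.uncurry Ψ p‖ₑ ^ 2 ∂mX c μ ω ≤ ENNReal.ofReal (b ^ 2) * μ (Fd c) := by
    intro Ψ b hΨ hb
    rw [mX, lintegral_prod _ ((hm hΨ).enorm.pow_const 2).aemeasurable, ← setLIntegral_const]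
    refine setLIntegral_mono' h.mFd fun g hg => ?_
    rw [lintegral_wm, ENNReal.tsum_eq_iSup_sum]
    refine iSup_le fun T => le_trans (le_of_eq ?_) (ENNReal.ofReal_le_ofReal (hb g (hF hg) T))
    rw [ENNReal.ofReal_sum_of_nonneg fun _ _ => sq_nonneg _]
    refine Finset.sum_congr rfl fun y _ => ?_
    rw [Pi.one_apply, one_mul, ← ofReal_norm, ← ENNReal.ofReal_pow (norm_nonneg _),
      Real.norm_eq_abs, sq_abs]; rfl
  have hL : ∀ {Ψ : G → Y → ℝ}, Gd ι C Ψ → MemLp (Function.uncurry Ψ) 2 (mX c μ ω) := fun hΨ => by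
    obtain ⟨b, h1⟩ := hΨ.bd
    exact memLp_two (hm hΨ).aestronglyMeasurable (ne_top_of_le_ne_top
      (ENNReal.mul_ne_top ENNReal.ofReal_ne_top hfin) (hb hΨ h1))
  let cl : (G → Y → ℝ) → Lp ℝ 2 (mX c μ ω) := fun Ψ =>
    if h : MemLp (Function.uncurry Ψ) 2 (mX c μ ω) then h.toLp _ else 0
  have hcl : ∀ {Ψ : G → Y → ℝ}, MemLp (Function.uncurry Ψ) 2 (mX c μ ω) →
      cl Ψ =ᵐ[mX c μ ω] Function.uncurry Ψ := fun hΨ => by
    simp only [cl, dif_pos hΨ]; exact hΨ.coeFn_toLp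
  have hrt : ∀ (Ψ : G → Y → ℝ) k, Gd ι C Ψ → Gd ι C fun g => Ψ (g * k) := fun Ψ k hΨ => by
    obtain ⟨b, h1⟩ := hΨ.bd
    refine ⟨fun y => (hΨ.cont y).comp (continuous_mul_const k), fun γ g y => by
      rw [mul_assoc, hΨ.inv], b, fun g _ T => ?_⟩
    have := h1 _ (hCx (g * k)) (T.map (MulAction.toPerm (c (g * k))⁻¹).toEmbedding)
    rw [Finset.sum_map, ← map_inv] at this
    simpa only [Equiv.coe_toEmbedding, MulAction.toPerm_apply, hΨ.inv] using this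
  have hπ : ∀ Ψ k, Gd ι C Ψ → h.kp μ ω k (cl Ψ) = cl fun g => Ψ (g * k) := fun Ψ k hΨ =>
    Lp.ext ((h.kp_inv μ ω k (hi hΨ) (hcl (hL hΨ))).trans (hcl (hL (hrt Ψ k hΨ))).symm)
  have hinj : ∀ Ψ Ψ', Gd ι C Ψ → Gd ι C Ψ' → cl Ψ = cl Ψ' → Ψ = Ψ' := fun Ψ Ψ' h1 h2 e => by
    have h3 : ∀ᵐ p ∂μ.prod ω, Function.uncurry Ψ p = Function.uncurry Ψ' p :=
      h.ae_of_mX μ ω (fun γ p => by rw [hi h1, hi h2])
        ((hcl (hL h1)).symm.trans (e ▸ hcl (hL h2)))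
    funext g y
    refine congrFun (((h1.cont y).ae_eq_iff_eq μ (h2.cont y)).1 ?_) g
    filter_upwards [Measure.ae_ae_of_ae_prod h3] with x hx
    by_contra h4
    refine (show ω {y} ≠ 0 by simp [ω, wm_singleton]) (measure_mono_null (fun z hz => ?_)
      (ae_iff.1 hx))
    rw [mem_singleton_iff.1 hz]
    exact h4
  refine ⟨Lp ℝ 2 (mX c μ ω), inferInstance, inferInstance, inferInstance, h.kp μ ω, cl, C,
    √(μ.real (Fd c)), hC, Real.sqrt_nonneg _, fun Ψ Ψ' h1 h2 => ?_, hπ, fun Ψ b h1 h2 h3 => ?_, hinj,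
    hrt, fun Ψ k h1 e g y => ?_⟩
  · refine Lp.ext ((hcl (Ψ := Ψ + Ψ') ((hL h1).add (hL h2))).trans ?_)
    filter_upwards [Lp.coeFn_add (cl Ψ) (cl Ψ'), hcl (hL h1), hcl (hL h2)] with p a b d
    rw [a, Pi.add_apply, b, d]; rfl
  · have h4 := (enorm_sq (hcl (hL h1))).trans_le (hb h1 h3)
    rw [← ofReal_norm, ← ENNReal.ofReal_pow (norm_nonneg _), ← ENNReal.ofReal_toReal hfin,
      ← ENNReal.ofReal_mul (sq_nonneg _), ENNReal.ofReal_le_ofReal_iff (by positivity)] at h4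
    refine (pow_le_pow_iff_left₀ (norm_nonneg _) (by positivity) two_ne_zero).1 (h4.trans ?_)
    rw [mul_pow, Real.sq_sqrt measureReal_nonneg, mul_comm]; rfl
  · exact congrFun (congrFun (hinj _ _ (hrt Ψ k h1) h1 ((hπ Ψ k h1).symm.trans e)) g) y

end Crest.Agent.T24.Na.K39
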