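import Crest.Agent.T24.NaInstDef_3
import Crest.Agent.T24.TLink_31
import Crest.Agent.T24.NstK_39

/-!
# Row 24, NA + TW instance (helper50): the open subgroup `G2`, units of `AS`, the local field
-/

set_option autoImplicit false
set_option linter.unusedSectionVars false

noncomputable section

namespace Crest.Agent.T24.Na.G50

open Module NumberField IsDedekindDomain WithZero Csa Asa Topology Filter BC
open scoped NumberField Valued

variable {k K B : Type*} [Field k] [NumberField k] [Field K] [NumberField K] [Algebra k K]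
  [StarRing K] [Quad k K] [Ring B] [StarRing B] [Algebra K B] [StarModule K B]
  [Algebra.IsCentral K B] [IsSimpleRing B] [FiniteDimensional K B] [Algebra k B]
  [IsScalarTower k K B]

/-! ### units -/

theorem inv_cont_BC {R : Type*} [CommRing R] [Algebra k R] [TopologicalSpace R]
    [IsTopologicalRing R] (hR : ∀ r : R, IsUnit r → ContinuousAt Ring.inverse r)
    {x : BC k K B R} (hx : IsUnit x) : ContinuousWithinAt Ring.inverse {y | IsUnit y} x := by
  have := finite_kB k K B
  let b := bas k K B R (finBasis k B)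
  have hL : Continuous (Algebra.leftMulMatrix b) :=
    IsModuleTopology.continuous_of_linearMap (Algebra.leftMulMatrix b).toLinearMap
  have h1 : ContinuousAt (fun y => (crd k K B R (finBasis k B)).symm
      ((Algebra.leftMulMatrix b y)⁻¹.mulVec (b.repr 1))) x := by
    refine (crd k K B R (finBasis k B)).symm.continuous.continuousAt.comp ?_
    have h2 := (continuousAt_matrix_inv _ (hR _ ((Matrix.isUnit_iff_isUnit_det _).1
      (hx.map (Algebra.leftMulMatrix b))))).comp hL.continuousAt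
    exact (continuous_id.matrix_mulVec continuous_const).continuousAt.comp h2
  have h3 : ∀ y : BC k K B R, IsUnit y → Ring.inverse y = (crd k K B R (finBasis k B)).symm
      ((Algebra.leftMulMatrix b y)⁻¹.mulVec (b.repr 1)) := by
    rintro _ ⟨u, rfl⟩
    rw [Ring.inverse_unit, Matrix.inv_eq_left_inv (B := Algebra.leftMulMatrix b ↑u⁻¹)
      (by rw [← map_mul, u.inv_mul, map_one]), Algebra.leftMulMatrix_mulVec_repr, mul_one,
      ContinuousLinearEquiv.eq_symm_apply]
    rfl
  exact h1.continuousWithinAt.congr h3 (h3 x hx)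

variable (S : Finset (Pl k))

theorem isUnit_AS {x : AS k K B S} : IsUnit x ↔ IsUnit x.1 ∧ ∀ v, IsUnit (x.2 v) := by
  rw [Prod.isUnit_iff, Pi.isUnit_iff]

theorem inverse_AS {x : AS k K B S} (hx : IsUnit x) :
    Ring.inverse x = (Ring.inverse x.1, fun v => Ring.inverse (x.2 v)) := by
  obtain ⟨h1, h2⟩ := (isUnit_AS S).1 hx
  refine (hx.mul_right_inj).1 ?_
  rw [Ring.mul_inverse_cancel _ hx]
  exact Prod.ext (Ring.mul_inverse_cancel _ h1).symm
    (funext fun v => (Ring.mul_inverse_cancel _ (h2 v)).symm)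

variable (K B) in
theorem unit_open : IsOpen {y : AS k K B S | IsUnit y} := by
  simp only [isUnit_AS, Set.ofPred_and, Set.ofPred_forall]
  exact ((BC.isOpen_isUnit Units.isOpen).preimage continuous_fst).inter (isOpen_iInter_of_finite
    fun v => (BC.isOpen_isUnit (R := Kv v.1) Units.isOpen).preimage
      (f := fun y : AS k K B S => y.2 v) ((continuous_apply v).comp continuous_snd))

variable (K B) in
theorem inv_cont : ContinuousOn Ring.inverse {y : AS k K B S | IsUnit y} := by
  refine ContinuousOn.congr (fun x hx => ?_) fun x hx => inverse_AS S hx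
  obtain ⟨h1, h2⟩ := (isUnit_AS S).1 hx
  refine ContinuousWithinAt.prodMk ?_ (continuousWithinAt_pi.2 fun v => ?_)
  · exact (inv_cont_BC (by rintro _ ⟨r, rfl⟩; exact NormedRing.inverse_continuousAt r) h1).comp
      continuous_fst.continuousWithinAt fun y hy => ((isUnit_AS S).1 hy).1
  · exact (inv_cont_BC (by rintro _ ⟨r, rfl⟩; exact NormedRing.inverse_continuousAt r) (h2 v)).comp
      (f := fun y : AS k K B S => y.2 v)
      ((continuous_apply v).comp continuous_snd).continuousWithinAt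
      fun y hy => ((isUnit_AS S).1 hy).2 v

/-! ### depth in the completions -/

variable (K B) in
/-- small at the anisotropic places over `v` -/
def DI (v : Pl k) (m : ℕ) : AddSubgroup B where
  carrier := {x | ∀ w ∈ TT K B, below k w = v → val w x < exp (-(m : ℤ))}
  zero_mem' w _ _ := by simp
  add_mem' hx hy w hw hv := (hw.2 _ _).trans_lt (max_lt (hx w hw hv) (hy w hw hv))
  neg_mem' hx w hw hv := by rw [val_neg]; exact hx w hw hv

theorem DI_mul {v : Pl k} {m : ℕ} {x y : B} (hx : x ∈ DI K B v m) (hy : y ∈ DI K B v m) :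
    x * y ∈ DI K B v m := fun w hw hv => by
  rw [val_mul]
  exact (mul_le_of_le_one_right' ((hy w hw hv).le.trans (exp_neg_le_one m))).trans_lt (hx w hw hv)

theorem DI_star {v : Pl k} {m : ℕ} {x : B} (hx : x ∈ DI K B v m) : star x ∈ DI K B v m :=
  fun w hw hv => by
    obtain ⟨w', h1, -, h2, -, h3⟩ := TL31.exists_conj k hw
    rw [← h3]; exact hx w' h1 (h2.trans hv)

variable (K B) in
/-- the closure of `DI` -/
def DA (v : Pl k) (m : ℕ) : AddSubgroup (BC k K B (Kv v)) :=
  ((DI K B v m).map (inc k K B (Kv v) : B →+ _)).topologicalClosure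

theorem isClosed_DA (v : Pl k) (m : ℕ) : IsClosed (DA K B v m : Set (BC k K B (Kv v))) :=
  AddSubgroup.isClosed_topologicalClosure _

theorem exists_nhds (hd : 2 ≤ deg K B) (v : Pl k) (m : ℕ) :
    ∃ V ∈ 𝓝 (0 : BC k K B (Kv v)), ∀ x : B, inc k K B (Kv v) x ∈ V → x ∈ DI K B v m := by
  by_cases hv : v ∈ Tk k K B
  · exact (TL31.tLink k K B hd v hv).2.2 m
  · exact ⟨_, univ_mem, fun x _ w hw e => absurd ⟨w, hw, e⟩ hv⟩

theorem isOpen_DA (hd : 2 ≤ deg K B) (v : Pl k) (m : ℕ) :
    IsOpen (DA K B v m : Set (BC k K B (Kv v))) := by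
  obtain ⟨V, hV, h⟩ := exists_nhds hd v m
  refine AddSubgroup.isOpen_of_mem_nhds _ (g := 0) (mem_of_superset (interior_mem_nhds.2 hV) ?_)
  refine ((TL31.dense_inc k K B v).open_subset_closure_inter isOpen_interior).trans
    (closure_mono ?_)
  rintro _ ⟨h1, x, rfl⟩
  exact ⟨x, h x (interior_subset h1), rfl⟩

theorem inc_mem_DA (hd : 2 ≤ deg K B) {v : Pl k} {m : ℕ} {x : B} :
    inc k K B (Kv v) x ∈ DA K B v m ↔ x ∈ DI K B v m := by
  refine ⟨fun hx => ?_, fun hx => AddSubgroup.le_topologicalClosure _ ⟨x, hx, rfl⟩⟩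
  obtain ⟨V, hV, h⟩ := exists_nhds hd v m
  have hc : ContinuousAt (fun y => inc k K B (Kv v) x - y) (inc k K B (Kv v) x) := by fun_prop
  obtain ⟨_, h1, y, hy, rfl⟩ := mem_closure_iff_nhds.1 hx _
    (hc.preimage_mem_nhds (by rwa [sub_self]))
  simpa using add_mem (h (x - y) (by rw [map_sub]; exact h1)) hy

theorem DA_top {v : Pl k} (hv : v ∉ Tk k K B) (m : ℕ) (x : BC k K B (Kv v)) : x ∈ DA K B v m :=
  closure_mono (by
    rintro _ ⟨y, rfl⟩
    exact ⟨y, fun w hw e => absurd ⟨w, hw, e⟩ hv, rfl⟩) (TL31.dense_inc k K B v x)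

theorem DA_mul {v : Pl k} {m : ℕ} {x y : BC k K B (Kv v)} (hx : x ∈ DA K B v m)
    (hy : y ∈ DA K B v m) : x * y ∈ DA K B v m :=
  map_mem_closure₂ continuous_mul hx hy (by
    rintro _ ⟨a, ha, rfl⟩ _ ⟨b, hb, rfl⟩
    exact ⟨a * b, DI_mul ha hb, map_mul (inc k K B (Kv v)) a b⟩)

theorem DA_star {v : Pl k} {m : ℕ} {x : BC k K B (Kv v)} (hx : x ∈ DA K B v m) :
    star x ∈ DA K B v m :=
  map_mem_closure continuous_star hx (by
    rintro _ ⟨a, ha, rfl⟩
    exact ⟨star a, DI_star ha, rfl⟩)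

variable (K B) in
/-- the local group away from `v₀` -/
def G2 (m : ℕ) : Subgroup (unitary (AS k K B S)) where
  carrier := {g | ∀ v : S, (g : AS k K B S).2 v - 1 ∈ DA K B v.1 m}
  one_mem' v := by simp
  mul_mem' {a b} ha hb v := by
    have := add_mem (add_mem (DA_mul (ha v) (hb v)) (ha v)) (hb v)
    convert this using 1
    change (a : AS k K B S).2 v * (b : AS k K B S).2 v - 1 = _
    noncomm_ring
  inv_mem' {a} ha v := by
    have := DA_star (ha v)
    rwa [star_sub, star_one] at this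

variable {S}

theorem mem_G2 {m : ℕ} {g : unitary (AS k K B S)} :
    g ∈ G2 K B S m ↔ ∀ v : S, (g : AS k K B S).2 v - 1 ∈ DA K B v.1 m := Iff.rfl

theorem mem_G2' {m : ℕ} {g : unitary (AS k K B S)} : g ∈ G2 K B S m ↔
    ∀ v : S, v.1 ∈ Tk k K B → (g : AS k K B S).2 v - 1 ∈ DA K B v.1 m :=
  ⟨fun h v _ => h v, fun h v => (em _).elim (h v) fun hv => DA_top hv m _⟩

theorem cont_comp (v : S) : Continuous fun g : unitary (AS k K B S) => (g : AS k K B S).2 v - 1 :=
  ((continuous_apply v).comp (continuous_snd.comp continuous_subtype_val)).sub continuous_const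

variable (S)

theorem isOpen_G2 (hd : 2 ≤ deg K B) (m : ℕ) :
    IsOpen (G2 K B S m : Set (unitary (AS k K B S))) := by
  change IsOpen {g : unitary (AS k K B S) | ∀ v : S, (g : AS k K B S).2 v - 1 ∈ DA K B v.1 m}
  rw [Set.ofPred_forall]
  exact isOpen_iInter_of_finite fun v => (isOpen_DA hd v.1 m).preimage (cont_comp v)

variable {S}

theorem jAU_mem (hd : 2 ≤ deg K B) {m : ℕ} {u : unitary B} (hu : u ∈ Um K B m) :
    jAU k K B S u ∈ G2 K B S m := fun v => by
  have := (inc_mem_DA hd (v := v.1) (m := m) (x := (u : B) - 1)).2 fun w hw _ => hu w hw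
  rwa [map_sub, map_one] at this

theorem mem_Um_of (hd : 2 ≤ deg K B) (hS : ∀ v ∈ Tk k K B, v ∈ S) {m : ℕ} {u : unitary B}
    (hu : jAU k K B S u ∈ G2 K B S m) : u ∈ Um K B m := fun w hw => by
  refine (inc_mem_DA hd (v := below k w) (m := m) (x := (u : B) - 1)).1 ?_ w hw rfl
  rw [map_sub, map_one]
  exact hu ⟨_, hS _ ⟨w, hw, rfl⟩⟩

theorem exists_G2 (hd : 2 ≤ deg K B) (hS : ∀ v ∈ Tk k K B, v ∈ S) (m : ℕ) :
    ∃ G : Subgroup (unitary (AS k K B S)), (∀ u : unitary B, jAU k K B S u ∈ G ↔ u ∈ Um K B m) ∧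
      IsOpen (G : Set (unitary (AS k K B S))) :=
  ⟨G2 K B S m, fun _ => ⟨mem_Um_of hd hS, jAU_mem hd⟩, isOpen_G2 S hd m⟩

/-! ### the local field -/

theorem lf (v : Pl k) (h6 : v.valuation k (6 : k) = 1) {π : Kv v} (hπ : Valued.v π = exp (-1 : ℤ)) :
    Lf (v.adicCompletionIntegers k).toSubring π := by
  have hmem : ∀ x : Kv v, x ∈ (v.adicCompletionIntegers k).toSubring ↔ Valued.v x ≤ 1 :=
    fun _ => Iff.rfl
  obtain ⟨π', h⟩ := NstK39.locF v h6
  have h1 : Valued.v π < 1 := by rw [hπ]; exact exp_neg_lt_one one_pos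
  have h0 : π ≠ 0 := by rintro rfl; rw [map_zero] at hπ; exact exp_ne_zero hπ.symm
  have ht := tendsto_pow_atTop_nhds_zero_of_norm_lt_one
    (Valued.toNormedField.norm_lt_one_iff.2 h1)
  refine ⟨⟨h.cpt, h0, ht, fun x => ?_, h.res⟩, Valued.isOpen_valuationSubring _, h1.le,
    (v.adicCompletionIntegers k).mem_or_inv_mem, fun y hy => ?_⟩
  · have h1 := ht.mul_const x
    rw [zero_mul] at h1
    obtain ⟨n, hn⟩ := (h1.eventually (Metric.closedBall_mem_nhds (0 : Kv v) one_pos)).exists
    exact ⟨n, by rw [← SetLike.mem_coe, NstK39.int_eq_ball]; exact hn⟩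
  · rcases ((hmem y).1 hy).eq_or_lt with h2 | h2
    · refine Or.inl ⟨by rw [hmem, map_inv₀, h2, inv_one], ?_⟩
      rintro rfl
      simp at h2
    · refine Or.inr ⟨π⁻¹ * y, ?_, by rw [mul_inv_cancel_left₀ h0]⟩
      rw [hmem, map_mul, map_inv₀, hπ, inv_mul_le_one₀ (exp_pos)]
      exact (lt_mul_exp_iff_le exp_ne_zero).1 (by rwa [← exp_add, neg_add_cancel, exp_zero])

theorem exists_lf (v : Pl k) (h6 : v.valuation k (6 : k) = 1) : ∃ p : k,
    v.valuation k p = exp (-1 : ℤ) ∧
      Lf (v.adicCompletionIntegers k).toSubring (algebraMap k (Kv v) p) := by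
  obtain ⟨p, hp⟩ := v.valuation_exists_uniformizer k
  exact ⟨p, hp, lf v h6 (by rw [NstK39.val_alg, hp])⟩

end Crest.Agent.T24.Na.G50
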