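import Crest.Agent.T24.CocS_98
import Crest.Agent.T24.NstK_39
import Crest.Agent.T24.NaDef_18

/-!
# Row 24, NA/TW instantiation: the lattices `L` and `Γ`.
-/

set_option autoImplicit false
set_option linter.unusedSectionVars false
set_option linter.style.haveILetI false

noncomputable section

namespace Crest.Agent.T24.Na.L98

open Module Csa Asa Set Filter Topology NumberField IsDedekindDomain BC Coc WithZero
open scoped NumberField Classical Pointwise Valued

/-- cocompactness passes to open subgroups -/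
theorem coc_open {G Γ : Type*} [Group G] [TopologicalSpace G] [IsTopologicalGroup G] [Group Γ]
    (j : Γ →* G) {C : Set G} (hC : IsCompact C) (h : ∀ g, ∃ γ, (j γ)⁻¹ * g ∈ C) (H : Subgroup G)
    (hH : IsOpen (H : Set G)) : ∃ C' : Set G, IsCompact C' ∧ C' ⊆ H ∧
      ∀ g ∈ H, ∃ γ, j γ ∈ H ∧ (j γ)⁻¹ * g ∈ C' := by
  obtain ⟨t, -, ht⟩ := hC.elim_nhds_subcover (fun c => (fun c' => c⁻¹ * c') ⁻¹' (H : Set G))
    fun c _ => (hH.preimage (continuous_const.mul continuous_id)).mem_nhds (by simp)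
  have : ∀ c : G, ∃ γ, (∃ γ', j γ' * c ∈ H) → j γ * c ∈ H := fun c => by
    by_cases h : ∃ γ', j γ' * c ∈ H
    · exact ⟨h.choose, fun _ => h.choose_spec⟩
    · exact ⟨1, fun h' => absurd h' h⟩
  choose δ hδ using this
  refine ⟨⋃ c ∈ t, ((fun x => j (δ c) * x) '' C ∩ H), t.isCompact_biUnion fun c _ =>
    (hC.image (continuous_const.mul continuous_id)).inter_right (H.isClosed_of_isOpen hH),
    iUnion₂_subset fun _ _ => inter_subset_right, fun g hg => ?_⟩
  obtain ⟨γ, hγ⟩ := h g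
  obtain ⟨c, hc, h1⟩ := mem_iUnion₂.1 (ht hγ)
  have h1' : c⁻¹ * ((j γ)⁻¹ * g) ∈ H := h1
  have h2 : j (δ c) * c ∈ H := hδ c ⟨γ, by
    have := H.mul_mem hg (H.inv_mem h1'); simpa [mul_assoc] using this⟩
  have h3 : j (δ c) * ((j γ)⁻¹ * g) ∈ H := by
    have := H.mul_mem h2 h1'; simpa [mul_assoc] using this
  refine ⟨γ * (δ c)⁻¹, ?_, mem_iUnion₂.2 ⟨c, hc, ⟨_, hγ, by simp [mul_assoc]⟩, ?_⟩⟩
  · have := H.mul_mem hg (H.inv_mem h3); simpa [mul_assoc] using this
  · simpa [mul_assoc] using h3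

theorem exists_small {R : Type*} [Ring R] [TopologicalSpace R] [IsTopologicalRing R] {e : ℕ → R}
    (he : Tendsto e atTop (𝓝 0)) {C : Set R} (hC : IsCompact C) {U : Set R} (hU : U ∈ 𝓝 (0 : R)) :
    ∃ n, ∀ c ∈ C, e n * c ∈ U := by
  have : ∀ᶠ x : R in 𝓝 0, ∀ c ∈ C, x * c ∈ U :=
    hC.eventually_forall_of_forall_eventually fun c _ =>
      (continuous_mul (M := R)).continuousAt.eventually (by simpa using hU)
  exact (he.eventually this).exists

variable {k K B : Type*} [Field k] [NumberField k] [Field K] [NumberField K] [Algebra k K]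
  [StarRing K] [Quad k K] [Ring B] [StarRing B] [Algebra K B] [StarModule K B]
  [Algebra.IsCentral K B] [IsSimpleRing B] [FiniteDimensional K B] [Algebra k B]
  [IsScalarTower k K B] (Λ : Ord K B)

/-- `Off S ⊆ O[1/N]` as soon as the places of `S` divide `N` -/
theorem exists_pow_mem {S : Finset (Pl k)} {N : ℕ} (hS : ∀ v ∈ S, (N : 𝓞 k) ∈ v.asIdeal) {x : B}
    (hx : x ∈ Λ.Off S) : ∃ j : ℕ, N ^ j • x ∈ Λ.O := by
  let I : Ideal (𝓞 k) :=
    { carrier := {c | (c : k) • x ∈ Λ.O}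
      add_mem' := fun {a b} ha hb => by
        have := Λ.O.add_mem ha hb
        rw [← add_smul] at this
        exact_mod_cast this
      zero_mem' := by simp
      smul_mem' := fun c a ha => by
        have := Λ.int_smul c ha
        rw [smul_smul] at this
        exact_mod_cast this }
  have hI : ∀ n : ℕ, (n : 𝓞 k) ∈ I ↔ n • x ∈ Λ.O := fun n => by
    change ((n : 𝓞 k) : k) • x ∈ Λ.O ↔ _
    rw [← Nat.cast_smul_eq_nsmul k]; simp
  obtain ⟨n, hn, hnx⟩ := Λ.den x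
  have : (N : 𝓞 k) ∈ I.radical := by
    rw [Ideal.radical_eq_sInf, Ideal.mem_sInf]
    rintro J ⟨h1, h2⟩
    have h3 : J ≠ ⊥ := fun h => hn (by
      have := h1 ((hI n).2 (by rwa [nsmul_eq_mul]))
      rw [h] at this
      simpa using this)
    by_cases hv : (⟨J, h2, h3⟩ : Pl k) ∈ S
    · exact hS _ hv
    · obtain ⟨c, h4, h5⟩ := Ord.mem_Off.1 hx _ hv
      exact absurd (h1 h5) h4
  obtain ⟨j, hj⟩ := this
  exact ⟨j, (hI _).1 (by simpa using hj)⟩

theorem mem_Off_of_pow {S : Finset (Pl k)} {N : ℕ} (hS : ∀ v : Pl k, (N : 𝓞 k) ∈ v.asIdeal → v ∈ S)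
    {x : B} {j : ℕ} (hx : N ^ j • x ∈ Λ.O) : x ∈ Λ.Off S :=
  Ord.mem_Off.2 fun v hv => ⟨(N : 𝓞 k) ^ j, fun h => hv (hS v (v.isPrime.mem_of_pow_mem _ h)), by
    rw [← Nat.cast_smul_eq_nsmul k] at hx
    simpa using hx⟩

theorem mem_Off_iff {S : Finset (Pl k)} {N : ℕ} (hS : ∀ v, v ∈ S ↔ (N : 𝓞 k) ∈ v.asIdeal) (x : B) :
    x ∈ Λ.Off S ↔ ∃ j : ℕ, N ^ j • x ∈ Λ.O :=
  ⟨exists_pow_mem Λ fun v => (hS v).1, fun ⟨_, h⟩ => mem_Off_of_pow Λ (fun v => (hS v).2) h⟩

theorem mem_O_of_At {x : B} (h : ∀ v : Pl k, x ∈ Λ.At v) : x ∈ Λ.O := by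
  obtain ⟨j, hj⟩ := exists_pow_mem Λ (S := (∅ : Finset (Pl k))) (N := 1) (by simp)
    (Ord.mem_Off.2 fun v _ => h v)
  simpa using hj

/-- the order is bounded at every finite place -/
theorem exists_cpt (v : Pl k) :
    ∃ W : Set (BC k K B (Kv v)), IsCompact W ∧ ∀ x ∈ Λ.O, inc k K B (Kv v) x ∈ W := by
  obtain ⟨e, he⟩ := Λ.exists_basis_out (k := k)
  refine ⟨(crd k K B (Kv v) e).symm '' univ.pi fun _ => {y | Valued.v y ≤ 1},
    (isCompact_univ_pi fun _ => isCompact_int v).image (crd k K B (Kv v) e).symm.continuous,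
    fun x hx => ⟨crd k K B (Kv v) e (inc k K B (Kv v) x), fun i _ => ?_,
      (crd k K B (Kv v) e).symm_apply_apply _⟩⟩
  obtain ⟨r, hr⟩ := he x hx i
  have : crd k K B (Kv v) e (inc k K B (Kv v) x) i = algebraMap k (Kv v) (r : k) := by
    rw [hr]; exact repr_inc k K B (Kv v) e x i
  rw [mem_ofPred_eq, this, NstK39.val_alg]
  exact val_int v r

theorem tendsto_pow {v : Pl k} {N : ℕ} (h : (N : 𝓞 k) ∈ v.asIdeal) :
    Tendsto (fun n : ℕ => (N : Kv v) ^ n) atTop (𝓝 0) := by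
  refine tendsto_pow_atTop_nhds_zero_of_norm_lt_one ?_
  rw [Valued.toNormedField.norm_lt_one_iff, ← map_natCast (algebraMap k (Kv v)), NstK39.val_alg,
    ← map_natCast (algebraMap (𝓞 k) k)]
  exact (v.valuation_lt_one_iff_mem _).2 h

/-- the integral hermitian elements -/
def L₀ : AddSubgroup (selfAdjoint B) := Λ.O.toAddSubgroup.addSubgroupOf (selfAdjoint B)

/-- the `S`-integral hermitian elements -/
def LS (S : Finset (Pl k)) : AddSubgroup (selfAdjoint B) :=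
  (Λ.Off S).toAddSubgroup.addSubgroupOf (selfAdjoint B)

theorem mem_L₀ {b : selfAdjoint B} : b ∈ L₀ Λ ↔ (b : B) ∈ Λ.O := Iff.rfl

theorem mem_LS {S : Finset (Pl k)} {b : selfAdjoint B} : b ∈ LS Λ S ↔ (b : B) ∈ Λ.Off S := Iff.rfl

theorem L_iff {S : Finset (Pl k)} {N : ℕ} (hS : ∀ v, v ∈ S ↔ (N : 𝓞 k) ∈ v.asIdeal)
    (b : selfAdjoint B) : b ∈ LS Λ S ↔ ∃ j : ℕ, N ^ j • b ∈ L₀ Λ := mem_Off_iff Λ hS b

theorem L₀_fg : (L₀ Λ).FG := by
  have h : (AddSubgroup.toIntSubmodule Λ.O.toAddSubgroup).FG :=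
    (Submodule.fg_iff_addSubgroup_fg _).2 Λ.fg
  let f : selfAdjoint B →ₗ[ℤ] B := (selfAdjoint B).subtype.toIntLinearMap
  have h2 : ((AddSubgroup.toIntSubmodule Λ.O.toAddSubgroup).comap f).FG :=
    Submodule.fg_of_fg_map_injective f Subtype.val_injective
      (h.of_le (Submodule.map_comap_le _ _))
  exact (Submodule.fg_iff_addSubgroup_fg _).1 h2

theorem L₀_full (b : selfAdjoint B) : ∃ m : ℕ, m ≠ 0 ∧ m • b ∈ L₀ Λ := by
  obtain ⟨n, h1, h2⟩ := Λ.den (b : B)
  exact ⟨n, h1, by rwa [← nsmul_eq_mul] at h2⟩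

theorem L_cj {S : Finset (Pl k)} {γ : unitary B} (hγ : γ ∈ Λ.GamU S) {b : selfAdjoint B}
    (hb : b ∈ LS Λ S) : γ • b ∈ LS Λ S :=
  (Λ.Off S).mul_mem ((Λ.Off S).mul_mem hγ hb) (Λ.star_mem_Off hγ)

section Split
variable (S : Finset (Pl k)) (v₀ : Pl k)

variable (k K B) in
/-- `B ⊗ k_S × B ⊗ k_{v₀}` -/
abbrev AV : Type _ := AS k K B S × BC k K B (Kv v₀)

variable (k K B) in
/-- the diagonal embedding -/
def jV : B →+* AV k K B S v₀ := (jA k K B S).prod (inc k K B (Kv v₀)).toRingHom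

theorem jV_injective : Function.Injective (jV k K B S v₀) := fun _ _ h =>
  jA_injective S (congrArg Prod.fst h)

/-- extension by zero -/
def ext0 (x : AS k K B S) (w : Pl k) : BC k K B (Kv w) := if h : w ∈ S then x.2 ⟨w, h⟩ else 0

theorem continuous_ext0 : Continuous (ext0 (k := k) (K := K) (B := B) S) := by
  refine continuous_pi fun w => ?_
  by_cases h : w ∈ S
  · simp only [ext0, dif_pos h]; fun_prop
  · simp only [ext0, dif_neg h]; fun_prop

variable {S v₀} in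
/-- separate the place `v₀` -/
def splitA (hv : v₀ ∉ S) : AS k K B (insert v₀ S) ≃ₜ+ AV k K B S v₀ where
  toFun a := ((a.1, fun w => a.2 ⟨w.1, Finset.mem_insert_of_mem w.2⟩),
    a.2 ⟨v₀, Finset.mem_insert_self v₀ S⟩)
  invFun x := (x.1.1, fun w => Function.update (ext0 S x.1) v₀ x.2 w.1)
  left_inv a := by
    refine Prod.ext rfl (funext fun ⟨w, hw⟩ => ?_)
    by_cases h : w = v₀
    · subst h; exact (Function.update_self w _ (ext0 S (a.1, fun w => a.2 ⟨w.1, _⟩)) :)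
    · exact ((Function.update_of_ne h _ (ext0 S (a.1, fun w => a.2 ⟨w.1, _⟩))).trans
        (dif_pos ((Finset.mem_insert.1 hw).resolve_left h)) :)
  right_inv x := Prod.ext (Prod.ext rfl (funext fun w =>
    ((Function.update_of_ne (fun h : w.1 = v₀ => hv (h ▸ w.2)) x.2 (ext0 S x.1)).trans
      (dif_pos w.2) :))) (Function.update_self v₀ x.2 (ext0 S x.1) :)
  map_add' _ _ := rfl
  continuous_toFun := (continuous_fst.prodMk (continuous_pi fun _ =>
    (continuous_apply _).comp continuous_snd)).prodMk ((continuous_apply _).comp continuous_snd)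
  continuous_invFun := (continuous_fst.comp continuous_fst).prodMk (continuous_pi fun w =>
    (continuous_apply w.1).comp (((continuous_ext0 S).comp continuous_fst).update v₀ continuous_snd))

variable {S v₀} (hv : v₀ ∉ S)
include hv

theorem alat_V : ALat ((Λ.Off (insert v₀ S)).map (jV k K B S v₀)).toAddSubgroup :=
  (alat_Off (insert v₀ S) Λ).equiv (splitA hv).symm fun a =>
    ⟨by rintro ⟨x, hx, rfl⟩
        exact ⟨x, hx, ((splitA hv).symm_apply_apply (jA k K B _ x)).symm⟩,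
      fun ⟨x, hx, e⟩ => ⟨x, hx, by
        rw [← (splitA hv).apply_symm_apply a, ← e]; rfl⟩⟩

theorem lat_V (hB : Aniso B) : Lat (starAddEquiv (R := AV k K B S v₀)).toAddMonoidHom
    ((Λ.Off (insert v₀ S)).map (jV k K B S v₀)) where
  cont := continuous_star
  mul := star_mul
  inv := star_star
  mem := by rintro _ ⟨x, hx, rfl⟩; exact ⟨star x, Λ.star_mem_Off hx, rfl⟩
  disc := (alat_V Λ hv).disc
  coc := (alat_V Λ hv).coc
  sa := (alat_V Λ hv).sa
  ani := by
    rintro _ ⟨x, -, rfl⟩ h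
    rw [hB x (jV_injective (k := k) (K := K) S v₀ (by rw [map_mul, map_zero]; exact h)), map_zero]
  big := by
    refine ⟨{a | IsUnit a.1.1}, fun g a hg ha =>
      ((hg.map (RingHom.fst _ _)).map (RingHom.fst _ _)).mul ha, ?_, fun C hC => ?_⟩
    · rintro _ ⟨x, -, rfl⟩ h
      exact (isUnit_of_map (K := K) (inc k K B (Inf k)).toRingHom
        (inc_injective k K B (Inf k)) h).map _
    · obtain ⟨t, ht⟩ := big_inf (hC.image (continuous_fst.comp continuous_fst))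
      exact ⟨((t, 0), 0), fun c hc => ht _ ⟨c, hc, rfl⟩⟩

end Split

section Fields
variable {S : Finset (Pl k)} {v₀ : Pl k} (hv : v₀ ∉ S) (s : Spl K B v₀)

instance : IsModuleTopology (Kv v₀) (Mt (deg K B) (Kv v₀)) :=
  inferInstanceAs (IsModuleTopology (Kv v₀) (Fin (deg K B) → Fin (deg K B) → Kv v₀))

theorem mk'_psi (b : B) : s.sm.mk' (s.ψ b) (s.ψ (star b)) = inc k K B (Kv v₀) b :=
  s.sm.ext' (by rw [SM.hat_mk', SM.hat_inc]; rfl) (by rw [SM.hat_star_mk', star_inc, SM.hat_inc]; rfl)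

variable (S) in
/-- the embedding of the hermitian elements -/
def iJ : selfAdjoint B →+ selfAdjoint (AS k K B S) × Mt (deg K B) (Kv v₀) where
  toFun a := (⟨jA k K B S a, by rw [selfAdjoint.mem_iff, star_jA, a.2.star_eq]⟩, s.ψ a)
  map_zero' := Prod.ext (Subtype.ext (map_zero (jA k K B S))) (map_zero s.ψ)
  map_add' a b := Prod.ext (Subtype.ext (map_add (jA k K B S) _ _)) (map_add s.ψ _ _)

theorem iJ_fst (a : selfAdjoint B) : ((iJ S s a).1 : AS k K B S) = jA k K B S a := rfl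

theorem iJ_snd (a : selfAdjoint B) : (iJ S s a).2 = s.ψ a := rfl

/-- the local space inside the algebra -/
def emb (z : selfAdjoint (AS k K B S) × Mt (deg K B) (Kv v₀)) : AV k K B S v₀ :=
  (z.1, s.sm.mk' z.2 z.2)

theorem continuous_emb : Continuous (emb (S := S) s) :=
  (continuous_subtype_val.comp continuous_fst).prodMk
    (s.sm.continuous_mk'.comp (continuous_snd.prodMk continuous_snd))

theorem emb_iJ (a : selfAdjoint B) : emb s (iJ S s a) = jV k K B S v₀ a :=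
  Prod.ext rfl (by
    have := mk'_psi s (a : B)
    rw [a.2.star_eq] at this
    exact this)

/-- `x ↦ x + x⋆` -/
def ret : AV k K B S v₀ →+ selfAdjoint (AS k K B S) × Mt (deg K B) (Kv v₀) where
  toFun x := (⟨x.1 + star x.1, by rw [selfAdjoint.mem_iff, star_add, star_star, add_comm]⟩,
    s.sm.hat (x.2 + star x.2))
  map_zero' := Prod.ext (Subtype.ext (by simp)) (by simp)
  map_add' a b := Prod.ext (Subtype.ext (by simp; abel)) (by simp; abel)

theorem continuous_ret : Continuous (ret (S := S) s) :=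
  ((continuous_fst.add continuous_fst.star).subtype_mk _).prodMk
    (s.sm.continuous_hat.comp (continuous_snd.add continuous_snd.star))

theorem ret_emb (z : selfAdjoint (AS k K B S) × Mt (deg K B) (Kv v₀)) :
    ret s (emb s z) = 2 • z :=
  Prod.ext (Subtype.ext (by
    change (z.1 : AS k K B S) + star (z.1 : AS k K B S) = 2 • (z.1 : AS k K B S)
    rw [z.1.2.star_eq, two_smul])) (by
    change s.sm.hat (s.sm.mk' z.2 z.2 + star (s.sm.mk' z.2 z.2)) = 2 • z.2
    rw [map_add, SM.hat_mk', SM.hat_star_mk', two_smul])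

theorem ret_jV (x : B) : ret s (jV k K B S v₀ x) =
    iJ S s ⟨x + star x, by rw [selfAdjoint.mem_iff, star_add, star_star, add_comm]⟩ :=
  Prod.ext (Subtype.ext (map_add (jA k K B S) x (star x)).symm) (by
    change s.sm.hat (inc k K B _ x + inc k K B _ (star x)) = s.ψ (x + star x)
    rw [← map_add, SM.hat_inc]; rfl)

variable (k K B S) in
/-- the finite part of `1` -/
def eps : AS k K B S := (0, 1)

theorem tendsto_eps {N : ℕ} (hS : ∀ v ∈ insert v₀ S, (N : 𝓞 k) ∈ v.asIdeal) :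
    Tendsto (fun n : ℕ => N ^ n • ((eps k K B S, 1) : AS k K B S × Mt (deg K B) (Kv v₀))) atTop
      (𝓝 0) := by
  refine Tendsto.prodMk_nhds (Tendsto.prodMk_nhds (by simp [eps]) (tendsto_pi_nhds.2 fun v => ?_)) ?_
  · have := (tendsto_pow (hS v.1 (Finset.mem_insert_of_mem v.2))).smul_const (1 : BC k K B (Kv v.1))
    rw [zero_smul] at this
    refine this.congr fun n => ?_
    rw [← Nat.cast_pow, Nat.cast_smul_eq_nsmul]; rfl
  · have := (tendsto_pow (hS v₀ (Finset.mem_insert_self _ _))).smul_const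
      (1 : Mt (deg K B) (Kv v₀))
    rw [zero_smul] at this
    refine this.congr fun n => ?_
    rw [← Nat.cast_pow, Nat.cast_smul_eq_nsmul]; rfl

theorem two_inj {a b : selfAdjoint (AS k K B S) × Mt (deg K B) (Kv v₀)} (h : 2 • a = 2 • b) :
    a = b := by
  refine Prod.ext (Subtype.ext ?_) ?_
  · have h1 : 2 • (a.1 : AS k K B S) = 2 • (b.1 : AS k K B S) :=
      congrArg (fun y : selfAdjoint (AS k K B S) × Mt (deg K B) (Kv v₀) => (y.1 : AS k K B S)) h
    rw [← Nat.cast_smul_eq_nsmul k, ← Nat.cast_smul_eq_nsmul k] at h1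
    exact smul_right_injective _ (by simp) h1
  · have h1 : 2 • a.2 = 2 • b.2 := congrArg Prod.snd h
    rw [← Nat.cast_smul_eq_nsmul k, ← Nat.cast_smul_eq_nsmul k] at h1
    exact smul_right_injective _ (by simp) h1

include hv in
theorem L_fin (C : Set (selfAdjoint (AS k K B S) × Mt (deg K B) (Kv v₀))) (hC : IsCompact C) :
    {b | b ∈ LS Λ (insert v₀ S) ∧ iJ S s b ∈ C}.Finite := by
  refine Finite.of_finite_image (f := fun b : selfAdjoint B => jV k K B S v₀ b)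
    ((finite_inter _ (alat_V Λ hv).disc (hC.image (continuous_emb s))).subset ?_)
    (((jV_injective S v₀).comp Subtype.val_injective).injOn)
  rintro _ ⟨b, ⟨h1, h2⟩, rfl⟩
  exact ⟨⟨_, h2, emb_iJ s b⟩, b, h1, rfl⟩

include hv in
theorem L_cov {N : ℕ} (hN : N ≠ 0) (hS : ∀ v ∈ insert v₀ S, (N : 𝓞 k) ∈ v.asIdeal) (m : ℕ)
    (hm : m ≠ 0) (U : Set (AS k K B S × Mt (deg K B) (Kv v₀))) (hU : U ∈ 𝓝 0) :
    ∃ D : Set (selfAdjoint (AS k K B S) × Mt (deg K B) (Kv v₀)), IsCompact D ∧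
      (∀ z ∈ D, (eps k K B S * z.1, z.2) ∈ U) ∧
      ∀ z, ∃ b ∈ LS Λ (insert v₀ S), z - iJ S s (m • b) ∈ D := by
  obtain ⟨C, hC, hc⟩ := (alat_V Λ hv).coc
  have h1 : IsCompact ((fun x => m • ret s x) '' C) := hC.image ((continuous_ret s).nsmul m)
  obtain ⟨n, hn⟩ := exists_small (tendsto_eps (k := k) (K := K) (B := B) hS)
    (h1.image ((continuous_subtype_val.comp continuous_fst).prodMk continuous_snd)) hU
  refine ⟨(fun z => N ^ n • z) '' ((fun x => m • ret s x) '' C), h1.image (continuous_nsmul _),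
    ?_, fun z => ?_⟩
  · rintro _ ⟨z, hz, rfl⟩
    have := hn _ ⟨z, hz, rfl⟩
    rw [smul_mul_assoc, ← mul_smul_comm] at this
    convert this using 1
    exact Prod.ext rfl (one_mul _).symm
  · have h0 : ((N ^ n * m * 2 : ℕ) : k) ≠ 0 := by simp [hN, hm]
    obtain ⟨_, ⟨x, hx, rfl⟩, h2⟩ := hc (((N ^ n * m * 2 : ℕ) : k)⁻¹ • emb s z)
    refine ⟨N ^ n • ⟨x + star x, by rw [selfAdjoint.mem_iff, star_add, star_star, add_comm]⟩,
      nsmul_mem (show _ ∈ LS Λ _ from (Λ.Off _).add_mem hx (Λ.star_mem_Off hx)) _,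
      _, ⟨_, h2, rfl⟩, ?_⟩
    have h3 : (N ^ n * m * 2) • ((N ^ n * m * 2 : ℕ) : k)⁻¹ • emb s z = emb s z := by
      rw [← Nat.cast_smul_eq_nsmul k, smul_smul, mul_inv_cancel₀ h0, one_smul]
    have h5 : N ^ n • m • ret s (((N ^ n * m * 2 : ℕ) : k)⁻¹ • emb s z) = z := by
      refine two_inj (k := k) ?_
      rw [← ret_emb s z, ← map_nsmul, ← map_nsmul, ← map_nsmul, smul_smul, smul_smul, mul_assoc,
        mul_comm 2, h3]
    change N ^ n • m • ret s (_ - jV k K B S v₀ x) = _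
    rw [map_sub, smul_sub, smul_sub, h5, ret_jV, map_nsmul, map_nsmul, smul_comm]

theorem L_small {N : ℕ} (hS : ∀ v ∈ insert v₀ S, (N : 𝓞 k) ∈ v.asIdeal)
    (U : Set (AS k K B S × Mt (deg K B) (Kv v₀))) (hU : U ∈ 𝓝 0) : ∃ n : ℕ, ∀ b ∈ L₀ Λ,
      (eps k K B S * jA k K B S ((N ^ n • b : selfAdjoint B) : B),
        s.ψ ((N ^ n • b : selfAdjoint B) : B)) ∈ U := by
  choose W h1 h2 using exists_cpt (k := k) Λ
  obtain ⟨n, hn⟩ := exists_small (tendsto_eps (k := k) (K := K) (B := B) hS)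
    (((isCompact_singleton (x := 0)).prod (isCompact_univ_pi fun v : S => h1 v.1)).prod
      ((h1 v₀).image s.sm.continuous_hat)) hU
  refine ⟨n, fun b hb => ?_⟩
  have := hn (eps k K B S * jA k K B S b, s.ψ b) ⟨⟨zero_mul _, fun v _ => by
    have := h2 v.1 b hb
    rwa [← one_mul (inc k K B _ _)] at this⟩, _, h2 v₀ b hb, s.sm.hat_inc _⟩
  convert this using 1
  rw [smul_mul_assoc, AddSubgroup.coe_nsmul, map_nsmul, map_nsmul, mul_smul_comm]
  refine Prod.ext (congrArg (fun y => N ^ n • y) ?_) (congrArg (fun y => N ^ n • y) (one_mul _).symm)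
  exact Prod.ext (by simp [eps]) (by simp [eps])

theorem L_link (m : ℕ) (hm : m ≠ 0) : ∃ U ∈ 𝓝 (0 : AS k K B S × Mt (deg K B) (Kv v₀)),
    ∀ b ∈ LS Λ (insert v₀ S), (eps k K B S * jA k K B S ((m • b : selfAdjoint B) : B),
      s.ψ ((m • b : selfAdjoint B) : B)) ∈ U → b ∈ L₀ Λ := by
  choose V h1 h2 using NstK39.At_nhds (k := k) Λ
  have hk : ∀ (v : Pl k) (x : B), (m : Kv v)⁻¹ • inc k K B (Kv v) (m • x) = inc k K B (Kv v) x :=
    fun v x => by
      haveI : CharZero (Kv v) := charZero_of_injective_algebraMap (algebraMap k (Kv v)).injective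
      rw [map_nsmul, ← Nat.cast_smul_eq_nsmul (Kv v), smul_smul,
        inv_mul_cancel₀ (Nat.cast_ne_zero.2 hm), one_smul]
  have c1 : ∀ v : S, Continuous fun y : AS k K B S × Mt (deg K B) (Kv v₀) =>
      (m : Kv v.1)⁻¹ • y.1.2 v := fun v => by fun_prop
  have c2 : Continuous fun y : AS k K B S × Mt (deg K B) (Kv v₀) =>
      (m : Kv v₀)⁻¹ • s.sm.mk' y.2 y.2 := by
    have : Continuous fun y : AS k K B S × Mt (deg K B) (Kv v₀) => s.sm.mk' y.2 y.2 :=
      s.sm.continuous_mk'.comp (continuous_snd.prodMk continuous_snd)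
    fun_prop
  have z2 : s.sm.mk' 0 0 = 0 := map_zero s.sm.phi.symm
  refine ⟨_, inter_mem (iInter_mem.2 fun v : S => (c1 v).continuousAt.preimage_mem_nhds (t := V v.1)
    (by simpa using h1 v.1)) (c2.continuousAt.preimage_mem_nhds (t := V v₀)
      (by simpa [z2] using h1 v₀)),
    fun b hb ⟨g1, g2⟩ => mem_O_of_At (k := k) Λ fun v => ?_⟩
  by_cases h : v ∈ insert v₀ S
  · rcases Finset.mem_insert.1 h with rfl | h
    · refine h2 v _ ?_
      have := mk'_psi s ((m • b : selfAdjoint B) : B)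
      rw [(m • b).2.star_eq] at this
      rw [← hk]
      exact (congrArg (fun y => (m : Kv v)⁻¹ • y ∈ V v) this).mp g2
    · refine h2 v _ ?_
      rw [← hk, ← one_mul (inc k K B _ _)]
      exact mem_iInter.1 g1 ⟨v, h⟩
  · exact Ord.mem_Off.1 hb v h

end Fields

section Latt
variable {S : Finset (Pl k)} {v₀ : Pl k} (hv : v₀ ∉ S) (s : Spl K B v₀)

variable (S) in
/-- the local unitary group inside the algebra -/
def iV : unitary (AS k K B S) × GL (Fin (deg K B)) (Kv v₀) →* AV k K B S v₀ :=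
  (unitary (AS k K B S)).subtype.prodMap
    ((unitary (BC k K B (Kv v₀))).subtype.comp s.sm.uEquiv.symm.toMonoidHom)

theorem isEmbedding_iV : IsEmbedding (iV S s) :=
  IsEmbedding.subtypeVal.prodMap
    (IsEmbedding.subtypeVal.comp s.sm.uHomeo.symm.toHomeomorph.isEmbedding)

theorem mem_range_iV (a : AV k K B S v₀) :
    a ∈ range (iV S s) ↔ star a * a = 1 ∧ a * star a = 1 :=
  ⟨by rintro ⟨u, rfl⟩
      exact ⟨Prod.ext u.1.2.1 (s.sm.uEquiv.symm u.2).2.1, Prod.ext u.1.2.2 (s.sm.uEquiv.symm u.2).2.2⟩,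
    fun ⟨h1, h2⟩ => ⟨(⟨a.1, congrArg Prod.fst h1, congrArg Prod.fst h2⟩,
      s.sm.uEquiv ⟨a.2, congrArg Prod.snd h1, congrArg Prod.snd h2⟩),
      Prod.ext rfl (congrArg Subtype.val (s.sm.uEquiv.symm_apply_apply _))⟩⟩

variable (S) in
/-- the rational points -/
def jG : unitary B →* unitary (AS k K B S) × GL (Fin (deg K B)) (Kv v₀) where
  toFun u := (⟨jA k K B S u, by
    rw [Unitary.mem_iff, star_jA, ← map_mul, ← map_mul, u.2.1, u.2.2, map_one]; simp⟩,
    s.sm.uEquiv (toU k K B (Kv v₀) u))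
  map_one' := Prod.ext (Subtype.ext (map_one (jA k K B S))) (by simp)
  map_mul' a b := Prod.ext (Subtype.ext (map_mul (jA k K B S) _ _)) (by simp)

theorem jG_fst (u : unitary B) : ((jG S s u).1 : AS k K B S) = jA k K B S u := rfl

theorem jG_snd (u : unitary B) : ((jG S s u).2 : Mt (deg K B) (Kv v₀)) = s.ψ u := s.sm.hat_inc _

theorem iV_jG (u : unitary B) : iV S s (jG S s u) = jV k K B S v₀ u :=
  Prod.ext rfl (congrArg Subtype.val (s.sm.uEquiv.symm_apply_apply _))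

include hv

theorem disc_jG : ∃ U ∈ 𝓝 (1 : unitary (AS k K B S) × GL (Fin (deg K B)) (Kv v₀)),
    ∀ γ ∈ Λ.GamU (insert v₀ S), jG S s γ ∈ U → γ = 1 := by
  obtain ⟨N, hN, h⟩ := (alat_V Λ hv).disc
  have hc : Continuous fun u => iV S s u - 1 := (isEmbedding_iV s).continuous.sub continuous_const
  refine ⟨_, hc.continuousAt.preimage_mem_nhds (by rwa [map_one, sub_self]), fun γ hγ hV => ?_⟩
  have := h _ ⟨(γ : B) - 1, (Λ.Off _).sub_mem hγ (Λ.Off _).one_mem, rfl⟩
    (by rw [map_sub, map_one, ← iV_jG s]; exact hV)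
  rw [← map_zero (jV k K B S v₀), (jV_injective S v₀).eq_iff, sub_eq_zero] at this
  exact Subtype.ext this

theorem coc_jG (hB : Aniso B) : ∃ C : Set (unitary (AS k K B S) × GL (Fin (deg K B)) (Kv v₀)),
    IsCompact C ∧ ∀ g, ∃ γ : Λ.GamU (insert v₀ S), (jG S s γ)⁻¹ * g ∈ C := by
  obtain ⟨C, hC, h⟩ := (lat_V Λ hv hB).group (Z := Unit) 1 continuous_const
    (fun _ _ => toFinite _) (iV S s) (isEmbedding_iV s)
    (fun a => (mem_range_iV s a).trans ⟨fun h => ⟨h.1, h.2, rfl⟩, fun h => ⟨h.1, h.2.1⟩⟩)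
  refine ⟨C, hC, fun x => ?_⟩
  obtain ⟨u, ⟨y, hy, e⟩, c, hc, rfl⟩ := h x
  obtain ⟨h1, h2⟩ := (mem_range_iV s _).1 ⟨u, e.symm⟩
  rw [show star (jV k K B S v₀ y) = jV k K B S v₀ (star y) from rfl, ← map_mul,
    ← map_one (jV k K B S v₀), (jV_injective S v₀).eq_iff] at h1 h2
  refine ⟨⟨⟨y, h1, h2⟩, hy⟩, ?_⟩
  rwa [(isEmbedding_iV s).injective ((iV_jG s ⟨y, h1, h2⟩).trans e), inv_mul_cancel_left]

/-- the field `latt` of `Sys.Ok` -/
theorem latt (hB : Aniso B) (G₂ : Subgroup (unitary (AS k K B S)))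
    (hG : IsOpen (G₂ : Set (unitary (AS k K B S)))) (U₀ : Subgroup (unitary B))
    (ι : U₀ →* G₂ × GL (Fin (deg K B)) (Kv v₀))
    (h1 : ∀ u, (((ι u).1 : unitary (AS k K B S)) : AS k K B S) = jA k K B S ((u : unitary B) : B))
    (h2 : ∀ u, ((ι u).2 : Mt (deg K B) (Kv v₀)) = s.ψ ((u : unitary B) : B))
    (hU : ∀ u : unitary B, (∃ g : G₂, ((g : unitary (AS k K B S)) : AS k K B S) = jA k K B S u) →
      u ∈ U₀)
    (Γ : Subgroup U₀) (hΓ : ∀ u : U₀, u ∈ Γ ↔ (u : unitary B) ∈ Λ.GamU (insert v₀ S)) :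
    Latt (ι.comp Γ.subtype) := by
  let f : G₂ × GL (Fin (deg K B)) (Kv v₀) →* unitary (AS k K B S) × GL (Fin (deg K B)) (Kv v₀) :=
    G₂.subtype.prodMap (MonoidHom.id _)
  have hf : IsEmbedding f := IsEmbedding.subtypeVal.prodMap IsEmbedding.id
  have e : ∀ u, f (ι u) = jG S s u := fun u =>
    Prod.ext (Subtype.ext (h1 u)) (Units.ext ((h2 u).trans (jG_snd s _).symm))
  constructor
  · obtain ⟨U, hU, h⟩ := disc_jG Λ hv s
    refine ⟨_, hf.continuous.continuousAt.preimage_mem_nhds (by rwa [map_one]), fun γ hγ => ?_⟩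
    exact Subtype.ext (Subtype.ext (h _ ((hΓ _).1 γ.2) (by rw [← e]; exact hγ)))
  · obtain ⟨C, hC, h⟩ := coc_jG Λ hv s hB
    obtain ⟨C', hC', hs, h'⟩ := coc_open ((jG S s).comp (Λ.GamU (insert v₀ S)).subtype) hC h
      (G₂.prod ⊤) (hG.prod isOpen_univ)
    refine ⟨f ⁻¹' C', hf.isInducing.isCompact_preimage' hC' fun x hx =>
      ⟨(⟨x.1, (hs hx).1⟩, x.2), rfl⟩, fun g => ?_⟩
    obtain ⟨γ, g1, g2⟩ := h' (f g) ⟨g.1.2, trivial⟩
    refine ⟨⟨⟨γ, hU _ ⟨⟨_, g1.1⟩, rfl⟩⟩, (hΓ _).2 γ.2⟩, ?_⟩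
    rw [mem_preimage, map_mul, map_inv]
    exact (congrArg (fun y => y⁻¹ * f g ∈ C') (e _)).mpr g2

end Latt

end Crest.Agent.T24.Na.L98
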