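import Crest.Agent.T24.NaG_50
import Crest.Agent.T24.NaL_98
import Crest.Agent.T24.NaCen_23
import Crest.Agent.T24.Hgt_88
import Crest.Agent.T24.CfgB_24
import Crest.Agent.T24.TLink_31
import Crest.Agent.T24.SplEx_33

/-!
# Row 24, module NA + TW: the analytic step for the data of the row.
-/

set_option autoImplicit false
set_option linter.unusedSectionVars false

noncomputable section

namespace Crest.Agent.T24.Na

open Module Csa Asa Filter Topology NumberField IsDedekindDomain MeasureTheory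
open scoped NumberField

universe u v w

namespace I3
variable {k K B : Type*} [Field k] [NumberField k] [Field K] [NumberField K] [Algebra k K]
  [StarRing K] [Quad k K] [Ring B] [StarRing B] [Algebra K B] [StarModule K B]
  [Algebra.IsCentral K B] [IsSimpleRing B] [FiniteDimensional K B] [Algebra k B]
  [IsScalarTower k K B]

theorem cen_comm (S : Finset (Pl k)) (c : K) (y : AS k K B S) :
    jA k K B S (algebraMap K B c) * y = y * jA k K B S (algebraMap K B c) :=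
  Prod.ext (BC.cen_comm k K B _ (BC.inc k K K (Inf k) c) y.1 :)
    (funext fun v => (BC.cen_comm k K B _ (BC.inc k K K (Kv v.1) c) (y.2 v) :))

theorem psi_comm {v : Pl k} (s : Spl K B v) (c : K) (y : Mt (deg K B) (Kv v)) :
    s.ψ (algebraMap K B c) * y = y * s.ψ (algebraMap K B c) := by
  rw [s.compat]; exact Algebra.commutes _ _

theorem nrm {m : ℕ} {Q : Type} [Group Q] {c : Um K B m →* Q} {M : Subgroup Q} (h : Col m c M) :
    M.Normal := h.im m le_rfl ▸ Subgroup.Normal.map inferInstance c h.surj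

theorem rh_tend (S : Finset (Pl k)) :
    Tendsto (fun R : ℕ => rh k K B S ((R : ℝ) + 1)⁻¹) atTop (𝓝 (rh k K B S 0)) := by
  have h : Continuous (rh k K B S) :=
    ((continuous_algebraMap _ _).comp (continuous_algebraMap ℝ (Inf k))).prodMk continuous_const
  exact (h.tendsto 0).comp (by simpa using tendsto_one_div_add_atTop_nhds_zero_nat (𝕜 := ℝ))

variable [Algebra ℚ B]

theorem ok (I : Inp k K B) (h : I.Ok) (lam : Measure I.Z) (Δ : I.Z → ℝ) (hL : (I.sys lam Δ).OkL)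
    (hW : (I.sys lam Δ).OkW) (hC : (I.sys lam Δ).ChartP) (hD : (I.sys lam Δ).DensP)
    (hE : (I.sys lam Δ).EscP) : (I.sys lam Δ).Ok :=
  { hL, hW with
    lf := h.lf
    hd := h.hd
    star_k := star_ksmul k K B
    inc_star := fun b => (star_jA I.S b).symm
    inc_inj := jA_injective I.S
    k_comm := fun r y => IsScalarTower.algebraMap_apply k K B r ▸ cen_comm I.S _ y
    k_comm' := fun r y => IsScalarTower.algebraMap_apply k K B r ▸ psi_comm I.s _ y
    th_comm := cen_comm I.S _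
    th_comm' := psi_comm I.s _
    th_star := (star_algebraMap I.θ).trans (by rw [h.th_star, map_neg])
    th_unit := h.th0.isUnit.map _
    aniso := fun a => by
      have := Cfg.unit_add h.an a.2 (c := -I.θ) fun e => h.th0 (by
        rw [star_neg, h.th_star, neg_neg] at e; linear_combination (1 / 2 : K) * e)
      rwa [map_neg, ← sub_eq_add_neg] at this
    unit_open := G50.unit_open K B I.S
    inv_cont := G50.inv_cont K B I.S
    eps_comm := rh_comm k K B I.S 0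
    eps_star := star_rh k K B I.S 0
    eps_idem := (rh_mul k K B I.S 0 0).symm.trans (by rw [mul_zero])
    rho_comm := fun _ => rh_comm k K B I.S _
    rho_eps := fun _ => (rh_mul k K B I.S _ 0).symm.trans (by rw [mul_zero])
    rho_tend := rh_tend I.S
    sc_fst := fun _ _ => rfl
    sc_snd := fun _ _ => rfl
    G_open := I.opn
    ι_fst := fun _ => rfl
    ι_snd := fun _ => rfl
    mem_U := fun u ⟨g, e⟩ => (I.hG u).1 ((Subtype.ext e : (g : unitary _) = jAU k K B I.S u) ▸ g.2)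
    iJ_fst := fun _ => rfl
    iJ_snd := fun _ => rfl
    nrm := nrm h.col
    N_ne := h.N0
    chart := hC
    dens := hD
    esc := hE }

theorem exists_ord (Λ : Ord K B) {θ : K} (h0 : θ ≠ 0) (hθ : star θ = -θ) :
    ∃ θ', Hgt.Ord Λ.O θ' := by
  obtain ⟨n, hn, h⟩ := Λ.den (algebraMap K B θ)
  rw [← map_natCast (algebraMap K B), ← map_mul] at h
  exact ⟨_, Λ.fg, Λ.den, Λ.star_mem, h, (map_ne_zero _).2 (by simp [hn, h0]), Algebra.commutes _, by
    rw [star_algebraMap, star_mul, hθ, star_natCast, ← map_neg]; congr 1; ring⟩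

theorem exists_inp (hd : 3 ≤ deg K B) (ha : Aniso B) (hS : Sa k K B) {m : ℕ} {Q : Type} [Group Q]
    [Finite Q] {c : Um K B m →* Q} {M : Subgroup Q} (hc : Col m c M) {θ : K} (h0 : θ ≠ 0)
    (hθ : star θ = -θ) {J : Type} [Finite J] (g : J → Aff k B) :
    ∃ Λ N v₀ s S π G₂ hG opn, (Inp.mk m Q c M θ Λ N v₀ s S π G₂ hG opn : Inp k K B).Ok ∧
      ∀ j, (g j).In (Hgt.OS Λ.O N) := by
  classical
  have := finite_kB k K B
  have : FiniteDimensional ℚ B := Module.Finite.trans k B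
  obtain ⟨⟨Λ⟩, hX⟩ := SplE.splEx k K B
  obtain ⟨v₀, hv₀, s, hs⟩ := hX Λ (finite_ne_one (x := (6 : k)) (by norm_num)).toFinset
  obtain ⟨π, -, hπ⟩ := G50.exists_lf v₀ (by simpa using hv₀)
  obtain ⟨θ', hO⟩ := exists_ord Λ h0 hθ
  obtain ⟨M₀, h₀, H₀⟩ := Hgt.exists_Ht hO
  obtain ⟨M₁, h₁, H₁⟩ := exists_OS Λ.den ![algebraMap K B θ, algebraMap K B θ⁻¹]
  obtain ⟨M₂, h₂, H₂⟩ := exists_OS Λ.den fun j : J × Fin 5 => ![algebraMap k B (g j.1).κ,
    algebraMap k B ((g j.1).κ⁻¹ : kˣ), (g j.1).p, ((g j.1).p⁻¹ : Bˣ), (g j.1).b] j.2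
  let T := insert v₀ (TL31.finite_Tk k K B (by omega)).toFinset
  let N := 2 * M₀ * M₁ * M₂ * ∏ v ∈ T, Ideal.absNorm v.asIdeal
  have hN : N ≠ 0 := mul_ne_zero (by positivity) (Finset.prod_ne_zero_iff.2 fun v _ =>
    Ideal.absNorm_eq_zero_iff.not.2 v.ne_bot)
  have hT : ∀ v ∈ T, (N : 𝓞 k) ∈ v.asIdeal := fun v hv => by
    obtain ⟨a, e⟩ := (Finset.dvd_prod_of_mem (fun v : Pl k => Ideal.absNorm v.asIdeal) hv).mul_left
      (2 * M₀ * M₁ * M₂)
    rw [show N = _ from e, Nat.cast_mul]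
    exact Ideal.mul_mem_right _ _ (Ideal.absNorm_mem _)
  have hf : {v : Pl k | (N : 𝓞 k) ∈ v.asIdeal}.Finite :=
    (Ideal.finite_factors (I := Ideal.span {(N : 𝓞 k)}) (by simpa using hN)).subset
      fun v hv => Ideal.dvd_span_singleton.2 hv
  have h1 : ∀ v, v ∈ insert v₀ (hf.toFinset.erase v₀) ↔ (N : 𝓞 k) ∈ v.asIdeal := fun v => by
    rw [Finset.insert_erase (by simpa using hT v₀ (Finset.mem_insert_self _ _))]; simp
  have h2 : ∀ v ∈ Tk k K B, v ∈ hf.toFinset.erase v₀ := fun v hv =>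
    Finset.mem_erase.2 ⟨fun e => s.notMem_Tk (by omega) (e ▸ hv),
      by simpa using hT v (Finset.mem_insert_of_mem (by simpa using hv))⟩
  obtain ⟨G₂, hG, opn⟩ := G50.exists_G2 (by omega) h2 m
  have d₁ : M₁ ∣ N := ((dvd_mul_left _ _).mul_right _).mul_right _
  have d₂ : M₂ ∣ N := (dvd_mul_left _ _).mul_right _
  exact ⟨Λ, N, v₀, s, _, _, G₂, hG, opn, ⟨hd, ha, hS, hc, h0, hθ, hN,
    (((dvd_mul_right _ _).mul_right _).mul_right _).mul_right _, Finset.notMem_erase _ _, h1, h2, hs,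
    hπ, Subring.ext fun x => (L98.mem_Off_iff Λ h1 x).trans (by simp only [nsmul_eq_mul, Nat.cast_pow]; rfl),
    H₁ N d₁ 0, H₁ N d₁ 1, H₀ N hN ((((dvd_mul_left _ _).mul_right _).mul_right _).mul_right _)⟩,
    fun j => ⟨H₂ N d₂ (j, 0), H₂ N d₂ (j, 1), H₂ N d₂ (j, 2), H₂ N d₂ (j, 3), H₂ N d₂ (j, 4)⟩⟩

end I3

theorem indepStmt (hA : AbsStmt.{u, max u w, w}) (hS : SaStmt.{u, v, w}) (hL : ILatStmt.{u, v, w})
    (hW : IWtStmt.{u, v, w}) (hC : IChartStmt.{u, v, w}) (hD : IDensStmt.{u, v, w})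
    (hE : IEscStmt.{u, v, w}) (hM : IAdmStmt.{u, v, w}) : IndepStmt.{u, v, w} := by
  intro D hd ha m Q _ _ c M hc θ h0 hθ T _ _ At h1 h2 J _ g
  let _ : Algebra ℚ D.B := ((algebraMap D.k D.B).comp (algebraMap ℚ D.k)).toAlgebra' fun _ _ =>
    Algebra.commutes _ _
  obtain ⟨Λ, N, v₀, s, S, π, G₂, hG, opn, h, hg⟩ := I3.exists_inp hd ha (hS D hd ha) hc h0 hθ g
  obtain ⟨lam, Δ, hw⟩ := hW D _ h
  have ok := I3.ok _ h lam Δ (hL D _ h _ _) hw (hC D _ h _ _) (hD D _ h _ _) (hE D _ h _ _)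
  obtain ⟨z₀, hz⟩ := exists_cen _ ok g
  exact hA _ ok T At ⟨fun γ a => h1 γ a, h2⟩ J g z₀ (fun j => hM D _ h _ _ _ (hg j)) hz

end Crest.Agent.T24.Na
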