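import Crest.Agent.T24.NaJcDef_52

/-!
# Row 24, the `J`-component: rounding and counting (helper52)
-/

set_option autoImplicit false
set_option linter.unusedSectionVars false

noncomputable section

namespace Crest.Agent.T24.Na.J52

open Topology Filter MeasureTheory K39 Set
open scoped ENNReal NNReal Pointwise

theorem fib {A X β : Type*} (f : A → X) (B : Finset β) (code : A → A → β)
    (h1 : ∀ x x', f x = f x' → code x x' ∈ B)
    (h2 : ∀ x x' x₀, f x = f x' → code x x₀ = code x' x₀ → x = x') (φ : X → ℝ≥0∞) :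
    ∑' x, φ (f x) ≤ B.card * ∑' a, φ a := by
  rcases isEmpty_or_nonempty A with hA | hA
  · simp
  let F : A → X × B := fun x => (f x, ⟨code x (Function.invFun f (f x)),
    h1 _ _ (Function.invFun_eq ⟨x, rfl⟩).symm⟩)
  have hF : Function.Injective F := fun x x' e => by
    have e1 : f x = f x' := congrArg Prod.fst e
    have e2 := congrArg (fun p : X × B => (p.2 : β)) e
    simp only [F, ← e1] at e2
    exact h2 _ _ _ e1 e2
  refine (ENNReal.tsum_comp_le_tsum_of_injective hF fun p => φ p.1).trans (le_of_eq ?_)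
  rw [ENNReal.tsum_prod', ← ENNReal.tsum_mul_left]
  simp

theorem sel {X T : Type*} [Countable X] [MeasurableSpace T] (P : X → T → Prop)
    (hm : ∀ x, MeasurableSet {t | P x t}) (he : ∀ t, ∃ x, P x t) :
    ∃ r : T → X, (∀ t, P (r t) t) ∧ ∀ x, MeasurableSet {t | r t = x} := by
  classical
  rcases isEmpty_or_nonempty X with hX | hX
  · exact ⟨fun t => (he t).choose, fun t => (he t).choose_spec, fun x => hX.elim x⟩
  obtain ⟨e, hs⟩ := exists_surjective_nat X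
  have h1 : ∀ t, ∃ n, P (e n) t := fun t => by
    obtain ⟨x, hx⟩ := he t
    obtain ⟨n, rfl⟩ := hs x
    exact ⟨n, hx⟩
  exact ⟨fun t => e (Nat.find (h1 t)), fun t => Nat.find_spec (h1 t), fun x =>
    measurable_find h1 (fun n => hm (e n)) (show MeasurableSet {n | e n = x} from .of_discrete)⟩

/-- the square -/
def sq (x : ℝ) : ℝ≥0∞ := ENNReal.ofReal (x ^ 2)

theorem enorm_sq_eq (x : ℝ) : ‖x‖ₑ ^ 2 = sq x := by
  rw [Real.enorm_eq_ofReal_abs, ← ENNReal.ofReal_pow (abs_nonneg x), sq_abs, sq]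

theorem sq_le2 (x y : ℝ) : sq (x + y) ≤ 2 * (sq x + sq y) := by
  rw [sq, sq, sq, ← ENNReal.ofReal_add (sq_nonneg _) (sq_nonneg _), ← ENNReal.ofReal_ofNat 2,
    ← ENNReal.ofReal_mul zero_le_two]
  exact ENNReal.ofReal_le_ofReal (by nlinarith [sq_nonneg (x - y)])

theorem sq_neg (x : ℝ) : sq (-x) = sq x := by simp [sq]

theorem sq_le4 (x y z t : ℝ) : sq (x + y + (z + t)) ≤ 4 * (sq x + (sq y + sq z + sq t)) :=
  calc _ ≤ 2 * (2 * (sq x + sq y) + 2 * (sq z + sq t)) :=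
        (sq_le2 _ _).trans (by gcongr <;> exact sq_le2 _ _)
    _ = _ := by ring

section N2
variable {X Z Q : Type*} (pos : X → Z)

open Classical in
/-- the local sum -/
def N2 (K : Set Z) (φ : X → Q → ℝ≥0∞) : ℝ≥0∞ := ∑' q, ∑' a, if pos a ∈ K then φ a q else 0

theorem N2_mono {K K' : Set Z} (h : K ⊆ K') {φ φ' : X → Q → ℝ≥0∞}
    (h' : ∀ a q, pos a ∈ K → φ a q ≤ φ' a q) : N2 pos K φ ≤ N2 pos K' φ' :=
  ENNReal.tsum_le_tsum fun q => ENNReal.tsum_le_tsum fun a => by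
    split_ifs with h1 h2
    exacts [h' a q h1, absurd (h h1) h2, zero_le, le_rfl]

theorem N2_add (K : Set Z) (φ φ' : X → Q → ℝ≥0∞) :
    N2 pos K (fun a q => φ a q + φ' a q) = N2 pos K φ + N2 pos K φ' := by
  simp only [N2, ← ENNReal.tsum_add]
  exact tsum_congr fun q => tsum_congr fun a => by split_ifs <;> simp

theorem N2_mul (K : Set Z) (t : ℝ≥0∞) (φ : X → Q → ℝ≥0∞) :
    N2 pos K (fun a q => t * φ a q) = t * N2 pos K φ := by
  simp only [N2, ← ENNReal.tsum_mul_left]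
  exact tsum_congr fun q => tsum_congr fun a => by split_ifs <;> simp

theorem N2_sum {β : Type*} (K : Set Z) (s : Finset β) (φ : β → X → Q → ℝ≥0∞) :
    N2 pos K (fun a q => ∑ b ∈ s, φ b a q) = ∑ b ∈ s, N2 pos K (φ b) := by
  classical
  induction s using Finset.induction_on with
  | empty => simp [N2]
  | insert b s hb ih => simp only [Finset.sum_insert hb, N2_add, ih]

theorem N2_shift {K K' : Set Z} (e : X ≃ X) (e' : Q ≃ Q) (h : ∀ a, pos a ∈ K → pos (e a) ∈ K')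
    (φ : X → Q → ℝ≥0∞) : N2 pos K (fun a q => φ (e a) (e' q)) ≤ N2 pos K' φ := by
  classical
  rw [N2, N2, ← e'.tsum_eq fun q => ∑' a, if pos a ∈ K' then φ a q else 0]
  refine ENNReal.tsum_le_tsum fun q => ?_
  rw [← e.tsum_eq (fun a => if pos a ∈ K' then φ a (e' q) else 0)]
  exact ENNReal.tsum_le_tsum fun a => by
    split_ifs with h1 h2
    exacts [le_rfl, absurd (h a h1) h2, zero_le, le_rfl]

end N2

section Cls
variable {Γ X Q : Type*} [Group Γ] [AddCommGroup X] [DistribMulAction Γ X] [Group Q]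

/-- `n L` -/
def nL (L : AddSubgroup X) (n : ℕ) : AddSubgroup X := L.map (nsmulAddMonoidHom n)

theorem mem_nL {L : AddSubgroup X} {n : ℕ} {x : X} : x ∈ nL L n ↔ ∃ b ∈ L, n • b = x := Iff.rfl

variable (Γ X) in
/-- a stable subgroup -/
structure St where
  /-- the subgroup -/
  L : AddSubgroup X
  st : ∀ γ : Γ, ∀ b ∈ L, γ • b ∈ L

/-- the action on classes -/
def St.mp (T : St Γ X) (γ : Γ) : X ⧸ T.L →+ X ⧸ T.L :=
  QuotientAddGroup.map _ _ (DistribSMul.toAddMonoidHom X γ) (T.st γ)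

theorem St.mp_mk (T : St Γ X) (γ : Γ) (a : X) : T.mp γ (a : X ⧸ T.L) = ((γ • a : X) : X ⧸ T.L) := rfl

/-- classes and colours -/
@[nolint unusedArguments]
def Yt (T : St Γ X) (_c : Γ →* Q) : Type _ := (X ⧸ T.L) × Q

variable (T : St Γ X) (c : Γ →* Q)

instance : MulAction Γ (Yt T c) where
  smul γ y := (T.mp γ y.1, c γ * y.2)
  one_smul := fun ⟨α, q⟩ => by
    obtain ⟨a, rfl⟩ := QuotientAddGroup.mk_surjective α
    change (T.mp 1 a, c 1 * q) = _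
    rw [T.mp_mk, one_smul, map_one, one_mul]
  mul_smul := fun γ δ ⟨α, q⟩ => by
    obtain ⟨a, rfl⟩ := QuotientAddGroup.mk_surjective α
    change (T.mp (γ * δ) a, c (γ * δ) * q) = (T.mp γ (T.mp δ a), c γ * (c δ * q))
    rw [T.mp_mk, T.mp_mk, T.mp_mk, mul_smul, map_mul, mul_assoc]

theorem Yt.smul_fst (γ : Γ) (y : Yt T c) : (γ • y).1 = T.mp γ y.1 := rfl
theorem Yt.smul_snd (γ : Γ) (y : Yt T c) : (γ • y).2 = c γ * y.2 := rfl

instance : MeasurableSpace (Yt T c) := ⊤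
instance : DiscreteMeasurableSpace (Yt T c) := ⟨fun _ => trivial⟩
instance [Countable X] (L : AddSubgroup X) : Countable (X ⧸ L) :=
  QuotientAddGroup.mk_surjective.countable
instance [Countable X] [Countable Q] : Countable (Yt T c) :=
  inferInstanceAs (Countable ((X ⧸ T.L) × Q))
instance : SMulInvariantMeasure Γ (Yt T c) (wm fun _ => 1) := wm_inv fun _ _ => rfl

end Cls

section Fr
variable {G Γ Z X Q : Type*} [Group G] [TopologicalSpace G] [IsTopologicalGroup G] [Group Γ]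
  [AddCommGroup Z] [TopologicalSpace Z] [IsTopologicalAddGroup Z] [T2Space Z] [MeasurableSpace Z]
  [BorelSpace Z] [AddCommGroup X] [Countable X] [DistribMulAction G Z] [DistribMulAction Γ X]
  [Group Q] {ι : Γ →* G} {iJ : X →+ Z} {L L₀ : AddSubgroup X} {sc : ℕ → Z →+ Z}

/-- the stable subgroup `n L` -/
def Fr.st (h : Fr ι iJ L L₀ sc) (n : ℕ) : St Γ X :=
  ⟨nL L n, by
    rintro γ _ ⟨b, hb, rfl⟩
    exact ⟨γ • b, h.L_smul γ b hb, (smul_comm γ n b).symm⟩⟩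

/-- a rounding map -/
structure Rd (iJ : X →+ Z) (L' : AddSubgroup X) (n : ℕ) (D : Set Z) (r : X ⧸ L' → Z → X) : Prop where
  mk_eq : ∀ α w, (r α w : X ⧸ L') = α
  near : ∀ α w, ∃ d ∈ D, w - iJ (r α w) = n • d
  meas : ∀ α x, MeasurableSet {w | r α w = x}

theorem Fr.exists_rd (h : Fr ι iJ L L₀ sc) {n : ℕ} (hn : n ≠ 0) {D : Set Z} (hD : IsCompact D)
    (hc : ∀ z, ∃ b ∈ L, z - iJ b ∈ D) : ∃ r, Rd iJ (nL L n) n D r := by
  obtain ⟨f, -, f1, -⟩ := h.dv n hn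
  have h1 : ∀ α : X ⧸ nL L n, ∃ r : Z → X, (∀ w, (r w : X ⧸ nL L n) = α ∧ w - iJ (r w) ∈ (n • ·) '' D) ∧
      ∀ x, MeasurableSet {w | r w = x} := fun α => by
    refine sel (fun (x : X) w => (x : X ⧸ nL L n) = α ∧ w - iJ x ∈ (n • ·) '' D) (fun x => ?_) fun w => ?_
    · exact (MeasurableSet.const _).inter ((continuous_id.sub continuous_const).measurable
        (hD.image (continuous_nsmul n)).isClosed.measurableSet)
    · obtain ⟨a, rfl⟩ := QuotientAddGroup.mk_surjective α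
      obtain ⟨b, hb, hb'⟩ := hc (f (w - iJ a))
      refine ⟨a + n • b, QuotientAddGroup.mk_add_of_mem _ ⟨b, hb, rfl⟩, _, hb', ?_⟩
      simp only [smul_sub, f1, map_add, map_nsmul]; abel
  choose r h2 h3 using h1
  exact ⟨r, fun α w => (h2 α w).1, fun α w => by
    obtain ⟨d, hd, e⟩ := (h2 α w).2
    exact ⟨d, hd, e.symm⟩, h3⟩

theorem Fr.key (h : Fr ι iJ L L₀ sc) {n : ℕ} (hn : n ≠ 0) {e : X} (he : e ∈ nL L n) {z : Z}
    (hz : iJ e = n • z) : ∃ b ∈ L, iJ b = z ∧ n • b = e := by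
  obtain ⟨f, -, -, f2⟩ := h.dv n hn
  obtain ⟨b, hb, rfl⟩ := mem_nL.1 he
  exact ⟨b, hb, by rw [← f2 (iJ b), ← map_nsmul, hz, f2], rfl⟩

theorem tsum_sub_le {β : Type*} (p : β → Prop) [DecidablePred p] (φ : β → ℝ≥0∞) :
    ∑' a, (if p a then φ a else 0) = ∑' a : {a // p a}, φ a := by
  refine Eq.trans (tsum_congr fun a => ?_) (tsum_subtype {a | p a} φ).symm
  simp [indicator_apply]

/-- the upper bound -/
theorem Fr.up (h : Fr ι iJ L L₀ sc) (c : Γ →* Q) {n : ℕ} (hn : n ≠ 0) {D K' K'' : Set Z}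
    {r : X ⧸ nL L n → Z → X} (hr : Rd iJ (nL L n) n D r) {B : Finset X} {g : G}
    (hB : ∀ b ∈ L, ∀ d ∈ D, ∀ d' ∈ D, iJ b = g⁻¹ • (d - d') → b ∈ B) {R : ℕ}
    (hK : ∀ z ∈ K', ∀ d ∈ D, g • z - sc R (n • d) ∈ K'') (φ : X → Q → ℝ≥0∞) :
    ∑' l : {l // l ∈ nL L n ∧ sc R (iJ l) ∈ K'}, ∑' y : Yt (h.st n) c, φ (r y.1 (g • iJ l)) y.2 ≤
      B.card * N2 (fun a => sc R (iJ a)) K'' φ := by
  classical
  rw [N2, ← ENNReal.tsum_mul_left]
  refine le_trans (le_of_eq ?_) (ENNReal.tsum_le_tsum fun q => ?_ : ∑' q,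
    ∑' p : {l // l ∈ nL L n ∧ sc R (iJ l) ∈ K'} × (X ⧸ nL L n), φ (r p.2 (g • iJ p.1)) q ≤ _)
  · rw [ENNReal.tsum_comm]
    simp only [ENNReal.tsum_prod']
    rw [ENNReal.tsum_comm (f := fun q l => ∑' α, φ (r α (g • iJ (l : {l // _}).1)) q)]
    rw [ENNReal.tsum_comm]
    refine tsum_congr fun l => ?_
    exact (ENNReal.tsum_prod' (f := fun y : (X ⧸ nL L n) × Q => φ (r y.1 (g • iJ l)) y.2)).trans
      ENNReal.tsum_comm
  · refine le_trans (le_of_eq (tsum_congr fun p => ?_)) ((fib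
      (fun p : {l // l ∈ nL L n ∧ sc R (iJ l) ∈ K'} × (X ⧸ nL L n) => r p.2 (g • iJ p.1))
      (B.image (n • ·)) (fun p p' => p.1.1 - p'.1.1) (fun p p' e => ?_) (fun p p' p₀ e e' => ?_)
      fun a => if sc R (iJ a) ∈ K'' then φ a q else 0).trans (mul_le_mul_left
        (Nat.cast_le.2 Finset.card_image_le) _))
    · obtain ⟨d, hd, e⟩ := hr.near p.2 (g • iJ p.1)
      rw [if_pos]
      rw [eq_sub_of_add_eq' (sub_eq_iff_eq_add.1 e).symm, map_sub, h.sc_smul]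
      exact hK _ p.1.2.2 d hd
    · obtain ⟨d, hd, e1⟩ := hr.near p.2 (g • iJ p.1)
      obtain ⟨d', hd', e2⟩ := hr.near p'.2 (g • iJ p'.1)
      obtain ⟨b, hb, e3, e4⟩ := h.key hn (sub_mem p.1.2.1 p'.1.2.1) (z := g⁻¹ • (d - d')) (by
        rw [← smul_comm g⁻¹ n, eq_inv_smul_iff, smul_sub n, ← e1, ← e2, e, map_sub, smul_sub]; abel)
      exact Finset.mem_image.2 ⟨b, hB b hb d hd d' hd' e3, e4⟩
    · exact Prod.ext (Subtype.ext (sub_left_injective e'))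
        ((hr.mk_eq _ _).symm.trans ((congrArg _ e).trans (hr.mk_eq _ _)))

/-- the lower bound -/
theorem Fr.low (h : Fr ι iJ L L₀ sc) (c : Γ →* Q) {n : ℕ} (hn : n ≠ 0) {D K K' : Set Z}
    {r : X ⧸ nL L n → Z → X} (hr : Rd iJ (nL L n) n D r) {B : Finset X} {g : G}
    (hB : ∀ b ∈ L, ∀ d ∈ D, ∀ d' ∈ D, iJ b = g • (d - d') → b ∈ B) {R : ℕ}
    (hK : ∀ z ∈ K, ∀ d ∈ D, g⁻¹ • z - sc R (n • d) ∈ K') (φ ψ : X → Q → ℝ≥0∞)
    (Ψ : X → Yt (h.st n) c → ℝ≥0∞)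
    (hφ : ∀ a q l, ∀ d ∈ D, g⁻¹ • iJ a - iJ l = n • d → φ a q ≤ Ψ l ((a : X ⧸ nL L n), q) + ψ a q) :
    N2 (fun a => sc R (iJ a)) K φ ≤ B.card * (∑' l : {l // l ∈ nL L n ∧ sc R (iJ l) ∈ K'},
      ∑' y : Yt (h.st n) c, Ψ l y) + N2 (fun a => sc R (iJ a)) K ψ := by
  classical
  have h1 : ∀ a : {a // sc R (iJ a) ∈ K}, r 0 (g⁻¹ • iJ a) ∈ nL L n ∧
      sc R (iJ (r 0 (g⁻¹ • iJ a))) ∈ K' := fun a => by
    obtain ⟨d, hd, e⟩ := hr.near 0 (g⁻¹ • iJ a)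
    refine ⟨(QuotientAddGroup.eq_zero_iff _).1 (hr.mk_eq _ _), ?_⟩
    rw [eq_sub_of_add_eq' (sub_eq_iff_eq_add.1 e).symm, map_sub, h.sc_smul]
    exact hK _ a.2 d hd
  refine (N2_mono _ subset_rfl (φ' := fun a q =>
    Ψ (r 0 (g⁻¹ • iJ a)) ((a : X ⧸ nL L n), q) + ψ a q) fun a q _ => ?_).trans ?_
  · obtain ⟨d, hd, e⟩ := hr.near 0 (g⁻¹ • iJ a)
    exact hφ a q _ d hd e
  rw [N2_add, N2]
  gcongr
  simp only [tsum_sub_le]
  rw [← ENNReal.tsum_prod, ← ENNReal.tsum_prod]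
  refine (fib (fun p : Q × {a // sc R (iJ a) ∈ K} =>
      ((⟨_, h1 p.2⟩, ((p.2.1 : X ⧸ nL L n), p.1)) : {l // l ∈ nL L n ∧ sc R (iJ l) ∈ K'} × Yt (h.st n) c))
    (B.image (n • ·)) (fun p p' => p.2.1 - p'.2.1) (fun p p' e => ?_) (fun p p' p₀ e e' => ?_)
    fun p => Ψ p.1 p.2).trans (mul_le_mul_left (Nat.cast_le.2 Finset.card_image_le) _)
  · obtain ⟨d, hd, e1⟩ := hr.near 0 (g⁻¹ • iJ p.2)
    obtain ⟨d', hd', e2⟩ := hr.near 0 (g⁻¹ • iJ p'.2)
    have e5 : r 0 (g⁻¹ • iJ p.2) = r 0 (g⁻¹ • iJ p'.2) := congrArg (fun x => x.1.1) e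
    have e6 : (p.2.1 : X ⧸ nL L n) = p'.2.1 := congrArg (fun x => x.2.1) e
    obtain ⟨b, hb, e3, e4⟩ := h.key hn ((QuotientAddGroup.eq_iff_sub_mem).1 e6) (z := g • (d - d')) (by
      rw [← smul_comm g n, ← inv_smul_eq_iff, smul_sub n, ← e1, ← e2, e5, map_sub, smul_sub]; abel)
    exact Finset.mem_image.2 ⟨b, hB b hb d hd d' hd' e3, e4⟩
  · exact Prod.ext (congrArg (fun x => x.2.2) e) (Subtype.ext (sub_left_injective e'))

end Fr

end Crest.Agent.T24.Na.J52
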