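import Crest.Agent.T24.NaJcD_62

/-!
# Row 24, the `J`-component: the abstract counting core (helper62)
-/

set_option autoImplicit false
set_option linter.unusedSectionVars false

noncomputable section

namespace Crest.Agent.T24.Na.J62

open Topology Filter MeasureTheory K39 J52 Set
open scoped ENNReal NNReal Pointwise

universe u v w

theorem sq_add_le (x y : ℝ) : ‖x + y‖ₑ ^ 2 ≤ 2 * ‖x‖ₑ ^ 2 + 2 * ‖y‖ₑ ^ 2 := by
  have h : ‖x + y‖₊ ^ 2 ≤ 2 * ‖x‖₊ ^ 2 + 2 * ‖y‖₊ ^ 2 := by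
    rw [← NNReal.coe_le_coe]
    push_cast
    simp only [Real.norm_eq_abs, sq_abs]
    nlinarith [sq_nonneg (x - y)]
  simp only [enorm_eq_nnnorm]
  exact_mod_cast h

theorem sq_tri (x y z : ℝ) : ‖x - z‖ₑ ^ 2 ≤ 2 * ‖x - y‖ₑ ^ 2 + 2 * ‖y - z‖ₑ ^ 2 := by
  simpa using sq_add_le (x - y) (y - z)

theorem tsum_le_mul {I X T : Type*} (E : Finset T) (φ : I → X) (ε : I → T) (hε : ∀ i, ε i ∈ E)
    (inj : ∀ i j, φ i = φ j → ε i = ε j → i = j) (F : X → ℝ≥0∞) :
    ∑' i, F (φ i) ≤ E.card * ∑' a, F a := by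
  have := ENNReal.tsum_comp_le_tsum_of_injective (f := fun i => ((⟨ε i, hε i⟩ : E), φ i))
    (fun i j h => inj i j (congrArg Prod.snd h) (congrArg (fun p => p.1.1) h)) fun p => F p.2
  refine this.trans (le_of_eq ?_)
  rw [ENNReal.tsum_prod', tsum_fintype]
  simp

theorem exists_sel {Z ι : Type*} [MeasurableSpace Z] [Countable ι] [MeasurableSpace ι]
    (p : ι → Z → Prop) (hm : ∀ i, MeasurableSet {z | p i z}) (h : ∀ z, ∃ i, p i z) (i₀ : ι) :
    ∃ β : Z → ι, Measurable β ∧ ∀ z, p (β z) z := by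
  classical
  have : Nonempty ι := ⟨i₀⟩
  obtain ⟨e, he⟩ := exists_surjective_nat ι
  have h' : ∀ z, ∃ n, p (e n) z := fun z => by
    obtain ⟨i, hi⟩ := h z
    obtain ⟨n, rfl⟩ := he i
    exact ⟨n, hi⟩
  exact ⟨fun z => e (Nat.find (h' z)), Measurable.find (f := fun n _ => e n)
    (fun _ => measurable_const) (fun n => hm _) h', fun z => Nat.find_spec (h' z)⟩

theorem int_eq {G Y I : Type*} [MeasurableSpace G] [MeasurableSpace Y] [Countable Y]
    [MeasurableSingletonClass Y] [Countable I] (μ : Measure G) [SFinite μ] (C : Set G)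
    (f : I → G × Y → ℝ≥0∞) (hf : ∀ i, Measurable (f i)) :
    ∑' i, ∫⁻ p in C ×ˢ univ, f i p ∂μ.prod (wm fun _ : Y => 1) =
      ∫⁻ g in C, ∑' i, ∑' y, f i (g, y) ∂μ := by
  rw [lintegral_tsum (f := fun i g => ∑' y, f i (g, y)) fun i => (Measurable.ennreal_tsum fun y =>
    (hf i).comp measurable_prodMk_right).aemeasurable]
  refine tsum_congr fun i => ?_
  rw [← Measure.restrict_prod_eq_prod_univ, lintegral_prod _ (hf i).aemeasurable]
  simp [lintegral_wm]

theorem int_le {G Y I : Type*} [MeasurableSpace G] [MeasurableSpace Y] [Countable Y]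
    [MeasurableSingletonClass Y] [Countable I] (μ : Measure G) [SFinite μ] {C : Set G}
    (hC : MeasurableSet C) (f : I → G × Y → ℝ≥0∞) (hf : ∀ i, Measurable (f i)) {B : ℝ≥0∞}
    (h : ∀ g ∈ C, ∑' i, ∑' y, f i (g, y) ≤ B) :
    ∑' i, ∫⁻ p in C ×ˢ univ, f i p ∂μ.prod (wm fun _ : Y => 1) ≤ μ C * B := by
  rw [int_eq μ C f hf, mul_comm, ← setLIntegral_const]
  exact setLIntegral_mono' hC h

theorem nn_mono {X Q : Type*} {P P' : Set X} (h : P ⊆ P') (ξ : X → Q → ℝ) : nn P ξ ≤ nn P' ξ :=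
  ENNReal.tsum_le_tsum fun _ => ENNReal.tsum_le_tsum fun _ =>
    indicator_le_indicator_of_subset h (fun _ => zero_le) _

/-- the local sum of a non-negative function -/
def ns {X Q : Type*} (P : Set X) (F : X → Q → ℝ≥0∞) : ℝ≥0∞ :=
  ∑' q, ∑' a, P.indicator (fun a => F a q) a

theorem nn_eq {X Q : Type*} (P : Set X) (ξ : X → Q → ℝ) :
    nn P ξ = ns P fun a q => ‖ξ a q‖ₑ ^ 2 := rfl

theorem ns_sum {X Q T : Type*} (P : Set X) (E : Finset T) (F : T → X → Q → ℝ≥0∞) :
    ns P (fun a q => ∑ e ∈ E, F e a q) = ∑ e ∈ E, ns P (F e) := by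
  simp only [ns]
  rw [← Summable.tsum_finsetSum fun _ _ => ENNReal.summable]
  refine tsum_congr fun q => ?_
  rw [← Summable.tsum_finsetSum fun _ _ => ENNReal.summable]
  refine tsum_congr fun a => ?_
  by_cases h : a ∈ P <;> simp [h]

theorem ns_add {X Q : Type*} (P : Set X) (F F' : X → Q → ℝ≥0∞) :
    ns P (fun a q => F a q + F' a q) = ns P F + ns P F' := by
  simp only [ns, ← ENNReal.tsum_add]
  refine tsum_congr fun q => tsum_congr fun a => ?_
  by_cases h : a ∈ P <;> simp [h]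

theorem ns_mul {X Q : Type*} (P : Set X) (c : ℝ≥0∞) (F : X → Q → ℝ≥0∞) :
    ns P (fun a q => c * F a q) = c * ns P F := by
  simp only [ns, ← ENNReal.tsum_mul_left]
  refine tsum_congr fun q => tsum_congr fun a => ?_
  by_cases h : a ∈ P <;> simp [h]

theorem ns_mono {X Q : Type*} {P P' : Set X} (h : P ⊆ P') (F : X → Q → ℝ≥0∞) : ns P F ≤ ns P' F :=
  ENNReal.tsum_le_tsum fun _ => ENNReal.tsum_le_tsum fun _ =>
    indicator_le_indicator_of_subset h (fun _ => zero_le) _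

theorem ns_smul {Γ X Q : Type*} [Group Γ] [MulAction Γ X] [Group Q] {P P' : Set X} (γ : Γ) (t : Q)
    (h : ∀ a ∈ P, γ • a ∈ P') (F : X → Q → ℝ≥0∞) :
    ns P (fun a q => F (γ • a) (t * q)) ≤ ns P' F := by
  refine le_trans (ENNReal.tsum_le_tsum fun q => ?_) (ENNReal.tsum_comp_le_tsum_of_injective
    (mul_right_injective t) fun q => ∑' a, P'.indicator (fun a => F a q) a)
  refine le_trans (ENNReal.tsum_le_tsum fun a => ?_) (ENNReal.tsum_comp_le_tsum_of_injective
    (MulAction.injective γ) (P'.indicator fun a => F a (t * q)))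
  by_cases ha : a ∈ P
  · simp [ha, h a ha]
  · simp [ha]

theorem unif {G Z : Type*} [TopologicalSpace G] [TopologicalSpace Z] [Monoid G] [AddMonoid Z]
    [DistribMulAction G Z] (hc : Continuous fun p : G × Z => p.1 • p.2) {C : Set G}
    (hC : IsCompact C) {U : Set Z} (hU : U ∈ 𝓝 (0 : Z)) : {v | ∀ g ∈ C, g • v ∈ U} ∈ 𝓝 (0 : Z) :=
  hC.eventually_forall_of_forall_eventually (P := fun v g => g • v ∈ U) fun g _ =>
    (hc.comp continuous_swap).continuousAt.eventually (by simpa using hU)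

section Rd
variable {Z X : Type*} [AddCommGroup Z] [AddCommGroup X] {iJ : X →+ Z} {L : AddSubgroup X} {m : ℕ}

variable (L m) in
/-- `m L` -/
abbrev mL : AddSubgroup X := L.map (nsmulAddMonoidHom m)

theorem diff {f : Z →+ Z} (hf : ∀ z, f (m • z) = z) {a a' : X} {u : Z}
    (h : (a : X ⧸ mL L m) = a') (hu : iJ a' - iJ a = m • u) :
    ∃ b ∈ L, iJ b = u ∧ a' = a + m • b := by
  obtain ⟨b, hb, e⟩ := QuotientAddGroup.eq.1 h
  have e' : a' = a + m • b := by
    have : m • b = -a + a' := e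
    rw [this]; abel
  refine ⟨b, hb, ?_, e'⟩
  rw [← hf u, ← hu, e', map_add, add_sub_cancel_left, map_nsmul, hf]

variable [MeasurableSpace Z] [MeasurableSpace X]

variable (iJ L m) in
/-- a measurable rounding -/
structure Rd (D : Set Z) (rd : X ⧸ mL L m → Z → X) : Prop where
  cls : ∀ α z, (rd α z : X ⧸ mL L m) = α
  near : ∀ α z, ∃ d ∈ D, iJ (rd α z) = z - m • d
  meas : ∀ α, Measurable (rd α)

theorem exists_rd [TopologicalSpace Z] [IsTopologicalAddGroup Z] [BorelSpace Z] [Countable X]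
    [DiscreteMeasurableSpace X] {D : Set Z} {β : Z → X} (hm : Measurable β)
    (hβ : ∀ z, β z ∈ L ∧ z - iJ (β z) ∈ D) {f : Z →+ Z} (hc : Continuous f)
    (hf : ∀ z, m • f z = z) : ∃ rd, Rd iJ L m D rd := by
  refine ⟨fun α z => α.out + m • β (f (z - iJ α.out)), fun α z => ?_, fun α z => ?_, fun α => ?_⟩
  · have : m • β (f (z - iJ α.out)) ∈ mL L m := AddSubgroup.mem_map.2 ⟨_, (hβ _).1, rfl⟩
    rw [QuotientAddGroup.mk_add_of_mem _ this, QuotientAddGroup.out_eq']
  · refine ⟨_, (hβ (f (z - iJ α.out))).2, ?_⟩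
    rw [smul_sub, hf, map_add, map_nsmul]; abel
  · exact (Measurable.of_discrete (f := fun b : X => α.out + m • b)).comp
      (hm.comp (hc.comp (continuous_id.sub continuous_const)).measurable)

end Rd

end Crest.Agent.T24.Na.J62
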