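import Crest.Agent.T24.NaJcA_52

/-!
# Row 24, the `J`-component: the Poincaré inequality in the abstract frame (helper52)
-/

set_option autoImplicit false
set_option linter.unusedSectionVars false

noncomputable section

namespace Crest.Agent.T24.Na.J52

open Topology Filter MeasureTheory K39 Set
open scoped ENNReal NNReal Pointwise

theorem enn_of {V : Type*} [NormedAddCommGroup V] {x y : V} {C₀ C₁ : ℝ≥0} {b₁ b₂ : ℝ≥0∞}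
    {ι : Type*} {p : ι → Prop} {f : ι → V} (h1 : ∀ i, p i → ‖f i‖ₑ ^ 2 ≤ b₁) (h2 : ‖y‖ₑ ^ 2 ≤ b₂)
    (h : ∀ δ : ℝ, (∀ i, p i → ‖f i‖ ≤ δ) → ‖x‖ ≤ C₀ * δ + C₁ * ‖y‖) :
    ‖x‖ₑ ^ 2 ≤ 2 * ((C₀ + 1) ^ 2 * b₁ + C₁ ^ 2 * b₂) := by
  rcases eq_or_ne b₁ ∞ with rfl | hb
  · simp
  lift b₁ to ℝ≥0 using hb
  have h3 := h (NNReal.sqrt b₁) fun i hi => by
    have := h1 i hi
    rw [enorm_eq_nnnorm, ← ENNReal.coe_pow, ENNReal.coe_le_coe, ← NNReal.le_sqrt_iff_sq_le] at this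
    exact this
  refine le_trans ?_ (by gcongr : 2 * ((C₀ + 1) ^ 2 * (b₁ : ℝ≥0∞) + C₁ ^ 2 * ‖y‖ₑ ^ 2) ≤ _)
  rw [enorm_eq_nnnorm, enorm_eq_nnnorm]
  norm_cast
  rw [← NNReal.sq_sqrt b₁, ← NNReal.coe_le_coe]
  push_cast
  have h4 : (0 : ℝ) ≤ NNReal.sqrt b₁ := NNReal.coe_nonneg _
  have h5 : ‖x‖ ≤ (C₀ + 1) * NNReal.sqrt b₁ + C₁ * ‖y‖ := by linarith
  rw [Real.coe_sqrt] at h4 h5
  nlinarith [pow_le_pow_left₀ (norm_nonneg x) h5 2, sq_nonneg ((C₀ + 1) * √b₁ - C₁ * ‖y‖)]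

variable {G Γ Z X Q : Type*} [Group G] [TopologicalSpace G] [IsTopologicalGroup G] [T2Space G]
  [LocallyCompactSpace G] [SecondCountableTopology G] [MeasurableSpace G] [BorelSpace G] [Group Γ]
  [Countable Γ] [AddCommGroup Z] [TopologicalSpace Z] [IsTopologicalAddGroup Z] [T2Space Z]
  [LocallyCompactSpace Z] [MeasurableSpace Z] [BorelSpace Z] [AddCommGroup X] [Countable X]
  [DistribMulAction G Z] [DistribMulAction Γ X] [Group Q] [Finite Q]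
  {ι : Γ →* G} {iJ : X →+ Z} {L L₀ : AddSubgroup X} {sc : ℕ → Z →+ Z}

/-- `𝒢 • A + B` -/
def sa (𝒢 : Set G) (A B : Set Z) : Set Z := (fun p : G × Z × Z => p.1 • p.2.1 + p.2.2) '' 𝒢 ×ˢ A ×ˢ B

theorem mem_sa {𝒢 : Set G} {A B : Set Z} {g : G} {a b : Z} (hg : g ∈ 𝒢) (ha : a ∈ A) (hb : b ∈ B) :
    g • a + b ∈ sa 𝒢 A B := ⟨(g, a, b), ⟨hg, ha, hb⟩, rfl⟩

theorem Fr.sa_cpt (h : Fr ι iJ L L₀ sc) {𝒢 : Set G} {A B : Set Z} (h1 : IsCompact 𝒢)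
    (h2 : IsCompact A) (h3 : IsCompact B) : IsCompact (sa 𝒢 A B) :=
  (h1.prod (h2.prod h3)).image
    ((h.cont.comp (continuous_fst.prodMk continuous_snd.fst)).add continuous_snd.snd)

theorem Fr.tube (h : Fr ι iJ L L₀ sc) {𝒢 : Set G} (h1 : IsCompact 𝒢) {U : Set Z} (hU : U ∈ 𝓝 0) :
    {δ : Z | ∀ g ∈ 𝒢, g • δ ∈ U} ∈ 𝓝 (0 : Z) :=
  h1.eventually_forall_of_forall_eventually fun g _ =>
    (h.cont.comp continuous_swap).continuousAt.preimage_mem_nhds (by simpa using hU)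

theorem Fr.thick (h : Fr ι iJ L L₀ sc) {K U : Set Z} (hK : IsCompact K) (hU : IsOpen U) (hKU : K ⊆ U) :
    ∃ V ∈ 𝓝 (1 : G), ∃ W ∈ 𝓝 (0 : Z), IsCompact V ∧ IsCompact W ∧ sa V⁻¹ K (-W) ⊆ U := by
  have h1 : ∀ᶠ p : G × Z in 𝓝 (1, 0), ∀ z ∈ K, p.1⁻¹ • z + -p.2 ∈ U :=
    hK.eventually_forall_of_forall_eventually fun z hz =>
      ((h.cont.comp (continuous_fst.fst.inv.prodMk continuous_snd)).add
        continuous_fst.snd.neg).continuousAt.preimage_mem_nhds (hU.mem_nhds (by simpa using hKU hz))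
  obtain ⟨V, hV, W, hW, h2⟩ := mem_nhds_prod_iff.1 h1
  obtain ⟨V', v1, v2, v3⟩ := local_compact_nhds hV
  obtain ⟨W', w1, w2, w3⟩ := local_compact_nhds hW
  refine ⟨V', v1, W', w1, v3, w3, ?_⟩
  rintro _ ⟨⟨g, z, w⟩, ⟨hg, hz, hw⟩, rfl⟩
  simpa using h2 (mk_mem_prod (v2 hg) (w2 hw)) z hz

/-- small moves are divisible -/
theorem Fr.moves (h : Fr ι iJ L L₀ sc) {H : AddSubgroup Z} (hH : (H : Set Z) ∈ 𝓝 (0 : Z))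
    (hH' : ∀ b ∈ L, iJ b ∈ H → b ∈ L₀) {𝒢 : Set G} (h𝒢 : IsCompact 𝒢) {D : Set Z} (hD : IsCompact D)
    {n₀ : ℕ} (hn₀ : ∀ z ∈ D, n₀ • z ∈ H) {m : ℕ} (hm : m ≠ 0) :
    ∃ V ∈ 𝓝 (0 : Z), ∀ m' : ℕ, ∃ E : Finset X, (∀ e ∈ E, ∃ b ∈ L₀, e = m • b) ∧
      ∀ e ∈ nL L (m * m' * n₀), ∀ g ∈ 𝒢, ∀ δ ∈ V, ∀ z ∈ D,
        iJ e = g • δ + (m * m' * n₀) • z → e ∈ E := by
  obtain ⟨f, f0, -, f2⟩ := h.dv m hm
  obtain ⟨W, hW, -, hW'⟩ := local_compact_nhds (univ_mem : univ ∈ 𝓝 (0 : Z))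
  refine ⟨_, inter_mem hW (h.tube h𝒢 (f0.continuousAt.preimage_mem_nhds (by simpa using hH))),
    fun m' => ?_⟩
  have hfin : {e | (e ∈ L ∧ iJ e ∈ sa 𝒢 W (((m * m' * n₀) • ·) '' D)) ∧ ∃ b ∈ L₀, e = m • b}.Finite :=
    (h.fin _ (h.sa_cpt h𝒢 hW' (hD.image (continuous_nsmul (m * m' * n₀))))).subset fun e he => he.1
  refine ⟨hfin.toFinset, fun e he => (hfin.mem_toFinset.1 he).2, ?_⟩
  rintro _ ⟨b, hb, rfl⟩ g hg δ hδ z hz e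
  change iJ ((m * m' * n₀) • b) = _ at e
  refine hfin.mem_toFinset.2 ⟨⟨L.nsmul_mem hb _, e ▸ mem_sa hg hδ.1 ⟨z, hz, rfl⟩⟩, (m' * n₀) • b,
    hH' _ (L.nsmul_mem hb _) ?_, by rw [← mul_smul, ← mul_assoc]; rfl⟩
  rw [← f2 (iJ _), ← map_nsmul, ← mul_smul, ← mul_assoc, e, map_add, mul_assoc, mul_smul m, f2,
    mul_smul]
  exact H.add_mem (hδ.2 g hg) (H.nsmul_mem (hn₀ z hz) _)

section lift
variable (h : Fr ι iJ L L₀ sc) (c : Γ →* Q) {n : ℕ} {D : Set Z} {r : X ⧸ nL L n → Z → X}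

/-- a function on `X × Q` read on `G × Y` -/
def lf (r : X ⧸ nL L n → Z → X) {β : Type*} (φ : X → Q → β) (l : X) (p : G × Yt (h.st n) c) : β :=
  φ (r p.2.1 (p.1 • iJ l)) p.2.2

theorem meas_lf (hr : Rd iJ (nL L n) n D r) {β : Type*} [MeasurableSpace β] (φ : X → Q → β) (l : X) :
    Measurable (lf h c r φ l) := by
  refine measurable_from_prod_countable_left fun y t _ => ?_
  have : (fun g => lf h c r φ l (g, y)) ⁻¹' t =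
      ⋃ x ∈ {x | φ x y.2 ∈ t}, (fun g : G => g • iJ l) ⁻¹' {w | r y.1 w = x} := by
    ext g; simp [lf]
  rw [this]
  exact .biUnion (to_countable _) fun x _ =>
    (h.cont.comp (continuous_id.prodMk continuous_const)).measurable (hr.meas _ _)

theorem sum_lf (hn : n ≠ 0) (hr : Rd iJ (nL L n) n D r) {co : G → Γ} (hco : Co ι co) (μ : Measure G)
    [SFinite μ] {C : Set G} (hC : Fd co ⊆ C) {B : Finset X} {K' K'' : Set Z}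
    (hB : ∀ g ∈ C, ∀ b ∈ L, ∀ d ∈ D, ∀ d' ∈ D, iJ b = g⁻¹ • (d - d') → b ∈ B) {R : ℕ}
    (hK : ∀ g ∈ C, ∀ z ∈ K', ∀ d ∈ D, g • z - sc R (n • d) ∈ K'') (φ : X → Q → ℝ≥0∞) :
    ∑' l : {l // l ∈ nL L n ∧ sc R (iJ l) ∈ K'}, ∫⁻ p, lf h c r φ l p ∂mX co μ (wm fun _ => 1) ≤
      B.card * μ C * N2 (fun a => sc R (iJ a)) K'' φ := by
  simp only [mX, lintegral_prod _ (meas_lf h c hr φ _).aemeasurable]
  rw [← lintegral_tsum fun l => (meas_lf h c hr φ _).lintegral_prod_right'.aemeasurable]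
  simp only [lintegral_wm, one_mul]
  refine (setLIntegral_mono' hco.mFd fun g hg =>
    h.up c hn hr (hB g (hC hg)) (hK g (hC hg)) φ).trans ?_
  rw [setLIntegral_const, mul_right_comm]
  gcongr

/-- the basic move -/
theorem move (hr : Rd iJ (nL L n) n D r) (γ : Γ) {a : X} {w : Z} {α : X ⧸ nL L n}
    (ha : (a : X ⧸ nL L n) = α) : r ((h.st n).mp γ α) w - γ • a ∈ nL L n ∧
      ∃ d ∈ D, iJ (r ((h.st n).mp γ α) w - γ • a) = w - ι γ • iJ a - n • d := by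
  obtain ⟨d, hd, e⟩ := hr.near ((h.st n).mp γ α) w
  refine ⟨QuotientAddGroup.eq_iff_sub_mem.1 ((hr.mk_eq _ _).trans (ha ▸ rfl)), d, hd, ?_⟩
  rw [map_sub, h.eqv, ← e]; abel

end lift

theorem le_sum2 {Γ₁ : Finset Γ} {E : Finset X} {γ : Γ} {e : X} (hγ : γ ∈ Γ₁) (he : e ∈ E)
    (f : Γ → X → ℝ≥0∞) (g : Γ → ℝ≥0∞) : f γ e + g γ ≤ ∑ γ ∈ Γ₁, (∑ e ∈ E, f γ e + g γ) :=
  (add_le_add_left (Finset.single_le_sum (f := f γ) (fun _ _ => zero_le) he) _).trans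
    (Finset.single_le_sum (f := fun γ => ∑ e ∈ E, f γ e + g γ) (fun _ _ => zero_le) hγ)

theorem jp (h : Fr ι iJ L L₀ sc) (c : Γ →* Q) (M : Subgroup Q) {co : G → Γ} (hco : Co ι co)
    (μ : Measure G) [μ.IsHaarMeasure] [μ.IsMulRightInvariant] {U : Set Z} (hU : IsOpen U)
    (hgap : ∀ K', IsCompact K' → K' ⊆ U → ∃ (𝒞 : Set G) (C₀ : ℝ≥0), IsCompact 𝒞 ∧
      ∀ V₁ ∈ 𝓝 (0 : Z), ∃ C₁ : ℝ≥0, ∀ V₂ ∈ 𝓝 (0 : Z), ∀ R z, sc R z ∈ K' → ∃ τ ∈ 𝒞, τ • z - z ∈ V₂ ∧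
        ∀ n, n ≠ 0 → ∀ (x : Lp ℝ 2 (mX co μ (wm fun _ : Yt (h.st n) c => 1))) (Ξ : _ → ℝ),
          x =ᵐ[mX co μ (wm fun _ => 1)] Ξ → (∀ g α q, ∑ᶠ f : M, Ξ (g, (α, q * f)) = 0) → ∀ δ : ℝ,
          (∀ κ, κ ∈ 𝒞 ∧ κ • z - z ∈ V₁ → ‖hco.kp μ _ κ x - x‖ ≤ δ) →
          ‖x‖ ≤ C₀ * δ + C₁ * ‖hco.kp μ _ τ x - x‖)
    {K : Set Z} (hK : IsCompact K) (hKU : K ⊆ U) :
    ∃ (K₁ : Set Z) (Γ₁ : Finset Γ) (C : ℝ≥0), IsCompact K₁ ∧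
    ∀ m₁ : ℕ, m₁ ≠ 0 → ∃ C' : ℝ≥0, ∀ m₂ : ℕ, m₂ ≠ 0 → ∃ E₁ E₂ : Finset X,
      (∀ e ∈ E₁, ∃ b ∈ L₀, e = m₁ • b) ∧ (∀ e ∈ E₂, ∃ b ∈ L₀, e = m₂ • b) ∧
      ∀ᶠ R in atTop, ∀ ξ₁ ξ₂ : X → Q → ℝ, (∀ a q, ∑ᶠ f : M, ξ₂ a (q * f) = 0) →
        N2 (fun a => sc R (iJ a)) K₁ (fun a q => sq (ξ₂ a q)) ≠ ⊤ →
        N2 (fun a => sc R (iJ a)) K (fun a q => sq (ξ₂ a q)) ≤
          C * (N2 (fun a => sc R (iJ a)) K₁ (fun a q => sq (ξ₁ a q - ξ₂ a q)) +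
            ∑ e ∈ E₁, N2 (fun a => sc R (iJ a)) K₁ fun a q => sq (ξ₁ (a + e) q - ξ₁ a q)) +
          C' * (∑ γ ∈ Γ₁, N2 (fun a => sc R (iJ a)) K₁
              (fun a q => sq (ξ₂ (γ • a) (c γ * q) - ξ₂ a q)) +
            ∑ e ∈ E₂, N2 (fun a => sc R (iJ a)) K₁ fun a q => sq (ξ₂ (a + e) q - ξ₂ a q)) := by
  obtain ⟨V, hV, W, hW, cV, cW, hK'⟩ := h.thick hK hU hKU
  have cK' := h.sa_cpt cV.inv hK cW.neg
  set K' := sa V⁻¹ K (-W) with eK'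
  obtain ⟨𝒞, C₀, c𝒞, hg⟩ := hgap K' cK' hK'
  obtain ⟨C, cC, hC⟩ := hco.Fd_cpt
  obtain ⟨D, cD, hD⟩ := h.cov
  obtain ⟨H, hH, hH', hl⟩ := h.lnk
  obtain ⟨ΓV, hΓV⟩ := hco.vol_le cV
  have cA : IsCompact (C * (C * 𝒞 ∪ V)⁻¹) := cC.mul ((cC.mul c𝒞).union cV).inv
  set Γ₁ := (hco.fin _ cA).toFinset with eΓ₁
  have hΓ₁ : ∀ x ∈ C * 𝒞 ∪ V, (co x)⁻¹ ∈ Γ₁ ∧ ι (co x)⁻¹ * x ∈ C := fun x hx => by
    have h1 : ι (co x)⁻¹ * x ∈ C := hC (by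
      change co _ = 1
      rw [hco.equiv, inv_mul_cancel])
    exact ⟨(hco.fin _ cA).mem_toFinset.2 ⟨_, h1, _, inv_mem_inv.2 hx, mul_inv_cancel_right _ _⟩, h1⟩
  obtain ⟨𝒢, c𝒢, g0, g1, g2, g3, g4, g5⟩ : ∃ 𝒢 : Set G, IsCompact 𝒢 ∧ 1 ∈ 𝒢 ∧ C ⊆ 𝒢 ∧ C⁻¹ ⊆ 𝒢 ∧
      V ⊆ 𝒢 ∧ (∀ γ ∈ Γ₁, ι γ ∈ 𝒢) ∧ ∀ γ ∈ Γ₁, ∀ g ∈ C, ι γ * g ∈ 𝒢 :=
    ⟨{1} ∪ C ∪ C⁻¹ ∪ V ∪ C * (C * 𝒞 ∪ V)⁻¹ ∪ C * (C * 𝒞 ∪ V)⁻¹ * C,
      ((((isCompact_singleton.union cC).union cC.inv).union cV).union cA).union (cA.mul cC),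
      by simp, fun _ _ => by simp [*], fun x hx => .inl (.inl (.inl (.inr hx))),
      fun _ _ => by simp [*], fun γ hγ => .inl (.inr ((hco.fin _ cA).mem_toFinset.1 hγ)),
      fun γ hγ g hg => .inr (mul_mem_mul ((hco.fin _ cA).mem_toFinset.1 hγ) hg)⟩
  have cD₂ : IsCompact (insert 0 D - insert 0 D) := by
    rw [sub_eq_add_neg]; exact (cD.insert 0).add (cD.insert 0).neg
  have d0 : (0 : Z) ∈ insert 0 D - insert 0 D := ⟨0, .inl rfl, 0, .inl rfl, sub_zero _⟩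
  have d1 : ∀ d ∈ D, d ∈ insert 0 D - insert 0 D := fun d hd => ⟨d, .inr hd, 0, .inl rfl, sub_zero _⟩
  have d2 : ∀ d ∈ D, -d ∈ insert 0 D - insert 0 D := fun d hd => ⟨0, .inl rfl, d, .inr hd, zero_sub _⟩
  have c𝒟 := h.sa_cpt c𝒢 cD₂ cD₂
  set 𝒟 := sa 𝒢 (insert 0 D - insert 0 D) (insert 0 D - insert 0 D) with e𝒟
  set B := (h.fin _ c𝒟).toFinset with eB
  have hB : ∀ g ∈ 𝒢, ∀ b ∈ L, ∀ d ∈ D, ∀ d' ∈ D, iJ b = g • (d - d') → b ∈ B :=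
    fun g hg b hb d hd d' hd' e => (h.fin _ c𝒟).mem_toFinset.2 ⟨hb, by
      simpa [e] using mem_sa hg (sub_mem_sub (.inr hd) (.inr hd')) d0⟩
  obtain ⟨n₀, hn₀, hn₁, hn₂⟩ := hl 𝒟 c𝒟 W hW
  have cK'' := h.sa_cpt cC cK' cW.neg
  set K'' := sa C K' (-W) with eK''
  have cK₁ := h.sa_cpt c𝒢 (hK.union cK'') (isCompact_singleton (x := 0))
  set K₁ := sa 𝒢 (K ∪ K'') {0} with eK₁
  have k1 : ∀ g ∈ 𝒢, ∀ z ∈ K ∪ K'', g • z ∈ K₁ := fun g hg z hz => by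
    simpa using mem_sa hg hz (mem_singleton (0 : Z))
  have k0 : K ∪ K'' ⊆ K₁ := fun z hz => by simpa using k1 1 g0 z hz
  have hV0 : μ V ≠ 0 := (μ.measure_pos_of_mem_nhds hV).ne'
  obtain ⟨κ₀, hκ₀⟩ : ∃ κ₀ : ℝ≥0, (κ₀ : ℝ≥0∞) = (μ V)⁻¹ * (B.card * 2 * ΓV.card) * (B.card * μ C) :=
    ⟨_, ENNReal.coe_toNNReal (by have := cC.measure_ne_top (μ := μ); finiteness)⟩
  refine ⟨K₁, Γ₁, κ₀ * (8 * (C₀ + 1) ^ 2 * (1 + Γ₁.card)), cK₁, fun m₁ hm₁ => ?_⟩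
  obtain ⟨V₁, hV₁, hE₁⟩ := h.moves hH hH' c𝒢 c𝒟 hn₁ hm₁
  obtain ⟨C₁, hg⟩ := hg V₁ hV₁
  refine ⟨κ₀ * (8 * (C₀ + 1) ^ 2 + 4 * C₁ ^ 2 * (1 + Γ₁.card)) + 4 * (1 + Γ₁.card), fun m₂ hm₂ => ?_⟩
  obtain ⟨V₂, hV₂, hE₂⟩ := h.moves hH hH' c𝒢 c𝒟 hn₁ hm₂
  obtain ⟨E₁, e1, hE₁⟩ := hE₁ m₂
  obtain ⟨E₂, e2, hE₂⟩ := hE₂ m₁
  rw [mul_comm m₂ m₁] at hE₂
  refine ⟨E₁, E₂, e1, e2, (hn₂ (m₁ * m₂)).mono fun R hR ξ₁ ξ₂ hz hfin => ?_⟩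
  have hn : m₁ * m₂ * n₀ ≠ 0 := by positivity
  generalize m₁ * m₂ * n₀ = n at hE₁ hE₂ hR hn
  obtain ⟨r, hr⟩ := h.exists_rd hn cD hD
  have hR' : ∀ d ∈ D, -sc R (n • d) ∈ -W := fun d hd =>
    neg_mem_neg.2 (hR d (by simpa using mem_sa g0 (d1 d hd) d0))
  have hs := fun φ => sum_lf h c hn hr hco μ hC (B := B) (K' := K') (K'' := K'') (R := R)
    (fun g hg => hB _ (g2 (inv_mem_inv.2 hg)))
    (fun g hg z hz d hd => by rw [sub_eq_add_neg]; exact mem_sa hg hz (hR' d hd)) φ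
  set pos : X → Z := fun a => sc R (iJ a) with hpos
  set ν := mX co μ (wm fun _ : Yt (h.st n) c => 1) with hν
  -- the moves
  set T₁ : X → X → Q → ℝ≥0∞ := fun e a q => sq (ξ₁ (a + e) q - ξ₁ a q) with hT₁
  set T₂ : X → X → Q → ℝ≥0∞ := fun e a q => sq (ξ₂ (a + e) q - ξ₂ a q) with hT₂
  set A : Γ → X → Q → ℝ≥0∞ := fun γ a q => sq (ξ₂ (γ • a) (c γ * q) - ξ₂ a q) with hA
  set Δ : X → Q → ℝ≥0∞ := fun a q => sq (ξ₁ a q - ξ₂ a q) with hΔ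
  set M₁ : X → Q → ℝ≥0∞ := fun a q =>
    ∑ γ ∈ Γ₁, (∑ e ∈ E₁, T₁ e (γ • a) (c γ * q) + (Δ (γ • a) (c γ * q) + A γ a q)) with hM₁
  set M₂ : X → Q → ℝ≥0∞ := fun a q => ∑ γ ∈ Γ₁, (∑ e ∈ E₂, T₂ e (γ • a) (c γ * q) + A γ a q) with hM₂
  have s1 : ∀ γ ∈ Γ₁, ∀ φ : X → Q → ℝ≥0∞,
      N2 pos (K ∪ K'') (fun a q => φ (γ • a) (c γ * q)) ≤ N2 pos K₁ φ := fun γ hγ φ =>
    N2_shift pos (MulAction.toPerm γ) (Equiv.mulLeft (c γ)) (fun a ha => by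
      simp only [hpos, MulAction.toPerm_apply, h.eqv, h.sc_smul]; exact k1 _ (g4 γ hγ) _ ha) φ
  have s0 : ∀ φ : X → Q → ℝ≥0∞, N2 pos (K ∪ K'') φ ≤ N2 pos K₁ φ := fun φ =>
    N2_mono pos k0 fun _ _ _ => le_rfl
  have s2 : N2 pos (K ∪ K'') M₁ ≤ Γ₁.card * (N2 pos K₁ Δ + ∑ e ∈ E₁, N2 pos K₁ (T₁ e)) +
      ∑ γ ∈ Γ₁, N2 pos K₁ (A γ) := by
    simp only [hM₁, N2_sum, N2_add]
    rw [← nsmul_eq_mul, ← Finset.sum_const, ← Finset.sum_add_distrib]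
    refine Finset.sum_le_sum fun γ hγ => ?_
    rw [← add_assoc, add_comm (N2 pos K₁ Δ)]
    exact add_le_add (add_le_add (Finset.sum_le_sum fun e _ => s1 γ hγ _) (s1 γ hγ _)) (s0 _)
  have s3 : N2 pos (K ∪ K'') M₂ ≤ Γ₁.card * ∑ e ∈ E₂, N2 pos K₁ (T₂ e) +
      ∑ γ ∈ Γ₁, N2 pos K₁ (A γ) := by
    simp only [hM₂, N2_sum, N2_add]
    rw [← nsmul_eq_mul, ← Finset.sum_const, ← Finset.sum_add_distrib]
    exact Finset.sum_le_sum fun γ hγ => add_le_add (Finset.sum_le_sum fun e _ => s1 γ hγ _) (s0 _)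
  have v2 : ∀ γ ∈ Γ₁, ∀ a a' q, a' - γ • a ∈ E₂ → sq (ξ₂ a' (c γ * q) - ξ₂ a q) ≤ 2 * M₂ a q :=
    fun γ hγ a a' q he => by
      refine le_trans (le_of_eq ?_) ((sq_le2 _ _).trans (mul_le_mul_right (le_sum2 hγ he
        (fun γ e => T₂ e (γ • a) (c γ * q)) fun γ => A γ a q) _))
      simp
  have v1 : ∀ γ ∈ Γ₁, ∀ a a' q, a' - γ • a ∈ E₁ →
      sq (ξ₂ a' (c γ * q) - ξ₂ a q) ≤ 4 * (Δ a' (c γ * q) + M₁ a q) := fun γ hγ a a' q he => by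
    refine le_trans (le_of_eq ?_) ((sq_le4 (-(ξ₁ a' (c γ * q) - ξ₂ a' (c γ * q)))
      (ξ₁ (γ • a + (a' - γ • a)) (c γ * q) - ξ₁ (γ • a) (c γ * q))
      (ξ₁ (γ • a) (c γ * q) - ξ₂ (γ • a) (c γ * q)) (ξ₂ (γ • a) (c γ * q) - ξ₂ a q)).trans ?_)
    · simp
    · rw [sq_neg, add_assoc]
      exact mul_le_mul_right (add_le_add_right (le_sum2 hγ he (fun γ e => T₁ e (γ • a) (c γ * q))
        fun γ => Δ (γ • a) (c γ * q) + A γ a q) _) _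
  have v3 : ∀ (l : X), ∀ κ ∈ 𝒞, ∀ p : G × Yt (h.st n) c, p.1 ∈ Fd co → ∃ γ ∈ Γ₁, ∃ a', ∃ g ∈ 𝒢,
      ∃ z ∈ 𝒟, a' - γ • r p.2.1 (p.1 • iJ l) ∈ nL L n ∧
      iJ (a' - γ • r p.2.1 (p.1 • iJ l)) = g • (κ • iJ l - iJ l) + n • z ∧
      (∀ φ : X → Q → ℝ, lf h c r φ l (Pj ι co (rt κ p)) = φ a' (c γ * p.2.2)) ∧
      ∀ φ : X → Q → ℝ≥0∞, lf h c r φ l (Pj ι co (rt κ p)) = φ a' (c γ * p.2.2) := fun l κ hκ p hp => by
    obtain ⟨h1, -⟩ := hΓ₁ (p.1 * κ) (.inl (mul_mem_mul (hC hp) hκ))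
    obtain ⟨d, hd, e⟩ := hr.near p.2.1 (p.1 • iJ l)
    obtain ⟨h2, d', hd', e'⟩ := move h hr (co (p.1 * κ))⁻¹
      (w := (ι (co (p.1 * κ))⁻¹ * (p.1 * κ)) • iJ l) (hr.mk_eq p.2.1 (p.1 • iJ l))
    refine ⟨_, h1, _, _, g5 _ h1 _ (hC hp), _, mem_sa (g4 _ h1) (d1 d hd) (d2 d' hd'), h2, ?_,
      fun _ => rfl, fun _ => rfl⟩
    rw [e', eq_sub_of_add_eq' (sub_eq_iff_eq_add.1 e).symm]
    simp only [mul_smul, smul_sub, smul_add, smul_neg, smul_comm n]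
    abel
  -- the vectors
  have hint : ∀ l : {l // l ∈ nL L n ∧ sc R (iJ l) ∈ K'},
      ∫⁻ p, lf h c r (fun a q => sq (ξ₂ a q)) l p ∂ν ≤ 2 * ((C₀ + 1) ^ 2 *
        (4 * (∫⁻ p, lf h c r Δ l p ∂ν + ∫⁻ p, lf h c r M₁ l p ∂ν)) +
        C₁ ^ 2 * (2 * ∫⁻ p, lf h c r M₂ l p ∂ν)) := fun l => by
    have f0 : ∫⁻ p, ‖lf h c r ξ₂ l p‖ₑ ^ 2 ∂ν = ∫⁻ p, lf h c r (fun a q => sq (ξ₂ a q)) l p ∂ν :=
      lintegral_congr fun p => enorm_sq_eq _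
    have f1 := memLp_two (ν := ν) (meas_lf h c hr ξ₂ l).aestronglyMeasurable (by
      rw [f0]
      refine ne_top_of_le_ne_top ?_ ((ENNReal.le_tsum l).trans ((hs _).trans (mul_le_mul_right
        (N2_mono pos (subset_union_right.trans k0) fun _ _ _ => le_rfl) _)))
      have := cC.measure_ne_top (μ := μ)
      finiteness)
    have f2 := f1.coeFn_toLp
    obtain ⟨τ, hτ, t1, t2⟩ := hg V₂ hV₂ R _ l.2.2
    have f3 : ∀ κ, ‖hco.kp μ _ κ f1.toLp - f1.toLp‖ₑ ^ 2 = ∫⁻ p, sq (lf h c r ξ₂ l (Pj ι co (rt κ p)) -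
        lf h c r ξ₂ l p) ∂ν := fun κ =>
      (enorm_sq ((Lp.coeFn_sub _ _).trans ((hco.kp_coe_of μ _ κ f2).sub f2))).trans
        (lintegral_congr fun p => enorm_sq_eq _)
    rw [← f0, ← enorm_sq f2]
    refine enn_of (fun κ hκ => ?_) ?_ (t2 n hn _ _ f2 fun g α q => hz (r α (g • iJ l)) q)
    · rw [f3, ← (hco.mp μ _ κ).lintegral_comp (meas_lf h c hr Δ l), ← lintegral_add_right _
        (meas_lf h c hr M₁ l), ← lintegral_const_mul' _ _ (by simp)]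
      refine lintegral_mono_ae ((hco.ae_mem μ _).mono fun p hp => ?_)
      obtain ⟨γ, hγ, a', g, hg', z, hz', w1, w2, w3, w4⟩ := v3 l κ hκ.1 p hp
      simp only [w3, w4]
      exact v1 γ hγ _ _ _ (hE₁ _ w1 g hg' _ hκ.2 z hz' w2)
    · rw [f3, ← lintegral_const_mul' _ _ (by simp)]
      refine lintegral_mono_ae ((hco.ae_mem μ _).mono fun p hp => ?_)
      obtain ⟨γ, hγ, a', g, hg', z, hz', w1, w2, w3, -⟩ := v3 l τ hτ p hp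
      simp only [w3]
      exact v2 γ hγ _ _ _ (hE₂ _ w1 g hg' _ t1 z hz' w2)
  -- the lower bound
  have m0 : ∀ l, Measurable fun p => lf h c r (fun a q => sq (ξ₂ a q)) l (Pj ι co p) := fun l =>
    (meas_lf h c hr (fun a q => sq (ξ₂ a q)) l).comp hco.meas_Pj
  have hlow : ∀ g ∈ V, N2 pos K (fun a q => sq (ξ₂ a q)) ≤ B.card * 2 *
      (∑' l : {l // l ∈ nL L n ∧ sc R (iJ l) ∈ K'}, ∫⁻ y, lf h c r (fun a q => sq (ξ₂ a q)) l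
        (Pj ι co (g, y)) ∂wm fun _ => 1) + 4 * N2 pos K M₂ := fun g hgV => by
    obtain ⟨h1, h2⟩ := hΓ₁ g (.inr hgV)
    refine (h.low c hn hr (hB g (g3 hgV)) (K' := K') (fun z hz d hd => by
        rw [sub_eq_add_neg]; exact mem_sa (inv_mem_inv.2 hgV) hz (hR' d hd)) _ (fun a q => 4 * M₂ a q)
      (fun l y => 2 * lf h c r (fun a q => sq (ξ₂ a q)) l (Pj ι co (g, y))) fun a q l d hd e => ?_).trans
      (le_of_eq ?_)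
    · obtain ⟨h3, d', hd', e'⟩ := move h hr (co g)⁻¹ (w := (ι (co g)⁻¹ * g) • iJ l) (a := a) rfl
      have h4 := v2 _ h1 _ _ q (hE₂ _ h3 1 g0 0 (mem_of_mem_nhds hV₂) _
        (mem_sa (g1 h2) (d2 d hd) (d2 d' hd')) (by
          rw [e', eq_sub_of_add_eq' (sub_eq_iff_eq_add.1 e).symm]
          simp only [mul_smul, smul_sub, smul_add, smul_neg, smul_comm n, smul_inv_smul, smul_zero]
          abel))
      refine le_trans (le_of_eq ?_) ((sq_le2 _ (-_)).trans ((mul_add _ _ _).trans_le (add_le_add_right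
        ((mul_le_mul_right ((sq_neg _).trans_le h4) _).trans_eq (by ring)) _)))
      exact congrArg sq (eq_add_neg_of_add_eq (add_sub_cancel _ _))
    · simp only [N2_mul, lintegral_wm, one_mul, ENNReal.tsum_mul_left, mul_assoc, hpos]
  have hV1 := cV.measure_ne_top (μ := μ)
  have hmain : N2 pos K (fun a q => sq (ξ₂ a q)) ≤ (μ V)⁻¹ * (B.card * 2 * ΓV.card) *
      (∑' l : {l // l ∈ nL L n ∧ sc R (iJ l) ∈ K'}, ∫⁻ p, lf h c r (fun a q => sq (ξ₂ a q)) l p ∂ν) +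
      4 * N2 pos K M₂ := by
    have h1 := setLIntegral_mono' (μ := μ) cV.measurableSet hlow
    rw [setLIntegral_const, lintegral_add_right _ measurable_const, setLIntegral_const,
      lintegral_const_mul' _ _ (by finiteness),
      lintegral_tsum fun l : {l // l ∈ nL L n ∧ sc R (iJ l) ∈ K'} =>
        (m0 l).lintegral_prod_right'.aemeasurable] at h1
    have h2 : ∀ l : X, ∫⁻ g in V, ∫⁻ y, lf h c r (fun a q => sq (ξ₂ a q)) l (Pj ι co (g, y))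
        ∂wm (fun _ => 1) ∂μ ≤ ΓV.card * ∫⁻ p, lf h c r (fun a q => sq (ξ₂ a q)) l p ∂ν := fun l => by
      refine (lintegral_prod _ (m0 l).aemeasurable).symm.trans_le ?_
      rw [Measure.restrict_prod_eq_prod_univ]
      refine (hΓV _ μ _ _).trans (le_of_eq ?_)
      rw [← nsmul_eq_mul, ← Finset.sum_const]
      refine Finset.sum_congr rfl fun γ _ => lintegral_congr_ae ((hco.ae_mem μ _).mono fun p hp => ?_)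
      simp only [hco.Pj_act, Pj_of_mem hp]
    have h3 := h1.trans (add_le_add_left (mul_le_mul_right (ENNReal.tsum_le_tsum
      fun l : {l // l ∈ nL L n ∧ sc R (iJ l) ∈ K'} => h2 l) _) _)
    rw [ENNReal.tsum_mul_left] at h3
    refine (ENNReal.mul_le_mul_iff_left hV0 hV1).1 (h3.trans (le_of_eq ?_))
    rw [add_mul, mul_comm _ (μ V), mul_comm _ (μ V), ← mul_assoc (μ V), ← mul_assoc (μ V),
      ← mul_assoc (μ V), ENNReal.mul_inv_cancel hV0 hV1]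
    ring
  have u0 : ∀ φ : X → Q → ℝ≥0∞, N2 pos K'' φ ≤ N2 pos (K ∪ K'') φ := fun φ =>
    N2_mono pos subset_union_right fun _ _ _ => le_rfl
  have u1 := (hs Δ).trans (mul_le_mul_right ((u0 _).trans (s0 _)) _)
  have u2 := (hs M₁).trans (mul_le_mul_right ((u0 _).trans s2) _)
  have u3 := (hs M₂).trans (mul_le_mul_right ((u0 _).trans s3) _)
  have u4 := (N2_mono pos (subset_union_left (t := K'')) (φ := M₂) fun _ _ _ => le_rfl).trans s3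
  have u5 := ENNReal.tsum_le_tsum hint
  simp only [ENNReal.tsum_mul_left, ENNReal.tsum_add] at u5
  refine hmain.trans ((add_le_add (mul_le_mul_right (u5.trans (mul_le_mul_right (add_le_add
    (mul_le_mul_right (mul_le_mul_right (add_le_add u1 u2) _) _)
    (mul_le_mul_right (mul_le_mul_right u3 _) _)) _)) _) (mul_le_mul_right u4 _)).trans ?_)
  push_cast
  rw [hκ₀]
  generalize (μ V)⁻¹ * (B.card * 2 * ΓV.card) = k₁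
  generalize (B.card : ℝ≥0∞) * μ C = k₂
  generalize N2 pos K₁ Δ = t₁
  generalize ∑ e ∈ E₁, N2 pos K₁ (T₁ e) = t₂
  generalize ∑ γ ∈ Γ₁, N2 pos K₁ (A γ) = t₃
  generalize ∑ e ∈ E₂, N2 pos K₁ (T₂ e) = t₄
  generalize (Γ₁.card : ℝ≥0∞) = g
  generalize ((C₀ : ℝ≥0∞) + 1) ^ 2 = c₀
  generalize (C₁ : ℝ≥0∞) ^ 2 = c₁
  exact le_of_le_of_eq (le_self_add (b := k₁ * k₂ * (8 * c₀ * (t₂ + t₄) + 4 * c₁ * (g * t₃ + t₄)) +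
    4 * (g * t₃ + t₄))) (by ring)

end Crest.Agent.T24.Na.J52
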