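import Crest.Agent.T24.NaJcA_62

/-!
# Row 24, the `J`-component: the abstract counting core (helper62), geometry and measure
-/

set_option autoImplicit false
set_option linter.unusedSectionVars false

noncomputable section

namespace Crest.Agent.T24.Na.J62

open Topology Filter MeasureTheory K39 J52 Set
open scoped ENNReal NNReal Pointwise

universe u v w

theorem ns_le {X Q : Type*} {P : Set X} {F F' : X → Q → ℝ≥0∞} (h : ∀ a ∈ P, ∀ q, F a q ≤ F' a q) :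
    ns P F ≤ ns P F' :=
  ENNReal.tsum_le_tsum fun q => ENNReal.tsum_le_tsum fun a => by
    by_cases ha : a ∈ P
    · simpa [ha] using h a ha q
    · simp [ha]

/-- a difference -/
abbrev dl {X Q : Type*} [Add X] (ξ : X → Q → ℝ) (e a : X) (q : Q) : ℝ≥0∞ :=
  ‖ξ (a + e) q - ξ a q‖ₑ ^ 2

section Geo
variable {G Γ Z X Q : Type*} [Group G] [Group Γ] [AddCommGroup Z] [AddCommGroup X]
  [DistribMulAction G Z] [DistribMulAction Γ X] [Group Q] [MeasurableSpace Z] [MeasurableSpace X]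

/-- the geometric context -/
structure Cx (ι : Γ →* G) (iJ : X →+ Z) (L : AddSubgroup X) (m : ℕ) (D D₀ : Set Z) (Cb : Set G)
    (E : Finset X) (f : Z →+ Z) (β : Z → X) (rd : X ⧸ mL L m → Z → X) : Prop where
  eqv : ∀ γ a, iJ (γ • a) = ι γ • iJ a
  f1 : ∀ z, m • f z = z
  f2 : ∀ z, f (m • z) = z
  hβ : ∀ z, β z ∈ L ∧ z - iJ (β z) ∈ D
  rd : Rd iJ L m D rd
  inv : ∀ g ∈ Cb, g⁻¹ ∈ Cb
  e1 : ∀ b ∈ L, ∀ g ∈ Cb, ∀ d ∈ D, ∀ d' ∈ D, iJ b = g • d + d' → b ∈ E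
  e2 : ∀ b ∈ L, ∀ g ∈ Cb, ∀ d ∈ D, ∀ d' ∈ D, iJ b = g • d - d' → b ∈ E
  e3 : ∀ b ∈ L, ∀ d₀ ∈ D₀, ∀ d ∈ D, ∀ d' ∈ D, iJ b = d₀ - d' + d → b ∈ E
  e4 : ∀ b ∈ L, ∀ g ∈ Cb, ∀ d ∈ D, ∀ d' ∈ D, iJ b = -(g • d + d') → b ∈ E

variable {ι : Γ →* G} {iJ : X →+ Z} {L : AddSubgroup X} {m : ℕ} {D D₀ : Set Z} {Cb : Set G}
  {E : Finset X} {f : Z →+ Z} {β : Z → X} {rd : X ⧸ mL L m → Z → X} (cq : Γ →* Q)
  (h : Cx ι iJ L m D D₀ Cb E f β rd)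
include h

theorem Cx.cnt {I P : Set X} (hI : ∀ b ∈ I, b ∈ L) {g : G} (hg : g ∈ Cb)
    (hP : ∀ b ∈ I, ∀ α, rd α (g • iJ (m • b)) ∈ P) (F : X → Q → ℝ≥0∞) :
    ∑' b : I, ∑' y : Yt cq (mL L m), F (rd y.1 (g • iJ (m • b.1))) y.2 ≤ E.card * ns P F := by
  have := tsum_le_mul (I := I × Yt cq (mL L m)) E
    (fun p => (p.2.2, rd p.2.1 (g • iJ (m • p.1.1))))
    (fun p => p.1.1 - β (f (g⁻¹ • iJ (rd p.2.1 (g • iJ (m • p.1.1)))))) (fun p => ?_)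
    (fun p p' e e' => ?_) fun p => P.indicator (fun a => F a p.1) p.2
  · rw [ENNReal.tsum_prod', ENNReal.tsum_prod'] at this
    refine le_trans (le_of_eq ?_) this
    exact tsum_congr fun b => tsum_congr fun y => by rw [indicator_of_mem (hP b b.2 _)]
  · obtain ⟨d, hd, e⟩ := h.rd.near p.2.1 (g • iJ (m • p.1.1))
    refine h.e1 _ (L.sub_mem (hI _ p.1.2) (h.hβ _).1) g⁻¹ (h.inv g hg) d hd _ (h.hβ (f (g⁻¹ • iJ
      (rd p.2.1 (g • iJ (m • p.1.1)))))).2 ?_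
    have : f (g⁻¹ • iJ (rd p.2.1 (g • iJ (m • p.1.1)))) = iJ p.1.1 - g⁻¹ • d := by
      rw [e, smul_sub, inv_smul_smul, map_nsmul, smul_comm g⁻¹ m d, ← smul_sub, h.f2]
    rw [map_sub, this]; abel
  · have e1 : p.2.2 = p'.2.2 := congrArg Prod.fst e
    have e2 : rd p.2.1 (g • iJ (m • p.1.1)) = rd p'.2.1 (g • iJ (m • p'.1.1)) := congrArg Prod.snd e
    rw [e2] at e'
    refine Prod.ext (Subtype.ext (sub_left_injective e')) (Prod.ext ?_ e1)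
    rw [← h.rd.cls p.2.1, e2, h.rd.cls]

theorem Cx.low [DecidableEq X] {I P : Set X} {g : G} (hg : g ∈ Cb)
    (hI : ∀ a ∈ P, β (f (g⁻¹ • iJ a)) ∈ I) (ξ : X → Q → ℝ) :
    nn P ξ ≤ 2 * (E.card * ∑' b : I, ∑' y : Yt cq (mL L m),
      ‖ξ (rd y.1 (g • iJ (m • b.1))) y.2‖ₑ ^ 2) + 2 * ∑ e ∈ E.image (m • ·), ns P (dl ξ e) := by
  have key : ∀ a : X, ∃ e ∈ E, rd a (g • iJ (m • β (f (g⁻¹ • iJ a)))) = a + m • e := fun a => by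
    obtain ⟨d, hd, e⟩ := h.rd.near a (g • iJ (m • β (f (g⁻¹ • iJ a))))
    obtain ⟨b, hb, e1, e2⟩ := diff (L := L) (iJ := iJ) h.f2 (h.rd.cls a _).symm
      (u := -(g • (f (g⁻¹ • iJ a) - iJ (β (f (g⁻¹ • iJ a)))) + d)) (by
        rw [e, smul_neg, smul_add, smul_comm m g, smul_sub, h.f1, smul_sub, smul_inv_smul, map_nsmul]
        abel)
    exact ⟨b, h.e4 b hb g hg _ (h.hβ _).2 d hd e1, e2⟩
  choose ε hε hε' using key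
  rw [nn_eq, ← ns_sum, ← ns_mul]
  refine (ns_le (F' := fun (a : X) q => 2 * ‖ξ (rd a (g • iJ (m • β (f (g⁻¹ • iJ a))))) q‖ₑ ^ 2 +
    2 * ∑ e ∈ E.image (m • ·), dl ξ e a q) fun a _ q => ?_).trans ?_
  · have := sq_tri (ξ a q) (ξ (a + m • ε a) q) 0
    rw [sub_zero, sub_zero, enorm_sub_rev, add_comm] at this
    rw [hε']
    refine this.trans ?_
    gcongr
    exact Finset.single_le_sum (f := fun e => dl ξ e a q) (fun _ _ => zero_le)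
      (Finset.mem_image_of_mem _ (hε a))
  rw [ns_add, ns_mul]
  gcongr
  have := tsum_le_mul (I := Q × P) (X := I × Yt cq (mL L m)) E
    (fun p => (⟨_, hI p.2.1 p.2.2⟩, ((p.2.1 : X ⧸ mL L m), p.1))) (fun p => ε p.2.1)
    (fun p => hε _) (fun p p' e e' => ?_)
    fun p => ‖ξ (rd p.2.1 (g • iJ (m • p.1.1))) p.2.2‖ₑ ^ 2
  · rw [ENNReal.tsum_prod', ENNReal.tsum_prod'] at this
    refine le_trans (le_of_eq ?_) this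
    exact tsum_congr fun q => (tsum_subtype P _).symm
  · have e1 : β (f (g⁻¹ • iJ p.2.1)) = β (f (g⁻¹ • iJ p'.2.1)) := congrArg (fun x => x.1.1) e
    have e2 : (p.2.1 : X ⧸ mL L m) = p'.2.1 := congrArg (fun x => x.2.1) e
    have e3 := hε' p.2.1
    rw [e1, e2, hε', ← e'] at e3
    exact Prod.ext (congrArg (fun x => x.2.2) e) (Subtype.ext (add_right_cancel e3).symm)

theorem Cx.mvG [Fact (St Γ (mL L m))] {γ : Γ} (hγ : ι γ ∈ Cb) (α : X ⧸ mL L m) (w : Z) :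
    ∃ e ∈ E, rd (qa γ α) (ι γ • w) = γ • rd α w + m • e := by
  obtain ⟨d, hd, e⟩ := h.rd.near α w
  obtain ⟨d', hd', e'⟩ := h.rd.near (qa γ α) (ι γ • w)
  obtain ⟨b, hb, e1, e2⟩ := diff (L := L) (iJ := iJ) h.f2 (a := γ • rd α w)
    (a' := rd (qa γ α) (ι γ • w)) (by rw [h.rd.cls, ← qa_mk, h.rd.cls]) (u := ι γ • d - d') (by
      rw [e', h.eqv, e, smul_sub, smul_sub, smul_comm m (ι γ)]; abel)
  exact ⟨b, h.e2 b hb _ hγ d hd d' hd' e1, e2⟩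

theorem Cx.mv (α : X ⧸ mL L m) (w v : Z) : ∃ b ∈ L, ∃ d ∈ D, ∃ d' ∈ D, iJ b = f v - d' + d ∧
    rd α (w + v) = rd α w + m • b := by
  obtain ⟨d, hd, e⟩ := h.rd.near α w
  obtain ⟨d', hd', e'⟩ := h.rd.near α (w + v)
  obtain ⟨b, hb, e1, e2⟩ := diff (L := L) (iJ := iJ) h.f2 (a := rd α w)
    (a' := rd α (w + v)) (by rw [h.rd.cls, h.rd.cls]) (u := f v - d' + d) (by
      rw [e', e, smul_add, smul_sub, h.f1]; abel)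
  exact ⟨b, hb, d, hd, d', hd', e1, e2⟩

end Geo

theorem int_tri {α : Type*} [MeasurableSpace α] (ν : Measure α) {f g : α → ℝ} (k : α → ℝ)
    (hf : Measurable f) (hg : Measurable g) : ∫⁻ p, ‖f p - k p‖ₑ ^ 2 ∂ν ≤
      2 * ∫⁻ p, ‖f p - g p‖ₑ ^ 2 ∂ν + 2 * ∫⁻ p, ‖g p - k p‖ₑ ^ 2 ∂ν := by
  rw [← lintegral_const_mul' _ _ (by simp), ← lintegral_const_mul' _ _ (by simp),
    ← lintegral_add_left (by fun_prop)]
  exact lintegral_mono fun p => sq_tri _ _ _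

section Ms
variable {G Γ Y : Type*} [Group G] [TopologicalSpace G] [MeasurableSpace G] [MeasurableMul G]
  [Group Γ] [Countable Γ] [MulAction Γ Y] [MeasurableSpace Y] [MeasurableConstSMul Γ Y]
  {ι : Γ →* G} {c : G → Γ} (μ : Measure G) (ω : Measure Y) [SFinite μ] [SFinite ω]
  [μ.IsMulLeftInvariant] [μ.IsMulRightInvariant] [SMulInvariantMeasure Γ Y ω] {Cb : Set G}

theorem fd_le (hF : Fd c ⊆ Cb) (f : G × Y → ℝ≥0∞) :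
    ∫⁻ p, f p ∂mX c μ ω ≤ ∫⁻ p in Cb ×ˢ univ, f p ∂μ.prod ω := by
  rw [mX_eq]; exact lintegral_mono_set (prod_mono_left hF)

theorem fd_rt_le {κ : G} (hF : ∀ x ∈ Fd c, x * κ ∈ Cb) (f : G × Y → ℝ≥0∞) :
    ∫⁻ p, f (rt κ p) ∂mX c μ ω ≤ ∫⁻ p in Cb ×ˢ univ, f p ∂μ.prod ω := by
  rw [mX_eq, ← (mp_rt μ ω κ).setLIntegral_comp_preimage_emb (emb_rt κ) f]
  refine lintegral_mono_set fun p hp => ?_
  exact ⟨hF _ hp.1, trivial⟩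

theorem vol_bd (hF : Fd c ⊆ Cb) (Γ₁ : Finset Γ) {Ψ : G × Y → ℝ} (hΨ : Measurable Ψ) :
    ∑ γ ∈ Γ₁, ∫⁻ p, ‖Ψ (act ι γ p)‖ₑ ^ 2 ∂mX c μ ω ≤
      2 * ∑ γ ∈ Γ₁, ∫⁻ p in Cb ×ˢ univ, ‖Ψ (act ι γ p) - Ψ p‖ₑ ^ 2 ∂μ.prod ω +
        2 * (Γ₁.card * ∫⁻ p, ‖Ψ p‖ₑ ^ 2 ∂mX c μ ω) := by
  rw [← nsmul_eq_mul, ← Finset.sum_const, Finset.mul_sum, Finset.mul_sum, ← Finset.sum_add_distrib]
  refine Finset.sum_le_sum fun γ _ => ?_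
  have := int_tri (mX c μ ω) (fun _ => 0) (hΨ.comp (meas_act (ι := ι) γ)) hΨ
  simp only [sub_zero, Function.comp] at this
  exact this.trans (add_le_add_left (mul_le_mul_right (fd_le μ ω hF _) _) _)

theorem kap_bd (hF : Fd c ⊆ Cb) {κ : G} (hκ : ∀ x ∈ Fd c, x * κ ∈ Cb) {Ψ Ψ₁ : G × Y → ℝ}
    (hΨ : Measurable Ψ) (hΨ₁ : Measurable Ψ₁) {s : ℝ≥0∞}
    (h1 : ∫⁻ p in Cb ×ˢ univ, ‖Ψ₁ p - Ψ p‖ₑ ^ 2 ∂μ.prod ω ≤ s)
    (h2 : ∫⁻ p, ‖Ψ₁ (rt κ p) - Ψ₁ p‖ₑ ^ 2 ∂mX c μ ω ≤ s) :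
    ∫⁻ p, ‖Ψ (rt κ p) - Ψ p‖ₑ ^ 2 ∂mX c μ ω ≤ 10 * s := by
  have a1 := int_tri (mX c μ ω) Ψ (hΨ.comp (meas_rt κ)) (hΨ₁.comp (meas_rt κ))
  have a2 := int_tri (mX c μ ω) Ψ (hΨ₁.comp (meas_rt κ)) hΨ₁
  have a3 := (fd_rt_le μ ω hκ fun p => ‖Ψ₁ p - Ψ p‖ₑ ^ 2).trans h1
  have a4 := (fd_le μ ω hF fun p => ‖Ψ₁ p - Ψ p‖ₑ ^ 2).trans h1
  simp only [Function.comp] at a1 a2
  simp only [enorm_sub_rev (Ψ₁ (rt κ _))] at a3
  calc _ ≤ _ := a1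
    _ ≤ 2 * s + 2 * (2 * s + 2 * s) := by gcongr; exact a2.trans (by gcongr)
    _ = _ := by ring

end Ms

end Crest.Agent.T24.Na.J62
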