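import Crest.Agent.T24.NaJcB_62

/-!
# Row 24, the `J`-component: the abstract counting core (helper62), one vector
-/

set_option autoImplicit false
set_option linter.unusedSectionVars false

noncomputable section

namespace Crest.Agent.T24.Na.J62

open Topology Filter MeasureTheory K39 J52 Set
open scoped ENNReal NNReal Pointwise

universe u v w

section One
variable {G Γ Z X Q : Type*} [Group G] [TopologicalSpace G] [IsTopologicalGroup G]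
  [MeasurableSpace G] [BorelSpace G] [Group Γ] [Countable Γ] [AddCommGroup Z]
  [TopologicalSpace Z] [MeasurableSpace Z] [BorelSpace Z] [AddCommGroup X] [Countable X]
  [MeasurableSpace X] [DiscreteMeasurableSpace X] [DistribMulAction G Z] [DistribMulAction Γ X]
  [Group Q] [Countable Q] {L : AddSubgroup X} {m : ℕ}

/-- the function on `G × Y` attached to a lattice point -/
def Ps {β : Type*} (cq : Γ →* Q) (rd : X ⧸ mL L m → Z → X) (z : Z) (F : X → Q → β)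
    (p : G × Yt cq (mL L m)) : β := F (rd p.2.1 (p.1 • z)) p.2.2

theorem meas_Ps {β : Type*} [MeasurableSpace β] (cq : Γ →* Q) {rd : X ⧸ mL L m → Z → X}
    (hc : Continuous fun p : G × Z => p.1 • p.2) (hr : ∀ α, Measurable (rd α)) (z : Z)
    (F : X → Q → β) : Measurable (Ps (G := G) cq rd z F) :=
  measurable_from_prod_countable_left fun y => (Measurable.of_discrete (f := fun a => F a y.2)).comp
    ((hr y.1).comp (hc.comp (continuous_id.prodMk continuous_const)).measurable)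

/-- the first error -/
def FS (E₁ : Finset X) (ξ₁ ξ₂ : X → Q → ℝ) (a : X) (q : Q) : ℝ≥0∞ :=
  ‖(ξ₁ - ξ₂) a q‖ₑ ^ 2 + ∑ e ∈ E₁, dl ξ₁ e a q

/-- the second error -/
def FT (cq : Γ →* Q) (Γ₁ : Finset Γ) (E₂ : Finset X) (ξ : X → Q → ℝ) (a : X) (q : Q) : ℝ≥0∞ :=
  ∑ γ ∈ Γ₁, (∑ e ∈ E₂, dl ξ e (γ • a) (cq γ * q) + ‖ξ (γ • a) (cq γ * q) - ξ a q‖ₑ ^ 2) +
    ∑ e ∈ E₂, dl ξ e a q

variable {ι : Γ →* G} {c : G → Γ} {iJ : X →+ Z} {D D₀ : Set Z} {Cb : Set G}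
  {E : Finset X} {f : Z →+ Z} {β : Z → X} {rd : X ⧸ mL L m → Z → X} (cq : Γ →* Q)
  (μ : Measure G) [SFinite μ] [μ.IsMulLeftInvariant] [μ.IsMulRightInvariant]
  [Fact (St Γ (mL L m))]

theorem one [DecidableEq X] (hco : Co ι c) (h : Cx ι iJ L m D D₀ Cb E f β rd)
    (hc : Continuous fun p : G × Z => p.1 • p.2) {𝒞 V : Set G} {Γ₁ : Finset Γ}
    (hCb : MeasurableSet Cb) (hF : Fd c ⊆ Cb) (hF' : ∀ κ ∈ 𝒞, ∀ x ∈ Fd c, x * κ ∈ Cb)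
    (hΓ : ∀ γ ∈ Γ₁, ι γ ∈ Cb)
    (hmv : ∀ Ψ : G × Yt cq (mL L m) → ℝ, ∀ g ∈ 𝒞,
      ∫⁻ p, ‖Ψ (Pj ι c (rt g p)) - Ψ (rt g p)‖ₑ ^ 2 ∂mX c μ (wm fun _ => 1) ≤
        ∑ γ ∈ Γ₁, ∫⁻ p in Cb ×ˢ univ, ‖Ψ (act ι γ p) - Ψ p‖ₑ ^ 2 ∂μ.prod (wm fun _ => 1))
    (hvol : ∀ F : G × Yt cq (mL L m) → ℝ≥0∞, ∫⁻ p in V ×ˢ univ, F p ∂μ.prod (wm fun _ => 1) ≤
      ∑ γ ∈ Γ₁, ∫⁻ p, F (act ι γ p) ∂mX c μ (wm fun _ => 1))
    {z : Z} {τ : G} (hτ : τ ∈ 𝒞) (hτ' : ∀ g ∈ Cb, f (g • (τ • z - z)) ∈ D₀) {V₁ : Set Z}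
    {E₁ : Finset X} (hκ : ∀ v ∈ V₁, ∀ g ∈ Cb, ∀ α w, ∃ e ∈ E₁, rd α (w + g • v) = rd α w + e)
    (ξ₁ ξ₂ : X → Q → ℝ) {C₀ C₁ : ℝ≥0∞}
    (hgp : ∀ Δ, (∀ κ ∈ 𝒞, κ • z - z ∈ V₁ →
      en c μ (fun p => Ps cq rd z ξ₂ (Pj ι c (rt κ p)) - Ps cq rd z ξ₂ p) ≤ Δ) →
      en c μ (Ps cq rd z ξ₂) ≤
        C₀ * Δ + C₁ * en c μ fun p => Ps cq rd z ξ₂ (Pj ι c (rt τ p)) - Ps cq rd z ξ₂ p) :
    ∫⁻ p in V ×ˢ univ, ‖Ps (G := G) cq rd z ξ₂ p‖ₑ ^ 2 ∂μ.prod (wm fun _ => 1) ≤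
      40 * Γ₁.card * C₀ * ∫⁻ p in Cb ×ˢ univ, Ps cq rd z (FS E₁ ξ₁ ξ₂) p ∂μ.prod (wm fun _ => 1) +
      (2 * Γ₁.card * (4 * C₀ + 6 * C₁) + 4) * ∫⁻ p in Cb ×ˢ univ,
        Ps cq rd z (FT cq Γ₁ (E.image (m • ·)) ξ₂) p ∂μ.prod (wm fun _ => 1) := by
  have hm : ∀ ξ : X → Q → ℝ, Measurable (Ps (G := G) cq rd z ξ) := meas_Ps cq hc h.rd.meas z
  set jS := ∫⁻ p in Cb ×ˢ univ, Ps cq rd z (FS E₁ ξ₁ ξ₂) p ∂μ.prod (wm fun _ => 1)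
  set jT := ∫⁻ p in Cb ×ˢ univ,
    Ps cq rd z (FT cq Γ₁ (E.image (m • ·)) ξ₂) p ∂μ.prod (wm fun _ => 1)
  have hs : ∀ (g κ : G), (g * κ) • z = g • z + g • (κ • z - z) := fun g κ => by
    rw [mul_smul, smul_sub]; abel
  have ha : ∑ γ ∈ Γ₁, ∫⁻ p in Cb ×ˢ univ, ‖Ps cq rd z ξ₂ (act ι γ p) - Ps cq rd z ξ₂ p‖ₑ ^ 2
      ∂μ.prod (wm fun _ => 1) ≤ 2 * jT := by
    rw [← lintegral_finsetSum (f := fun γ p =>
      ‖Ps cq rd z ξ₂ (act ι γ p) - Ps cq rd z ξ₂ p‖ₑ ^ 2) _ fun γ _ =>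
      (((hm ξ₂).comp (meas_act γ)).sub (hm ξ₂)).enorm.pow_const 2,
      ← lintegral_const_mul' _ _ (by simp)]
    refine lintegral_mono fun p => ?_
    refine le_trans ?_ (mul_le_mul_right le_self_add _)
    rw [Finset.mul_sum]
    refine Finset.sum_le_sum fun γ hγ => ?_
    obtain ⟨e, he, e1⟩ := h.mvG (hΓ γ hγ) p.2.1 (p.1 • z)
    have : Ps cq rd z ξ₂ (act ι γ p) = ξ₂ (γ • rd p.2.1 (p.1 • z) + m • e) (cq γ * p.2.2) := by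
      rw [← e1, ← mul_smul]; rfl
    rw [this, mul_add]
    refine (sq_tri _ (ξ₂ (γ • rd p.2.1 (p.1 • z)) (cq γ * p.2.2)) _).trans ?_
    gcongr
    · exact Finset.single_le_sum (f := fun e => dl ξ₂ e (γ • rd p.2.1 (p.1 • z)) (cq γ * p.2.2))
        (fun _ _ => zero_le) (Finset.mem_image_of_mem _ he)
    · exact le_rfl
  have ht : ∫⁻ p, ‖Ps cq rd z ξ₂ (rt τ p) - Ps cq rd z ξ₂ p‖ₑ ^ 2 ∂mX c μ (wm fun _ => 1) ≤ jT := by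
    refine (fd_le μ _ hF _).trans (setLIntegral_mono' (hCb.prod .univ) fun p hp => ?_)
    obtain ⟨b, hb, d, hd, d', hd', e1, e2⟩ := h.mv p.2.1 (p.1 • z) (p.1 • (τ • z - z))
    have : Ps cq rd z ξ₂ (rt τ p) = ξ₂ (rd p.2.1 (p.1 • z) + m • b) p.2.2 := by
      rw [← e2, ← hs]; rfl
    rw [this]
    exact le_trans (Finset.single_le_sum (f := fun e => dl ξ₂ e (rd p.2.1 (p.1 • z)) p.2.2)
      (fun _ _ => zero_le) (Finset.mem_image_of_mem _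
        (h.e3 b hb _ (hτ' _ hp.1) d hd d' hd' e1))) le_add_self
  have hu : ∫⁻ p in Cb ×ˢ univ, ‖Ps (G := G) cq rd z ξ₁ p - Ps cq rd z ξ₂ p‖ₑ ^ 2
      ∂μ.prod (wm fun _ => 1) ≤ jS := lintegral_mono fun p => le_self_add
  have hk : ∀ κ ∈ 𝒞, κ • z - z ∈ V₁ → ∫⁻ p, ‖Ps cq rd z ξ₂ (rt κ p) - Ps cq rd z ξ₂ p‖ₑ ^ 2
      ∂mX c μ (wm fun _ => 1) ≤ 10 * jS := fun κ hκ1 hκ2 => by
    refine kap_bd μ _ hF (hF' κ hκ1) (hm ξ₂) (hm ξ₁) hu ?_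
    refine (fd_le μ _ hF _).trans (setLIntegral_mono' (hCb.prod .univ) fun p hp => ?_)
    obtain ⟨e, he, e2⟩ := hκ _ hκ2 _ hp.1 p.2.1 (p.1 • z)
    have : Ps cq rd z ξ₁ (rt κ p) = ξ₁ (rd p.2.1 (p.1 • z) + e) p.2.2 := by
      rw [← e2, ← hs]; rfl
    rw [this]
    exact le_trans (Finset.single_le_sum (f := fun e => dl ξ₁ e (rd p.2.1 (p.1 • z)) p.2.2)
      (fun _ _ => zero_le) he) le_add_self
  have he : ∀ κ ∈ 𝒞, ∀ s, ∫⁻ p, ‖Ps cq rd z ξ₂ (rt κ p) - Ps cq rd z ξ₂ p‖ₑ ^ 2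
      ∂mX c μ (wm fun _ => 1) ≤ s → en c μ (fun p => Ps cq rd z ξ₂ (Pj ι c (rt κ p)) -
        Ps cq rd z ξ₂ p) ≤ 2 * (2 * jT) + 2 * s := fun κ hκ1 s hs => by
    refine (int_tri _ _ ((hm ξ₂).comp (hco.meas_Pj.comp (meas_rt κ)))
      ((hm ξ₂).comp (meas_rt κ))).trans ?_
    exact add_le_add (mul_le_mul_right ((hmv _ κ hκ1).trans ha) _) (mul_le_mul_right hs _)
  have hN := (hgp _ fun κ h1 h2 => he κ h1 _ (hk κ h1 h2)).trans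
    (add_le_add_right (mul_le_mul_right (he τ hτ _ ht) _) _)
  calc _ ≤ _ := hvol _
    _ ≤ _ := vol_bd μ _ hF Γ₁ (hm ξ₂)
    _ ≤ 2 * (2 * jT) + 2 * (Γ₁.card * (C₀ * (2 * (2 * jT) + 2 * (10 * jS)) +
        C₁ * (2 * (2 * jT) + 2 * jT))) := by gcongr; exact hN
    _ = _ := by ring

theorem ns_FT {P P' : Set X} (hP : P ⊆ P') {Γ₁ : Finset Γ} (hΓ : ∀ γ ∈ Γ₁, ∀ a ∈ P, γ • a ∈ P')
    (E₂ : Finset X) (ξ : X → Q → ℝ) : ns P (FT cq Γ₁ E₂ ξ) ≤ (Γ₁.card + 1) *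
      (∑ γ ∈ Γ₁, nn P' (fun a q => ξ (γ • a) (cq γ * q) - ξ a q) +
        ∑ e ∈ E₂, nn P' fun a q => ξ (a + e) q - ξ a q) := by
  unfold FT
  rw [ns_add, ns_sum, ns_sum]
  simp only [ns_add, ns_sum, Finset.sum_add_distrib]
  set T₁ := ∑ γ ∈ Γ₁, nn P' (fun a q => ξ (γ • a) (cq γ * q) - ξ a q)
  set T₂ := ∑ e ∈ E₂, nn P' fun a q => ξ (a + e) q - ξ a q
  calc _ ≤ ∑ γ ∈ Γ₁, T₂ + T₁ + T₂ := by
        gcongr with γ hγ γ hγ e he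
        · exact Finset.sum_le_sum fun e _ => ns_smul γ (cq γ) (hΓ γ hγ) (dl ξ e)
        · exact Finset.sum_le_sum fun γ _ => nn_mono hP _
        · exact Finset.sum_le_sum fun e _ => nn_mono hP _
    _ ≤ _ := by
      rw [Finset.sum_const, nsmul_eq_mul]
      calc _ ≤ Γ₁.card * T₂ + T₁ + T₂ + Γ₁.card * T₁ := le_self_add
        _ = _ := by ring

theorem ns_FS {P P' : Set X} (hP : P ⊆ P') (E₁ : Finset X) (ξ₁ ξ₂ : X → Q → ℝ) :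
    ns P (FS E₁ ξ₁ ξ₂) ≤ nn P' (ξ₁ - ξ₂) + ∑ e ∈ E₁, nn P' fun a q => ξ₁ (a + e) q - ξ₁ a q := by
  unfold FS
  rw [ns_add, ns_sum]
  exact add_le_add (nn_mono hP _) (Finset.sum_le_sum fun e _ => nn_mono hP _)

theorem Cx.sumJ (h : Cx ι iJ L m D D₀ Cb E f β rd) (hc : Continuous fun p : G × Z => p.1 • p.2)
    (hCb : MeasurableSet Cb) {I P : Set X} (hI : ∀ b ∈ I, b ∈ L)
    (hP : ∀ g ∈ Cb, ∀ b ∈ I, ∀ α, rd α (g • iJ (m • b)) ∈ P) (F : X → Q → ℝ≥0∞) :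
    ∑' b : I, ∫⁻ p in Cb ×ˢ univ, Ps cq rd (iJ (m • b.1)) F p ∂μ.prod (wm fun _ => 1) ≤
      μ Cb * (E.card * ns P F) :=
  int_le μ hCb _ (fun _ => meas_Ps cq hc h.rd.meas _ F) fun g hg => h.cnt cq hI hg (hP g hg) F

theorem Cx.lowI [DecidableEq X] (h : Cx ι iJ L m D D₀ Cb E f β rd)
    (hc : Continuous fun p : G × Z => p.1 • p.2) {V : Set G} (hV : MeasurableSet V) (hVC : V ⊆ Cb)
    {I P : Set X} (hI : ∀ g ∈ V, ∀ a ∈ P, β (f (g⁻¹ • iJ a)) ∈ I) (ξ : X → Q → ℝ) :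
    μ V * nn P ξ ≤ 2 * (E.card * ∑' b : I, ∫⁻ p in V ×ˢ univ,
      ‖Ps (G := G) cq rd (iJ (m • b.1)) ξ p‖ₑ ^ 2 ∂μ.prod (wm fun _ => 1)) +
      μ V * (2 * ∑ e ∈ E.image (m • ·), ns P (dl ξ e)) := by
  rw [int_eq μ V _ fun b : I => (meas_Ps cq hc h.rd.meas _ ξ).enorm.pow_const 2, mul_comm (μ V),
    mul_comm (μ V), ← setLIntegral_const, ← setLIntegral_const,
    ← lintegral_const_mul' _ _ (by simp), ← lintegral_const_mul' _ _ (by simp),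
    ← lintegral_add_right _ measurable_const]
  exact setLIntegral_mono' hV fun g hg => h.low cq (hVC hg) (hI g hg) ξ

end One

end Crest.Agent.T24.Na.J62
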