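import Crest.Agent.T24.NaJcDef_52

/-!
# Row 24, the `J`-component: the abstract counting core (helper62), words
-/

set_option autoImplicit false
set_option linter.unusedSectionVars false

noncomputable section

namespace Crest.Agent.T24.Na.J62

open Topology Filter MeasureTheory K39 J52 Set
open scoped ENNReal NNReal

universe u v w

section Y
variable {Γ X Q : Type*} [Group Γ] [AddCommGroup X] [DistribMulAction Γ X] [Group Q]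

variable (Γ) in
/-- `L` is stable -/
def St (L : AddSubgroup X) : Prop := ∀ (γ : Γ), ∀ b ∈ L, γ • b ∈ L

/-- `X / L × Q` -/
@[nolint unusedArguments]
def Yt (_cq : Γ →* Q) (L : AddSubgroup X) : Type _ := (X ⧸ L) × Q

variable (cq : Γ →* Q) (L : AddSubgroup X)

instance [Countable X] [Countable Q] : Countable (Yt cq L) :=
  haveI : Countable (X ⧸ L) := QuotientAddGroup.mk_surjective.countable
  inferInstanceAs (Countable ((X ⧸ L) × Q))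
instance : MeasurableSpace (Yt cq L) := ⊤
instance : DiscreteMeasurableSpace (Yt cq L) := ⟨fun _ => trivial⟩

variable {L} in
/-- the action on classes -/
def qa [h : Fact (St Γ L)] (γ : Γ) : X ⧸ L →+ X ⧸ L :=
  QuotientAddGroup.map L L (DistribSMul.toAddMonoidHom X γ) (h.out γ)

variable {L} in
@[simp] theorem qa_mk [Fact (St Γ L)] (γ : Γ) (a : X) : qa γ (a : X ⧸ L) = (γ • a : X) := rfl

instance [Fact (St Γ L)] : MulAction Γ (Yt cq L) where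
  smul γ y := (qa γ y.1, cq γ * y.2)
  one_smul y := Prod.ext (by
    obtain ⟨a, h⟩ := QuotientAddGroup.mk_surjective y.1
    change qa 1 y.1 = y.1
    rw [← h, qa_mk, one_smul]) (by change cq 1 * y.2 = y.2; simp)
  mul_smul γ δ y := Prod.ext (by
    obtain ⟨a, h⟩ := QuotientAddGroup.mk_surjective y.1
    change qa (γ * δ) y.1 = qa γ (qa δ y.1)
    rw [← h, qa_mk, qa_mk, qa_mk, mul_smul]) (by
    change cq (γ * δ) * y.2 = cq γ * (cq δ * y.2); rw [map_mul, mul_assoc])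

theorem smul_fst [Fact (St Γ L)] (γ : Γ) (y : Yt cq L) : (γ • y).1 = qa γ y.1 := rfl
theorem smul_snd [Fact (St Γ L)] (γ : Γ) (y : Yt cq L) : (γ • y).2 = cq γ * y.2 := rfl

instance [Fact (St Γ L)] : SMulInvariantMeasure Γ (Yt cq L) (wm fun _ : Yt cq L => 1) :=
  wm_inv fun _ _ => rfl

end Y

/-- the local square norm -/
def nn {X Q : Type*} (P : Set X) (ξ : X → Q → ℝ) : ℝ≥0∞ :=
  ∑' q, ∑' a, P.indicator (fun a => ‖ξ a q‖ₑ ^ 2) a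

section Gp
variable {G Γ Z X Q : Type*} [Group G] [TopologicalSpace G] [MeasurableSpace G] [Group Γ]
  [AddCommGroup Z] [TopologicalSpace Z] [AddCommGroup X] [DistribMulAction G Z]
  [DistribMulAction Γ X] [Group Q]

/-- the square norm on the quotient -/
def en {Y : Type*} [MeasurableSpace Y] (c : G → Γ) (μ : Measure G) (Ψ : G × Y → ℝ) : ℝ≥0∞ :=
  ∫⁻ p, ‖Ψ p‖ₑ ^ 2 ∂mX c μ (wm fun _ : Y => 1)

/-- the spectral gap in the form used by the core -/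
def Gp (ι : Γ →* G) (c : G → Γ) (μ : Measure G) (cq : Γ →* Q) (L : AddSubgroup X)
    (sc : ℕ → Z →+ Z) (O : Set Z) (Zs : (Q → ℝ) → Prop) : Prop :=
  ∀ Ω : Set Z, IsCompact Ω → Ω ⊆ O → ∃ (𝒞 : Set G) (C₀ : ℝ≥0∞), IsCompact 𝒞 ∧ C₀ ≠ ∞ ∧
    ∀ V₁ ∈ 𝓝 (0 : Z), ∃ C₁ : ℝ≥0∞, C₁ ≠ ∞ ∧ ∀ V₂ ∈ 𝓝 (0 : Z), ∀ R z, sc R z ∈ Ω →
      ∃ τ ∈ 𝒞, τ • z - z ∈ V₂ ∧ ∀ (L' : AddSubgroup X) [Fact (St Γ L')] (m : ℕ), m ≠ 0 →
        (∀ b ∈ L, m • b ∈ L') → ∀ (Ψ : G × Yt cq L' → ℝ) (Δ : ℝ≥0∞), Measurable Ψ →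
        (∀ g α, Zs fun q => Ψ (g, (α, q))) → en c μ Ψ ≠ ∞ →
        (∀ κ ∈ 𝒞, κ • z - z ∈ V₁ → en c μ (fun p => Ψ (Pj ι c (rt κ p)) - Ψ p) ≤ Δ) →
        en c μ Ψ ≤ C₀ * Δ + C₁ * en c μ fun p => Ψ (Pj ι c (rt τ p)) - Ψ p

end Gp

/-- the abstract counting core -/
def CoreStmt : Prop :=
  ∀ (G : Type u) (Γ : Type w) (Z : Type u) (X : Type w) (Q : Type) [Group G] [TopologicalSpace G]
    [IsTopologicalGroup G] [LocallyCompactSpace G] [SecondCountableTopology G] [T2Space G]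
    [MeasurableSpace G] [BorelSpace G] [Group Γ] [Countable Γ] [AddCommGroup Z]
    [TopologicalSpace Z] [IsTopologicalAddGroup Z] [T2Space Z] [LocallyCompactSpace Z]
    [AddCommGroup X] [Countable X] [DistribMulAction G Z] [DistribMulAction Γ X] [Group Q]
    [Countable Q] (ι : Γ →* G) (c : G → Γ) (μ : Measure G) [μ.IsHaarMeasure]
    [μ.IsMulRightInvariant] (cq : Γ →* Q) (iJ : X →+ Z) (L L₀ : AddSubgroup X) (sc : ℕ → Z →+ Z)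
    (O : Set Z) (Zs : (Q → ℝ) → Prop), Co ι c → Fr ι iJ L L₀ sc → IsOpen O →
    (∀ (g : G), ∀ z ∈ O, g • z ∈ O) → Gp ι c μ cq L sc O Zs →
    ∀ K : Set Z, IsCompact K → K ⊆ O → ∃ (K₁ : Set Z) (Γ₁ : Finset Γ) (C : ℝ≥0∞),
      IsCompact K₁ ∧ C ≠ ∞ ∧ ∀ m₁ : ℕ, m₁ ≠ 0 → ∃ C' : ℝ≥0∞, C' ≠ ∞ ∧ ∀ m₂ : ℕ, m₂ ≠ 0 →
        ∃ E₁ E₂ : Finset X, (∀ e ∈ E₁, ∃ b ∈ L₀, e = m₁ • b) ∧ (∀ e ∈ E₂, ∃ b ∈ L₀, e = m₂ • b) ∧
        ∀ᶠ R in atTop, ∀ ξ₁ ξ₂ : X → Q → ℝ, (∀ a, Zs (ξ₂ a)) →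
          nn {a | sc R (iJ a) ∈ K₁} ξ₂ ≠ ∞ → nn {a | sc R (iJ a) ∈ K} ξ₂ ≤
            C * (nn {a | sc R (iJ a) ∈ K₁} (ξ₁ - ξ₂) +
              ∑ e ∈ E₁, nn {a | sc R (iJ a) ∈ K₁} fun a q => ξ₁ (a + e) q - ξ₁ a q) +
            C' * (∑ γ ∈ Γ₁, nn {a | sc R (iJ a) ∈ K₁} (fun a q => ξ₂ (γ • a) (cq γ * q) - ξ₂ a q) +
              ∑ e ∈ E₂, nn {a | sc R (iJ a) ∈ K₁} fun a q => ξ₂ (a + e) q - ξ₂ a q)

end Crest.Agent.T24.Na.J62
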