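import Crest.Agent.T24.NaInd_39
import Crest.Agent.T24.NaMx_52

/-!
# Row 24, the `J`-component: words and leaves (helper52)
-/

set_option autoImplicit false
set_option linter.unusedSectionVars false

noncomputable section

namespace Crest.Agent.T24.Na.J52

open Topology Filter MeasureTheory K39
open scoped ENNReal NNReal

universe u v w

scoped instance cjD {R : Type*} [Ring R] [StarRing R] : DistribMulAction (unitary R) (selfAdjoint R) :=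
  { cjAct with
    smul_zero := fun g => Subtype.ext (by rw [coe_cj]; simp)
    smul_add := fun g x y => Subtype.ext (by simp [coe_cj, mul_add, add_mul]) }

/-- `ac` as an action -/
scoped instance acD {F : Type*} [Field F] {d : ℕ} {G₂ Z₂ : Type*} [Group G₂] [AddCommGroup Z₂]
    [DistribMulAction G₂ Z₂] : DistribMulAction (G₂ × GL (Fin d) F) (Z₂ × Mt d F) where
  smul := ac
  one_smul z := by change ac _ _ = _; simp [ac]
  mul_smul g h z := by change ac _ _ = ac _ (ac _ _); simp [ac, mul_smul, mul_assoc]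
  smul_zero g := by change ac _ _ = _; simp [ac]
  smul_add g x y := by change ac _ _ = ac _ _ + ac _ _; simp [ac, mul_add, add_mul]

theorem smul_eq_ac {F : Type*} [Field F] {d : ℕ} {G₂ Z₂ : Type*} [Group G₂] [AddCommGroup Z₂]
    [DistribMulAction G₂ Z₂] (g : G₂ × GL (Fin d) F) (z : Z₂ × Mt d F) : g • z = ac g z := rfl

/-- the arithmetic used in the Poincaré inequality -/
structure Fr {G Γ Z X : Type*} [Group G] [TopologicalSpace G] [Group Γ] [AddCommGroup Z]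
    [TopologicalSpace Z] [AddCommGroup X] [DistribMulAction G Z] [DistribMulAction Γ X]
    (ι : Γ →* G) (iJ : X →+ Z) (L L₀ : AddSubgroup X) (sc : ℕ → Z →+ Z) : Prop where
  cont : Continuous fun p : G × Z => p.1 • p.2
  eqv : ∀ γ a, iJ (γ • a) = ι γ • iJ a
  sc_smul : ∀ R (g : G) z, sc R (g • z) = g • sc R z
  L_smul : ∀ (γ : Γ), ∀ b ∈ L, γ • b ∈ L
  fin : ∀ K : Set Z, IsCompact K → {b | b ∈ L ∧ iJ b ∈ K}.Finite
  cov : ∃ D : Set Z, IsCompact D ∧ ∀ z, ∃ b ∈ L, z - iJ b ∈ D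
  dv : ∀ m : ℕ, m ≠ 0 → ∃ f : Z →+ Z, Continuous f ∧ (∀ z, m • f z = z) ∧ ∀ z, f (m • z) = z
  lnk : ∃ H : AddSubgroup Z, (H : Set Z) ∈ 𝓝 (0 : Z) ∧ (∀ b ∈ L, iJ b ∈ H → b ∈ L₀) ∧
    ∀ D : Set Z, IsCompact D → ∀ W ∈ 𝓝 (0 : Z), ∃ n₀ : ℕ, n₀ ≠ 0 ∧ (∀ z ∈ D, n₀ • z ∈ H) ∧
      ∀ m : ℕ, ∀ᶠ R in atTop, ∀ z ∈ D, sc R ((m * n₀) • z) ∈ W

/-- the frame of a system -/
def FrStmt : Prop := ∀ S : Sys.{u, v, w}, S.Ok →
  Fr S.ιΓ S.iJ S.L S.L₀ fun R => (S.sc R).toAddEquiv.toAddMonoidHom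

/-- Kazhdan's inequality for elements which almost commute with a dominant matrix -/
def GapStmt : Prop :=
  ∀ (F : Type u) [Field F] [TopologicalSpace F] [IsTopologicalDivisionRing F] [T2Space F]
    [SecondCountableTopology F] (O : Subring F) (π : F) (d : ℕ), Lf O π → 3 ≤ d →
    ∀ K : Set (Mt d F), IsCompact K → (∀ y ∈ K, Dom O π y) →
    ∃ (𝒞 : Set (GL (Fin d) F)) (C₀ : ℝ≥0), IsCompact 𝒞 ∧ ∀ V₁ ∈ 𝓝 (0 : Mt d F), ∃ C₁ : ℝ≥0,
      ∀ V₂ ∈ 𝓝 (0 : Mt d F), ∀ y ∈ K, ∃ τ ∈ 𝒞,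
        (τ : Mt d F) * y * ((τ⁻¹ : GL (Fin d) F) : Mt d F) - y ∈ V₂ ∧
        ∀ (V : Type v) [NormedAddCommGroup V] [InnerProductSpace ℝ V] [CompleteSpace V]
          (ρ : GL (Fin d) F →* (V ≃ₗᵢ[ℝ] V)) (x : V) (δ : ℝ),
          (∀ κ ∈ 𝒞, (κ : Mt d F) * y * ((κ⁻¹ : GL (Fin d) F) : Mt d F) - y ∈ V₁ → ‖ρ κ x - x‖ ≤ δ) →
          ∀ s : Matrix.SpecialLinearGroup (Fin d) F,
            ‖ρ (Matrix.SpecialLinearGroup.toGL s) x - x‖ ≤ C₀ * δ + C₁ * ‖ρ τ x - x‖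

/-- a vector with zero sums along `r` which is almost fixed by `SL_d` is small -/
def SgStmt : Prop :=
  ∀ (F : Type u) [Field F] [TopologicalSpace F] [IsTopologicalRing F] [LocallyCompactSpace F]
    [SecondCountableTopology F] [T2Space F] (d : ℕ) (G₂ : Type v) [Group G₂] [TopologicalSpace G₂]
    [IsTopologicalGroup G₂] [LocallyCompactSpace G₂] [SecondCountableTopology G₂] [T2Space G₂]
    [MeasurableSpace (G₂ × GL (Fin d) F)] [BorelSpace (G₂ × GL (Fin d) F)]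
    (Γ : Type w) [Group Γ] [Countable Γ] (Y : Type w) [Countable Y] [MulAction Γ Y]
    [MeasurableSpace Y] [DiscreteMeasurableSpace Y]
    (ι : Γ →* G₂ × GL (Fin d) F) (c : G₂ × GL (Fin d) F → Γ) (h : Co ι c)
    (μ : Measure (G₂ × GL (Fin d) F)) [μ.IsHaarMeasure] [μ.IsMulRightInvariant]
    [SMulInvariantMeasure Γ Y (wm fun _ : Y => 1)]
    (M : Type) [Fintype M] [Nonempty M] (r : M → Y ≃ Y) (Ξ : (G₂ × GL (Fin d) F) × Y → ℝ)
    (x : Lp ℝ 2 (mX c μ (wm fun _ : Y => 1))) (η : ℝ),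
    x =ᵐ[mX c μ (wm fun _ : Y => 1)] Ξ → (∀ g y, ∑ f, Ξ (g, r f y) = 0) →
    (∀ f y, ∀ W ∈ 𝓝 (1 : G₂), ∃ γ, Near ι W γ ∧ γ • r f y = y) →
    (∀ s, ‖h.kp μ (wm fun _ : Y => 1) (jS G₂ s) x - x‖ ≤ η) → ‖x‖ ≤ η

end Crest.Agent.T24.Na.J52
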