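import Crest.Agent.T24.NaJc_62
import Crest.Agent.T24.NaJcG_32
import Crest.Agent.T24.NaJcFr_32
import Crest.Agent.T24.NaJcGap_5
import Crest.Agent.T24.NaJcSg_53

/-!
# Row 24, the `J`-component (helper62): the statement `JcStmt`
-/

set_option autoImplicit false

namespace Crest.Agent.T24.Na

universe u v w

theorem jcStmt62 : JcStmt.{u, v, w} :=
  J62.jc_of J62.coreStmt J52.frStmt J52.gapStmt J52.sgStmt

end Crest.Agent.T24.Na
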