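import Crest.Agent.T24.NaJcDef_52
import Crest.Agent.T24.NaEsc_84

/-!
# Row 24, the `J`-component: Kazhdan's inequality near a dominant matrix.
-/

set_option autoImplicit false
set_option linter.unusedSectionVars false

noncomputable section

namespace Crest.Agent.T24.Na.J52

open Topology Filter Set P84 E84 Matrix.SpecialLinearGroup
open scoped NNReal

universe u v

namespace G53

variable {F : Type u} [Field F] [TopologicalSpace F] [IsTopologicalDivisionRing F] [T2Space F]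
  {O : Subring F} {π : F} {d : ℕ}

/-- bounded elements -/
def Bd (d : ℕ) (O : Subring F) (π : F) : Set (GL (Fin d) F) :=
  {g | (g : Mt d F) ∈ big d O π d 0 ∧ ((g⁻¹ : GL (Fin d) F) : Mt d F) ∈ big d O π d 0}

theorem cpt_Bd (h : Lf O π) : IsCompact (Bd d O π) :=
  Units.isClosedEmbedding_embedProduct.isCompact_preimage ((big_compact h d 0).prod
    (MulOpposite.opHomeomorph.symm.isCompact_preimage.2 (big_compact h d 0)))

theorem up (h : Lf O π) {a : ℕ} (ha : a ≤ d) {y : Mt d F} (hy : π ^ a • y ∈ cell d O π 0) :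
    y ∈ big d O π d 0 := by
  obtain ⟨c, hc⟩ := Nat.exists_eq_add_of_le' ha
  have := o_smul_mem (O.pow_mem h.pi_mem c) hy
  rwa [smul_smul, ← pow_add, ← hc] at this

theorem up' (h : Lf O π) {m : ℕ} {y : Mt d F} (hy : y - 1 ∈ cell d O π m) : y ∈ big d O π d 0 :=
  up h (Nat.zero_le d) (by simpa using add_mem (cell_anti h.pi_mem (Nat.zero_le m) hy) one_mem_cell)

theorem key (h g : GL (Fin d) F) {l : F} (hl : l ≠ 0) (y : Mt d F) :
    cj (h⁻¹ * g * h) y - y = cj h⁻¹ (l⁻¹ • (cj g (l • cj h y) - l • cj h y)) := by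
  rw [cj_smul g, ← smul_sub, inv_smul_smul₀ hl, cj_mul, cj_mul, cj_apply h⁻¹ (_ - _), mul_sub,
    sub_mul, ← cj_apply, ← cj_apply, ← cj_mul h⁻¹ h, inv_mul_cancel, cj_one]

theorem lev (h : Lf O π) (T : Finset (Fin d × GL (Fin d) F × F)) {V : Set (Mt d F)}
    (hV : V ∈ 𝓝 0) : ∃ m, ∀ t ∈ T, ∀ x ∈ cell d O π m, cj t.2.1⁻¹ (t.2.2⁻¹ • x) ∈ V := by
  obtain ⟨m, hm⟩ := cell_basis h ((T.eventually_all (l := 𝓝 (0 : Mt d F))
    (p := fun t x => cj t.2.1⁻¹ (t.2.2⁻¹ • x) ∈ V)).2 fun t _ =>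
      ((cj _).continuous.comp (continuous_const_smul _)).continuousAt.preimage_mem_nhds
        (by simpa [cj_apply] using hV))
  exact ⟨m, fun t ht x hx => hm hx t ht⟩

end G53

open G53 in
/-- JC-GAP -/
theorem gapStmt53 : GapStmt.{u, v} := by
  intro F _ _ _ _ _ O π d hL hd K hK hdom
  obtain ⟨t, ht⟩ := dat hL
  have hp : π⁻¹ * π = 1 := inv_mul_cancel₀ hL.loc.ne
  obtain ⟨T, hT⟩ := hK.elim_finite_subcover
    (fun t : Fin d × GL (Fin d) F × F =>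
      {y | t.2.2 • cj t.2.1 y - Matrix.single t.1 t.1 1 ∈ cell d O π 1})
    (fun t => (cell_open hL 1).preimage (by fun_prop)) fun y hy => by
      obtain ⟨i, h, l, e⟩ := hdom y hy
      exact mem_iUnion.2 ⟨(i, h, l), e⟩
  refine ⟨⋃ q ∈ T, (fun g => q.2.1⁻¹ * g * q.2.1) '' Bd d O π, 32 * d,
    T.isCompact_biUnion fun q _ => (cpt_Bd hL).image (by fun_prop), fun V₁ hV₁ => ?_⟩
  obtain ⟨m, hm⟩ := lev hL T hV₁
  refine ⟨64 * d * (m + 1), fun V₂ hV₂ y hy => ?_⟩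
  obtain ⟨n, hn⟩ := lev hL T hV₂
  obtain ⟨⟨i, h, l⟩, hq, hz⟩ := mem_iUnion₂.1 (hT hy)
  have hl : l ≠ 0 := ne_zero_of_dom hL hz
  have hz0 : l • cj h y ∈ cell d O π 0 := by
    simpa using add_mem (cell_anti hL.pi_mem zero_le_one hz) (single_mem_cell i i O.one_mem)
  obtain ⟨h₁, τ, k1, k2, k3, k4, k5⟩ := Vm.exists_tau hL.pi_mem hp i n (z := l • cj h y) hz
  rw [Fintype.card_fin] at k2 k4
  let f : Matrix.SpecialLinearGroup (Fin d) F →* GL (Fin d) F :=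
    (MulAut.conj h⁻¹).toMonoidHom.comp toGL
  have hf : ∀ s, f s = h⁻¹ * toGL s * h := fun s => by simp [f]
  have hC : ∀ s : Matrix.SpecialLinearGroup (Fin d) F, toGL s ∈ Bd d O π →
      f s ∈ ⋃ q ∈ T, (fun g => q.2.1⁻¹ * g * q.2.1) '' Bd d O π := fun s hs =>
    mem_iUnion₂.2 ⟨_, hq, _, hs, (hf s).symm⟩
  refine ⟨f τ, hC τ ⟨up hL (by omega) k3, up hL le_rfl k4⟩, ?_, fun V _ _ _ ρ x δ hδ s => ?_⟩
  · rw [← cj_apply, hf, key h _ hl]
    exact hn _ hq _ k5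
  have hX : ∀ a b, a ≠ b → ∀ o ∈ O,
      ‖ρ (f (h₁ * Kaz.X a b (π ^ m * o) * h₁⁻¹)) x - x‖ ≤ δ := fun a b hab o ho => by
    have e : (h₁ * Kaz.X a b (π ^ m * o) * h₁⁻¹)⁻¹ = h₁ * Kaz.X a b (π ^ m * -o) * h₁⁻¹ := by
      rw [mul_neg, ← Kaz.X_neg]; group
    have a1 := Vm.conj_X k1 hab m ho
    have a2 := e.symm ▸ Vm.conj_X k1 hab m (O.neg_mem ho)
    refine hδ _ (hC _ ⟨up' hL a1, up' hL a2⟩) ?_
    rw [← cj_apply, hf, key h _ hl]
    exact hm _ hq _ (Vm.lr_sub hL.pi_mem a1 a2 hz0)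
  obtain ⟨s', e⟩ := K39.exists_conj h⁻¹ s
  have := Vm.kt ht hL.pi_mem hp (by simp) (by simpa using hd) ρ
    ⟨π ^ (d - 1), O.pow_mem hL.pi_mem _, by rw [← pow_succ']; congr 1; omega⟩
    (k2.map f (σ := 1) (by simp)) x x (m := m) (δ := δ)
    (fun j hj o ho => ⟨hX i j hj.symm o ho, hX j i hj o ho⟩) (h₁⁻¹ * s' * h₁)
  have e2 : (f.comp (MulAut.conj h₁).toMonoidHom) (h₁⁻¹ * s' * h₁) = toGL s := by
    rw [eq_mul_inv_iff_mul_eq.2 e]
    simp [hf, mul_assoc]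
  rw [e2, mul_one, sub_self, norm_zero, Fintype.card_fin] at this
  refine this.trans_eq ?_
  push_cast
  ring

end Crest.Agent.T24.Na.J52
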