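import Crest.Agent.T24.NaJcB_52
import Crest.Agent.T24.NaOneA_37
import Crest.Agent.T24.NaJcFr_32
import Crest.Agent.T24.NaJcGap_53
import Crest.Agent.T24.NaJcSg_53

/-!
# Row 24, the `J`-component: `JcStmt` (helper52)
-/

set_option autoImplicit false

noncomputable section

namespace Crest.Agent.T24.Na

open Topology Filter MeasureTheory K39 J52 Set
open scoped ENNReal NNReal

universe u v w

theorem J52.n2_eq (S : Sys.{u, v, w}) (R : ℕ) (K : Set S.Z) (ξ : S.X → S.Q → ℝ) : S.n2 R K ξ =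
    N2 (fun a => (S.sc R).toAddEquiv.toAddMonoidHom (S.iJ a)) K fun a q => J52.sq (ξ a q) := rfl

theorem J52.gapZ (hG : GapStmt.{u, v}) {F : Type u} [Field F] [TopologicalSpace F]
    [IsTopologicalDivisionRing F] [T2Space F] [SecondCountableTopology F] {O : Subring F} {π : F}
    {d : ℕ} (h : Lf O π) (hd : 3 ≤ d) (G₂ : Type*) {Z₂ : Type*} [Group G₂] [TopologicalSpace G₂]
    [AddCommGroup Z₂] [TopologicalSpace Z₂] [DistribMulAction G₂ Z₂] {K : Set (Z₂ × Mt d F)}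
    (hK : IsCompact K) (hK' : ∀ z ∈ K, Dom O π z.2) :
    ∃ (𝒞 : Set (G₂ × GL (Fin d) F)) (C₀ : ℝ≥0), IsCompact 𝒞 ∧ ∀ V₁ ∈ 𝓝 (0 : Z₂ × Mt d F), ∃ C₁ : ℝ≥0,
      ∀ V₂ ∈ 𝓝 (0 : Z₂ × Mt d F), ∀ z : Z₂ × Mt d F, (∃ z' ∈ K, z'.2 = z.2) → ∃ τ ∈ 𝒞, τ • z - z ∈ V₂ ∧
        ∀ (V : Type v) [NormedAddCommGroup V] [InnerProductSpace ℝ V] [CompleteSpace V]
          (ρ : G₂ × GL (Fin d) F →* (V ≃ₗᵢ[ℝ] V)) (x : V) (δ : ℝ),
          (∀ κ, κ ∈ 𝒞 ∧ κ • z - z ∈ V₁ → ‖ρ κ x - x‖ ≤ δ) →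
          ∀ s, ‖ρ (jS G₂ s) x - x‖ ≤ C₀ * δ + C₁ * ‖ρ τ x - x‖ := by
  obtain ⟨𝒞, C₀, c𝒞, h1⟩ := hG F O π d h hd (Prod.snd '' K) (hK.image continuous_snd)
    (Set.forall_mem_image.2 hK')
  have hi : ∀ V ∈ 𝓝 (0 : Z₂ × Mt d F), {y : Mt d F | ((0, y) : Z₂ × Mt d F) ∈ V} ∈ 𝓝 0 := fun V hV =>
    (continuous_const.prodMk continuous_id).tendsto' 0 0 rfl hV
  have he : ∀ (κ : GL (Fin d) F) (z : Z₂ × Mt d F), ((1, κ) : G₂ × GL (Fin d) F) • z - z =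
      (0, (κ : Mt d F) * z.2 * ((κ⁻¹ : GL (Fin d) F) : Mt d F) - z.2) := fun κ z => by
    rw [smul_eq_ac]; simp [ac, Prod.ext_iff]
  refine ⟨(fun κ => (1, κ)) '' 𝒞, C₀, c𝒞.image (continuous_const.prodMk continuous_id),
    fun V₁ hV₁ => ?_⟩
  obtain ⟨C₁, h2⟩ := h1 _ (hi _ hV₁)
  refine ⟨C₁, fun V₂ hV₂ z hz => ?_⟩
  obtain ⟨τ, hτ, h3, h4⟩ := h2 _ (hi _ hV₂) z.2 hz
  exact ⟨(1, τ), ⟨τ, hτ, rfl⟩, by rw [he]; exact h3, fun V _ _ _ ρ x δ hδ s =>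
    h4 V (ρ.comp (MonoidHom.inr _ _)) x δ
      (fun κ hκ hκ' => hδ (1, κ) ⟨⟨κ, hκ, rfl⟩, by rw [he]; exact hκ'⟩) s⟩

theorem J52.ind (S : Sys.{u, v, w}) (h : S.Ok) (T : St S.Γ S.X) {n : ℕ} (hn : n ≠ 0)
    (hT : T.L = nL S.L n) (f : S.M) (α : S.X ⧸ T.L) (q : S.Q) (W : Set S.G₂) (hW : W ∈ 𝓝 1) :
    ∃ γ : S.Γ, Near S.ιΓ W γ ∧ T.mp γ α = α ∧ S.c γ * (q * f) = q := by
  obtain ⟨a, rfl⟩ := QuotientAddGroup.mk_surjective α
  obtain ⟨γ, g1, g2, b, hb, g3⟩ := h.dens _ (h.nrm.conj_mem _ (inv_mem f.2) q) a n hn W hW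
  refine ⟨γ, g1, ?_, by rw [g2]; group⟩
  change ((((γ : S.U₀) : unitary S.B) • a : S.X) : S.X ⧸ T.L) = a
  rw [g3]; exact QuotientAddGroup.mk_add_of_mem _ (hT ▸ ⟨b, hb, rfl⟩)

theorem J52.jc_of (hF : FrStmt.{u, v, w}) (hG : GapStmt.{u, max (max u v) w}) (hS : SgStmt.{u, v, w}) :
    JcStmt.{u, v, w} := fun S h K hK hKD => by
  letI : MeasurableSpace S.G := borel _
  haveI : BorelSpace S.G := ⟨rfl⟩
  haveI : SecondCountableTopology (unitary S.A) :=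
    Topology.IsInducing.subtypeVal.secondCountableTopology
  haveI : SecondCountableTopology S.G₂ := Topology.IsInducing.subtypeVal.secondCountableTopology
  haveI : LocallyCompactSpace (Mt S.d S.F) :=
    inferInstanceAs (LocallyCompactSpace (Fin S.d → Fin S.d → S.F))
  obtain ⟨hc, ⟨co, hco⟩, hr⟩ := exists_co S.ιΓ h.latt.disc h.latt.coc
  have := hr Measure.haar
  have hU : IsOpen {z : S.Z | Dom S.O S.π z.2} := by
    refine IsOpen.preimage continuous_snd (t := {y | Dom S.O S.π y}) ?_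
    simp only [Dom, Set.ofPred_exists]
    exact isOpen_iUnion fun i => isOpen_iUnion fun g => isOpen_iUnion fun l =>
      (One37.isOpen_cell h.lf 1).preimage (by fun_prop)
  simp only [n2_eq, Pi.sub_apply]
  letI : Fintype S.M := Fintype.ofFinite _
  refine jp (hF S h) (S.c.comp S.Γ.subtype) S.M hco Measure.haar hU (fun K' cK' hK' => ?_) hK hKD
  refine (gapZ hG h.lf h.hd S.G₂ cK' hK').imp fun 𝒞 => Exists.imp fun C₀ => And.imp_right fun h1 V₁ hV₁ =>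
    (h1 V₁ hV₁).imp fun C₁ h2 V₂ hV₂ R z hz => (h2 V₂ hV₂ z ⟨S.sc R z, hz, h.sc_snd R z⟩).imp
      fun τ => And.imp_right <| And.imp_right fun h4 n hn x Ξ hx hΞ δ hδ => ?_
  exact hS S.F S.d S.G₂ S.Γ (Yt ((hF S h).st n) (S.c.comp S.Γ.subtype)) S.ιΓ co hco Measure.haar S.M
    (fun f => (Equiv.refl _).prodCongr (Equiv.mulRight (f : S.Q))) Ξ x _ hx
    (fun g y => (finsum_eq_sum_of_fintype _).symm.trans (hΞ g y.1 y.2))
    (fun f y W hW => (ind S h ((hF S h).st n) hn rfl f y.1 y.2 W hW).imp fun γ hγ =>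
      ⟨hγ.1, Prod.ext hγ.2.1 hγ.2.2⟩) (h4 _ _ x δ hδ)

/-- (4) -/
theorem jcStmt : JcStmt.{u, v, w} := jc_of frStmt gapStmt53 sgStmt

end Crest.Agent.T24.Na
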