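import Crest.Agent.T24.NstFd_29

/-!
# Row 24, NA + TW: the Koopman representation on `L²(Γ \ (G × Y))`.
-/

set_option autoImplicit false
set_option linter.unusedSectionVars false

noncomputable section

namespace Crest.Agent.T24.Na.K39

open Topology Filter MeasureTheory Set
open scoped ENNReal Pointwise

universe u v w

/-- a measurable equivariant map to the lattice -/
structure Co {G Γ : Type*} [Group G] [TopologicalSpace G] [MeasurableSpace G] [Group Γ]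
    (ι : Γ →* G) (c : G → Γ) : Prop where
  meas : ∀ γ, MeasurableSet {x | c x = γ}
  equiv : ∀ γ x, c (ι γ * x) = γ * c x
  cpt : ∃ C : Set G, IsCompact C ∧ ∀ x, (ι (c x))⁻¹ * x ∈ C
  fin : ∀ K : Set G, IsCompact K → {γ | ι γ ∈ K}.Finite

/-- cocycle, countability and unimodularity for an abstract cocompact lattice -/
theorem exists_co {G : Type u} {Γ : Type*} [Group G] [TopologicalSpace G] [IsTopologicalGroup G]
    [LocallyCompactSpace G] [SecondCountableTopology G] [T2Space G] [MeasurableSpace G]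
    [BorelSpace G] [Group Γ] (ι : Γ →* G) (hd : ∃ U ∈ 𝓝 (1 : G), ∀ γ, ι γ ∈ U → γ = 1)
    (hc : ∃ C : Set G, IsCompact C ∧ ∀ g, ∃ γ, (ι γ)⁻¹ * g ∈ C) :
    Countable Γ ∧ (∃ c, Co ι c) ∧ ∀ (μ : Measure G) [μ.IsHaarMeasure], μ.IsMulRightInvariant := by
  obtain ⟨U, hU, hd⟩ := hd
  obtain ⟨C, hC, hc⟩ := hc
  have hinj : Function.Injective ι := (injective_iff_map_eq_one ι).2 fun γ h =>
    hd γ (h ▸ mem_of_mem_nhds hU)
  let e := MonoidHom.ofInjective hinj
  have he : ∀ γ : ι.range, ι (e.symm γ) = γ := fun γ => MonoidHom.apply_ofInjective_symm hinj γ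
  obtain ⟨h1, h2, ⟨c, h3⟩, h4⟩ := Nst.fdStmt G ι.range ⟨⟨U, hU, by
      rintro _ ⟨γ, rfl⟩ h
      rw [hd γ h, map_one]⟩, C, hC, fun x => by
      obtain ⟨γ, h⟩ := hc x
      exact ⟨_, ⟨γ, rfl⟩, h⟩⟩
  refine ⟨e.injective.countable, ⟨fun x => e.symm (c x), fun γ => ?_, fun γ x => ?_, ?_,
    fun K hK => ?_⟩, h4⟩
  · simpa only [MulEquiv.symm_apply_eq] using h3.meas (e γ)
  · have := h3.equiv (e γ) x
    rw [show ι γ = ((e γ : ι.range) : G) from rfl, this, map_mul, MulEquiv.symm_apply_apply]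
  · simpa only [he] using h3.cpt
  · exact (h2 K hK).preimage (f := e) e.injective.injOn

section Defs
variable {G Γ Y : Type*} [Group G] [Group Γ] [MulAction Γ Y]

/-- the fundamental domain -/
def Fd (c : G → Γ) : Set G := {x | c x = 1}

/-- the action of the lattice -/
def act (ι : Γ →* G) (γ : Γ) (p : G × Y) : G × Y := (ι γ * p.1, γ • p.2)

/-- right translation -/
def rt (g : G) (p : G × Y) : G × Y := (p.1 * g, p.2)

/-- the projection to the fundamental domain -/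
def Pj (ι : Γ →* G) (c : G → Γ) (p : G × Y) : G × Y := act ι (c p.1)⁻¹ p

/-- invariant functions -/
def Inv (ι : Γ →* G) {β : Sort*} (Ψ : G × Y → β) : Prop := ∀ γ p, Ψ (act ι γ p) = Ψ p

/-- the measure on the quotient -/
def mX [MeasurableSpace G] [MeasurableSpace Y] (c : G → Γ) (μ : Measure G) (ω : Measure Y) :
    Measure (G × Y) := (μ.restrict (Fd c)).prod ω

variable {ι : Γ →* G} {c : G → Γ}

theorem act_mul (γ δ : Γ) (p : G × Y) : act ι (γ * δ) p = act ι γ (act ι δ p) := by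
  simp [act, mul_assoc, mul_smul]

@[simp] theorem act_one (p : G × Y) : act ι 1 p = p := by simp [act]

theorem act_rt (γ : Γ) (g : G) (p : G × Y) : act ι γ (rt g p) = rt g (act ι γ p) := by
  simp [act, rt, mul_assoc]

theorem rt_mul (g h : G) (p : G × Y) : rt (g * h) p = rt h (rt g p) := by simp [rt, mul_assoc]

@[simp] theorem rt_one (p : G × Y) : rt (1 : G) p = p := by simp [rt]

theorem Pj_of_mem {p : G × Y} (h : p.1 ∈ Fd c) : Pj ι c p = p := by
  rw [Pj, show c p.1 = 1 from h, inv_one, act_one]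

theorem Inv.Pj {β : Sort*} {Ψ : G × Y → β} (h : Inv ι Ψ) (p : G × Y) : Ψ (Pj ι c p) = Ψ p := h _ _

theorem Inv.rt {β : Sort*} {Ψ : G × Y → β} (h : Inv ι Ψ) (g : G) : Inv ι fun p => Ψ (rt g p) :=
  fun γ p => by simp only [← act_rt, h γ]

end Defs

section Koop
variable {G Γ Y : Type*} [Group G] [TopologicalSpace G] [MeasurableSpace G] [MeasurableMul G]
  [Group Γ] [Countable Γ] [MulAction Γ Y] [MeasurableSpace Y] [MeasurableConstSMul Γ Y]
  {ι : Γ →* G} {c : G → Γ}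

theorem meas_act (γ : Γ) : Measurable (act ι γ : G × Y → G × Y) :=
  (measurable_const_mul _).prodMap (measurable_const_smul γ)

theorem meas_rt (g : G) : Measurable (rt g : G × Y → G × Y) :=
  (measurable_mul_const _).prodMap measurable_id

namespace Co
variable (h : Co ι c)
include h

theorem Pj_act (γ : Γ) (p : G × Y) : Pj ι c (act ι γ p) = Pj ι c p := by
  rw [Pj, Pj, ← act_mul, show (act ι γ p).1 = ι γ * p.1 from rfl, h.equiv, mul_inv_rev,
    inv_mul_cancel_right]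

theorem Pj_mem (p : G × Y) : (Pj ι c p).1 ∈ Fd c := by
  change c (ι (c p.1)⁻¹ * p.1) = 1
  rw [h.equiv, inv_mul_cancel]

theorem Pj_rt_Pj (g : G) (p : G × Y) : Pj ι c (rt g (Pj ι c p)) = Pj ι c (rt g p) := by
  rw [Pj.eq_1 ι c p, ← act_rt, h.Pj_act]

theorem inv_Pj {β : Sort*} (f : G × Y → β) : Inv ι fun p => f (Pj ι c p) :=
  fun γ p => by simp only [h.Pj_act]

theorem mFd : MeasurableSet (Fd c) := h.meas 1

theorem meas_c {β δ : Type*} [MeasurableSpace β] [MeasurableSpace δ] {f : Γ → β → δ}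
    (hf : ∀ γ, Measurable (f γ)) {x : β → G} (hx : Measurable x) :
    Measurable fun b => f (c (x b)) b := fun t ht => by
  have : (fun b => f (c (x b)) b) ⁻¹' t = ⋃ γ, x ⁻¹' {x | c x = γ} ∩ f γ ⁻¹' t := by
    ext b; simp
  rw [this]
  exact .iUnion fun γ => (hx (h.meas γ)).inter (hf γ ht)

theorem meas_Pj : Measurable (Pj ι c : G × Y → G × Y) :=
  h.meas_c (f := fun γ => act ι γ⁻¹) (fun _ => meas_act _) measurable_fst

theorem Fd_cpt : ∃ C, IsCompact C ∧ Fd c ⊆ C := by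
  obtain ⟨C, hC, h1⟩ := h.cpt
  exact ⟨C, hC, fun x hx => by simpa [show c x = 1 from hx] using h1 x⟩

end Co

variable (μ : Measure G) (ω : Measure Y) [SFinite μ] [SFinite ω] [μ.IsMulLeftInvariant]
  [SMulInvariantMeasure Γ Y ω]

theorem mX_eq : mX c μ ω = (μ.prod ω).restrict (Fd c ×ˢ univ) :=
  Measure.restrict_prod_eq_prod_univ _

theorem mp_act (γ : Γ) : MeasurePreserving (act ι γ : G × Y → G × Y) (μ.prod ω) (μ.prod ω) :=
  (measurePreserving_mul_left μ _).prod (measurePreserving_smul γ ω)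

theorem mp_rt [μ.IsMulRightInvariant] (g : G) :
    MeasurePreserving (rt g : G × Y → G × Y) (μ.prod ω) (μ.prod ω) :=
  (measurePreserving_mul_right μ _).prod (MeasurePreserving.id ω)

theorem emb_act (γ : Γ) : MeasurableEmbedding (act ι γ : G × Y → G × Y) :=
  (measurableEmbedding_mulLeft _).prodMap (measurableEmbedding_const_smul γ)

theorem emb_rt (g : G) : MeasurableEmbedding (rt g : G × Y → G × Y) :=
  (measurableEmbedding_mulRight _).prodMap .id

namespace Co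
variable (h : Co ι c)
include h

theorem ae_mem : ∀ᵐ p ∂mX c μ ω, p.1 ∈ Fd c := by
  rw [mX_eq]
  filter_upwards [ae_restrict_mem (h.mFd.prod .univ)] with p hp using hp.1

/-- unfolding -/
theorem unf (f : G × Y → ℝ≥0∞) :
    ∫⁻ p, f p ∂μ.prod ω = ∑' γ, ∫⁻ p, f (act ι γ p) ∂mX c μ ω := by
  have hd : ∀ γ, MeasurableSet ({x | c x = γ} ×ˢ (univ : Set Y)) := fun γ => (h.meas γ).prod .univ
  have e : (⋃ γ, {x | c x = γ} ×ˢ (univ : Set Y)) = univ := by ext p; simp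
  rw [← setLIntegral_univ, ← e, lintegral_iUnion hd fun a b hab => Set.disjoint_left.2
    fun p h1 h2 => hab (h1.1.symm.trans h2.1)]
  refine tsum_congr fun γ => ?_
  rw [mX_eq, ← (mp_act (ι := ι) μ ω γ).setLIntegral_comp_preimage_emb (emb_act γ)]
  congr 2
  ext p
  simp [act, Fd, h.equiv]

theorem ae_of_mX {q : G × Y → Prop} (hq : Inv ι q) (ha : ∀ᵐ p ∂mX c μ ω, q p) :
    ∀ᵐ p ∂μ.prod ω, q p := by
  have e : {p | ¬ q p} = ⋃ γ, act ι γ '' ({p | ¬ q p} ∩ Fd c ×ˢ univ) := by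
    ext p
    simp only [mem_iUnion]
    refine ⟨fun hp => ⟨c p.1, Pj ι c p, ⟨by rwa [mem_ofPred_eq, hq.Pj], h.Pj_mem p, trivial⟩, by
      rw [Pj, ← act_mul, mul_inv_cancel, act_one]⟩, ?_⟩
    rintro ⟨γ, p, hp, rfl⟩
    rw [mem_ofPred_eq, hq]; exact hp.1
  rw [ae_iff, mX_eq, Measure.restrict_apply' (h.mFd.prod .univ)] at ha
  rw [ae_iff, e, measure_iUnion_null_iff]
  intro γ
  rw [← (mp_act (ι := ι) μ ω γ).measure_preimage_emb (emb_act γ),
    preimage_image_eq _ (emb_act γ).injective, ha]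

variable [μ.IsMulRightInvariant]

theorem shift {f : G × Y → ℝ≥0∞} (hf : Inv ι f) (g : G) :
    ∫⁻ p, f (rt g p) ∂mX c μ ω = ∫⁻ p, f p ∂mX c μ ω := by
  have hd : MeasurableSet (Fd c ×ˢ (univ : Set Y)) := h.mFd.prod .univ
  conv_rhs => rw [mX_eq, ← lintegral_indicator hd,
    ← (mp_rt μ ω g).lintegral_comp_emb (emb_rt g), h.unf μ ω]
  have e : ∀ γ (p : G × Y), (Fd c ×ˢ (univ : Set Y)).indicator f (rt g (act ι γ p)) =
      (rt g ⁻¹' ({x | c x = γ⁻¹} ×ˢ univ)).indicator (fun p => f (rt g p)) p := fun γ p => by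
    have : rt g (act ι γ p) ∈ Fd c ×ˢ (univ : Set Y) ↔
        p ∈ rt g ⁻¹' ({x | c x = γ⁻¹} ×ˢ (univ : Set Y)) := by
      simp [rt, act, Fd, mul_assoc, h.equiv, mul_eq_one_iff_inv_eq, eq_comm]
    classical
    simp only [indicator_apply, this]
    rw [← act_rt, hf γ]
  have hm : ∀ γ : Γ, MeasurableSet (rt g ⁻¹' ({x | c x = γ⁻¹} ×ˢ (univ : Set Y))) := fun γ =>
    meas_rt g ((h.meas _).prod .univ)
  simp only [e, lintegral_indicator (hm _)]
  rw [← lintegral_iUnion hm fun a b hab => Set.disjoint_left.2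
    fun p h1 h2 => hab (inv_injective (h1.1.symm.trans h2.1)),
    eq_univ_of_forall fun p => mem_iUnion.2 ⟨(c (rt g p).1)⁻¹, (by simp [rt] :
      p ∈ rt g ⁻¹' ({x | c x = (c (rt g p).1)⁻¹⁻¹} ×ˢ (univ : Set Y)))⟩, setLIntegral_univ]

theorem mp (g : G) :
    MeasurePreserving (fun p => Pj ι c (rt g p)) (mX c μ ω) (mX c μ ω) := by
  have hm : Measurable fun p : G × Y => Pj ι c (rt g p) := h.meas_Pj.comp (meas_rt g)
  refine ⟨hm, Measure.ext fun A hA => ?_⟩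
  rw [Measure.map_apply hm hA, ← lintegral_indicator_one (hm hA), ← lintegral_indicator_one hA]
  refine Eq.trans rfl ((h.shift μ ω (h.inv_Pj (A.indicator 1)) g).trans (lintegral_congr_ae ?_))
  filter_upwards [h.ae_mem μ ω] with p hp
  rw [Pj_of_mem hp]

/-- right translation -/
def tr (g : G) : Lp ℝ 2 (mX c μ ω) →ₗᵢ[ℝ] Lp ℝ 2 (mX c μ ω) :=
  Lp.compMeasurePreservingₗᵢ ℝ _ (h.mp μ ω g)

theorem tr_coe (g : G) (ξ : Lp ℝ 2 (mX c μ ω)) :
    h.tr μ ω g ξ =ᵐ[mX c μ ω] fun p => ξ (Pj ι c (rt g p)) :=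
  Lp.coeFn_compMeasurePreserving ξ (h.mp μ ω g)

theorem tr_one (ξ : Lp ℝ 2 (mX c μ ω)) : h.tr μ ω 1 ξ = ξ := by
  refine Lp.ext ?_
  filter_upwards [h.tr_coe μ ω 1 ξ, h.ae_mem μ ω] with p h1 h2
  rw [h1, rt_one, Pj_of_mem h2]

theorem tr_mul (g k : G) (ξ : Lp ℝ 2 (mX c μ ω)) :
    h.tr μ ω (g * k) ξ = h.tr μ ω g (h.tr μ ω k ξ) := by
  refine Lp.ext ?_
  filter_upwards [h.tr_coe μ ω (g * k) ξ, h.tr_coe μ ω g (h.tr μ ω k ξ),
    (h.mp μ ω g).quasiMeasurePreserving.ae (h.tr_coe μ ω k ξ)] with p h1 h2 h3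
  rw [h1, h2, h3, h.Pj_rt_Pj, rt_mul]

/-- **the Koopman representation** -/
def kp : G →* (Lp ℝ 2 (mX c μ ω) ≃ₗᵢ[ℝ] Lp ℝ 2 (mX c μ ω)) where
  toFun g := LinearIsometryEquiv.ofSurjective (h.tr μ ω g) fun ξ =>
    ⟨h.tr μ ω g⁻¹ ξ, by rw [← tr_mul, mul_inv_cancel, tr_one]⟩
  map_one' := LinearIsometryEquiv.ext (h.tr_one μ ω)
  map_mul' g k := LinearIsometryEquiv.ext (h.tr_mul μ ω g k)

theorem kp_coe (g : G) (ξ : Lp ℝ 2 (mX c μ ω)) :
    h.kp μ ω g ξ =ᵐ[mX c μ ω] fun p => ξ (Pj ι c (rt g p)) := h.tr_coe μ ω g ξ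

theorem kp_coe_of (g : G) {ξ : Lp ℝ 2 (mX c μ ω)} {Ψ : G × Y → ℝ} (e : ξ =ᵐ[mX c μ ω] Ψ) :
    h.kp μ ω g ξ =ᵐ[mX c μ ω] fun p => Ψ (Pj ι c (rt g p)) :=
  (h.kp_coe μ ω g ξ).trans ((h.mp μ ω g).quasiMeasurePreserving.ae_eq_comp e)

/-- on invariant functions the representation is right translation -/
theorem kp_inv (g : G) {ξ : Lp ℝ 2 (mX c μ ω)} {Ψ : G × Y → ℝ} (hΨ : Inv ι Ψ)
    (e : ξ =ᵐ[mX c μ ω] Ψ) : h.kp μ ω g ξ =ᵐ[mX c μ ω] fun p => Ψ (rt g p) := by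
  simpa only [hΨ.Pj] using h.kp_coe_of μ ω g e

end Co

theorem enorm_sq {α : Type*} [MeasurableSpace α] {ν : Measure α} {ξ : Lp ℝ 2 ν} {f : α → ℝ}
    (e : ξ =ᵐ[ν] f) : ‖ξ‖ₑ ^ 2 = ∫⁻ x, ‖f x‖ₑ ^ 2 ∂ν := by
  have := eLpNorm_nnreal_pow_eq_lintegral (μ := ν) (f := f) (p := 2) two_ne_zero
  rw [Lp.enorm_def, eLpNorm_congr_ae e]
  simpa [ENNReal.rpow_two] using this

theorem memLp_two {α : Type*} [MeasurableSpace α] {ν : Measure α} {f : α → ℝ}
    (hf : AEStronglyMeasurable f ν) (h : ∫⁻ x, ‖f x‖ₑ ^ 2 ∂ν ≠ ∞) : MemLp f 2 ν := by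
  refine ⟨hf, ?_⟩
  have := eLpNorm_nnreal_pow_eq_lintegral (μ := ν) (f := f) (p := 2) two_ne_zero
  simp only [ENNReal.coe_ofNat, NNReal.coe_ofNat, ENNReal.rpow_two] at this
  rw [← this] at h
  exact lt_top_iff_ne_top.2 fun h' => h (by rw [h']; simp)

end Koop

theorem lintegral_biUnion_finset_le {α β : Type*} [MeasurableSpace α] {ν : Measure α}
    (s : Finset β) (t : β → Set α) (f : α → ℝ≥0∞) :
    ∫⁻ a in ⋃ b ∈ s, t b, f a ∂ν ≤ ∑ b ∈ s, ∫⁻ a in t b, f a ∂ν := by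
  classical
  induction s using Finset.induction_on with
  | empty => simp
  | insert b s hb ih =>
    rw [Finset.set_biUnion_insert, Finset.sum_insert hb]
    exact (lintegral_union_le _ _ _).trans (by gcongr)

section Est
variable {G Γ : Type*} [Group G] [TopologicalSpace G] [IsTopologicalGroup G] [T2Space G]
  [MeasurableSpace G] [BorelSpace G] [Group Γ] [Countable Γ] {ι : Γ →* G} {c : G → Γ}

/-- returning to the fundamental domain costs finitely many moves of the lattice -/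
theorem Co.move_le (h : Co ι c) {K : Set G} (hK : IsCompact K) :
    ∃ (C : Set G) (Γ₁ : Finset Γ), IsCompact C ∧ ∀ (Y : Type v) [MulAction Γ Y] [MeasurableSpace Y]
      (μ : Measure G) (ω : Measure Y) [SFinite μ] [SFinite ω] [μ.IsMulRightInvariant]
      (Ψ : G × Y → ℝ), ∀ g ∈ K,
      ∫⁻ p, ‖Ψ (Pj ι c (rt g p)) - Ψ (rt g p)‖ₑ ^ 2 ∂mX c μ ω ≤
        ∑ γ ∈ Γ₁, ∫⁻ p in C ×ˢ univ, ‖Ψ (act ι γ p) - Ψ p‖ₑ ^ 2 ∂μ.prod ω := by
  obtain ⟨C, hC, h1⟩ := h.cpt
  have hF : Fd c ⊆ C := fun x hx => by simpa [show c x = 1 from hx] using h1 x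
  have hfin := h.fin _ (hC.mul (hC.mul hK).inv)
  refine ⟨C * K, hfin.toFinset, hC.mul hK, fun Y _ _ μ ω _ _ _ Ψ g hg => ?_⟩
  have hs : Fd c ×ˢ (univ : Set Y) ⊆ ⋃ γ ∈ hfin.toFinset,
      rt g ⁻¹' (((C * K) ∩ {x | c x = γ⁻¹}) ×ˢ (univ : Set Y)) := fun p hp =>
    mem_iUnion₂.2 ⟨(c (p.1 * g))⁻¹, by
      rw [Finite.mem_toFinset, mem_ofPred_eq, map_inv]
      exact ⟨_, h1 (p.1 * g), _, inv_mem_inv.2 (mul_mem_mul (hF hp.1) hg),
        mul_inv_cancel_right _ _⟩,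
      ⟨mul_mem_mul (hF hp.1) hg, by simp [rt]⟩, trivial⟩
  rw [mX, Measure.restrict_prod_eq_prod_univ]
  refine (lintegral_mono_set hs).trans ((lintegral_biUnion_finset_le _ _ _).trans
    (Finset.sum_le_sum fun γ _ => ?_))
  have hp : MeasurePreserving (rt g : G × Y → G × Y) (μ.prod ω) (μ.prod ω) :=
    (measurePreserving_mul_right μ _).prod (MeasurePreserving.id ω)
  rw [hp.setLIntegral_comp_preimage_emb ((measurableEmbedding_mulRight _).prodMap .id)
    (fun p => ‖Ψ (Pj ι c p) - Ψ p‖ₑ ^ 2), setLIntegral_congr_fun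
    (((hC.mul hK).measurableSet.inter (h.meas _)).prod .univ)
    (g := fun p => ‖Ψ (act ι γ p) - Ψ p‖ₑ ^ 2) fun p hp => by
      simp only [Pj, show c p.1 = γ⁻¹ from hp.1.2, inv_inv]]
  exact lintegral_mono_set (prod_mono_left inter_subset_left)

/-- a compact set is covered by finitely many translates of the fundamental domain -/
theorem Co.vol_le (h : Co ι c) {V : Set G} (hV : IsCompact V) :
    ∃ Γ₁ : Finset Γ, ∀ (Y : Type v) [MulAction Γ Y] [MeasurableSpace Y] [MeasurableConstSMul Γ Y]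
      (μ : Measure G) (ω : Measure Y) [SFinite μ] [SFinite ω] [μ.IsMulLeftInvariant]
      [SMulInvariantMeasure Γ Y ω] (f : G × Y → ℝ≥0∞),
      ∫⁻ p in V ×ˢ univ, f p ∂μ.prod ω ≤ ∑ γ ∈ Γ₁, ∫⁻ p, f (act ι γ p) ∂mX c μ ω := by
  obtain ⟨C, hC, h1⟩ := h.cpt
  have hfin := h.fin _ (hV.mul hC.inv)
  refine ⟨hfin.toFinset, fun Y _ _ _ μ ω _ _ _ _ f => ?_⟩
  have hs : V ×ˢ (univ : Set Y) ⊆ ⋃ γ ∈ hfin.toFinset, {x | c x = γ} ×ˢ (univ : Set Y) := fun p hp =>
    mem_iUnion₂.2 ⟨c p.1, by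
      rw [Finite.mem_toFinset, mem_ofPred_eq]
      exact ⟨_, hp.1, _, inv_mem_inv.2 (h1 p.1), by simp⟩, rfl, trivial⟩
  refine (lintegral_mono_set hs).trans ((lintegral_biUnion_finset_le _ _ _).trans
    (Finset.sum_le_sum fun γ _ => le_of_eq ?_))
  rw [mX_eq, ← (mp_act (ι := ι) μ ω γ).setLIntegral_comp_preimage_emb (emb_act γ)]
  congr 2
  ext p
  simp [act, Fd, h.equiv]

end Est

/-! ### weighted counting measures -/

section Wm
variable {Y : Type*} [MeasurableSpace Y]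

/-- the weighted counting measure -/
def wm (w : Y → ℝ≥0∞) : Measure Y := Measure.sum fun y => w y • Measure.dirac y

instance [Countable Y] (w : Y → ℝ≥0∞) : SFinite (wm w) := by unfold wm; infer_instance

theorem lintegral_wm [MeasurableSingletonClass Y] (w : Y → ℝ≥0∞) (f : Y → ℝ≥0∞) :
    ∫⁻ y, f y ∂wm w = ∑' y, w y * f y := by
  simp [wm, lintegral_sum_measure, lintegral_smul_measure, lintegral_dirac]

theorem wm_singleton [MeasurableSingletonClass Y] (w : Y → ℝ≥0∞) (y : Y) : wm w {y} = w y := by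
  classical
  rw [← lintegral_indicator_one (measurableSet_singleton y), lintegral_wm, tsum_eq_single y]
  · simp
  · intro b hb; simp [hb]

theorem wm_inv {Γ : Type*} [Group Γ] [MulAction Γ Y] [DiscreteMeasurableSpace Y] {w : Y → ℝ≥0∞}
    (hw : ∀ (γ : Γ) y, w (γ • y) = w y) : SMulInvariantMeasure Γ Y (wm w) := ⟨fun γ s hs => by
  rw [← lintegral_indicator_one hs, ← lintegral_indicator_one .of_discrete, lintegral_wm,
    lintegral_wm, ← (MulAction.toPerm γ).tsum_eq fun y => w y * s.indicator 1 y]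
  exact tsum_congr fun y => by rw [MulAction.toPerm_apply, hw]; rfl⟩

instance {Γ : Type*} [SMul Γ Y] [DiscreteMeasurableSpace Y] : MeasurableConstSMul Γ Y :=
  ⟨fun _ => .of_discrete⟩

end Wm

end Crest.Agent.T24.Na.K39
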