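import Crest.Agent.T24.NaDef_18
import Crest.Agent.T24.NaPj_34

/-!
# Row 24, module NA + TW: words for the orthogonality statement `OrthStmt`.

`Ult` is an ultrapower of `ℓ²(X)`; `Mod` is the limit model of an arithmetic system;
`Pj.E T L` is the projection on the vectors which are smooth along `L`.
-/

set_option autoImplicit false
set_option linter.unusedSectionVars false

noncomputable section

namespace Crest.Agent.T24.Na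

open Topology Filter MeasureTheory
open scoped ENNReal NNReal RealInnerProductSpace

universe u v w

/-! ### ultrapowers -/

/-- eventually bounded families in `ℓ²` -/
def Bf {I X : Type*} (𝒱 : Filter I) (ξ : I → X → ℝ) : Prop :=
  ∃ C : ℝ, ∀ᶠ i in 𝒱, Summable (fun a => ξ i a ^ 2) ∧ ∑' a, ξ i a ^ 2 ≤ C

/-- an ultrapower of `ℓ²(X)` with its permutation and multiplication operators -/
structure Ult {I : Type} (X : Type w) (𝒱 : Ultrafilter I) (H : Type w) [NormedAddCommGroup H]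
    [InnerProductSpace ℝ H] where
  /-- the class of a family -/
  cl : (I → X → ℝ) → H
  /-- permutations -/
  P : Equiv.Perm X →* (H ≃ₗᵢ[ℝ] H)
  /-- multipliers -/
  Mu : (I → X → ℝ) → H →L[ℝ] H
  inn : ∀ ξ η, Bf 𝒱 ξ → Bf 𝒱 η → Tendsto (fun i => ∑' a, ξ i a * η i a) 𝒱 (𝓝 ⟪cl ξ, cl η⟫)
  dense : Dense (cl '' {ξ | Bf 𝒱 ξ})
  P_cl : ∀ σ ξ, Bf 𝒱 ξ → P σ (cl ξ) = cl fun i a => ξ i (σ.symm a)
  Mu_cl : ∀ μ (C : ℝ) ξ, (∀ᶠ i in 𝒱, ∀ a, |μ i a| ≤ C) → Bf 𝒱 ξ →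
    Mu μ (cl ξ) = cl fun i a => μ i a * ξ i a

/-- ultrapowers exist -/
def UltStmt : Prop := ∀ (I : Type) (X : Type w) (𝒱 : Ultrafilter I),
  ∃ (H : Type w) (_ : NormedAddCommGroup H) (_ : InnerProductSpace ℝ H) (_ : CompleteSpace H),
    Nonempty (Ult X 𝒱 H)

namespace Ult
variable {I : Type} {X H : Type w} {𝒱 : Ultrafilter I} [NormedAddCommGroup H]
  [InnerProductSpace ℝ H] (u : Ult X 𝒱 H)

/-- translations: `(T b ξ) a = ξ (a + b)` -/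
def T [AddCommGroup X] : Multiplicative X →* (H ≃ₗᵢ[ℝ] H) := u.P.comp
  { toFun := fun b => Equiv.addRight (-b.toAdd)
    map_one' := by ext; simp
    map_mul' := fun b c => by ext; simp [add_assoc, add_comm, add_left_comm] }

/-- substitution: `(J σ ξ) a = ξ (σ a)` -/
def J (σ : Equiv.Perm X) : H ≃ₗᵢ[ℝ] H := u.P σ⁻¹

end Ult

/-- bounded functions -/
def Bd {X : Type*} (h : X → ℝ) : Prop := ∃ C : ℝ, ∀ a, |h a| ≤ C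

namespace Sys
variable (S : Sys.{u, v, w})

/-- the hermitian elements of a subspace -/
def Vx (V : Submodule S.k S.B) : AddSubgroup S.X := V.toAddSubgroup.comap (selfAdjoint S.B).subtype

/-- conjugation as a permutation -/
def cjP (γ : S.Γ) : Equiv.Perm S.X := MulAction.toPerm ((γ : S.U₀) : unitary S.B)

/-- the permutation `σ` of the points is the map `m` at macroscopic scale -/
def Comp (σ : S.X → S.X) (m : S.Z → S.Z) : Prop := ∀ F, Cc F → ∀ η : ℝ, 0 < η →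
  ∀ᶠ R in atTop, ∀ a, |F (S.pos R (σ a)) - F (m (S.pos R a))| ≤ η

/-- elementary facts on the system -/
structure Api : Prop where
  cj : ∀ γ : S.Γ, ∃ m : S.Z ≃ₜ S.Z, (∀ z, m z = ac (S.ιΓ γ) z) ∧
    ∀ R a, S.pos R (S.cjP γ a) = m (S.pos R a)
  tr : ∀ F, Cc F → ∀ η : ℝ, 0 < η → ∃ n : ℕ, ∀ b ∈ S.L₀, ∃ t : S.Z,
    S.Comp (fun a => a + S.N ^ n • b) (fun z => z + t) ∧ (∀ z, |F (z + t) - F z| ≤ η) ∧
      ∫ z, (F (z + t) - F z) ^ 2 ∂S.lam ≤ η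
  ap : ∀ g : Aff S.k S.B, ∃ (σ : Equiv.Perm S.X) (α : S.X ≃+ S.X) (m : S.Z ≃ₜ S.Z),
    (∀ a, (σ a : S.B) = g.ap a) ∧ (∀ b, (α b : S.B) = g.lin b) ∧ (∀ z, (m z).2 = S.ap₀ g z.2) ∧
      S.Comp σ m
  haar : ∀ R, ∃ κ : ℝ, 0 < κ ∧ ∀ φ : S.Z → ℝ, ∫ z, φ (S.sc R z) ∂S.lam = κ * ∫ z, φ z ∂S.lam

variable {H : Type w} [NormedAddCommGroup H] [InnerProductSpace ℝ H]

/-- the Poincaré inequality in the limit -/
def JL (T : Multiplicative S.X →* (H ≃ₗᵢ[ℝ] H)) (J : S.Γ → H ≃ₗᵢ[ℝ] H)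
    (M : (S.Z → ℝ) → H →L[ℝ] H) : Prop :=
  ∀ F, Cc F → (∀ z ∈ tsupport F, Dom S.O S.π z.2) → ∃ (χ : S.Z → ℝ) (Γ₁ : Finset S.Γ) (C : ℝ),
    Cc χ ∧ ∀ m₁ : ℕ, m₁ ≠ 0 → ∃ C' : ℝ, ∀ m₂ : ℕ, m₂ ≠ 0 → ∀ ζ₁ ζ₂ : S.Q → H,
      (∀ q, ∑ᶠ f : S.M, ζ₂ (q * f) = 0) →
      (∀ q, ∀ b ∈ S.L₀, Pj.tr T (m₁ • b) (ζ₁ q) = ζ₁ q) →
      (∀ q, ∀ b ∈ S.L₀, Pj.tr T (m₂ • b) (ζ₂ q) = ζ₂ q) → ∀ q,
      ‖M F (ζ₂ q)‖ ^ 2 ≤ C * ∑ᶠ q, ‖ζ₁ q - ζ₂ q‖ ^ 2 +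
        C' * ∑ γ ∈ Γ₁, ∑ᶠ q, ‖M χ (J γ (ζ₂ (S.c γ * q)) - ζ₂ q)‖ ^ 2

end Sys

/-- the limit model -/
structure Mod (S : Sys.{u, v, w}) (H : Type w) [NormedAddCommGroup H] [InnerProductSpace ℝ H] where
  /-- translations -/
  T : Multiplicative S.X →* (H ≃ₗᵢ[ℝ] H)
  /-- conjugations -/
  J : S.Γ → H ≃ₗᵢ[ℝ] H
  /-- multiplication by a macroscopic function -/
  M : (S.Z → ℝ) → H →L[ℝ] H
  /-- the vector `√w · F ∘ pos · h` -/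
  vec : (S.Z → ℝ) → (S.X → ℝ) → H
  /-- normalisation -/
  c₀ : ℝ
  c₀_nonneg : 0 ≤ c₀
  M_adj : ∀ F, Cc F → ∀ x y, ⟪M F x, y⟫ = ⟪x, M F y⟫
  M_vec : ∀ F G h, Cc F → Cc G → Bd h → M F (vec G h) = vec (F * G) h
  M_T : ∀ F, Cc F → ∀ η : ℝ, 0 < η → ∃ n : ℕ, ∀ b ∈ S.L₀, ∀ x,
    ‖Pj.tr T (S.N ^ n • b) (M F x) - M F (Pj.tr T (S.N ^ n • b) x)‖ ≤ η * ‖x‖
  vec_add : ∀ F G h, Cc F → Cc G → Bd h → vec (F + G) h = vec F h + vec G h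
  vec_smul : ∀ (c : ℝ) F h, Cc F → Bd h → vec (c • F) h = c • vec F h
  vec_add' : ∀ F h h', Cc F → Bd h → Bd h' → vec F (h + h') = vec F h + vec F h'
  vec_norm : ∀ F h (C : ℝ), Cc F → (∀ a, |h a| ≤ C) →
    ‖vec F h‖ ^ 2 ≤ c₀ * C ^ 2 * ∫ z, F z ^ 2 ∂S.lam
  vec_T : ∀ F h, Cc F → Bd h → ∀ η : ℝ, 0 < η → ∃ n : ℕ, ∀ b ∈ S.L₀,
    (∀ a, h (a + S.N ^ n • b) = h a) → ‖Pj.tr T (S.N ^ n • b) (vec F h) - vec F h‖ ≤ η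
  J_T : ∀ γ b x, J γ (Pj.tr T (S.cjP γ b) x) = Pj.tr T b (J γ x)
  J_vec : ∀ γ F h, Cc F → Bd h →
    J γ (vec F h) = vec (fun z => F (ac (S.ιΓ γ) z)) fun a => h (S.cjP γ a)
  ac_cc : ∀ γ : S.Γ, ∃ m : S.Z ≃ₜ S.Z, ∀ z, m z = ac (S.ιΓ γ) z
  W : ∀ g, S.Adm g → ∃ (W : H ≃ₗᵢ[ℝ] H) (σ : Equiv.Perm S.X) (α : S.X ≃+ S.X) (m : S.Z ≃ₜ S.Z),
    (∀ a, (σ a : S.B) = g.ap a) ∧ (∀ b, (α b : S.B) = g.lin b) ∧ (∀ z, (m z).2 = S.ap₀ g z.2) ∧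
    (∀ b x, W (Pj.tr T (α b) x) = Pj.tr T b (W x)) ∧
    ∀ F h, Cc F → Bd h → W (vec F h) = vec (fun z => F (m z)) fun a => h (σ a)
  jl : S.JL T J M

/-- the filter of the double limit -/
def lim₂ : Filter (ℕ × ℝ) := (atTop : Filter ℕ).curry (𝓝[>] (1 : ℝ))

/-- elementary facts -/
def ApiStmt : Prop := ∀ S : Sys.{u, v, w}, S.Ok → S.Api

/-- the Poincaré inequality passes to the ultrapower -/
def JlStmt : Prop := ∀ S : Sys.{u, v, w}, S.Ok → S.Api → ∀ (𝒱 : Ultrafilter (ℕ × ℝ)),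
  (𝒱 : Filter (ℕ × ℝ)) ≤ lim₂ → ∀ (H : Type w) [NormedAddCommGroup H] [InnerProductSpace ℝ H]
  [CompleteSpace H] (u : Ult S.X 𝒱 H),
  S.JL u.T (fun γ => u.J (S.cjP γ)) fun F => u.Mu fun i a => F (S.pos i.1 a)

/-- the limit model exists -/
def ModStmt : Prop := ∀ S : Sys.{u, v, w}, S.Ok → ∀ β₀ : S.Z → ℝ, Cc β₀ → 0 ≤ β₀ → β₀ ≠ 0 →
  ∀ (𝒱 : Ultrafilter (ℕ × ℝ)), (𝒱 : Filter (ℕ × ℝ)) ≤ lim₂ →
  ∃ (H : Type w) (_ : NormedAddCommGroup H) (_ : InnerProductSpace ℝ H) (_ : CompleteSpace H)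
    (m : Mod S H), ∀ F G h h', Cc F → Cc G → Bd h → Bd h' →
      Tendsto (fun i : ℕ × ℝ => (∑' a : S.X, S.w i.2 a * (F (S.pos i.1 a) * G (S.pos i.1 a)) *
        (h a * h' a)) / ∫ z, β₀ (S.sc i.1 z) ∂S.lam) 𝒱 (𝓝 ⟪m.vec F h, m.vec G h'⟫)

/-- the component of type `V` of the label vectors vanishes -/
def Van {S : Sys.{u, v, w}} {H : Type w} [NormedAddCommGroup H] [InnerProductSpace ℝ H]
    [CompleteSpace H] (m : Mod S H) {T : Type} [MulAction S.Q T] (At : S.B → T) (φ : T → ℝ)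
    (V : AddSubgroup S.X) : Prop :=
  ∀ F, Cc F → (∀ z ∈ tsupport F, Dom S.O S.π z.2) → ∀ q : S.Q,
    Pj.E m.T (V ⊓ S.L₀) (m.vec F fun a => φ (q⁻¹ • At a)) = 0

/-- (4): the full type -/
def JgStmt : Prop := ∀ S : Sys.{u, v, w}, S.Ok → ∀ (H : Type w) [NormedAddCommGroup H]
  [InnerProductSpace ℝ H] [CompleteSpace H] (m : Mod S H) (T : Type) [Finite T] [MulAction S.Q T]
  (At : S.B → T), S.Lab At → ∀ φ : T → ℝ, Mz S.M φ → Van m At φ ⊤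

/-- (3): the intermediate types -/
def TypStmt : Prop := ∀ S : Sys.{u, v, w}, S.Ok → ∀ (H : Type w) [NormedAddCommGroup H]
  [InnerProductSpace ℝ H] [CompleteSpace H] (m : Mod S H) (T : Type) [Finite T] [MulAction S.Q T]
  (At : S.B → T), S.Lab At → ∀ φ : T → ℝ, Van m At φ ⊤ →
  ∀ V : Submodule S.k S.B, (∀ y ∈ V, star y = y) → 1 ∈ V → (∃ y ∈ V, ∀ r : S.k, y ≠ r • 1) →
    Van m At φ (S.Vx V)

end Crest.Agent.T24.Na
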