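import Crest.Agent.T24.NaOrDef_18
import Crest.Agent.T24.NaPos_84

/-! Row 24, module NA + TW: orthogonality for different lines from the limit model (helper18). -/

set_option autoImplicit false
set_option linter.unusedSectionVars false

noncomputable section

namespace Crest.Agent.T24.Na

open Topology Filter MeasureTheory
open scoped RealInnerProductSpace

universe u v w

namespace Or18

theorem lin_smul {k R : Type*} [Field k] [Ring R] [StarRing R] [Algebra k R] (g : Aff k R) (r : k)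
    (a : R) : g.lin (r • a) = r • g.lin a := by
  simp only [Aff.lin, mul_smul_comm, smul_mul_assoc]
  rw [smul_comm]

theorem not_scalar {k R : Type*} [Field k] [Ring R] [StarRing R] [Algebra k R] {g g' : Aff k R}
    (h : g.Dif g') {b : R} (hb : g'.lin b = 1) (r : k) : g.lin b ≠ r • 1 := fun hr => by
  have hu : IsUnit (star (g'.p : R)) := g'.p.isUnit.star
  have h1 : b * ((g'.κ : k) • ((g'.p : R) * star (g'.p : R))) = 1 := by
    apply hu.mul_left_cancel
    have := congrArg (· * star (g'.p : R)) hb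
    simp only [Aff.lin, smul_mul_assoc, one_mul, mul_assoc] at this
    simp only [mul_smul_comm, mul_one, this]
  have h2 : (g.κ : k) • ((g.p : R) * star (g.p : R) * b) = r • 1 := by
    apply g.p.isUnit.mul_right_cancel
    have := congrArg ((g.p : R) * ·) hr
    simp only [Aff.lin, mul_smul_comm, mul_one] at this
    simp only [smul_mul_assoc, one_mul, ← this, mul_assoc]
  apply h ((g.κ : k)⁻¹ * r * g'.κ)
  have h3 : (g.p : R) * star (g.p : R) * b = ((g.κ : k)⁻¹ * r) • 1 := by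
    rw [mul_smul, ← h2, smul_smul, inv_mul_cancel₀ g.κ.ne_zero, one_smul]
  calc (g.p : R) * star (g.p : R)
      = (g.p : R) * star (g.p : R) * (b * ((g'.κ : k) • ((g'.p : R) * star (g'.p : R)))) := by
        rw [h1, mul_one]
    _ = _ := by rw [← mul_assoc, h3, smul_mul_assoc, one_mul, smul_smul]

variable {S : Sys.{u, v, w}} {H : Type w} [NormedAddCommGroup H] [InnerProductSpace ℝ H]
  [CompleteSpace H]

theorem bd_lab {T : Type} [Finite T] {X : Type*} (φ : T → ℝ) (f : X → T) : Bd fun a => φ (f a) := by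
  obtain ⟨C, hC⟩ := (Set.finite_range fun t => |φ t|).bddAbove
  exact ⟨C, fun a => hC ⟨f a, rfl⟩⟩

/-- label vectors are smooth along the scalars -/
theorem vec_mem (hS : S.Ok) (m : Mod S H) {F : S.Z → ℝ} (hF : Cc F) {h : S.X → ℝ} (hh : Bd h)
    (hs : ∀ (a e : S.X) (r : S.k), (e : S.B) = r • 1 → h (a + e) = h a) :
    m.vec F h ∈ Pj.Sm m.T (S.Vx (S.k ∙ (1 : S.B)) ⊓ S.L₀) := fun η hη => by
  obtain ⟨n, hn⟩ := m.vec_T F h hF hh η hη
  refine ⟨S.N ^ n, pow_ne_zero _ hS.N_ne, fun e he => hn e he.2 fun a => ?_⟩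
  obtain ⟨r, hr⟩ := Submodule.mem_span_singleton.1 (show (e : S.B) ∈ S.k ∙ (1 : S.B) from he.1)
  refine hs a _ (((S.N ^ n : ℕ) : S.k) * r) ?_
  rw [mul_smul, hr, Nat.cast_smul_eq_nsmul]
  rfl

theorem sm_map {X : Type*} [AddCommGroup X] (T : Multiplicative X →* (H ≃ₗᵢ[ℝ] H))
    (W : H ≃ₗᵢ[ℝ] H) (α : X ≃+ X) (h : ∀ b x, W (Pj.tr T (α b) x) = Pj.tr T b (W x))
    {L : AddSubgroup X} {x : H} (hx : x ∈ Pj.Sm T L) :
    W x ∈ Pj.Sm T (L.comap α.toAddMonoidHom) := fun η hη => by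
  obtain ⟨n, hn, h1⟩ := hx η hη
  refine ⟨n, hn, fun e he => ?_⟩
  rw [← h, ← map_sub, W.norm_map, map_nsmul]
  exact h1 _ he

end Or18

open Or18

theorem orthStmt (hM : ModStmt.{u, v, w}) (hJ : JgStmt.{u, v, w}) (hT : TypStmt.{u, v, w}) :
    OrthStmt.{u, v, w} := by
  intro S hS T _ _ At hAt g g' hg hg' hd φ χ hφ β hβ hβd β₀ h0 h0' h0'' η hη
  by_contra hne
  rw [← eventually_curry_iff (p := fun i : ℕ × ℝ => |∑' a : S.X, S.w i.2 a * β (S.pos i.1 a) *
    (φ (At (g.ap a)) * χ (At (g'.ap a)))| ≤ η * ∫ z, β₀ (S.sc i.1 z) ∂S.lam), not_eventually,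
    frequently_iff_neBot] at hne
  obtain ⟨𝒱, hV⟩ := Ultrafilter.exists_le _ (h := hne)
  obtain ⟨H, _, _, _, m, hm⟩ := hM S hS β₀ h0 h0' h0'' 𝒱 (hV.trans inf_le_left)
  obtain ⟨W, σ, α, μ, hσ, hα, hμ, hWT, hWv⟩ := m.W g hg
  obtain ⟨W', σ', α', μ', hσ', hα', -, hWT', hWv'⟩ := m.W g' hg'
  have : LocallyCompactSpace (Mt S.d S.F) := Pi.locallyCompactSpace_of_finite
  obtain ⟨c, hc, -, -, hc1⟩ := P84.exists_bump hβ.2.isCompact
  have hF : Cc fun z => β (μ.symm z) := P84.cc_comp hβ μ.symm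
  have hG : Cc fun z => c (μ'.symm z) := P84.cc_comp hc μ'.symm
  have hs : ∀ (a e : S.X) (r : S.k), (e : S.B) = r • 1 → At (a + e : S.X) = At a :=
    fun a e r he => by rw [AddSubgroup.coe_add, he, hAt.tr]
  set x := m.vec (fun z => β (μ.symm z)) fun a : S.X => φ (At a) with hx
  set y := m.vec (fun z => c (μ'.symm z)) fun a : S.X => χ (At a) with hy
  set l := S.Vx (S.k ∙ (1 : S.B)) ⊓ S.L₀ with hl
  have x1 : x ∈ Pj.Sm m.T l := vec_mem hS m hF (bd_lab _ _) fun a e r he => by rw [hs a e r he]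
  have y1 : y ∈ Pj.Sm m.T l := vec_mem hS m hG (bd_lab _ _) fun a e r he => by rw [hs a e r he]
  -- the plane spanned by the two lines
  have hone : ∀ r : S.k, r • (1 : S.B) ∈ selfAdjoint S.B := fun r => by
    rw [selfAdjoint.mem_iff, hS.star_k, star_one]
  set b₀ : S.X := α'.symm ⟨1, by simpa using hone 1⟩ with hb₀
  have hb : g'.lin b₀ = 1 := by rw [← hα', hb₀, α'.apply_symm_apply]
  set V : Submodule S.k S.B := Submodule.span S.k {1, (α b₀ : S.B)} with hVd
  have hV0 : Pj.E m.T (S.Vx V ⊓ S.L₀) x = 0 := by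
    have := hT S hS H m T At hAt φ (hJ S hS H m T At hAt φ hφ) V (fun z hz => by
      obtain ⟨r, r', rfl⟩ := Submodule.mem_span_pair.1 hz
      rw [star_add, hS.star_k, hS.star_k, star_one, (α b₀).2.star_eq])
      (Submodule.subset_span (by simp))
      ⟨α b₀, Submodule.subset_span (by simp), fun r => hα b₀ ▸ not_scalar hd hb r⟩ _ hF
      (fun z hz => by
        have := hβd (μ.symm z) (tsupport_comp_subset_preimage β μ.symm.continuous hz)
        rwa [← hμ, μ.apply_symm_apply] at this) 1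
    simpa only [inv_one, one_smul] using this
  have key : ⟪W x, W' y⟫ = 0 := by
    refine Pj.inner_eq_zero m.T (sm_map m.T W α hWT x1) (sm_map m.T W' α' hWT' y1) ?_
    set L := l.comap α.toAddMonoidHom ⊔ l.comap α'.toAddMonoidHom with hL
    have e1 : (L.comap α.symm.toAddMonoidHom).map α.symm.toAddMonoidHom = L :=
      AddSubgroup.map_comap_eq_self_of_surjective α.symm.surjective _
    rw [Pj.E_conj m.T W α.symm (fun e v => by rw [← hWT, α.apply_symm_apply])
      (L := L.comap α.symm.toAddMonoidHom) (.of_le e1.le) (.of_le e1.ge)]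
    have e2 : Pj.Le (S.Vx V ⊓ S.L₀) (L.comap α.symm.toAddMonoidHom) := by
      refine .of_fg (Pj.fg_of_le hS.fg inf_le_right) fun e he => ?_
      obtain ⟨r, r', hr⟩ := Submodule.mem_span_pair.1 (show (e : S.B) ∈ V from he.1)
      obtain ⟨n, hn, h1⟩ := hS.full ⟨_, hone r⟩
      obtain ⟨n', hn', h1'⟩ := hS.full ⟨_, hone r'⟩
      have hl1 : ∀ (r : S.k) (j : ℕ), j • (⟨_, hone r⟩ : S.X) ∈ S.L₀ → j • (⟨_, hone r⟩ : S.X) ∈ l :=
        fun r j hj => ⟨AddSubgroup.nsmul_mem _ (show r • (1 : S.B) ∈ S.k ∙ (1 : S.B) from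
          Submodule.smul_mem _ _ (Submodule.mem_span_singleton_self _)) _, hj⟩
      have e3 : e = ⟨_, hone r⟩ + α (α'.symm ⟨_, hone r'⟩) := by
        have : α'.symm ⟨_, hone r'⟩ = ⟨r' • (b₀ : S.B), by
            rw [selfAdjoint.mem_iff, hS.star_k, b₀.2.star_eq]⟩ := by
          rw [AddEquiv.symm_apply_eq]
          exact Subtype.ext (by rw [hα', lin_smul, hb])
        refine Subtype.ext ?_
        rw [AddSubgroup.coe_add, this, hα, lin_smul, ← hα, hr]
      refine ⟨n * n', mul_ne_zero hn hn', ?_⟩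
      change α.symm ((n * n') • e) ∈ L
      rw [e3, smul_add, map_add]
      refine AddSubgroup.add_mem_sup ?_ ?_
      · change α (α.symm _) ∈ l
        rw [α.apply_symm_apply, mul_comm, mul_smul]
        exact l.nsmul_mem (hl1 r n h1) _
      · change α' (α.symm _) ∈ l
        rw [← map_nsmul, α.symm_apply_apply, map_nsmul, α'.apply_symm_apply, mul_smul]
        exact l.nsmul_mem (hl1 r' n' h1') _
    have e4 := Pj.E_eq m.T (Pj.Sm_anti m.T e2 (Pj.E_mem m.T (L.comap α.symm.toAddMonoidHom) x))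
    have e5 := Pj.inner_E_self m.T (L.comap α.symm.toAddMonoidHom) x
    rw [← e4, Pj.E_symm, hV0, inner_zero_right, e4] at e5
    rw [norm_eq_zero.1 (pow_eq_zero_iff two_ne_zero |>.1 e5.symm), map_zero]
  rw [hx, hy, hWv _ _ hF (bd_lab _ _), hWv' _ _ hG (bd_lab _ _)] at key
  simp only [Homeomorph.symm_apply_apply, hσ, hσ'] at key
  have lim := hm β c _ _ hβ hc (bd_lab φ fun a : S.X => At (g.ap a))
    (bd_lab χ fun a : S.X => At (g'.ap a))
  rw [key] at lim
  have hβc : ∀ z, β z * c z = β z := fun z => by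
    by_cases hz : z ∈ tsupport β
    · rw [hc1 z hz, mul_one]
    · rw [image_eq_zero_of_notMem_tsupport hz, zero_mul]
  simp only [hβc] at lim
  have h1 := (Metric.tendsto_nhds.1 lim η hη).and (hV.trans inf_le_right (mem_principal_self _))
  obtain ⟨i, h2, h3⟩ := h1.exists
  have := hS.haar
  have hpos : 0 < ∫ z, β₀ (S.sc i.1 z) ∂S.lam := by
    obtain ⟨z, hz⟩ := Function.ne_iff.1 h0''
    have hc := P84.cc_comp h0 (S.sc i.1).toHomeomorph
    exact hc.1.integral_pos_of_hasCompactSupport_nonneg_nonzero hc.2 (fun z => h0' (S.sc i.1 z))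
      (x := (S.sc i.1).symm z) (by simpa using hz)
  rw [dist_zero_right, Real.norm_eq_abs, abs_div, abs_of_pos hpos, div_lt_iff₀ hpos] at h2
  exact h3 h2.le

end Crest.Agent.T24.Na
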