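import Crest.Agent.T24.Kaz_16

/-!
# Row 24: `t`-invariant vectors and vector measures (helper52)

`kt`: a vector close to a `K(m)`-fixed vector and almost fixed by a contracting element is almost
fixed by `SL_d (F)`. `vm`: an equivariant bounded vector measure is fixed by `SL_d (F)`.
-/

set_option autoImplicit false

namespace Crest.Agent.T24.Vm

open Finset Matrix Kaz
open scoped RealInnerProductSpace

variable {ι F : Type*} [Fintype ι] [DecidableEq ι] [Field F] {G : Type*} [Group G]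
  {V : Type*} [NormedAddCommGroup V] [InnerProductSpace ℝ V]

/-- `τ` contracts the row `i₀` and expands the column `i₀` by `c` -/
structure Ctr (J : SpecialLinearGroup ι F →* G) (i₀ : ι) (c : F) (τ : G) : Prop where
  row : ∀ j, j ≠ i₀ → ∀ s, τ * J (X i₀ j s) = J (X i₀ j (c * s)) * τ
  col : ∀ j, j ≠ i₀ → ∀ s, τ * J (X j i₀ (c * s)) = J (X j i₀ s) * τ

section disp
variable (π : G →* (V ≃ₗᵢ[ℝ] V)) (v : V)

theorem d_mul (g h : G) : ‖π (g * h) v - v‖ ≤ ‖π g v - v‖ + ‖π h v - v‖ := by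
  have : π (g * h) v - v = π g (π h v - v) + (π g v - v) := by
    rw [map_mul, map_sub]; simp
  rw [this, add_comm ‖π g v - v‖]
  exact (norm_add_le _ _).trans (by rw [LinearIsometryEquiv.norm_map])

theorem d_inv (g : G) : ‖π g⁻¹ v - v‖ = ‖π g v - v‖ := by
  rw [← (π g).norm_map, map_sub, norm_sub_rev]
  congr 2
  change (π g * π g⁻¹) v = v
  rw [← map_mul, mul_inv_cancel, map_one]; rfl

theorem d_pow (g : G) (n : ℕ) : ‖π (g ^ n) v - v‖ ≤ n * ‖π g v - v‖ := by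
  induction n with
  | zero => simp
  | succ n ih => rw [pow_succ]; push_cast; linarith [d_mul π v (g ^ n) g]

theorem d_conj (g a : G) : ‖π (a⁻¹ * g * a) v - v‖ ≤ ‖π g v - v‖ + 2 * ‖π a v - v‖ := by
  linarith [d_mul π v (a⁻¹ * g) a, d_mul π v a⁻¹ g, d_inv π v a]

theorem d_near (w : V) (g : G) : ‖π g v - v‖ ≤ ‖π g w - w‖ + 2 * ‖v - w‖ := by
  have : π g v - v = (π g w - w) + π g (v - w) - (v - w) := by rw [map_sub]; abel
  rw [this]
  linarith [norm_sub_le ((π g w - w) + π g (v - w)) (v - w), norm_add_le (π g w - w) (π g (v - w)),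
    (π g).norm_map (v - w)]

end disp

theorem Ctr.row_pow {J : SpecialLinearGroup ι F →* G} {i₀ : ι} {c : F} {τ : G} (h : Ctr J i₀ c τ)
    {j : ι} (hj : j ≠ i₀) (n : ℕ) (s : F) :
    J (X i₀ j s) = (τ ^ n)⁻¹ * J (X i₀ j (c ^ n * s)) * τ ^ n := by
  induction n with
  | zero => simp
  | succ n ih =>
    rw [ih, pow_succ' c, mul_assoc c, pow_succ' τ, _root_.mul_inv_rev]
    have := h.row j hj (c ^ n * s)
    rw [← eq_inv_mul_iff_mul_eq] at this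
    rw [this]; group

theorem Ctr.col_pow {J : SpecialLinearGroup ι F →* G} {i₀ : ι} {c : F} {τ : G} (h : Ctr J i₀ c τ)
    {j : ι} (hj : j ≠ i₀) (n : ℕ) (s : F) :
    J (X j i₀ s) = (τ⁻¹ ^ n)⁻¹ * J (X j i₀ (c ^ n * s)) * τ⁻¹ ^ n := by
  induction n with
  | zero => simp
  | succ n ih =>
    rw [ih, pow_succ' c, mul_assoc c, pow_succ' τ⁻¹, _root_.mul_inv_rev]
    have := h.col j hj (c ^ n * s)
    rw [← mul_inv_eq_iff_eq_mul] at this
    rw [← this]; group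

variable [CompleteSpace V] {O : Subring F} {p ϖ : F} {κ : Type*} [Fintype κ] {t : κ → F}

/-- KT -/
theorem kt (h : Dat O p t) (hϖ : ϖ ∈ O) (hp : p * ϖ = 1) (hκ : 5 ≤ Fintype.card κ)
    (hι : 3 ≤ Fintype.card ι) (π : G →* (V ≃ₗᵢ[ℝ] V)) {J : SpecialLinearGroup ι F →* G} {i₀ : ι}
    {c : F} (hc : ∃ o ∈ O, c = ϖ * o) {τ : G} (hτ : Ctr J i₀ c τ) (v w : V) {m : ℕ} {δ : ℝ}
    (hw : ∀ j, j ≠ i₀ → ∀ o ∈ O, ‖π (J (X i₀ j (ϖ ^ m * o))) w - w‖ ≤ δ ∧
      ‖π (J (X j i₀ (ϖ ^ m * o))) w - w‖ ≤ δ) (g : SpecialLinearGroup ι F) :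
    ‖π (J g) v - v‖ ≤
      32 * Fintype.card ι * (δ + 2 * ‖v - w‖ + 2 * (m + 1) * ‖π τ v - v‖) := by
  obtain ⟨o₀, ho₀, rfl⟩ := hc
  set η := δ + 2 * ‖v - w‖ + 2 * (m + 1) * ‖π τ v - v‖ with hη
  have e : ∀ o, (ϖ * o₀) ^ (m + 1) * (p * o) = ϖ ^ m * (o₀ ^ (m + 1) * o) := fun o => by
    linear_combination ϖ ^ m * o₀ ^ (m + 1) * o * hp
  have h1 : ∀ j, j ≠ i₀ → ∀ o ∈ O, ‖π (J (X i₀ j (p * o))) v - v‖ ≤ η ∧
      ‖π (J (X j i₀ (p * o))) v - v‖ ≤ η := fun j hj o ho => by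
    have h2 := hw j hj _ (O.mul_mem (O.pow_mem ho₀ (m + 1)) ho)
    have h3 := d_pow π v τ (m + 1)
    have h4 := d_pow π v τ⁻¹ (m + 1)
    rw [d_inv] at h4
    push_cast at h3 h4
    constructor
    · rw [hτ.row_pow hj (m + 1), e]
      linarith [d_conj π v (J (X i₀ j (ϖ ^ m * (o₀ ^ (m + 1) * o)))) (τ ^ (m + 1)),
        d_near π v w (J (X i₀ j (ϖ ^ m * (o₀ ^ (m + 1) * o)))), h2.1]
    · rw [hτ.col_pow hj (m + 1), e]
      linarith [d_conj π v (J (X j i₀ (ϖ ^ m * (o₀ ^ (m + 1) * o)))) (τ⁻¹ ^ (m + 1)),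
        d_near π v w (J (X j i₀ (ϖ ^ m * (o₀ ^ (m + 1) * o)))), h2.2]
  obtain ⟨j₀, hj₀, -⟩ := exists_third hι i₀ i₀
  have hη0 : 0 ≤ η := (norm_nonneg _).trans (h1 j₀ hj₀ 0 O.zero_mem).1
  obtain ⟨u, hu, hd⟩ := kazhdan (π.comp J) h ⟨ϖ, hϖ, hp⟩ hκ hι (v := v) (ε := 4 * η)
    fun i j hij o ho => by
      rw [← X_eq, MonoidHom.comp_apply]
      by_cases hi : i = i₀
      · subst hi; linarith [(h1 j hij.symm o ho).1]
      by_cases hj : j = i₀
      · subst hj; linarith [(h1 i hij o ho).2]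
      have h5 := X_heis hi (Ne.symm hj) hij (p * o) (p * ϖ)
      have h6 : J (X i j (p * o)) = (J (X i i₀ (p * o)))⁻¹ * ((J (X i₀ j (p * ϖ)))⁻¹ *
          J (X i i₀ (p * o)) * J (X i₀ j (p * ϖ))) := by
        have := congrArg J h5
        rw [hp, mul_one, ← hp] at this
        simp only [map_mul] at this
        rw [mul_assoc _ (J _) (J _), this]; group
      rw [h6]
      linarith [d_mul π v (J (X i i₀ (p * o)))⁻¹ ((J (X i₀ j (p * ϖ)))⁻¹ *
          J (X i i₀ (p * o)) * J (X i₀ j (p * ϖ))), d_inv π v (J (X i i₀ (p * o))),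
        d_conj π v (J (X i i₀ (p * o))) (J (X i₀ j (p * ϖ))), (h1 i hi o ho).2, (h1 j hj ϖ hϖ).1]
  have h7 := d_near π v u (J g)
  have h8 : π (J g) u = u := hu g
  rw [h8, sub_self, norm_zero] at h7
  have h9 : (3 : ℝ) ≤ Fintype.card ι := by exact_mod_cast hι
  have h10 : ‖v - u‖ ≤ 16 * Fintype.card ι * η :=
    (pow_le_pow_iff_left₀ (norm_nonneg _) (by positivity) two_ne_zero).1
      (hd.trans (by nlinarith [sq_nonneg η, mul_nonneg (sq_nonneg η) (sub_nonneg.2 h9)]))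
  linarith

omit [CompleteSpace V] in
/-- variance identity along uniform fibres -/
theorem var {A B : Type*} [Fintype A] [Fintype B] [DecidableEq B] (pr : A → B) {r : ℕ} (hr : r ≠ 0)
    (hf : ∀ y, #{x | pr x = y} = r) (a : A → V) (b : B → V)
    (hb : ∀ y, b y = ∑ x with pr x = y, a x) :
    (∑ x, ‖a x - (r : ℝ)⁻¹ • b (pr x)‖) ^ 2 ≤
      Fintype.card A * ∑ x, ‖a x‖ ^ 2 - Fintype.card B * ∑ y, ‖b y‖ ^ 2 := by
  have hr' : (r : ℝ) ≠ 0 := by exact_mod_cast hr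
  have hc : (Fintype.card A : ℝ) = r * Fintype.card B := by
    rw [← card_univ, card_eq_sum_card_fiberwise (f := pr) (t := univ) (fun _ _ => mem_univ _)]
    simp [hf, mul_comm]
  have h1 : ∑ x, ‖a x - (r : ℝ)⁻¹ • b (pr x)‖ ^ 2 = ∑ x, ‖a x‖ ^ 2 - (r : ℝ)⁻¹ * ∑ y, ‖b y‖ ^ 2 := by
    rw [← sum_fiberwise univ pr, ← sum_fiberwise univ pr (fun x => ‖a x‖ ^ 2), mul_sum,
      ← sum_sub_distrib]
    refine sum_congr rfl fun y _ => ?_
    rw [sum_congr rfl (g := fun x => ‖a x‖ ^ 2 - 2 * (r : ℝ)⁻¹ * ⟪a x, b y⟫ + (r : ℝ)⁻¹ ^ 2 * ‖b y‖ ^ 2)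
      fun x hx => by
        rw [(mem_filter.1 hx).2, norm_sub_sq_real, real_inner_smul_right, norm_smul, mul_pow,
          Real.norm_eq_abs, sq_abs]; ring]
    rw [sum_add_distrib, sum_sub_distrib, ← mul_sum, ← sum_inner, ← hb, real_inner_self_eq_norm_sq,
      sum_const, hf, nsmul_eq_mul]
    field_simp; ring
  refine (sq_sum_le_card_mul_sum_sq (s := univ)).trans (le_of_eq ?_)
  rw [h1, card_univ, hc]; field_simp

omit [InnerProductSpace ℝ V] [CompleteSpace V] in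
theorem near_of [NormedSpace ℝ V] {a b u : V} {n n' δ : ℝ} (h : ‖a‖ = ‖b‖) (hn : 0 ≤ n) (hn' : 0 ≤ n')
    (ha : ‖a - n • u‖ ≤ δ) (hb : ‖b - n' • u‖ ≤ δ) : ‖a - b‖ ≤ 4 * δ := by
  have h1 := abs_norm_sub_norm_le a (n • u)
  have h2 := abs_norm_sub_norm_le b (n' • u)
  rw [norm_smul, Real.norm_of_nonneg hn, abs_le] at h1
  rw [norm_smul, Real.norm_of_nonneg hn', abs_le] at h2
  have h3 : ‖n • u - n' • u‖ ≤ 2 * δ := by
    rw [← sub_smul, norm_smul, Real.norm_eq_abs, ← abs_norm u, ← abs_mul, abs_le]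
    constructor <;> nlinarith
  have : a - b = (a - n • u) + (n • u - n' • u) - (b - n' • u) := by abel
  rw [this]
  linarith [norm_sub_le ((a - n • u) + (n • u - n' • u)) (b - n' • u),
    norm_add_le (a - n • u) (n • u - n' • u)]

section vm
variable {Z : Type*} [AddCommGroup Z]

/-- the union of a set of cosets -/
def U (L : AddSubgroup Z) (s : Set (Z ⧸ L)) : Set Z := (QuotientAddGroup.mk : Z → Z ⧸ L) ⁻¹' s

/-- the coset of `z` -/
def cell (L : AddSubgroup Z) (z : Z) : Set Z := {x | -z + x ∈ L}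

theorem U_mk (L : AddSubgroup Z) (z : Z) : U L {(z : Z ⧸ L)} = cell L z := by
  ext x
  simp only [U, cell, Set.mem_preimage, Set.mem_singleton_iff, Set.mem_ofPred_eq]
  rw [eq_comm, QuotientAddGroup.eq]

/-- the parent -/
def pr {L L' : AddSubgroup Z} (h : L' ≤ L) : Z ⧸ L' →+ Z ⧸ L :=
  QuotientAddGroup.map L' L (.id _) (by rwa [AddSubgroup.comap_id])

theorem pr_mk {L L' : AddSubgroup Z} (h : L' ≤ L) (z : Z) : pr h (z : Z ⧸ L') = (z : Z ⧸ L) := rfl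

open scoped Classical in
theorem card_fib {L L' : AddSubgroup Z} (h : L' ≤ L) [Fintype (Z ⧸ L')] (y : Z ⧸ L) :
    #{x | pr h x = y} = L'.relIndex L := by
  obtain ⟨z, rfl⟩ := QuotientAddGroup.mk_surjective y
  have h1 : Nat.card (pr h).ker = L'.relIndex L := by
    rw [pr, QuotientAddGroup.ker_map, AddSubgroup.comap_id, ← AddSubgroup.relIndex_ker,
      QuotientAddGroup.ker_mk']
  rw [← h1, ← Fintype.card_subtype, ← Nat.card_eq_fintype_card]
  exact Nat.card_congr ⟨fun x => ⟨x.1 - z, by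
      rw [AddMonoidHom.mem_ker, map_sub, x.2, pr_mk, sub_self]⟩,
    fun x => ⟨x.1 + z, by rw [map_add, x.2, pr_mk, zero_add]⟩, fun x => by simp, fun x => by simp⟩

/-- VM -/
theorem vm (h : Dat O p t) (hϖ : ϖ ∈ O) (hp : p * ϖ = 1) (hκ : 5 ≤ Fintype.card κ)
    (hι : 3 ≤ Fintype.card ι) (π : G →* (V ≃ₗᵢ[ℝ] V)) {i₀ : ι} {c : F} (hc : ∃ o ∈ O, c = ϖ * o)
    (Λ : ℕ → AddSubgroup Z) (hΛ : Antitone Λ) (hfin : ∀ j, (Λ j).FiniteIndex) {a b : ℕ}
    (hb : ∀ j, (Λ (j + a)).relIndex (Λ j) ≤ b) (Φ : Set Z → V)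
    (hadd : ∀ j (s s' : Set (Z ⧸ Λ j)), Disjoint s s' → Φ (U _ (s ∪ s')) = Φ (U _ s) + Φ (U _ s'))
    {C : ℝ} (hC : ∀ j z, (Λ j).index * ‖Φ (cell (Λ j) z)‖ ≤ C)
    (J : ℕ → Z → (SpecialLinearGroup ι F →* G)) (T : ℕ → Z → G)
    (hT : ∀ j z, Ctr (J j z) i₀ c (T j z))
    (hS : ∀ j z, ∃ s : Set (Z ⧸ Λ (j + a + a)), U _ s ⊆ cell (Λ j) z ∧
      π (T j z) (Φ (cell (Λ (j + a)) z)) = Φ (U _ s))
    (hK : ∀ j₁, ∃ m : ℕ, ∀ j z k, k ≠ i₀ → ∀ o ∈ O,
      π (J j z (X i₀ k (ϖ ^ m * o))) (Φ (cell (Λ j₁) z)) = Φ (cell (Λ j₁) z) ∧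
      π (J j z (X k i₀ (ϖ ^ m * o))) (Φ (cell (Λ j₁) z)) = Φ (cell (Λ j₁) z))
    {g : G} (hg : ∀ j z, g ∈ (J j z).range) : π g (Φ Set.univ) = Φ Set.univ := by
  classical
  have : ∀ j, Fintype (Z ⧸ Λ j) := fun j => Fintype.ofFinite _
  set φ : ∀ j, Z ⧸ Λ j → V := fun j q => Φ (U _ {q}) with hφ
  have h0 : ∀ j (S : Finset (Z ⧸ Λ j)), Φ (U _ (S : Set (Z ⧸ Λ j))) = ∑ q ∈ S, φ j q := fun j S => by
    induction S using Finset.induction_on with
    | empty => simpa using hadd j ∅ ∅ (by simp)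
    | insert q S hq ih =>
      rw [sum_insert hq, coe_insert, Set.insert_eq, hadd _ _ _ (by simpa using hq), ih]
  have h1 : ∀ {j j'} (hj : j ≤ j') (y : Z ⧸ Λ j), φ j y = ∑ x with pr (hΛ hj) x = y, φ j' x :=
    fun hj y => by
      rw [← h0]; simp only [hφ]; congr 1; ext x; simp [U, pr_mk]
  have hr : ∀ j j', (Λ j').relIndex (Λ j) ≠ 0 := fun j j' =>
    (AddSubgroup.instFiniteIndex_addSubgroupOf (Λ j') (Λ j)).index_ne_zero
  set e : ℕ → ℝ := fun j => Fintype.card (Z ⧸ Λ j) * ∑ x, ‖φ j x‖ ^ 2 with he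
  have h2 : ∀ {j j'} (hj : j ≤ j'), (∑ x, ‖φ j' x - ((Λ j').relIndex (Λ j) : ℝ)⁻¹ •
      φ j (pr (hΛ hj) x)‖) ^ 2 ≤ e j' - e j := fun hj =>
    var _ (hr _ _) (card_fib _) _ _ (h1 hj)
  have h3 : ∀ j, e j ≤ C ^ 2 := fun j => by
    have hN : (0 : ℝ) < Fintype.card (Z ⧸ Λ j) := by exact_mod_cast Fintype.card_pos
    have : ∀ x, ‖φ j x‖ ^ 2 ≤ (C / Fintype.card (Z ⧸ Λ j)) ^ 2 := fun x => by
      obtain ⟨z, rfl⟩ := QuotientAddGroup.mk_surjective x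
      have := hC j z
      rw [AddSubgroup.index_eq_card, Nat.card_eq_fintype_card, mul_comm, ← le_div_iff₀ hN,
        ← U_mk] at this
      exact pow_le_pow_left₀ (norm_nonneg _) this 2
    refine (mul_le_mul_of_nonneg_left (sum_le_sum fun x _ => this x) hN.le).trans (le_of_eq ?_)
    rw [sum_const, card_univ, nsmul_eq_mul]; field_simp
  have h4 : ∀ η : ℝ, 0 < η → ∃ j₁, ∀ j j' (hj : j ≤ j'), j₁ ≤ j →
      ∑ x, ‖φ j' x - ((Λ j').relIndex (Λ j) : ℝ)⁻¹ • φ j (pr (hΛ hj) x)‖ ≤ η := fun η hη => by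
    have hbd : BddAbove (Set.range e) := ⟨_, by rintro _ ⟨j, rfl⟩; exact h3 j⟩
    obtain ⟨j₁, hj₁⟩ := exists_lt_of_lt_ciSup (f := e) (sub_lt_self (⨆ j, e j) (pow_pos hη 2))
    refine ⟨j₁, fun j j' hj hj' => (pow_le_pow_iff_left₀ (sum_nonneg fun _ _ => norm_nonneg _) hη.le
      two_ne_zero).1 ((h2 hj).trans ?_)⟩
    linarith [le_ciSup hbd j', (sq_nonneg _).trans (h2 hj')]
  rw [← sub_eq_zero, ← norm_le_zero_iff]
  refine le_of_forall_pos_le_add fun ε hε => ?_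
  have hι' : (0 : ℝ) < Fintype.card ι := by exact_mod_cast (by omega : 0 < Fintype.card ι)
  obtain ⟨j₁, hj₁⟩ := h4 (ε / (128 * Fintype.card ι)) (by positivity)
  obtain ⟨m, hm⟩ := hK j₁
  obtain ⟨j₂, hj₂⟩ := h4 (ε / (512 * Fintype.card ι * (m + 1) * (b + 1))) (by positivity)
  set j := max j₁ j₂ with hj
  have l1 : j₁ ≤ j + a := (le_max_left _ _).trans (Nat.le_add_right _ _)
  have l2 : j ≤ j + a := Nat.le_add_right _ _
  have l3 : j + a ≤ j + a + a := Nat.le_add_right _ _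
  set u : Z ⧸ Λ j → V := fun y => ((Λ (j + a + a)).relIndex (Λ j) : ℝ)⁻¹ • φ j y with hu
  set δ : Z ⧸ Λ j → ℝ := fun y => ∑ x with pr (hΛ (l2.trans l3)) x = y, ‖φ _ x - u y‖ with hδ
  have h5 : ∀ (y : Z ⧸ Λ j) (S : Finset (Z ⧸ Λ (j + a + a))), (∀ x ∈ S, pr (hΛ (l2.trans l3)) x = y) →
      ‖Φ (U _ (S : Set (Z ⧸ Λ (j + a + a)))) - (#S : ℝ) • u y‖ ≤ δ y := fun y S hS => by
    rw [h0, Nat.cast_smul_eq_nsmul, ← sum_const, ← sum_sub_distrib]
    exact (norm_sum_le _ _).trans (sum_le_sum_of_subset_of_nonneg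
      (fun x hx => mem_filter.2 ⟨mem_univ _, hS x hx⟩) fun _ _ _ => norm_nonneg _)
  have h6 : ∀ x : Z ⧸ Λ (j + a), ‖π g (φ _ x) - φ _ x‖ ≤ 32 * Fintype.card ι *
      (2 * ‖φ _ x - ((Λ (j + a)).relIndex (Λ j₁) : ℝ)⁻¹ • φ j₁ (pr (hΛ l1) x)‖ +
        8 * (m + 1) * δ (pr (hΛ l2) x)) := fun x => by
    obtain ⟨z, rfl⟩ := QuotientAddGroup.mk_surjective x
    obtain ⟨g', rfl⟩ := hg j z
    obtain ⟨s, hs, hs'⟩ := hS j z
    have h7 := kt h hϖ hp hκ hι π hc (hT j z) (φ (j + a) z)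
      (((Λ (j + a)).relIndex (Λ j₁) : ℝ)⁻¹ • φ j₁ z) (m := m) (δ := 0) (fun k hk o ho => by
        simp only [hφ, U_mk, map_smul, (hm j z k hk o ho).1, (hm j z k hk o ho).2, sub_self,
          norm_zero, le_refl, and_self]) g'
    have h8 := h5 z s.toFinset fun x hx => by
      obtain ⟨z', rfl⟩ := QuotientAddGroup.mk_surjective x
      have : z' ∈ cell (Λ j) z := hs (show (z' : Z ⧸ Λ _) ∈ s from Set.mem_toFinset.1 hx)
      rw [pr_mk, eq_comm, QuotientAddGroup.eq]; exact this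
    have h9 := h5 z {x | pr (hΛ l3) x = z} fun x hx => by
      obtain ⟨z', rfl⟩ := QuotientAddGroup.mk_surjective x
      have := congrArg (pr (hΛ l2)) (mem_filter.1 hx).2
      exact this
    rw [h0, ← h1 l3] at h9
    rw [Set.coe_toFinset, ← hs', ← U_mk] at h8
    have h10 := near_of ((π (T j z)).norm_map _) (Nat.cast_nonneg _) (Nat.cast_nonneg _) h8 h9
    refine h7.trans (mul_le_mul_of_nonneg_left ?_ (by positivity))
    rw [pr_mk, pr_mk]
    have : (0 : ℝ) ≤ m + 1 := by positivity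
    nlinarith
  have h11 : ∑ x : Z ⧸ Λ (j + a), δ (pr (hΛ l2) x) ≤
      b * (ε / (512 * Fintype.card ι * (m + 1) * (b + 1))) := by
    rw [← sum_fiberwise univ (pr (hΛ l2))]
    rw [sum_congr rfl (g := fun y => ((Λ (j + a)).relIndex (Λ j) : ℝ) * δ y) fun y _ => by
      rw [sum_congr rfl (g := fun _ => δ y) fun x hx => by rw [(mem_filter.1 hx).2], sum_const,
        card_fib, nsmul_eq_mul], ← mul_sum]
    refine mul_le_mul (by exact_mod_cast hb j) (le_trans (le_of_eq ?_)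
      (hj₂ j _ (l2.trans l3) (le_max_right _ _)))
      (sum_nonneg fun _ _ => sum_nonneg fun _ _ => norm_nonneg _) (Nat.cast_nonneg _)
    rw [← sum_fiberwise univ (pr (hΛ (l2.trans l3)))]
    exact sum_congr rfl fun y _ => sum_congr rfl fun x hx => by rw [(mem_filter.1 hx).2]
  have h12 : Φ Set.univ = ∑ x, φ (j + a) x := by rw [← h0]; simp [U]
  rw [h12, map_sum, ← sum_sub_distrib, zero_add]
  refine (norm_sum_le _ _).trans ((sum_le_sum fun x _ => h6 x).trans ?_)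
  rw [← mul_sum, sum_add_distrib, ← mul_sum, ← mul_sum]
  have h13 := hj₁ j₁ _ l1 le_rfl
  have h14 : (b : ℝ) * (ε / (512 * Fintype.card ι * (m + 1) * (b + 1))) ≤
      ε / (512 * Fintype.card ι * (m + 1)) := by
    rw [← div_div, mul_div_assoc', div_le_iff₀ (by positivity)]
    have : 0 ≤ ε / (512 * Fintype.card ι * (m + 1)) := by positivity
    nlinarith
  calc _ ≤ 32 * Fintype.card ι * (2 * (ε / (128 * Fintype.card ι)) +
        8 * (m + 1) * (ε / (512 * Fintype.card ι * (m + 1)))) := by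
        have := h11.trans h14
        gcongr
    _ = ε := by field_simp; ring

end vm

end Crest.Agent.T24.Vm
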