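import Crest.Agent.N111.Lat.Rep

/-!
# Row 24, module NST + (T): definitions and interface statements.

`G = G₁ × G₂`, `Γ ≤ G` discrete and cocompact, `N` normal in `Γ`, `pr₁ N` dense, the closure of
`pr₂ N` of finite index.  If `G₁` has a Kazhdan pair (`Kaz`) and a solvable subgroup with a contracting
sequence (`Ctr`), then `N` has finite index in `Γ` (`NstStmt`).  `SL_d(F)`, `d ≥ 3`, has both.
-/

set_option autoImplicit false

namespace Crest.Agent.T24.Nst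

open Topology Filter MeasureTheory Crest.Agent.N111

universe u v w

/-- a Kazhdan pair; the representations need not be continuous -/
def Kaz (G : Type u) [Group G] [TopologicalSpace G] : Prop :=
  ∃ (K : Set G) (δ : ℝ), IsCompact K ∧ 0 < δ ∧
    ∀ (H : Type w) [NormedAddCommGroup H] [InnerProductSpace ℂ H] [CompleteSpace H]
      (ρ : URep G H) (x : H), x ≠ 0 → (∀ k ∈ K, ‖ρ k x - x‖ ≤ δ * ‖x‖) →
        ∃ y : H, y ≠ 0 ∧ ∀ g, ρ g y = y

/-- `a n` contracts the set `D` modulo `B` -/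
def Contr {G : Type u} [Group G] [TopologicalSpace G] (B : Subgroup G) (a : ℕ → G) (D : Set G) :
    Prop :=
  IsOpen D ∧ Dense D ∧
    ∀ g ∈ D, ∃ b : ℕ → G, (∀ n, b n ∈ B) ∧ Tendsto (fun n => a n * g * b n) atTop (𝓝 1)

/-- a solvable subgroup with a contracted open dense cell -/
def Ctr (G : Type u) [Group G] [TopologicalSpace G] : Prop :=
  ∃ (B : Subgroup G) (a : ℕ → G) (D : Set G), Group.IsSolvable B ∧ Contr B a D

/-- what is used of a non-archimedean local field with at least `q` residue classes -/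
structure LocF {F : Type u} [Field F] [TopologicalSpace F] (O : Subring F) (π : F) (q : ℕ) :
    Prop where
  cpt : IsCompact (O : Set F)
  ne : π ≠ 0
  tend : Tendsto (fun n : ℕ => π ^ n) atTop (𝓝 0)
  abs : ∀ x : F, ∃ n : ℕ, π ^ n * x ∈ O
  res : ∃ t : Fin q → F, (∀ i, t i ∈ O) ∧ ∀ i j, i ≠ j → t i ≠ t j ∧ (t i - t j)⁻¹ ∈ O

/-- discrete and cocompact -/
structure Lat {G : Type u} [Group G] [TopologicalSpace G] (Γ : Subgroup G) : Prop where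
  disc : ∃ U ∈ 𝓝 (1 : G), ∀ γ ∈ Γ, γ ∈ U → γ = 1
  cocpt : ∃ C : Set G, IsCompact C ∧ ∀ x, ∃ γ ∈ Γ, γ⁻¹ * x ∈ C

/-- a measurable equivariant map to the lattice; `{x | c x = 1}` is a strict, relatively compact
fundamental domain -/
structure Coc {G : Type u} [Group G] [TopologicalSpace G] [MeasurableSpace G] (Γ : Subgroup G)
    (c : G → Γ) : Prop where
  meas : ∀ γ, MeasurableSet {x | c x = γ}
  equiv : ∀ (γ : Γ) (x : G), c (γ * x) = γ * c x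
  cpt : ∃ C : Set G, IsCompact C ∧ ∀ x, ((c x : Γ) : G)⁻¹ * x ∈ C

/-- the hypotheses of the normal subgroup theorem, for subgroups -/
structure Setup {G₁ : Type u} {G₂ : Type v} [Group G₁] [TopologicalSpace G₁] [Group G₂]
    [TopologicalSpace G₂] [IsTopologicalGroup G₂] (Γ N : Subgroup (G₁ × G₂)) : Prop where
  lat : Lat Γ
  le : N ≤ Γ
  nrm : ∀ γ ∈ Γ, ∀ n ∈ N, γ * n * γ⁻¹ ∈ N
  dense : Dense (Prod.fst '' (N : Set (G₁ × G₂)))
  fin : (N.map (MonoidHom.snd G₁ G₂)).topologicalClosure.FiniteIndex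

/-- a bounded flow with positive divergence (impossible on an amenable group) -/
def Ponzi (Q : Type u) [Group Q] : Prop :=
  ∃ (k : ℕ) (s : Fin k → Q) (f : Fin k → Q → ℝ) (M ε : ℝ), 0 < ε ∧ (∀ i q, |f i q| ≤ M) ∧
    ∀ q, ε ≤ ∑ i, (f i (s i * q) - f i q)

/-- almost (right) invariant finitely supported vectors in `ℓ²(Q)` -/
def Reiter (Q : Type u) [Group Q] : Prop :=
  ∀ (S : Finset Q) (δ : ℝ), 0 < δ → ∃ φ : Q → ℝ, (Function.support φ).Finite ∧ φ ≠ 0 ∧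
    ∀ s ∈ S, ∑' q, (φ (q * s) - φ q) ^ 2 ≤ δ * ∑' q, φ q ^ 2

/-- property (T) for `SL_d(F)` -/
def KazStmt : Prop :=
  ∀ (F : Type u) [Field F] [TopologicalSpace F] [IsTopologicalRing F] (O : Subring F) (π : F)
    (d : ℕ), LocF O π 5 → 3 ≤ d → Kaz.{u, w} (Matrix.SpecialLinearGroup (Fin d) F)

/-- Borel subgroup, big cell and contraction in `SL_d(F)` -/
def CtrStmt : Prop :=
  ∀ (F : Type u) [Field F] [TopologicalSpace F] [IsTopologicalDivisionRing F] [T2Space F] (π : F)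
    (d : ℕ), π ≠ 0 → Tendsto (fun n : ℕ => π ^ n) atTop (𝓝 0) → 0 < d →
      Ctr (Matrix.SpecialLinearGroup (Fin d) F)

/-- Markov–Kakutani for solvable groups -/
def MkStmt : Prop :=
  ∀ (E : Type u) [AddCommGroup E] [Module ℝ E] [TopologicalSpace E] [IsTopologicalAddGroup E]
    [ContinuousSMul ℝ E] [T2Space E] (B : Type v) [Group B] [Group.IsSolvable B]
    (ρ : B →* (E →L[ℝ] E)) (K : Set E), IsCompact K → Convex ℝ K → K.Nonempty →
      (∀ b, ∀ x ∈ K, ρ b x ∈ K) → ∃ x ∈ K, ∀ b, ρ b x = x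

/-- Hahn–Banach -/
def HbStmt : Prop := ∀ (Q : Type u) [Group Q], ¬ Ponzi Q → Reiter Q

/-- the dual of `L¹` -/
def DualStmt : Prop :=
  ∀ (α : Type u) [MeasurableSpace α] (μ : Measure α) [SigmaFinite μ] (Λ : Lp ℝ 1 μ →L[ℝ] ℝ),
    ∃ f : α → ℝ, Measurable f ∧ (∀ x, |f x| ≤ ‖Λ‖) ∧ ∀ ξ : Lp ℝ 1 μ, Λ ξ = ∫ x, f x * ξ x ∂μ

/-- a bounded flow can be made right invariant under a solvable subgroup -/
def FixStmt : Prop :=
  ∀ (G : Type u) [Group G] [MeasurableSpace G] [MeasurableMul G] (μ : Measure G) [SigmaFinite μ]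
    [μ.IsMulLeftInvariant] [μ.IsMulRightInvariant] (N B : Subgroup G) [Countable N]
    [Group.IsSolvable B]
    (k : ℕ) (s : Fin k → G) (f : Fin k → G → ℝ) (M ε : ℝ), (∀ i, Measurable (f i)) →
    (∀ i x, |f i x| ≤ M) → (∀ i, ∀ n ∈ N, ∀ x, f i (n * x) = f i x) →
    (∀ x, ε ≤ ∑ i, (f i (s i * x) - f i x)) →
    ∃ f' : Fin k → G → ℝ, (∀ i, Measurable (f' i)) ∧ (∀ i x, |f' i x| ≤ M) ∧
      (∀ i, ∀ n ∈ N, ∀ x, f' i (n * x) = f' i x) ∧
      (∀ᵐ x ∂μ, ε ≤ ∑ i, (f' i (s i * x) - f' i x)) ∧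
      ∀ i, ∀ b ∈ B, ∀ᵐ x ∂μ, f' i (x * b) = f' i x

/-- fundamental domain and unimodularity -/
def FdStmt : Prop :=
  ∀ (G : Type u) [Group G] [TopologicalSpace G] [IsTopologicalGroup G] [LocallyCompactSpace G]
    [SecondCountableTopology G] [T2Space G] [MeasurableSpace G] [BorelSpace G] (Γ : Subgroup G),
    Lat Γ → Countable Γ ∧ (∀ K : Set G, IsCompact K → {γ : Γ | (γ : G) ∈ K}.Finite) ∧
      (∃ c : G → Γ, Coc Γ c) ∧ ∀ (μ : Measure G) [μ.IsHaarMeasure], μ.IsMulRightInvariant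

/-- continuity of translations -/
def ContStmt : Prop :=
  ∀ (G : Type u) [Group G] [TopologicalSpace G] [IsTopologicalGroup G] [LocallyCompactSpace G]
    [SecondCountableTopology G] [T2Space G] [MeasurableSpace G] [BorelSpace G] (μ : Measure G)
    [μ.IsHaarMeasure] (f : G → ℝ) (M : ℝ) (K : Set G), Measurable f → (∀ x, |f x| ≤ M) →
    IsCompact K → (Continuous fun x => ∫ y in K, f (x * y) ∂μ) ∧
      (μ.IsMulRightInvariant →
        Tendsto (fun t => ∫⁻ x in K, ‖f (x * t) - f x‖ₑ ∂μ) (𝓝 1) (𝓝 0))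

/-- the common end of both halves -/
def EndStmt : Prop :=
  ∀ (G₁ : Type u) (G₂ : Type v) [Group G₁] [TopologicalSpace G₁] [IsTopologicalGroup G₁] [Group G₂]
    [TopologicalSpace G₂] [IsTopologicalGroup G₂] (N : Subgroup (G₁ × G₂)),
    Dense (Prod.fst '' (N : Set (G₁ × G₂))) →
    (N.map (MonoidHom.snd G₁ G₂)).topologicalClosure.FiniteIndex →
    ∃ H : Subgroup (G₁ × G₂), H.Normal ∧ H.FiniteIndex ∧ ∀ p : G₁ × G₂ → ℝ, Continuous p →
      (∀ n ∈ N, ∀ x, p (n * x) = p x) →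
      ((∀ (g : G₁) x, p ((g, 1) * x) = p x) ∨ ∀ n ∈ N, ∀ x, p ((1, n.2) * x) = p x) →
      ∀ h ∈ H, ∀ x, p (h * x) = p x

/-- the contraction argument -/
def CtStmt : Prop :=
  ∀ (G₁ : Type u) (G₂ : Type v) [Group G₁] [TopologicalSpace G₁] [IsTopologicalGroup G₁]
    [LocallyCompactSpace G₁] [SecondCountableTopology G₁] [T2Space G₁] [MeasurableSpace G₁]
    [BorelSpace G₁] [Group G₂] [TopologicalSpace G₂] [IsTopologicalGroup G₂]
    [LocallyCompactSpace G₂] [SecondCountableTopology G₂] [T2Space G₂] [MeasurableSpace G₂]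
    [BorelSpace G₂] (μ₁ : Measure G₁) (μ₂ : Measure G₂) [μ₁.IsHaarMeasure] [μ₂.IsHaarMeasure]
    [(μ₁.prod μ₂).IsMulRightInvariant] (Γ N : Subgroup (G₁ × G₂)) (B : Subgroup G₁) (a : ℕ → G₁)
    (D : Set G₁) (f : G₁ × G₂ → ℝ) (M : ℝ) (U₁ : Set G₁) (U₂ : Set G₂),
    (∃ C : Set (G₁ × G₂), IsCompact C ∧ ∀ x, ∃ γ ∈ Γ, γ⁻¹ * x ∈ C) →
    (∀ γ ∈ Γ, ∀ n ∈ N, γ * n * γ⁻¹ ∈ N) → Contr B a D → Measurable f → (∀ x, |f x| ≤ M) →
    (∀ n ∈ N, ∀ x, f (n * x) = f x) → (∀ b ∈ B, ∀ᵐ x ∂(μ₁.prod μ₂), f (x * (b, 1)) = f x) →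
    IsCompact U₁ → IsCompact U₂ → ∀ n ∈ N, ∀ x,
      ∫ y in U₁ ×ˢ U₂, f ((1, n.2) * x * y) ∂(μ₁.prod μ₂) =
        ∫ y in U₁ ×ˢ U₂, f (x * y) ∂(μ₁.prod μ₂)

/-- the amenable half -/
def AmStmt : Prop :=
  ∀ (G₁ : Type u) (G₂ : Type v) [Group G₁] [TopologicalSpace G₁] [IsTopologicalGroup G₁]
    [LocallyCompactSpace G₁] [SecondCountableTopology G₁] [T2Space G₁] [Group G₂]
    [TopologicalSpace G₂] [IsTopologicalGroup G₂] [LocallyCompactSpace G₂]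
    [SecondCountableTopology G₂] [T2Space G₂] (Γ N : Subgroup (G₁ × G₂)) (Q : Type w) [Group Q]
    (κ : Γ →* Q), Function.Surjective κ → (∀ γ : Γ, κ γ = 1 ↔ (γ : G₁ × G₂) ∈ N) →
    Setup Γ N → Ctr G₁ → ¬ Ponzi Q

/-- the (T) half -/
def ThStmt : Prop :=
  ∀ (G₁ : Type u) (G₂ : Type v) [Group G₁] [TopologicalSpace G₁] [IsTopologicalGroup G₁]
    [LocallyCompactSpace G₁] [SecondCountableTopology G₁] [T2Space G₁] [Group G₂]
    [TopologicalSpace G₂] [IsTopologicalGroup G₂] [LocallyCompactSpace G₂]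
    [SecondCountableTopology G₂] [T2Space G₂] (Γ N : Subgroup (G₁ × G₂)) (Q : Type w) [Group Q]
    (κ : Γ →* Q), Function.Surjective κ → (∀ γ : Γ, κ γ = 1 ↔ (γ : G₁ × G₂) ∈ N) →
    Setup Γ N → Kaz.{u, max u v} G₁ → Reiter Q → Finite Q

/-- **the normal subgroup theorem** for `SL_d(F) × G₂` -/
def NstStmt : Prop :=
  ∀ (F : Type u) [Field F] [TopologicalSpace F] [IsTopologicalDivisionRing F]
    [LocallyCompactSpace F] [SecondCountableTopology F] [T2Space F] (O : Subring F) (π : F) (d : ℕ)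
    (G₂ : Type v) [Group G₂] [TopologicalSpace G₂] [IsTopologicalGroup G₂] [LocallyCompactSpace G₂]
    [SecondCountableTopology G₂] [T2Space G₂] (Γ : Type w) [Group Γ]
    (ι₁ : Γ →* Matrix.SpecialLinearGroup (Fin d) F) (ι₂ : Γ →* G₂) (N : Subgroup Γ),
    LocF O π 5 → 3 ≤ d → N.Normal →
    (∃ U₁ ∈ 𝓝 (1 : Matrix.SpecialLinearGroup (Fin d) F), ∃ U₂ ∈ 𝓝 (1 : G₂),
      ∀ γ, ι₁ γ ∈ U₁ → ι₂ γ ∈ U₂ → γ = 1) →
    (∃ C₁ C₂, IsCompact C₁ ∧ IsCompact C₂ ∧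
      ∀ x₁ x₂, ∃ γ, (ι₁ γ)⁻¹ * x₁ ∈ C₁ ∧ (ι₂ γ)⁻¹ * x₂ ∈ C₂) →
    Dense (ι₁ '' (N : Set Γ)) → (N.map ι₂).topologicalClosure.FiniteIndex → N.FiniteIndex

end Crest.Agent.T24.Nst
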