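import Crest.Agent.T24.OpnB_6

/-!
# Row 24: local openness toolkit, part 3 (helper6): tangent curves

A multiplicatively closed set whose tangent vectors at `1` fill the Lie algebra contains a neighbourhood
of `1` in the group (`Aˣ`, `U`, `SL`, `SU`).
-/

set_option autoImplicit false

noncomputable section

namespace Crest.Agent.T24.Opn

open Filter Topology Finset Polynomial

section Curves

variable (F : Type*) [NontriviallyNormedField F] [CompleteSpace F]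
variable {A : Type*} [Ring A] [Algebra F A] [FiniteDimensional F A]
  [t : TopologicalSpace A] [IsTopologicalAddGroup A] [ContinuousSMul F A] [T2Space A] {τ : A →+ A}

/-- tangent vectors at `1` of curves in `H` -/
def Tan {A : Type*} [Ring A] [Algebra F A] [TopologicalSpace A] [ContinuousSMul F A] (H : Set A) :
    Set A :=
  {X | ∃ γ : F → A, HasStrictDerivAt γ X 0 ∧ γ 0 = 1 ∧ ∀ᶠ s in 𝓝 0, γ s ∈ H}

variable {F}

theorem sd_mul {γ δ : F → A} {X Y : A} {s : F} (h : HasStrictDerivAt γ X s)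
    (h' : HasStrictDerivAt δ Y s) :
    HasStrictDerivAt (fun s => γ s * δ s) (X * δ s + γ s * Y) s := by
  obtain rfl := top_nrmR F A
  let _ := nrmR F A
  let _ := nrmA F A
  exact h.mul h'

theorem sd_add {γ δ : F → A} {X Y : A} {s : F} (h : HasStrictDerivAt γ X s)
    (h' : HasStrictDerivAt δ Y s) : HasStrictDerivAt (fun s => γ s + δ s) (X + Y) s := by
  obtain rfl := top_nrmR F A
  let _ := nrmR F A
  let _ := nrmA F A
  exact h.add h'

theorem sd_line (a X : A) (s : F) : HasStrictDerivAt (fun s : F => a + s • X) X s := by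
  obtain rfl := top_nrmR F A
  let _ := nrmR F A
  let _ := nrmA F A
  simpa using ((hasStrictDerivAt_id s).smul_const X).const_add a

theorem sd_const (a : A) (s : F) : HasStrictDerivAt (fun _ : F => a) 0 s := by
  simpa using sd_line a 0 s

theorem sd_lin {γ : F → A} {X : A} {s : F} (h : HasStrictDerivAt γ X s) (L : A →ₗ[F] A) :
    HasStrictDerivAt (fun s => L (γ s)) (L X) s := by
  obtain rfl := top_nrmR F A
  let _ := nrmR F A
  let _ := nrmA F A
  exact (LinearMap.toContinuousLinearMap L).hasStrictFDerivAt.comp_hasStrictDerivAt s h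

theorem sd_inverse {γ : F → A} {X : A} {s : F} (h : HasStrictDerivAt γ X s) (hu : IsUnit (γ s)) :
    HasStrictDerivAt (fun s => Ring.inverse (γ s))
      (-(Ring.inverse (γ s) * X * Ring.inverse (γ s))) s := by
  obtain rfl := top_nrmR F A
  let _ := nrmR F A
  let _ := nrmA F A
  have := FiniteDimensional.complete F A
  obtain ⟨u, hu⟩ := hu
  have := (hasStrictFDerivAt_ringInverse (𝕜 := F) u).comp_hasStrictDerivAt_of_eq s h hu
  rw [← hu, Ring.inverse_unit]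
  exact this

theorem sd_scale {γ : F → A} {X : A} (h : HasStrictDerivAt γ X 0) (c : F) :
    HasStrictDerivAt (fun s => γ (c * s)) (c • X) 0 := by
  obtain rfl := top_nrmR F A
  let _ := nrmR F A
  let _ := nrmA F A
  have := h.scomp_of_eq (0 : F) ((hasStrictDerivAt_id (0 : F)).const_mul c) (by simp)
  rw [mul_one] at this
  exact this

theorem sd_continuousAt {γ : F → A} {X : A} {s : F} (h : HasStrictDerivAt γ X s) :
    ContinuousAt γ s := by
  obtain rfl := top_nrmR F A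
  let _ := nrmR F A
  let _ := nrmA F A
  exact h.hasDerivAt.continuousAt

theorem sd_pow {γ : F → A} {X : A} (h : HasStrictDerivAt γ X 0) (h0 : γ 0 = 1) (n : ℕ) :
    HasStrictDerivAt (fun s => γ s ^ n) (n • X) 0 := by
  induction n with
  | zero => simpa using sd_const (1 : A) (0 : F)
  | succ n ih => simpa [pow_succ, h0, add_mul] using sd_mul ih h

theorem sd_cay (X : A) : HasStrictDerivAt (fun s : F => cay (s • X)) (X + X) 0 := by
  have h1 := sd_line (1 : A) X (0 : F)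
  have h2 := sd_inverse (sd_line (1 : A) (-X) (0 : F)) (by simp)
  simpa [cay, sub_eq_add_neg] using sd_mul h1 h2

omit [CompleteSpace F] [FiniteDimensional F A] [IsTopologicalAddGroup A] [T2Space A] in
theorem Tan.mono {H H' : Set A} (h : H ⊆ H') : Tan F H ⊆ Tan F H' :=
  fun _ ⟨γ, h1, h2, h3⟩ => ⟨γ, h1, h2, h3.mono fun _ hs => h hs⟩

theorem Tan.inter {H V : Set A} (hV : V ∈ 𝓝 (1 : A)) {X : A} (h : X ∈ Tan F H) :
    X ∈ Tan F (H ∩ V) := by
  obtain ⟨γ, h1, h2, h3⟩ := h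
  exact ⟨γ, h1, h2, h3.and ((sd_continuousAt h1).tendsto (h2 ▸ hV))⟩

theorem Tan.zero {H : Set A} (h : (1 : A) ∈ H) : (0 : A) ∈ Tan F H :=
  ⟨_, sd_const 1 0, rfl, .of_forall fun _ => h⟩

theorem Tan.smul {H : Set A} {X : A} (h : X ∈ Tan F H) (c : F) : c • X ∈ Tan F H := by
  obtain ⟨γ, h1, h2, h3⟩ := h
  refine ⟨_, sd_scale h1 c, by simpa using h2, ?_⟩
  have : Tendsto (fun s : F => c * s) (𝓝 0) (𝓝 0) := by
    simpa using (tendsto_id (x := 𝓝 (0 : F))).const_mul c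
  exact this.eventually h3

theorem Tan.mul {H H' H'' : Set A} (hm : ∀ x ∈ H, ∀ y ∈ H', x * y ∈ H'') {X Y : A}
    (h : X ∈ Tan F H) (h' : Y ∈ Tan F H') : X + Y ∈ Tan F H'' := by
  obtain ⟨γ, h1, h2, h3⟩ := h
  obtain ⟨δ, k1, k2, k3⟩ := h'
  exact ⟨_, by simpa [h2, k2] using sd_mul h1 k1, by simp [h2, k2],
    (h3.and k3).mono fun _ hs => hm _ hs.1 _ hs.2⟩

theorem Tan.lin {H H' : Set A} (L : A →ₗ[F] A) (h1 : L 1 = 1) (hL : ∀ x ∈ H, L x ∈ H') {X : A}
    (h : X ∈ Tan F H) : L X ∈ Tan F H' := by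
  obtain ⟨γ, k1, k2, k3⟩ := h
  exact ⟨_, sd_lin k1 L, by simp [k2, h1], k3.mono fun _ hs => hL _ hs⟩

/-- conjugation -/
theorem Tan.conj {H H' : Set A} {g g' : A} (hg : g * g' = 1) (hL : ∀ x ∈ H, g * x * g' ∈ H')
    {X : A} (h : X ∈ Tan F H) : g * X * g' ∈ Tan F H' := by
  simpa using Tan.lin (LinearMap.mulLeftRight F (g, g')) (by simpa using hg)
    (by simpa using hL) h

/-- commutators with a fixed unit -/
theorem Tan.comm {G H : Set A} {n n' : A} (hn : n * n' = 1)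
    (hG : ∀ g ∈ G, IsUnit g → g * n * Ring.inverse g * n' ∈ H) {X : A} (h : X ∈ Tan F G) :
    X - n * X * n' ∈ Tan F H := by
  obtain ⟨γ, k1, k2, k3⟩ := h
  have hu : IsUnit (γ 0) := k2 ▸ isUnit_one
  refine ⟨fun s => γ s * n * Ring.inverse (γ s) * n', ?_, by simp [k2, hn], ?_⟩
  · have := sd_mul (sd_mul (sd_mul k1 (sd_const n 0)) (sd_inverse k1 hu)) (sd_const n' 0)
    simpa [k2, add_mul, mul_assoc, hn, sub_eq_add_neg] using this
  · filter_upwards [k3, (sd_continuousAt k1).tendsto.eventually (ev_isUnit F hu)] with s h1 h2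
    exact hG _ h1 h2

variable (F) in
/-- the tangent space of a submonoid -/
def tanS (H : Submonoid A) : Submodule F A where
  carrier := Tan F H
  zero_mem' := Tan.zero H.one_mem
  add_mem' := Tan.mul fun _ hx _ hy => H.mul_mem hx hy
  smul_mem' := fun c _ h => Tan.smul h c

theorem mem_tanS {H : Submonoid A} {X : A} : X ∈ tanS F H ↔ X ∈ Tan F (H : Set A) := Iff.rfl

theorem Tan.univ (X : A) : X ∈ Tan F (Set.univ : Set A) :=
  ⟨_, sd_line 1 X 0, by simp, .of_forall fun _ => trivial⟩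

theorem Tan.subalg (Z : Subalgebra F A) {X : A} (hX : X ∈ Z) : X ∈ Tan F (Z : Set A) :=
  ⟨_, sd_line 1 X 0, by simp, .of_forall fun s => Z.add_mem Z.one_mem (Z.smul_mem hX s)⟩

/-- skew elements of a subalgebra are tangent to its unitary group -/
theorem AntiL.tan_subalg (hτ : AntiL F τ) (h2 : (2 : F) ≠ 0) (Z : Subalgebra F A) {X : A}
    (hX : X ∈ Z) (hs : τ X = -X) : X ∈ Tan F {u | u ∈ Z ∧ τ u * u = 1} := by
  have := topRing F (A := A)
  have h0 : Tendsto (fun s : F => 1 - s • X) (𝓝 0) (𝓝 1) := by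
    simpa using ((tendsto_id (x := 𝓝 (0 : F))).smul_const X).const_sub 1
  have : X + X ∈ Tan F {u | u ∈ Z ∧ τ u * u = 1} := by
    refine ⟨_, sd_cay X, by simp, (h0.eventually (ev_isUnit F isUnit_one)).mono fun s h => ⟨?_, ?_⟩⟩
    · exact Z.mul_mem (Z.add_mem Z.one_mem (Z.smul_mem hX s))
        (inverse_mem F Z (Z.sub_mem Z.one_mem (Z.smul_mem hX s)))
    · exact hτ.cay_unitary (by rw [hτ.smul, hs, smul_neg]) h
  simpa [← two_smul F X, smul_smul, h2] using Tan.smul this (2 : F)⁻¹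

theorem AntiL.tan_unitary (hτ : AntiL F τ) (h2 : (2 : F) ≠ 0) {X : A} (hs : τ X = -X) :
    X ∈ Tan F {u | τ u * u = 1} :=
  Tan.mono (fun _ h => h.2) (hτ.tan_subalg h2 ⊤ trivial hs)

/-- tangent vectors to the unitary group are skew -/
theorem AntiL.skew_of_tan (hτ : AntiL F τ) {X : A} (h : X ∈ Tan F {u | τ u * u = 1}) :
    τ X = -X := by
  obtain ⟨γ, k1, k2, k3⟩ := h
  have h1 := sd_mul (sd_lin k1 hτ.lin) k1
  simp only [AntiL.lin_apply, k2, hτ.one, mul_one, one_mul] at h1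
  obtain rfl := top_nrmR F A
  let _ := nrmR F A
  let _ := nrmA F A
  have h2 : HasDerivAt (fun s => τ (γ s) * γ s) 0 0 :=
    (hasDerivAt_const (0 : F) (1 : A)).congr_of_eventuallyEq k3
  exact eq_neg_of_add_eq_zero_left (h1.hasDerivAt.unique h2)

/-- The submersion theorem.  `H₁`, `H₂` submonoids, `ψ` a linear chart that is injective on `G` near `1`. -/
theorem open_of_tan {H₁ H₂ : Submonoid A} {G : Set A} (hG : ∀ x ∈ H₁, ∀ y ∈ H₂, x * y ∈ G)
    (W : Submodule F A) (ψ : A →ₗ[F] W) (hψ : ∃ V ∈ 𝓝 (1 : A), Set.InjOn ψ (G ∩ V))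
    (hs : (tanS F H₁ ⊔ tanS F H₂).map ψ = ⊤) {V : Set A} (hV : V ∈ 𝓝 (1 : A)) :
    ∀ᶠ u in 𝓝 (1 : A), u ∈ G → ∃ x ∈ H₁, ∃ y ∈ H₂, x ∈ V ∧ y ∈ V ∧ u = x * y := by
  obtain ⟨V0, hV0, hinj⟩ := hψ
  have hψc : Continuous ψ := ψ.continuous_of_finiteDimensional
  obtain rfl := top_nrmR F A
  let _ := nrmR F A
  let _ := nrmA F A
  have := FiniteDimensional.complete F A
  have := FiniteDimensional.complete F W
  have key : ∀ H : Submonoid A, ∃ (f : A → A) (f' : A →L[F] A), HasStrictFDerivAt f f' 0 ∧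
      f 0 = 1 ∧ (∀ᶠ e in 𝓝 0, f e ∈ H) ∧ tanS F H ≤ f'.range := fun H => by
    set b := Module.finBasis F (tanS F H)
    have hl : ∀ i, ∃ l : A →L[F] F, ∀ j, l (b j) = if i = j then 1 else 0 := fun i => by
      obtain ⟨l, hl⟩ := LinearMap.exists_extend (b.coord i)
      refine ⟨LinearMap.toContinuousLinearMap l, fun j => ?_⟩
      have := LinearMap.congr_fun hl (b j)
      simpa [Finsupp.single_apply, eq_comm] using this
    choose l hl using hl
    have hγ := fun i => (b i).2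
    choose γ h1 h2 h3 using hγ
    have : ∀ L : List (Fin (Module.finrank F (tanS F H))), ∃ (f : A → A),
        HasStrictFDerivAt f ((L.map fun i => (l i).smulRight (b i : A)).sum) 0 ∧ f 0 = 1 ∧
        ∀ᶠ e in 𝓝 0, f e ∈ H := fun L => by
      induction L with
      | nil => exact ⟨fun _ => 1, hasStrictFDerivAt_const _ _, rfl, .of_forall fun _ => H.one_mem⟩
      | cons i L ih =>
        obtain ⟨f, k1, k2, k3⟩ := ih
        have hi : HasStrictFDerivAt (γ i ∘ l i) ((l i).smulRight (b i : A)) 0 := by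
          have h1' := (h1 i).hasStrictFDerivAt
          rw [← map_zero (l i)] at h1'
          refine (h1'.comp 0 (l i).hasStrictFDerivAt).congr_fderiv ?_
          ext x; simp
        refine ⟨(γ i ∘ l i) * f, ?_, by simp [k2, h2], ?_⟩
        · refine (hi.mul' k1).congr_fderiv ?_
          ext x; simp [h2, k2, add_comm]
        · have : Tendsto (l i) (𝓝 0) (𝓝 0) := by simpa using (l i).continuous.tendsto 0
          filter_upwards [this.eventually (h3 i), k3] with e he he'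
          exact H.mul_mem he he'
    obtain ⟨f, k1, k2, k3⟩ := this (List.finRange _)
    refine ⟨f, _, k1, k2, k3, fun X hX => ?_⟩
    have hb : ∀ j, (b j : A) ∈ (((List.finRange _).map
        fun i => (l i).smulRight (b i : A)).sum).range := fun j => by
      refine ⟨b j, ?_⟩
      rw [← Fin.sum_univ_def]
      simp [hl]
    have := congrArg Subtype.val (b.sum_repr ⟨X, hX⟩)
    simp only [AddSubmonoidClass.coe_finsetSum, SetLike.val_smul] at this
    rw [← this]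
    exact Submodule.sum_mem _ fun j _ => Submodule.smul_mem _ _ (hb j)
  obtain ⟨f, f', k1, k2, k3, k4⟩ := key H₁
  obtain ⟨g, g', l1, l2, l3, l4⟩ := key H₂
  have hf := k1.comp ((0, 0) : A × A) (hasStrictFDerivAt_fst (𝕜 := F))
  have hg := l1.comp ((0, 0) : A × A) (hasStrictFDerivAt_snd (𝕜 := F))
  have hfg := hf.mul' hg
  have hm := ((LinearMap.toContinuousLinearMap ψ).hasStrictFDerivAt.comp _ hfg).map_nhds_eq_of_surj (by
    rw [eq_top_iff, ← hs]
    rintro _ ⟨X, hX, rfl⟩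
    obtain ⟨X1, h1, X2, h2, rfl⟩ := Submodule.mem_sup.1 hX
    obtain ⟨a, rfl⟩ := k4 h1
    obtain ⟨b, rfl⟩ := l4 h2
    exact ⟨(a, b), by simp [k2, l2, add_comm]⟩)
  have hN : {e : A × A | (f e.1 ∈ H₁ ∧ f e.1 ∈ V) ∧ (g e.2 ∈ H₂ ∧ g e.2 ∈ V) ∧
      f e.1 * g e.2 ∈ V0} ∈ 𝓝 ((0, 0) : A × A) := by
    refine ((continuous_fst.tendsto _).eventually (k3.and (k1.continuousAt (k2 ▸ hV)))).and
      (((continuous_snd.tendsto _).eventually (l3.and (l1.continuousAt (l2 ▸ hV)))).and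
        (hfg.continuousAt ?_))
    simpa [k2, l2] using hV0
  have h3 := hm.ge (image_mem_map hN)
  simp only [Pi.mul_apply, k2, l2, mul_one] at h3
  filter_upwards [hψc.tendsto 1 h3, hV0] with u hu huV huG
  obtain ⟨e, ⟨⟨e1, e2⟩, ⟨e3, e4⟩, e5⟩, he⟩ := hu
  exact ⟨_, e1, _, e3, e2, e4, (hinj ⟨hG _ e1 _ e3, e5⟩ ⟨huG, huV⟩ he).symm⟩

/-- `u ↦ u - u⁻¹` is injective near `1` -/
theorem AntiL.chart_inj (hτ : AntiL F τ) (h2 : (2 : F) ≠ 0) :
    ∃ V ∈ 𝓝 (1 : A), Set.InjOn (fun u => u - τ u) ({u | τ u * u = 1} ∩ V) := by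
  obtain rfl := top_nrmR F A
  let _ := nrmR F A
  let _ := nrmA F A
  have := FiniteDimensional.complete F A
  have h1 : HasStrictFDerivAt (fun u : A => u - Ring.inverse u)
      ((ContinuousLinearEquiv.smulLeft (Units.mk0 (2 : F) h2) : A ≃L[F] A) : A →L[F] A) 1 := by
    refine ((hasStrictFDerivAt_id (1 : A)).sub
      (hasStrictFDerivAt_ringInverse (𝕜 := F) (1 : Aˣ))).congr_fderiv ?_
    ext x; simp [two_smul]
  refine ⟨_, (h1.toOpenPartialHomeomorph _).open_source.mem_nhds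
    h1.mem_toOpenPartialHomeomorph_source, fun u hu v hv e => ?_⟩
  refine (h1.toOpenPartialHomeomorph _).injOn hu.2 hv.2 ?_
  simp only [HasStrictFDerivAt.toOpenPartialHomeomorph_coe, inverse_eq (hτ.unit hu.1) hu.1,
    inverse_eq (hτ.unit hv.1) hv.1]
  exact e

/-- (O6) two submonoids of the unitary group whose tangent spaces span the skew elements -/
theorem AntiL.open_of_tan (hτ : AntiL F τ) (h2 : (2 : F) ≠ 0) {H₁ H₂ : Submonoid A}
    (hH₁ : ∀ x ∈ H₁, τ x * x = 1) (hH₂ : ∀ x ∈ H₂, τ x * x = 1)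
    (hs : ∀ X, τ X = -X → X ∈ tanS F H₁ ⊔ tanS F H₂) {V : Set A} (hV : V ∈ 𝓝 (1 : A)) :
    ∀ᶠ u in 𝓝 (1 : A), τ u * u = 1 → ∃ x ∈ H₁, ∃ y ∈ H₂, x ∈ V ∧ y ∈ V ∧ u = x * y := by
  obtain ⟨V0, hV0, hinj⟩ := hτ.chart_inj h2
  refine Opn.open_of_tan (G := {u | τ u * u = 1})
    (fun x hx y hy => hτ.unitary_mul (hH₁ x hx) (hH₂ y hy)) hτ.skew
    ((LinearMap.id - hτ.lin).codRestrict _ fun x => hτ.mem_skew.2 (by simp [hτ.inv]))
    ⟨V0, hV0, fun u hu v hv e => hinj hu hv (congrArg Subtype.val e)⟩ ?_ hV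
  rw [eq_top_iff]
  rintro ⟨X, hX⟩ -
  have hX' := hτ.mem_skew.1 hX
  refine ⟨(2 : F)⁻¹ • X, Submodule.smul_mem _ _ (hs X hX'), Subtype.ext ?_⟩
  simp [hX', ← two_smul F X, smul_smul, h2]

/-- one submonoid -/
theorem AntiL.open_of_tan' (hτ : AntiL F τ) (h2 : (2 : F) ≠ 0) {H : Submonoid A}
    (hH : ∀ x ∈ H, τ x * x = 1) (hs : ∀ X, τ X = -X → X ∈ Tan F (H : Set A)) :
    ∀ᶠ u in 𝓝 (1 : A), τ u * u = 1 → u ∈ H := by
  filter_upwards [hτ.open_of_tan h2 hH hH (fun X hX => Submodule.mem_sup_left (hs X hX)) univ_mem]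
    with u hu h
  obtain ⟨x, hx, y, hy, -, -, rfl⟩ := hu h
  exact H.mul_mem hx hy

theorem open_of_tan_top {H₁ H₂ : Submonoid A} (hs : tanS F H₁ ⊔ tanS F H₂ = ⊤) {V : Set A}
    (hV : V ∈ 𝓝 (1 : A)) : ∀ᶠ u in 𝓝 (1 : A), ∃ x ∈ H₁, ∃ y ∈ H₂, x ∈ V ∧ y ∈ V ∧ u = x * y := by
  filter_upwards [open_of_tan (G := Set.univ) (fun _ _ _ _ => trivial) ⊤
    (Submodule.topEquiv.symm : A ≃ₗ[F] (⊤ : Submodule F A)).toLinearMap
    ⟨_, univ_mem, (Submodule.topEquiv.symm.injective).injOn⟩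
    (by rw [hs, Submodule.map_top, LinearEquiv.range]) hV] with u hu
  exact hu trivial

/-! ## Norm one groups -/

/-- a reduced norm: multiplicative, `z ↦ z ^ d` on the central subalgebra `Z` -/
structure Nrm (Z : Subalgebra F A) (d : ℕ) (N : A → A) : Prop where
  mul : ∀ x y, N (x * y) = N x * N y
  cen : ∀ z ∈ Z, ∀ x, Commute z x
  mem : ∀ x, N x ∈ Z
  pow : ∀ z ∈ Z, N z = z ^ d
  cont : ContinuousAt N 1
  ne : (d : F) ≠ 0

/-- (O6) for `SU` -/
theorem AntiL.open_special (hτ : AntiL F τ) (h2 : (2 : F) ≠ 0) {Z : Subalgebra F A} {d : ℕ}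
    {N : A → A} (hN : Nrm Z d N) {H : Submonoid A} (hH : ∀ x ∈ H, τ x * x = 1 ∧ N x = 1)
    (hs : ∀ X, τ X = -X → ∃ z ∈ Z, τ z = -z ∧ X - z ∈ Tan F (H : Set A)) :
    ∀ᶠ u in 𝓝 (1 : A), τ u * u = 1 → N u = 1 → u ∈ H := by
  let H₁ : Submonoid A :=
    { carrier := {u | u ∈ Z ∧ τ u * u = 1}
      one_mem' := ⟨Z.one_mem, by rw [hτ.one, mul_one]⟩
      mul_mem' := fun hx hy => ⟨Z.mul_mem hx.1 hy.1, hτ.unitary_mul hx.2 hy.2⟩ }
  filter_upwards [hτ.open_of_tan h2 (H₁ := H₁) (H₂ := H) (fun x hx => hx.2) (fun x hx => (hH x hx).1)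
    (fun X hX => by
      obtain ⟨z, hz, hz', h⟩ := hs X hX
      exact Submodule.mem_sup.2 ⟨z, hτ.tan_subalg h2 Z hz hz', _, h, add_sub_cancel _ _⟩)
    (eq_one_of_pow F hN.ne)] with u hu h h'
  obtain ⟨x, hx, y, hy, hx1, -, rfl⟩ := hu h
  rw [hN.mul, (hH y hy).2, mul_one, hN.pow x hx.1] at h'
  rw [hx1 h', one_mul]; exact hy

/-- (O6) for `SL` -/
theorem open_special {Z : Subalgebra F A} {d : ℕ} {N : A → A} (hN : Nrm Z d N) {H : Submonoid A}
    (hH : ∀ x ∈ H, N x = 1) (hs : ∀ X, ∃ z ∈ Z, X - z ∈ Tan F (H : Set A)) :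
    ∀ᶠ u in 𝓝 (1 : A), N u = 1 → u ∈ H := by
  filter_upwards [open_of_tan_top (F := F) (H₁ := Z.toSubmonoid) (H₂ := H)
    (eq_top_iff.2 fun X _ => by
      obtain ⟨z, hz, h⟩ := hs X
      exact Submodule.mem_sup.2 ⟨z, Tan.subalg Z hz, _, h, add_sub_cancel _ _⟩)
    (eq_one_of_pow F hN.ne)] with u hu h'
  obtain ⟨x, hx, y, hy, hx1, -, rfl⟩ := hu
  rw [hN.mul, hH y hy, mul_one, hN.pow x hx] at h'
  rw [hx1 h', one_mul]; exact hy

omit [CompleteSpace F] [FiniteDimensional F A] [IsTopologicalAddGroup A] [T2Space A]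
  [ContinuousSMul F A] in
theorem Nrm.tendsto {Z : Subalgebra F A} {d : ℕ} {N : A → A} (hN : Nrm Z d N) :
    Tendsto N (𝓝 1) (𝓝 1) := by
  simpa [hN.pow 1 Z.one_mem] using hN.cont.tendsto

/-- near `1`, `Aˣ = Zˣ · SL` -/
theorem Nrm.split {Z : Subalgebra F A} {d : ℕ} {N : A → A} (hN : Nrm Z d N) {V : Set A}
    (hV : V ∈ 𝓝 (1 : A)) :
    ∀ᶠ u in 𝓝 (1 : A), ∃ c ∈ Z, ∃ s ∈ V, c ∈ V ∧ IsUnit c ∧ N s = 1 ∧ u = c * s := by
  have := topRing F (A := A)
  have hq : Tendsto (fun q : A × A => Ring.inverse q.1 * q.2) (𝓝 1 ×ˢ 𝓝 1) (𝓝 1) := by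
    simpa using ((inverse_continuousAt F (isUnit_one (M := A))).tendsto.comp tendsto_fst).mul
      (tendsto_snd (f := 𝓝 (1 : A)) (g := 𝓝 (1 : A)))
  obtain ⟨W, hW, hW'⟩ := mem_prod_same_iff.1 (hq hV)
  filter_upwards [hW, hN.tendsto.eventually (root_one F hN.ne
    (inter_mem (inter_mem hV hW) (ev_isUnit F isUnit_one)))] with u huW hu
  obtain ⟨c, hc, ⟨⟨hcV, hcW⟩, hcu⟩, hcd⟩ := hu
  have hcZ : c ∈ Z := Algebra.adjoin_le (Set.singleton_subset_iff.2 (hN.mem u)) hc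
  refine ⟨c, hcZ, _, hW' (Set.mk_mem_prod hcW huW), hcV, hcu, ?_,
    (Ring.mul_inverse_cancel_left _ _ hcu).symm⟩
  rw [hN.mul, hN.pow _ (inverse_mem F Z hcZ), ← hcd, Ring.inverse_pow,
    Ring.inverse_mul_cancel _ (hcu.pow d)]

/-- near `1`, `U = Z¹ · SU` -/
theorem AntiL.split (hτ : AntiL F τ) {Z : Subalgebra F A} {d : ℕ} {N : A → A} (hN : Nrm Z d N)
    (hNτ : ∀ x, N (τ x) = τ (N x)) {V : Set A} (hV : V ∈ 𝓝 (1 : A)) :
    ∀ᶠ u in 𝓝 (1 : A), τ u * u = 1 → ∃ c ∈ Z, ∃ s ∈ V, c ∈ V ∧ τ c * c = 1 ∧ τ s * s = 1 ∧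
      N s = 1 ∧ u = c * s := by
  have := topRing F (A := A)
  have hq : Tendsto (fun q : A × A => τ q.1 * q.2) (𝓝 1 ×ˢ 𝓝 1) (𝓝 1) := by
    simpa [hτ.one] using ((hτ.continuous.tendsto 1).comp tendsto_fst).mul
      (tendsto_snd (f := 𝓝 (1 : A)) (g := 𝓝 (1 : A)))
  obtain ⟨W, hW, hW'⟩ := mem_prod_same_iff.1 (hq hV)
  filter_upwards [hW, hN.tendsto.eventually (hτ.root_unitary hN.ne (inter_mem hV hW))]
    with u huW hu h
  obtain ⟨c, hc, ⟨hcV, hcW⟩, hcd, hcu⟩ := hu (by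
    rw [← hNτ, ← hN.mul, h, hN.pow 1 Z.one_mem, one_pow])
  have hcZ : c ∈ Z := Algebra.adjoin_le (Set.singleton_subset_iff.2 (hN.mem u)) hc
  have e : u = c * (τ c * u) := by rw [← mul_assoc, hτ.mul_self hcu, one_mul]
  refine ⟨c, hcZ, _, hW' (Set.mk_mem_prod hcW huW), hcV, hcu,
    hτ.unitary_mul (hτ.unitary_tau hcu) h, ?_, e⟩
  refine ((hτ.unit hcu).pow d).mul_left_cancel ?_
  rw [← hN.pow c hcZ, ← hN.mul, ← e, hN.pow c hcZ, hcd, mul_one]

/-- (O6) a subgroup that contains the commutators of `SU` (near `1`) with enough elements is open in `SU` -/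
theorem AntiL.open_of_comm (hτ : AntiL F τ) (h2 : (2 : F) ≠ 0) {Z : Subalgebra F A} {d : ℕ}
    {N : A → A} (hN : Nrm Z d N) (hNτ : ∀ x, N (τ x) = τ (N x)) {H : Submonoid A}
    (hH : ∀ x ∈ H, τ x * x = 1 ∧ N x = 1) {M : Set A} (hM : ∀ n ∈ M, τ n * n = 1) {V : Set A}
    (hV : V ∈ 𝓝 (1 : A))
    (hc : ∀ n ∈ M, ∀ g ∈ V, τ g * g = 1 → N g = 1 → g * n * τ g * τ n ∈ H)
    (hs : ∀ X, τ X = -X → ∃ z ∈ Z, τ z = -z ∧
      X - z ∈ Submodule.span F {Y | ∃ n ∈ M, ∃ X, τ X = -X ∧ Y = X - n * X * τ n}) :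
    ∀ᶠ u in 𝓝 (1 : A), τ u * u = 1 → N u = 1 → u ∈ H := by
  refine hτ.open_special h2 hN hH fun X hX => ?_
  obtain ⟨z, hz, hz', h⟩ := hs X hX
  refine ⟨z, hz, hz', (Submodule.span_le (p := tanS F H)).2 ?_ h⟩
  rintro _ ⟨n, hn, Y, hY, rfl⟩
  refine Tan.comm (hτ.mul_self (hM n hn)) ?_ (Tan.inter (hτ.split hN hNτ hV) (hτ.tan_unitary h2 hY))
  rintro g ⟨hg, hg'⟩ hgu
  obtain ⟨c, hcZ, s, hsV, -, hcu, hsu, hsN, rfl⟩ := hg' hg
  rw [inverse_eq hgu hg, hτ.mul]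
  have e : c * s * n * (τ s * τ c) = s * n * τ s := by
    rw [← mul_assoc, mul_assoc c, mul_assoc c, (hN.cen c hcZ _).eq, mul_assoc, hτ.mul_self hcu,
      mul_one]
  rw [e]
  exact hc n hn s hsV hsu hsN

end Curves

end Crest.Agent.T24.Opn
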