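import Crest.Agent.T24.SaLoc_92

/-! # Abstract adelic bookkeeping for strong approximation (no restricted products) -/

set_option autoImplicit false
set_option linter.unusedSectionVars false
set_option linter.style.haveILetI false
open Filter Topology

namespace Crest.Agent.T24.Sa

section Comm
variable {A : Type*} [Ring A] [StarRing A] [TopologicalSpace A] [IsTopologicalRing A]
  [ContinuousStar A] [FirstCountableTopology A] [T2Space A] {s : Sc A}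

theorem Sc.Tan_inter {S V : Set A} (hV : V ∈ 𝓝 (1 : A)) {X : A} (hX : X ∈ s.Tan S) :
    X ∈ s.Tan (S ∩ V) := by
  obtain ⟨a, ha, h⟩ := Sc.seq_of_Tan hX
  exact Sc.Tan_of_seq ha (h.and ((Sc.lim1 tendsto_id ha).eventually hV))

/-- the commutator trick -/
theorem Sc.comm_open (g : Good A) {H L : Set A} (hH : UG H) (hL : UG L)
    (hn : ∀ y ∈ L, ∀ x ∈ H, y * x * star y ∈ H) (hLs : ∀ x ∈ comS A, x ∈ s.Tan L) {n : A}
    (h1 : n * star n = 1) (h2 : star n * n = 1) (hc : ∀ x ∈ L, n * x * star n * star x ∈ H)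
    (hnc : ∀ f : A, Cen f → f ≠ 0 → ¬ Cen (f * n)) : ∀ x ∈ comS A, x ∈ s.Tan H := by
  obtain ⟨e, hee, he, -, e1, e2⟩ := g.lie (Sc.TanG (s := s) hH)
    (fun X hX => Sc.Dir_skew (fun _ => hH) (Sc.Tan_sub_Dir hX))
    fun x hx X hX => Sc.Tan_lie hH hL (fun y hy => ⟨1, one_pos, by simpa using hn y hy⟩) hX
      (hLs x hx)
  have : 1 - e = 0 := by
    by_contra hf
    have cf := he.one_sub
    generalize 1 - e = f at hf cf e2
    have a1 : ∀ X ∈ comS A, Cen (f * (n * X * star n - X)) := by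
      intro X hX
      apply e2
      obtain ⟨a, ha, h⟩ := Sc.seq_of_Tan (hLs X hX)
      have t := (((ha.const_mul n).mul_const (star n)).sub ha).mul (Sc.lim1s (s := s) tendsto_id ha)
      rw [mul_one] at t
      refine Sc.Tan_of_seq t (h.mono fun k hk => ?_)
      have h3 := hc _ hk
      have h4 := hL.uni _ hk
      simp only [id]
      generalize star (1 + s.p ^ k * a k) = w at h3 h4 ⊢
      have : n * (1 + s.p ^ k * a k) * star n * w =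
          (1 + s.p ^ k * a k) * w + s.p ^ k * ((n * a k * star n - a k) * w) := by
        rw [mul_add, mul_one, add_mul n, h1, s.mv]; noncomm_ring
      rwa [this, h4] at h3
    have a2 : ∀ u, star u = -u → Cen (f * (n * u * star n - u)) := by
      intro u hu
      obtain ⟨X, hX, hc⟩ := g.skew_dec hu
      have : n * u * star n - u = n * X * star n - X + (n * (u - X) * star n - (u - X)) := by
        noncomm_ring
      rw [this, ← hc n, mul_assoc (u - X), h1, mul_one, sub_self, add_zero]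
      exact a1 X hX
    obtain ⟨θ, θ', hθ, hs, hi⟩ := g.theta
    obtain ⟨h, hh⟩ := g.half
    refine hnc f cf hf (cen_of_dd g.idem hh fun r => ?_)
    obtain ⟨x, y, hx, hy, rfl⟩ := g.dec hθ hs hi r
    have a3 : Cen (f * (n * (x + θ * y) * star n - (x + θ * y))) := by
      have : f * (n * (x + θ * y) * star n - (x + θ * y)) =
          f * (n * x * star n - x) + θ * (f * (n * y * star n - y)) := by
        rw [← mul_assoc θ, hθ f, mul_assoc f θ, mul_sub θ, ← mul_assoc θ, ← mul_assoc θ, hθ n]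
        noncomm_ring
      rw [this]
      exact fun z => by rw [add_mul, mul_add, a2 x hx, (hθ.mul (a2 y hy)) z]
    generalize x + θ * y = r at a3
    have a4 : f * n * r - r * (f * n) = f * (n * r * star n - r) * n := by
      rw [mul_assoc f _ n, sub_mul, mul_assoc _ (star n), h2, mul_one, ← mul_assoc r, ← cf r]
      noncomm_ring
    rw [a4]
    generalize f * (n * r * star n - r) = c at a3
    rw [← mul_assoc, ← a3, mul_assoc c n, ← mul_assoc n, ← cf n, mul_assoc c, sub_self]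
  rw [sub_eq_zero] at this
  intro x hx
  have h3 := e1 x hx
  rwa [← this, one_mul] at h3

end Comm

/-- a group with its local components -/
structure Adl (Γ : Type*) [Group Γ] (G₀ : Type*) [Group G₀] {I : Type*} (G : I → Type*)
    [∀ u, Group (G u)] [∀ u, TopologicalSpace (G u)] where
  j₀ : Γ →* G₀
  j : ∀ u, Γ →* G u
  K : ∀ u, Subgroup (G u)
  opn : ∀ u, IsOpen (K u : Set (G u))
  fin : ∀ γ, {u | j u γ ∉ K u}.Finite

namespace Adl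
variable {Γ : Type*} [Group Γ] {G₀ : Type*} [Group G₀] [TopologicalSpace G₀]
  [IsTopologicalGroup G₀] {I : Type*} [DecidableEq I] {G : I → Type*} [∀ u, Group (G u)]
  [∀ u, TopologicalSpace (G u)] [∀ u, IsTopologicalGroup (G u)] (D : Adl Γ G₀ G)

/-- diagonal -/
def jP : Γ →* G₀ × ∀ u, G u := D.j₀.prod (MonoidHom.pi D.j)

/-- integral off `S` -/
def Gm (S : Set I) : Subgroup Γ where
  carrier := {γ | ∀ u ∉ S, D.j u γ ∈ D.K u}
  one_mem' u _ := by rw [map_one]; exact one_mem _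
  mul_mem' ha hb u hu := by rw [map_mul]; exact mul_mem (ha u hu) (hb u hu)
  inv_mem' ha u hu := by rw [map_inv]; exact inv_mem (ha u hu)

/-- the closure at level `S` -/
def H (N : Subgroup Γ) (S : Set I) : Subgroup (G₀ × ∀ u, G u) :=
  ((N ⊓ D.Gm S).map D.jP).topologicalClosure

theorem closed_H (N : Subgroup Γ) (S : Set I) : IsClosed (D.H N S : Set (G₀ × ∀ u, G u)) :=
  Subgroup.isClosed_topologicalClosure _

theorem H_mono (N : Subgroup Γ) {S S' : Set I} (h : S ⊆ S') : D.H N S ≤ D.H N S' :=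
  closure_mono (Set.image_mono fun _ hγ => ⟨hγ.1, fun u hu => hγ.2 u fun h' => hu (h h')⟩)

theorem mem_H {N : Subgroup Γ} {S : Set I} {γ : Γ} (h : γ ∈ N) (h' : γ ∈ D.Gm S) :
    D.jP γ ∈ D.H N S := subset_closure ⟨γ, ⟨h, h'⟩, rfl⟩

/-- the adelic closure -/
def HH (N : Subgroup Γ) : Subgroup (G₀ × ∀ u, G u) where
  carrier := {x | ∃ S : Set I, S.Finite ∧ x ∈ D.H N S}
  one_mem' := ⟨∅, Set.finite_empty, one_mem _⟩
  mul_mem' := fun ⟨S, hS, h⟩ ⟨S', hS', h'⟩ => ⟨S ∪ S', hS.union hS',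
    mul_mem (D.H_mono N Set.subset_union_left h) (D.H_mono N Set.subset_union_right h')⟩
  inv_mem' := fun ⟨S, hS, h⟩ => ⟨S, hS, inv_mem h⟩

theorem mem_HH {N : Subgroup Γ} {γ : Γ} (h : γ ∈ N) : D.jP γ ∈ D.HH N :=
  ⟨_, D.fin γ, D.mem_H h fun _ hu => not_not.1 hu⟩

theorem loc {N : Subgroup Γ} {S : Set I} {x : G₀ × ∀ u, G u} (hx : x ∈ D.HH N)
    (h : ∀ u ∉ S, x.2 u ∈ D.K u) : x ∈ D.H N S := by
  obtain ⟨S', hS', hx⟩ := hx
  have ho : IsOpen (⋂ u ∈ S' \ S, {y : G₀ × ∀ u, G u | y.2 u ∈ D.K u}) :=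
    hS'.sdiff.isOpen_biInter fun u _ => (D.opn u).preimage (by fun_prop)
  refine closure_mono ?_ (ho.inter_closure ⟨Set.mem_biInter fun u hu => h u hu.2, hx⟩)
  rintro _ ⟨h1, γ, ⟨h2, h3⟩, rfl⟩
  refine ⟨γ, ⟨h2, fun u hu => ?_⟩, rfl⟩
  by_cases h4 : u ∈ S'
  · exact Set.mem_iInter₂.1 h1 u ⟨h4, hu⟩
  · exact h3 u h4

/-- the component at `u` -/
def sg (G₀ : Type*) [Group G₀] (u : I) : G u →* G₀ × ∀ u, G u :=
  (MonoidHom.inr G₀ _).comp (MonoidHom.mulSingle G u)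

theorem continuous_sg (u : I) : Continuous (sg (G := G) G₀ u) :=
  continuous_const.prodMk (continuous_mulSingle u)

/-- the archimedean part of the closure -/
def V₀ (N : Subgroup Γ) : Subgroup G₀ := (D.HH N).comap (MonoidHom.inl _ _)

/-- the part of the closure at `u` -/
def V (N : Subgroup Γ) (u : I) : Subgroup (G u) := (D.HH N).comap (sg G₀ u)

theorem V₀_iff {N : Subgroup Γ} (S : Set I) (hS : S.Finite) {g : G₀} :
    g ∈ D.V₀ N ↔ (g, 1) ∈ D.H N S :=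
  ⟨fun h => D.loc h fun _ _ => one_mem _, fun h => ⟨S, hS, h⟩⟩

theorem V_iff {N : Subgroup Γ} {u : I} {g : G u} : g ∈ D.V N u ↔ sg G₀ u g ∈ D.H N {u} :=
  ⟨fun h => D.loc h fun u' hu => by
    change Pi.mulSingle u g u' ∈ _
    rw [Pi.mulSingle_eq_of_ne hu]; exact one_mem _, fun h => ⟨_, Set.finite_singleton u, h⟩⟩

theorem closed_V₀ (N : Subgroup Γ) : IsClosed (D.V₀ N : Set G₀) := by
  have : (D.V₀ N : Set G₀) = (fun g => (g, 1)) ⁻¹' (D.H N ∅ : Set (G₀ × ∀ u, G u)) :=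
    Set.ext fun _ => D.V₀_iff ∅ Set.finite_empty
  rw [this]; exact (D.closed_H N ∅).preimage (by fun_prop)

theorem closed_V (N : Subgroup Γ) (u : I) : IsClosed (D.V N u : Set (G u)) := by
  have : (D.V N u : Set (G u)) = sg G₀ u ⁻¹' D.H N {u} := Set.ext fun _ => D.V_iff
  rw [this]; exact (D.closed_H N _).preimage (continuous_sg u)

theorem glue {N : Subgroup Γ} {S : Set I} {x : G₀ × ∀ u, G u} (h₀ : x.1 ∈ D.V₀ N)
    (h : ∀ u, x.2 u ∈ D.V N u) (hK : ∀ u ∉ S, x.2 u ∈ D.K u) : x ∈ D.H N S := by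
  let y : Finset I → G₀ × ∀ u, G u := fun F => (x.1, fun u => if u ∈ F then x.2 u else 1)
  have h1 : ∀ F, y F ∈ D.HH N := by
    intro F
    induction F using Finset.induction_on with
    | empty => exact h₀
    | insert a F ha ih =>
      have : y (insert a F) = y F * sg G₀ a (x.2 a) := by
        refine Prod.ext (mul_one _).symm (funext fun u => ?_)
        change _ = (if u ∈ F then x.2 u else 1) * Pi.mulSingle a (x.2 a) u
        by_cases hu : u = a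
        · subst hu; simp [y, ha]
        · simp [y, hu]
      rw [this]; exact mul_mem ih (h a)
  have h2 : Tendsto y atTop (𝓝 x) := by
    refine tendsto_const_nhds.prodMk_nhds (tendsto_pi_nhds.2 fun u => tendsto_const_nhds.congr' ?_)
    filter_upwards [eventually_ge_atTop {u}] with F hF
    rw [if_pos (hF (Finset.mem_singleton_self u))]
  refine (D.closed_H N S).mem_of_tendsto h2 (Eventually.of_forall fun F => D.loc (h1 F) fun u hu => ?_)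
  simp only [y]
  split_ifs
  · exact hK u hu
  · exact one_mem _

theorem conj {N : Subgroup Γ} [hN : N.Normal] {y x : G₀ × ∀ u, G u} (hy : y ∈ D.HH ⊤)
    (hx : x ∈ D.HH N) : y * x * y⁻¹ ∈ D.HH N := by
  obtain ⟨S, hS, hy⟩ := hy
  obtain ⟨S', hS', hx⟩ := hx
  refine ⟨S ∪ S', hS.union hS', ?_⟩
  refine map_mem_closure₂ (f := fun y x : G₀ × ∀ u, G u => y * x * y⁻¹) (by fun_prop)
    (D.H_mono _ (S' := S ∪ S') Set.subset_union_left hy)
    (D.H_mono _ (S' := S ∪ S') Set.subset_union_right hx) ?_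
  rintro _ ⟨a, ⟨-, ha⟩, rfl⟩ _ ⟨b, ⟨hb, hb'⟩, rfl⟩
  exact ⟨a * b * a⁻¹, ⟨hN.conj_mem _ hb _, (D.Gm _).mul_mem ((D.Gm _).mul_mem ha hb')
    ((D.Gm _).inv_mem ha)⟩, by simp⟩

theorem conj_V₀ {N : Subgroup Γ} [N.Normal] {y x : G₀} (hy : y ∈ D.V₀ ⊤) (hx : x ∈ D.V₀ N) :
    y * x * y⁻¹ ∈ D.V₀ N := by
  have := D.conj hy hx
  rwa [← map_inv, ← map_mul, ← map_mul] at this

theorem conj_V {N : Subgroup Γ} [N.Normal] {u : I} {y x : G u} (hy : y ∈ D.V ⊤ u)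
    (hx : x ∈ D.V N u) : y * x * y⁻¹ ∈ D.V N u := by
  have := D.conj hy hx
  rwa [← map_inv, ← map_mul, ← map_mul] at this

theorem comm_V₀ {N : Subgroup Γ} [N.Normal] {n : Γ} (hn : n ∈ N) {x : G₀} (hx : x ∈ D.V₀ ⊤) :
    D.j₀ n * x * (D.j₀ n)⁻¹ * x⁻¹ ∈ D.V₀ N := by
  have := mul_mem (D.mem_HH hn) (D.conj hx (inv_mem (D.mem_HH hn)))
  rw [V₀, Subgroup.mem_comap]
  convert this using 1
  exact Prod.ext (by simp [jP, mul_assoc]) (by simp)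

theorem comm_V {N : Subgroup Γ} [N.Normal] {n : Γ} (hn : n ∈ N) {u : I} {x : G u}
    (hx : x ∈ D.V ⊤ u) : D.j u n * x * (D.j u n)⁻¹ * x⁻¹ ∈ D.V N u := by
  have := mul_mem (D.mem_HH hn) (D.conj hx (inv_mem (D.mem_HH hn)))
  rw [V, Subgroup.mem_comap]
  convert this using 1
  refine Prod.ext (by simp [sg]) (funext fun u' => ?_)
  by_cases h : u' = u
  · subst h; simp [sg, jP, mul_assoc]
  · simp [sg, jP, h]

theorem mem_of_box {C : Set (G₀ × ∀ u, G u)} (hC : IsClosed C) {x : G₀ × ∀ u, G u}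
    (h : ∀ U₀ ∈ 𝓝 x.1, ∀ F : Set I, F.Finite → ∀ U : ∀ u, Set (G u), (∀ u, U u ∈ 𝓝 (x.2 u)) →
      ∃ y ∈ C, y.1 ∈ U₀ ∧ ∀ u ∈ F, y.2 u ∈ U u) : x ∈ C := by
  apply hC.closure_subset
  rw [mem_closure_iff_nhds]
  intro W hW
  rw [nhds_prod_eq] at hW
  obtain ⟨U₀, h₀, W', hW', h1⟩ := mem_prod_iff.1 hW
  rw [nhds_pi] at hW'
  obtain ⟨F, hF, U, hU, h2⟩ := mem_pi.1 hW'
  obtain ⟨y, hy, h3, h4⟩ := h U₀ h₀ F hF U hU
  exact ⟨y, h1 (Set.mk_mem_prod h3 (h2 h4)), hy⟩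

theorem crit₀ {N : Subgroup Γ} {g : G₀}
    (h : ∀ U₀ ∈ 𝓝 g, ∀ F : Set I, F.Finite → ∀ U : ∀ u, Set (G u), (∀ u, U u ∈ 𝓝 1) →
      ∃ γ ∈ N, γ ∈ D.Gm ∅ ∧ D.j₀ γ ∈ U₀ ∧ ∀ u ∈ F, D.j u γ ∈ U u) : g ∈ D.V₀ N := by
  refine (D.V₀_iff ∅ Set.finite_empty).2 (mem_of_box (D.closed_H _ _) fun U₀ h₀ F hF U hU => ?_)
  obtain ⟨γ, h1, h2, h3, h4⟩ := h U₀ h₀ F hF U hU
  exact ⟨_, D.mem_H h1 h2, h3, h4⟩

theorem crit {N : Subgroup Γ} (h₀ : D.V₀ N = ⊤) {v : I} {g : G v}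
    (h : ∀ W ∈ 𝓝 g, ∀ F : Set I, F.Finite → v ∉ F → ∀ U : ∀ u, Set (G u), (∀ u ∈ F, U u ∈ 𝓝 1) →
      ∃ γ ∈ N, γ ∈ D.Gm {v} ∧ D.j v γ ∈ W ∧ ∀ u ∈ F, D.j u γ ∈ U u) : g ∈ D.V N v := by
  refine D.V_iff.2 (mem_of_box (D.closed_H _ _) fun U₀ hU₀ F hF U hU => ?_)
  obtain ⟨γ, h1, h2, h3, h4⟩ := h (U v) (by simpa [sg] using hU v) (F \ {v}) hF.sdiff (by simp) U
    fun u hu => by simpa [sg, Pi.mulSingle_eq_of_ne hu.2] using hU u
  refine ⟨_, mul_mem (D.mem_H h1 h2) (inv_mem ((D.V₀_iff {v} (Set.finite_singleton v)).1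
    (h₀ ▸ Subgroup.mem_top (D.j₀ γ)))), ?_, fun u hu => ?_⟩
  · simpa [jP, sg] using mem_of_mem_nhds hU₀
  · by_cases h5 : u = v
    · subst h5; simpa [jP] using h3
    · simpa [jP] using h4 u ⟨hu, h5⟩

theorem critT {N : Subgroup Γ} (h₀ : D.V₀ N = ⊤) {T : Set I} (hT : T.Finite)
    (h₁ : ∀ u ∉ T, D.V N u = ⊤) {v : I} (hv : v ∈ T) {g : G v}
    (h : ∀ U : ∀ u, Set (G u), (∀ u, U u ∈ 𝓝 (Pi.mulSingle v g u)) →
      ∃ γ ∈ N, ∀ u ∈ T, D.j u γ ∈ U u) : g ∈ D.V N v := by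
  classical
  refine ⟨T, hT, mem_of_box (D.closed_H _ _) fun U₀ hU₀ F _ U hU => ?_⟩
  obtain ⟨γ, h1, h2⟩ := h U hU
  have h3 : ((D.j₀ γ, fun u => if u ∈ T then 1 else D.j u γ) : G₀ × ∀ u, G u) ∈ D.HH N :=
    ⟨_, D.fin γ, D.glue (h₀ ▸ Subgroup.mem_top _) (fun u => by
      simp only
      split_ifs with h4
      · exact one_mem _
      · exact h₁ u h4 ▸ Subgroup.mem_top _) fun u hu => by
      simp only
      split_ifs
      · exact one_mem _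
      · exact not_not.1 hu⟩
  refine ⟨_, D.loc (mul_mem (D.mem_HH h1) (inv_mem h3)) fun u hu => by simp [jP, hu], ?_,
    fun u _ => ?_⟩
  · simpa [jP, sg] using mem_of_mem_nhds hU₀
  · by_cases h4 : u ∈ T
    · simpa [jP, h4] using h2 u h4
    · have h5 : u ≠ v := fun h => h4 (h ▸ hv)
      simpa [jP, h4, sg, h5] using mem_of_mem_nhds (hU u)

/-- congruence subgroups -/
def Dl (S F : Set I) (W : ∀ u, Subgroup (G u)) : Subgroup Γ :=
  D.Gm S ⊓ ⨅ u ∈ F, (W u).comap (D.j u)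

theorem mem_Dl {S F : Set I} {W : ∀ u, Subgroup (G u)} {γ : Γ} :
    γ ∈ D.Dl S F W ↔ γ ∈ D.Gm S ∧ ∀ u ∈ F, D.j u γ ∈ W u := by
  simp [Dl, Subgroup.mem_iInf]

theorem exists_pow {G : Type*} [Group G] [TopologicalSpace G] [IsTopologicalGroup G]
    {K W : Subgroup G} (hK : IsCompact (K : Set G)) (hW : IsOpen (W : Set G)) :
    ∃ m, 0 < m ∧ ∀ x ∈ K, x ^ m ∈ W := by
  haveI : CompactSpace K := isCompact_iff_compactSpace.1 hK
  haveI := Subgroup.quotient_finite_of_isOpen (W.subgroupOf K) (hW.preimage continuous_subtype_val)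
  have : (W.subgroupOf K).FiniteIndex := Subgroup.finiteIndex_of_finite_quotient
  exact ⟨(W.relIndex K).factorial, Nat.factorial_pos _, fun x hx =>
    (Subgroup.pow_mem_of_relIndex_ne_zero_of_dvd this.1 hx fun m h1 h2 => Nat.dvd_factorial h1 h2).1⟩

/-- commensuration -/
theorem commens (hK : ∀ u, IsCompact (D.K u : Set (G u))) {S F : Set I} (hF : F.Finite)
    (hSF : ∀ u ∈ F, u ∉ S) {W : ∀ u, Subgroup (G u)} (hW : ∀ u, IsOpen (W u : Set (G u))) (g : Γ) :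
    ∃ m, 0 < m ∧ ∀ γ ∈ D.Gm S, g * γ ^ m * g⁻¹ ∈ D.Dl S F W := by
  have h1 : ∀ u, ∃ m, 0 < m ∧ ∀ x ∈ D.K u, x ^ m ∈
      (W u ⊓ D.K u).comap (MulAut.conj (D.j u g)).toMonoidHom := fun u =>
    exists_pow (hK u) (((hW u).inter (D.opn u)).preimage (f := fun x => D.j u g * x * (D.j u g)⁻¹)
      (by fun_prop))
  choose m hm h2 using h1
  have hF' := hF.union (D.fin g)
  refine ⟨∏ u ∈ hF'.toFinset, m u, Finset.prod_pos fun u _ => hm u, fun γ hγ => ?_⟩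
  have h3 : ∀ u ∈ hF'.toFinset, u ∉ S →
      D.j u (g * γ ^ (∏ u ∈ hF'.toFinset, m u) * g⁻¹) ∈ W u ⊓ D.K u := by
    intro u hu hu'
    obtain ⟨c, hc⟩ := Finset.dvd_prod_of_mem m hu
    have := pow_mem (h2 u _ (hγ u hu')) c
    rw [← pow_mul, ← hc] at this
    simpa using this
  refine D.mem_Dl.2 ⟨fun u hu => ?_, fun u hu => (h3 u (by simp [hu]) (hSF u hu)).1⟩
  by_cases h4 : u ∈ hF'.toFinset
  · exact (h3 u h4 hu).2
  · have h5 : D.j u g ∈ D.K u := by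
      by_contra h; exact h4 (by simp [h])
    rw [map_mul, map_mul, map_pow, map_inv]
    exact mul_mem (mul_mem h5 (pow_mem (hγ u hu) _)) (inv_mem h5)

theorem eq_top_of_coc {G : Type*} [Group G] [TopologicalSpace G] [IsTopologicalGroup G]
    (loc : ∀ H : Subgroup G, IsOpen (H : Set G) → H.Normal → H = ⊤) {Ω : Subgroup G}
    (hΩ : IsOpen (Ω : Set G)) {C : Set G} (hC : IsCompact C) (h : ∀ x, ∃ y ∈ Ω, y⁻¹ * x ∈ C) :
    Ω = ⊤ := by
  have h1 : ((fun c : G => ((c⁻¹ : G) : G ⧸ Ω)) '' C).Finite := by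
    haveI := QuotientGroup.discreteTopology hΩ
    exact (hC.image (QuotientGroup.continuous_mk.comp continuous_inv)).finite_of_discrete
  haveI : Finite (G ⧸ Ω) := by
    refine Set.finite_univ_iff.1 (h1.subset fun q _ => ?_)
    obtain ⟨x, rfl⟩ := QuotientGroup.mk_surjective q
    obtain ⟨y, hy, hc⟩ := h x⁻¹
    exact ⟨_, hc, QuotientGroup.eq.2 (by simpa using inv_mem hy)⟩
  haveI : Ω.FiniteIndex := Subgroup.finiteIndex_of_finite_quotient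
  exact top_le_iff.1 ((loc _ (Subgroup.isOpen_of_isClosed_of_finiteIndex _
    (Ω.normalCore_isClosed (Ω.isClosed_of_isOpen hΩ))) inferInstance).symm.le.trans Ω.normalCore_le)

/-- the local inputs of strong approximation -/
structure Inp (nc : Γ → Prop) (T : Set I) (W : ∀ u, ℕ → Subgroup (G u)) : Prop where
  cpt : ∀ u, IsCompact (D.K u : Set (G u))
  anti : ∀ u, Antitone (W u)
  wo : ∀ u n, IsOpen (W u n : Set (G u))
  wn : ∀ u n, ∀ g ∈ D.K u, ∀ x ∈ W u n, g * x * g⁻¹ ∈ W u n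
  wb : ∀ u, ∀ U ∈ 𝓝 (1 : G u), ∃ n, (W u n : Set (G u)) ⊆ U
  nt : ∀ U₀ ∈ 𝓝 (1 : G₀), ∀ F : Set I, F.Finite → ∀ U : ∀ u, Set (G u), (∀ u, U u ∈ 𝓝 1) →
    ∃ γ ∈ D.Gm ∅, nc γ ∧ D.j₀ γ ∈ U₀ ∧ ∀ u ∈ F, D.j u γ ∈ U u
  l₀ : ∀ Q : ℕ → Subgroup Γ, Antitone Q →
    (∀ g, ∃ m, 0 < m ∧ ∀ n, ∃ n', ∀ γ ∈ Q n', g * γ ^ m * g⁻¹ ∈ Q n) →
    (∀ n, ∀ U ∈ 𝓝 (1 : G₀), ∃ γ ∈ Q n, nc γ ∧ D.j₀ γ ∈ U) →
    ∃ V ∈ 𝓝 (1 : G₀), ∀ n, V ⊆ closure (D.j₀ '' Q n)
  lv : ∀ v, ∀ Q : Subgroup Γ, (∀ g, ∃ m, 0 < m ∧ ∀ γ ∈ Q, g * γ ^ m * g⁻¹ ∈ Q) →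
    (∀ U ∈ 𝓝 (1 : G v), ∃ γ ∈ Q, nc γ ∧ D.j v γ ∈ U) → closure (D.j v '' Q) ∈ 𝓝 (1 : G v)
  loc₀ : ∀ H : Subgroup G₀, IsOpen (H : Set G₀) → H = ⊤
  locv : ∀ v ∉ T, ∀ H : Subgroup (G v), IsOpen (H : Set (G v)) → H.Normal → H = ⊤
  coc : ∀ v, ∃ C : Set (G v), IsCompact C ∧ ∀ x, ∃ γ ∈ D.Gm {v}, (D.j v γ)⁻¹ * x ∈ C
  finT : T.Finite
  wa : ∀ v ∈ T, ∀ H : Subgroup (G v), (∀ g, (∀ U : ∀ u, Set (G u),
    (∀ u, U u ∈ 𝓝 (Pi.mulSingle v g u)) → ∃ γ, ∀ u ∈ T, D.j u γ ∈ U u) → g ∈ H) →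
    closure (H : Set (G v)) ∈ 𝓝 (1 : G v)
  c₀ : ∀ H : Subgroup G₀, H.Normal → ∀ n, nc n → (∀ x, D.j₀ n * x * (D.j₀ n)⁻¹ * x⁻¹ ∈ H) →
    closure (H : Set G₀) ∈ 𝓝 (1 : G₀)
  cv : ∀ v, ∀ H L : Subgroup (G v), (L : Set (G v)) ∈ 𝓝 (1 : G v) →
    (∀ y ∈ L, ∀ x ∈ H, y * x * y⁻¹ ∈ H) → ∀ n, nc n →
    (∀ x ∈ L, D.j v n * x * (D.j v n)⁻¹ * x⁻¹ ∈ H) → closure (H : Set (G v)) ∈ 𝓝 (1 : G v)

variable {D} {nc : Γ → Prop} {T : Set I} {W : ∀ u, ℕ → Subgroup (G u)}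

theorem Inp.lev (h : D.Inp nc T W) {F : Set I} (hF : F.Finite) {U : ∀ u, Set (G u)}
    (hU : ∀ u ∈ F, U u ∈ 𝓝 1) : ∃ n, ∀ u ∈ F, (W u n : Set (G u)) ⊆ U u := by
  have : ∀ᶠ n in atTop, ∀ u ∈ F, (W u n : Set (G u)) ⊆ U u := by
    refine (eventually_all_finite hF).2 fun u hu => ?_
    obtain ⟨n, hn⟩ := h.wb u _ (hU u hu)
    filter_upwards [eventually_ge_atTop n] with m hm
    exact fun x hx => hn (h.anti u hm hx)
  exact this.exists

theorem Inp.top₀ (h : D.Inp nc T W) : D.V₀ ⊤ = ⊤ := by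
  refine top_le_iff.1 fun g _ => D.crit₀ fun U₀ hU₀ F hF U hU => ?_
  obtain ⟨V, hV, h1⟩ := h.l₀ (fun n => D.Dl ∅ F fun u => W u n)
    (fun _ _ hn γ hγ => D.mem_Dl.2 ⟨(D.mem_Dl.1 hγ).1, fun u hu =>
      h.anti u hn ((D.mem_Dl.1 hγ).2 u hu)⟩) (fun g => by
      obtain ⟨m, hm, h1⟩ := D.commens h.cpt (S := ∅) hF (fun _ _ => id) (fun u => h.wo u 0) g
      refine ⟨m, hm, fun n => ?_⟩
      obtain ⟨n', hn'⟩ := h.lev hF
        (U := fun u => (fun x => D.j u g * x ^ m * (D.j u g)⁻¹) ⁻¹' W u n) fun u _ =>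
        ((h.wo u n).preimage (by fun_prop)).mem_nhds (by simp)
      refine ⟨n', fun γ hγ => D.mem_Dl.2 ⟨(D.mem_Dl.1 (h1 γ (D.mem_Dl.1 hγ).1)).1, fun u hu => ?_⟩⟩
      simpa using hn' u hu ((D.mem_Dl.1 hγ).2 u hu)) (fun n U hU => by
      obtain ⟨γ, h1, h2, h3, h4⟩ := h.nt U hU F hF (fun u => W u n) fun u =>
        (h.wo u n).mem_nhds (one_mem _)
      exact ⟨γ, D.mem_Dl.2 ⟨h1, h4⟩, h2, h3⟩)
  obtain ⟨n, hn⟩ := h.lev hF fun u _ => hU u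
  have h2 := h.loc₀ ((D.Dl ∅ F fun u => W u n).map D.j₀).topologicalClosure
    (Subgroup.isOpen_of_mem_nhds _ (mem_of_superset hV (h1 n)))
  obtain ⟨_, h3, γ, h4, rfl⟩ := mem_closure_iff_nhds.1
    (h2 ▸ Subgroup.mem_top g : g ∈ ((D.Dl ∅ F fun u => W u n).map D.j₀).topologicalClosure) U₀ hU₀
  exact ⟨γ, trivial, (D.mem_Dl.1 h4).1, h3, fun u hu => hn u hu ((D.mem_Dl.1 h4).2 u hu)⟩

theorem Inp.opn_Dl (h : D.Inp nc T W) (v : I) {F : Set I} (hF : F.Finite) (hv : v ∉ F) (n : ℕ) :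
    IsOpen (((D.Dl {v} F fun u => W u n).map (D.j v)).topologicalClosure : Set (G v)) := by
  refine Subgroup.isOpen_of_mem_nhds _ (h.lv v _ (fun g => ?_) fun U hU => ?_)
  · obtain ⟨m, hm, h1⟩ := D.commens h.cpt (S := {v}) hF (fun u hu h' => hv (h' ▸ hu))
      (fun u => h.wo u n) g
    exact ⟨m, hm, fun γ hγ => h1 γ (D.mem_Dl.1 hγ).1⟩
  · obtain ⟨γ, h1, h2, -, h4⟩ := h.nt _ univ_mem (insert v F) (hF.insert v)
      (Function.update (fun u => (W u n : Set (G u))) v U) fun u => by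
        by_cases hu : u = v
        · subst hu; simpa using hU
        · simpa [hu] using (h.wo u n).mem_nhds (one_mem _)
    refine ⟨γ, D.mem_Dl.2 ⟨fun u _ => h1 u id, fun u hu => ?_⟩, h2, by simpa using h4 v (by simp)⟩
    have h5 : u ≠ v := fun h' => hv (h' ▸ hu)
    simpa [h5] using h4 u (by simp [hu])

theorem Inp.topv (h : D.Inp nc T W) {v : I} (hv : v ∉ T) : D.V ⊤ v = ⊤ := by
  refine top_le_iff.1 fun g _ => D.crit h.top₀ fun U' hU' F hF hvF U hU => ?_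
  obtain ⟨n, hn⟩ := h.lev hF hU
  obtain ⟨C, hC, h1⟩ := h.coc v
  have h2 := eq_top_of_coc (h.locv v hv) (h.opn_Dl v Set.finite_empty id 0) hC fun x => by
    obtain ⟨γ, h2, h3⟩ := h1 x
    exact ⟨_, subset_closure ⟨γ, D.mem_Dl.2 ⟨h2, fun _ h => h.elim⟩, rfl⟩, h3⟩
  have h3 := h.locv v hv _ (h.opn_Dl v hF hvF n) ⟨fun x hx y => by
    refine map_mem_closure₂ (f := fun y x : G v => y * x * y⁻¹) (by fun_prop)
      (h2 ▸ Subgroup.mem_top y :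
        y ∈ ((D.Dl {v} ∅ fun u => W u 0).map (D.j v)).topologicalClosure) hx ?_
    rintro _ ⟨a, ha, rfl⟩ _ ⟨b, hb, rfl⟩
    have ha' := (D.mem_Dl.1 ha).1
    refine ⟨a * b * a⁻¹, D.mem_Dl.2 ⟨mul_mem (mul_mem ha' (D.mem_Dl.1 hb).1) (inv_mem ha'),
      fun u hu => ?_⟩, by simp⟩
    simpa using h.wn u n _ (ha' u fun h' => hvF (h' ▸ hu)) _ ((D.mem_Dl.1 hb).2 u hu)⟩
  obtain ⟨_, h4, γ, h5, rfl⟩ := mem_closure_iff_nhds.1 (h3 ▸ Subgroup.mem_top g :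
    g ∈ ((D.Dl {v} F fun u => W u n).map (D.j v)).topologicalClosure) U' hU'
  exact ⟨γ, trivial, (D.mem_Dl.1 h5).1, h4, fun u hu => hn u hu ((D.mem_Dl.1 h5).2 u hu)⟩

theorem Inp.nhds_top (h : D.Inp nc T W) (v : I) : (D.V ⊤ v : Set (G v)) ∈ 𝓝 (1 : G v) := by
  by_cases hv : v ∈ T
  · rw [← (D.closed_V ⊤ v).closure_eq]
    refine h.wa v hv _ fun g hg => D.critT h.top₀ h.finT (fun u hu => h.topv hu) hv fun U hU => ?_
    obtain ⟨γ, hγ⟩ := hg U hU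
    exact ⟨γ, trivial, hγ⟩
  · rw [h.topv hv]; exact univ_mem

/-- **abstract strong approximation** -/
theorem Inp.main (h : D.Inp nc T W) {N : Subgroup Γ} [N.Normal] {n : Γ} (hn : n ∈ N) (hc : nc n) :
    D.V₀ N = ⊤ ∧ (∀ v, IsOpen (D.V N v : Set (G v))) ∧ ∀ v ∉ T, D.V N v = ⊤ := by
  have h1 : ∀ v, IsOpen (D.V N v : Set (G v)) := fun v => by
    refine Subgroup.isOpen_of_mem_nhds _ (g := 1) ?_
    rw [← (D.closed_V N v).closure_eq]
    exact h.cv v _ _ (h.nhds_top v) (fun _ hy _ hx => D.conj_V hy hx) n hc fun _ => D.comm_V hn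
  refine ⟨h.loc₀ _ (Subgroup.isOpen_of_mem_nhds _ (g := 1) ?_), h1, fun v hv => h.locv v hv _ (h1 v)
    ⟨fun x hx y => D.conj_V (h.topv hv ▸ Subgroup.mem_top y) hx⟩⟩
  rw [← (D.closed_V₀ N).closure_eq]
  exact h.c₀ _ ⟨fun x hx y => D.conj_V₀ (h.top₀ ▸ Subgroup.mem_top y) hx⟩ n hc
    fun x => D.comm_V₀ hn (h.top₀ ▸ Subgroup.mem_top x)

end Adl
end Crest.Agent.T24.Sa
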