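import Crest.Agent.T24.SaA_92
import Crest.Agent.T24.SaB_92
import Crest.Agent.T24.EmbW_56

/-! # Strong approximation: the fields `wa`, `c₀`, `cv` of `Adl.Inp` for `SU` -/

set_option autoImplicit false
set_option linter.unusedSectionVars false
set_option linter.style.haveILetI false

noncomputable section

namespace Crest.Agent.T24.Sa.C53

open Module NumberField IsDedekindDomain Csa Asa Filter Topology BC
open scoped NumberField Valued

variable {k K B : Type*} [Field k] [NumberField k] [Field K] [NumberField K] [Algebra k K]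
  [StarRing K] [Quad k K] [Ring B] [StarRing B] [Algebra K B] [StarModule K B]
  [Algebra.IsCentral K B] [IsSimpleRing B] [FiniteDimensional K B] [Algebra k B]
  [IsScalarTower k K B]

section Gen
variable {R : Type*} [CommRing R] [Algebra k R]

/-- the underlying element -/
def vl (g : SUc k K B R) : BC k K B R := (g : Uc k K B R)

theorem vl_mul (a b : SUc k K B R) : vl (a * b) = vl a * vl b := rfl
theorem vl_inv (a : SUc k K B R) : vl a⁻¹ = star (vl a) := rfl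
theorem vl_one : vl (1 : SUc k K B R) = 1 := rfl

theorem ug_im (H : Subgroup (SUc k K B R)) : UG (vl '' (H : Set (SUc k K B R))) :=
  ⟨⟨1, H.one_mem, rfl⟩, by
    rintro _ ⟨a, ha, rfl⟩ _ ⟨b, hb, rfl⟩; exact ⟨_, H.mul_mem ha hb, rfl⟩, by
    rintro _ ⟨a, ha, rfl⟩; exact ⟨_, H.inv_mem ha, rfl⟩, by
    rintro _ ⟨a, -, rfl⟩; exact a.1.2.2⟩

theorem im_sub (H : Set (SUc k K B R)) : vl '' H ⊆ SG k K B R := by
  rintro _ ⟨a, -, rfl⟩; exact ⟨a.1.2, a.2⟩

theorem comm_mem (a b : Uc k K B R) : a * b * a⁻¹ * b⁻¹ ∈ SUc k K B R := by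
  have h : ∀ a : Uc k K B R, nrd k K B R (a : BC k K B R) *
      nrd k K B R ((a⁻¹ : Uc k K B R) : BC k K B R) = 1 := fun a => by
    rw [← map_mul, ← Submonoid.coe_mul, mul_inv_cancel, OneMemClass.coe_one, map_one]
  simp only [mem_SUc, Submonoid.coe_mul, map_mul]
  linear_combination (nrd k K B R (b : BC k K B R) *
    nrd k K B R ((b⁻¹ : Uc k K B R) : BC k K B R)) * h a + h b

theorem not_cen {n b : B} (h : n * b ≠ b * n) (f : BC k K B R) (hf : Cen f) (h0 : f ≠ 0) :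
    ¬ Cen (f * inc k K B R n) := fun hc =>
  h0 (eq_zero_of_mul_inc hf (sub_ne_zero.2 h) (by
    rw [map_sub, map_mul, map_mul, mul_sub, ← mul_assoc, hc, ← mul_assoc, ← mul_assoc, hf,
      sub_self]))

variable [TopologicalSpace R] [IsTopologicalRing R] [T2Space R] [SecondCountableTopology R]
  [LocallyCompactSpace R]

theorem ind_vl : IsInducing (vl : SUc k K B R → BC k K B R) :=
  IsInducing.subtypeVal.comp IsInducing.subtypeVal

/-- commutators of all unitary elements -/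
theorem comS_all (s : Sc (BC k K B R)) {L : Set (BC k K B R)} (hL : UG L)
    (h : ∀ a b : Uc k K B R, vl ⟨_, comm_mem a b⟩ ∈ L) : ∀ x ∈ comS (BC k K B R), x ∈ s.Tan L :=
  Sc.comS_Tan ⊤ dense_univ trivial half_BC trivial (fun _ _ => trivial) (fun _ _ _ _ _ => trivial)
    hL fun a ha b hb => h ⟨a, ha.2.2.1, ha.2.1⟩ ⟨b, hb.2.2.1, hb.2.1⟩

theorem nhds_of (g : Good (BC k K B R)) {s : Sc (BC k K B R)} (hs : Spc s (SG k K B R))
    (H : Subgroup (SUc k K B R)) (h : ∀ x ∈ comS (BC k K B R), x ∈ s.Tan (vl '' H)) :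
    closure (H : Set (SUc k K B R)) ∈ 𝓝 (1 : SUc k K B R) := by
  obtain ⟨V, hV, h1⟩ := Sc.nbhd g hs.ug hs.nd (ug_im H) (im_sub _) h
  rw [ind_vl.closure_eq_preimage_closure_image]
  filter_upwards [ind_vl.continuous.continuousAt.preimage_mem_nhds (x := 1) hV] with x hx
  exact h1 ⟨⟨x.1.2, x.2⟩, hx⟩

theorem comS_nhds (s : Sc (BC k K B R)) {L : Set (SUc k K B R)} (hL : L ∈ 𝓝 (1 : SUc k K B R)) :
    ∀ x ∈ comS (BC k K B R), x ∈ s.Tan (vl '' L) := by
  rw [ind_vl.nhds_eq_comap] at hL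
  obtain ⟨V, hV, h⟩ := hL
  intro x hx
  refine Sc.Tan_mono ?_ (Sc.Tan_inter hV (comS_all s (ug_SG k K B R)
    (fun a b => im_sub Set.univ ⟨_, trivial, rfl⟩) x hx))
  rintro y ⟨hy, hy'⟩
  exact ⟨⟨⟨y, hy.1⟩, hy.2⟩, h hy', rfl⟩

theorem c_gen (g : Good (BC k K B R)) {s : Sc (BC k K B R)} (hs : Spc s (SG k K B R))
    (H L : Subgroup (SUc k K B R)) (hL : (L : Set (SUc k K B R)) ∈ 𝓝 (1 : SUc k K B R))
    (hn : ∀ y ∈ L, ∀ x ∈ H, y * x * y⁻¹ ∈ H) (n : SU K B)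
    (hc : ∃ b : B, ((n : unitary B) : B) * b ≠ b * ((n : unitary B) : B))
    (h : ∀ x ∈ L, toG k K B R n * x * (toG k K B R n)⁻¹ * x⁻¹ ∈ H) :
    closure (H : Set (SUc k K B R)) ∈ 𝓝 (1 : SUc k K B R) := by
  obtain ⟨b, hb⟩ := hc
  refine nhds_of g hs H (Sc.comm_open g (ug_im H) (ug_im L) ?_ (comS_nhds s hL)
    (n := vl (toG k K B R n)) (toG k K B R n).1.2.2 (toG k K B R n).1.2.1 ?_ (not_cen hb))
  · rintro _ ⟨y, hy, rfl⟩ _ ⟨x, hx, rfl⟩; exact ⟨_, hn y hy x hx, rfl⟩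
  · rintro _ ⟨x, hx, rfl⟩; exact ⟨_, h x hx, rfl⟩

end Gen

variable (k K B)

theorem good_inf : Good (BC k K B (Inf k)) :=
  haveI : IsArtinianRing (Inf k) := .of_finite ℝ _
  haveI : IsReduced (Inf k) := inferInstanceAs (IsReduced (mixedEmbedding.mixedSpace k))
  good_BC k K B _

theorem sc_inf : ∃ s : Sc (BC k K B (Inf k)), Arch s ∧ Spc s (SG k K B (Inf k)) := by
  letI : Algebra ℝ (BC k K B (Inf k)) :=
    ((algebraMap (Inf k) (BC k K B (Inf k))).comp (algebraMap ℝ (Inf k))).toAlgebra'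
      fun c x => Algebra.commutes (algebraMap ℝ (Inf k) c) x
  haveI : IsScalarTower ℝ (Inf k) (BC k K B (Inf k)) := .of_algebraMap_eq fun _ => rfl
  haveI : FiniteDimensional ℝ (BC k K B (Inf k)) := Module.Finite.trans (Inf k) _
  haveI : ContinuousSMul ℝ (BC k K B (Inf k)) := ⟨(((continuous_algebraMap (Inf k) _).comp
    (continuous_algebraMap ℝ (Inf k))).comp continuous_fst).mul continuous_snd⟩
  obtain ⟨s, hs⟩ := exists_arch (A := BC k K B (Inf k))
  refine ⟨s, hs, spc_SG k K B _ s (t := algebraMap ℝ (Inf k) (1 / 2))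
    ((IsUnit.mk0 _ (by norm_num)).map _) ?_ ?_⟩
  · have := ((continuous_algebraMap ℝ (Inf k)).tendsto 0).comp
      (tendsto_pow_atTop_nhds_zero_of_lt_one (r := (1 / 2 : ℝ)) (by norm_num) (by norm_num))
    simpa only [map_zero, Function.comp_def, map_pow] using this
  · refine sub_eq_zero.1 (two_cancel half_BC ?_)
    rw [mul_sub, hs.two, ← IsScalarTower.algebraMap_apply,
      ← map_ofNat (algebraMap ℝ (BC k K B (Inf k))) 2, ← map_mul]
    norm_num

theorem sc_fin (v : Pl k) : ∃ (P : ℕ) (s : Sc (BC k K B (Kv v))), s.p = P ∧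
    Spc s (SG k K B (Kv v)) := by
  haveI := v.isMaximal
  haveI : CharZero (Kv v) := algebraRat.charZero _
  obtain ⟨p, n, -, p1, p2, -⟩ := Ideal.exists_prime_and_absNorm_eq_pow v.asIdeal
  have h1 : ‖(p : Kv v)‖ < 1 := by
    have := (FinitePlace.norm_lt_one_iff_mem k v (p : 𝓞 k)).2 p1
    simpa using this
  obtain ⟨s, hs⟩ := exists_pad (Kv v) p2 h1 (A := BC k K B (Kv v))
  exact ⟨p, s, hs, spc_SG k K B _ s (t := (p : Kv v)) (IsUnit.mk0 _ (by exact_mod_cast p2.ne_zero))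
    (tendsto_pow_atTop_nhds_zero_of_norm_lt_one h1) (by rw [hs, map_natCast])⟩

/-- the field `c₀` -/
theorem c₀ (H : Subgroup (SUc k K B (Inf k))) (hH : H.Normal) (n : SU K B)
    (hc : ∃ b : B, ((n : unitary B) : B) * b ≠ b * ((n : unitary B) : B))
    (h : ∀ x, toG k K B (Inf k) n * x * (toG k K B (Inf k) n)⁻¹ * x⁻¹ ∈ H) :
    closure (H : Set (SUc k K B (Inf k))) ∈ 𝓝 (1 : SUc k K B (Inf k)) := by
  obtain ⟨s, -, hs⟩ := sc_inf k K B
  exact c_gen (good_inf k K B) hs H ⊤ univ_mem (fun y _ x hx => hH.conj_mem x hx y) n hc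
    fun x _ => h x

/-- the field `cv` -/
theorem cv (v : Pl k) (H L : Subgroup (SUc k K B (Kv v)))
    (hL : (L : Set (SUc k K B (Kv v))) ∈ 𝓝 (1 : SUc k K B (Kv v)))
    (hn : ∀ y ∈ L, ∀ x ∈ H, y * x * y⁻¹ ∈ H) (n : SU K B)
    (hc : ∃ b : B, ((n : unitary B) : B) * b ≠ b * ((n : unitary B) : B))
    (h : ∀ x ∈ L, toG k K B (Kv v) n * x * (toG k K B (Kv v) n)⁻¹ * x⁻¹ ∈ H) :
    closure (H : Set (SUc k K B (Kv v))) ∈ 𝓝 (1 : SUc k K B (Kv v)) := by
  obtain ⟨_, s, -, hs⟩ := sc_fin k K B v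
  exact c_gen (good_BC k K B _) hs H L hL hn n hc h

/-- the field `wa`, for places indexed by a subtype -/
theorem wa {p : Pl k → Prop} [DecidableEq (Subtype p)] {T : Set (Subtype p)} (hT : T.Finite)
    (v : Subtype p) (H : Subgroup (SUc k K B (Kv v.1)))
    (h : ∀ g, (∀ U : ∀ u : Subtype p, Set (SUc k K B (Kv u.1)),
      (∀ u, U u ∈ 𝓝 (Pi.mulSingle (M := fun u : Subtype p => SUc k K B (Kv u.1)) v g u)) →
      ∃ γ : SU K B, ∀ u ∈ T, toG k K B (Kv u.1) γ ∈ U u) → g ∈ H) :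
    closure (H : Set (SUc k K B (Kv v.1))) ∈ 𝓝 (1 : SUc k K B (Kv v.1)) := by
  classical
  obtain ⟨_, s, -, hs⟩ := sc_fin k K B v.1
  refine nhds_of (good_BC k K B _) hs H (comS_all s (ug_im H) fun a b => ⟨_, h _ fun U hU => ?_, rfl⟩)
  let cm : ∀ u : Pl k, Uc k K B (Kv u) × Uc k K B (Kv u) → SUc k K B (Kv u) := fun u x =>
    ⟨_, comm_mem x.1 x.2⟩
  have hc : ∀ u, Continuous (cm u) := fun u => Continuous.subtype_mk (by fun_prop) _
  let e : Uc k K B (Kv v.1) → ∀ u : Pl k, Uc k K B (Kv u) := fun a => Pi.mulSingle v.1 a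
  have h1 : ∀ u : Pl k, ∃ V ∈ 𝓝 (e a u), ∃ W ∈ 𝓝 (e b u), ∀ hu : p u, V ×ˢ W ⊆ cm u ⁻¹' U ⟨u, hu⟩ := by
    intro u
    by_cases hu : p u
    · have : cm u (e a u, e b u) = Pi.mulSingle (M := fun u : Subtype p => SUc k K B (Kv u.1)) v
          ⟨_, comm_mem a b⟩ ⟨u, hu⟩ := by
        by_cases h2 : (⟨u, hu⟩ : Subtype p) = v
        · subst h2; simp [cm, e]
        · have h3 : u ≠ v.1 := fun h => h2 (Subtype.ext h)
          rw [Pi.mulSingle_eq_of_ne h2]
          exact Subtype.ext (by simp [cm, e, Pi.mulSingle_eq_of_ne h3])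
      obtain ⟨V, hV, W, hW, h4⟩ := mem_nhds_prod_iff.1
        ((hc u).continuousAt.preimage_mem_nhds (x := (e a u, e b u)) (this ▸ hU ⟨u, hu⟩))
      exact ⟨V, hV, W, hW, fun _ => h4⟩
    · exact ⟨_, univ_mem, _, univ_mem, fun h => absurd h hu⟩
  choose V hV W hW h2 using h1
  let S := (hT.image Subtype.val).toFinset
  obtain ⟨a', ha, -⟩ := Emb.waU k K B S (e a) V 1 (fun _ => Set.univ) (fun u _ => hV u)
    fun _ => univ_mem
  obtain ⟨b', hb, -⟩ := Emb.waU k K B S (e b) W 1 (fun _ => Set.univ) (fun u _ => hW u)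
    fun _ => univ_mem
  refine ⟨⟨_, comm_mem_SU K a' b'⟩, fun u hu => ?_⟩
  have h3 : u.1 ∈ S := (Set.Finite.mem_toFinset _).2 ⟨u, hu, rfl⟩
  have h4 : toG k K B (Kv u.1) ⟨_, comm_mem_SU K a' b'⟩ =
      cm u.1 (toU k K B (Kv u.1) a', toU k K B (Kv u.1) b') := Subtype.ext (by
    change toU k K B (Kv u.1) (a' * b' * a'⁻¹ * b'⁻¹) = _
    rw [map_mul, map_mul, map_mul, map_inv, map_inv])
  rw [h4]
  exact h2 u.1 u.2 (Set.mk_mem_prod (ha _ h3) (hb _ h3))

end Crest.Agent.T24.Sa.C53
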