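import Crest.Agent.T24.SaC_53

/-! # Strong approximation: the fields `l₀`, `lv` of `Adl.Inp` for `SU` -/

set_option autoImplicit false
set_option linter.unusedSectionVars false
set_option linter.style.haveILetI false

noncomputable section

namespace Crest.Agent.T24.Sa.C53

open Module NumberField IsDedekindDomain Csa Asa Filter Topology BC
open scoped NumberField Valued

/-- the multipliers of a compact open subgroup -/
theorem exists_ring {A : Type*} [Ring A] [TopologicalSpace A] [IsTopologicalRing A]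
    (Λ : AddSubgroup A) (ho : IsOpen (Λ : Set A)) (hc : IsCompact (Λ : Set A)) (h1 : 1 ∈ Λ) :
    ∃ R : Subring A, IsOpen (R : Set A) ∧ IsCompact (R : Set A) := by
  let R : Subring A :=
    { carrier := {x | ∀ a ∈ Λ, x * a ∈ Λ}
      one_mem' := fun a ha => by rwa [one_mul]
      zero_mem' := fun a _ => by rw [zero_mul]; exact zero_mem _
      mul_mem' := fun hx hy a ha => by rw [mul_assoc]; exact hx _ (hy a ha)
      add_mem' := fun hx hy a ha => by rw [add_mul]; exact add_mem (hx a ha) (hy a ha)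
      neg_mem' := fun hx a ha => by rw [neg_mul]; exact neg_mem (hx a ha) }
  have h2 : IsOpen (R.toAddSubgroup : Set A) := AddSubgroup.isOpen_of_mem_nhds _ (g := 0)
    (hc.eventually_forall_of_forall_eventually (P := fun t a => t * a ∈ Λ) fun a _ =>
      continuous_mul.continuousAt.preimage_mem_nhds (ho.mem_nhds (by simp)))
  exact ⟨R, h2, hc.of_isClosed_subset (R.toAddSubgroup.isClosed_of_isOpen h2)
    fun x hx => by simpa using hx 1 h1⟩

variable (k K B : Type*) [Field k] [NumberField k] [Field K] [NumberField K] [Algebra k K]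
  [StarRing K] [Quad k K] [Ring B] [StarRing B] [Algebra K B] [StarModule K B]
  [Algebra.IsCentral K B] [IsSimpleRing B] [FiniteDimensional K B] [Algebra k B]
  [IsScalarTower k K B]

theorem ring_fin (v : Pl k) : ∃ R : Subring (BC k K B (Kv v)), IsOpen (R : Set (BC k K B (Kv v))) ∧
    IsCompact (R : Set (BC k K B (Kv v))) := by
  haveI := Loc.proper_adic k v
  let e := crd₀ k K B (Kv v)
  let L := IsUltrametricDist.closedBall_openAddSubgroup (Fin (finrank k B) → Kv v)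
    (r := ‖e 1‖ + 1) (by positivity)
  refine exists_ring (L.toAddSubgroup.comap e.toLinearEquiv.toAddEquiv.toAddMonoidHom)
    (L.isOpen.preimage e.continuous)
    (e.toHomeomorph.isCompact_preimage.2 (isCompact_closedBall 0 (‖e 1‖ + 1))) ?_
  change e 1 ∈ Metric.closedBall 0 (‖e 1‖ + 1)
  simp

theorem dense_inf : DenseRange (algebraMap k (Inf k)) := by
  classical
  refine Metric.denseRange_iff.2 fun b ε hε => ?_
  obtain ⟨x, -, hx⟩ := weak (k := k) ∅ 0 0 b hε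
  refine ⟨x, ?_⟩
  rw [dist_comm, dist_eq_norm]
  exact ((mixedEmbedding.norm_eq_sup'_normAtPlace _).trans_lt
    ((Finset.sup'_lt_iff _).2 fun w _ => hx w) :)

variable {k K B}

section Gen
variable {R : Type*} [CommRing R] [Algebra k R] [TopologicalSpace R] [IsTopologicalRing R]
  [T2Space R] [SecondCountableTopology R] [LocallyCompactSpace R] [Nontrivial R]

theorem rat_Tan (hd : DenseRange (algebraMap k R)) (s : Sc (BC k K B R))
    (hp : ∃ b, inc k K B R b = s.p) :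
    ∀ x ∈ comS (BC k K B R), x ∈ s.Tan (vl '' ((toG k K B R).range : Set (SUc k K B R))) :=
  comS_rat k K B R hd s hp (ug_im _) fun g => ⟨_, ⟨g, rfl⟩, rfl⟩

theorem conj_im {Q Q' : Subgroup (SU K B)} {g : SU K B} {m : ℕ}
    (h : ∀ γ ∈ Q', g * γ ^ m * g⁻¹ ∈ Q) :
    ∀ x ∈ vl '' (Q'.map (toG k K B R) : Set (SUc k K B R)),
      vl (toG k K B R g) * x ^ m * star (vl (toG k K B R g)) ∈
        vl '' (Q.map (toG k K B R) : Set (SUc k K B R)) := by
  rintro _ ⟨_, ⟨γ, hγ, rfl⟩, rfl⟩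
  refine ⟨_, ⟨_, h γ hγ, rfl⟩, ?_⟩
  rw [map_mul, map_mul, map_pow, map_inv, vl_mul, vl_mul, vl_inv]
  rfl

end Gen

variable (k K B)

/-- the field `lv` -/
theorem lv (v : Pl k) (Q : Subgroup (SU K B))
    (hc : ∀ g, ∃ m, 0 < m ∧ ∀ γ ∈ Q, g * γ ^ m * g⁻¹ ∈ Q)
    (hn : ∀ U ∈ 𝓝 (1 : SUc k K B (Kv v)), ∃ γ ∈ Q,
      (∃ b : B, ((γ : unitary B) : B) * b ≠ b * ((γ : unitary B) : B)) ∧ toG k K B (Kv v) γ ∈ U) :
    closure (toG k K B (Kv v) '' Q) ∈ 𝓝 (1 : SUc k K B (Kv v)) := by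
  obtain ⟨P, s, hP, hs⟩ := sc_fin k K B v
  refine nhds_of (good_BC k K B _) hs (Q.map (toG k K B (Kv v))) (Sc.padic (good_BC k K B _)
    ⟨P, hP, ring_fin k K B v⟩ (ug_im _) (ug_im _) ?_
    (rat_Tan (v.denseRange_algebraMap k) s ⟨P, by rw [hP, map_natCast]⟩) fun f _ hf h0 V hV => ?_)
  · rintro _ ⟨_, ⟨g, rfl⟩, rfl⟩
    obtain ⟨m, hm, h⟩ := hc g
    exact ⟨m, hm, conj_im h⟩
  · obtain ⟨γ, h1, ⟨b, hb⟩, h2⟩ := hn _ (ind_vl.continuous.continuousAt.preimage_mem_nhds hV)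
    refine ⟨_, ⟨_, ⟨γ, h1, rfl⟩, rfl⟩, h2, inc k K B _ b, fun h => h0 ?_⟩
    exact eq_zero_of_mul_inc hf (sub_ne_zero.2 hb) (by rw [map_sub, map_mul, map_mul]; exact h)

/-- the field `l₀` -/
theorem l₀ (Q : ℕ → Subgroup (SU K B)) (ha : Antitone Q)
    (hc : ∀ g, ∃ m, 0 < m ∧ ∀ n, ∃ n', ∀ γ ∈ Q n', g * γ ^ m * g⁻¹ ∈ Q n)
    (hn : ∀ n, ∀ U ∈ 𝓝 (1 : SUc k K B (Inf k)), ∃ γ ∈ Q n,
      (∃ b : B, ((γ : unitary B) : B) * b ≠ b * ((γ : unitary B) : B)) ∧ toG k K B (Inf k) γ ∈ U) :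
    ∃ V ∈ 𝓝 (1 : SUc k K B (Inf k)), ∀ n, V ⊆ closure (toG k K B (Inf k) '' Q n) := by
  haveI : Nontrivial (Inf k) := inferInstanceAs (Nontrivial (mixedEmbedding.mixedSpace k))
  obtain ⟨s, hA, hs⟩ := sc_inf k K B
  let G : ℕ → Set (BC k K B (Inf k)) := fun n =>
    vl '' ((Q n).map (toG k K B (Inf k)) : Set (SUc k K B (Inf k)))
  have h1 := Sc.arch (good_inf k K B) hA hs (G := G) (fun n => ug_im _)
    (fun _ _ h => Set.image_mono (Subgroup.map_mono (ha h))) (fun n => im_sub _) (ug_im _)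
    (im_sub _) (by
      rintro _ ⟨_, ⟨g, rfl⟩, rfl⟩
      obtain ⟨m, hm, h⟩ := hc g
      exact ⟨m, hm, fun n => (h n).imp fun n' h' => conj_im h'⟩)
    (rat_Tan (dense_inf k) s ⟨_, sub_eq_zero.1 (two_cancel half_BC (by
      rw [mul_sub, half_BC, hA.two, sub_self]))⟩) fun f _ hf h0 n V hV => by
      obtain ⟨γ, h1, ⟨b, hb⟩, h2⟩ := hn n _ (ind_vl.continuous.continuousAt.preimage_mem_nhds hV)
      exact ⟨_, ⟨_, ⟨γ, h1, rfl⟩, rfl⟩, h2, fun h => not_cen hb f hf h0 (h.symm ▸ hf :)⟩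
  obtain ⟨V, hV, h2⟩ := Sc.nbhd (good_inf k K B) hs.ug hs.nd
    (UG.iInter fun n => (ug_im _).closure)
    ((Set.iInter_subset _ 0).trans (hs.closed.closure_subset_iff.2 (im_sub _))) h1
  refine ⟨_, ind_vl.continuous.continuousAt.preimage_mem_nhds (x := 1) hV, fun n x hx => ?_⟩
  rw [ind_vl.closure_eq_preimage_closure_image]
  exact closure_minimal (Set.iInter_subset _ n) isClosed_closure (h2 ⟨⟨x.1.2, x.2⟩, hx⟩)

end Crest.Agent.T24.Sa.C53
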