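import Mathlib

/-! # Herstein's theorem on Lie ideals of the skew elements (involution of the second kind)

`Good A`: 2 is a unit, there is a central skew unit, every two-sided ideal is generated by a
central idempotent, and `A = [A,A] + Z(A)`. -/

set_option autoImplicit false

namespace Crest.Agent.T24.Sa

variable {A : Type*} [Ring A]

/-- central element -/
def Cen (z : A) : Prop := ∀ x, z * x = x * z

/-- every two-sided ideal is generated by a central idempotent -/
def Idem (A : Type*) [Ring A] : Prop :=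
  ∀ M : AddSubgroup A, (∀ a, ∀ x ∈ M, a * x ∈ M ∧ x * a ∈ M) →
    ∃ e : A, e * e = e ∧ Cen e ∧ ∀ x, x ∈ M ↔ e * x = x

/-- additive span of all commutators -/
def comA (A : Type*) [Ring A] : AddSubgroup A :=
  AddSubgroup.closure {c | ∃ a b : A, c = a * b - b * a}

theorem two_cancel {h : A} (hh : 2 * h = 1) {x : A} (hx : 2 * x = 0) : x = 0 := by
  have h2 : h * 2 = 1 := by rw [← hh, two_mul, mul_two]
  calc x = (h * 2) * x := by rw [h2, one_mul]
    _ = 0 := by rw [mul_assoc, hx, mul_zero]

theorem cen_half {h : A} (hh : 2 * h = 1) : Cen h := by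
  intro x
  have h2 : h * 2 = 1 := by rw [← hh, two_mul, mul_two]
  have : 2 * (h * x - x * h) = 0 := by
    have e1 : 2 * (h * x) = x := by rw [← mul_assoc, hh, one_mul]
    have e2 : 2 * (x * h) = x := by
      rw [two_mul, ← mul_add, ← two_mul, hh, mul_one]
    rw [mul_sub, e1, e2, sub_self]
  exact sub_eq_zero.1 (two_cancel hh this)

theorem Cen.inv {a b : A} (ha : Cen a) (hab : a * b = 1) : Cen b := by
  intro x
  have hba : b * a = 1 := by rw [← ha b, hab]
  calc b * x = b * x * (a * b) := by rw [hab, mul_one]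
    _ = b * (a * x) * b := by rw [ha x]; noncomm_ring
    _ = x * b := by rw [← mul_assoc, hba, one_mul]

theorem Cen.mul {a b : A} (ha : Cen a) (hb : Cen b) : Cen (a * b) := fun x => by
  rw [mul_assoc, hb, ← mul_assoc, ha, mul_assoc]

theorem Cen.pow {a : A} (ha : Cen a) (k : ℕ) : Cen (a ^ k) := by
  induction k with
  | zero => intro x; simp
  | succ k ih => rw [pow_succ]; exact ih.mul ha

theorem Cen.one_sub {a : A} (ha : Cen a) : Cen (1 - a) := fun x => by
  rw [sub_mul, mul_sub, ha, one_mul, mul_one]

theorem semiprime (hI : Idem A) {x : A} (hx : ∀ s, x * s * x = 0) : x = 0 := by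
  let M : AddSubgroup A :=
    { carrier := {a | ∀ s, x * s * a = 0}
      zero_mem' := fun s => mul_zero _
      add_mem' := fun {a b} ha hb s => by rw [mul_add, ha s, hb s, add_zero]
      neg_mem' := fun {a} ha s => by rw [mul_neg, ha s, neg_zero] }
  obtain ⟨e, hee, he, hM⟩ := hI M (fun a y hy =>
    ⟨fun s => by have := hy (s * a); simpa [mul_assoc] using this,
     fun s => by rw [← mul_assoc, hy s, zero_mul]⟩)
  have h1 : e * x = x := (hM x).1 hx
  have h2 : x * 1 * e = 0 := ((hM e).2 hee) 1
  rw [← h1, he x, ← h2, mul_one]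

theorem cen_of_dd (hI : Idem A) {h : A} (hh : 2 * h = 1) {y : A}
    (hy : ∀ r, y * (y * r - r * y) - (y * r - r * y) * y = 0) : Cen y := by
  have h1 : ∀ r s, (y * r - r * y) * (y * s - s * y) = 0 := by
    intro r s
    apply two_cancel hh
    have e : 2 * ((y * r - r * y) * (y * s - s * y)) =
        (y * (y * (r * s) - (r * s) * y) - (y * (r * s) - (r * s) * y) * y)
        - (y * (y * r - r * y) - (y * r - r * y) * y) * s
        - r * (y * (y * s - s * y) - (y * s - s * y) * y) := by noncomm_ring
    rw [e, hy, hy, hy]; simp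
  intro r
  apply sub_eq_zero.1
  apply semiprime hI
  intro s
  have e : (y * r - r * y) * s * (y * r - r * y) =
      (y * r - r * y) * (y * (s * r) - (s * r) * y) - (y * r - r * y) * (y * s - s * y) * r := by
    noncomm_ring
  rw [e, h1, h1]; simp

variable [StarRing A]

/-- the algebraic hypotheses on the local algebra -/
structure Good (A : Type*) [Ring A] [StarRing A] : Prop where
  half : ∃ h : A, 2 * h = 1
  theta : ∃ θ θ' : A, Cen θ ∧ star θ = -θ ∧ θ * θ' = 1
  idem : Idem A
  span : ∀ x : A, ∃ z, Cen z ∧ x - z ∈ comA A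

/-- additive span of the commutators of skew elements -/
def comS (A : Type*) [Ring A] [StarRing A] : AddSubgroup A :=
  AddSubgroup.closure {c | ∃ a b : A, star a = -a ∧ star b = -b ∧ c = a * b - b * a}

theorem skew_com {a b : A} (ha : star a = -a) (hb : star b = -b) :
    star (a * b - b * a) = -(a * b - b * a) := by
  rw [star_sub, star_mul, star_mul, ha, hb]; noncomm_ring

theorem comS_skew {s : A} (hs : s ∈ comS A) : star s = -s := by
  induction hs using AddSubgroup.closure_induction with
  | mem x hx => obtain ⟨a, b, ha, hb, rfl⟩ := hx; exact skew_com ha hb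
  | zero => simp
  | add x y _ _ hx hy => rw [star_add, hx, hy, neg_add]
  | neg x _ hx => rw [star_neg, hx]

theorem star_half {h : A} (hh : 2 * h = 1) : star h = h := by
  have h1 : star h * 2 = 1 := by
    have := congrArg star hh
    rwa [star_mul, star_ofNat, star_one] at this
  calc star h = star h * (2 * h) := by rw [hh, mul_one]
    _ = h := by rw [← mul_assoc, h1, one_mul]

theorem Good.dec (g : Good A) {θ θ' : A} (hθ : Cen θ) (hs : star θ = -θ) (hi : θ * θ' = 1)
    (a : A) : ∃ x y, star x = -x ∧ star y = -y ∧ a = x + θ * y := by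
  obtain ⟨h, hh⟩ := g.half
  have ch := cen_half hh
  have cθ' := hθ.inv hi
  have sθ' : star θ' = -θ' := by
    have h1 : star θ' * θ = -1 := by
      have := congrArg star hi
      rw [star_mul, star_one, hs, mul_neg] at this
      exact neg_eq_iff_eq_neg.1 this
    calc star θ' = star θ' * (θ * θ') := by rw [hi, mul_one]
      _ = -θ' := by rw [← mul_assoc, h1, neg_one_mul]
  refine ⟨h * (a - star a), θ' * (h * (a + star a)), ?_, ?_, ?_⟩
  · rw [star_mul, star_half hh, star_sub, star_star, ← ch]; noncomm_ring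
  · rw [star_mul, star_mul, star_half hh, star_add, star_star, sθ', ← ch, mul_neg, ← cθ',
      add_comm]
  · rw [← mul_assoc θ, hi, one_mul, ← mul_add]
    have : a - star a + (a + star a) = 2 * a := by rw [two_mul]; abel
    rw [this, ← mul_assoc, ch, hh, one_mul]

theorem skew_th2 {θ y : A} (hθ : Cen θ) (hs : star θ = -θ) (hy : star y = -y) :
    star (θ * θ * y) = -(θ * θ * y) := by
  rw [star_mul, star_mul, hs, hy, neg_mul_neg, neg_mul, (hθ.mul hθ) y]

theorem herm_th {θ y : A} (hθ : Cen θ) (hs : star θ = -θ) (hy : star y = -y) :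
    star (θ * y) = θ * y := by
  rw [star_mul, hs, hy, neg_mul_neg, hθ]

/-- `𝔲 = [𝔲,𝔲] + centre` -/
theorem Good.skew_dec (g : Good A) {u : A} (hu : star u = -u) :
    ∃ s ∈ comS A, Cen (u - s) := by
  obtain ⟨θ, θ', hθ, hs, hi⟩ := g.theta
  obtain ⟨h, hh⟩ := g.half
  have key : ∀ c ∈ comA A, ∃ s ∈ comS A, ∃ t ∈ comS A, c = s + θ * t := by
    intro c hc
    induction hc using AddSubgroup.closure_induction with
    | mem x hx =>
      obtain ⟨a, b, rfl⟩ := hx
      obtain ⟨a1, a2, h1, h2, rfl⟩ := g.dec hθ hs hi a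
      obtain ⟨b1, b2, h3, h4, rfl⟩ := g.dec hθ hs hi b
      have m : ∀ x y : A, star x = -x → star y = -y → x * y - y * x ∈ comS A :=
        fun x y hx hy => AddSubgroup.subset_closure ⟨x, y, hx, hy, rfl⟩
      refine ⟨_, add_mem (m _ _ h1 h3) (m _ _ (skew_th2 hθ hs h2) h4), _,
        add_mem (m _ _ h1 h4) (m _ _ h2 h3), ?_⟩
      have c1 : ∀ x y : A, x * (θ * y) = θ * (x * y) := fun x y => by
        rw [← mul_assoc, ← hθ, mul_assoc]
      simp only [mul_add, add_mul, mul_sub, mul_assoc, c1]
      abel
    | zero => exact ⟨0, zero_mem _, 0, zero_mem _, by simp⟩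
    | add x y _ _ hx hy =>
      obtain ⟨s, hs, t, ht, rfl⟩ := hx
      obtain ⟨s', hs', t', ht', rfl⟩ := hy
      exact ⟨_, add_mem hs hs', _, add_mem ht ht', by rw [mul_add]; abel⟩
    | neg x _ hx =>
      obtain ⟨s, hs, t, ht, rfl⟩ := hx
      exact ⟨_, neg_mem hs, _, neg_mem ht, by rw [mul_neg]; abel⟩
  obtain ⟨z, hz, hc⟩ := g.span u
  obtain ⟨s, hs', t, ht, e⟩ := key _ hc
  refine ⟨s, hs', fun x => ?_⟩
  have e1 : u - s = θ * t + z := by rw [sub_eq_iff_eq_add] at e; rw [e]; abel
  have e2 : -(u - s) = θ * t + star z := by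
    have := congrArg star e1
    rw [star_add, herm_th hθ hs (comS_skew ht), star_sub, hu, comS_skew hs'] at this
    rw [← this]; abel
  have e3 : 2 * (u - s) = z - star z := by
    have : z - star z = (θ * t + z) - (θ * t + star z) := by abel
    rw [this, ← e1, ← e2, two_mul]; abel
  have cz : star z * x = x * star z := by
    have := congrArg star (hz (star x))
    rw [star_mul, star_mul, star_star] at this
    exact this.symm
  apply sub_eq_zero.1
  apply two_cancel hh
  have c2 : 2 * (x * (u - s)) = x * (2 * (u - s)) := by rw [two_mul, two_mul, mul_add]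
  rw [mul_sub, ← mul_assoc, c2, e3, sub_mul, mul_sub, hz, cz, sub_self]

/-- **Herstein**: an additive subgroup of skew elements stable under `ad [𝔲,𝔲]` contains
`e [𝔲,𝔲]` and is central on `1 - e`, for a central symmetric idempotent `e`. -/
theorem Good.lie (g : Good A) (I : AddSubgroup A) (hI : ∀ X ∈ I, star X = -X)
    (had : ∀ s ∈ comS A, ∀ X ∈ I, s * X - X * s ∈ I) :
    ∃ e : A, e * e = e ∧ Cen e ∧ star e = e ∧ (∀ s ∈ comS A, e * s ∈ I) ∧
      ∀ X ∈ I, Cen ((1 - e) * X) := by
  obtain ⟨θ, θ', hθ, hs, hi⟩ := g.theta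
  obtain ⟨h, hh⟩ := g.half
  have had' : ∀ u, star u = -u → ∀ X ∈ I, u * X - X * u ∈ I := by
    intro u hu X hX
    obtain ⟨s, hs, hc⟩ := g.skew_dec hu
    have : u * X - X * u = s * X - X * s + ((u - s) * X - X * (u - s)) := by noncomm_ring
    rw [this, hc X, sub_self, add_zero]
    exact had s hs X hX
  have c1 : ∀ x y : A, x * (θ * y) = θ * (x * y) := fun x y => by
    rw [← mul_assoc, ← hθ, mul_assoc]
  let J : AddSubgroup A :=
    { carrier := {a | ∃ i ∈ I, ∃ j ∈ I, a = i + θ * j}
      zero_mem' := ⟨0, zero_mem _, 0, zero_mem _, by simp⟩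
      add_mem' := by
        rintro _ _ ⟨i, hi, j, hj, rfl⟩ ⟨i', hi', j', hj', rfl⟩
        exact ⟨_, add_mem hi hi', _, add_mem hj hj', by rw [mul_add]; abel⟩
      neg_mem' := by
        rintro _ ⟨i, hi, j, hj, rfl⟩
        exact ⟨_, neg_mem hi, _, neg_mem hj, by rw [mul_neg]; abel⟩ }
  have JL : ∀ x ∈ J, ∀ r, x * r - r * x ∈ J := by
    rintro _ ⟨i, hi', j, hj, rfl⟩ r
    obtain ⟨a, b, ha, hb, rfl⟩ := g.dec hθ hs hi r
    refine ⟨_, neg_mem (add_mem (had' _ ha _ hi') (had' _ (skew_th2 hθ hs hb) _ hj)), _,
      neg_mem (add_mem (had' _ ha _ hj) (had' _ hb _ hi')), ?_⟩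
    simp only [mul_add, add_mul, mul_sub, mul_assoc, c1, mul_neg, neg_add]
    abel
  have Js : ∀ x ∈ J, star x ∈ J := by
    rintro _ ⟨i, hi', j, hj, rfl⟩
    exact ⟨_, neg_mem hi', _, hj, by rw [star_add, hI i hi', herm_th hθ hs (hI j hj)]⟩
  have Jk : ∀ x ∈ J, star x = -x → x ∈ I := by
    rintro _ ⟨i, hi', j, hj, rfl⟩ hx
    rw [star_add, hI i hi', herm_th hθ hs (hI j hj)] at hx
    have : θ * j = 0 := by
      apply two_cancel hh
      have : 2 * (θ * j) = (-i + θ * j) - -(i + θ * j) := by rw [two_mul]; abel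
      rw [this, hx, sub_self]
    rw [this, add_zero]; exact hi'
  let T : A → Prop := fun x => ∀ r, x * r - r * x ∈ J
  have Tm : ∀ x y, T x → T y → T (x * y) := by
    intro x y hx hy r
    have : x * y * r - r * (x * y) =
        (x * (y * r) - (y * r) * x) + (y * (r * x) - (r * x) * y) := by noncomm_ring
    rw [this]; exact add_mem (hx _) (hy _)
  have Tsub : ∀ x y, T x → T y → T (x - y) := by
    intro x y hx hy r
    have : (x - y) * r - r * (x - y) = (x * r - r * x) - (y * r - r * y) := by noncomm_ring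
    rw [this]; exact sub_mem (hx _) (hy _)
  have TL : ∀ x r, T x → T (x * r - r * x) := fun x r hx => JL _ (hx r)
  have Ts : ∀ x, T x → T (star x) := by
    intro x hx r
    have := neg_mem (Js _ (hx (star r)))
    rwa [star_sub, star_mul, star_mul, star_star, neg_sub] at this
  let M : AddSubgroup A :=
    { carrier := {x | ∀ a b, T (a * x * b)}
      zero_mem' := fun a b r => by simp
      add_mem' := fun {x y} hx hy a b r => by
        have : a * (x + y) * b * r - r * (a * (x + y) * b) =
          (a * x * b * r - r * (a * x * b)) + (a * y * b * r - r * (a * y * b)) := by noncomm_ring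
        rw [this]; exact add_mem (hx a b r) (hy a b r)
      neg_mem' := fun {x} hx a b r => by
        have : a * (-x) * b * r - r * (a * (-x) * b) = -(a * x * b * r - r * (a * x * b)) := by
          noncomm_ring
        rw [this]; exact neg_mem (hx a b r) }
  have MT : ∀ x ∈ M, T x := fun x hx => by simpa using hx 1 1
  have Mc : ∀ x y, T x → T y → x * y - y * x ∈ M := by
    intro x y hx hy a b
    have h1 : ∀ r, T ((x * y - y * x) * r) := by
      intro r
      have : (x * y - y * x) * r = (x * (y * r) - (y * r) * x) - y * (x * r - r * x) := by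
        noncomm_ring
      rw [this]; exact Tsub _ _ (TL _ _ hx) (Tm _ _ hy (TL _ _ hx))
    have : a * (x * y - y * x) * b = (x * y - y * x) * (b * a) -
        ((x * y - y * x) * b * a - a * ((x * y - y * x) * b)) := by noncomm_ring
    rw [this]; exact Tsub _ _ (h1 _) (TL _ _ (h1 b))
  obtain ⟨e, hee, he, hM⟩ := g.idem M (fun a x hx =>
    ⟨fun u v => by have := hx (u * a) v; simpa [mul_assoc] using this,
     fun u v => by have := hx u (a * v); simpa [mul_assoc] using this⟩)
  have se : star e = e := by
    have h1 : star e ∈ M := fun a b => by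
      have := Ts _ (((hM e).2 hee) (star b) (star a))
      simpa [star_mul, mul_assoc] using this
    have h2 := (hM _).1 h1
    have h3 := congrArg star h2
    rw [star_mul, star_star] at h3
    rw [← h2, h3]
  refine ⟨e, hee, he, se, fun s hs' => ?_, fun X hX => ?_⟩
  · apply Jk
    · induction hs' using AddSubgroup.closure_induction with
      | mem x hx =>
        obtain ⟨a, b, -, -, rfl⟩ := hx
        have h1 : e * a ∈ M := (hM _).2 (by rw [← mul_assoc, hee])
        have : e * (a * b - b * a) = e * a * b - b * (e * a) := by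
          rw [mul_sub, ← mul_assoc e b, he b]; noncomm_ring
        rw [this]; exact MT _ h1 b
      | zero => rw [mul_zero]; exact zero_mem _
      | add x y _ _ hx hy => rw [mul_add]; exact add_mem hx hy
      | neg x _ hx => rw [mul_neg]; exact neg_mem hx
    · rw [star_mul, se, comS_skew hs', he, neg_mul]
  · have hT : T X := JL X ⟨X, hX, 0, zero_mem _, by simp⟩
    apply cen_of_dd g.idem hh
    intro r
    have cf := he.one_sub
    have c2 : ∀ x y : A, x * ((1 - e) * y) = (1 - e) * (x * y) := fun x y => by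
      rw [← mul_assoc, ← cf, mul_assoc]
    have h1 := (hM _).1 (Mc X (X * r - r * X) hT (TL _ _ hT))
    have h2 : (1 - e) * (X * (X * r - r * X) - (X * r - r * X) * X) = 0 := by
      rw [sub_mul, h1, one_mul, sub_self]
    have : (1 - e) * X * ((1 - e) * X * r - r * ((1 - e) * X)) -
        ((1 - e) * X * r - r * ((1 - e) * X)) * ((1 - e) * X) =
        (1 - e) * ((1 - e) * (X * (X * r - r * X) - (X * r - r * X) * X)) := by
      generalize 1 - e = f at c2
      simp only [mul_sub, sub_mul, mul_assoc, c2]
    rw [this, h2, mul_zero]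

end Crest.Agent.T24.Sa
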