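import Crest.Agent.T24.SaTc_92

/-! # Local openness theorems (archimedean and `p`-adic) -/

set_option autoImplicit false
set_option linter.unusedSectionVars false
open Filter Topology

namespace Crest.Agent.T24.Sa

variable {A : Type*} [Ring A] [StarRing A] [TopologicalSpace A] [IsTopologicalRing A]
  [ContinuousStar A]

/-- archimedean scale -/
structure Arch (s : Sc A) : Prop where
  two : 2 * s.p = 1
  ex : ∃ N : A → ℝ, (∀ x y, N (x + y) ≤ N x + N y) ∧ (∀ x y, N (x * y) ≤ N x * N y) ∧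
    (∀ x, N (s.p * x) = N x / 2) ∧ (∀ x, 0 ≤ N x) ∧
    (𝓝 (0 : A)).HasBasis (fun ε : ℝ => 0 < ε) fun ε => {x | N x < ε}

/-- `p`-adic scale -/
structure Pad (s : Sc A) : Prop where
  ex : ∃ P : ℕ, s.p = P ∧ ∃ R : Subring A, IsOpen (R : Set A) ∧ IsCompact (R : Set A)

/-- no central direction, stability under central idempotents -/
structure Spc (s : Sc A) (SG : Set A) : Prop where
  ug : UG SG
  closed : IsClosed SG
  nd : ∀ z ∈ s.Dir fun _ => SG, Cen z → z = 0
  idem : ∀ e : A, e * e = e → Cen e → star e = e → ∀ g ∈ SG, e * g + (1 - e) ∈ SG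

namespace Sc
variable {s : Sc A}

theorem est {N : A → ℝ} (h1 : ∀ x y, N (x + y) ≤ N x + N y) (h2 : ∀ x y, N (x * y) ≤ N x * N y)
    (h3 : ∀ x, N (s.p * x) = N x / 2) (h4 : ∀ x, 0 ≤ N x) (two : 2 * s.p = 1) {j k : ℕ}
    (hjk : k ≤ j) (b : A) (hb : N b / 2 ^ k ≤ 1) :
    N (s.q ^ k * ((1 + s.p ^ j * b) ^ 2 ^ (j - k) - 1) - b) ≤ N b ^ 2 / 2 ^ k := by
  have N0 : N 0 = 0 := by have := h3 0; rw [mul_zero] at this; linarith
  have Nn : ∀ (m : ℕ) y, N (m • y) ≤ m * N y := by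
    intro m y
    induction m with
    | zero => simp [N0]
    | succ m ih => rw [succ_nsmul]; push_cast; linarith [h1 (m • y) y]
  have Np : ∀ (m : ℕ) y, N (s.p ^ m * y) = N y / 2 ^ m := by
    intro m y
    induction m with
    | zero => simp
    | succ m ih => rw [pow_succ', mul_assoc, h3, ih, pow_succ]; ring
  have key : ∀ (x : A) (m : ℕ), N ((1 + x) ^ m - 1 - m • x) ≤ (1 + N x) ^ m - 1 - m * N x := by
    intro x m
    induction m with
    | zero => simp [N0]
    | succ m ih =>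
      have e : (1 + x) ^ (m + 1) - 1 - (m + 1) • x = ((1 + x) ^ m - 1 - m • x) +
          ((1 + x) ^ m - 1 - m • x) * x + m • (x * x) := by
        rw [pow_succ, succ_nsmul, ← smul_mul_assoc]; noncomm_ring
      have a1 := h1 (((1 + x) ^ m - 1 - m • x) + ((1 + x) ^ m - 1 - m • x) * x) (m • (x * x))
      have a2 := h1 ((1 + x) ^ m - 1 - m • x) (((1 + x) ^ m - 1 - m • x) * x)
      have a3 := h2 ((1 + x) ^ m - 1 - m • x) x
      have a4 := Nn m (x * x)
      have a5 := mul_le_mul_of_nonneg_left (h2 x x) (Nat.cast_nonneg (α := ℝ) m)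
      have a6 := mul_le_mul_of_nonneg_right ih (h4 x)
      rw [e, pow_succ]; push_cast; nlinarith
  obtain ⟨i, rfl⟩ := Nat.exists_eq_add_of_le hjk
  rw [Nat.add_sub_cancel_left]
  have e1 : (2 ^ i) • (s.p ^ (k + i) * b) = s.p ^ k * b := by
    have : ((2 ^ i : ℕ) : A) * s.p ^ i = 1 := by
      push_cast
      rw [← Commute.mul_pow (s.cen 2).symm, two, one_pow]
    rw [nsmul_eq_mul, add_comm, pow_add, mul_assoc, ← mul_assoc, this, one_mul]
  have h5 := key (s.p ^ (k + i) * b) (2 ^ i)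
  rw [e1, Np] at h5
  have e2 : (1 + s.p ^ (k + i) * b) ^ 2 ^ i - 1 - s.p ^ k * b =
      s.p ^ k * (s.q ^ k * ((1 + s.p ^ (k + i) * b) ^ 2 ^ i - 1) - b) := by
    rw [mul_sub, ← mul_assoc, s.pq_pow, one_mul]
  rw [e2, Np] at h5
  have e3 : ((2 ^ i : ℕ) : ℝ) * (N b / 2 ^ (k + i)) = N b / 2 ^ k := by
    push_cast; rw [pow_add]; field_simp
  have h0 : 0 ≤ N b / 2 ^ k := div_nonneg (h4 b) (by positivity)
  have h6 : (1 + N b / 2 ^ (k + i)) ^ 2 ^ i ≤ Real.exp (N b / 2 ^ k) := by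
    rw [← e3, Real.exp_nat_mul, add_comm]
    exact pow_le_pow_left₀ (by have := h4 b; positivity) (Real.add_one_le_exp _) _
  have h7 := Real.abs_exp_sub_one_sub_id_le (x := N b / 2 ^ k) (by rwa [abs_of_nonneg h0])
  have h8 := (abs_le.1 h7).2
  rw [e3] at h5
  have h9 : (0 : ℝ) < 2 ^ k := by positivity
  have : N (s.q ^ k * ((1 + s.p ^ (k + i) * b) ^ 2 ^ i - 1) - b) / 2 ^ k ≤
      (N b ^ 2 / 2 ^ k) / 2 ^ k := by
    have : (N b ^ 2 / 2 ^ k) / 2 ^ k = (N b / 2 ^ k) ^ 2 := by field_simp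
    rw [this]; linarith
  exact (div_le_div_iff_of_pos_right h9).1 this

theorem idem_pow {f : A} (hf : f * f = f) (hc : Cen f) (x : A) (m : ℕ) :
    f * ((1 + x) ^ m - 1) = (1 + f * x) ^ m - 1 := by
  induction m with
  | zero => simp
  | succ m ih =>
    have e : (1 + f * x) ^ m = 1 + f * ((1 + x) ^ m - 1) := by rw [ih]; abel
    have e2 : f * ((1 + x) ^ m - 1) * (f * x) = f * ((1 + x) ^ m - 1) * x := by
      rw [← mul_assoc, mul_assoc f, ← hc, ← mul_assoc, hf]
    rw [pow_succ, pow_succ, e, add_mul, mul_add (f * _), e2]; noncomm_ring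

variable [FirstCountableTopology A] [T2Space A] [LocallyCompactSpace A]

/-- archimedean: upper directions of a family are tangent to the intersection -/
theorem te (h : Arch s) {G : ℕ → Set A} (hG : ∀ n, UG (G n)) (ha : Antitone G) {f : A}
    (hf : f * f = f) (hc : Cen f) {X : A} (hX : X ∈ s.Dir G) (hfX : f * X = 0) :
    X ∈ s.Tan ((⋂ n, closure (G n)) ∩ Fx f) := by
  obtain ⟨N, h1, h2, h3, h4, hN⟩ := h.ex
  obtain ⟨j, b, hj, hb, hg⟩ := seq_of_Dir hX
  have tN : ∀ {u : ℕ → A}, Tendsto u atTop (𝓝 0) ↔ ∀ ε > 0, ∀ᶠ n in atTop, N (u n) < ε :=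
    fun {u} => hN.tendsto_right_iff
  intro V hV
  obtain ⟨V', hV', hVV, hK⟩ := local_compact_nhds hV
  obtain ⟨ε, hε, hεV⟩ := hN.mem_iff.1 ((continuous_add_const X).continuousAt.preimage_mem_nhds
    (x := 0) (t := V') (by simpa using hV'))
  have t2 : ∀ c : ℝ, Tendsto (fun k : ℕ => c / 2 ^ k) atTop (𝓝 0) := fun c =>
    tendsto_const_nhds.div_atTop (tendsto_pow_atTop_atTop_of_one_lt one_lt_two)
  filter_upwards [(t2 (N X + 1)).eventually (gt_mem_nhds one_pos),
    (t2 ((N X + 1) ^ 2)).eventually (gt_mem_nhds (half_pos hε))] with k k1 k2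
  let a : ℕ → A := fun n => s.q ^ k * ((1 + s.p ^ j n * b n) ^ 2 ^ (j n - k) - 1)
  have ea : ∀ n, 1 + s.p ^ k * a n = (1 + s.p ^ j n * b n) ^ 2 ^ (j n - k) := fun n => by
    simp only [a]; rw [← mul_assoc, s.pq_pow, one_mul]; abel
  have h9 : (0 : ℝ) < 2 ^ k := by positivity
  have hb0 := tN.1 (tendsto_sub_nhds_zero_iff.2 hb)
  have ev : ∀ᶠ n in atTop, a n ∈ V' := by
    filter_upwards [hj.eventually_ge_atTop k, hb0 1 one_pos, hb0 _ (half_pos hε)] with n n1 n2 n3
    have b1 : N (b n) ≤ N X + 1 := by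
      have := h1 X (b n - X); rw [add_sub_cancel] at this; linarith
    have b2 := est h1 h2 h3 h4 h.two n1 (b n) (((div_le_div_iff_of_pos_right h9).2 b1).trans k1.le)
    have b3 : N (b n) ^ 2 / 2 ^ k ≤ (N X + 1) ^ 2 / 2 ^ k :=
      (div_le_div_iff_of_pos_right h9).2 (pow_le_pow_left₀ (h4 _) b1 2)
    have b4 := h1 (a n - b n) (b n - X)
    have : a n - X ∈ {x | N x < ε} := by
      rw [sub_add_sub_cancel] at b4
      simp only [Set.mem_ofPred_eq]; linarith
    simpa using hεV this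
  obtain ⟨a0, ha0, φ, hφ, hl⟩ := hK.tendsto_subseq' ev.frequently
  have hl1 : Tendsto (fun n => 1 + s.p ^ k * a (φ n)) atTop (𝓝 (1 + s.p ^ k * a0)) :=
    (hl.const_mul _).const_add 1
  have hm : ∀ n, 1 + s.p ^ k * a0 ∈ closure (G n) := fun n => by
    refine mem_closure_of_tendsto hl1 ?_
    filter_upwards [hφ.tendsto_atTop.eventually_ge_atTop n] with m hm
    rw [ea]; exact ha hm ((hG _).pow (hg _) _)
  have hf0 : f * a0 = 0 := by
    have f1 : Tendsto (fun n => f * b n) atTop (𝓝 0) := hfX ▸ hb.const_mul f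
    have f2 : Tendsto (fun n => f * a n - f * b n) atTop (𝓝 0) := by
      refine tN.2 fun δ hδ => ?_
      filter_upwards [hj.eventually_ge_atTop k, tN.1 f1 1 one_pos, tN.1 f1 δ hδ] with n n1 n2 n3
      have o1 : (1 : ℝ) ≤ 2 ^ k := one_le_pow₀ one_le_two
      have b2 := est h1 h2 h3 h4 h.two n1 (f * b n) ((div_le_one h9).2 (n2.le.trans o1))
      have : f * a n = s.q ^ k * ((1 + s.p ^ j n * (f * b n)) ^ 2 ^ (j n - k) - 1) := by
        simp only [a]
        rw [← s.mv, ← idem_pow hf hc, ← mul_assoc, ← mul_assoc, s.cq.pow k f]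
      rw [this]
      have b3 : N (f * b n) ^ 2 / 2 ^ k ≤ N (f * b n) ^ 2 := div_le_self (sq_nonneg _) o1
      nlinarith [h4 (f * b n)]
    have f3 : Tendsto (fun n => f * a n) atTop (𝓝 0) := by simpa using f2.add f1
    exact tendsto_nhds_unique (hl.const_mul f) (f3.comp hφ.tendsto_atTop)
  exact ⟨a0, hVV ha0, Set.mem_iInter.2 hm, (hG 0).closure.uni _ (hm 0),
    (hG 0).closure.uni' (hm 0), by rw [mul_add, mul_one, s.mv, hf0, mul_zero, add_zero]⟩

/-- `p`-adic: a non-central element near `1` has a non-central logarithm -/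
theorem nc (h : Pad s) : ∃ V ∈ 𝓝 (1 : A), ∀ {H : Set A}, UG H → ∀ γ ∈ H, γ ∈ V → ∀ f y : A,
    Cen f → f * (γ * y - y * γ) ≠ 0 → ∃ X ∈ s.Tan H, ∃ y', f * (X * y' - y' * X) ≠ 0 := by
  classical
  obtain ⟨P, hP, R, ho, hK⟩ := h.ex
  have R0 : (R : Set A) ∈ 𝓝 (0 : A) := ho.mem_nhds R.zero_mem
  have pR : s.p ∈ R := hP ▸ natCast_mem R P
  refine ⟨_, ball_nhds (s := s) R0 2, ?_⟩
  rintro H hH γ hγ ⟨b0, hb0, e0⟩ f y0 hf hd
  -- normalise `y`
  obtain ⟨y, c0R, c0N⟩ : ∃ y, f * (γ * y - y * γ) ∈ R ∧ s.q * (f * (γ * y - y * γ)) ∉ R := by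
    set d := f * (γ * y0 - y0 * γ)
    obtain ⟨n, hn⟩ := ((s.tend.mul_const d).eventually (p := (· ∈ R))
      (by rw [zero_mul]; exact R0)).exists
    have ex : ∃ l, s.q ^ (l + 1) * (s.p ^ n * d) ∉ R := by
      by_contra hc
      push Not at hc
      have h0 : s.p ^ n * d ≠ 0 := fun h => hd (s.cancel (k := n) (by rw [h, mul_zero]))
      obtain ⟨l, hl⟩ := ((tendsto_add_atTop_nat 1).eventually
        (tube (s := s) hK (isOpen_compl_singleton.mem_nhds h0.symm))).exists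
      have := hl _ (hc l)
      rw [← mul_assoc (s.p ^ (l + 1)), s.pq_pow, one_mul] at this
      exact this rfl
    have cu := (s.cq.pow (Nat.find ex)).mul (s.cen.pow n)
    have e : ∀ u, Cen u → f * (γ * (u * y0) - u * y0 * γ) = u * d := fun u hu => by
      rw [← mul_assoc γ, ← hu γ, mul_assoc u, mul_assoc u, ← mul_sub, ← mul_assoc, hf u, mul_assoc]
    refine ⟨s.q ^ Nat.find ex * s.p ^ n * y0, ?_, ?_⟩
    · rw [e _ cu, mul_assoc]
      rcases h1 : Nat.find ex with _ | l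
      · simpa using hn
      · have := Nat.find_min ex (m := l) (by omega)
        exact not_not.1 this
    · rw [e _ cu, mul_assoc, ← mul_assoc, ← pow_succ']; exact Nat.find_spec ex
  have bin : ∀ x ∈ R, ∀ m : ℕ, ∃ r ∈ R, (1 + x) ^ m = 1 + m • x + x * x * r := by
    intro x hx m
    induction m with
    | zero => exact ⟨0, zero_mem _, by simp⟩
    | succ m ih =>
      obtain ⟨r, hr, e⟩ := ih
      refine ⟨m + r + r * x, add_mem (add_mem (natCast_mem R m) hr) (mul_mem hr hx), ?_⟩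
      have : x * x * (m : A) = m • x * x := by
        rw [← (Nat.cast_commute m (x * x)).eq, nsmul_eq_mul, mul_assoc]
      rw [pow_succ, e, succ_nsmul, mul_add (x * x), mul_add (x * x), this]; noncomm_ring
  have com : ∀ r ∈ R, ∀ c ∈ R, ∀ i : ℕ, f * ((1 + s.p ^ 2 * r) * y - y * (1 + s.p ^ 2 * r)) =
      s.p ^ i * c → ∀ m : ℕ, ∃ w ∈ R, f * ((1 + s.p ^ 2 * r) ^ m * y - y * (1 + s.p ^ 2 * r) ^ m)
        = s.p ^ i * (m • c + s.p ^ 2 * w) := by
    intro r hr c hc i e m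
    have gR : 1 + s.p ^ 2 * r ∈ R := add_mem (one_mem _) (mul_mem (pow_mem pR 2) hr)
    induction m with
    | zero => exact ⟨0, zero_mem _, by simp⟩
    | succ m ih =>
      obtain ⟨w, hw, e1⟩ := ih
      obtain ⟨r', hr', e2⟩ := bin _ (mul_mem (pow_mem pR 2) hr) m
      refine ⟨(m • r + r * (s.p ^ 2 * r) * r') * c + m • c * r + w * (1 + s.p ^ 2 * r),
        add_mem (add_mem (mul_mem (add_mem (nsmul_mem hr m) (mul_mem (mul_mem hr
          (mul_mem (pow_mem pR 2) hr)) hr')) hc) (mul_mem (nsmul_mem hc m) hr)) (mul_mem hw gR), ?_⟩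
      set g := 1 + s.p ^ 2 * r with hg
      have e3 : f * (g ^ (m + 1) * y - y * g ^ (m + 1)) =
          g ^ m * (f * (g * y - y * g)) + f * (g ^ m * y - y * g ^ m) * g := by
        rw [← mul_assoc (g ^ m), ← hf (g ^ m), pow_succ]; noncomm_ring
      rw [e3, e, e1, s.mv, mul_assoc, ← mul_add]
      congr 1
      rw [e2, succ_nsmul, add_mul (m • c), hg, mul_add (m • c), s.mv 2 (m • c), ← mul_smul_comm]
      noncomm_ring
  let b : ℕ → A := fun i => s.q ^ (i + 2) * (γ ^ P ^ i - 1)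
  have eb : ∀ i, 1 + s.p ^ (i + 2) * b i = γ ^ P ^ i := fun i => by
    simp only [b]; rw [← mul_assoc, s.pq_pow, one_mul]; abel
  have st : ∀ i, b i ∈ R → ∃ w ∈ R, b (i + 1) = b i + s.p ^ (i + 1) * w := by
    intro i hi
    obtain ⟨r, hr, e⟩ := bin _ (mul_mem (pow_mem pR (i + 2)) hi) P
    refine ⟨b i * b i * r, mul_mem (mul_mem hi hi) hr, s.cancel (k := i + 1 + 2) ?_⟩
    rw [eb, ← pow_mul, ← pow_succ, ← eb, add_assoc 1, add_right_inj] at e
    rw [e, nsmul_eq_mul, ← hP]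
    generalize b i = c
    rw [mul_add, mul_assoc (s.p ^ (i + 2)) c, s.mv _ c, ← mul_assoc s.p,
      ← pow_succ', ← mul_assoc (s.p ^ (i + 1 + 2)), ← pow_add, ← mul_assoc (s.p ^ (i + 2)),
      ← pow_add, mul_assoc (s.p ^ _)]
    congr 3; omega
  have b0' : b 0 = b0 := s.cancel (k := 0 + 2) (by
    have := eb 0; rw [pow_zero, pow_one, e0, add_right_inj] at this; exact this)
  have bR : ∀ i, b i ∈ R := by
    intro i
    induction i with
    | zero => rw [b0']; exact hb0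
    | succ i ih =>
      obtain ⟨w, hw, e⟩ := st i ih
      rw [e]; exact add_mem ih (mul_mem (pow_mem pR _) hw)
  have cau : ∀ i l, ∃ w ∈ R, b (i + l) = b i + s.p ^ i * w := by
    intro i l
    induction l with
    | zero => exact ⟨0, zero_mem _, by simp⟩
    | succ l ih =>
      obtain ⟨w, hw, e⟩ := ih
      obtain ⟨w', hw', e'⟩ := st _ (bR (i + l))
      refine ⟨w + s.p ^ (l + 1) * w', add_mem hw (mul_mem (pow_mem pR _) hw'), ?_⟩
      rw [← add_assoc, e', e, add_assoc i, pow_add]; noncomm_ring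
  obtain ⟨β, -, φ, hφ, hl⟩ := hK.tendsto_subseq bR
  have lim : Tendsto b atTop (𝓝 β) := by
    intro V hV
    have h1 := (continuous_add (M := A)).continuousAt.preimage_mem_nhds (x := (β, 0)) (t := V)
      (by simpa using hV)
    rw [nhds_prod_eq] at h1
    obtain ⟨V1, hV1, V2, hV2, h2⟩ := mem_prod_iff.1 h1
    obtain ⟨n, n1, n2⟩ := ((hl.eventually hV1).and
      (hφ.tendsto_atTop.eventually (tube (s := s) hK hV2))).exists
    rw [mem_map]
    filter_upwards [eventually_ge_atTop (φ n)] with i hi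
    obtain ⟨l, rfl⟩ := Nat.exists_eq_add_of_le hi
    obtain ⟨w, hw, e⟩ := cau (φ n) l
    rw [Set.mem_preimage, e]
    exact h2 (Set.mk_mem_prod n1 (n2 w hw))
  refine ⟨β, Tan_of_seq (lim.comp (tendsto_sub_atTop_nat 2)) ?_, y, fun h0 => c0N ?_⟩
  · filter_upwards [eventually_ge_atTop 2] with k hk
    obtain ⟨i, rfl⟩ := Nat.exists_eq_add_of_le' hk
    simp only [Function.comp_apply, Nat.add_sub_cancel, eb]
    exact hH.pow hγ _
  · set c0 := f * (γ * y - y * γ) with hc0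
    have ind : ∀ i, ∃ w ∈ R, f * (γ ^ P ^ i * y - y * γ ^ P ^ i) = s.p ^ i * (c0 + s.p * w) := by
      intro i
      induction i with
      | zero => exact ⟨0, zero_mem _, by simp [hc0]⟩
      | succ i ih =>
        obtain ⟨w, hw, e⟩ := ih
        have e1 : γ ^ P ^ i = 1 + s.p ^ 2 * (s.p ^ i * b i) := by
          rw [← eb, ← mul_assoc (s.p ^ 2), ← pow_add, add_comm 2]
        rw [e1] at e
        obtain ⟨w', hw', e'⟩ := com _ (mul_mem (pow_mem pR i) (bR i)) _
          (add_mem c0R (mul_mem pR hw)) i e P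
        refine ⟨w + w', add_mem hw hw', ?_⟩
        rw [pow_succ P, pow_mul, e1, e', nsmul_eq_mul, ← hP, pow_succ, pow_succ, pow_succ]
        noncomm_ring
    have t1 : Tendsto (fun i => s.q * (c0 - s.p ^ 2 * (f * (b i * y - y * b i)))) atTop
        (𝓝 (s.q * (c0 - s.p ^ 2 * (f * (β * y - y * β))))) :=
      (((((lim.mul_const y).sub (lim.const_mul y)).const_mul f).const_mul _).const_sub c0).const_mul _
    rw [h0, mul_zero, sub_zero] at t1
    refine hK.isClosed.mem_of_tendsto t1 (Eventually.of_forall fun i => ?_)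
    obtain ⟨w, hw, e⟩ := ind i
    have : s.p ^ 2 * (f * (b i * y - y * b i)) = c0 + s.p * w := by
      apply s.cancel (k := i)
      rw [← e, ← eb, ← mul_assoc, ← pow_add, ← s.mv, mul_add y, s.mv _ y]
      noncomm_ring
    rw [this, sub_add_cancel_left, mul_neg, ← mul_assoc, s.qp, one_mul]
    exact neg_mem hw

/-- commutators of rational unitary elements -/
theorem comS_Tan (R : Subring A) (hd : Dense (R : Set A)) (hp : s.p ∈ R) {h : A}
    (hh : 2 * h = 1) (hh' : h ∈ R) (hst : ∀ x ∈ R, star x ∈ R)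
    (hi : ∀ x ∈ R, ∀ y, x * y = 1 → y * x = 1 → y ∈ R) {L : Set A} (hL : UG L)
    (hc : ∀ a ∈ (R : Set A) ∩ Fx 0, ∀ b ∈ (R : Set A) ∩ Fx 0, a * b * star a * star b ∈ L) :
    ∀ x ∈ comS A, x ∈ s.Tan L := by
  have u : UG ((R : Set A) ∩ Fx 0) :=
    ⟨⟨R.one_mem, ug_Fx.one⟩, fun a ha b hb => ⟨R.mul_mem ha.1 hb.1, ug_Fx.mul a ha.2 b hb.2⟩,
      fun a ha => ⟨hst a ha.1, ug_Fx.star a ha.2⟩, fun a ha => ha.2.1⟩
  refine (AddSubgroup.closure_le (TanG (s := s) hL)).2 ?_
  rintro _ ⟨a, b, ha, hb, rfl⟩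
  exact Tan_com u u hc (skew_mem_Tan R hd hp hh hh' hst hi ha)
    (skew_mem_Tan R hd hp hh hh' hst hi hb)

theorem Dir_comS (g : Good A) {SG : Set A} (hS : UG SG)
    (nd : ∀ z ∈ s.Dir fun _ => SG, Cen z → z = 0) (hs : ∀ x ∈ comS A, x ∈ s.Tan SG) {X : A}
    (hX : X ∈ s.Dir fun _ => SG) : X ∈ comS A := by
  obtain ⟨x, hx, hc⟩ := g.skew_dec (Dir_skew (fun _ => hS) hX)
  have := nd _ (Dir_add (fun _ => hS) antitone_const (fun _ => subset_rfl) hX
    (hs _ (neg_mem hx))) (by rwa [← sub_eq_add_neg])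
  rw [← sub_eq_add_neg, sub_eq_zero] at this
  rwa [this]

/-- a subgroup of `SG` whose tangent cone contains `[𝔲,𝔲]` is dense near `1` -/
theorem nbhd (g : Good A) {SG H : Set A} (hS : UG SG)
    (nd : ∀ z ∈ s.Dir fun _ => SG, Cen z → z = 0) (hH : UG H) (hHS : H ⊆ SG)
    (hs : ∀ x ∈ comS A, x ∈ s.Tan H) : ∃ V ∈ 𝓝 (1 : A), SG ∩ V ⊆ closure H := by
  obtain ⟨-, h⟩ := opn (s := s) (fun _ => hS) antitone_const hH (fun _ => hHS) fun X hX =>
    hs _ (Dir_comS g hS nd (fun x hx => Tan_mono hHS (hs x hx)) hX)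
  exact h

/-- **`p`-adic local theorem** -/
theorem padic (g : Good A) (hp : Pad s) {H L : Set A} (hH : UG H) (hL : UG L)
    (hc : ∀ g ∈ L, ∃ m, 0 < m ∧ ∀ x ∈ H, g * x ^ m * star g ∈ H)
    (hLs : ∀ x ∈ comS A, x ∈ s.Tan L)
    (hn : ∀ f : A, f * f = f → Cen f → f ≠ 0 → ∀ V ∈ 𝓝 (1 : A), ∃ γ ∈ H, γ ∈ V ∧
      ∃ y, f * (γ * y - y * γ) ≠ 0) : ∀ x ∈ comS A, x ∈ s.Tan H := by
  obtain ⟨e, hee, he, -, h1, h2⟩ := g.lie (TanG (s := s) hH)
    (fun X hX => Dir_skew (fun _ => hH) (Tan_sub_Dir hX))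
    fun x hx X hX => Tan_lie hH hL hc hX (hLs x hx)
  have : 1 - e = 0 := by
    by_contra hf
    obtain ⟨V, hV, h⟩ := nc hp
    obtain ⟨γ, h3, h4, y, hy⟩ := hn (1 - e) (by rw [mul_sub, mul_one, sub_mul, one_mul, hee]; abel)
      he.one_sub hf V hV
    obtain ⟨X, hX, y', hy'⟩ := h hH γ h3 h4 _ y he.one_sub hy
    apply hy'
    rw [mul_sub, ← mul_assoc, h2 X hX y', ← mul_assoc, ← he.one_sub y', mul_assoc, sub_self]
  rw [sub_eq_zero] at this
  intro x hx
  have h3 := h1 x hx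
  rwa [← this, one_mul] at h3

/-- **archimedean local theorem** -/
theorem arch (g : Good A) (hp : Arch s) {SG L : Set A} (hS : Spc s SG) {G : ℕ → Set A}
    (hG : ∀ n, UG (G n)) (ha : Antitone G) (hGS : ∀ n, G n ⊆ SG) (hL : UG L) (hLS : L ⊆ SG)
    (hc : ∀ g ∈ L, ∃ m, 0 < m ∧ ∀ n, ∃ n', ∀ x ∈ G n', g * x ^ m * star g ∈ G n)
    (hLs : ∀ x ∈ comS A, x ∈ s.Tan L)
    (hn : ∀ f : A, f * f = f → Cen f → f ≠ 0 → ∀ n, ∀ V ∈ 𝓝 (1 : A), ∃ γ ∈ G n, γ ∈ V ∧
      f * γ ≠ f) : ∀ x ∈ comS A, x ∈ s.Tan (⋂ n, closure (G n)) := by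
  set H := ⋂ n, closure (G n) with hHd
  have hH : UG H := UG.iInter fun n => (hG n).closure
  have hHc : IsClosed H := isClosed_iInter fun _ => isClosed_closure
  have hcS : ∀ n, closure (G n) ⊆ SG := fun n => hS.closed.closure_subset_iff.2 (hGS n)
  have hHS : H ⊆ SG := (Set.iInter_subset _ 0).trans (hcS 0)
  have hc' : ∀ g ∈ L, ∃ m, 0 < m ∧ ∀ x ∈ H, g * x ^ m * star g ∈ H := by
    intro g hg
    obtain ⟨m, hm, h⟩ := hc g hg
    refine ⟨m, hm, fun x hx => Set.mem_iInter.2 fun n => ?_⟩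
    obtain ⟨n', hn'⟩ := h n
    exact map_mem_closure (f := fun x => g * x ^ m * star g) (by fun_prop)
      (Set.mem_iInter.1 hx n') hn'
  obtain ⟨e, hee, he, se, h1, h2⟩ := g.lie (TanG (s := s) hH)
    (fun X hX => Dir_skew (fun _ => hH) (Tan_sub_Dir hX))
    fun x hx X hX => Tan_lie hH hL hc' hX (hLs x hx)
  have : 1 - e = 0 := by
    by_contra hf
    have hff : (1 - e) * (1 - e) = 1 - e := by rw [mul_sub, mul_one, sub_mul, one_mul, hee]; abel
    obtain ⟨-, V, hV, o1⟩ := opn (s := s) (G := fun _ => SG ∩ Fx (1 - e))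
      (fun _ => hS.ug.inter ug_Fx) antitone_const (hH.inter ug_Fx)
      (fun _ => Set.inter_subset_inter_left _ hHS) fun X hX => by
        have x1 := Dir_comS g hS.ug hS.nd (fun x hx => Tan_mono hLS (hLs x hx))
          (Dir_mono (fun _ => Set.inter_subset_left) hX)
        have x2 := Dir_Fx (Dir_mono (fun _ => Set.inter_subset_right) hX)
        have x3 : e * X = X := by rw [sub_mul, one_mul, sub_eq_zero] at x2; exact x2.symm
        have x4 : X ∈ s.Tan H := x3 ▸ h1 X x1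
        have := te hp (fun _ => hH) antitone_const hff he.one_sub (Tan_sub_Dir x4) x2
        rwa [Set.iInter_const, hHc.closure_eq] at this
    have an : Antitone fun n => closure (G n) ∩ Fx e := fun _ _ h =>
      Set.inter_subset_inter_left _ (closure_mono (ha h))
    have u1 : UG ({1} : Set A) := ⟨rfl, by rintro _ rfl _ rfl; simp, by rintro _ rfl; simp,
      by rintro _ rfl; simp⟩
    obtain ⟨n, V', hV', o2⟩ := opn (s := s) (G := fun n => closure (G n) ∩ Fx e)
      (fun n => (hG n).closure.inter ug_Fx) an u1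
      (fun n => by rintro _ rfl; exact ((hG n).closure.inter ug_Fx).one) fun X hX => by
        have x1 := te hp (fun n => (hG n).closure.inter ug_Fx) an (f := 0) (by simp)
          (fun x => by simp) hX (by simp)
        have x2 : X ∈ s.Tan H := Tan_mono (Set.inter_subset_left.trans (Set.iInter_mono fun n =>
          (closure_mono Set.inter_subset_left).trans closure_closure.subset)) x1
        have x3 := Dir_Fx (Dir_mono (fun _ => Set.inter_subset_right) hX)
        have x4 := h2 X x2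
        rw [sub_mul, one_mul, x3, sub_zero] at x4
        rw [hS.nd X (Dir_mono (fun n => Set.inter_subset_left.trans (hcS n)) hX) x4]
        exact (TanG (s := s) u1).zero_mem
    have c1 : Continuous fun x : A => e * x + (1 - e) := by fun_prop
    have c2 : Continuous fun x : A => (1 - e) * x + e := by fun_prop
    obtain ⟨γ, g1, ⟨g2, g3⟩, g4⟩ := hn _ hff he.one_sub hf n _ (inter_mem
      (c1.continuousAt.preimage_mem_nhds (t := V) (by simpa using hV))
      (c2.continuousAt.preimage_mem_nhds (t := V') (by simpa using hV')))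
    have p1 := hS.idem e hee he se γ (hGS n g1)
    have fe : (1 - e) * e = 0 := by rw [sub_mul, one_mul, hee, sub_self]
    have p2 : e * γ + (1 - e) ∈ closure (G n) := Set.mem_iInter.1
      (hHc.closure_subset_iff.2 Set.inter_subset_left (o1 ⟨⟨p1, hS.ug.uni _ p1, hS.ug.uni' p1, by
        rw [mul_add, ← mul_assoc, fe, zero_mul, zero_add, hff]⟩, g2⟩)) n
    have p3 := (hG n).closure.mul _ (subset_closure g1) _ ((hG n).closure.star _ p2)
    have p4 : γ * star (e * γ + (1 - e)) = (1 - e) * γ + e := by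
      rw [star_add, star_mul, se, star_sub, star_one, se, mul_add, ← mul_assoc, (hG n).uni _ g1,
        one_mul, he.one_sub γ, add_comm]
    rw [p4] at p3
    have p5 := o2 ⟨⟨p3, (hG n).closure.uni _ p3, (hG n).closure.uni' p3, by
      rw [mul_add, ← mul_assoc, he (1 - e), fe, zero_mul, zero_add, hee]⟩, g3⟩
    rw [closure_singleton, Set.mem_singleton_iff] at p5
    exact g4 (eq_sub_of_add_eq p5)
  rw [sub_eq_zero] at this
  intro x hx
  have h3 := h1 x hx
  rwa [← this, one_mul] at h3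

end Sc
end Crest.Agent.T24.Sa
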