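import Crest.Agent.T24.SaLie_92

/-! # Tangent cones of subgroups of the unitary group of a locally compact ring

No exponential map: `Tan S` is the lower limit and `Dir G` the upper limit of the dilates
`p^{-k}(S - 1)`. -/

set_option autoImplicit false
set_option linter.unusedSectionVars false
open Filter Topology

namespace Crest.Agent.T24.Sa

/-- a scale on a topological star ring -/
structure Sc (A : Type*) [Ring A] [StarRing A] [TopologicalSpace A] where
  p : A
  q : A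
  pq : p * q = 1
  cen : Cen p
  star_p : star p = p
  tend : Tendsto (fun k : ℕ => p ^ k) atTop (𝓝 0)
  inv : ∀ V ∈ 𝓝 (1 : A), ∀ᶠ x in 𝓝 (1 : A), ∃ y ∈ V, x * y = 1 ∧ y * x = 1
  div : ∀ m : ℕ, 0 < m → ∀ V ∈ 𝓝 (1 : A), ∃ (c : ℤ) (i j : ℕ), c • (m • (p ^ i * q ^ j)) ∈ V

/-- a group of unitary elements, as a set -/
structure UG {A : Type*} [Ring A] [StarRing A] (S : Set A) : Prop where
  one : (1 : A) ∈ S
  mul : ∀ a ∈ S, ∀ b ∈ S, a * b ∈ S
  star : ∀ a ∈ S, star a ∈ S
  uni : ∀ a ∈ S, a * Star.star a = 1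

section
variable {A : Type*} [Ring A] [StarRing A]

theorem UG.uni' {S : Set A} (h : UG S) {a : A} (ha : a ∈ S) : Star.star a * a = 1 := by
  simpa using h.uni _ (h.star a ha)

theorem UG.pow {S : Set A} (h : UG S) {a : A} (ha : a ∈ S) (m : ℕ) : a ^ m ∈ S := by
  induction m with
  | zero => simpa using h.one
  | succ m ih => rw [pow_succ]; exact h.mul _ ih _ ha

theorem UG.inter {S T : Set A} (h : UG S) (h' : UG T) : UG (S ∩ T) :=
  ⟨⟨h.one, h'.one⟩, fun a ha b hb => ⟨h.mul a ha.1 b hb.1, h'.mul a ha.2 b hb.2⟩,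
    fun a ha => ⟨h.star a ha.1, h'.star a ha.2⟩, fun a ha => h.uni a ha.1⟩

theorem UG.iInter {G : ℕ → Set A} (h : ∀ n, UG (G n)) : UG (⋂ n, G n) :=
  ⟨Set.mem_iInter.2 fun n => (h n).one,
    fun a ha b hb => Set.mem_iInter.2 fun n =>
      (h n).mul a (Set.mem_iInter.1 ha n) b (Set.mem_iInter.1 hb n),
    fun a ha => Set.mem_iInter.2 fun n => (h n).star a (Set.mem_iInter.1 ha n),
    fun a ha => (h 0).uni a (Set.mem_iInter.1 ha 0)⟩

/-- the unitary elements that are `1` on the idempotent `f` -/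
def Fx (f : A) : Set A := {g | g * star g = 1 ∧ star g * g = 1 ∧ f * g = f}

theorem ug_Fx {f : A} : UG (Fx f) :=
  ⟨⟨by simp, by simp, by simp⟩,
    fun a ha b hb => ⟨by
      rw [star_mul, mul_assoc, ← mul_assoc b, hb.1, one_mul, ha.1], by
      rw [star_mul, mul_assoc, ← mul_assoc (star a), ha.2.1, one_mul, hb.2.1], by
      rw [← mul_assoc, ha.2.2, hb.2.2]⟩,
    fun a ha => ⟨by rw [star_star]; exact ha.2.1, by rw [star_star]; exact ha.1, by
      calc f * star a = f * a * star a := by rw [ha.2.2]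
        _ = f := by rw [mul_assoc, ha.1, mul_one]⟩,
    fun a ha => ha.1⟩

variable [TopologicalSpace A] [IsTopologicalRing A] [ContinuousStar A]

theorem UG.closure [T2Space A] {S : Set A} (h : UG S) : UG (closure S) :=
  ⟨subset_closure h.one,
    fun _ ha _ hb => map_mem_closure₂ continuous_mul ha hb h.mul,
    fun _ ha => map_mem_closure continuous_star ha h.star,
    fun _ ha => (isClosed_eq (f := fun a : A => a * Star.star a) (g := fun _ => 1)
      (by fun_prop) continuous_const).closure_subset_iff.2 h.uni ha⟩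

namespace Sc
variable (s : Sc A)

omit [IsTopologicalRing A] [ContinuousStar A] in
theorem cq : Cen s.q := s.cen.inv s.pq
omit [IsTopologicalRing A] [ContinuousStar A] in
theorem qp : s.q * s.p = 1 := by rw [s.cq, s.pq]
omit [IsTopologicalRing A] [ContinuousStar A] in
theorem pq_pow (k : ℕ) : s.p ^ k * s.q ^ k = 1 := by
  rw [← (Commute.mul_pow (s.cen s.q)), s.pq, one_pow]
omit [IsTopologicalRing A] [ContinuousStar A] in
theorem qp_pow (k : ℕ) : s.q ^ k * s.p ^ k = 1 := by rw [s.cq.pow k, s.pq_pow]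
omit [IsTopologicalRing A] [ContinuousStar A] in
theorem star_pow (k : ℕ) : star (s.p ^ k) = s.p ^ k := by rw [_root_.star_pow, s.star_p]
omit [IsTopologicalRing A] [ContinuousStar A] in
theorem cancel {k : ℕ} {x y : A} (h : s.p ^ k * x = s.p ^ k * y) : x = y := by
  have := congrArg (s.q ^ k * ·) h
  simpa only [← mul_assoc, s.qp_pow, one_mul] using this
omit [IsTopologicalRing A] [ContinuousStar A] in
theorem mv (k : ℕ) (x y : A) : x * (s.p ^ k * y) = s.p ^ k * (x * y) := by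
  rw [← mul_assoc, ← s.cen.pow k, mul_assoc]

/-- lower tangent cone -/
def Tan (S : Set A) : Set A := {X | ∀ V ∈ 𝓝 X, ∀ᶠ k in atTop, ∃ a ∈ V, 1 + s.p ^ k * a ∈ S}

/-- upper tangent cone of a family -/
def Dir (G : ℕ → Set A) : Set A :=
  {X | ∀ V ∈ 𝓝 X, ∀ n, ∃ k ≥ n, ∃ a ∈ V, 1 + s.p ^ k * a ∈ G n}

variable {s}

omit [IsTopologicalRing A] [ContinuousStar A] in
theorem Tan_mono {S T : Set A} (h : S ⊆ T) : s.Tan S ⊆ s.Tan T := fun _ hX V hV =>
  (hX V hV).mono fun _ ⟨a, ha, h1⟩ => ⟨a, ha, h h1⟩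

omit [IsTopologicalRing A] [ContinuousStar A] in
theorem Dir_mono {G G' : ℕ → Set A} (h : ∀ n, G n ⊆ G' n) : s.Dir G ⊆ s.Dir G' :=
  fun _ hX V hV n => let ⟨k, hk, a, ha, h1⟩ := hX V hV n; ⟨k, hk, a, ha, h n h1⟩

omit [IsTopologicalRing A] [ContinuousStar A] in
theorem Tan_sub_Dir {S : Set A} : s.Tan S ⊆ s.Dir fun _ => S := fun _ hX V hV n => by
  obtain ⟨k, hk, h⟩ := ((eventually_ge_atTop n).and (hX V hV)).exists
  exact ⟨k, hk, h⟩

omit [IsTopologicalRing A] [ContinuousStar A] in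
theorem closed_Tan (S : Set A) : IsClosed (s.Tan S) := by
  rw [← closure_subset_iff_isClosed]
  intro X hX V hV
  obtain ⟨U, hU, ho, hXU⟩ := mem_nhds_iff.1 hV
  obtain ⟨Y, hY, hY'⟩ := mem_closure_iff.1 hX U ho hXU
  exact (hY' U (ho.mem_nhds hY)).mono fun _ ⟨a, ha, h⟩ => ⟨a, hU ha, h⟩

omit [ContinuousStar A] in
theorem Tan_closure {S : Set A} : s.Tan (closure S) ⊆ s.Tan S := by
  intro X hX V hV
  obtain ⟨U, hU, ho, hXU⟩ := mem_nhds_iff.1 hV
  refine (hX U (ho.mem_nhds hXU)).mono ?_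
  rintro k ⟨a, ha, h⟩
  have hc : Continuous fun g : A => s.q ^ k * (g - 1) := by fun_prop
  obtain ⟨g, hg, hg'⟩ := mem_closure_iff.1 h _ (ho.preimage hc)
    (by simpa [← mul_assoc, s.qp_pow] using ha)
  exact ⟨_, hU hg, by simpa [← mul_assoc, s.pq_pow] using hg'⟩

omit [IsTopologicalRing A] [ContinuousStar A] in
theorem Tan_of_seq {S : Set A} {X : A} {a : ℕ → A} (ha : Tendsto a atTop (𝓝 X))
    (h : ∀ᶠ k in atTop, 1 + s.p ^ k * a k ∈ S) : X ∈ s.Tan S := fun _ hV =>
  ((ha.eventually hV).and h).mono fun k hk => ⟨a k, hk.1, hk.2⟩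

omit [IsTopologicalRing A] [ContinuousStar A] in
theorem seq_of_Tan [FirstCountableTopology A] {S : Set A} {X : A} (hX : X ∈ s.Tan S) :
    ∃ a : ℕ → A, Tendsto a atTop (𝓝 X) ∧ ∀ᶠ k in atTop, 1 + s.p ^ k * a k ∈ S := by
  classical
  obtain ⟨V, hV⟩ := (𝓝 X).exists_antitone_basis
  let P : ℕ → ℕ → Prop := fun k j => ∃ a ∈ V j, 1 + s.p ^ k * a ∈ S
  have hP : ∀ j, ∀ᶠ k in atTop, P k j := fun j => hX _ (hV.mem j)
  have hch : ∀ k, ∃ a, P k (Nat.findGreatest (P k) k) →
      a ∈ V (Nat.findGreatest (P k) k) ∧ 1 + s.p ^ k * a ∈ S := by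
    intro k
    by_cases h : P k (Nat.findGreatest (P k) k)
    · obtain ⟨a, ha⟩ := h; exact ⟨a, fun _ => ha⟩
    · exact ⟨0, fun h' => absurd h' h⟩
  choose a ha using hch
  refine ⟨a, hV.toHasBasis.tendsto_right_iff.2 fun j _ => ?_, ?_⟩
  · filter_upwards [hP j, eventually_ge_atTop j] with k h1 h2
    exact hV.antitone (Nat.le_findGreatest h2 h1) (ha k (Nat.findGreatest_spec h2 h1)).1
  · filter_upwards [hP 0] with k h1
    exact (ha k (Nat.findGreatest_spec (Nat.zero_le k) h1)).2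

omit [IsTopologicalRing A] [ContinuousStar A] in
theorem seq_of_Dir [FirstCountableTopology A] {G : ℕ → Set A} {X : A} (hX : X ∈ s.Dir G) :
    ∃ (k : ℕ → ℕ) (a : ℕ → A), Tendsto k atTop atTop ∧ Tendsto a atTop (𝓝 X) ∧
      ∀ n, 1 + s.p ^ k n * a n ∈ G n := by
  obtain ⟨V, hV⟩ := (𝓝 X).exists_antitone_basis
  choose k hk a ha h using fun n => hX _ (hV.mem n) n
  exact ⟨k, a, tendsto_atTop_mono hk tendsto_id, hV.tendsto ha, h⟩

omit [IsTopologicalRing A] [ContinuousStar A] in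
theorem Dir_of_cluster {G : ℕ → Set A} (hG : Antitone G) {X : A} {k : ℕ → ℕ} {a : ℕ → A}
    (hk : Tendsto k atTop atTop) (ha : MapClusterPt X atTop a)
    (h : ∀ᶠ n in atTop, 1 + s.p ^ k n * a n ∈ G n) : X ∈ s.Dir G := by
  intro V hV n
  obtain ⟨m, h1, h2, h3, h4⟩ := ((mapClusterPt_iff_frequently.1 ha V hV).and_eventually
    ((eventually_ge_atTop n).and ((hk.eventually_ge_atTop n).and h))).exists
  exact ⟨k m, h3, a m, h1, hG h2 h4⟩

omit [ContinuousStar A] in
theorem lim1 {k : ℕ → ℕ} (hk : Tendsto k atTop atTop) {a : ℕ → A} {X : A}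
    (ha : Tendsto a atTop (𝓝 X)) : Tendsto (fun n => 1 + s.p ^ k n * a n) atTop (𝓝 1) := by
  simpa using ((s.tend.comp hk).mul ha).const_add 1

theorem lim1s {k : ℕ → ℕ} (hk : Tendsto k atTop atTop) {a : ℕ → A} {X : A}
    (ha : Tendsto a atTop (𝓝 X)) :
    Tendsto (fun n => star (1 + s.p ^ k n * a n)) atTop (𝓝 1) := by
  simpa only [star_one] using (lim1 hk ha).star

variable [FirstCountableTopology A]

theorem Dir_skew [T2Space A] {G : ℕ → Set A} (hG : ∀ n, UG (G n)) {X : A} (hX : X ∈ s.Dir G) :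
    star X = -X := by
  obtain ⟨k, a, hk, ha, h⟩ := seq_of_Dir hX
  have e : ∀ n, star (a n) = -(a n * star (1 + s.p ^ k n * a n)) := by
    intro n
    apply s.cancel (k := k n)
    have h1 := (hG n).uni _ (h n)
    have h2 : star (1 + s.p ^ k n * a n) = 1 + s.p ^ k n * star (a n) := by
      rw [star_add, star_one, star_mul, s.star_pow, s.cen.pow]
    rw [add_mul, one_mul] at h1
    rw [mul_neg, ← mul_assoc, eq_neg_iff_add_eq_zero, ← add_right_inj 1, add_zero, ← add_assoc,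
      ← h2, h1]
  have h1 := (ha.mul (lim1s (s := s) hk ha)).neg
  rw [mul_one] at h1
  exact tendsto_nhds_unique ha.star (h1.congr fun n => (e n).symm)

omit [ContinuousStar A] in
theorem Dir_Fx [T2Space A] {f X : A} (hX : X ∈ s.Dir fun _ => Fx f) : f * X = 0 := by
  obtain ⟨k, a, -, ha, h⟩ := seq_of_Dir hX
  have e : ∀ n, f * a n = 0 := fun n => by
    apply s.cancel (k := k n)
    have := (h n).2.2
    rw [mul_add, mul_one, s.mv, add_eq_left] at this
    rw [this, mul_zero]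
  exact tendsto_nhds_unique (ha.const_mul f) (by simpa [e] using tendsto_const_nhds)

omit [ContinuousStar A] in
theorem Dir_add {G : ℕ → Set A} (hG : ∀ n, UG (G n)) (ha : Antitone G) {S : Set A}
    (hS : ∀ n, S ⊆ G n) {X Y : A} (hX : X ∈ s.Dir G) (hY : Y ∈ s.Tan S) : X + Y ∈ s.Dir G := by
  obtain ⟨k, a, hk, ha', h⟩ := seq_of_Dir hX
  obtain ⟨b, hb, h'⟩ := seq_of_Tan hY
  have h1 := ha'.add ((lim1 (s := s) hk ha').mul (hb.comp hk))
  rw [one_mul] at h1
  refine Dir_of_cluster ha hk h1.mapClusterPt ?_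
  filter_upwards [hk.eventually h'] with n hn
  have := (hG n).mul _ (h n) _ (hS n hn)
  rwa [mul_add, mul_one, s.mv, add_assoc, ← mul_add] at this

/-- the tangent cone of a unitary group is an additive group -/
def TanG {S : Set A} (hS : UG S) : AddSubgroup A where
  carrier := s.Tan S
  zero_mem' := Tan_of_seq tendsto_const_nhds (Eventually.of_forall fun k => by simp [hS.one])
  add_mem' := fun {X Y} hX hY => by
    obtain ⟨a, ha, h⟩ := seq_of_Tan hX
    obtain ⟨b, hb, h'⟩ := seq_of_Tan hY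
    have h1 := ha.add ((lim1 (s := s) tendsto_id ha).mul hb)
    rw [one_mul] at h1
    refine Tan_of_seq h1 ?_
    filter_upwards [h, h'] with n hn hn'
    have := hS.mul _ hn _ hn'
    rwa [mul_add, mul_one, s.mv, add_assoc, ← mul_add] at this
  neg_mem' := fun {X} hX => by
    obtain ⟨a, ha, h⟩ := seq_of_Tan hX
    have h1 := (ha.mul (lim1s (s := s) tendsto_id ha)).neg
    rw [mul_one] at h1
    refine Tan_of_seq h1 ?_
    filter_upwards [h] with n hn
    have h2 := hS.uni _ hn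
    rw [add_mul, one_mul, ← eq_sub_iff_add_eq, mul_assoc] at h2
    have := hS.star _ hn
    rwa [h2, sub_eq_add_neg, ← mul_neg] at this

omit [ContinuousStar A] in
theorem Tan_p {S : Set A} {X : A} (hX : X ∈ s.Tan S) : s.p * X ∈ s.Tan S := by
  obtain ⟨a, ha, h⟩ := seq_of_Tan hX
  refine Tan_of_seq ((ha.comp (tendsto_add_atTop_nat 1)).const_mul s.p) ?_
  filter_upwards [(tendsto_add_atTop_nat 1).eventually h] with n hn
  simpa [pow_succ, mul_assoc] using hn

omit [ContinuousStar A] in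
theorem Tan_q {S : Set A} {X : A} (hX : X ∈ s.Tan S) : s.q * X ∈ s.Tan S := by
  obtain ⟨a, ha, h⟩ := seq_of_Tan hX
  refine Tan_of_seq ((ha.comp (tendsto_sub_atTop_nat 1)).const_mul s.q) ?_
  filter_upwards [(tendsto_sub_atTop_nat 1).eventually h, eventually_ge_atTop 1] with n hn h1
  obtain ⟨m, rfl⟩ := Nat.exists_eq_add_of_le' h1
  simpa [pow_succ, mul_assoc, ← mul_assoc s.p, s.pq] using hn

omit [ContinuousStar A] in
theorem Tan_pq {S : Set A} {X : A} (hX : X ∈ s.Tan S) (i j : ℕ) :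
    s.p ^ i * s.q ^ j * X ∈ s.Tan S := by
  induction i with
  | zero =>
    induction j with
    | zero => simpa using hX
    | succ j ih => simpa [pow_succ', mul_assoc] using Tan_q ih
  | succ i ih => simpa [pow_succ', mul_assoc] using Tan_p ih

theorem Tan_div {S : Set A} (hS : UG S) {X : A} {m : ℕ} (hm : 0 < m) (hX : m • X ∈ s.Tan S) :
    X ∈ s.Tan S := by
  apply (closed_Tan S).closure_subset
  rw [mem_closure_iff_nhds]
  intro V hV
  have hc : Continuous fun y : A => y * X := by fun_prop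
  obtain ⟨c, i, j, h⟩ := s.div m hm _ (hc.continuousAt.preimage_mem_nhds (by simpa using hV))
  refine ⟨_, h, ?_⟩
  have : c • (s.p ^ i * s.q ^ j * m • X) ∈ s.Tan S :=
    (TanG (s := s) hS).zsmul_mem (x := s.p ^ i * s.q ^ j * m • X) (Tan_pq hX i j) c
  simpa only [smul_mul_assoc, mul_smul_comm] using this

/-- commensuration: `Ad g` preserves the tangent cone -/
theorem Tan_ad {S : Set A} (hS : UG S) {g : A} (hg : g * star g = 1) {m : ℕ} (hm : 0 < m)
    (h : ∀ x ∈ S, g * x ^ m * star g ∈ S) {X : A} (hX : X ∈ s.Tan S) :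
    g * X * star g ∈ s.Tan S := by
  apply Tan_div hS hm
  obtain ⟨a, ha, h'⟩ := seq_of_Tan hX
  have h1 : Tendsto (fun k => ∑ i ∈ Finset.range m, (1 + s.p ^ k * a k) ^ i) atTop
      (𝓝 (∑ i ∈ Finset.range m, (1 : A) ^ i)) :=
    tendsto_finsetSum _ fun i _ => (lim1 (s := s) tendsto_id ha).pow i
  have h2 := ((h1.mul ha).const_mul g).mul_const (star g)
  simp only [one_pow, Finset.sum_const, Finset.card_range, smul_mul_assoc, one_mul,
    mul_smul_comm] at h2
  refine Tan_of_seq h2 ?_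
  filter_upwards [h'] with k hk
  have h3 := h _ hk
  have h4 := geom_sum_mul (1 + s.p ^ k * a k) m
  rw [add_sub_cancel_left, eq_sub_iff_add_eq] at h4
  rw [← h4, mul_add, add_mul, mul_one, hg, add_comm, s.mv, s.mv, mul_assoc] at h3
  exact h3

/-- the tangent cone is stable under `ad` of the tangent cone of the commensurator -/
theorem Tan_lie {S L : Set A} (hS : UG S) (hL : UG L)
    (h : ∀ g ∈ L, ∃ m, 0 < m ∧ ∀ x ∈ S, g * x ^ m * star g ∈ S) {X Y : A} (hX : X ∈ s.Tan S)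
    (hY : Y ∈ s.Tan L) : Y * X - X * Y ∈ s.Tan S := by
  obtain ⟨b, hb, h'⟩ := seq_of_Tan hY
  have h1 := ((hb.mul_const X).sub (hb.const_mul X)).mul (lim1s (s := s) tendsto_id hb)
  rw [mul_one] at h1
  refine (closed_Tan S).mem_of_tendsto h1 ?_
  filter_upwards [h'] with k hk
  obtain ⟨m, hm, h2⟩ := h _ hk
  have h3 := Tan_pq ((TanG (s := s) hS).sub_mem (Tan_ad hS (hL.uni _ hk) hm h2 hX) hX) 0 k
  have h4 := hL.uni _ hk
  set g := 1 + s.p ^ k * b k with hg
  have : g * X * star g - X = s.p ^ k * ((b k * X - X * b k) * star g) := by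
    calc g * X * star g - X = g * X * star g - X * (g * star g) := by rw [h4, mul_one]
      _ = (g * X - X * g) * star g := by noncomm_ring
      _ = _ := by
        rw [← mul_assoc]; congr 1
        rw [hg, add_mul, mul_add, s.mv]; noncomm_ring
  rwa [this, pow_zero, one_mul, ← mul_assoc, s.qp_pow, one_mul] at h3

/-- group commutators -/
theorem Tan_com {S T C : Set A} (hS : UG S) (hT : UG T)
    (h : ∀ a ∈ S, ∀ b ∈ T, a * b * star a * star b ∈ C) {X Y : A} (hX : X ∈ s.Tan S)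
    (hY : Y ∈ s.Tan T) : X * Y - Y * X ∈ s.Tan C := by
  obtain ⟨a, ha, h1⟩ := seq_of_Tan hX
  obtain ⟨b, hb, h2⟩ := seq_of_Tan hY
  have k1 : Tendsto (fun k : ℕ => k / 2) atTop atTop := Nat.tendsto_div_const_atTop two_ne_zero
  have k2 : Tendsto (fun k : ℕ => k - k / 2) atTop atTop :=
    tendsto_atTop_mono (fun k => by omega) k1
  have ha' := ha.comp k1
  have hb' := hb.comp k2
  have h3 := (((ha'.mul hb').sub (hb'.mul ha')).mul (lim1s (s := s) k1 ha')).mul
    (lim1s (s := s) k2 hb')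
  rw [mul_one, mul_one] at h3
  refine Tan_of_seq h3 ?_
  filter_upwards [k1.eventually h1, k2.eventually h2] with k e1 e2
  have h4 := h _ e1 _ e2
  have u1 := hS.uni _ e1
  have u2 := hT.uni _ e2
  simp only [Function.comp_apply]
  set x := 1 + s.p ^ (k / 2) * a (k / 2) with hx
  set y := 1 + s.p ^ (k - k / 2) * b (k - k / 2) with hy
  have e : x * y - y * x = s.p ^ k * (a (k / 2) * b (k - k / 2) - b (k - k / 2) * a (k / 2)) := by
    have hk : s.p ^ k = s.p ^ (k / 2) * s.p ^ (k - k / 2) := by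
      rw [← pow_add]; congr 1; omega
    have hk' : s.p ^ k = s.p ^ (k - k / 2) * s.p ^ (k / 2) := by
      rw [← pow_add]; congr 1; omega
    have : x * y - y * x = s.p ^ (k / 2) * a (k / 2) * (s.p ^ (k - k / 2) * b (k - k / 2)) -
      s.p ^ (k - k / 2) * b (k - k / 2) * (s.p ^ (k / 2) * a (k / 2)) := by
      rw [hx, hy]; noncomm_ring
    rw [this, mul_assoc, mul_assoc, s.mv _ (a _), s.mv _ (b _), ← mul_assoc, ← hk,
      ← mul_assoc (s.p ^ (k - k / 2)), ← hk', mul_sub]
  have : x * y * star x * star y = 1 + (x * y - y * x) * star x * star y := by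
    rw [sub_mul, sub_mul, mul_assoc y x, u1, mul_one, u2]; abel
  rwa [this, e, mul_assoc (s.p ^ k), mul_assoc (s.p ^ k)] at h4

/-- Cayley transform -/
theorem cayley (R : Subring A) (hp : s.p ∈ R)
    (hi : ∀ x ∈ R, ∀ y, x * y = 1 → y * x = 1 → y ∈ R) {y : A} (hy : y ∈ R)
    (hs : star y = -y) : 2 * y ∈ s.Tan (R ∩ Fx 0) := by
  intro V hV
  have hc : Continuous fun w : A => 2 * y * w := by fun_prop
  have h1 : Tendsto (fun k : ℕ => 1 + s.p ^ k * (-y)) atTop (𝓝 1) :=
    lim1 tendsto_id tendsto_const_nhds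
  filter_upwards [h1.eventually
    (s.inv _ (hc.continuousAt.preimage_mem_nhds (by simpa using hV)))] with k ⟨w, hw, e1, e2⟩
  have hm : 1 + s.p ^ k * (-y) ∈ R := add_mem (one_mem _) (mul_mem (pow_mem hp k) (neg_mem hy))
  have hw' := hi _ hm w e1 e2
  set t := s.p ^ k * y with ht
  have st : star t = -t := by rw [ht, star_mul, s.star_pow, hs, neg_mul, s.cen.pow]
  rw [mul_neg, ← ht, ← sub_eq_add_neg] at e1 e2
  have e3 : 1 + s.p ^ k * (2 * y * w) = (1 + t) * w := by
    have : 1 + s.p ^ k * (2 * y * w) = (1 - t) * w + s.p ^ k * (2 * y * w) := by rw [e1]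
    rw [this, two_mul, add_mul, mul_add, ← mul_assoc, ← ht]; noncomm_ring
  have e4 : star w * (1 + t) = 1 := by
    have := congrArg star e1
    rwa [star_mul, star_sub, star_one, st, sub_neg_eq_add] at this
  have e5 : (1 + t) * star w = 1 := by
    have := congrArg star e2
    rwa [star_mul, star_sub, star_one, st, sub_neg_eq_add] at this
  have e6 : (1 + t) * (1 - t) = (1 - t) * (1 + t) := by noncomm_ring
  have e7 : (1 + t) * w = w * (1 + t) := by
    calc (1 + t) * w = w * (1 - t) * (1 + t) * w := by rw [e2, one_mul]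
      _ = w * (1 + t) * ((1 - t) * w) := by rw [mul_assoc w, ← e6]; simp only [mul_assoc]
      _ = _ := by rw [e1, mul_one]
  have e8 : star ((1 + t) * w) = star w * (1 - t) := by
    rw [star_mul, star_add, star_one, st, sub_eq_add_neg]
  refine ⟨_, hw, ?_, ?_, ?_, by simp⟩
  · exact add_mem (one_mem _) (mul_mem (pow_mem hp k)
      (mul_mem (mul_mem (by simp) hy) hw'))
  · rw [e3, e8, e7, mul_assoc, ← mul_assoc (1 + t), e5, one_mul, e2]
  · rw [e3, e8, mul_assoc, ← mul_assoc (1 - t), ← e6, mul_assoc, e1, mul_one, e4]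

/-- weak approximation at the level of tangent cones -/
theorem skew_mem_Tan (R : Subring A) (hd : Dense (R : Set A)) (hp : s.p ∈ R) {h : A}
    (hh : 2 * h = 1) (hh' : h ∈ R) (hst : ∀ x ∈ R, star x ∈ R)
    (hi : ∀ x ∈ R, ∀ y, x * y = 1 → y * x = 1 → y ∈ R) {X : A} (hs : star X = -X) :
    X ∈ s.Tan (R ∩ Fx 0) := by
  have hc : Continuous fun x : A => 2 * (h * (h * (x - star x))) := by fun_prop
  have e : X = 2 * (h * (h * (X - star X))) := by
    rw [hs, sub_neg_eq_add, ← two_mul, ← mul_assoc h 2, cen_half hh 2, hh, one_mul, ← mul_assoc,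
      hh, one_mul]
  rw [e]
  apply (closed_Tan _).closure_subset
  refine map_mem_closure (f := fun x : A => 2 * (h * (h * (x - star x)))) hc (hd X) fun x hx => cayley R hp hi
    (mul_mem hh' (mul_mem hh' (sub_mem hx (hst x hx)))) ?_
  rw [star_mul, star_mul, star_half hh, star_sub, star_star, ← cen_half hh, ← cen_half hh,
    ← mul_neg, ← mul_neg, neg_sub]

omit [ContinuousStar A] [FirstCountableTopology A] in
theorem tube {Λ : Set A} (hΛ : IsCompact Λ) {V : Set A} (hV : V ∈ 𝓝 (0 : A)) :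
    ∀ᶠ k in atTop, ∀ a ∈ Λ, s.p ^ k * a ∈ V := by
  have : ∀ᶠ t in 𝓝 (0 : A), ∀ a ∈ Λ, t * a ∈ V := by
    refine hΛ.eventually_forall_of_forall_eventually (P := fun t a => t * a ∈ V) fun a _ => ?_
    exact continuous_mul.continuousAt.preimage_mem_nhds (by simpa using hV)
  exact s.tend.eventually this

omit [ContinuousStar A] [FirstCountableTopology A] in
theorem ball_nhds {Λ : Set A} (hΛ : Λ ∈ 𝓝 (0 : A)) (k : ℕ) :
    {g | ∃ a ∈ Λ, g = 1 + s.p ^ k * a} ∈ 𝓝 (1 : A) := by
  have hc : Continuous fun g : A => s.q ^ k * (g - 1) := by fun_prop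
  refine mem_of_superset (hc.continuousAt.preimage_mem_nhds (t := Λ) (by simpa using hΛ)) ?_
  intro g hg
  exact ⟨_, hg, by simp [← mul_assoc, s.pq_pow]⟩

omit [FirstCountableTopology A] in
/-- **openness by successive approximation** -/
theorem opn [WeaklyLocallyCompactSpace A] {G : ℕ → Set A} (hG : ∀ n, UG (G n)) (ha : Antitone G)
    {H : Set A} (hH : UG H) (hHG : ∀ n, H ⊆ G n) (h : s.Dir G ⊆ s.Tan H) :
    ∃ n, ∃ V ∈ 𝓝 (1 : A), G n ∩ V ⊆ closure H := by
  obtain ⟨Λ, hΛ, hΛ0⟩ := exists_compact_mem_nhds (0 : A)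
  have step : ∃ n, ∀ k ≥ n, ∀ a ∈ Λ, 1 + s.p ^ k * a ∈ G n →
      ∃ x ∈ H, ∃ a' ∈ Λ, (1 + s.p ^ k * a) * star x = 1 + s.p ^ (k + 1) * a' := by
    by_contra hc
    push Not at hc
    choose k hk a ha1 ha2 ha3 using hc
    have hk' : Tendsto k atTop atTop := tendsto_atTop_mono hk tendsto_id
    obtain ⟨X, -, hX⟩ := hΛ.exists_mapClusterPt (f := atTop) (u := a)
      (le_principal_iff.2 (mem_map.2 (Eventually.of_forall ha1)))
    have hT := h (Dir_of_cluster ha hk' hX (Eventually.of_forall ha2))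
    have hc : Continuous fun z : A × A × A => s.q * ((z.1 - z.2.1) * star (1 + z.2.2 * z.2.1)) := by
      fun_prop
    have h1 := hc.continuousAt.preimage_mem_nhds (x := (X, X, 0)) (t := Λ) (by simpa using hΛ0)
    rw [nhds_prod_eq, nhds_prod_eq] at h1
    obtain ⟨V1, hV1, W, hW, h2⟩ := mem_prod_iff.1 h1
    obtain ⟨V2, hV2, V3, hV3, h3⟩ := mem_prod_iff.1 hW
    obtain ⟨n, h4, ⟨b, hb, h5⟩, h6⟩ := ((mapClusterPt_iff_frequently.1 hX V1 hV1).and_eventually
      ((hk'.eventually (hT V2 hV2)).and (hk'.eventually (s.tend.eventually hV3)))).exists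
    refine ha3 n _ h5 _ (h2 (Set.mk_mem_prod h4 (h3 (Set.mk_mem_prod hb h6)))) ?_
    have u := hH.uni _ h5
    simp only
    rw [pow_succ, mul_assoc, ← mul_assoc s.p, s.pq, one_mul, ← mul_assoc]
    generalize star (1 + s.p ^ k n * b) = w at u ⊢
    have : (1 + s.p ^ k n * a n) * w =
        (1 + s.p ^ k n * b) * w + s.p ^ k n * (a n - b) * w := by noncomm_ring
    rw [this, u]
  obtain ⟨n, hn⟩ := step
  refine ⟨n, _, ball_nhds (s := s) hΛ0 n, ?_⟩
  rintro g ⟨hg, a, ha1, rfl⟩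
  have it : ∀ j, ∃ x ∈ H, ∃ a' ∈ Λ, (1 + s.p ^ n * a) * star x = 1 + s.p ^ (n + j) * a' := by
    intro j
    induction j with
    | zero => exact ⟨1, hH.one, a, ha1, by simp⟩
    | succ j ih =>
      obtain ⟨x, hx, a', ha', e⟩ := ih
      obtain ⟨y, hy, a'', ha'', e'⟩ := hn (n + j) (by omega) a' ha'
        (e ▸ (hG n).mul _ hg _ (hHG n (hH.star x hx)))
      exact ⟨y * x, hH.mul _ hy _ hx, a'', ha'', by rw [star_mul, ← mul_assoc, e, e', add_assoc]⟩
  rw [mem_closure_iff_nhds]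
  intro V hV
  have hc : Continuous fun t : A => star (1 + t) * (1 + s.p ^ n * a) := by fun_prop
  obtain ⟨j, hj⟩ := ((tendsto_add_atTop_nat n).eventually (tube (s := s) hΛ
    (hc.continuousAt.preimage_mem_nhds (x := 0) (t := V) (by simpa using hV)))).exists
  obtain ⟨x, hx, a', ha', e⟩ := it j
  refine ⟨x, ?_, hx⟩
  have := hj a' ha'
  rw [Set.mem_preimage, add_comm j, ← e, star_mul, star_star, mul_assoc, (hG n).uni' hg,
    mul_one] at this
  exact this

end Sc
end
end Crest.Agent.T24.Sa
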