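import Crest.Agent.T24.StabDef_43

/-!
# Row 24 (helper43): stability from the choice of good parameters
-/

set_option autoImplicit false
set_option linter.unusedSectionVars false

noncomputable section

namespace Crest.Agent.T24.Stab

open Ring Module WithZero Csa Asa Polynomial

universe u v w

section Glob
variable (K : Type v) (B : Type w) [Field K] [NumberField K] [StarRing K] [Ring B] [StarRing B]
  [Algebra K B] [StarModule K B] [Algebra.IsCentral K B] [IsSimpleRing B] [FiniteDimensional K B]

/-- good parameters exist -/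
def Out : Prop := ∀ (m : ℕ) (c : K) (g p q : B), star c ≠ c → IsUnit g → IsUnit p → IsUnit q →
  g + star g = star p * p → c • g + star (c • g) = star q * q →
  ∃ x z v μ : B, v ∈ unitary B ∧ x + star x = star z * z ∧ star z * (v * q - p) = (1 - c) • g ∧
    IsUnit x ∧ IsUnit (xx x g z p) ∧ IsUnit (z + p) ∧ IsUnit (ze x g z p) ∧
    IsUnit (ze x (c • g) z (v * q)) ∧ rho x z ∈ Deep K B m ∧ rho (xx x g z p) (z + p) ∈ Deep K B m ∧
    IsUnit μ ∧ star μ * μ = el c x g z p (v * q) ∧
    ∀ y, Commute (el c x g z p (v * q)) y → Commute μ y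

variable {K B}

include K in
theorem isUnit_of_star_mul {x : B} (h : IsUnit (star x * x)) : IsUnit x := by
  rw [isUnit_iff_Nrd (K := K)] at h ⊢
  rw [map_mul] at h
  exact right_ne_zero_of_mul h

theorem ne_zero_of_hq {c : K} {g q : B} (uq : IsUnit q) (hq : c • g + star (c • g) = star q * q) :
    c ≠ 0 := by
  rintro rfl
  have := uq.star.mul uq
  rw [← hq] at this
  simp at this

/-- a similitude is unitary up to a scalar when the degree is odd -/
theorem exists_unitary_smul (hd : Odd (deg K B)) {c : K} (hc : c ≠ 0) (hs : star c = c) {u : B}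
    (hu : star u * u = algebraMap K B c) : ∃ e : K, e ≠ 0 ∧ star e * e = c := by
  obtain ⟨n, hn⟩ := hd
  have h := congrArg (Nrd K) hu
  rw [map_mul, Nrd_star, Nrd_algebraMap, hn] at h
  have h0 : Nrd K u ≠ 0 := by
    intro h0
    rw [h0, mul_zero] at h
    exact pow_ne_zero _ hc h.symm
  refine ⟨Nrd K u / c ^ n, div_ne_zero h0 (pow_ne_zero _ hc), ?_⟩
  rw [star_div₀, star_pow, hs, div_mul_div_comm, h]
  field_simp
  ring

theorem stb_of_out (hd : Odd (deg K B)) (H : Out K B) : Stb K B := by
  intro A _ m f h c g p q hc ug up uq hg hq d3 dc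
  have d3' : rho g p ∈ unitary B ∧ rho g p ∈ Deep K B m := ⟨rho_mem ug hg, d3⟩
  have hcu : algebraMap K B (star c / c) ∈ unitary B := by
    have hs : star c ≠ 0 := star_ne_zero.2 hc
    rw [Unitary.mem_iff, star_algebraMap, ← map_mul, ← map_mul, star_div₀, star_star]
    constructor
    · rw [show c / star c * (star c / c) = 1 by field_simp, map_one]
    · rw [show star c / c * (c / star c) = 1 by field_simp, map_one]
  by_cases hs : star c = c
  · have h1 := mul_inverse_cancel p up
    have h2 := inverse_mul_cancel p up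
    have h4 := inverse_mul_cancel _ up.star
    have hu : star (q * inverse p) * (q * inverse p) = algebraMap K B c := by
      rw [star_smul, hs, ← smul_add, hg] at hq
      rw [star_mul, ← Ring.inverse_star, Algebra.algebraMap_eq_smul_one]
      have : inverse (star p) * (star q * q) * inverse p = c • 1 := by
        rw [← hq, mul_smul_comm, smul_mul_assoc, ← mul_assoc, h4, one_mul, h1]
      rw [← this]; noncomm_ring
    obtain ⟨e, he, hee⟩ := exists_unitary_smul hd hc hs hu
    have hs' : star e ≠ 0 := star_ne_zero.2 he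
    have hw : e⁻¹ • (q * inverse p) ∈ unitary B := by
      refine (isUnit_smul (inv_ne_zero he) (uq.mul up.ringInverse)).mem_unitary_of_star_mul_self ?_
      rw [star_smul, smul_mul_smul_comm, hu, Algebra.algebraMap_eq_smul_one, smul_smul, ← hee,
        star_inv₀, show (star e)⁻¹ * e⁻¹ * (star e * e) = 1 by field_simp, one_smul]
    have e1 : rho (c • g) q = rho g (e⁻¹ • (q * inverse p) * p) := by
      rw [smul_mul_assoc, mul_assoc, h2, mul_one, rho, rho, inv_smul hc ug, star_smul,
        smul_mul_assoc, smul_mul_smul_comm, mul_smul_comm, smul_mul_assoc, ← hee, star_inv₀,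
        mul_inv, mul_comm e⁻¹]
    have f1 : f 1 = 1 := by
      have h3 := h.mul _ _ (h.inv _ d3') d3'
      rw [(Unitary.mem_iff.1 d3'.1).1] at h3
      have h4 := h.f_mul 1 1 h3 h3
      rwa [mul_one, left_eq_mul] at h4
    rw [e1, rho_conj hw, h.f_conj _ _ hw d3', hs, div_self hc, map_one, f1, one_mul]
  · obtain ⟨x, z, v, μ, hv, hx, hz, ux, uX, uzp, uζ, uζ', d1, d2, uμ, hμ, cμ⟩ :=
      H m c g p q hs ug up uq hg hq
    have hq' : c • g + star (c • g) = star (v * q) * (v * q) := by
      rw [hq, star_mul, mul_assoc, ← mul_assoc (star v), (Unitary.mem_iff.1 hv).1, one_mul]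
    have hz' : g + star z * p = c • g + star z * (v * q) := by
      rw [sub_smul, one_smul, mul_sub] at hz
      linear_combination (norm := noncomm_ring) -hz
    have uzq : IsUnit (z + v * q) := by
      refine isUnit_of_star_mul (K := K) ?_
      rw [← h_xx hx hq', (yy_smul (x := x) hc ug hz').1, h_xx hx hg]
      exact uzp.star.mul uzp
    have := (h.two hc ux ug uX hx hg hq' hz' uzp uzq uζ uζ' uμ hμ
      (cμ _ (el_mul hc ux ug uX hx hg hq' hz' uζ)) ⟨rho_mem ux hx, d1⟩
      ⟨rho_mem uX (h_xx hx hg), d2⟩ d3' ⟨hcu, dc⟩)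
    have d5 : rho (c • g) q ∈ unitary B ∧ rho (c • g) q ∈ Deep K B m := by
      have h5 := h.conj _ _ (Unitary.star_mem hv) this.1
      rwa [← rho_conj (Unitary.star_mem hv), ← mul_assoc, (Unitary.mem_iff.1 hv).1, one_mul] at h5
    rw [← this.2, rho_conj hv, h.f_conj _ _ hv d5]

end Glob

def OutStmt : Prop := ∀ D : Dat.{u, v, w}, 3 ≤ deg D.K D.B → Odd (deg D.K D.B) → Out D.K D.B

theorem stabStmt_of (H : OutStmt.{u, v, w}) : StabStmt.{u, v, w} :=
  fun D h3 hd => stb_of_out hd (H D h3 hd)

end Crest.Agent.T24.Stab
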