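import Crest.Agent.T24.Csa4_50
import Crest.Agent.T24.WallA_86
import Crest.Agent.T24.OpnB_6

/-! # Row 24, STAB (L): the local lemma (helper66) -/

set_option autoImplicit false

noncomputable section

namespace Crest.Agent.T24.Stab.L66

open Module Polynomial Wall

/-- a real place: `K = ℂ` -/
def LocR (K : Type*) [Field K] [StarRing K] : Prop :=
  IsAlgClosed K ∧ ∀ x y : K, ∃ z, star x * x + star y * y = star z * z

/-- a finite place: hermitian forms in three variables are isotropic -/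
def LocP (K : Type*) [Field K] [StarRing K] : Prop :=
  ∀ a b c : K, star a = a → star b = b → star c = c → ∃ x y z : K, (x ≠ 0 ∨ y ≠ 0 ∨ z ≠ 0) ∧
    a * (star x * x) + b * (star y * y) + c * (star z * z) = 0

section Lin

variable {K V : Type*} [Field K] [AddCommGroup V] [Module K V] [FiniteDimensional K V]

theorem isUnit_of_inj {f : End K V} (h : ∀ x, f x = 0 → x = 0) : IsUnit f :=
  (LinearMap.isUnit_iff_ker_eq_bot f).2 (LinearMap.ker_eq_bot'.2 h)

theorem exB {W U : Submodule K V} (hd : finrank K W + finrank K U = finrank K V) (α : End K V)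
    (h : ∀ w ∈ W, α w ∈ U → w = 0) :
    ∃ β : End K V, (∀ w ∈ W, β w = 0) ∧ (∀ x, β x ∈ U) ∧ IsUnit (α + β) := by
  have h1 := (U.mkQ ∘ₗ α).finrank_range_add_finrank_ker
  have h2 := Submodule.finrank_le (LinearMap.range (U.mkQ ∘ₗ α))
  have h3 := U.finrank_quotient_add_finrank
  obtain ⟨N, hN'⟩ : ∃ N, N = LinearMap.ker (U.mkQ ∘ₗ α) := ⟨_, rfl⟩
  have hN : ∀ x, x ∈ N ↔ α x ∈ U := fun x => by simp [hN']
  rw [← hN'] at h1
  have hc : IsCompl W N := (Submodule.isCompl_iff_disjoint _ _ (by omega)).2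
    (Submodule.disjoint_def.2 fun x hx hx' => h x hx ((hN x).1 hx'))
  have h4 := Submodule.finrank_add_eq_of_isCompl hc
  let j : N ≃ₗ[K] U := LinearEquiv.ofFinrankEq _ _ (by omega)
  refine ⟨LinearMap.ofIsCompl hc 0 (U.subtype ∘ₗ j.toLinearMap - α ∘ₗ N.subtype),
    fun w hw => LinearMap.ofIsCompl_apply_left hc (⟨w, hw⟩ : W), fun x => ?_,
    isUnit_of_inj fun x hx => ?_⟩
  · obtain ⟨w, n, rfl, -⟩ := Submodule.existsUnique_add_of_isCompl hc x
    simpa using U.sub_mem (j n).2 ((hN n).1 n.2)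
  · obtain ⟨w, n, rfl, -⟩ := Submodule.existsUnique_add_of_isCompl hc x
    have e : α w + j n = 0 := by simpa [add_assoc] using hx
    have hw : (w : V) = 0 := h w w.2 (by rw [eq_neg_of_add_eq_zero_left e]; exact U.neg_mem (j n).2)
    have hn : n = 0 := by simpa [hw] using e
    simp [hw, hn]

theorem exA (α β : End K V) (h : ∀ x, α x = 0 → β x = 0 → x = 0) : ∃ a, IsUnit (α + a * β) := by
  obtain ⟨U, hU⟩ := (LinearMap.range (α ∘ₗ (LinearMap.ker β).subtype)).exists_isCompl
  have h1 := Submodule.finrank_add_eq_of_isCompl hU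
  rw [LinearMap.finrank_range_of_inj
    ((injective_iff_map_eq_zero _).2 fun x hx => Subtype.ext (h x hx x.2))] at h1
  obtain ⟨γ, g1, -, g3⟩ := exB h1 α fun w hw hw' =>
    h w (Submodule.disjoint_def.1 hU.1 _ ⟨⟨w, hw⟩, rfl⟩ hw') hw
  obtain ⟨a, ha⟩ := LinearMap.exists_extend
    ((LinearMap.ker β).liftQ γ g1 ∘ₗ β.quotKerEquivRange.symm.toLinearMap)
  refine ⟨a, ?_⟩
  have : a * β = γ := LinearMap.ext fun x => by
    exact (LinearMap.congr_fun ha ⟨β x, x, rfl⟩).trans
      (congrArg ((LinearMap.ker β).liftQ γ g1) (β.quotKerEquivRange_symm_apply_image x _))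
  rwa [this]

theorem exists_notMem {W U : Submodule K V} (h : finrank K W < finrank K U) : ∃ e ∈ U, e ∉ W := by
  by_contra h'
  push Not at h'
  exact absurd (Submodule.finrank_mono (show U ≤ W from h')) h.not_ge

theorem finrank_inf_ker (U : Submodule K V) (f : V →ₗ[K] K) :
    finrank K U ≤ finrank K ↥(U ⊓ LinearMap.ker f) + 1 := by
  have h1 := f.finrank_range_add_finrank_ker
  have h2 := Submodule.finrank_le (LinearMap.range f)
  have h3 := Submodule.finrank_sup_add_finrank_inf_eq U (LinearMap.ker f)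
  have h4 := Submodule.finrank_le (U ⊔ LinearMap.ker f)
  rw [finrank_self] at h2
  omega

end Lin

section Skew

variable {K A : Type*} [Field K] [StarRing K] [CharZero K] [Ring A] [StarRing A] [Algebra K A]
  [StarModule K A] [FiniteDimensional K A]

omit [StarRing A] [StarModule K A] in
theorem ex_fixed {ι : Type*} (I : Finset ι) (a b : ι → A) (h : ∀ i ∈ I, ∃ t : K, IsUnit (a i + t • b i)) :
    ∃ t : K, star t = t ∧ ∀ i ∈ I, IsUnit (a i + t • b i) := by
  have : (⋃ i ∈ I, {t : K | ¬IsUnit (a i + t • b i)}).Finite :=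
    I.finite_toSet.biUnion fun i hi => Opn.finite_nonunit K (h i hi).choose_spec
  obtain ⟨t, ht, ht'⟩ := Csa.infinite_fixed.exists_notMem_finite this
  exact ⟨t, ht, by simpa using ht'⟩

/-- finitely many unit conditions, each solvable, have a common skew solution -/
theorem exD (hne : ∃ c : K, star c ≠ c) (S : Submodule K A) (hS : ∀ x ∈ S, star x ∈ S) {ι : Type*}
    (I : Finset ι) (α β : ι → A) (h : ∀ i ∈ I, ∃ b ∈ S, IsUnit (α i + b * β i)) :
    ∃ s ∈ S, star s = -s ∧ ∀ i ∈ I, IsUnit (α i + s * β i) := by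
  classical
  obtain ⟨θ, h0, hθ⟩ := Csa.exists_skew hne
  have sk : ∀ s s' : A, star s = -s → star s' = -s' → ∀ t : K, star t = t →
      star (s + t • s') = -(s + t • s') := fun s s' h h' t ht => by
    rw [star_add, star_smul, h, h', ht, smul_neg, neg_add]
  induction I using Finset.induction_on with
  | empty => exact ⟨0, S.zero_mem, by simp, by simp⟩
  | insert j I hj ih =>
    obtain ⟨s, sS, hs, hI⟩ := ih fun i hi => h i (Finset.mem_insert_of_mem hi)
    obtain ⟨b, bS, hb⟩ := h j (Finset.mem_insert_self _ _)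
    obtain ⟨s', sS', hs', hj'⟩ : ∃ s' ∈ S, star s' = -s' ∧ IsUnit (α j + s' * β j) := by
      have e : b = (2⁻¹ : K) • (b - star b) + θ • ((2 * θ)⁻¹ • (b + star b)) := by
        rw [smul_smul, show θ * (2 * θ)⁻¹ = 2⁻¹ by field_simp, ← smul_add,
          show b - star b + (b + star b) = (2 : K) • b by rw [two_smul]; abel, smul_smul]; simp
      obtain ⟨t, ht, ht'⟩ := ex_fixed (K := K) {()} (fun _ => α j + (2⁻¹ : K) • (b - star b) * β j)
        (fun _ => (2 * θ)⁻¹ • (b + star b) * β j) fun _ _ =>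
          ⟨θ, by rwa [add_assoc, ← smul_mul_assoc, ← add_mul, ← e]⟩
      refine ⟨(2⁻¹ : K) • (b - star b) + t • ((2 * θ)⁻¹ • (b + star b)),
        S.add_mem (S.smul_mem _ (S.sub_mem bS (hS b bS)))
          (S.smul_mem _ (S.smul_mem _ (S.add_mem bS (hS b bS)))), sk _ _ ?_ ?_ t ht, ?_⟩
      · simp [← smul_neg]
      · rw [star_smul, star_inv₀, star_mul', hθ, star_ofNat, star_add, star_star, mul_neg, inv_neg,
          neg_smul, add_comm]
      · simpa [add_mul, add_assoc] using ht' () (by simp)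
    obtain ⟨t, ht, ht'⟩ := ex_fixed (K := K) (insert j I) (fun i => α i + s * β i)
      (fun i => (s' - s) * β i) fun i hi => by
        rcases Finset.mem_insert.1 hi with rfl | hi
        · exact ⟨1, by simpa [sub_mul, add_assoc] using hj'⟩
        · exact ⟨0, by simpa using hI i hi⟩
    refine ⟨s + t • (s' - s), S.add_mem sS (S.smul_mem _ (S.sub_mem sS' sS)),
      sk _ _ hs (by rw [star_sub, hs, hs', neg_sub_neg, neg_sub]) t ht, fun i hi => ?_⟩
    simpa [add_mul, add_assoc] using ht' i hi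

end Skew

section Form

variable {K V : Type*} [Field K] [StarRing K] [AddCommGroup V] [Module K V] (F : HF K V)

/-- `x ↦ h x y` -/
def fn (y : V) : V →ₗ[K] K where
  toFun x := F.h x y
  map_add' a b := F.add_left a b y
  map_smul' a b := F.smul_left a b y

/-- orthogonal complement -/
def perp (W : Submodule K V) : Submodule K V where
  carrier := {x | ∀ w ∈ W, F.h x w = 0}
  add_mem' ha hb w hw := by rw [F.add_left, ha w hw, hb w hw, add_zero]
  zero_mem' w _ := F.zero_left w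
  smul_mem' c x hx w hw := by rw [F.smul_left, hx w hw, mul_zero]

/-- maximal totally isotropic subspace -/
structure Mx (W : Submodule K V) : Prop where
  iso : W ≤ perp F W
  mx : ∀ e ∈ perp F W, F.h e e = 0 → e ∈ W

variable [FiniteDimensional K V]

theorem finrank_perp (W : Submodule K V) : finrank K W + finrank K (perp F W) = finrank K V := by
  classical
  let b := finBasis K W
  let T : V →ₗ[K] (Fin (finrank K W) → K) := LinearMap.pi fun i => fn F (b i)
  have sr : ∀ x (t : Fin (finrank K W) → K), F.h x ↑(∑ i, t i • b i) = ∑ i, T x i * star (t i) :=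
    fun x t => by
      rw [← F.symm, show F.h ↑(∑ i, t i • b i) x = fn F x ↑(∑ i, t i • b i) from rfl]
      simp [fn, T, mul_comm]
  have h1 : LinearMap.ker T = perp F W := by
    ext x
    refine ⟨fun hx w hw => ?_, fun hx => funext fun i => hx _ (b i).2⟩
    have := sr x (b.repr ⟨w, hw⟩)
    rw [b.sum_repr, LinearMap.mem_ker.1 hx] at this
    simpa using this
  have h2 : LinearMap.range T = ⊤ := by
    by_contra h
    obtain ⟨f, f0, hf⟩ := Submodule.exists_le_ker_of_lt_top _ (lt_top_iff_ne_top.2 h)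
    have e : ∑ i, star (f (Pi.single i 1)) • b i = 0 := Subtype.ext (F.nd' fun x => by
      have : f (T x) = 0 := hf ⟨x, rfl⟩
      rw [sr, ← this, LinearMap.pi_apply_eq_sum_univ]
      refine Finset.sum_congr rfl fun i _ => ?_
      rw [star_star, smul_eq_mul]
      congr 2
      exact funext fun j => by simp [Pi.single_apply, eq_comm])
    refine f0 ((Pi.basisFun K _).ext fun i => ?_)
    simpa using Fintype.linearIndependent_iff.1 b.linearIndependent _ e i
  have := T.finrank_range_add_finrank_ker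
  rwa [h1, h2, finrank_top, Module.finrank_fin_fun] at this

theorem exists_mx : ∃ W, Mx F W := by
  obtain ⟨W, hW, hm⟩ := (set_has_maximal_iff_noetherian (R := K) (M := V)).2 inferInstance
    {W | W ≤ perp F W} ⟨⊥, show ⊥ ≤ perp F ⊥ from bot_le⟩
  refine ⟨W, hW, fun e he h0 => ?_⟩
  by_contra hn
  refine hm (W ⊔ Submodule.span K {e}) (fun x hx y hy => ?_) (lt_of_le_of_ne le_sup_left fun h =>
    hn (h ▸ Submodule.mem_sup_right (Submodule.mem_span_singleton_self e)))
  obtain ⟨w, hw, _, ⟨s, rfl⟩, rfl⟩ := by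
    simpa only [Submodule.mem_sup, Submodule.mem_span_singleton] using hx
  obtain ⟨w', hw', _, ⟨s', rfl⟩, rfl⟩ := by
    simpa only [Submodule.mem_sup, Submodule.mem_span_singleton] using hy
  simp [hW hw w' hw', he w' hw', F.eq_zero_comm.1 (he w hw), h0]

variable {F} {W : Submodule K V}

omit [FiniteDimensional K V] in
theorem Mx.nrm (m : Mx F W) {e e' : V} {t : K} (he : e ∈ perp F W) (h : e' - t • e ∈ W) :
    F.h e' e' = star t * t * F.h e e := by
  obtain ⟨w, hw, rfl⟩ : ∃ w ∈ W, e' = t • e + w := ⟨_, h, by abel⟩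
  simp [m.iso hw w hw, he w hw, F.eq_zero_comm.1 (he w hw)]
  ring

omit [FiniteDimensional K V] in
theorem Mx.nrR (m : Mx F W) (hK : LocR K) {e e' : V} (he : e ∈ perp F W) (he' : e' ∈ perp F W)
    (h0 : F.h e e ≠ 0) : ∃ μ, F.h e' e' = star μ * μ * F.h e e := by
  have := hK.1
  obtain ⟨b, hb⟩ := IsAlgClosed.exists_eq_mul_self (F.h e' e' / F.h e e)
  have h1 : star b * star b = b * b := by rw [← star_mul, ← hb, star_div₀, F.symm, F.symm]
  rw [div_eq_iff h0] at hb
  rcases mul_self_eq_mul_self_iff.1 h1 with h | h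
  · exact ⟨b, by rw [h, hb]⟩
  obtain ⟨z, hz⟩ := hK.2 (F.h e' e / F.h e e) b
  refine ⟨F.h e' e / F.h e e - z, m.nrm he (m.mx _ (sub_mem he' (Submodule.smul_mem _ _ he)) ?_)⟩
  simp only [HF.sub_left, HF.sub_right, HF.smul_left, HF.smul_right, star_sub, star_div₀, HF.symm,
    hb, h] at hz ⊢
  field_simp at hz ⊢
  linear_combination -hz

theorem Mx.one (m : Mx F W) (hK : LocP K) (ho : Odd (finrank K V)) :
    ∃ e ∈ perp F W, e ∉ W ∧ ∀ x ∈ perp F W, ∃ t : K, x - t • e ∈ W := by
  have h1 := finrank_perp F W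
  have h2 := Submodule.finrank_mono m.iso
  obtain ⟨k, hk⟩ := ho
  obtain ⟨e, he, heW⟩ := exists_notMem (W := W) (U := perp F W) (by omega)
  refine ⟨e, he, heW, fun x hx => ?_⟩
  by_cases h3 : finrank K (perp F W) ≤ finrank K W + 1
  · have l1 : W < W ⊔ Submodule.span K {e} := lt_of_le_of_ne le_sup_left fun h =>
      heW (h ▸ Submodule.mem_sup_right (Submodule.mem_span_singleton_self e))
    have l2 := Submodule.finrank_lt_finrank_of_lt l1
    rw [← Submodule.eq_of_le_of_finrank_le (sup_le m.iso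
      ((Submodule.span_singleton_le_iff_mem _ _).2 he)) (by omega)] at hx
    obtain ⟨w, hw, _, ⟨s, rfl⟩, rfl⟩ := by
      simpa only [Submodule.mem_sup, Submodule.mem_span_singleton] using hx
    exact ⟨s, by simpa using hw⟩
  exfalso
  have l1 := finrank_inf_ker (perp F W) (fn F e)
  obtain ⟨f, ⟨hf, (fe : F.h f e = 0)⟩, hfW⟩ :=
    exists_notMem (W := W) (U := perp F W ⊓ LinearMap.ker (fn F e)) (by omega)
  have l2 := finrank_inf_ker (perp F W ⊓ LinearMap.ker (fn F e)) (fn F f)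
  obtain ⟨g, ⟨⟨hg, (ge : F.h g e = 0)⟩, (gf : F.h g f = 0)⟩, hgW⟩ := exists_notMem (W := W)
    (U := perp F W ⊓ LinearMap.ker (fn F e) ⊓ LinearMap.ker (fn F f)) (by omega)
  obtain ⟨x, y, z, h0, h⟩ := hK _ _ _ (F.symm e e) (F.symm f f) (F.symm g g)
  have ef := F.eq_zero_comm.1 fe
  have eg := F.eq_zero_comm.1 ge
  have fg := F.eq_zero_comm.1 gf
  have hw : x • e + y • f + z • g ∈ W := m.mx _ (add_mem (add_mem (Submodule.smul_mem _ _ he)
    (Submodule.smul_mem _ _ hf)) (Submodule.smul_mem _ _ hg)) (by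
      simp [fe, ge, gf, ef, eg, fg]; linear_combination h)
  rcases h0 with h0 | h0 | h0
  · exact heW (m.mx e he (by simpa [ef, eg, h0] using he _ hw))
  · exact hfW (m.mx f hf (by simpa [fe, fg, h0] using hf _ hw))
  · exact hgW (m.mx g hg (by simpa [ge, gf, h0] using hg _ hw))

/-- the spectrum of `l = u* u` -/
theorem Mx.spec (m : Mx F W) (hK : LocR K ∨ LocP K ∧ Odd (finrank K V)) {u l : End K V} {c : K}
    (hu : Function.Injective u) (hl : ∀ x y, F.h (l x) y = F.h (u x) (u y)) (ha : ∀ w ∈ W, u w = w)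
    (hb : ∀ x, u x - c • x ∈ perp F W) : ∃ R : Multiset K,
      aeval l (R.map fun r => X - C r).prod = 0 ∧
        ∀ r ∈ R, r = c ∨ r = star c ∨ ∃ μ, μ ≠ 0 ∧ r = star μ * μ := by
  have h1 : ∀ x, l x - c • x ∈ perp F W := fun x w hw => by
    rw [F.sub_left, hl, ha w hw, ← F.sub_left, hb x w hw]
  have h2 : ∀ w ∈ W, l w = star c • w := fun w hw => sub_eq_zero.1 (F.nd _ fun y => by
    have := F.eq_zero_comm.1 (hb y w hw)
    rw [F.sub_right, F.smul_right, mul_comm] at this
    rw [F.sub_left, hl, ha w hw, F.smul_left, this])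
  have h3 : ∀ e ∈ perp F W, u e ∈ perp F W := fun e he => by
    simpa using add_mem (hb e) (Submodule.smul_mem _ c he)
  have h4 : ∀ e ∈ perp F W, e ∉ W → ∀ μ r : K, l e - r • e ∈ W →
      F.h (u e) (u e) = star μ * μ * F.h e e → μ ≠ 0 ∧ r = star μ * μ := fun e he heW μ r hr h => by
    have e0 : F.h e e ≠ 0 := fun h => heW (m.mx e he h)
    have := F.eq_zero_comm.1 (he _ hr)
    rw [F.sub_left, F.smul_left, hl, h, ← sub_mul] at this
    refine ⟨fun h0 => heW ?_, (sub_eq_zero.1 ((mul_eq_zero.1 this).resolve_right e0)).symm⟩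
    have hw := m.mx _ (h3 e he) (by rw [h, h0]; simp)
    exact hu (ha _ hw) ▸ hw
  rcases hK with hK | ⟨hK, ho⟩
  · have := hK.1
    refine ⟨(minpoly K l).roots, ?_, fun r hr => ?_⟩
    · rw [← (IsAlgClosed.splits _).eq_prod_roots_of_monic (minpoly.monic (Algebra.IsIntegral.isIntegral l))]
      exact minpoly.aeval K l
    by_cases r1 : r = c
    · exact .inl r1
    by_cases r2 : r = star c
    · exact .inr (.inl r2)
    obtain ⟨e, he⟩ := (End.hasEigenvalue_iff_isRoot.2 (isRoot_of_mem_roots hr)).exists_hasEigenvector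
    have e1 : e ∈ perp F W := by
      have := h1 e
      rwa [he.apply_eq_smul, ← sub_smul, Submodule.smul_mem_iff _ (sub_ne_zero.2 r1)] at this
    have e2 : e ∉ W := fun h => r2 (smul_left_injective K he.2 (he.apply_eq_smul.symm.trans (h2 e h)))
    obtain ⟨μ, hμ⟩ := m.nrR hK e1 (h3 e e1) fun h => e2 (m.mx e e1 h)
    exact .inr (.inr ⟨μ, h4 e e1 e2 μ r (by rw [he.apply_eq_smul, sub_self]; exact W.zero_mem) hμ⟩)
  · obtain ⟨e, he, heW, h⟩ := m.one hK ho
    obtain ⟨μ, hμ⟩ := h _ (h3 e he)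
    obtain ⟨r, hr⟩ := h (l e) (by simpa using add_mem (h1 e) (Submodule.smul_mem _ c he))
    refine ⟨{star c, r, c}, LinearMap.ext fun x => ?_, fun r' hr' => ?_⟩
    · obtain ⟨s, hs⟩ := h _ (h1 x)
      have : l (l x - c • x) - r • (l x - c • x) ∈ W := by
        generalize l x - c • x = y at hs
        obtain ⟨w, hw, rfl⟩ : ∃ w ∈ W, y = s • e + w := ⟨_, hs, by abel⟩
        have := add_mem (W.smul_mem s hr) (W.smul_mem (star c - r) hw)
        convert this using 1
        rw [map_add, map_smul, h2 w hw]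
        module
      simpa [Algebra.algebraMap_eq_smul_one, sub_eq_zero] using h2 _ this
    · simp only [Multiset.insert_eq_cons, Multiset.mem_cons, Multiset.mem_singleton] at hr'
      rcases hr' with rfl | rfl | rfl
      · exact .inr (.inl rfl)
      · exact .inr (.inr ⟨μ, h4 e he heW μ _ hr (m.nrm he hμ)⟩)
      · exact .inl rfl

end Form

section Ring

variable {K A : Type*} [Field K] [StarRing K] [Ring A] [StarRing A] [Algebra K A] [StarModule K A]

omit [StarRing K] [Algebra K A] [StarModule K A] in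
/-- the Cayley transform is unitary -/
theorem cay_unitary {a v : A} (ha : star a = -a) (hu : IsUnit (1 - a)) (hv : (1 - a) * v = 1 + a) :
    star v * v = 1 := by
  have h1 : star v * (1 + a) = 1 - a := by simpa [ha, sub_eq_add_neg] using congrArg star hv
  have h2 : v * (1 - a) = 1 + a := hu.mul_left_cancel (by rw [← mul_assoc, hv]; noncomm_ring)
  exact hu.mul_right_cancel (by rw [mul_assoc, h2, h1, one_mul])

/-- `star ze * ze = y' + star y'` -/
theorem ident {g : Aˣ} {p z x : A} (hp : star p * p = g + star (g : A)) (hx : x + star x = star z * z) :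
    star (z + p * ↑g⁻¹ * x) * (z + p * ↑g⁻¹ * x) =
      (star x + g + star z * p) * ↑g⁻¹ * x + star ((star x + g + star z * p) * ↑g⁻¹ * x) := by
  have h1 : star (↑g⁻¹ : A) * star (g : A) = 1 := by rw [← star_mul, g.mul_inv, star_one]
  have h2 : star x * star (↑g⁻¹ : A) * (star p * p) * ↑g⁻¹ * x =
      star x * star (↑g⁻¹ : A) * x + star x * ↑g⁻¹ * x := by
    rw [hp, mul_add, add_mul, add_mul, Units.mul_inv_cancel_right, mul_assoc (star x) _ (star _), h1,
      mul_one]
  have h3 : star x * (star (↑g⁻¹ : A) * star (g : A)) = star x := by rw [h1, mul_one]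
  have h4 : (g : A) * (↑g⁻¹ * x) = x := g.mul_inv_cancel_left x
  simp only [star_add, star_mul, star_star, add_mul, mul_add, mul_assoc] at h2 ⊢
  rw [h2, h3, h4, ← hx]
  abel

omit [StarRing K] [StarModule K A] in
/-- `star ze' * ze' = c⁻¹ y' + star (c⁻¹ y')`; here `q` is `v * q` -/
theorem ident' {g : Aˣ} {p q z x : A} {c : K} (hc : c ≠ 0)
    (hq : star q * q = c • (g : A) + star (c • (g : A))) (hz : star z * (q - p) = (1 - c) • (g : A))
    (hx : x + star x = star z * z) :
    star (z + c⁻¹ • (q * ↑g⁻¹ * x)) * (z + c⁻¹ • (q * ↑g⁻¹ * x)) =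
      c⁻¹ • ((star x + g + star z * p) * ↑g⁻¹ * x) +
        star (c⁻¹ • ((star x + g + star z * p) * ↑g⁻¹ * x)) := by
  let G : Aˣ := Units.mk0 c hc • g
  have e1 : (G : A) = c • (g : A) := rfl
  have e2 : (↑G⁻¹ : A) = c⁻¹ • (↑g⁻¹ : A) := rfl
  have := ident (g := G) (e1 ▸ hq) hx
  rwa [e1, e2, show star x + c • (g : A) + star z * q = star x + g + star z * p by
    rw [mul_sub, sub_smul, one_smul, sub_eq_iff_eq_add] at hz; rw [hz]; abel,
    mul_smul_comm, smul_mul_assoc, mul_smul_comm, smul_mul_assoc] at this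

end Ring

section Core

variable {K A : Type*} [Field K] [StarRing K] [Ring A] [StarRing A] [Algebra K A]

/-- the conclusion of the local lemma -/
def Concl (g p q : Aˣ) (c : K) : Prop :=
  ∃ (a s : A) (v z ze ze' : Aˣ), star a = -a ∧ star s = -s ∧ IsUnit (1 - a) ∧ (1 - a) * v = 1 + a ∧
    IsUnit ((v : A) * q - p) ∧ star (z : A) * (v * q - p) = (1 - c) • (g : A) ∧
    (ze : A) = z + p * ↑g⁻¹ * ((2⁻¹ : K) • (star (z : A) * z) - s) ∧
    (ze' : A) = z + c⁻¹ • (v * q * ↑g⁻¹ * ((2⁻¹ : K) • (star (z : A) * z) - s)) ∧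
    ∃ R : Multiset K,
      aeval (star ((ze' : A) * ↑ze⁻¹) * (ze' * ↑ze⁻¹)) (R.map fun r => X - C r).prod = 0 ∧
        ∀ r ∈ R, r = c⁻¹ ∨ r = star c⁻¹ ∨ ∃ μ, μ ≠ 0 ∧ r = star μ * μ

variable [CharZero K] [StarModule K A] {V : Type*} [AddCommGroup V] [Module K V]
  [FiniteDimensional K V] {F : HF K V} {W : Submodule K V} (φ : A ≃ₐ[K] End K V)

omit [StarRing K] [StarRing A] [CharZero K] [StarModule K A] [FiniteDimensional K V] in
theorem inj_of_unit {a : A} (ha : IsUnit a) (x : V) (h : φ a x = 0) : x = 0 :=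
  ((End.isUnit_iff _).1 (ha.map φ)).1 (h.trans (map_zero _).symm)

theorem exV (hne : ∃ c : K, star c ≠ c) (F : HF K V) (W : Submodule K V) (T : Aˣ) :
    ∃ (a : A) (v : Aˣ), star a = -a ∧ IsUnit (1 - a) ∧ (1 - a) * v = 1 + a ∧
      IsUnit ((v * T : Aˣ) - 1 : A) ∧ (∀ w ∈ W, φ (v * T : Aˣ) w ∈ perp F W → w = 0) ∧
      ∀ w ∈ W, φ ((v * T)⁻¹ : Aˣ) w ∈ perp F W → w = 0 := by
  have : FiniteDimensional K A := φ.symm.toLinearEquiv.finiteDimensional
  let j : V ≃ₗ[K] W × perp F W := LinearEquiv.ofFinrankEq _ _ (by rw [finrank_prod, finrank_perp])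
  obtain ⟨i1, h1⟩ := φ.surjective (W.subtype ∘ₗ LinearMap.fst K _ _ ∘ₗ j.toLinearMap)
  obtain ⟨i2, h2⟩ := φ.surjective ((perp F W).subtype ∘ₗ LinearMap.snd K _ _ ∘ₗ j.toLinearMap)
  have hi : ∀ w ∈ W, ∀ w' ∈ perp F W, ∃ y, φ i1 y = w ∧ φ i2 y = w' := fun w hw w' hw' =>
    ⟨j.symm (⟨w, hw⟩, ⟨w', hw'⟩), by simp [h1], by simp [h2]⟩
  have hi0 : ∀ y, φ i1 y = 0 → φ i2 y = 0 → y = 0 := fun y a b =>
    j.map_eq_zero_iff.1 (Prod.ext (by simpa [h1] using a) (by simpa [h2] using b))
  have hT := inj_of_unit φ T.isUnit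
  have key : ∀ X Y : A, (∀ x, φ X x = 0 → φ Y x = 0 → x = 0) →
      ∃ b ∈ (⊤ : Submodule K A), IsUnit (X - Y + b * (X + Y)) := fun X Y h => by
    obtain ⟨a, ha⟩ := exA (φ (X - Y)) (φ (X + Y)) fun x a b => by
      rw [map_sub, LinearMap.sub_apply, sub_eq_zero] at a
      rw [map_add, LinearMap.add_apply, a, ← two_smul K, smul_eq_zero] at b
      exact h x (a.trans (b.resolve_left two_ne_zero)) (b.resolve_left two_ne_zero)
    obtain ⟨b, rfl⟩ := φ.surjective a
    exact ⟨b, trivial, by rwa [← map_mul, ← map_add, isUnit_map_iff] at ha⟩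
  let X : Fin 4 → A := ![0, 1, i1, i2]
  let Y : Fin 4 → A := ![1, 1, i2, i1]
  obtain ⟨a, -, ha, h⟩ := exD hne ⊤ (fun _ _ => trivial) Finset.univ (fun i => T * X i - Y i)
    (fun i => T * X i + Y i) fun i _ => key _ _ fun x a b => by
      rw [map_mul] at a
      have a := hT _ a
      fin_cases i
      · simpa [Y] using b
      · simpa [Y] using b
      · exact hi0 x a b
      · exact hi0 x b a
  have u1 : IsUnit (1 - a) := by simpa [X, Y, neg_add_eq_sub] using (h 0 (Finset.mem_univ _)).neg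
  have u2 : IsUnit (1 + a) := by simpa [ha] using u1.star
  obtain ⟨v, hv⟩ : ∃ v : Aˣ, (1 - a) * v = 1 + a := ⟨u1.unit⁻¹ * u2.unit, by
    rw [Units.val_mul, ← mul_assoc, IsUnit.mul_val_inv, one_mul, IsUnit.unit_spec]⟩
  have h' : ∀ i, IsUnit ((v * T : Aˣ) * X i - Y i) := fun i => by
    have e : T * X i - Y i + a * (T * X i + Y i) = u1.unit * ((v * T : Aˣ) * X i - Y i) := by
      rw [IsUnit.unit_spec, mul_sub, Units.val_mul, ← mul_assoc, ← mul_assoc, hv]; noncomm_ring
    exact (Units.isUnit_units_mul _ _).1 (e ▸ h i (Finset.mem_univ _))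
  refine ⟨a, v, ha, u1, hv, by simpa [X, Y] using h' 1, fun w hw hw' => ?_, fun w hw hw' => ?_⟩
  · obtain ⟨y, y1, y2⟩ := hi w hw _ hw'
    rw [← y1, inj_of_unit φ (h' 2) y (by simp [X, Y, y1, y2]), map_zero]
  · obtain ⟨y, y1, y2⟩ := hi w hw _ hw'
    rw [← y1, inj_of_unit φ (h' 3) y ?_, map_zero]
    show φ (_ * i2 - i1) y = 0
    rw [map_sub, map_mul, LinearMap.sub_apply, End.mul_apply, y1, y2, ← End.mul_apply, ← map_mul,
      Units.mul_inv, map_one, End.one_apply, sub_self]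

theorem exXi (hne : ∃ c : K, star c ≠ c) (adj : ∀ a x y, F.h (φ a x) y = F.h x (φ (star a) y))
    (m : Mx F W) {ι : Type*} (I : Finset ι) (N : ι → A)
    (h : ∀ i ∈ I, ∀ w ∈ W, φ (N i) w ∈ perp F W → w = 0) :
    ∃ ξ : A, ξ + star ξ = 1 ∧ (∀ w ∈ W, φ ξ w = 0) ∧ ∀ i ∈ I, IsUnit (N i + ξ) := by
  have : FiniteDimensional K A := φ.symm.toLinearEquiv.finiteDimensional
  obtain ⟨C, hC⟩ := W.exists_isCompl
  obtain ⟨π, hπ⟩ := φ.surjective (W.projection C hC)
  have st : ∀ b : A, (∀ x, φ b x ∈ perp F W) → ∀ w ∈ W, φ (star b) w = 0 := fun b hb w hw =>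
    F.nd' fun x => by rw [← adj, hb x w hw]
  obtain ⟨ξ, hξ⟩ : ∃ ξ : A, ξ = (2⁻¹ : K) • (1 - π + star π) := ⟨_, rfl⟩
  have x0 : ∀ w ∈ W, φ ξ w = 0 := fun w hw => by
    simp [hξ, hπ, Submodule.projection_apply_of_mem_left hC hw,
      st π (fun x => hπ ▸ m.iso (Submodule.projection_apply_mem hC x)) w hw]
  let S : Submodule K A :=
    { carrier := {b | ∀ w ∈ W, φ b w = 0 ∧ φ (star b) w = 0}
      add_mem' := fun ha hb w hw => by simp [ha w hw, hb w hw]
      zero_mem' := fun w _ => by simp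
      smul_mem' := fun c b hb w hw => by simp [hb w hw] }
  obtain ⟨s, sS, hs, hI⟩ := exD hne S (fun b hb w hw => by simpa [and_comm] using hb w hw) I
    (fun i => N i + ξ) (fun _ => 1) fun i hi => by
      obtain ⟨β, b1, b2, b3⟩ := exB (finrank_perp F W) (φ (N i + ξ)) fun w hw hw' =>
        h i hi w hw (by simpa [x0 w hw] using hw')
      obtain ⟨b, rfl⟩ := φ.surjective β
      exact ⟨b, fun w hw => ⟨b1 w hw, st b b2 w hw⟩, by
        rwa [← map_add, isUnit_map_iff, ← mul_one b] at b3⟩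
  refine ⟨ξ + s, ?_, fun w hw => by simp [x0 w hw, sS w hw], fun i hi => by
    simpa [add_assoc] using hI i hi⟩
  rw [star_add, hs, add_add_add_comm, add_neg_cancel, add_zero, hξ, star_smul, star_inv₀, star_ofNat,
    ← smul_add, star_add, star_sub, star_one, star_star,
    show 1 - π + star π + (1 - star π + π) = (2 : K) • (1 : A) by rw [two_smul]; abel, smul_smul]
  simp

theorem core (adj : ∀ a x y, F.h (φ a x) y = F.h x (φ (star a) y))
    (hK : LocR K ∨ LocP K ∧ Odd (finrank K V)) (g p q : Aˣ) {c : K} (hc : star c ≠ c) :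
    Concl g p q c := by
  have c0 : c ≠ 0 := fun h => hc (by simp [h])
  have c1 : 1 - c ≠ 0 := fun h => hc (by simp [← sub_eq_zero.1 h])
  obtain ⟨W, m⟩ := exists_mx F
  obtain ⟨a, v, ha, u1, hv, ⟨R, hR⟩, t1, t2⟩ := exV φ ⟨c, hc⟩ F W (q * p⁻¹)
  obtain ⟨M, hM⟩ : ∃ M, M = v * (q * p⁻¹) := ⟨_, rfl⟩
  rw [← hM] at hR t1 t2
  have vq : (v : A) * q = M * p := by simp [hM, mul_assoc]
  have vqp : (v : A) * q - p = R * p := by rw [vq, hR, sub_mul, one_mul]
  obtain ⟨z, hz⟩ : ∃ z : Aˣ, star (z : A) = (1 - c) • (g * ↑p⁻¹ * ↑R⁻¹ : A) :=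
    ⟨star (Units.mk0 _ c1 • (g * p⁻¹ * R⁻¹)), star_star _⟩
  obtain ⟨ξ, x1, x0, hu⟩ := exXi φ ⟨c, hc⟩ adj m Finset.univ
    ![(1 - c)⁻¹ • (R : A), (c * (1 - c)⁻¹) • (R * ↑M⁻¹ : A)] fun i _ w hw hw' => by
      fin_cases i
      · refine t1 w hw ?_
        simpa [hR, c1] using add_mem (Submodule.smul_mem _ (1 - c) hw') (m.iso hw)
      · refine t2 w hw ?_
        have : (c * (1 - c)⁻¹) • φ (R * ↑M⁻¹) w ∈ perp F W := by simpa using hw'
        rw [Submodule.smul_mem_iff _ (mul_ne_zero c0 (inv_ne_zero c1)), hR, sub_mul, M.mul_inv] at this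
        simpa using sub_mem (m.iso hw) this
  obtain ⟨E, hE⟩ : IsUnit (1 + (1 - c) • (↑R⁻¹ * ξ)) := by
    have := (Units.mk0 _ c1 • R⁻¹).isUnit.mul (hu 0 (Finset.mem_univ _))
    simpa [Units.smul_def, mul_add, smul_smul, c1] using this
  obtain ⟨E', hE'⟩ : IsUnit (1 + (c⁻¹ * (1 - c)) • (M * ↑R⁻¹ * ξ)) := by
    have := (Units.mk0 _ (mul_ne_zero (inv_ne_zero c0) c1) • (M * R⁻¹)).isUnit.mul
      (hu 1 (Finset.mem_univ _))
    simpa [Units.smul_def, mul_add, smul_smul, mul_assoc,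
      show c * ((1 - c)⁻¹ * (c⁻¹ * (1 - c))) = 1 by field_simp] using this
  have xs : star ξ = 1 - ξ := eq_sub_of_add_eq' x1
  have EE : (E' : A) = c⁻¹ • (E : A) + (1 - c⁻¹) • star ξ := by
    rw [hE, hE', xs, show (M : A) = R + 1 by rw [hR, sub_add_cancel], add_mul, add_mul, Units.mul_inv,
      one_mul, one_mul, show c⁻¹ * (1 - c) = c⁻¹ - 1 by field_simp, smul_add, smul_add, smul_smul,
      show c⁻¹ * (1 - c) = c⁻¹ - 1 by field_simp]
    module
  have w1 : ∀ w ∈ W, φ (↑E⁻¹ : A) w = w := fun w hw => by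
    have : φ E w = w := by simp [hE, x0 w hw]
    nth_rw 1 [← this]
    rw [← End.mul_apply, ← map_mul, Units.inv_mul, map_one, End.one_apply]
  obtain ⟨Q, hQ, hQ'⟩ := m.spec hK (u := φ (E' * ↑E⁻¹)) (l := φ (star (E' * ↑E⁻¹ : A) * (E' * ↑E⁻¹)))
    (c := c⁻¹) ((End.isUnit_iff _).1 ((E' * E⁻¹).isUnit.map φ)).1
    (fun x y => by rw [map_mul, End.mul_apply, adj, star_star])
    (fun w hw => by simp [w1 w hw, hE', x0 w hw])
    (fun x w hw => by
      rw [EE, add_mul, smul_mul_assoc, Units.mul_inv]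
      simp [adj, x0 w hw])
  refine ⟨a, (2⁻¹ : K) • (star (z : A) * z) - star (z : A) * ξ * z, v, z, E * z, E' * z, ha, ?_, u1, hv,
    vqp ▸ (R * p).isUnit, by simp [hz, vqp, mul_assoc], ?_, ?_, Q, φ.injective ?_, hQ'⟩
  · rw [star_sub, star_smul, star_inv₀, star_ofNat, star_mul, star_mul, star_mul, star_star, xs,
      sub_mul, one_mul, mul_sub, mul_assoc, ← sub_eq_zero]
    generalize star (z : A) * z = y
    generalize star (z : A) * (ξ * z) = y'
    module
  · simp [hE, hz, add_mul, mul_assoc]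
  · simp [hE', hz, vq, add_mul, mul_assoc, smul_smul]
  · rw [← aeval_algHom_apply φ, map_zero, ← hQ]
    simp [mul_assoc]

/-- **STAB (L)**, the local lemma -/
theorem loc {n : Type*} [Fintype n] [DecidableEq n] [Nonempty n] (e : A ≃ₐ[K] Matrix n n K)
    (hK : LocR K ∨ LocP K ∧ Odd (Fintype.card n)) (g p q : Aˣ) {c : K} (hc : star c ≠ c) :
    Concl g p q c := by
  obtain ⟨H, hH, h⟩ := Csa.exists_twist (K := K) (B := Matrix n n K) ⟨c, hc⟩
    { toFun := fun x => e (star (e.symm x)), map_zero' := by simp, map_add' := by simp }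
    (fun x y => by simp) (fun x => by simp)
    (fun t => by simp [Algebra.algebraMap_eq_smul_one])
  let F : HF K (n → K) :=
    { h := fun x y => star y ⬝ᵥ (H : Matrix n n K).mulVec x
      add_left := fun x y z => by simp [Matrix.mulVec_add]
      smul_left := fun a x y => by simp [Matrix.mulVec_smul]
      symm := fun x y => by
        rw [← Matrix.star_dotProduct_star, star_star, Matrix.star_mulVec, ← Matrix.dotProduct_mulVec,
          ← Matrix.star_eq_conjTranspose, hH]
      nd := fun x hx => (Matrix.mulVec_injective_iff_isUnit.2 H.isUnit) (funext fun i => by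
        simpa using hx (Pi.single i 1))
      sk := (Csa.exists_skew ⟨c, hc⟩).imp fun θ h => ⟨h.1, h.2, mul_comm θ⟩ }
  refine core (F := F) (e.trans Matrix.toLinAlgEquiv') (fun a x y => ?_) (by simpa using hK) g p q hc
  have := h (e (star a))
  simp only [AddMonoidHom.coe_mk, ZeroHom.coe_mk, AlgEquiv.symm_apply_apply, star_star] at this
  show star y ⬝ᵥ (H : Matrix n n K).mulVec ((e a).mulVec x) =
    star ((e (star a)).mulVec y) ⬝ᵥ (H : Matrix n n K).mulVec x
  rw [Matrix.star_mulVec, ← Matrix.dotProduct_mulVec, Matrix.mulVec_mulVec, Matrix.mulVec_mulVec, this,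
    Matrix.star_eq_conjTranspose]

end Core

end Crest.Agent.T24.Stab.L66
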