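import Crest.Agent.T24.StabOD_6

/-!
# Row 24, stability, part (O): `s` large (`LargeStmt`) (helper41)
-/

set_option autoImplicit false
set_option linter.unusedSectionVars false

noncomputable section

namespace Crest.Agent.T24.Stab

open Ring Module WithZero Csa Asa Filter

universe u v w

namespace L41

section nm
variable {k : Type u} [Field k] [NumberField k] {B : Type*} [Ring B] [Algebra k B] [Module.Finite k B]
  {v : Pl k}

/-- the maximum norm of the matrix of `x` -/
def nm (v : Pl k) (x : B) : ℤᵐ⁰ :=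
  Finset.univ.sup fun p : Fin (finrank k B) × Fin (finrank k B) => v.valuation k (mat k x p.1 p.2)

theorem nm_le {x : B} {γ : ℤᵐ⁰} : nm v x ≤ γ ↔ ∀ i j, v.valuation k (mat k x i j) ≤ γ := by
  simp [nm]

theorem le_nm (x : B) (i j) : v.valuation k (mat k x i j) ≤ nm v x := nm_le.1 le_rfl i j

theorem cl_iff {x : B} : Cl v 0 x ↔ nm v x ≤ 1 := by simp [nm_le, Cl]

theorem nm_add (x y : B) : nm v (x + y) ≤ max (nm v x) (nm v y) := nm_le.2 fun i j => by
  rw [map_add, Matrix.add_apply]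
  exact (Valuation.map_add _ _ _).trans (max_le_max (le_nm x i j) (le_nm y i j))

theorem nm_sub (x y : B) : nm v (x - y) ≤ max (nm v x) (nm v y) := nm_le.2 fun i j => by
  rw [map_sub, Matrix.sub_apply]
  exact (Valuation.map_sub _ _ _).trans (max_le_max (le_nm x i j) (le_nm y i j))

theorem nm_mul (x y : B) : nm v (x * y) ≤ nm v x * nm v y := nm_le.2 fun i j => by
  rw [map_mul, Matrix.mul_apply]
  exact Valuation.map_sum_le _ fun l _ => by
    rw [map_mul]; exact mul_le_mul' (le_nm x i l) (le_nm y l j)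

theorem nm_smul (r : k) (x : B) : nm v (r • x) ≤ v.valuation k r * nm v x := nm_le.2 fun i j => by
  rw [map_smul, Matrix.smul_apply, smul_eq_mul, map_mul]
  exact mul_le_mul_right (le_nm x i j) _

theorem nm_one : nm v (1 : B) ≤ 1 := nm_le.2 fun i j => by
  rw [map_one, Matrix.one_apply]; split_ifs <;> simp

theorem nm_zero : nm v (0 : B) ≤ 0 := nm_le.2 fun i j => by simp

theorem eq_zero {x : B} (h : nm v x ≤ 0) : x = 0 :=
  Algebra.leftMulMatrix_injective (Module.finBasis k B) (Matrix.ext fun i j => by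
    have := nm_le.1 h i j
    rw [le_zero_iff, Valuation.zero_iff] at this
    rw [map_zero]; exact this)

theorem fix {n x y : B} (hn : nm v n < 1) (h : (1 - n) * x = y) : nm v x ≤ nm v y := by
  by_contra h1
  rw [not_le] at h1
  have h2 : nm v x ≤ max (nm v y) (nm v n * nm v x) := by
    conv_lhs => rw [show x = y + n * x by rw [← h]; noncomm_ring]
    exact (nm_add _ _).trans (max_le_max le_rfl (nm_mul _ _))
  exact h2.not_gt (max_lt h1 (mul_lt_of_lt_one_left (zero_le.trans_lt h1) hn))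

theorem nm_ae (x : B) : ∀ᶠ v : Pl k in cofinite, nm v x ≤ 1 := by
  simp only [nm_le]
  exact eventually_all.2 fun i => eventually_all.2 fun j => finite_not_le _

/-- integral units -/
structure IU (v : Pl k) (x : B) : Prop where
  un : IsUnit x
  int : nm v x ≤ 1
  inv : nm v (inverse x) ≤ 1

theorem IU.mul {x y : B} (hx : IU v x) (hy : IU v y) : IU v (x * y) :=
  ⟨hx.un.mul hy.un, (nm_mul _ _).trans (mul_le_one' hx.int hy.int), by
    rw [Ring.inverse_mul (Or.inl hx.un)]
    exact (nm_mul _ _).trans (mul_le_one' hy.inv hx.inv)⟩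

theorem IU.inverse {x : B} (hx : IU v x) : IU v (inverse x) :=
  ⟨hx.un.ringInverse, hx.inv, by rw [Ring.inverse_inverse hx.un]; exact hx.int⟩

theorem IU.star [StarRing B] {x : B} (hs : ∀ y : B, Cl v 0 y → Cl v 0 (star y)) (hx : IU v x) :
    IU v (star x) :=
  ⟨hx.un.star, cl_iff.1 (hs _ (cl_iff.2 hx.int)), by
    rw [Ring.inverse_star]; exact cl_iff.1 (hs _ (cl_iff.2 hx.inv))⟩

theorem iu_one_sub {n : B} (hn : nm v n < 1) : IU v (1 - n) := by
  have h : IsUnit (1 - n) := by
    rw [← Algebra.lmul_isUnit_iff (R := k), LinearMap.isUnit_iff_ker_eq_bot, LinearMap.ker_eq_bot']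
    exact fun x hx => eq_zero ((fix hn hx).trans nm_zero)
  exact ⟨h, (nm_sub _ _).trans (max_le nm_one hn.le), (fix hn (mul_inverse_cancel _ h)).trans nm_one⟩

theorem iu_ae {x : B} (hx : IsUnit x) : ∀ᶠ v : Pl k in cofinite, IU v x :=
  ((nm_ae x).and (nm_ae (inverse x))).mono fun _ h => ⟨hx, h.1, h.2⟩

theorem exists_small (v : Pl k) (γ : ℤᵐ⁰) : ∃ r : k, r ≠ 0 ∧ v.valuation k r * γ < 1 := by
  have hC : (0 : ℤᵐ⁰) < max γ 1 := lt_max_of_lt_right zero_lt_one
  obtain ⟨m, hm⟩ := exists_exp_le (inv_ne_zero hC.ne')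
  obtain ⟨c, hc, h⟩ := exists_deep {v} (m + 1)
  refine ⟨c, by simpa using hc, ?_⟩
  have h1 : v.valuation k (c : k) < (max γ 1)⁻¹ :=
    (h v (by simp)).trans_lt (lt_of_lt_of_le (exp_lt_exp.2 (by push_cast; omega)) hm)
  rw [← one_div, lt_div_iff₀ hC] at h1
  exact (mul_le_mul_right (le_max_left _ _) _).trans_lt h1

end nm

section alg
variable {K B : Type*} [Field K] [StarRing K] [Ring B] [StarRing B] [Algebra K B] [StarModule K B]

theorem EL_eq {c κ : K} {g q a s n n' : B} (hc : c ≠ 0) (hκ : κ ≠ 0) (ug : IsUnit g) (uq : IsUnit q)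
    (hs : star s = -s) (hv : star (cv a) * cv a = 1) (uv : IsUnit (cv a)) (un : IsUnit (1 - n))
    (h1 : g * zz c g q a + (2⁻¹ : K) • (star (zz c g q a) * zz c g q a) - s = κ • (1 - n))
    (h2 : c • (g * inverse (cv a * q) * zz c g q a) + (2⁻¹ : K) • (star (zz c g q a) * zz c g q a) - s =
      κ • (1 - n')) :
    EL c g q a s = star (algebraMap K B c⁻¹ * q * inverse g * (1 - n') * inverse (1 - n) * g) *
      (algebraMap K B c⁻¹ * q * inverse g * (1 - n') * inverse (1 - n) * g) := by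
  have e0 : star (x1 c g q a s) = (2⁻¹ : K) • (star (zz c g q a) * zz c g q a) - s := by
    simp [x1, hs, sub_eq_add_neg]
  have e1 : ze (x1 c g q a s) g (zz c g q a) 1 = κ • (inverse g * (1 - n)) := by
    rw [ze, e0, ← mul_smul_comm κ, ← h1, add_sub_assoc, mul_add, inverse_mul_cancel_left _ _ ug, one_mul]
  have e2 : ze (x1 c g q a s) (c • g) (zz c g q a) (cv a * q) =
      cv a * (algebraMap K B c⁻¹ * q * inverse g * (1 - n') * inverse (1 - n) * g) *
        (κ • (inverse g * (1 - n))) := by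
    have e3 : cv a * (algebraMap K B c⁻¹ * q * inverse g * (1 - n') * inverse (1 - n) * g) *
        (κ • (inverse g * (1 - n))) = c⁻¹ • (cv a * q * inverse g * (κ • (1 - n'))) := by
      simp only [mul_smul_comm, mul_assoc, mul_inverse_cancel_left _ _ ug, inverse_mul_cancel _ un,
        mul_one, ← Algebra.smul_def, smul_mul_assoc, smul_comm κ]
    rw [e3, ← h2, ze, e0, inv_smul hc ug, add_sub_assoc, mul_add, smul_add, mul_smul_comm c, smul_smul,
      inv_mul_cancel₀ hc, one_smul, mul_smul_comm, smul_mul_assoc, mul_assoc g, mul_assoc _ (inverse g) (g * _),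
      inverse_mul_cancel_left _ _ ug, mul_inverse_cancel_left _ _ (uv.mul uq)]
  rw [EL, el, ka, e1, e2, mul_inverse_cancel_right _ _ (isUnit_smul hκ (ug.ringInverse.mul un)), star_mul,
    mul_assoc, ← mul_assoc (star (cv a)), hv, one_mul]

theorem cv_unitary {a : B} (ha : star a = -a) (h1 : IsUnit (1 - a)) :
    star (cv a) * cv a = 1 ∧ IsUnit (cv a) := by
  have h2 : IsUnit (1 + a) := by simpa [ha] using h1.star
  have hc : Commute (1 - a) (1 + a) :=
    ((Commute.one_left _).sub_left ((Commute.one_right a).add_right (Commute.refl a)))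
  refine ⟨?_, h1.ringInverse.mul h2⟩
  have e : star (cv a) = (1 - a) * inverse (1 + a) := by
    simp [cv, ← Ring.inverse_star, ha, sub_eq_add_neg]
  rw [e, cv, (comm_inv h1 hc).eq, mul_assoc, inverse_mul_cancel_left _ _ h2, mul_inverse_cancel _ h1]

end alg

end L41

open L41 in
theorem largeStmt (hT : ToolStmt.{u, v, w}) : LargeStmt.{u, v, w} := by
  intro D δ c g q h
  have hc := ne_zero_of_hq h.uq h.hq
  have hθ : c - star c ≠ 0 := sub_ne_zero.2 h.hc.symm
  filter_upwards [(hT D).uni δ, (hT D).str, iu_ae (k := D.k) h.ug, iu_ae (k := D.k) h.uq,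
    iu_ae (k := D.k) ((IsUnit.mk0 _ (inv_ne_zero hc)).map (algebraMap D.K D.B))]
    with v h1 h2 ig iq ic a ha ua _
  obtain ⟨hv, uv⟩ := cv_unitary ha ua
  obtain ⟨A, hA⟩ : ∃ A, A = g * zz c g q a + (2⁻¹ : D.K) • (star (zz c g q a) * zz c g q a) := ⟨_, rfl⟩
  obtain ⟨A', hA'⟩ : ∃ A', A' = c • (g * inverse (cv a * q) * zz c g q a) +
    (2⁻¹ : D.K) • (star (zz c g q a) * zz c g q a) := ⟨_, rfl⟩
  obtain ⟨r, hr, hr'⟩ := exists_small v
    (nm v (algebraMap D.K D.B (c - star c)⁻¹) * max (max (nm v A) (nm v A')) 1)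
  obtain ⟨κ, hκ⟩ : ∃ κ, κ = algebraMap D.k D.K r⁻¹ * (c - star c) := ⟨_, rfl⟩
  have hκ0 : κ ≠ 0 := hκ ▸ mul_ne_zero (by simpa using hr) hθ
  refine ⟨-algebraMap D.K D.B κ, ?_, 0, fun s' hs' he => ?_⟩
  · rw [star_neg, star_algebraMap, hκ, star_mul', Quad.star_k, star_sub, star_star, ← map_neg, ← map_neg,
      ← map_neg, neg_neg, ← mul_neg, neg_sub]
  have k1 : ∀ X : D.B, X - s' = κ • (1 - κ⁻¹ • (s' - -algebraMap D.K D.B κ - X)) := fun X => by
    rw [smul_sub, smul_smul, mul_inv_cancel₀ hκ0, one_smul, ← Algebra.algebraMap_eq_smul_one]; abel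
  have k2 : ∀ X : D.B, nm v X ≤ max (nm v A) (nm v A') →
      IU v (1 - κ⁻¹ • (s' - -algebraMap D.K D.B κ - X)) := fun X hX => by
    refine iu_one_sub (lt_of_le_of_lt ?_ hr')
    have e : ∀ Y : D.B, κ⁻¹ • Y = r • (algebraMap D.K D.B (c - star c)⁻¹ * Y) := fun Y => by
      rw [hκ, mul_inv, ← map_inv₀, inv_inv, mul_smul, algebraMap_smul, Algebra.smul_def (_ : D.K)]
    rw [e]
    refine (nm_smul _ _).trans (mul_le_mul_right ((nm_mul _ _).trans (mul_le_mul_right ?_ _)) _)
    exact (nm_sub _ _).trans (max_le ((cl_iff.1 he).trans (le_max_right _ _)) (hX.trans (le_max_left _ _)))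
  have i1 := k2 A (le_max_left _ _)
  have i2 := k2 A' (le_max_right _ _)
  have iW := ((((ic.mul iq).mul ig.inverse).mul i2).mul i1.inverse).mul ig
  have iE := (iW.star h2).mul iW
  rw [EL_eq hc hκ0 h.ug h.uq hs' hv uv i1.un (by rw [← hA]; exact k1 A) (by rw [← hA']; exact k1 A')]
  exact h1 _ iE.un (cl_iff.2 iE.int) (cl_iff.2 iE.inv)

end Crest.Agent.T24.Stab
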