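import Crest.Agent.T24.StabL_66
import Crest.Agent.T24.HilC_56
import Crest.Agent.T24.DefS_26

/-! # Row 24, STAB (L): the hypotheses `LocP`, `LocR` at the non-split places (helper66) -/

set_option autoImplicit false

noncomputable section

namespace Crest.Agent.T24.Stab.L66

open Module NumberField

/-- norms -/
def Nm {E : Type*} [Field E] [StarRing E] (t : E) : Prop := ∃ z, t = star z * z

section
variable {E : Type*} [Field E] [StarRing E]

theorem Nm.mul {a b : E} (ha : Nm a) (hb : Nm b) : Nm (a * b) := by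
  obtain ⟨x, rfl⟩ := ha
  obtain ⟨y, rfl⟩ := hb
  exact ⟨x * y, by rw [star_mul']; ring⟩

theorem Nm.of_sq {a b : E} (ha : star a = a) (h0 : a ≠ 0) (h : Nm (a * a * b)) : Nm b := by
  obtain ⟨x, h⟩ := h
  exact ⟨x / a, by rw [star_div₀, ha]; field_simp; linear_combination h⟩

theorem locP_of (idx : ∀ a b : E, star a = a → star b = b → a ≠ 0 → b ≠ 0 → Nm a ∨ Nm b ∨ Nm (a * b))
    (sos : ∃ (s : E) (n : ℕ), star s * s + n = -1) : LocP E := by
  have two : ∀ a b : E, star a = a → a ≠ 0 → Nm (-(a * b)) → ∃ x : E, a * (star x * x) + b = 0 := by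
    rintro a b ha h0 ⟨x, h⟩
    exact ⟨x / a, by rw [star_div₀, ha]; field_simp; linear_combination -h⟩
  intro a b c ha hb hc
  by_cases a0 : a = 0
  · exact ⟨1, 0, 0, by simp, by simp [a0]⟩
  by_cases b0 : b = 0
  · exact ⟨0, 1, 0, by simp, by simp [b0]⟩
  by_cases c0 : c = 0
  · exact ⟨0, 0, 1, by simp, by simp [c0]⟩
  by_cases ab : Nm (-(a * b))
  · obtain ⟨x, h⟩ := two a b ha a0 ab
    exact ⟨x, 1, 0, by simp, by simpa using h⟩
  by_cases ac : Nm (-(a * c))
  · obtain ⟨x, h⟩ := two a c ha a0 ac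
    exact ⟨x, 0, 1, by simp, by simpa using h⟩
  by_cases bc : Nm (-(b * c))
  · obtain ⟨x, h⟩ := two b c hb b0 bc
    exact ⟨0, x, 1, by simp, by simpa using h⟩
  have m1 : ¬Nm (-1 : E) := fun h => bc (by
    have := ((idx _ _ (by simp [ha, hb]) (by simp [ha, hc]) (by simp [a0, b0])
      (by simp [a0, c0])).resolve_left ab).resolve_left ac
    simpa using h.mul (Nm.of_sq (b := b * c) ha a0 (by convert this using 1; ring)))
  have neg : ∀ t : E, star t = t → t ≠ 0 → ¬Nm t → Nm (-t) := fun t ht t0 h => by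
    simpa using ((idx _ _ (by simp) ht (by simp) t0).resolve_left m1).resolve_left h
  obtain ⟨β, hβ⟩ := neg _ (by simp [ha, hb]) (by simp [a0, b0]) ab
  obtain ⟨γ, hγ⟩ := neg _ (by simp [ha, hc]) (by simp [a0, c0]) ac
  rw [neg_neg] at hβ hγ
  have β0 : β ≠ 0 := by rintro rfl; simp [a0, b0] at hβ
  have γ0 : γ ≠ 0 := by rintro rfl; simp [a0, c0] at hγ
  by_contra hn
  have add : ∀ s t : E, Nm s → Nm t → Nm (s + t) := by
    rintro _ _ ⟨x, rfl⟩ ⟨y, rfl⟩
    by_contra h
    have t0 : star x * x + star y * y ≠ 0 := fun h0 => h ⟨0, by simp [h0]⟩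
    obtain ⟨z, hz⟩ := neg _ (by simp [mul_comm]) t0 h
    have := star_ne_zero.2 β0
    have := star_ne_zero.2 γ0
    refine hn ⟨x, y * a / β, z * a / γ, .inr (.inr ?_), ?_⟩
    · have : z ≠ 0 := by rintro rfl; exact t0 (by simpa using neg_eq_iff_eq_neg.1 hz)
      simp [*]
    · rw [show b = star β * β / a by rw [← hβ]; field_simp, show c = star γ * γ / a by rw [← hγ]; field_simp]
      simp only [star_div₀, star_mul', ha]
      field_simp
      linear_combination (-a) * hz
  obtain ⟨s, n, h⟩ := sos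
  refine m1 (h ▸ add _ _ ⟨s, rfl⟩ ?_)
  clear h
  induction n with
  | zero => exact ⟨0, by simp⟩
  | succ n ih => exact Nat.cast_succ (R := E) n ▸ add _ _ ih ⟨1, by simp⟩

end

/-- hermitian forms in three variables over a quadratic extension of `k_v` are isotropic -/
theorem locP_adic {k : Type*} [Field k] [NumberField k] (v : Asa.Pl k) (E : Type*) [Field E]
    [StarRing E] [Algebra (Kv v) E] [Quad (Kv v) E] : LocP E := by
  have : CharZero (Kv v) := algebraRat.charZero _
  have : CharZero E := charZero_of_injective_algebraMap (algebraMap (Kv v) E).injective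
  have hk := Quad.star_k (k := Kv v) (K := E)
  have fx := fun {c : E} (hc : star c = c) =>
    Csa.exists_of_star_eq (Quad.fr (k := Kv v)) hk (Quad.ne (k := Kv v)) hc
  have L := Hil.lc_inl v
  have sq := fun {c : Kv v} (hc : c ≠ 0) => L.exists_sq (v.denseRange_algebraMap k) hc
  obtain ⟨θ, h0, hθ⟩ := Csa.exists_skew (Quad.ne (k := Kv v) (K := E))
  obtain ⟨d, hd⟩ := fx (c := θ * θ) (by simp [hθ])
  have d0 : d ≠ 0 := by rintro rfl; simp [eq_comm, h0] at hd
  obtain ⟨δ, r, hr⟩ := sq d0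
  rw [div_eq_iff d0] at hr
  have nm : ∀ (a : Kv v) (a' : kˣ) (s : Kv v), a ≠ 0 → algebraMap k _ (a' : k) / a = s * s →
      Hil.hil (.inl v) a' δ = 1 → Nm (algebraMap _ E a) := fun a a' s a0 hs h => by
    obtain ⟨x, y, h⟩ := (L.nm _ _).1 (Hil.hil_eq_one.1 h)
    have s0 : s ≠ 0 := by rintro rfl; simp [a0] at hs
    refine Nm.of_sq (hk s) (by simpa using s0) ⟨algebraMap _ E x + algebraMap _ E (y * r) * θ, ?_⟩
    rw [← map_mul, ← hs, ← map_mul, div_mul_cancel₀ _ a0, h, hr]
    simp only [star_add, star_mul', hk, hθ, map_sub, map_mul, map_pow, hd]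
    ring
  refine locP_of (fun a b ha hb a0 b0 => ?_) ?_
  · obtain ⟨a, rfl⟩ := fx ha
    obtain ⟨b, rfl⟩ := fx hb
    rw [map_ne_zero] at a0 b0
    obtain ⟨a', s, hs⟩ := sq a0
    obtain ⟨b', t, ht⟩ := sq b0
    rcases Int.units_eq_one_or (Hil.hil (.inl v) a' δ) with h1 | h1
    · exact .inl (nm a a' s a0 hs h1)
    rcases Int.units_eq_one_or (Hil.hil (.inl v) b' δ) with h2 | h2
    · exact .inr (.inl (nm b b' t b0 ht h2))
    refine .inr (.inr (map_mul (algebraMap _ E) a b ▸ nm _ (a' * b') (s * t) (mul_ne_zero a0 b0) ?_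
      (by rw [Hil.hil_mul_left, h1, h2]; rfl)))
    rw [Units.val_mul, map_mul, ← div_mul_div_comm, hs, ht]; ring
  · obtain ⟨N, hN⟩ : ∃ N, Ideal.absNorm v.asIdeal = N + 1 :=
      Nat.exists_eq_succ_of_ne_zero (HeightOneSpectrum.one_lt_absNorm v).ne_bot
    have h1 : v.valuation k ((N + 1 : ℕ) : k) < 1 := by
      simpa [hN] using (v.valuation_lt_one_iff_mem (K := k) _).2 (Ideal.absNorm_mem v.asIdeal)
    have h2 : (1 - 4 * ((N + 1 : ℕ) : k)) ≠ 0 := by
      rw [sub_ne_zero]; norm_cast; omega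
    obtain ⟨s, hs⟩ := (L.sq (Units.mk0 _ h2)).1 ⟨1, by
      have : v.valuation k 4 ≠ 0 := by simp
      simpa using mul_lt_mul_of_pos_left h1 (zero_lt_iff.2 this)⟩
    refine ⟨algebraMap _ E s, 4 * N + 2, ?_⟩
    rw [hk, ← map_mul, ← hs]
    simp [map_ofNat]
    ring

theorem locR_complex : LocR ℂ := ⟨inferInstance, fun x y => ⟨√(Complex.normSq x + Complex.normSq y), by
  simp only [RCLike.star_def, ← Complex.normSq_eq_conj_mul_self, Complex.normSq_ofReal]
  rw [Real.mul_self_sqrt (add_nonneg (Complex.normSq_nonneg _) (Complex.normSq_nonneg _))]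
  simp⟩⟩

theorem LocR.of_equiv {E E' : Type*} [Field E] [StarRing E] [Field E'] [StarRing E'] (h : LocR E')
    (e : E ≃+* E') (he : ∀ x, e (star x) = star (e x)) : LocR E := by
  have := h.1
  refine ⟨IsAlgClosed.of_exists_root _ fun p _ hp => ?_, fun x y => ?_⟩
  · obtain ⟨x, hx⟩ := IsAlgClosed.exists_root (p.map e.toRingHom) (by
      rw [Polynomial.degree_map]; exact (Polynomial.degree_pos_of_irreducible hp).ne')
    obtain ⟨x, rfl⟩ := e.surjective x
    exact ⟨x, hx.of_map e.injective⟩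
  obtain ⟨z, hz⟩ := h.2 (e x) (e y)
  obtain ⟨z, rfl⟩ := e.surjective z
  exact ⟨z, e.injective (by simpa [he] using hz)⟩

/-- a quadratic extension of `ℝ` with its involution is `ℂ` -/
theorem exists_equiv_complex (E : Type*) [Field E] [StarRing E] [Algebra ℝ E] [Quad ℝ E] :
    ∃ e : E ≃ₐ[ℝ] ℂ, ∀ x, e (star x) = star (e x) := by
  have := finite_kK ℝ E
  let f : E →ₐ[ℝ] ℂ := IsAlgClosed.lift
  let e := AlgEquiv.ofBijective f ⟨f.injective,
    (LinearMap.injective_iff_surjective_of_finrank_eq_finrank (f := f.toLinearMap)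
      (by rw [Quad.fr, Complex.finrank_real_complex])).1 f.injective⟩
  rcases Complex.real_algHom_eq_id_or_conj ((e.symm.trans (sig ℝ E)).trans e).toAlgHom with h | h
  · obtain ⟨c, hc⟩ := Quad.ne (k := ℝ) (K := E)
    exact absurd (e.injective (by simpa using AlgHom.congr_fun h (e c))) hc
  · exact ⟨e, fun x => by simpa using AlgHom.congr_fun h (e x)⟩

theorem locR_real (E : Type*) [Field E] [StarRing E] [Algebra ℝ E] [Quad ℝ E] : LocR E :=
  let ⟨e, he⟩ := exists_equiv_complex E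
  locR_complex.of_equiv e.toRingEquiv he

/-- the same over a copy of `ℝ` -/
theorem locR_real' {F : Type*} [Field F] (i : F ≃+* ℝ) (E : Type*) [Field E] [StarRing E] [Algebra F E]
    [Quad F E] : LocR E := by
  let _ : Algebra ℝ E := ((algebraMap F E).comp i.symm.toRingHom).toAlgebra
  have : Quad ℝ E := ⟨(Algebra.finrank_eq_of_equiv_equiv i (RingEquiv.refl E) (RingHom.ext fun x =>
    congrArg (algebraMap F E) (i.symm_apply_apply x))).symm.trans Quad.fr,
    fun c => Quad.star_k (i.symm c), Quad.ne F⟩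
  exact locR_real E

end Crest.Agent.T24.Stab.L66
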