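import Crest.Agent.T24.StabDef_43
import Crest.Agent.T24.HnAll_7
import Crest.Agent.T24.LanD_73

/-!
# Row 24, stability (helper50): the Hasse norm theorem in `k[l]`
-/

set_option autoImplicit false

namespace Crest.Agent.T24.Stab

open Polynomial Asa

universe u v w

theorem root_ne_zero {k B F : Type*} [Field k] [Ring B] [Algebra k B] [Module.Finite k B] [Field F]
    [Algebra k F] {l : B} (hl : IsUnit l) {x : F} (hx : aeval x (minpoly k l) = 0) : x ≠ 0 := by
  rintro rfl
  rw [← coeff_zero_eq_aeval_zero', map_eq_zero, ← X_dvd_iff] at hx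
  obtain ⟨g, hg⟩ := hx
  have hm := minpoly.monic (Algebra.IsIntegral.isIntegral (R := k) l)
  have h0 : aeval l g = 0 := by
    have := minpoly.aeval k l
    rwa [hg, map_mul, aeval_X, hl.mul_right_eq_zero] at this
  have hg0 : g ≠ 0 := by
    rintro rfl
    exact hm.ne_zero (by rw [hg, mul_zero])
  have := minpoly.degree_le_of_ne_zero k l hg0 h0
  rw [hg, mul_comm] at this
  exact absurd (degree_lt_degree_mul_X hg0) this.not_gt

theorem nrmStmt : NrmStmt.{u, v, w} := by
  intro D θ δ hθ l hl hu hf hr
  have hm := minpoly.monic (Algebra.IsIntegral.isIntegral (R := D.k) l)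
  obtain ⟨p, q, c, hc⟩ := Lan.norm_of_roots _ hm (δ : D.k) fun F _ _ _ x hx => by
    have h0 := root_ne_zero hu hx
    refine ⟨h0, Hn.hnStmt F (Units.map (algebraMap D.k F).toMonoidHom δ) (Units.mk0 x h0)
      (fun P => hf _ F _ hx P rfl) fun φ hφ => hr (φ.comp (algebraMap D.k F)) hφ _ ?_⟩
    rw [← hom_eval₂, ← aeval_def]
    exact (congrArg φ hx).trans (map_zero φ)
  have h1 := congrArg (aeval l) hc
  rw [map_mul, minpoly.aeval, zero_mul, map_sub, aeval_X, sub_eq_zero, map_sub, map_mul, map_pow,
    map_pow, aeval_C, ← Algebra.smul_def] at h1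
  have h2 : aeval l q * aeval l p = aeval l p * aeval l q := by
    rw [← map_mul, mul_comm, map_mul]
  have hs : ∀ r : D.k[X], star (aeval l r) = aeval l r := fun r =>
    Lan.tau_aeval (Lan.isInv D.k D.K D.B) hl r
  have hc : ∀ y, Commute l y → Commute (aeval l p + θ • aeval l q) y := fun y hy => by
    have h3 : ∀ r : D.k[X], Commute (aeval l r) y := fun r => by
      induction r using Polynomial.induction_on' with
      | add p q hp hq => rw [map_add]; exact hp.add_left hq
      | monomial n c => rw [aeval_monomial, ← Algebra.smul_def]; exact (hy.pow_left n).smul_left c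
    exact (h3 p).add_left ((h3 q).smul_left θ)
  have h4 : star (aeval l p + θ • aeval l q) * (aeval l p + θ • aeval l q) = l := by
    rw [star_add, star_smul, hs, hs, hθ.sk]
    simp only [mul_add, add_mul, smul_mul_assoc, mul_smul_comm, h2, neg_smul, neg_mul, smul_neg,
      smul_add, smul_smul]
    rw [← hθ.sq, algebraMap_smul, ← sq, ← sq]
    conv_rhs => rw [h1]
    abel
  refine ⟨_, ?_, h4, hc⟩
  rw [← h4] at hu
  have : IsArtinianRing D.B := IsArtinianRing.of_finite D.K D.B
  exact isUnit_of_mul_isUnit_right hu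

end Crest.Agent.T24.Stab
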