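import Crest.Agent.T24.StabM_66
import Crest.Agent.T24.StabDef_43
import Crest.Agent.T24.BcB_98
import Crest.Agent.T24.LocI_53
import Crest.Agent.T24.LanD_73
import Crest.Agent.T24.EmbB_13

/-! # Row 24, STAB: open sets of good parameters at the non-split places (helper66) -/

set_option autoImplicit false
set_option linter.unusedSectionVars false

noncomputable section

namespace Crest.Agent.T24.Stab

open Ring Module Polynomial Filter Topology Csa Asa

universe u v w

namespace L66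

theorem norm_of_roots {k : Type u} [Field k] [CharZero k] (f : k[X]) (hf : f.Monic) (d : k)
    (h : ∀ (F : Type u) [Field F] [Algebra k F] (l : F), aeval l f = 0 →
      l ≠ 0 ∧ ∃ x y : F, l = x ^ 2 - algebraMap k F d * y ^ 2) :
    ∃ p q : k[X], f ∣ X - (p ^ 2 - C d * q ^ 2) := by
  have : Module.Finite k (AdjoinRoot f) := hf.finite_adjoinRoot
  obtain ⟨x, y, hxy⟩ := Lan.norm_of_residue (k := k) (algebraMap k (AdjoinRoot f) d)
    (AdjoinRoot.root f) fun m hm => by
      let _ : Field (AdjoinRoot f ⧸ m) := Ideal.Quotient.field m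
      obtain ⟨h0, x, y, hxy⟩ := h (AdjoinRoot f ⧸ m) (Ideal.Quotient.mkₐ k m (AdjoinRoot.root f))
        (by rw [aeval_algHom_apply, AdjoinRoot.aeval_eq, AdjoinRoot.mk_self, map_zero])
      obtain ⟨x, rfl⟩ := Ideal.Quotient.mk_surjective x
      obtain ⟨y, rfl⟩ := Ideal.Quotient.mk_surjective y
      refine ⟨fun h => h0 (Ideal.Quotient.eq_zero_iff_mem.mpr h), x, y, Ideal.Quotient.eq.mp ?_⟩
      rw [map_sub, map_mul, map_pow, map_pow]
      exact hxy
  obtain ⟨p, rfl⟩ := AdjoinRoot.mk_surjective x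
  obtain ⟨q, rfl⟩ := AdjoinRoot.mk_surjective y
  refine ⟨p, q, AdjoinRoot.mk_eq_mk.mp ?_⟩
  rw [map_sub, map_mul, map_pow, map_pow, AdjoinRoot.mk_X, AdjoinRoot.mk_C]
  exact hxy

/-- `l` is a unit and a norm from `F[l, √δ]` -/
def NP {F A : Type*} [Field F] [Ring A] [Algebra F A] (δ : F) (l : A) : Prop :=
  IsUnit l ∧ ∃ P Q : F[X], l = aeval l (P ^ 2 - C δ * Q ^ 2)

theorem map_EL {K B E A : Type*} [Field K] [StarRing K] [Ring B] [StarRing B] [Algebra K B]
    [Field E] [StarRing E] [Ring A] [StarRing A] [Algebra E A] (ι : K →+* E) (ψ : B →+* A)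
    (h1 : ∀ x, ψ (star x) = star (ψ x)) (h2 : ∀ (c : K) x, ψ (c • x) = ι c • ψ x)
    (h3 : ∀ x, ψ (inverse x) = inverse (ψ x)) (c : K) (g q a s : B) :
    ψ (EL c g q a s) = EL (ι c) (ψ g) (ψ q) (ψ a) (ψ s) := by
  simp only [EL, el, ka, ze, x1, zz, cv, h1, h2, h3, map_mul, map_add, map_sub, map_one, map_inv₀,
    map_ofNat]

section Abs

variable {F E A : Type*} [Field E] [StarRing E] [Ring A] [StarRing A] [Algebra E A] [StarModule E A]

theorem np_of [Field F] [CharZero E] [Algebra F E] [Quad F E] [Algebra F A] [IsScalarTower F E A]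
    {θ : E} {δ : F} (h0 : θ ≠ 0) (hθ : star θ = -θ) (hδ : algebraMap F E δ = θ * θ) {l : A}
    (hl : IsUnit l) {R : Multiset E} (h : aeval l (R.map fun r => X - C r).prod = 0)
    (hR : ∀ r ∈ R, star r ≠ r ∨ ∃ μ, μ ≠ 0 ∧ r = star μ * μ) : NP δ l := by
  have : CharZero F := RingHom.charZero (algebraMap F E)
  have hk := Quad.star_k (k := F) (K := E)
  have co := exists_coord (Quad.fr (k := F) (K := E)) hk h0 hθ
  have nm : ∀ a b : F, star (algebraMap F E a + algebraMap F E b * θ) *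
      (algebraMap F E a + algebraMap F E b * θ) = algebraMap F E (a ^ 2 - δ * b ^ 2) := fun a b => by
    simp only [star_add, star_mul', hk, hθ, map_sub, map_mul, map_pow, hδ]; ring
  have : ∀ r ∈ R, ∃ a b : F, r = algebraMap F E a + algebraMap F E b * θ ∧ a ^ 2 - δ * b ^ 2 ≠ 0 ∧
      (b = 0 → ∃ x y, a = x ^ 2 - δ * y ^ 2) := fun r hr => by
    rcases hR r hr with h | ⟨μ, μ0, h⟩
    · obtain ⟨a, b, rfl⟩ := co r
      refine ⟨a, b, rfl, fun e => h ?_, fun e => absurd (by simp [e, hk]) h⟩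
      have := nm a b
      rw [e, map_zero, mul_eq_zero, star_eq_zero, or_self] at this
      rw [this, star_zero]
    · obtain ⟨a, b, rfl⟩ := co μ
      refine ⟨a ^ 2 - δ * b ^ 2, 0, by rw [h, nm]; simp, fun e => ?_, fun _ => ⟨a, b, rfl⟩⟩
      have := nm a b
      rw [show a ^ 2 - δ * b ^ 2 = 0 by simpa using e, map_zero, mul_eq_zero, star_eq_zero,
        or_self] at this
      exact μ0 this
  choose! a b h1 h2 h3 using this
  obtain ⟨P, Q, T, hT⟩ := norm_of_roots (R.map fun r => (X - C (a r)) ^ 2 - C (δ * b r ^ 2)).prod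
    (monic_multiset_prod_of_monic _ _ fun r _ => by monicity!) δ fun M _ _ x hx => by
      rw [map_multiset_prod, Multiset.prod_eq_zero_iff, Multiset.map_map] at hx
      obtain ⟨r, hr, hx⟩ := Multiset.mem_map.1 hx
      simp only [Function.comp, map_sub, map_pow, map_mul, aeval_X, aeval_C] at hx
      have inj := (algebraMap F M).injective
      have : CharZero M := charZero_of_injective_algebraMap inj
      refine ⟨fun e => h2 r hr (inj (by simpa [e] using hx)), ?_⟩
      by_cases hb : b r = 0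
      · obtain ⟨s, t, e⟩ := h3 r hr hb
        refine ⟨algebraMap F M s, algebraMap F M t, ?_⟩
        have : x - algebraMap F M (a r) = 0 := by simpa [hb] using hx
        simpa [e] using sub_eq_zero.1 this
      · have hb' : algebraMap F M (b r) ≠ 0 := by simpa using hb
        refine Hil.nm_of_sq (fun e => h0 ?_) ⟨(x - algebraMap F M (a r)) / algebraMap F M (b r), by
          field_simp; linear_combination -hx⟩
        simpa [inj (e.trans (map_zero _).symm)] using hδ.symm
  refine ⟨hl, P, Q, ?_⟩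
  have e : ((R.map fun r => (X - C (a r)) ^ 2 - C (δ * b r ^ 2)).prod).map (algebraMap F E) =
      (R.map fun r => X - C r).prod * (R.map fun r => X - C (star r)).prod := by
    rw [← Multiset.prod_map_mul, Polynomial.map_multiset_prod, Multiset.map_map]
    refine congrArg _ (Multiset.map_congr rfl fun r hr => ?_)
    conv_rhs => rw [h1 r hr]
    simp only [Function.comp, Polynomial.map_sub, Polynomial.map_pow, map_X, map_C, star_add, star_mul',
      hk, hθ, map_mul, map_pow, hδ, map_add, map_neg, Polynomial.map_mul]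
    ring
  have := congrArg (aeval l) hT
  rwa [map_mul, ← aeval_map_algebraMap E l (Multiset.prod _), e, map_mul, h, zero_mul, zero_mul,
    map_sub, aeval_X, sub_eq_zero] at this

variable [NontriviallyNormedField F] [CompleteSpace F] [Algebra F A] [FiniteDimensional F A]
  [TopologicalSpace A] [IsTopologicalAddGroup A] [ContinuousSMul F A] [T2Space A]

theorem NP.near [CharZero F] {δ : F} {l : A} (h : NP δ l) : ∀ᶠ y in 𝓝 l, NP δ y := by
  have := Opn.topRing F (A := A)
  obtain ⟨hu, P, Q, h⟩ := h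
  have c1 := (Opn.continuous_aeval F (A := A) (P ^ 2 - C δ * Q ^ 2)).tendsto l
  rw [← h] at c1
  have c2 := (tendsto_id (x := 𝓝 l)).mul ((Opn.inverse_continuousAt F hu).tendsto.comp c1)
  rw [mul_inverse_cancel _ hu] at c2
  filter_upwards [Opn.ev_isUnit F hu, c1.eventually (Opn.ev_isUnit F hu),
    c2.eventually (Opn.root_one F (n := 2) (by norm_num) univ_mem)] with y h1 h2 ⟨ρ, h3, _, h4⟩
  have : ρ ∈ Algebra.adjoin F {y} := Algebra.adjoin_le (Set.singleton_subset_iff.2 (mul_mem
    (Algebra.self_mem_adjoin_singleton F y) (Opn.inverse_mem F _ (aeval_mem_adjoin_singleton F _)))) h3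
  rw [Algebra.adjoin_singleton_eq_range_aeval] at this
  obtain ⟨T, rfl⟩ := this
  refine ⟨h1, T * P, T * Q, ?_⟩
  rw [show (T * P) ^ 2 - C δ * (T * Q) ^ 2 = T ^ 2 * (P ^ 2 - C δ * Q ^ 2) by ring, map_mul, map_pow]
  exact ((congrArg (· * _) h4).trans (inverse_mul_cancel_right _ _ h2)).symm

include F in
theorem cont_EL [ContinuousStar A] (c : E) (g q : A) {a s : A} (h1 : IsUnit (1 - a))
    (h2 : IsUnit (cv a * q - 1)) (h3 : IsUnit (ze (x1 c g q a s) g (zz c g q a) 1)) :
    ContinuousAt (fun p : A × A => EL c g q p.1 p.2) (a, s) := by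
  have := Opn.topRing F (A := A)
  have : ContinuousConstSMul E A := ⟨fun c => by simp only [Algebra.smul_def]; fun_prop⟩
  have inv : ∀ {f : A × A → A}, ContinuousAt f (a, s) → IsUnit (f (a, s)) →
      ContinuousAt (fun p => inverse (f p)) (a, s) := fun hf hu =>
    (Opn.inverse_continuousAt F hu).comp hf
  have c1 : ContinuousAt (fun p : A × A => cv p.1) (a, s) :=
    (inv (f := fun p => 1 - p.1) (by fun_prop) h1).mul (by fun_prop)
  have c2 : ContinuousAt (fun p : A × A => zz c g q p.1) (a, s) :=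
    ((continuousAt_const.mul (inv (f := fun p => cv p.1 * q - 1) (by fun_prop) h2)).const_smul _).star
  have c3 : ContinuousAt (fun p : A × A => x1 c g q p.1 p.2) (a, s) := by unfold x1; fun_prop
  have c4 : ContinuousAt (fun p : A × A =>
      ka c (x1 c g q p.1 p.2) g (zz c g q p.1) 1 (cv p.1 * q)) (a, s) :=
    ContinuousAt.mul (by unfold ze; fun_prop)
      (inv (f := fun p => ze (x1 c g q p.1 p.2) g (zz c g q p.1) 1) (by unfold ze; fun_prop) h3)
  exact c4.star.mul c4

theorem near_abs [ContinuousStar A] [CharZero E] [Algebra F E] [Quad F E] [IsScalarTower F E A]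
    {θ : E} {δ : F} (h0 : θ ≠ 0) (hθ : star θ = -θ) (hδ : algebraMap F E δ = θ * θ)
    {n : Type*} [Fintype n] [DecidableEq n] [Nonempty n] (e : A ≃ₐ[E] Matrix n n E)
    (hE : LocR E ∨ LocP E ∧ Odd (Fintype.card n)) {c : E} (hc : star c ≠ c) {g q : A} (ug : IsUnit g)
    (uq : IsUnit q) : ∃ a s : A, star a = -a ∧ star s = -s ∧
      ∀ᶠ p in 𝓝 (a, s), NP δ (EL c g q p.1 p.2) := by
  have : CharZero F := RingHom.charZero (algebraMap F E)
  lift g to Aˣ using ug
  lift q to Aˣ using uq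
  obtain ⟨a, s, v, z, ζ, ζ', ha, hs, u1, hv, u2, hz, e1, e2, R, hR, hR'⟩ := loc e hE g 1 q hc
  have c0 : c ≠ 0 := fun h => hc (by simp [h])
  rw [Units.val_one] at u2 hz e1
  have f1 : cv a = v := by rw [cv, ← hv, inverse_mul_cancel_left _ _ u1]
  have f2 : zz c (g : A) q a = z := by
    rw [zz, f1, ← smul_mul_assoc, ← hz, mul_inverse_cancel_right _ _ u2, star_star]
  have f3 : star (x1 c (g : A) q a s) = (2⁻¹ : E) • (star (z : A) * z) - s := by
    simp [x1, f2, hs, sub_eq_add_neg]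
  have f4 : ze (x1 c (g : A) q a s) g (zz c (g : A) q a) 1 = ζ := by rw [ze, f2, f3, inverse_unit, e1]
  have f5 : EL c (g : A) q a s = star ((ζ' : A) * ↑ζ⁻¹) * (ζ' * ↑ζ⁻¹) := by
    rw [EL, el, ka, f4, ze, f2, f3, f1, inv_smul c0 g.isUnit, inverse_unit, inverse_unit, e2,
      mul_smul_comm, smul_mul_assoc]
  refine ⟨a, s, ha, hs, (cont_EL (F := F) c _ _ u1 (f1 ▸ u2) (f4 ▸ ζ.isUnit)).eventually (NP.near ?_)⟩
  beta_reduce
  rw [f5]
  refine np_of h0 hθ hδ ((ζ' * ζ⁻¹).isUnit.star.mul (ζ' * ζ⁻¹).isUnit) hR fun r hr => ?_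
  rcases hR' r hr with rfl | rfl | h
  · exact .inl (by simpa using hc)
  · exact .inl (by simpa using hc.symm)
  · exact .inr h

end Abs

/-- a central simple algebra with an involution of the second kind over a local field is split -/
theorem exists_mat (F : Type*) [NontriviallyNormedField F] [ProperSpace F] [IsUltrametricDist F]
    {E A : Type*} [Field E] [StarRing E] [Algebra F E] [Quad F E] [Ring A] [StarRing A] [Algebra E A]
    [StarModule E A] [Algebra.IsCentral E A] [IsSimpleRing A] [FiniteDimensional E A] :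
    Nonempty (A ≃ₐ[E] Matrix (Fin (deg E A)) (Fin (deg E A)) E) := by
  have := finite_kK F E
  obtain ⟨c, hc⟩ := NontriviallyNormedField.non_trivial (α := F)
  let _ : NontriviallyNormedField E :=
    { toField := inferInstance
      toNorm := (Loc.ndr F E).toNorm
      toMetricSpace := (Loc.ndr F E).toMetricSpace
      dist_eq := (Loc.ndr F E).dist_eq
      norm_mul := (Loc.ndr F E).norm_mul
      non_trivial := ⟨algebraMap F E c, hc.trans_eq (Loc.nm_algebraMap F c).symm⟩ }
  let _ : NormedAlgebra F E := { norm_smul_le := fun c x => (Loc.nm_smul F c x).le }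
  have : IsUltrametricDist E := Loc.ultra F E
  have : ProperSpace E := FiniteDimensional.proper F E
  exact Loc.Inv2.split (s := starRingEnd E) (τ := Lan.stA A) (finrank_eq_deg_sq E A)
    ⟨star_mul, star_star, Csa.star_algebraMap⟩ (starL F E E).continuous_of_finiteDimensional
    (Quad.ne F)

section Glob

variable {k : Type u} {K : Type v} {B : Type w} [Field k] [NumberField k] [Field K] [NumberField K]
  [Algebra k K] [StarRing K] [Quad k K] [Ring B] [StarRing B] [Algebra K B] [StarModule K B]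
  [Algebra.IsCentral K B] [IsSimpleRing B] [FiniteDimensional K B] [Algebra k B] [IsScalarTower k K B]
  [Module.Finite k B] {F : Type*} [NontriviallyNormedField F] [CompleteSpace F] [Algebra k F]

theorem nhds_mat {V : Set (BC k K B F)} (hV : V ∈ 𝓝 0) : ∃ ε > 0, ∀ y : B,
    (∀ i j, ‖algebraMap k F (mat k y i j)‖ < ε) → BC.inc k K B F y ∈ V := by
  let b := finBasis k B
  let L : (Fin (finrank k B) → Fin (finrank k B) → F) → BC k K B F := fun M =>
    ∑ i, (∑ j, M i j * algebraMap k F (b.repr 1 j)) • BC.inc k K B F (b i)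
  have hL : Continuous L := by fun_prop
  obtain ⟨ε, h0, h⟩ := Metric.mem_nhds_iff.1 (hL.continuousAt.preimage_mem_nhds (x := 0)
    (by simpa [L] using hV))
  refine ⟨ε, h0, fun y hy => ?_⟩
  have := h (a := fun i j => algebraMap k F (mat k y i j)) (mem_ball_zero_iff.2
    ((pi_norm_lt_iff h0).2 fun i => (pi_norm_lt_iff h0).2 (hy i)))
  refine Set.mem_of_eq_of_mem ((BC.eq_sum b _).trans (Finset.sum_congr rfl fun i _ => ?_)) this
  rw [BC.repr_inc, ← mul_one y, ← Algebra.leftMulMatrix_mulVec_repr, mul_one]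
  simp [Matrix.mulVec, dotProduct, mat, b]

theorem NP.root {δ : F} {l : B} (h : NP δ (BC.inc k K B F l)) {M : Type*} [Field M] (f : F →+* M)
    {x : M} (hx : (minpoly k l).eval₂ (f.comp (algebraMap k F)) x = 0) :
    x ≠ 0 ∧ ∃ a b, x = a ^ 2 - f δ * b ^ 2 := by
  have key : ∀ S : F[X], aeval (BC.inc k K B F l) S = 0 → S.eval₂ f x = 0 := fun S hS => by
    obtain ⟨T, rfl⟩ := (Emb.minpoly_one_tmul F l).symm.dvd.trans (minpoly.dvd F _ hS)
    rw [eval₂_mul, eval₂_map, hx, zero_mul]
  obtain ⟨hu, P, Q, h⟩ := h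
  have h1 := Opn.inverse_mem F _ (Algebra.self_mem_adjoin_singleton F (BC.inc k K B F l))
  rw [Algebra.adjoin_singleton_eq_range_aeval] at h1
  obtain ⟨T, hT⟩ := h1
  have h2 := key (X * T - 1) (by
    rw [map_sub, map_mul, aeval_X, map_one, sub_eq_zero]
    exact (congrArg (_ * ·) hT).trans (mul_inverse_cancel _ hu))
  have h3 := key (X - (P ^ 2 - C δ * Q ^ 2)) (by rw [map_sub, aeval_X, ← h, sub_self])
  exact ⟨fun e => by simp [e] at h2, P.eval₂ f x, Q.eval₂ f x, by
    simpa [sub_eq_zero, eval₂_pow] using h3⟩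

theorem near_glob [IsEmpty (K →ₐ[k] F)] (hd : DenseRange (algebraMap k F)) {θ : K} {δ : kˣ}
    (h : Th θ δ) {n : Type*} [Fintype n] [DecidableEq n] [Nonempty n]
    (e : BC k K B F ≃ₐ[BC k K K F] Matrix n n (BC k K K F))
    (hE : LocR (BC k K K F) ∨ LocP (BC k K K F) ∧ Odd (Fintype.card n)) {c : K} {g q : B}
    (hc : star c ≠ c) (ug : IsUnit g) (uq : IsUnit q) : ∃ a s : B, star a = -a ∧ star s = -s ∧
      ∃ ε > 0, ∀ a' s' : B, (∀ i j, ‖algebraMap k F (mat k (a' - a) i j)‖ < ε) →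
        (∀ i j, ‖algebraMap k F (mat k (s' - s) i j)‖ < ε) →
        NP (algebraMap k F δ) (BC.inc k K B F (EL c g q a' s')) := by
  have inj := BC.inc_injective k K K F
  obtain ⟨a, s, ha, hs, hN⟩ := near_abs (F := F) (θ := BC.inc k K K F θ) (δ := algebraMap k F δ)
    (fun e => δ.ne_zero ((algebraMap k K).injective (by
      rw [h.sq, inj (e.trans (map_zero _).symm), mul_zero, map_zero])))
    (by rw [BC.star_inc, h.sk, map_neg])
    (by rw [← map_mul, ← h.sq, AlgHom.commutes, ← IsScalarTower.algebraMap_apply]) e hE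
    (c := BC.inc k K K F c) (fun e => hc (inj e)) (ug.map (BC.inc k K B F)) (uq.map (BC.inc k K B F))
  let sk : BC k K B F → BC k K B F := fun x => algebraMap k _ 2⁻¹ * (x - star x)
  have s1 : ∀ x, star x = -x → sk x = x := fun x hx => by
    simp only [sk, hx, sub_neg_eq_add, ← two_smul k x, ← Algebra.smul_def, smul_smul]; simp
  have s2 : ContinuousAt (Prod.map sk sk) (a, s) := by fun_prop
  have dr := Lan.denseRange_inc k K B F hd
  obtain ⟨⟨b, t⟩, hb⟩ := (dr.prodMap dr).mem_nhds (s2.eventually (by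
    rw [Prod.map_apply, s1 a ha, s1 s hs]; exact hN.eventually_nhds))
  have s3 : ∀ x : B, star ((2⁻¹ : k) • (x - star x)) = -((2⁻¹ : k) • (x - star x)) := fun x => by
    rw [star_ksmul k K, star_sub, star_star, ← smul_neg, neg_sub]
  have s4 : ∀ x : B, sk (BC.inc k K B F x) = BC.inc k K B F ((2⁻¹ : k) • (x - star x)) := fun x => by
    simp only [sk, map_smul, map_sub, BC.star_inc, ← Algebra.smul_def]
  simp only [Set.mem_ofPred_eq, Prod.map_apply, s4] at hb
  refine ⟨_, _, s3 b, s3 t, ?_⟩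
  generalize (2⁻¹ : k) • (b - star b) = b at hb
  generalize (2⁻¹ : k) • (t - star t) = t at hb
  have s5 : ContinuousAt (fun p : BC k K B F × BC k K B F =>
      (p.1 + BC.inc k K B F b, p.2 + BC.inc k K B F t)) (0, 0) := by fun_prop
  have s6 := s5.eventually (by simpa using hb)
  rw [nhds_prod_eq] at s6
  obtain ⟨V, hV, hV'⟩ := mem_prod_same_iff.1 s6
  obtain ⟨ε, h0, hε⟩ := nhds_mat hV
  refine ⟨ε, h0, fun a' s' h1 h2 => ?_⟩
  have := hV' (Set.mk_mem_prod (hε _ h1) (hε _ h2))
  simp only [Set.mem_ofPred_eq, map_sub, sub_add_cancel] at this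
  have inj' := BC.inc_injective k K B F
  exact map_EL (BC.inc k K K F).toRingHom (BC.inc k K B F).toRingHom (fun x => rfl)
    (BC.inc_smul k K B F) (fun x => by
      by_cases hx : IsUnit x
      · exact Opn.map_inverse _ hx
      · rw [inverse_non_unit _ hx, inverse_non_unit _ fun h => hx (Opn.isUnit_of_map k _ inj' h),
          map_zero]) c g q a' s' ▸ this

open scoped Valued in
theorem nearF (ho : Odd (deg K B)) : NearF k K B := fun θ δ h c g q hD v hv => by
  have h0 : θ ≠ 0 := fun e => δ.ne_zero ((algebraMap k K).injective (by simp [h.sq, e]))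
  have : IsEmpty (K →ₐ[k] Kv v) := not_nonempty_iff.1 fun hn =>
    hv ((Hn.Loc.mem_Sq_iff v δ).2 ((BC.nonempty_emb_iff k K _ h0 h.sk h.sq).1 hn))
  have := Loc.proper_adic k v
  obtain ⟨e⟩ := exists_mat (Kv v) (E := BC k K K (Kv v)) (A := BC k K B (Kv v))
  have : Nonempty (Fin (deg (BC k K K (Kv v)) (BC k K B (Kv v)))) := ⟨⟨0, deg_pos _ _⟩⟩
  obtain ⟨a, s, ha, hs, ε, h1, h2⟩ := near_glob (v.denseRange_algebraMap k) h e
    (.inr ⟨locP_adic v _, by rwa [Fintype.card_fin, BC.deg_E]⟩) hD.hc hD.ug hD.uq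
  obtain ⟨m, hm⟩ := Lan.exists_depth v h1
  refine ⟨a, s, ha, hs, m, fun a' s' _ _ h3 h4 L _ _ _ x hx p hp => ?_⟩
  subst hp
  obtain ⟨-, y, z, h5⟩ := (h2 a' s' (fun i j => hm _ (h3 i j)) fun i j => hm _ (h4 i j)).root
    (Hsm.cmap k p).toRingHom (x := algebraMap L _ (x : L)) (by
      rw [Hsm.cmap_comp, ← aeval_def, aeval_algebraMap_apply, hx, map_zero])
  refine (Hn.Loc.mem_LN_iff p _ x).2 ⟨y, z, h5.trans ?_⟩
  rw [← IsScalarTower.algebraMap_apply]
  exact congrArg (fun t => y ^ 2 - t * z ^ 2) ((Hsm.cmap k p).commutes δ)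

theorem nearR : NearR k K B := fun θ δ h c g q hD φ hφ => by
  have h0 : θ ≠ 0 := fun e => δ.ne_zero ((algebraMap k K).injective (by simp [h.sq, e]))
  have : IsEmpty (K →ₐ[k] Emb.Rp φ) := not_nonempty_iff.1 fun hn =>
    hφ.not_ge (IsSquare.nonneg (R := ℝ) ((BC.nonempty_emb_iff k K _ h0 h.sk h.sq).1 hn))
  have hE := locR_real' (F := Emb.Rp φ) (RingEquiv.refl ℝ) (BC k K K (Emb.Rp φ))
  have := hE.1
  obtain ⟨n, _, ⟨e⟩⟩ := IsSimpleRing.exists_algEquiv_matrix_of_isAlgClosed (BC k K K (Emb.Rp φ))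
    (BC k K B (Emb.Rp φ))
  obtain ⟨a, s, ha, hs, ε, h1, h2⟩ := near_glob (F := Emb.Rp φ) (Lan.dense_real φ) h e (.inl hE)
    hD.hc hD.ug hD.uq
  refine ⟨a, s, ha, hs, ε, h1, fun a' s' _ _ h3 h4 x hx => ?_⟩
  obtain ⟨h5, y, z, h6⟩ := (h2 a' s' h3 h4).root (M := ℝ) (RingHom.id ℝ) hx
  have h6 : x = y ^ 2 - φ δ * z ^ 2 := h6
  exact lt_of_le_of_ne (by nlinarith [sq_nonneg y, sq_nonneg z]) h5.symm

end Glob

end L66

theorem nearFStmt : NearFStmt.{u, v, w} := fun _ => L66.nearF

theorem nearRStmt : NearRStmt.{u, v, w} := fun _ => L66.nearR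

end Crest.Agent.T24.Stab
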