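import Crest.Agent.T24.StabDef_43
import Crest.Agent.T24.Pow_53

/-!
# Row 24, stability: deep parameters at the places of `T`.
-/

set_option autoImplicit false
set_option linter.unusedSectionVars false

noncomputable section

namespace Crest.Agent.T24.Stab

open Ring Module WithZero Csa Asa Filter NumberField

universe u v w

namespace Nt37

section Abs
variable {B : Type*} [Ring B] {α : Type*} (ν : Valuation B ℤᵐ⁰) (l : Filter α)

/-- convergence to `0` -/
def Z0 (f : α → B) : Prop := ∀ γ : ℤᵐ⁰, γ ≠ 0 → ∀ᶠ p in l, ν (f p) < γ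

/-- convergence -/
def Tn (f : α → B) (y : B) : Prop := Z0 ν l fun p => f p - y

variable {ν l} {f g : α → B} {a b : B}

theorem Z0.add (hf : Z0 ν l f) (hg : Z0 ν l g) : Z0 ν l fun p => f p + g p := fun γ hγ => by
  filter_upwards [hf γ hγ, hg γ hγ] with p h1 h2 using ν.map_add_lt h1 h2

theorem Z0.mul_right (hf : Z0 ν l f) {C : ℤᵐ⁰} (hg : ∀ᶠ p in l, ν (g p) ≤ C) :
    Z0 ν l fun p => f p * g p := fun γ hγ => by
  have hC : (0 : ℤᵐ⁰) < max C 1 := lt_max_of_lt_right zero_lt_one
  filter_upwards [hf (γ / max C 1) (div_ne_zero hγ hC.ne'), hg] with p h1 h2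
  rw [map_mul]
  rw [lt_div_iff₀ hC] at h1
  exact lt_of_le_of_lt (mul_le_mul_right (h2.trans (le_max_left _ _)) _) h1

theorem Z0.mul_left (hf : Z0 ν l f) {C : ℤᵐ⁰} (hg : ∀ᶠ p in l, ν (g p) ≤ C) :
    Z0 ν l fun p => g p * f p := fun γ hγ => by
  filter_upwards [hf.mul_right hg γ hγ] with p h
  rwa [map_mul, mul_comm, ← map_mul] at h

theorem Z0.congr (hf : Z0 ν l f) (h : ∀ᶠ p in l, f p = g p) : Z0 ν l g := fun γ hγ => by
  filter_upwards [hf γ hγ, h] with p h1 h2 using h2 ▸ h1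

theorem Tn.const (a : B) : Tn ν l (fun _ => a) a := fun γ hγ =>
  Eventually.of_forall fun _ => by simpa using zero_lt_iff.2 hγ

theorem Tn.bdd (hf : Tn ν l f a) : ∀ᶠ p in l, ν (f p) ≤ max (ν a) 1 := by
  filter_upwards [hf 1 one_ne_zero] with p h
  have := ν.map_add a (f p - a)
  rw [add_sub_cancel] at this
  exact this.trans (max_le_max le_rfl h.le)

theorem Tn.add (hf : Tn ν l f a) (hg : Tn ν l g b) : Tn ν l (fun p => f p + g p) (a + b) :=
  (Z0.add hf hg).congr (Eventually.of_forall fun p => by beta_reduce; abel)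

theorem Tn.mul (hf : Tn ν l f a) (hg : Tn ν l g b) : Tn ν l (fun p => f p * g p) (a * b) :=
  ((Z0.mul_right hf hg.bdd).add (Z0.mul_left hg (g := fun _ => a)
    (Eventually.of_forall fun _ => le_rfl))).congr (Eventually.of_forall fun p => by noncomm_ring)

theorem Tn.neg (hf : Tn ν l f a) : Tn ν l (fun p => -f p) (-a) := fun γ hγ => by
  filter_upwards [hf γ hγ] with p h
  rwa [show -f p - -a = -(f p - a) by abel, ν.map_neg]

theorem val_inverse {x : B} (hx : IsUnit x) : ν (inverse x) = (ν x)⁻¹ :=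
  eq_inv_of_mul_eq_one_left (by rw [← map_mul, inverse_mul_cancel x hx, map_one])

theorem val_ne {x : B} (hx : IsUnit x) : ν x ≠ 0 := fun h => by
  have := congrArg ν (mul_inverse_cancel x hx)
  rw [map_mul, h, zero_mul, map_one] at this
  exact zero_ne_one this

theorem Tn.inv (hB : ∀ x : B, x ≠ 0 → IsUnit x) (hf : Tn ν l f a) (ha : a ≠ 0) :
    Tn ν l (fun p => inverse (f p)) (inverse a) := by
  have ua := hB a ha
  have h1 : ∀ᶠ p in l, ν (f p) = ν a := by
    filter_upwards [hf (ν a) (val_ne ua)] with p h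
    exact Valuation.map_eq_of_sub_lt ν h
  have h2 : ∀ᶠ p in l, IsUnit (f p) := by
    filter_upwards [h1] with p h
    refine hB _ fun h0 => val_ne (ν := ν) ua ?_
    rw [← h, h0, map_zero]
  refine (((Z0.mul_left hf (g := fun p => -inverse (f p)) (C := (ν a)⁻¹) ?_)).mul_right
    (g := fun _ => inverse a) (Eventually.of_forall fun _ => le_rfl)).congr ?_
  · filter_upwards [h1, h2] with p h h'
    rw [ν.map_neg, val_inverse h', h]
  · filter_upwards [h2] with p h
    have e1 := inverse_mul_cancel _ h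
    have e2 := mul_inverse_cancel _ ua
    linear_combination (norm := noncomm_ring) -e1 * inverse a + inverse (f p) * e2

theorem Tn.lt (hf : Tn ν l f a) {γ : ℤᵐ⁰} (h : ν a < γ) : ∀ᶠ p in l, ν (f p) < γ := by
  filter_upwards [hf γ (ne_of_gt (lt_of_le_of_lt zero_le h))] with p hp
  have := ν.map_add_lt h hp
  rwa [add_sub_cancel] at this

variable [StarRing B]

variable (ν l) in
/-- convergence together with the adjoints -/
def T2 (f : α → B) (y : B) : Prop := Tn ν l f y ∧ Tn ν l (fun p => star (f p)) (star y)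

theorem T2.const (a : B) : T2 ν l (fun _ => a) a := ⟨Tn.const _, Tn.const _⟩

theorem T2.add (hf : T2 ν l f a) (hg : T2 ν l g b) : T2 ν l (fun p => f p + g p) (a + b) :=
  ⟨hf.1.add hg.1, by simpa only [star_add] using hf.2.add hg.2⟩

theorem T2.neg (hf : T2 ν l f a) : T2 ν l (fun p => -f p) (-a) :=
  ⟨hf.1.neg, by simpa only [star_neg] using hf.2.neg⟩

theorem T2.sub (hf : T2 ν l f a) (hg : T2 ν l g b) : T2 ν l (fun p => f p - g p) (a - b) := by
  simpa only [sub_eq_add_neg] using hf.add hg.neg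

theorem T2.mul (hf : T2 ν l f a) (hg : T2 ν l g b) : T2 ν l (fun p => f p * g p) (a * b) :=
  ⟨hf.1.mul hg.1, by simpa only [star_mul] using hg.2.mul hf.2⟩

theorem T2.star (hf : T2 ν l f a) : T2 ν l (fun p => star (f p)) (star a) :=
  ⟨hf.2, by simpa only [star_star] using hf.1⟩

theorem T2.inv (hB : ∀ x : B, x ≠ 0 → IsUnit x) (hf : T2 ν l f a) (ha : a ≠ 0) :
    T2 ν l (fun p => inverse (f p)) (inverse a) :=
  ⟨hf.1.inv hB ha, by simpa only [Ring.inverse_star] using hf.2.inv hB (star_ne_zero.2 ha)⟩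

theorem T2.skew (hf : Tn ν l f a) (ha : Star.star a = -a) (h : ∀ᶠ p in l, Star.star (f p) = -f p) :
    T2 ν l f a :=
  ⟨hf, Z0.congr hf.neg (by filter_upwards [h] with p hp; rw [hp, ha])⟩

omit [StarRing B] in
/-- a large summand -/
theorem large (hB : ∀ x : B, x ≠ 0 → IsUnit x) {s : α → B} (hs : ∀ γ, ∀ᶠ j in l, γ < ν (s j))
    (y p p' : B) {γ : ℤᵐ⁰} (hγ : γ ≠ 0) :
    ∀ᶠ j in l, y + s j ≠ 0 ∧ ν (p * inverse (y + s j) * p') < γ := by
  filter_upwards [hs (ν y), hs (ν p * ν p' / γ)] with j h1 h2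
  have h3 : ν (y + s j) = ν (s j) := Valuation.map_add_eq_of_lt_right ν h1
  have h4 : 0 < ν (s j) := lt_of_le_of_lt zero_le h1
  have h5 : y + s j ≠ 0 := fun h => by rw [h, map_zero] at h3; exact h4.ne h3
  refine ⟨h5, ?_⟩
  rw [map_mul, map_mul, val_inverse (hB _ h5), h3, mul_right_comm, ← div_eq_mul_inv,
    div_lt_iff₀ h4, mul_comm γ, ← div_lt_iff₀ (zero_lt_iff.2 hγ)]
  exact h2

end Abs

variable {k : Type u} {K : Type v} {B : Type w} [Field k] [NumberField k] [Field K] [NumberField K]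
  [Algebra k K] [StarRing K] [Quad k K] [Ring B] [StarRing B] [Algebra K B] [StarModule K B]
  [Algebra.IsCentral K B] [IsSimpleRing B] [FiniteDimensional K B] [Algebra k B]
  [IsScalarTower k K B] [Module.Finite k B]

theorem finite_fib (v : Pl k) : {w : Pl K | below k w = v}.Finite := by
  obtain ⟨c, hc, h⟩ := exists_deep {v} 1
  refine (finite_ne_one (x := algebraMap k K c) (by simpa using hc)).subset fun w hw => ?_
  refine ((below_lt_one w (c : k)).2 ?_).ne
  rw [show below k w = v from hw]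
  exact (h v (by simp)).trans_lt (exp_neg_lt_one one_pos)

theorem cl_small {w : Pl K} (h : Ultra B w) {γ : ℤᵐ⁰} (hγ : γ ≠ 0) :
    ∀ᶠ m : ℕ in atTop, ∀ x : B, Cl (below k w) m x → val w x < γ := by
  let e := Module.finBasis k B
  let r := e.repr 1
  have hx : ∀ x : B, x = ∑ j, ∑ i, algebraMap k K (mat k x i j) • (r j • e i) := by
    intro x
    conv_lhs => rw [← mul_one x, ← e.sum_repr 1, Finset.mul_sum]
    refine Finset.sum_congr rfl fun j _ => ?_
    rw [mul_smul_comm, ← e.sum_repr (x * e j), Finset.smul_sum]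
    refine Finset.sum_congr rfl fun i _ => ?_
    rw [algebraMap_smul, smul_comm, mat, Algebra.leftMulMatrix_eq_repr_mul]
  have h1 : ∀ y : B, ∀ᶠ m : ℕ in atTop, exp (-(m : ℤ)) * val w y < γ := by
    intro y
    have hC : (0 : ℤᵐ⁰) < max (val w y) 1 := lt_max_of_lt_right zero_lt_one
    obtain ⟨m, hm⟩ := exists_exp_le (div_ne_zero hγ hC.ne')
    filter_upwards [eventually_gt_atTop m] with n hn
    have h2 : exp (-(n : ℤ)) < γ / max (val w y) 1 :=
      lt_of_lt_of_le (exp_lt_exp.2 (by omega)) hm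
    rw [lt_div_iff₀ hC] at h2
    exact lt_of_le_of_lt (mul_le_mul_right (le_max_left _ _) _) h2
  have h2 : ∀ᶠ m : ℕ in atTop, ∀ j i, exp (-(m : ℤ)) * val w (r j • e i) < γ :=
    eventually_all.2 fun j => eventually_all.2 fun i => h1 _
  filter_upwards [h2] with m hm x hc
  rw [hx x]
  refine (P53.vw h).map_sum_lt hγ fun j _ => (P53.vw h).map_sum_lt hγ fun i _ => ?_
  change val w _ < γ
  rw [P53.val_smul]
  refine lt_of_le_of_lt (mul_le_mul_left ?_ _) (hm j i)
  have h3 := below_le_exp w _ m (hc i j)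
  exact (pow_le_of_le_one zero_le (h3.trans (exp_neg_le_one m)) (deg_pos K B).ne').trans h3

theorem cl_anti {v : Pl k} {m n : ℕ} (h : m ≤ n) {x : B} (hx : Cl v n x) : Cl v m x :=
  fun i j => (hx i j).trans (exp_neg_anti h)

end Nt37

open Nt37 in
theorem nearT (k : Type u) (K : Type v) (B : Type w) [Field k] [NumberField k] [Field K]
    [NumberField K] [Algebra k K] [StarRing K] [Quad k K] [Ring B] [StarRing B] [Algebra K B]
    [StarModule K B] [Algebra.IsCentral K B] [IsSimpleRing B] [FiniteDimensional K B] [Algebra k B]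
    [IsScalarTower k K B] [Module.Finite k B] : NearT k K B := by
  intro n c g q _ v
  by_cases hT : ∃ w ∈ TT K B, below k w = v
  swap
  · exact ⟨0, 0, by simp, by simp, 0, fun _ _ _ _ _ _ w hw hv => absurd ⟨w, hw, hv⟩ hT⟩
  obtain ⟨w₀, hw₀, -⟩ := hT
  have hB : ∀ x : B, x ≠ 0 → IsUnit x := fun x hx => P53.isUnit_of_ultra hw₀.2 hx
  obtain ⟨θ, hθ0, hθ⟩ := exists_skew (Quad.ne (k := k) (K := K))
  have hW : {w : Pl K | w ∈ TT K B ∧ below k w = v}.Finite :=
    (finite_fib v).subset fun w hw => hw.2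
  have h2 : (2 : B) ≠ 0 := by
    have : algebraMap K B 2 ≠ 0 := (map_ne_zero _).2 two_ne_zero
    rwa [map_ofNat] at this
  have hsk : ∀ a : B, star a = -a → 1 - a ≠ 0 := by
    intro a ha h
    rw [sub_eq_zero] at h
    rw [← h, star_one] at ha
    exact h2 (by rw [← one_add_one_eq_two]; exact add_eq_zero_iff_eq_neg.2 ha)
  obtain ⟨a, ha, haq⟩ : ∃ a : B, star a = -a ∧ cv a * q - 1 ≠ 0 := by
    by_cases hq : q = 1
    · have hs : star (algebraMap K B θ) = -algebraMap K B θ := by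
        rw [star_algebraMap, hθ, map_neg]
      refine ⟨algebraMap K B θ, hs, fun h => ?_⟩
      have e := mul_inverse_cancel _ (hB _ (hsk _ hs))
      rw [hq, mul_one, cv, sub_eq_zero] at h
      have h3 : algebraMap K B (2 * θ) = 0 := by
        rw [map_mul, map_ofNat]
        linear_combination (norm := noncomm_ring)
          (1 - algebraMap K B θ) * h - e * (1 + algebraMap K B θ)
      exact hθ0 (by simpa using (map_eq_zero _).1 h3)
    · exact ⟨0, by simp, by simpa [cv, sub_eq_zero] using hq⟩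
  obtain ⟨π, hπ0, hπ⟩ := exists_deep {v} 1
  have hπ0' : (π : k) ≠ 0 := by simpa using hπ0
  let s : ℕ → B := fun j => algebraMap K B (algebraMap k K ((π : k)⁻¹ ^ j) * θ)
  have hss : ∀ j, star (s j) = -s j := fun j => by
    simp only [s]
    rw [star_algebraMap, star_mul', Quad.star_k, hθ, mul_neg, map_neg]
  have hs : ∀ w : Pl K, below k w = v → ∀ γ, ∀ᶠ j in atTop, γ < val w (s j) := by
    intro w hw γ
    have h1 : w.valuation K (algebraMap k K π) < 1 := (below_lt_one w (π : k)).2 (by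
      rw [hw]; exact (hπ v (by simp)).trans_lt (exp_neg_lt_one one_pos))
    have h0 : 0 < w.valuation K (algebraMap k K π) :=
      zero_lt_iff.2 (val_ne_zero w (by simpa using hπ0))
    have h3 : 1 < ((w.valuation K (algebraMap k K π))⁻¹) ^ deg K B :=
      one_lt_pow₀ ((one_lt_inv₀ h0).2 h1) (deg_pos K B).ne'
    have h4 : 0 < w.valuation K θ ^ deg K B := pow_pos (zero_lt_iff.2 (val_ne_zero w hθ0)) _
    obtain ⟨m, hm⟩ := MulArchimedean.arch (γ / w.valuation K θ ^ deg K B) h3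
    filter_upwards [eventually_gt_atTop m] with j hj
    have h5 := hm.trans_lt (pow_lt_pow_right₀ h3 hj)
    rw [div_lt_iff₀ h4] at h5
    refine h5.trans_eq ?_
    simp only [s]
    rw [val, Nrd_algebraMap, map_pow, map_mul, map_pow, map_pow, map_inv₀, map_inv₀, mul_pow,
      ← pow_mul, ← pow_mul, mul_comm j]
  set z := zz c g q a with hz
  have h5 : ∀ᶠ j in atTop, ∀ w ∈ {w : Pl K | w ∈ TT K B ∧ below k w = v},
      ((2⁻¹ : K) • (star z * z) + s j ≠ 0 ∧
        val w (z * inverse ((2⁻¹ : K) • (star z * z) + s j) * star z) < exp (-(n : ℤ))) ∧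
      ((2⁻¹ : K) • (star z * z) + g + star z * 1 + s j ≠ 0 ∧
        val w ((z + 1) * inverse ((2⁻¹ : K) • (star z * z) + g + star z * 1 + s j) *
          star (z + 1)) < exp (-(n : ℤ))) := by
    rw [eventually_all_finite hW]
    intro w hw
    exact (large (ν := P53.vw hw.1.2) hB (hs w hw.2) _ _ _ exp_ne_zero).and
      (large (ν := P53.vw hw.1.2) hB (hs w hw.2) _ _ _ exp_ne_zero)
  obtain ⟨j, hj⟩ := h5.exists
  refine ⟨a, s j, ha, hss j, ?_⟩
  let S : ℕ → Set (B × B) := fun m =>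
    {p | star p.1 = -p.1 ∧ star p.2 = -p.2 ∧ Cl v m (p.1 - a) ∧ Cl v m (p.2 - s j)}
  have hS : Antitone S := fun m m' h p hp => ⟨hp.1, hp.2.1, cl_anti h hp.2.2.1, cl_anti h hp.2.2.2⟩
  have hb := Filter.hasBasis_iInf_principal hS.directed_ge
  have key : ∀ᶠ p in ⨅ m, 𝓟 (S m), ∀ w ∈ {w : Pl K | w ∈ TT K B ∧ below k w = v},
      val w (rho (x1 c g q p.1 p.2) (zz c g q p.1) - 1) < exp (-(n : ℤ)) ∧
      val w (rho (xx (x1 c g q p.1 p.2) g (zz c g q p.1) 1) (zz c g q p.1 + 1) - 1) <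
        exp (-(n : ℤ)) := by
    rw [eventually_all_finite hW]
    intro w hw
    obtain ⟨⟨n1, v1⟩, n2, v2⟩ := hj w hw
    set l := ⨅ m, 𝓟 (S m)
    have t1 : T2 (P53.vw hw.1.2) l (fun p => p.1) a := by
      refine T2.skew (fun γ hγ => ?_) ha (hb.eventually_iff.2 ⟨0, trivial, fun p hp => hp.1⟩)
      obtain ⟨m, hm⟩ := (cl_small (k := k) hw.1.2 hγ).exists
      exact hb.eventually_iff.2 ⟨m, trivial, fun p hp => hm _ (hw.2 ▸ hp.2.2.1)⟩
    have t2 : T2 (P53.vw hw.1.2) l (fun p => p.2) (s j) := by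
      refine T2.skew (fun γ hγ => ?_) (hss j) (hb.eventually_iff.2 ⟨0, trivial, fun p hp => hp.2.1⟩)
      obtain ⟨m, hm⟩ := (cl_small (k := k) hw.1.2 hγ).exists
      exact hb.eventually_iff.2 ⟨m, trivial, fun p hp => hm _ (hw.2 ▸ hp.2.2.2)⟩
    have t3 : T2 (P53.vw hw.1.2) l (fun p => cv p.1) (cv a) :=
      (((T2.const 1).sub t1).inv hB (hsk a ha)).mul ((T2.const 1).add t1)
    have t4 : T2 (P53.vw hw.1.2) l (fun p => zz c g q p.1) z := by
      simp only [hz, zz, Algebra.smul_def]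
      exact ((T2.const _).mul ((T2.const g).mul
        (((t3.mul (T2.const q)).sub (T2.const 1)).inv hB haq))).star
    have t5 : T2 (P53.vw hw.1.2) l (fun p => x1 c g q p.1 p.2)
        ((2⁻¹ : K) • (star z * z) + s j) := by
      simp only [x1, Algebra.smul_def]
      exact ((T2.const _).mul (t4.star.mul t4)).add t2
    have t6 : T2 (P53.vw hw.1.2) l (fun p => xx (x1 c g q p.1 p.2) g (zz c g q p.1) 1)
        ((2⁻¹ : K) • (star z * z) + g + star z * 1 + s j) := by
      have := (t5.add (T2.const g)).add (t4.star.mul (T2.const 1))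
      rwa [show (2⁻¹ : K) • (star z * z) + s j + g + star z * 1 =
        (2⁻¹ : K) • (star z * z) + g + star z * 1 + s j by abel] at this
    have t7 := ((t4.mul (t5.inv hB n1)).mul t4.star).1.lt v1
    have t8 := (((t4.add (T2.const 1)).mul (t6.inv hB n2)).mul (t4.add (T2.const 1)).star).1.lt v2
    filter_upwards [t7, t8] with p h1 h2
    simp only [rho, sub_sub_cancel_left, val_neg]
    exact ⟨h1, h2⟩
  obtain ⟨m, -, hm⟩ := hb.eventually_iff.1 key
  exact ⟨m, fun a' s' h1 h2 h3 h4 w hw hv => hm (x := (a', s')) ⟨h1, h2, h3, h4⟩ w ⟨hw, hv⟩⟩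

/-- an open set of deep parameters at a place of `T` -/
theorem nearTStmt : NearTStmt.{u, v, w} := fun D => nearT D.k D.K D.B

end Crest.Agent.T24.Stab
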