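import Crest.Agent.T24.OpnB_6
import Crest.Agent.T24.Def_26
import Crest.Agent.T24.CsaP_50
import Crest.Agent.T24.Line_83

/-!
# Row 24, stability, part (O), file A (helper6): the rational parametrisation, generic units, line polynomials
-/

set_option autoImplicit false
set_option linter.unusedSectionVars false

noncomputable section

namespace Crest.Agent.T24.Stab.O6

open Module Polynomial Csa Opn Filter Topology

local notation "inv" => Ring.inverse

section Ring

variable {A : Type*} [Ring A] [StarRing A]

/-- Cayley transform -/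
def vf (a : A) : A := inv (1 - a) * (1 + a)
/-- the solution of `star z * (v q - 1) = (1 - c) g` -/
def zf (c g q a : A) : A := star ((1 - c) * g * inv (vf a * q - 1))
/-- `x` -/
def xf (z s : A) : A := star z * z * inv 2 - s
/-- `x₂` -/
def x2f (g z s : A) : A := star (xf z s) + g + star z
/-- `ze` -/
def zef (g z s : A) : A := z + inv g * xf z s
/-- `ze'` -/
def zef' (c g e z s : A) : A := z + inv c * e * inv g * xf z s
/-- `ze' ze⁻¹` -/
def Zf (c g q a s : A) : A :=
  zef' c g (vf a * q) (zf c g q a) s * inv (zef g (zf c g q a) s)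
/-- `l` -/
def lf (c g q a s : A) : A := star (Zf c g q a s) * Zf c g q a s
/-- the root of `ze` -/
def Af (g z : A) : A := g * z + star z * z * inv 2
/-- the root of `ze'` -/
def Af' (c g e z : A) : A := c * g * inv e * z + star z * z * inv 2

theorem star_inv (x : A) : star (inv x) = inv (star x) := (Ring.inverse_star x).symm

theorem star_lf (c g q a s : A) : star (lf c g q a s) = lf c g q a s := by simp [lf]

theorem zef_eq {g : A} (hg : IsUnit g) (z s : A) : zef g z s = inv g * (Af g z - s) := by
  rw [zef, Af, xf, add_sub_assoc, mul_add, Ring.inverse_mul_cancel_left _ _ hg]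

theorem zef'_eq {c g e : A} (hc : IsUnit c) (hcc : ∀ x, Commute c x) (hg : IsUnit g) (he : IsUnit e)
    (z s : A) : zef' c g e z s = inv c * e * inv g * (Af' c g e z - s) := by
  rw [zef', Af', xf, add_sub_assoc, mul_add]
  congr 1
  rw [(hcc g).eq, mul_assoc, mul_assoc, mul_assoc, mul_assoc, Ring.inverse_mul_cancel_left _ _ hg,
    ← mul_assoc e, ← (hcc e).eq, mul_assoc, Ring.mul_inverse_cancel_left _ _ he,
    Ring.inverse_mul_cancel_left _ _ hc]

section
variable {a : A} (ha : star a = -a) (h1 : IsUnit (1 - a))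
include ha h1

theorem unit_add : IsUnit (1 + a) := by simpa [ha] using h1.star

theorem star_vf : star (vf a) = (1 - a) * inv (1 + a) := by
  simp [vf, star_inv, ha, sub_eq_add_neg]

theorem vf_unitary : star (vf a) * vf a = 1 := by
  have hc : Commute (1 + a) (1 - a) :=
    ((Commute.one_right _).sub_right ((Commute.one_left a).add_left (Commute.refl a)))
  rw [star_vf ha h1, vf, ← (commute_inverse hc).eq, mul_assoc,
    Ring.inverse_mul_cancel_left _ _ (unit_add ha h1), Ring.mul_inverse_cancel _ h1]

theorem vf_unit : IsUnit (vf a) := h1.ringInverse.mul (unit_add ha h1)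

theorem vf_unitary' : vf a * star (vf a) = 1 := by
  rw [← inverse_eq (vf_unit ha h1) (vf_unitary ha h1), Ring.mul_inverse_cancel _ (vf_unit ha h1)]

/-- clearing denominators -/
theorem unit_of_Q {α β γ : A}
    (h : IsUnit ((1 + a) * α * (1 + a) + (1 - a) * β * (1 - a) + (1 - a) * γ * (1 + a))) :
    IsUnit (vf a * α + β * star (vf a) + γ) := by
  have h2 := unit_add ha h1
  have : vf a * α + β * star (vf a) + γ = inv (1 - a) *
      ((1 + a) * α * (1 + a) + (1 - a) * β * (1 - a) + (1 - a) * γ * (1 + a)) * inv (1 + a) := by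
    rw [star_vf ha h1, vf]
    generalize 1 + a = P at h2 ⊢
    generalize 1 - a = M at h1 ⊢
    simp only [mul_add, add_mul, mul_assoc, Ring.inverse_mul_cancel_left _ _ h1,
      Ring.mul_inverse_cancel _ h2, mul_one]
  rw [this]
  exact (h1.ringInverse.mul h).mul h2.ringInverse

end

theorem vf_eq {a v : A} (h1 : IsUnit (1 - a)) (h : (1 - a) * v = 1 + a) : vf a = v := by
  rw [vf, ← h, Ring.inverse_mul_cancel_left _ _ h1]

theorem zf_eq {c g q a z : A} (h1 : IsUnit (vf a * q - 1))
    (h : star z * (vf a * q - 1) = (1 - c) * g) : zf c g q a = z := by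
  rw [zf, ← h, Ring.mul_inverse_cancel_right _ _ h1, star_star]

theorem zf_spec {c g q a : A} (h1 : IsUnit (vf a * q - 1)) :
    star (zf c g q a) * (vf a * q - 1) = (1 - c) * g := by
  rw [zf, star_star, Ring.inverse_mul_cancel_right _ _ h1]

section Map
variable {A' : Type*} [Ring A'] [StarRing A'] (φ : A →+* A') (hs : ∀ x, φ (star x) = star (φ x))
  (hi : ∀ x, φ (inv x) = inv (φ x))
include hs hi

theorem map_vf (a : A) : φ (vf a) = vf (φ a) := by simp [vf, hi]
theorem map_zf (c g q a : A) : φ (zf c g q a) = zf (φ c) (φ g) (φ q) (φ a) := by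
  simp [zf, hi, hs, map_vf φ hs hi]
theorem map_xf (z s : A) : φ (xf z s) = xf (φ z) (φ s) := by simp [xf, hi, hs, map_ofNat]
theorem map_lf (c g q a s : A) : φ (lf c g q a s) = lf (φ c) (φ g) (φ q) (φ a) (φ s) := by
  simp [lf, Zf, zef, zef', hi, hs, map_vf φ hs hi, map_zf φ hs hi, map_xf φ hs hi]

end Map

end Ring

/-! ## Polynomial maps -/

section PM

variable {K B : Type*} [Field K] [Ring B] [Algebra K B] [FiniteDimensional K B]

/-- non-commutative polynomial maps -/
inductive PM : (B → B) → Prop
  | const (b : B) : PM fun _ => b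
  | id : PM fun x => x
  | add {f g : B → B} : PM f → PM g → PM fun x => f x + g x
  | mul {f g : B → B} : PM f → PM g → PM fun x => f x * g x

theorem PM.sub {f g : B → B} (hf : PM f) (hg : PM g) : PM fun x => f x - g x := by
  simpa [sub_eq_add_neg] using hf.add ((PM.const (-1)).mul hg)

theorem PM.mat {f : B → B} (hf : PM f) {ι : Type*} [Fintype ι] [DecidableEq ι] (e : Basis ι K B)
    (a b : B) : ∃ M : Matrix ι ι K[X], ∀ t : K,
      Algebra.leftMulMatrix e (f (a + t • b)) = (evalRingHom t).mapMatrix M := by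
  induction hf with
  | const c => exact ⟨(Algebra.leftMulMatrix e c).map C, fun t => by ext; simp⟩
  | id => exact ⟨(Algebra.leftMulMatrix e a).map C + (X : K[X]) • (Algebra.leftMulMatrix e b).map C,
      fun t => by ext; simp [mul_comm t]⟩
  | add _ _ h1 h2 =>
    obtain ⟨M, hM⟩ := h1
    obtain ⟨N, hN⟩ := h2
    exact ⟨M + N, fun t => by rw [map_add, map_add, hM, hN]⟩
  | mul _ _ h1 h2 =>
    obtain ⟨M, hM⟩ := h1
    obtain ⟨N, hN⟩ := h2
    exact ⟨M * N, fun t => by rw [map_mul, map_mul, hM, hN]⟩

theorem PM.finite {f : B → B} (hf : PM f) {a b : B} {t0 : K} (h : IsUnit (f (a + t0 • b))) :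
    {t : K | ¬IsUnit (f (a + t • b))}.Finite := by
  classical
  set e := finBasis K B
  obtain ⟨M, hM⟩ := hf.mat e a b
  have hp : ∀ t : K, M.det.eval t = LinearMap.det (LinearMap.mulLeft K (f (a + t • b))) := fun t => by
    rw [← LinearMap.det_toMatrix e, ← coe_evalRingHom, RingHom.map_det, ← hM]
    rfl
  have h0 : M.det ≠ 0 := fun h0 => (isUnit_iff_det K).1 h (by rw [← hp, h0, eval_zero])
  refine (finite_setOfPred_isRoot h0).subset fun t ht => ?_
  rw [Set.mem_ofPred_eq, isUnit_iff_det K, not_not, ← hp] at ht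
  exact ht

/-- finitely many polynomial maps that are units at `±1` are units at a point `a₀ + t (t₁ θ - a₀)` -/
theorem PM.generic {k : Type*} [Field k] [Infinite k] [Algebra k K] [Algebra k B] [IsScalarTower k K B]
    {J : Type*} [Finite J] {f : J → B → B} (hf : ∀ j, PM (f j))
    (h : ∀ j, IsUnit (f j 1) ∨ IsUnit (f j (-1))) {θ : K} (hθ : θ ≠ 0) (a : B) :
    ∃ t1 : k, {t : k | ¬∀ j, IsUnit (f j (a + t • (t1 • algebraMap K B θ - a)))}.Finite := by
  have key : ∀ (a b : B), (∀ j, ∃ t0 : K, IsUnit (f j (a + t0 • b))) →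
      {t : k | ¬∀ j, IsUnit (f j (a + t • b))}.Finite := fun a b H => by
    choose t0 H using H
    refine (Set.finite_iUnion fun j => ((hf j).finite (H j)).preimage
      (algebraMap k K).injective.injOn).subset fun t ht => ?_
    simpa using ht
  obtain ⟨t1, ht1⟩ := (key 0 (algebraMap K B θ) fun j => (h j).elim
    (fun h => ⟨θ⁻¹, by rwa [zero_add, Algebra.smul_def, ← map_mul, inv_mul_cancel₀ hθ, map_one]⟩)
    (fun h => ⟨-θ⁻¹, by
      rwa [zero_add, neg_smul, Algebra.smul_def, ← map_mul, inv_mul_cancel₀ hθ, map_one]⟩)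
    ).exists_notMem
  refine ⟨t1, key _ _ fun j => ⟨1, ?_⟩⟩
  simpa using not_not.1 ht1 j

theorem pm_Q (α β γ : B) :
    PM fun a => (1 + a) * α * (1 + a) + (1 - a) * β * (1 - a) + (1 - a) * γ * (1 + a) :=
  have h1 : PM fun a : B => 1 + a := (PM.const 1).add PM.id
  have h2 : PM fun a : B => 1 - a := (PM.const 1).sub PM.id
  (((h1.mul (.const α)).mul h1).add ((h2.mul (.const β)).mul h2)).add ((h2.mul (.const γ)).mul h1)

end PM

/-! ## The generic units -/

section Gen

variable {K B : Type*} [Field K] [CharZero K] [StarRing K] [Ring B] [StarRing B] [Algebra K B]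
  [StarModule K B] [FiniteDimensional K B]

/-- the generic conditions on `a` -/
structure Gen (c g q a : B) : Prop where
  h1 : IsUnit (1 - a)
  h2 : IsUnit (vf a * q - 1)
  h3 : IsUnit (zf c g q a + 1)
  h4 : IsUnit (Af g (zf c g q a) + star (Af g (zf c g q a)))
  h5 : IsUnit (Af g (zf c g q a) + star (Af' c g (vf a * q) (zf c g q a)))
  h6 : IsUnit (Af' c g (vf a * q) (zf c g q a) + star (Af' c g (vf a * q) (zf c g q a)))

variable (K) in
include K in
theorem half_add_half (x : B) : x * inv 2 + x * inv 2 = x := by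
  have h2 : IsUnit (2 : B) := by
    simpa only [map_ofNat] using (two_ne_zero (α := K)).isUnit.map (algebraMap K B)
  rw [← add_mul, ← mul_two, Ring.mul_inverse_cancel_right _ _ h2]

theorem star_half (z : B) : star (star z * z * inv 2) = star z * z * inv 2 := by
  rw [star_mul, star_inv, star_ofNat, star_mul, star_star,
    (commute_inverse (Commute.ofNat_right _ 2)).eq]

theorem generic {k : Type*} [Field k] [Infinite k] [Algebra k K] [Algebra k B] [IsScalarTower k K B]
    {c : K} (hc : star c ≠ c) {g q : B} (hg : IsUnit g) (hq : IsUnit q) {θ : K} (hθ : θ ≠ 0)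
    (a0 : B) : ∃ t1 : k, {t : k | star (a0 + t • (t1 • algebraMap K B θ - a0)) =
      -(a0 + t • (t1 • algebraMap K B θ - a0)) ∧
      ¬Gen (algebraMap K B c) g q (a0 + t • (t1 • algebraMap K B θ - a0))}.Finite := by
  have hc1 : 1 - c ≠ 0 := fun h => hc (by rw [← sub_eq_zero.1 h, star_one])
  have hc0 : c ≠ 0 := fun h => hc (by rw [h, star_zero])
  set κ := (1 - c)⁻¹ with hκ
  have hκ0 : κ ≠ 0 := inv_ne_zero hc1
  have h2 : IsUnit (2 : B) := by
    simpa only [map_ofNat] using (two_ne_zero (α := K)).isUnit.map (algebraMap K B)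
  have us : ∀ {r : K} {x : B}, r ≠ 0 → IsUnit x → IsUnit (r • x) := fun hr hx => by
    rw [Algebra.smul_def]; exact (hr.isUnit.map _).mul hx
  set κ' := 1 - κ + star (c * κ)
  have hκ' : κ' ≠ 0 := by
    have h3 : 1 - star c ≠ 0 := by simpa using (star_ne_zero.2 hc1)
    have : κ' = (star c - c) / ((1 - c) * (1 - star c)) := by
      simp only [κ', hκ, star_mul', star_inv₀, star_sub, star_one]
      field_simp
      ring
    rw [this]
    exact div_ne_zero (sub_ne_zero.2 hc) (mul_ne_zero hc1 h3)
  set α : Fin 5 → B := ![q, q, κ • q, 0, (-star (c * κ)) • inv (star q)]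
  set β : Fin 5 → B := ![0, 0, star κ • star q, κ' • 1, (-(c * κ)) • inv q]
  set γ : Fin 5 → B := ![-1, (1 - c) • g - 1, (1 - κ - star κ) • 1, κ • q - star (c * κ) • inv (star q),
    (c * κ + star (c * κ) + 1) • 1]
  obtain ⟨t1, h⟩ := PM.generic (k := k) (K := K) (J := Option (Fin 5))
    (f := fun j a => j.elim (1 - a) fun j =>
      (1 + a) * α j * (1 + a) + (1 - a) * β j * (1 - a) + (1 - a) * γ j * (1 + a))
    (fun j => by
      rcases j with _ | j
      exacts [(PM.const 1).sub PM.id, pm_Q _ _ _])
    (fun j => by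
      have e : (1 : B) + 1 = 2 := one_add_one_eq_two
      rcases j with _ | j
      · right; simpa [e] using h2
      · simp only [Option.elim, sub_self, zero_mul, add_zero, add_neg_cancel, sub_neg_eq_add, mul_zero,
          zero_add, e]
        fin_cases j
        · exact .inl ((h2.mul hq).mul h2)
        · exact .inl ((h2.mul hq).mul h2)
        · exact .inl ((h2.mul (us hκ0 hq)).mul h2)
        · exact .inr ((h2.mul (us hκ' isUnit_one)).mul h2)
        · exact .inl ((h2.mul (us (neg_ne_zero.2 (star_ne_zero.2 (mul_ne_zero hc0 hκ0)))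
            hq.star.ringInverse)).mul h2)) hθ a0
  refine ⟨t1, h.subset fun t ⟨ha, ht⟩ H => ht ?_⟩
  generalize a0 + t • (t1 • algebraMap K B θ - a0) = a at ha H
  have h1 : IsUnit (1 - a) := H none
  have H' := fun j => unit_of_Q ha h1 (H (some j))
  have hv := vf_unitary ha h1
  have hv' := vf_unitary' ha h1
  have hvu := vf_unit ha h1
  have hm : IsUnit (vf a * q - 1) := by simpa [α, β, γ, sub_eq_add_neg] using H' 0
  have hz := zf_spec (c := algebraMap K B c) (g := g) hm
  have eG : (1 - algebraMap K B c) * g = (1 - c) • g := by rw [Algebra.smul_def, map_sub, map_one]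
  rw [eG] at hz
  have hzu : IsUnit (zf (algebraMap K B c) g q a) := by
    rw [zf, eG]; exact ((us hc1 hg).mul hm.ringInverse).star
  set z := zf (algebraMap K B c) g q a
  set v := vf a
  have hg1 : κ • (star z * (v * q - 1)) = g := by rw [hz, smul_smul, inv_mul_cancel₀ hc1, one_smul]
  have hg2 : star κ • ((star q * star v - 1) * z) = star g := by
    simpa using congrArg star hg1
  have ie : inv (v * q) = inv q * star v := by
    rw [Ring.inverse_mul (.inl hvu), inverse_eq hvu hv]
  have q1 := Ring.mul_inverse_cancel _ hq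
  have q2 := Ring.inverse_mul_cancel _ hq.star
  have hh := half_add_half K (star z * z)
  have e1 : (v * q - 1) * (inv q * star v) = 1 - inv q * star v := by
    rw [sub_mul, one_mul, mul_assoc, ← mul_assoc q, q1, one_mul, hv']
  have e2 : v * inv (star q) * (star q * star v - 1) = 1 - v * inv (star q) := by
    rw [mul_sub, mul_one, mul_assoc, ← mul_assoc (inv _), q2, one_mul, hv']
  have a1 : algebraMap K B c * g * inv (v * q) * z = star z * ((c * κ) • (1 - inv q * star v)) * z := by
    rw [ie, ← e1, ← hg1, ← Algebra.smul_def]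
    simp only [smul_mul_assoc, mul_smul_comm, smul_smul, mul_assoc]
  have a2 : star (algebraMap K B c * g * inv (v * q) * z) =
      star z * (star (c * κ) • (1 - v * inv (star q))) * z := by
    rw [a1]; simp [star_inv, mul_assoc]
  have a3 : g * z = star z * (κ • (v * q - 1)) * z := by
    rw [← hg1]; simp only [smul_mul_assoc, mul_smul_comm]
  have a4 : star (g * z) = star z * (star κ • (star q * star v - 1)) * z := by
    rw [a3]; simp [mul_assoc]
  have fin : ∀ {x y X Y : B}, x = star z * X * z → star y = star z * Y * z → IsUnit (X + Y + 1) →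
      IsUnit (x + star z * z * inv 2 + star (y + star z * z * inv 2)) := fun {x y X Y} hx hy h => by
    have : x + star z * z * inv 2 + star (y + star z * z * inv 2) = star z * (X + Y + 1) * z := by
      rw [star_add, star_half, hx, hy, mul_add, mul_add, add_mul, add_mul, mul_one]
      nth_rewrite 3 [← hh]
      abel
    rw [this]
    exact (hzu.star.mul h).mul hzu
  refine ⟨h1, hm, ?_, fin a3 a4 ?_, fin a3 a2 ?_, fin a1 a2 ?_⟩
  · have : star (z + 1) * (v * q - 1) = v * α 1 + β 1 * star v + γ 1 := by
      simp only [star_add, star_one, add_mul, hz, one_mul, α, β, γ, Matrix.cons_val, zero_mul]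
      abel
    have h3 : IsUnit (star (z + 1) * (v * q - 1) * inv (v * q - 1)) :=
      (this ▸ H' 1).mul hm.ringInverse
    rw [Ring.mul_inverse_cancel_right _ _ hm] at h3
    simpa using h3.star
  · convert H' 2 using 1
    simp only [α, β, γ, Matrix.cons_val, smul_sub, sub_smul, one_smul, mul_smul_comm, smul_mul_assoc]
    abel
  · convert hvu.mul (H' 3) using 1
    simp only [α, β, γ, κ', Matrix.cons_val, smul_sub, sub_smul, add_smul, one_smul, mul_smul_comm,
      smul_mul_assoc, mul_zero, zero_add, mul_add, mul_sub, one_mul, hv', add_mul, sub_mul]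
    abel
  · convert H' 4 using 1
    simp only [α, β, γ, Matrix.cons_val, smul_sub, add_smul, one_smul, mul_smul_comm, smul_mul_assoc,
      neg_smul, mul_neg, neg_mul]
    abel

end Gen

/-! ## Affine norm polynomials -/

section Aff

variable {K B : Type*} [Field K] [CharZero K] [Ring B] [Algebra K B] [Algebra.IsCentral K B]
  [IsSimpleRing B] [FiniteDimensional K B] {ι : Type*} [Fintype ι]

theorem totalDegree_aeval_le {σ τ : Type*} (f : σ → MvPolynomial τ K) (hf : ∀ i, (f i).totalDegree ≤ 1)
    (P : MvPolynomial σ K) : (MvPolynomial.aeval f P).totalDegree ≤ P.totalDegree := by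
  conv_lhs => rw [P.as_sum, map_sum]
  refine (MvPolynomial.totalDegree_finsetSum _ _).trans (Finset.sup_le fun m hm => ?_)
  rw [MvPolynomial.aeval_monomial]
  refine (MvPolynomial.totalDegree_mul _ _).trans ?_
  rw [MvPolynomial.algebraMap_eq, MvPolynomial.totalDegree_C, zero_add, Finsupp.prod]
  refine (MvPolynomial.totalDegree_finsetProd _ _).trans (le_trans ?_ (MvPolynomial.le_totalDegree hm))
  exact Finset.sum_le_sum fun i _ => (MvPolynomial.totalDegree_pow _ _).trans
    (by simpa using Nat.mul_le_mul_left (m i) (hf i))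

variable (K) in
/-- `Nrd (A + ∑ xᵢ eᵢ)` as a polynomial in `x` -/
def aff (A : B) (e : ι → B) : MvPolynomial ι K :=
  MvPolynomial.aeval (fun o : Option ι => o.elim 1 MvPolynomial.X) (nrdP K fun o : Option ι => o.elim A e)

theorem eval_aff (A : B) (e : ι → B) (x : ι → K) :
    MvPolynomial.eval x (aff K A e) = Nrd K (A + ∑ i, x i • e i) := by
  have := eval_nrdP (K := K) (fun o : Option ι => o.elim A e) fun o => o.elim 1 x
  rw [Fintype.sum_option] at this
  simp only [Option.elim, one_smul] at this
  rw [← this, aff, ← MvPolynomial.coe_aeval_eq_eval, RingHom.coe_coe, ← AlgHom.comp_apply,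
    MvPolynomial.comp_aeval, ← MvPolynomial.coe_aeval_eq_eval, RingHom.coe_coe]
  congr 2
  funext o
  cases o <;> simp

theorem totalDegree_aff (A : B) (e : ι → B) : (aff K A e).totalDegree ≤ deg K B :=
  (totalDegree_aeval_le _ (fun o => by cases o <;> simp) _).trans (nrdP_hom _).totalDegree_le

theorem aff_ne_zero (A : B) (e : Basis ι K B) : aff K A e ≠ 0 := fun h => by
  have := eval_aff A e (e.repr (1 - A))
  rw [h, e.sum_repr, add_sub_cancel, map_one, map_zero] at this
  exact zero_ne_one this

theorem eval_line (a b : ι → K) (f : MvPolynomial ι K) (t : K) :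
    (MvPolynomial.aeval (fun i => C (a i) + C (b i) * X) f : K[X]).eval t =
      MvPolynomial.eval (fun i => a i + b i * t) f := by
  rw [← coe_aeval_eq_eval, ← AlgHom.comp_apply, MvPolynomial.comp_aeval,
    ← MvPolynomial.coe_aeval_eq_eval, RingHom.coe_coe]
  simp

theorem relPrime_aff {A A' : B} (h : IsUnit (A + A')) (e : Basis ι K B) :
    IsRelPrime (aff K A fun i => -e i) (aff K A' e) := by
  have hs : ∀ t : K, ∑ i, (e.repr A i + -e.repr 1 i * t) • e i = A - algebraMap K B t := fun t => by
    simp only [add_smul, Finset.sum_add_distrib, e.sum_repr, neg_smul, mul_comm _ t, mul_smul,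
      Finset.sum_neg_distrib, ← Finset.smul_sum, Algebra.algebraMap_eq_smul_one, sub_eq_add_neg,
      smul_neg]
  have h1 : (MvPolynomial.aeval (fun i => C (e.repr A i) + C (-e.repr 1 i) * X)
      (aff K A fun i => -e i) : K[X]) = X ^ deg K B := Polynomial.funext fun t => by
    rw [eval_line, eval_aff]
    simp only [smul_neg, Finset.sum_neg_distrib, hs]
    simp [Nrd_algebraMap]
  refine Line.relPrime_of_line (L := K) (e.repr A) (fun i => -e.repr 1 i) ?_ ?_ ?_
  · simp only [h1]
    refine IsCoprime.pow_left ((irreducible_X.coprime_iff_not_dvd).2 fun hd => ?_)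
    rw [X_dvd_iff, coeff_zero_eq_eval_zero, eval_line, eval_aff, hs, map_zero, sub_zero,
      add_comm] at hd
    exact (isUnit_iff_Nrd _).1 h hd
  · exact aff_ne_zero A (e.map (LinearEquiv.neg K))
  · simp only [h1, natDegree_X_pow]
    exact totalDegree_aff _ _

end Aff

end Crest.Agent.T24.Stab.O6
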