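import Crest.Agent.T24.StabB_43

/-!
# Row 24, stability, part (O) (helper6): the statements of the pieces
-/

set_option autoImplicit false
set_option linter.unusedSectionVars false

noncomputable section

namespace Crest.Agent.T24.Stab

open Ring Module WithZero Csa Asa Filter

universe u v w

section Glob
variable (k : Type u) (K : Type v) (B : Type w) [Field k] [NumberField k] [Field K] [NumberField K]
  [Algebra k K] [StarRing K] [Quad k K] [Ring B] [StarRing B] [Algebra K B] [StarModule K B]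
  [Algebra.IsCentral K B] [IsSimpleRing B] [FiniteDimensional K B] [Algebra k B] [IsScalarTower k K B]

/-- the output of (O) for `p = 1`, in parametrised form -/
def Par : Prop := ∀ (m : ℕ) (c : K) (g q : B), Dt c g q → ∃ a s μ : B, star a = -a ∧ star s = -s ∧
  IsUnit (1 - a) ∧ IsUnit (cv a * q - 1) ∧ IsUnit (x1 c g q a s) ∧
  IsUnit (xx (x1 c g q a s) g (zz c g q a) 1) ∧ IsUnit (zz c g q a + 1) ∧
  IsUnit (ze (x1 c g q a s) g (zz c g q a) 1) ∧
  IsUnit (ze (x1 c g q a s) (c • g) (zz c g q a) (cv a * q)) ∧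
  rho (x1 c g q a s) (zz c g q a) ∈ Deep K B m ∧
  rho (xx (x1 c g q a s) g (zz c g q a) 1) (zz c g q a + 1) ∈ Deep K B m ∧
  IsUnit μ ∧ star μ * μ = EL c g q a s ∧ ∀ y, Commute (EL c g q a s) y → Commute μ y

variable [Module.Finite k B]

/-- the toolkit at almost all places -/
structure Tool : Prop where
  /-- G1: integral units have local norms as eigenvalues -/
  uni : ∀ δ : kˣ, ∀ᶠ v : Pl k in cofinite, ∀ l : B, IsUnit l → Cl v 0 l → Cl v 0 (inverse l) →
    LNf v (δ : k) l
  /-- G2: the inverse of an integral element of unit norm is integral -/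
  inv : ∀ᶠ v : Pl k in cofinite, ∀ y : B, Cl v 0 y → (∀ w : Pl K, below k w = v → val w y = 1) →
    Cl v 0 (inverse y)
  /-- G3 -/
  str : ∀ᶠ v : Pl k in cofinite, ∀ y : B, Cl v 0 y → Cl v 0 (star y)
  /-- G3': an integral element has integral norm -/
  nrd : ∀ (w : Pl K) (y : B), Cl (below k w) 0 y → val w y ≤ 1
  /-- G5 -/
  spl : ∀ (δ : kˣ) (v : Pl k), δ ∈ Hn.Sq v → ∀ l : B, LNf v (δ : k) l

/-- G4: `s` large -/
def Large : Prop := ∀ (δ : kˣ) (c : K) (g q : B), Dt c g q → ∀ᶠ v : Pl k in cofinite, ∀ a : B,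
  star a = -a → IsUnit (1 - a) → IsUnit (cv a * q - 1) → ∃ s : B, star s = -s ∧ ∃ m, ∀ s' : B,
    star s' = -s' → Cl v m (s' - s) → LNf v (δ : k) (EL c g q a s')

end Glob

def ParStmt : Prop := ∀ D : Dat.{u, v, w}, 3 ≤ deg D.K D.B → Odd (deg D.K D.B) → Par D.K D.B
def ToolStmt : Prop := ∀ D : Dat.{u, v, w}, Tool D.k D.K D.B
def LargeStmt : Prop := ∀ D : Dat.{u, v, w}, Large D.k D.K D.B

end Crest.Agent.T24.Stab
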