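import Crest.Agent.T24.StabOA_6
import Crest.Agent.T24.StabOD_6
import Crest.Agent.T24.LanB_73
import Crest.Agent.T24.Csa4_50

/-!
# Row 24, stability, part (O), file B (helper6): closeness, weak approximation, the choice of `a`
-/

set_option autoImplicit false
set_option linter.unusedSectionVars false

noncomputable section

namespace Crest.Agent.T24.Stab.O6

open Module WithZero Csa Asa Filter NumberField

local notation "inv" => Ring.inverse

section Cl

variable {k : Type*} [Field k] [NumberField k] {B : Type*} [Ring B] [Algebra k B] [Module.Finite k B]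
  {v : Pl k} {m : ℕ} {φ : k →+* ℝ} {x y : B}

theorem cl_add (hx : Cl v m x) (hy : Cl v m y) : Cl v m (x + y) := fun i j => by
  simpa using (v.valuation k).map_add_le (hx i j) (hy i j)

theorem cl_sub (hx : Cl v m x) (hy : Cl v m y) : Cl v m (x - y) := fun i j => by
  simpa using (v.valuation k).map_sub_le (hx i j) (hy i j)

theorem cl_mul (hx : Cl v 0 x) (hy : Cl v 0 y) : Cl v 0 (x * y) := fun i j => by
  rw [map_mul, Matrix.mul_apply]
  refine Valuation.map_sum_le _ fun l _ => ?_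
  simpa using mul_le_mul' (hx i l) (hy l j)

theorem ci_add {ε ε' : ℝ} (hx : Ci φ ε x) (hy : Ci φ ε' y) : Ci φ (ε + ε') (x + y) := fun i j => by
  simpa using (abs_add_le _ _).trans_lt (add_lt_add (hx i j) (hy i j))

theorem ev_cl (y : B) : ∀ᶠ v : Pl k in cofinite, Cl v 0 y :=
  eventually_all.2 fun i => eventually_all.2 fun j => eventually_cofinite.2 (by
    simpa using finite_not_le (mat k y i j))

variable {ι : Type*} [Fintype ι]

theorem cl_sum {e : ι → B} (he : ∀ i, Cl v 0 (e i)) {s : ι → k}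
    (hs : ∀ i, v.valuation k (s i) ≤ 1) : Cl v 0 (∑ i, s i • e i) := fun a b => by
  rw [map_sum, Matrix.sum_apply]
  refine Valuation.map_sum_le _ fun l _ => ?_
  simpa using mul_le_mul' (hs l) (he l a b)

theorem close_f (e : ι → B) (v : Pl k) (m : ℕ) : ∀ᶠ n : ℕ in atTop, ∀ s : ι → k,
    (∀ i, v.valuation k (s i) ≤ exp (-(n : ℤ))) → Cl v m (∑ i, s i • e i) := by
  have key : ∀ c : k, ∀ᶠ n : ℕ in atTop, exp (-(n : ℤ)) * v.valuation k c ≤ exp (-(m : ℤ)) := by
    intro c
    rcases eq_or_ne (v.valuation k c) 0 with h | h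
    · simp [h]
    · filter_upwards [eventually_ge_atTop (m + (log (v.valuation k c)).natAbs)] with n hn
      rw [← exp_log h, ← exp_add, exp_le_exp]
      omega
  filter_upwards [eventually_all.2 fun i => eventually_all.2 fun a => eventually_all.2 fun b =>
    key (mat k (e i) a b)] with n hn s hs a b
  rw [map_sum, Matrix.sum_apply]
  refine Valuation.map_sum_le _ fun l _ => ?_
  simpa using (mul_le_mul' (hs l) le_rfl).trans (hn l a b)

theorem close_r (e : ι → B) (φ : k →+* ℝ) {ε : ℝ} (hε : 0 < ε) : ∃ η > 0, ∀ s : ι → k,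
    (∀ i, |φ (s i)| < η) → Ci φ ε (∑ i, s i • e i) := by
  set C := ∑ i, ∑ a, ∑ b, |φ (mat k (e i) a b)|
  have hC : 0 ≤ C := by positivity
  refine ⟨ε / (C + 1), by positivity, fun s hs a b => ?_⟩
  rw [map_sum, Matrix.sum_apply, map_sum]
  refine (Finset.abs_sum_le_sum_abs _ _).trans_lt (lt_of_le_of_lt (b := ε / (C + 1) * C) ?_ ?_)
  · rw [Finset.mul_sum]
    refine Finset.sum_le_sum fun l _ => ?_
    rw [map_smul, Matrix.smul_apply, smul_eq_mul, map_mul, abs_mul]
    refine mul_le_mul (hs l).le ?_ (abs_nonneg _) (by positivity)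
    exact (Finset.single_le_sum (f := fun b => |φ (mat k (e l) a b)|) (fun _ _ => abs_nonneg _)
      (Finset.mem_univ b)).trans (Finset.single_le_sum
        (f := fun a => ∑ b, |φ (mat k (e l) a b)|) (fun _ _ => by positivity) (Finset.mem_univ a))
  · rw [div_mul_eq_mul_div, div_lt_iff₀ (by positivity)]
    nlinarith

/-- weak approximation in `k`, infinitely many solutions -/
theorem wa_inf (S : Finset (Pl k)) (a : Pl k → k) (m : ℕ) (r : (k →+* ℝ) → k)
    (ε : (k →+* ℝ) → ℝ) (hε : ∀ φ, 0 < ε φ) {v₀ : Pl k} (h₀ : v₀ ∉ S) :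
    {x : k | (∀ v ∈ S, v.valuation k (x - a v) ≤ exp (-(m : ℤ))) ∧
      ∀ φ : k →+* ℝ, |φ (x - r φ)| < ε φ}.Infinite := by
  obtain ⟨-, c, ε', h0, -, h⟩ := Lan.conv ∅ (fun _ => 1) (fun _ => one_pos) r ε hε
  exact (approx_infinite S v₀ h₀ a m c h0).mono fun x hx => ⟨hx.1, h x hx.2.1⟩

/-- targets in the `k`-span of a family, in coordinates -/
theorem coords (e : ι → B) (S : Finset (Pl k)) (m : Pl k → ℕ) (ε : (k →+* ℝ) → ℝ)
    (hε : ∀ φ, 0 < ε φ) : ∃ (n : ℕ) (η : (k →+* ℝ) → ℝ), (∀ φ, 0 < η φ) ∧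
      (∀ v ∈ S, ∀ s t : ι → k, (∀ i, v.valuation k (s i - t i) ≤ exp (-(n : ℤ))) →
        Cl v (m v) (∑ i, s i • e i - ∑ i, t i • e i)) ∧
      ∀ φ, ∀ s t : ι → k, (∀ i, |φ (s i - t i)| < η φ) →
        Ci φ (ε φ) (∑ i, s i • e i - ∑ i, t i • e i) := by
  obtain ⟨n, hn⟩ := ((eventually_all_finset S).2 fun v _ => close_f e v (m v)).exists
  choose η h0 h1 using fun φ => close_r e φ (hε φ)
  have E : ∀ s t : ι → k, ∑ i, s i • e i - ∑ i, t i • e i = ∑ i, (s i - t i) • e i := fun s t => by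
    simp [sub_smul]
  exact ⟨n, η, h0, fun v hv s t h => E s t ▸ hn v hv _ h, fun φ s t h => E s t ▸ h1 φ _ h⟩

/-- integral units -/
structure IU (v : Pl k) (y : B) : Prop where
  u : IsUnit y
  a : Cl v 0 y
  b : Cl v 0 (inv y)

theorem IU.mul (hx : IU v x) (hy : IU v y) : IU v (x * y) :=
  ⟨hx.u.mul hy.u, cl_mul hx.a hy.a, by rw [Ring.inverse_mul (.inl hx.u)]; exact cl_mul hy.b hx.b⟩

theorem IU.inv' (hx : IU v x) : IU v (inv x) :=
  ⟨hx.u.ringInverse, hx.b, by rw [Ring.inverse_inverse hx.u]; exact hx.a⟩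

theorem IU.star [StarRing B] (hs : ∀ y : B, Cl v 0 y → Cl v 0 (star y)) (hx : IU v x) :
    IU v (star x) := ⟨hx.u.star, hs _ hx.a, star_inv x ▸ hs _ hx.b⟩

theorem ev_iu (hy : IsUnit y) : ∀ᶠ v : Pl k in cofinite, IU v y :=
  ((ev_cl y).and (ev_cl _)).mono fun _ h => ⟨hy, h.1, h.2⟩

end Cl

section Glob
variable {k : Type*} {K : Type*} {B : Type*} [Field k] [NumberField k] [Field K] [NumberField K]
  [Algebra k K] [StarRing K] [Quad k K] [Ring B] [StarRing B] [Algebra K B] [StarModule K B]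
  [Algebra.IsCentral K B] [IsSimpleRing B] [FiniteDimensional K B] [Algebra k B] [IsScalarTower k K B]

theorem smul_k (t : k) (x : B) : t • x = algebraMap k K t • x := (algebraMap_smul K t x).symm

variable (K) in
include K in
theorem star_ksmul (t : k) (x : B) : star (t • x) = t • star x := by
  rw [smul_k (K := K) t x, smul_k (K := K) t (star x), star_smul, Quad.star_k]

variable (k K B) in
/-- a `K`-basis of skew elements; the skew elements are its `k`-span -/
theorem exists_skew_basis : ∃ e : Basis (Fin (finrank K B)) K B, (∀ i, star (e i) = -e i) ∧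
    ∀ s : B, star s = -s → ∃ x : Fin (finrank K B) → k, ∑ i, x i • e i = s := by
  obtain ⟨e, he⟩ := exists_herm_basis (K := K) (B := B) (Quad.ne (k := k))
  obtain ⟨θ, h0, hθ⟩ := exists_skew (Quad.ne (k := k) (K := K))
  refine ⟨e.unitsSMul fun _ => Units.mk0 θ h0, fun i => ?_, fun s hs => ?_⟩
  · simp [Basis.unitsSMul_apply, Units.smul_def, he, hθ]
  · have h : ∀ i, ∃ a : k, algebraMap k K a = θ⁻¹ * e.repr s i := fun i =>
      fixed Quad.fr (sig_ne k K) (by
        rw [sig_apply, star_mul', ← repr_star e he, hs, star_inv₀, hθ]; simp)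
    choose x hx using h
    refine ⟨x, ?_⟩
    conv_rhs => rw [← e.sum_repr s]
    refine Finset.sum_congr rfl fun i _ => ?_
    rw [smul_k (K := K), hx, Basis.unitsSMul_apply, Units.smul_def, smul_smul, Units.val_mk0,
      mul_right_comm, inv_mul_cancel₀ h0, one_mul]

variable (K) in
include K in
theorem skew_sum {ι : Type*} [Fintype ι] {e : ι → B} (he : ∀ i, star (e i) = -e i) (x : ι → k) :
    star (∑ i, x i • e i) = -∑ i, x i • e i := by
  simp [star_ksmul K, he]

variable [Module.Finite k B]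

/-- the choice of `a` -/
theorem exists_a {c : K} {g q : B} (h : Dt c g q) (S : Finset (Pl k)) {v₀ : Pl k} (h₀ : v₀ ∉ S)
    (a : Pl k → B) (ha : ∀ v, star (a v) = -a v) (m : Pl k → ℕ) (r : (k →+* ℝ) → B)
    (hr : ∀ φ, star (r φ) = -r φ) (ε : (k →+* ℝ) → ℝ) (hε : ∀ φ, 0 < ε φ) :
    ∃ b : B, star b = -b ∧ Gen (algebraMap K B c) g q b ∧ (∀ v ∈ S, Cl v (m v) (b - a v)) ∧
      ∀ φ, Ci φ (ε φ) (b - r φ) := by
  obtain ⟨e, he, hs⟩ := exists_skew_basis k K B
  obtain ⟨θ, h0, hθ⟩ := exists_skew (Quad.ne (k := k) (K := K))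
  choose a' ha' using fun v => hs _ (ha v)
  choose r' hr' using fun φ => hs _ (hr φ)
  have hε2 : ∀ φ, 0 < ε φ / 2 := fun φ => half_pos (hε φ)
  obtain ⟨n, η, hη, h1, h2⟩ := coords e S m _ hε2
  choose x hx using fun i => (wa_inf S (a' · i) n (r' · i) η hη h₀).nonempty
  set a0 := ∑ i, x i • e i
  have ha0 : star a0 = -a0 := skew_sum K he x
  obtain ⟨t1, hfin⟩ := generic (k := k) h.hc h.ug h.uq h0 a0
  set d := t1 • algebraMap K B θ - a0
  have hd : star d = -d := by
    rw [star_sub, ha0, star_ksmul K, ← algebraMap_star_comm, hθ, map_neg, smul_neg]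
    simp only [d]; abel
  obtain ⟨n', η', hη', h3, h4⟩ := coords (fun _ : Unit => d) S m _ hε2
  obtain ⟨t, ht, hg⟩ := (wa_inf S 0 n' 0 η' hη' h₀).exists_notMem_finite hfin
  have hb : star (a0 + t • d) = -(a0 + t • d) := by
    rw [star_add, star_ksmul K, ha0, hd, smul_neg, neg_add]
  refine ⟨a0 + t • d, hb, not_not.1 fun hn => hg ⟨hb, hn⟩, fun v hv => ?_, fun φ => ?_⟩
  · rw [add_sub_right_comm, ← ha' v]
    exact cl_add (h1 v hv _ _ fun i => (hx i).1 v hv)
      (by simpa using h3 v hv (fun _ => t) 0 fun _ => ht.1 v hv)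
  · rw [add_sub_right_comm, ← hr' φ, ← add_halves (ε φ)]
    exact ci_add (h2 φ _ _ fun i => (hx i).2 φ) (by simpa using h4 φ (fun _ => t) 0 fun _ => ht.2 φ)

end Glob

end Crest.Agent.T24.Stab.O6
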