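import Crest.Agent.T24.StabOB_6
import Crest.Agent.T24.LocG_59

/-!
# Row 24, stability, part (O), file C (helper6): the line trick and the assembly
-/

set_option autoImplicit false
set_option linter.unusedSectionVars false

noncomputable section

namespace Crest.Agent.T24.Stab.O6

open Module WithZero Csa Asa Filter NumberField

local notation "inv" => Ring.inverse

universe u v w

section Glob
variable {k : Type u} {K : Type v} {B : Type w} [Field k] [NumberField k] [Field K] [NumberField K]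
  [Algebra k K] [StarRing K] [Quad k K] [Ring B] [StarRing B] [Algebra K B] [StarModule K B]
  [Algebra.IsCentral K B] [IsSimpleRing B] [FiniteDimensional K B] [Algebra k B] [IsScalarTower k K B]

theorem map_aff {ι : Type*} [Fintype ι] (A : B) (e : ι → B) :
    MvPolynomial.map (sig k K : K →+* K) (aff K A e) = aff K (star A) fun i => star (e i) :=
  MvPolynomial.funext fun x => by
    have h := MvPolynomial.eval₂_comp_left (sig k K : K →+* K) (RingHom.id K) (fun i => star (x i))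
      (aff K A e)
    rw [MvPolynomial.eval₂_id, eval_aff] at h
    have e1 : ((sig k K : K →+* K) ∘ fun i => star (x i)) = x := funext fun i => by simp
    rw [e1, RingHom.comp_id] at h
    rw [MvPolynomial.eval_map, eval_aff, ← h]
    exact (T24.Nrd_star K _).symm.trans (by simp)

theorem ev_aff {ι : Type*} [Fintype ι] (A : B) (e : ι → B) (s : ι → k) :
    Line.ev s (aff K A e) = Nrd K (A + ∑ i, s i • e i) := by
  simp only [Line.ev, eval_aff, algebraMap_smul]

theorem ev_aff' {ι : Type*} [Fintype ι] (A : B) (e : ι → B) (s : ι → k) :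
    Line.ev s (aff K A fun i => -e i) = Nrd K (A - ∑ i, s i • e i) := by
  simp [ev_aff, sub_eq_add_neg]

theorem ev_mul {ι : Type*} (s : ι → k) (p q : MvPolynomial ι K) :
    Line.ev s (p * q) = Line.ev s p * Line.ev s q := map_mul _ _ _

theorem zz_eq (c : K) (g q a : B) : zz c g q a = zf (algebraMap K B c) g q a := by
  rw [zz, zf, Algebra.smul_def, map_sub, map_one, mul_assoc]; rfl

variable (K) in
include K in
theorem inv_two : inv (2 : B) = algebraMap K B 2⁻¹ := by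
  rw [← map_ofNat (algebraMap K B) 2, ← Opn.map_inverse _ two_ne_zero.isUnit, Ring.inverse_eq_inv']

theorem star_x1 (c : K) (g q a : B) {s : B} (hs : star s = -s) :
    star (x1 c g q a s) = xf (zz c g q a) s := by
  rw [x1, xf, inv_two K, ← Algebra.commutes, ← Algebra.smul_def]
  simp [hs, sub_eq_add_neg]

variable {c : K} {g q : B} (h : Dt c g q)
include h

omit h in
theorem inv_comm (c : K) (y : B) : inv (algebraMap K B c) * y = y * inv (algebraMap K B c) :=
  (Opn.commute_inverse (Algebra.commutes c _ : Commute _ _).symm).eq.symm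

theorem c_ne : c ≠ 0 := fun h0 => h.hc (by simp [h0])

theorem ze_eq (a : B) {s : B} (hs : star s = -s) :
    ze (x1 c g q a s) g (zz c g q a) 1 = inv g * (Af g (zz c g q a) - s) := by
  rw [← zef_eq h.ug, ze, star_x1 c g q a hs, one_mul, zef]

theorem ze_eq' {a : B} (hv : IsUnit (vf a)) {s : B} (hs : star s = -s) :
    ze (x1 c g q a s) (c • g) (zz c g q a) (cv a * q) = inv (algebraMap K B c) * (vf a * q) * inv g *
      (Af' (algebraMap K B c) g (vf a * q) (zz c g q a) - s) := by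
  have hc := (c_ne h).isUnit.map (algebraMap K B)
  rw [← zef'_eq hc (Algebra.commutes c) h.ug (hv.mul h.uq), ze, star_x1 c g q a hs, zef',
    Algebra.smul_def, Ring.inverse_mul (.inl hc), ← mul_assoc, ← inv_comm, mul_assoc (inv _) (vf a * q)]
  rfl

theorem EL_eq {a : B} (ha : star a = -a) (h1 : IsUnit (1 - a)) {s : B} (hs : star s = -s) {Z : B}
    (hZ : Z = inv (algebraMap K B c) * q * inv g *
      (Af' (algebraMap K B c) g (vf a * q) (zz c g q a) - s) * (inv (Af g (zz c g q a) - s) * g)) :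
    EL c g q a s = star Z * Z := by
  have : ka c (x1 c g q a s) g (zz c g q a) 1 (cv a * q) = vf a * Z := by
    rw [ka, ze_eq h a hs, ze_eq' h (vf_unit ha h1) hs, Ring.inverse_mul (.inl h.ug.ringInverse),
      Ring.inverse_inverse h.ug, hZ, ← mul_assoc (inv _) (vf a), inv_comm c (vf a)]
    simp only [mul_assoc]
  rw [EL, el, this, star_mul, mul_assoc, ← mul_assoc (star (vf a)), vf_unitary ha h1, one_mul]

variable [Module.Finite k B]

omit h in
theorem val_eq_one {x y : ℤᵐ⁰} (hx : x ≤ 1) (hy : y ≤ 1) (h : x * y = 1) : x = 1 ∧ y = 1 :=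
  ⟨hx.antisymm (by simpa [h] using mul_le_mul' (le_refl x) hy),
    hy.antisymm (by simpa [h] using mul_le_mul' hx (le_refl y))⟩

/-- the choice of `s`: the line trick -/
theorem exists_s {θ : K} {δ : kˣ} (hθ : Th θ δ) (T : Tool k K B) {a : B}
    (G : Gen (algebraMap K B c) g q a) (S₁ : Finset (Pl k)) (t : Pl k → B)
    (ht : ∀ v, star (t v) = -t v) (m : Pl k → ℕ) (r : (k →+* ℝ) → B)
    (hr : ∀ φ, star (r φ) = -r φ) (ε : (k →+* ℝ) → ℝ) (hε : ∀ φ, 0 < ε φ) :
    ∃ s : B, star s = -s ∧ IsUnit (x1 c g q a s) ∧ IsUnit (xx (x1 c g q a s) g (zz c g q a) 1) ∧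
      IsUnit (Af g (zz c g q a) - s) ∧
      IsUnit (Af' (algebraMap K B c) g (vf a * q) (zz c g q a) - s) ∧
      (∀ φ, Ci φ (ε φ) (s - r φ)) ∧ ∀ v, Cl v (m v) (s - t v) ∨ (v ∉ S₁ ∧ (δ ∈ Hn.Sq v ∨
        (IU v (Af g (zz c g q a) - s) ∧
          IU v (Af' (algebraMap K B c) g (vf a * q) (zz c g q a) - s)))) := by
  classical
  have hθ' : θ ^ 2 = algebraMap k K δ := by rw [hθ.sq, sq]
  obtain ⟨e, he, hs⟩ := exists_skew_basis k K B
  choose t' ht' using fun v => hs _ (ht v)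
  choose r' hr' using fun φ => hs _ (hr φ)
  rw [zz_eq] at *
  have h4 := G.h4
  have h5 := G.h5
  have h6 := G.h6
  simp only [x1, xx, zz_eq]
  generalize zf (algebraMap K B c) g q a = z at *
  generalize Af g z = A at *
  generalize Af' (algebraMap K B c) g (vf a * q) z = A' at *
  have hn : ∀ A : B, aff K A (fun i => -e i) ≠ 0 := fun A => aff_ne_zero A (e.map (LinearEquiv.neg K))
  obtain ⟨S₀, H⟩ := Line.line_sigma (sig k K) (f := aff K A (fun i => -e i) * aff K A' fun i => -e i)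
    (h := aff K A (fun i => -e i) * aff K A' (fun i => -e i) *
      (aff K ((2⁻¹ : K) • (star z * z)) e * aff K ((2⁻¹ : K) • (star z * z) + g + star z * 1) e))
    (by
      simp only [map_mul, map_aff, star_neg, he, neg_neg]
      refine ((relPrime_aff h4 e).mul_right (relPrime_aff h5 e)).mul_left
        ((relPrime_aff ?_ e).mul_right (relPrime_aff h6 e))
      simpa [add_comm] using h5.star)
    (mul_ne_zero (mul_ne_zero (hn _) (hn _)) (mul_ne_zero (aff_ne_zero _ _) (aff_ne_zero _ _)))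
  have hev := eventually_cofinite.1 (((T.inv.and (ev_cl A)).and (ev_cl A')).and
    (eventually_all.2 fun i => ev_cl (k := k) (e i)))
  set S := S₀ ∪ S₁ ∪ hev.toFinset
  obtain ⟨v₀, h₀, hd₀⟩ := Lan.exists_split_Sq Quad.fr (sig_ne k K) hθ.sk hθ' S
  obtain ⟨n, η, hη, h1, h2⟩ := coords e S m _ hε
  have hη2 : ∀ φ, 0 < η φ / 2 := fun φ => half_pos (hη φ)
  choose x hx using fun i => (wa_inf S 0 0 (r' · i) _ hη2 h₀).nonempty
  obtain ⟨η', h0, hη'⟩ : ∃ η' > 0, ∀ φ, η' ≤ η φ / 2 := by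
    rcases isEmpty_or_nonempty (k →+* ℝ) with h | h
    · exact ⟨1, one_pos, fun ρ => h.elim ρ⟩
    · obtain ⟨ρ, hρ⟩ := Finite.exists_min fun φ => η φ / 2
      exact ⟨_, hη2 ρ, hρ⟩
  obtain ⟨s, s1, s2, s3, s4, s5⟩ := H S (by intro v hv; simp [S, hv]) v₀ h₀ t' n x η' h0
  rw [ev_mul, ev_mul, ev_mul, ev_aff', ev_aff', ev_aff, ev_aff] at s4
  simp only [mul_ne_zero_iff, ← isUnit_iff_Nrd] at s4
  refine ⟨∑ i, s i • e i, skew_sum K he s, s4.2.1, by convert s4.2.2 using 1; abel, s4.1.1, s4.1.2,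
    fun φ => hr' φ ▸ h2 φ _ _ fun i => ?_, fun v => ?_⟩
  · have e1 := s2 (Complex.ofRealHom.comp φ) i
    have e2 := (hx i).2 φ
    rw [RingHom.comp_apply, Complex.ofRealHom_eq_coe, Complex.norm_real, Real.norm_eq_abs] at e1
    rw [← sub_add_sub_cancel _ (x i), map_add]
    linarith [abs_add_le (φ (s i - x i)) (φ (x i - r' φ i)), hη' φ]
  by_cases hv : v ∈ S
  · exact .inl (ht' v ▸ h1 v hv _ _ (s1 v hv))
  refine .inr ⟨fun h => hv (by simp [S, h]), or_iff_not_imp_left.2 fun hd => ?_⟩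
  have hv0 : v ≠ v₀ := fun h => hd (h ▸ hd₀)
  obtain ⟨⟨⟨g1, g2⟩, g3⟩, g4⟩ := not_not.1 fun h => hv (Finset.mem_union_right _ (hev.mem_toFinset.2 h))
  have hc := cl_sum g4 (s3 v hv hv0)
  have key : ∀ w : Pl K, below k w = v →
      val w (A - ∑ i, s i • e i) = 1 ∧ val w (A' - ∑ i, s i • e i) = 1 := by
    rintro w rfl
    have := s5 w hv hv0 (Lan.not_splits Quad.fr (sig_ne k K) hθ.sk hθ' hd)
    rw [ev_mul, ev_aff', ev_aff', map_mul] at this
    exact val_eq_one (T.nrd w _ (cl_sub g2 hc)) (T.nrd w _ (cl_sub g3 hc)) this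
  exact ⟨⟨s4.1.1, cl_sub g2 hc, g1 _ (cl_sub g2 hc) fun w hw => (key w hw).1⟩,
    s4.1.2, cl_sub g3 hc, g1 _ (cl_sub g3 hc) fun w hw => (key w hw).2⟩

omit h in
theorem par (hT : (TT K B).Finite) (N : Nrm k K B) (NF : NearF k K B) (NR : NearR k K B)
    (NT : NearT k K B) (T : Tool k K B) (L : Large k K B) : Par K B := by
  classical
  intro m c g q h
  obtain ⟨θ, δ, hθ1, hθ2⟩ := Lan.exists_theta Quad.fr (sig_ne k K)
  have hθ : Th θ δ := ⟨hθ1, by rw [← hθ2, sq]⟩
  set R : Pl k → B → B → Prop := fun v a s => LNf v (δ : k) (EL c g q a s) ∧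
    ∀ w ∈ TT K B, below k w = v →
      val w (rho (x1 c g q a s) (zz c g q a) - 1) < exp (-(m : ℤ)) ∧
      val w (rho (xx (x1 c g q a s) g (zz c g q a) 1) (zz c g q a + 1) - 1) < exp (-(m : ℤ))
  have hF : ∀ v, ∃ a s : B, star a = -a ∧ star s = -s ∧ ∃ n, ∀ a' s' : B, star a' = -a' →
      star s' = -s' → Cl v n (a' - a) → Cl v n (s' - s) → R v a' s' := fun v => by
    by_cases hd : δ ∈ Hn.Sq v
    · obtain ⟨a, s, ha, hs, n, H⟩ := NT m c g q h v
      exact ⟨a, s, ha, hs, n, fun a' s' h1 h2 h3 h4 => ⟨T.spl δ v hd _, H a' s' h1 h2 h3 h4⟩⟩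
    · obtain ⟨a, s, ha, hs, n, H⟩ := NF θ δ hθ c g q h v hd
      refine ⟨a, s, ha, hs, n, fun a' s' h1 h2 h3 h4 => ⟨H a' s' h1 h2 h3 h4, ?_⟩⟩
      rintro w hw rfl
      exact (Lan.not_splits Quad.fr (sig_ne k K) hθ1 hθ2 hd hw.1).elim
  have hR : ∀ φ : k →+* ℝ, ∃ a s : B, star a = -a ∧ star s = -s ∧ ∃ ε > 0, ∀ a' s' : B,
      star a' = -a' → star s' = -s' → Ci φ ε (a' - a) → Ci φ ε (s' - s) → φ δ < 0 →
      LNr φ (EL c g q a' s') := fun φ => by
    by_cases hd : φ δ < 0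
    · obtain ⟨a, s, ha, hs, ε, h0, H⟩ := NR θ δ hθ c g q h φ hd
      exact ⟨a, s, ha, hs, ε, h0, fun a' s' h1 h2 h3 h4 _ => H a' s' h1 h2 h3 h4⟩
    · exact ⟨0, 0, by simp, by simp, 1, one_pos, fun _ _ _ _ _ _ h => (hd h).elim⟩
  choose av sv hav hsv n hn using hF
  choose ar sr har hsr ε hε hr using hR
  have hc := (c_ne h).isUnit.map (algebraMap K B)
  have hev := eventually_cofinite.1 ((((((L δ c g q h).and (T.uni δ)).and T.str).and
    (ev_iu (k := k) ((hc.ringInverse.mul h.uq).mul h.ug.ringInverse))).and (ev_iu h.ug)).and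
    (hT.image (below k)).compl_mem_cofinite)
  have hS : ∀ v ∉ hev.toFinset, _ := fun v hv => not_not.1 fun h => hv (hev.mem_toFinset.2 h)
  generalize hev.toFinset = S at hS
  obtain ⟨v₀, h₀, -⟩ := Lan.exists_split_Sq Quad.fr (sig_ne k K) hθ1 hθ2 S
  obtain ⟨a, ha, G, a1, a2⟩ := exists_a h S h₀ av hav n ar har ε hε
  have hs2 : ∀ v, ∃ s : B, star s = -s ∧ ∃ n, ∀ s' : B, star s' = -s' → Cl v n (s' - s) →
      R v a s' := fun v => by
    by_cases hv : v ∈ S
    · exact ⟨sv v, hsv v, n v, fun s' h1 h2 => hn v a s' ha h1 (a1 v hv) h2⟩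
    · obtain ⟨s, hs, n, H⟩ := (hS v hv).1.1.1.1.1 a ha G.h1 G.h2
      exact ⟨s, hs, n, fun s' h1 h2 => ⟨H s' h1 h2, fun w hw h => ((hS v hv).2 ⟨w, hw, h⟩).elim⟩⟩
  choose t ht n' hn' using hs2
  obtain ⟨s, hs, u1, u2, u3, u4, s1, s2⟩ := exists_s h hθ T G S t ht n' sr hsr ε hε
  have hE := EL_eq h ha G.h1 hs rfl
  have uZ := (((hc.ringInverse.mul h.uq).mul h.ug.ringInverse).mul u4).mul (u3.ringInverse.mul h.ug)
  have hRv : ∀ v, R v a s := fun v => by
    rcases s2 v with h1 | ⟨hv, h1⟩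
    · exact hn' v s hs h1
    obtain ⟨⟨⟨⟨⟨-, g1⟩, g2⟩, g3⟩, g4⟩, g5⟩ := hS v hv
    refine ⟨h1.elim (T.spl δ v · _) fun h1 => ?_, fun w hw h => (g5 ⟨w, hw, h⟩).elim⟩
    have hZ := (g3.mul h1.2).mul (h1.1.inv'.mul g4)
    have := (hZ.star g2).mul hZ
    rw [← hE] at this
    exact g1 _ this.u this.a this.b
  obtain ⟨μ, m1, m2, m3⟩ := N θ δ hθ (EL c g q a s) (by simp [hE]) (hE ▸ uZ.star.mul uZ)
    (fun v => (hRv v).1) fun φ => hr φ a s ha hs (a2 φ) (s1 φ)
  refine ⟨a, s, μ, ha, hs, G.h1, G.h2, u1, u2, zz_eq c g q a ▸ G.h3, ?_, ?_,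
    fun w hw => ((hRv _).2 w hw rfl).1, fun w hw => ((hRv _).2 w hw rfl).2, m1, m2, m3⟩
  · exact ze_eq h a hs ▸ h.ug.ringInverse.mul u3
  · exact ze_eq' h (vf_unit ha G.h1) hs ▸
      ((hc.ringInverse.mul ((vf_unit ha G.h1).mul h.uq)).mul h.ug.ringInverse).mul u4

end Glob

/-- **(O)** from its leaves -/
theorem parStmt (N : NrmStmt.{u, v, w}) (NF : NearFStmt.{u, v, w}) (NR : NearRStmt.{u, v, w})
    (NT : NearTStmt.{u, v, w}) (T : ToolStmt.{u, v, w}) (L : LargeStmt.{u, v, w}) :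
    ParStmt.{u, v, w} := fun D h3 hd =>
  par (Loc.finite_TT (by omega)) (N D) (NF D hd) (NR D) (NT D) (T D) (L D)

end Crest.Agent.T24.Stab.O6
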