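import Crest.Agent.T24.StabB_43
import Crest.Agent.T24.LanB_73
import Crest.Agent.T24.CsaN_50

/-!
# Row 24 (helper43): stability, the toolkit for `Cl`, `Ci`, `LNf`
-/

set_option autoImplicit false
set_option linter.unusedSectionVars false

noncomputable section

namespace Crest.Agent.T24.Stab

open Ring Module WithZero Csa Asa Polynomial Filter

universe u v w

section Cl
variable {k : Type u} [Field k] [NumberField k] {B : Type*} [Ring B] [Algebra k B]
  [Module.Finite k B] {v : Pl k} {m n : ℕ} {x y : B}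

theorem exp_neg_add (m n : ℕ) :
    (exp (-((m + n : ℕ) : ℤ)) : ℤᵐ⁰) = exp (-(m : ℤ)) * exp (-(n : ℤ)) := by
  rw [← exp_add]; congr 1; push_cast; ring

theorem cl_zero_iff : Cl v 0 x ↔ ∀ i j, v.valuation k (mat k x i j) ≤ 1 := by simp [Cl]

theorem Cl.anti (h : m ≤ n) (hx : Cl v n x) : Cl v m x := fun i j => (hx i j).trans (exp_neg_anti h)

theorem Cl.int (hx : Cl v n x) : Cl v 0 x := hx.anti (Nat.zero_le n)

theorem Cl.zero : Cl v m (0 : B) := fun i j => by simp

theorem Cl.add (hx : Cl v m x) (hy : Cl v m y) : Cl v m (x + y) := fun i j => by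
  rw [map_add, Matrix.add_apply]; exact Valuation.map_add_le _ (hx i j) (hy i j)

theorem Cl.neg (hx : Cl v m x) : Cl v m (-x) := fun i j => by
  rw [map_neg, Matrix.neg_apply, Valuation.map_neg]; exact hx i j

theorem Cl.sub (hx : Cl v m x) (hy : Cl v m y) : Cl v m (x - y) := by
  rw [sub_eq_add_neg]; exact hx.add hy.neg

theorem Cl.sum {ι : Type*} {s : Finset ι} {f : ι → B} (h : ∀ i ∈ s, Cl v m (f i)) :
    Cl v m (∑ i ∈ s, f i) :=
  Finset.sum_induction _ _ (fun _ _ => Cl.add) Cl.zero h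

theorem Cl.mul (hx : Cl v m x) (hy : Cl v n y) : Cl v (m + n) (x * y) := fun i j => by
  rw [map_mul, Matrix.mul_apply, exp_neg_add]
  refine Valuation.map_sum_le _ fun l _ => ?_
  rw [map_mul]
  exact mul_le_mul' (hx i l) (hy l j)

theorem Cl.mul_left (hx : Cl v 0 x) (hy : Cl v n y) : Cl v n (x * y) := by simpa using hx.mul hy

theorem Cl.mul_right (hx : Cl v m x) (hy : Cl v 0 y) : Cl v m (x * y) := hx.mul hy

theorem Cl.one : Cl v 0 (1 : B) := cl_zero_iff.2 fun i j => by
  rw [map_one, Matrix.one_apply]; split_ifs <;> simp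

theorem Cl.pow (hx : Cl v 0 x) (n : ℕ) : Cl v 0 (x ^ n) := by
  induction n with
  | zero => simpa using Cl.one
  | succ n ih => rw [pow_succ]; exact ih.mul hx

theorem Cl.smul {c : k} (hc : v.valuation k c ≤ exp (-(m : ℤ))) (hx : Cl v n x) :
    Cl v (m + n) (c • x) := fun i j => by
  rw [map_smul, Matrix.smul_apply, smul_eq_mul, map_mul, exp_neg_add]
  exact mul_le_mul' hc (hx i j)

theorem Cl.smul_left {c : k} (hc : v.valuation k c ≤ 1) (hx : Cl v n x) : Cl v n (c • x) := by
  simpa using hx.smul (m := 0) (by simpa using hc)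

theorem Cl.smul_right {c : k} (hc : v.valuation k c ≤ exp (-(m : ℤ))) (hx : Cl v 0 x) :
    Cl v m (c • x) := hx.smul hc

/-- every element is integral almost everywhere -/
theorem ev_cl (x : B) : ∀ᶠ v : Pl k in cofinite, Cl v 0 x := by
  simp only [cl_zero_iff]
  exact eventually_all.2 fun i => eventually_all.2 fun j => eventually_cofinite.2 (finite_not_le _)

/-- small multiples are small -/
theorem exists_cl (v : Pl k) (x : B) :
    ∃ n : ℕ, ∀ (m : ℕ) (t : k), v.valuation k t ≤ exp (-((m + n : ℕ) : ℤ)) → Cl v m (t • x) := by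
  have : ∀ c : k, ∃ n : ℕ, v.valuation k c ≤ exp (n : ℤ) := fun c => by
    by_cases hc : c = 0
    · exact ⟨0, by simp [hc]⟩
    · obtain ⟨n, hn⟩ := exists_exp_le (inv_ne_zero (val_ne_zero v hc))
      rw [exp_neg, inv_le_inv₀ exp_pos (zero_lt_iff.2 (val_ne_zero v hc))] at hn
      exact ⟨n, hn⟩
  choose f hf using this
  obtain ⟨N, hN⟩ : ∃ N, ∀ p : _ × _, f (mat k x p.1 p.2) ≤ N := (Set.finite_range _).bddAbove.imp
    fun N hN p => hN (Set.mem_range_self p)
  refine ⟨N, fun m t ht i j => ?_⟩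
  rw [map_smul, Matrix.smul_apply, smul_eq_mul, map_mul]
  refine (mul_le_mul' ht (hf _)).trans ?_
  rw [← exp_add, exp_le_exp]
  have : f (mat k x i j) ≤ N := hN (i, j)
  push_cast
  omega

/-- a common denominator -/
theorem exists_den_cl (k : Type u) [Field k] [NumberField k] [Algebra k B] [Module.Finite k B]
    (x : B) : ∃ d : k, d ≠ 0 ∧ (∀ v : Pl k, v.valuation k d ≤ 1) ∧ ∀ v : Pl k, Cl v 0 (d • x) := by
  obtain ⟨d, hd, h⟩ := exists_den Finset.univ fun p : _ × _ => mat k x p.1 p.2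
  refine ⟨d, by simpa using hd, fun v => val_int v d, fun v => cl_zero_iff.2 fun i j => ?_⟩
  obtain ⟨r, hr⟩ := h (i, j) (Finset.mem_univ _)
  rw [map_smul, Matrix.smul_apply, smul_eq_mul, ← hr]
  exact val_int v r

theorem repr_eq (x : B) (i : Fin (finrank k B)) :
    (finBasis k B).repr x i = ∑ j, mat k x i j * (finBasis k B).repr 1 j := by
  have := congrFun (Algebra.leftMulMatrix_mulVec_repr (finBasis k B) x 1) i
  rw [mul_one] at this
  exact this.symm

/-- linear maps preserve `Cl` almost everywhere -/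
theorem ev_lin {C : Type*} [Ring C] [Algebra k C] [Module.Finite k C] (g : B →ₗ[k] C) :
    ∀ᶠ v : Pl k in cofinite, ∀ m x, Cl v m x → Cl v m (g x) := by
  filter_upwards [Lan.ev_in (finBasis k B) 1,
    eventually_all.2 fun i => ev_cl (k := k) (g (finBasis k B i))] with v h1 h2 m x hx
  rw [Lan.lin_eq (finBasis k B) g x]
  refine Cl.sum fun i _ => Cl.smul_right ?_ (h2 i)
  rw [repr_eq]
  refine Valuation.map_sum_le _ fun j _ => ?_
  rw [map_mul]
  exact (mul_le_mul' (hx i j) (h1 j)).trans_eq (mul_one _)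

/-- linear maps are continuous -/
theorem exists_lin {C : Type*} [Ring C] [Algebra k C] [Module.Finite k C] (g : B →ₗ[k] C)
    (v : Pl k) : ∃ n : ℕ, ∀ m x, Cl v (m + n) x → Cl v m (g x) := by
  choose f hf using fun p : Fin (finrank k B) × Fin (finrank k B) =>
    exists_cl v ((finBasis k B).repr 1 p.2 • g (finBasis k B p.1))
  refine ⟨Finset.univ.sup f, fun m x hx => ?_⟩
  rw [Lan.lin_eq (finBasis k B) g x]
  refine Cl.sum fun i _ => ?_
  rw [repr_eq, Finset.sum_smul]
  refine Cl.sum fun j _ => ?_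
  rw [mul_smul]
  exact hf (i, j) m _ ((hx i j).trans (exp_neg_anti (Nat.add_le_add_left
    (Finset.le_sup (Finset.mem_univ _)) _)))

theorem isUnit_of_det (h : (mat k x).det ≠ 0) : IsUnit x := by
  obtain ⟨y, hy, -⟩ := Lan.exists_inv (finBasis k B) h
  exact ⟨⟨x, y, hy, Lan.mul_eq_one_symm (finBasis k B) hy⟩, rfl⟩

theorem Cl.inv (hx : Cl v 0 x) (h : v.valuation k (mat k x).det = 1) :
    IsUnit x ∧ Cl v 0 (inverse x) := by
  have h0 : (mat k x).det ≠ 0 := by
    intro h0; rw [h0, map_zero] at h; exact zero_ne_one h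
  have ux := isUnit_of_det h0
  refine ⟨ux, cl_zero_iff.2 fun i j => ?_⟩
  have : mat k (inverse x) = (mat k x)⁻¹ :=
    (Matrix.inv_eq_right_inv (by rw [← map_mul, mul_inverse_cancel x ux, map_one])).symm
  rw [this, Matrix.inv_def, Matrix.smul_apply, smul_eq_mul, map_mul, Ring.inverse_eq_inv', map_inv₀,
    h, inv_one, one_mul]
  exact Lan.val_adjugate _ (cl_zero_iff.1 hx) i j

theorem Cl.isIntegral (hx : Cl v 0 x) : IsIntegral (v.valuation k).integer x := by
  obtain ⟨M, hM⟩ := Lan.exists_lift _ (cl_zero_iff.1 hx)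
  refine ⟨M.charpoly, M.charpoly_monic, ?_⟩
  have := Lan.aeval_charpoly (finBasis k B) x
  change aeval x (mat k x).charpoly = 0 at this
  rw [hM, Matrix.charpoly_map, aeval_def, eval₂_map] at this
  exact this

theorem Cl.det_one_sub (hx : Cl v 1 x) : v.valuation k (mat k (1 - x)).det = 1 := by
  let u := v.valuation k
  have h1 : ∀ i j, u (mat k (1 - x) i j) ≤ 1 := cl_zero_iff.1 (Cl.one.sub hx.int)
  obtain ⟨M, hM⟩ := Lan.exists_lift u h1
  have hd : (mat k (1 - x)).det = (M.det : k) := by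
    rw [hM]; exact (u.integer.subtype.map_det M).symm
  let I : Ideal u.integer :=
    { carrier := {a | u a < 1}
      add_mem' := fun ha hb => u.map_add_lt ha hb
      zero_mem' := by simp
      smul_mem' := fun c a ha => by
        change u ((c : k) * a) < 1
        rw [map_mul]; exact (mul_le_of_le_one_left' c.2).trans_lt ha }
  have h2 : M.map (Ideal.Quotient.mk I) = 1 := by
    ext i j
    have e : (M i j : k) = (1 : Matrix _ _ k) i j - mat k x i j := by
      have := congrFun (congrFun hM i) j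
      rw [map_sub, map_one, Matrix.sub_apply] at this
      exact this.symm
    have h3 : u (mat k x i j) < 1 := (hx i j).trans_lt (exp_neg_lt_one one_pos)
    rw [Matrix.map_apply, Matrix.one_apply]
    rw [Matrix.one_apply] at e
    split_ifs at e ⊢ with h
    · rw [← map_one (Ideal.Quotient.mk I), Ideal.Quotient.eq]
      change u ((M i j : k) - 1) < 1
      rwa [e, sub_sub_cancel_left, u.map_neg]
    · rw [Ideal.Quotient.eq_zero_iff_mem]
      change u (M i j : k) < 1
      rwa [e, zero_sub, u.map_neg]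
  have h4 : M.det - 1 ∈ I := by
    rw [← Ideal.Quotient.eq, RingHom.map_det, RingHom.mapMatrix_apply, h2, Matrix.det_one, map_one]
  have h5 := u.map_one_add_of_lt (x := (M.det : k) - 1) h4
  rwa [add_sub_cancel, ← hd] at h5

/-- `1 - x` is an integral unit for small `x` -/
theorem Cl.inv_one_sub (hx : Cl v 1 x) : IsUnit (1 - x) ∧ Cl v 0 (inverse (1 - x)) :=
  (Cl.one.sub hx.int).inv hx.det_one_sub

theorem exists_eig {F : Type*} [Field F] [Algebra k F] {l : B} {a : F}
    (ha : aeval a (minpoly k l) = 0) (P : k[X]) :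
    ∃ V : Fin (finrank k B) → F, V ≠ 0 ∧
      ((mat k (aeval l P)).map (algebraMap k F)).mulVec V = aeval a P • V := by
  refine Lan.exists_eigvec _ ?_
  rw [← aeval_comp]
  refine aeval_eq_zero_of_dvd_aeval_eq_zero (minpoly.dvd k l ?_) ha
  rw [aeval_comp]
  exact Lan.aeval_charpoly (finBasis k B) _

/-- eigenvalues of small elements are small -/
theorem Cl.eig {F : Type*} [Field F] [NumberField F] [Algebra k F] {l : B} {a : F}
    (ha : aeval a (minpoly k l) = 0) {P : k[X]} (h : Cl v m (aeval l P)) {p : Pl F}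
    (hp : below k p = v) : p.valuation F (aeval a P) ≤ exp (-(m : ℤ)) := by
  obtain ⟨V, hV, e⟩ := exists_eig ha P
  obtain ⟨i, j, H⟩ := Lan.val_eig (p.valuation F) hV e
  exact H.trans (below_le_exp p _ m (hp ▸ h i j))

/-- the same at a real place -/
theorem Ci.eig {φ : k →+* ℝ} {ε : ℝ} {l : B} {a : ℝ} (ha : (minpoly k l).eval₂ φ a = 0) {P : k[X]}
    (h : Ci φ ε (aeval l P)) : |P.eval₂ φ a| ≤ finrank k B * ε := by
  let := φ.toAlgebra
  obtain ⟨V, hV, e⟩ := exists_eig (F := ℝ) ha P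
  obtain ⟨i, j, H⟩ := Lan.real_eig (RingHom.id ℝ) hV e
  rw [Fintype.card_fin] at H
  exact H.trans (mul_le_mul_of_nonneg_left (h i j).le (Nat.cast_nonneg _))

/-- G1: good places -/
theorem lnf_of_int {δ : k} (h2 : v.valuation k 2 = 1) (hδ : v.valuation k δ = 1) {l : B}
    (ul : IsUnit l) (h : Cl v 0 l) (h' : Cl v 0 (inverse l)) : LNf v δ l := by
  intro F _ _ _ a ha p hp
  subst hp
  obtain ⟨V, hV, e⟩ := exists_eig ha X
  rw [aeval_X, aeval_X] at e
  obtain ⟨-, e'⟩ := Lan.eig_inv (N' := (mat k (inverse l)).map (algebraMap k F)) (by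
    rw [← Matrix.map_mul, ← map_mul, inverse_mul_cancel l ul, map_one,
      Matrix.map_one _ (map_zero _) (map_one _)]) hV e
  obtain ⟨i, j, H⟩ := Lan.val_eig (p.valuation F) hV e
  obtain ⟨i', j', H'⟩ := Lan.val_eig (p.valuation F) hV e'
  have H1 := H.trans ((below_le_one p _).2 (cl_zero_iff.1 h i j))
  have H2 := H'.trans ((below_le_one p _).2 (cl_zero_iff.1 h' i' j'))
  refine Hn.Loc.mem_LN_of_odd p ?_ ((below_eq_one p _).2 hδ) (le_antisymm H1 ?_)
  · simpa [map_ofNat] using (below_eq_one p (2 : k)).2 h2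
  · rwa [map_inv₀, inv_le_one₀ (zero_lt_iff.2 (val_ne_zero p a.ne_zero))] at H2

theorem ev_lnf {δ : k} (hδ : δ ≠ 0) : ∀ᶠ v : Pl k in cofinite, ∀ l : B, IsUnit l → Cl v 0 l →
    Cl v 0 (inverse l) → LNf v δ l := by
  filter_upwards [eventually_cofinite.2 (finite_ne_one (k := k) two_ne_zero),
    eventually_cofinite.2 (finite_ne_one hδ)] with v h2 hd l using lnf_of_int h2 hd

/-- G5: split places -/
theorem lnf_of_sq {δ : kˣ} (h : δ ∈ Hn.Sq v) (l : B) : LNf v (δ : k) l := by
  intro F _ _ _ a _ p hp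
  subst hp
  have := Hn.LN_eq_top p _ (Lan.map_mem_Sq p h)
  change Hn.LN (algebraMap k F δ) p = ⊤ at this
  rw [this]; trivial

variable {φ : k →+* ℝ} {ε ε' : ℝ}

theorem Ci.mono (h : ε ≤ ε') (hx : Ci φ ε x) : Ci φ ε' x := fun i j => (hx i j).trans_le h

theorem Ci.add (hx : Ci φ ε x) (hy : Ci φ ε' y) : Ci φ (ε + ε') (x + y) := fun i j => by
  rw [map_add, Matrix.add_apply, map_add]
  exact (abs_add_le _ _).trans_lt (add_lt_add (hx i j) (hy i j))

theorem Ci.neg (hx : Ci φ ε x) : Ci φ ε (-x) := fun i j => by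
  rw [map_neg, Matrix.neg_apply, map_neg, abs_neg]; exact hx i j

theorem exists_ci (φ : k →+* ℝ) (x : B) (hε : 0 < ε) :
    ∃ η > 0, ∀ t : k, |φ t| < η → Ci φ ε (t • x) := by
  have h0 : 0 ≤ ∑ p : _ × _, |φ (mat k x p.1 p.2)| := Finset.sum_nonneg fun _ _ => abs_nonneg _
  refine ⟨ε / (∑ p : _ × _, |φ (mat k x p.1 p.2)| + 1), by positivity, fun t ht i j => ?_⟩
  rw [lt_div_iff₀ (by positivity)] at ht
  have h1 := Finset.single_le_sum (f := fun p : _ × _ => |φ (mat k x p.1 p.2)|)
    (fun _ _ => abs_nonneg _) (Finset.mem_univ (i, j))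
  rw [map_smul, Matrix.smul_apply, smul_eq_mul, map_mul, abs_mul]
  nlinarith [abs_nonneg (φ t)]

end Cl

end Crest.Agent.T24.Stab
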