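import Crest.Agent.T24.StabOC_6
import Crest.Agent.T24.StabN_66
import Crest.Agent.T24.StabN_50
import Crest.Agent.T24.StabNt_37
import Crest.Agent.T24.StabLg_41

/-!
# Row 24, stability (helper6): normalisation `p = 1` and the glue
-/

set_option autoImplicit false
set_option linter.unusedSectionVars false

noncomputable section

namespace Crest.Agent.T24.Stab.O6

open Ring

universe u v w

section Alg
variable {B : Type*} [Ring B] [StarRing B] {p : B} (hp : IsUnit p)
include hp

theorem inv_cong (x : B) : p * inverse (star p * x * p) * star p = inverse x := by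
  rw [Ring.inverse_mul (.inr hp), Ring.inverse_mul (.inl hp.star), mul_inverse_cancel_left _ _ hp,
    inverse_mul_cancel_right _ _ hp.star]

theorem rho_cong (x z : B) : rho (star p * x * p) (z * p) = rho x z := by
  rw [rho, rho, ← inv_cong hp x, star_mul]
  simp only [mul_assoc]

theorem ze_cong (x g z r : B) :
    ze (star p * x * p) (star p * g * p) (z * p) (r * p) = ze x g z r * p := by
  rw [ze, ze, ← inv_cong hp g]
  simp only [star_mul, star_star, mul_assoc, add_mul]

omit hp in
theorem xx_cong (x g z r : B) :
    xx (star p * x * p) (star p * g * p) (z * p) (r * p) = star p * xx x g z r * p := by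
  simp only [xx, star_mul, mul_assoc, add_mul, mul_add]

end Alg

section Glob
variable {K : Type v} {B : Type w} [Field K] [NumberField K] [StarRing K] [Ring B] [StarRing B]
  [Algebra K B] [StarModule K B] [Algebra.IsCentral K B] [IsSimpleRing B] [FiniteDimensional K B]

theorem out_of_par (H : Par K B) : Out K B := by
  intro m c g p q hc ug up uq hg hq
  obtain ⟨g, rfl⟩ : ∃ g1, g = star p * g1 * p := ⟨inverse (star p) * (g * inverse p), by
    rw [mul_inverse_cancel_left _ _ up.star, inverse_mul_cancel_right _ _ up]⟩
  obtain ⟨q, rfl⟩ : ∃ q1, q = q1 * p := ⟨q * inverse p, (inverse_mul_cancel_right _ _ up).symm⟩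
  have can : ∀ {x y : B}, star p * x * p = star p * y * p → x = y := fun h =>
    up.star.mul_left_cancel (up.mul_right_cancel h)
  have ec : c • (star p * g * p) = star p * (c • g) * p := by simp
  have h : Dt c g q := ⟨hc, up.star.mul_left_iff.1 (up.mul_right_iff.1 ug), up.mul_right_iff.1 uq,
    can (by simpa [mul_add, add_mul, mul_assoc] using hg),
    can (by simpa [mul_add, add_mul, mul_assoc] using hq)⟩
  obtain ⟨a, s, μ, ha, hs, h1, h2, u1, u2, u3, u4, u5, d1, d2, m1, m2, m3⟩ := H m c g q h
  have e1 := ze_cong up (x1 c g q a s) g (zz c g q a) 1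
  have e2 := xx_cong (p := p) (x1 c g q a s) g (zz c g q a) 1
  have e3 := ze_cong up (x1 c g q a s) (c • g) (zz c g q a) (cv a * q)
  rw [one_mul] at e1 e2
  rw [← ec, mul_assoc (cv a)] at e3
  have e4 : el c (star p * x1 c g q a s * p) (star p * g * p) (zz c g q a * p) p (cv a * (q * p)) =
      EL c g q a s := by
    rw [EL, el, el, ka, ka, e1, e3, Ring.inverse_mul (.inr up), mul_assoc _ p,
      mul_inverse_cancel_left _ _ up]
  have e5 : zz c g q a * p + p = (zz c g q a + 1) * p := by rw [add_mul, one_mul]
  refine ⟨star p * x1 c g q a s * p, zz c g q a * p, cv a, μ,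
    ⟨vf_unitary ha h1, vf_unitary' ha h1⟩, ?_, ?_, (up.star.mul u1).mul up,
    e2 ▸ (up.star.mul u2).mul up, e5 ▸ u3.mul up, e1 ▸ u4.mul up, e3 ▸ u5.mul up,
    (rho_cong up _ _).symm ▸ d1, by rwa [e2, e5, rho_cong up], m1, e4 ▸ m2, e4 ▸ m3⟩
  · have : x1 c g q a s + star (x1 c g q a s) = star (zz c g q a) * zz c g q a := by
      simp only [x1, star_add, hs, star_smul, star_mul, star_star, star_inv₀, star_ofNat]
      rw [add_add_add_comm, add_neg_cancel, add_zero, ← add_smul]
      norm_num
    simpa [mul_add, add_mul, mul_assoc] using congrArg (star p * · * p) this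
  · have : star (zz c g q a) * (cv a * q - 1) = (1 - c) • g := by
      rw [zz, star_star, smul_mul_assoc, inverse_mul_cancel_right _ _ h2]
    simpa [mul_sub, sub_mul, mul_assoc] using congrArg (star p * · * p) this

end Glob

theorem outStmt_of (H : ParStmt.{u, v, w}) : OutStmt.{u, v, w} :=
  fun D h3 hd => out_of_par (H D h3 hd)

/-- **stability** from the toolkit -/
theorem stabStmt_of_tool (T : ToolStmt.{u, v, w}) : StabStmt.{u, v, w} :=
  stabStmt_of (outStmt_of (parStmt nrmStmt nearFStmt nearRStmt nearTStmt T (largeStmt T)))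

end Crest.Agent.T24.Stab.O6
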