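import Mathlib

/-!
# Row 24 (helper25): the Dieudonné determinant

Families of rows `M : ι → V`, the row operations `T`, `Sc`; functions that behave like determinants.
-/

set_option autoImplicit false

namespace Crest.Agent.T24.Wg

open Finset Module

section ops
variable {D V ι : Type*} [DivisionRing D] [AddCommGroup V] [Module D V] [DecidableEq ι]

/-- add `c` times row `j` to row `i` -/
def T (i j : ι) (c : D) (M : ι → V) : ι → V := fun k => if k = i then M i + c • M j else M k

/-- multiply row `i` by `c` -/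
def Sc (i : ι) (c : D) (M : ι → V) : ι → V := fun k => if k = i then c • M i else M k

@[simp] theorem T_self (i j : ι) (c : D) (M : ι → V) : T i j c M i = M i + c • M j := if_pos rfl
theorem T_ne {i k : ι} (h : k ≠ i) (j : ι) (c : D) (M : ι → V) : T i j c M k = M k := if_neg h
@[simp] theorem Sc_self (i : ι) (c : D) (M : ι → V) : Sc i c M i = c • M i := if_pos rfl
theorem Sc_ne {i k : ι} (h : k ≠ i) (c : D) (M : ι → V) : Sc i c M k = M k := if_neg h

/-- closed under transvections -/
def ClT (D : Type*) [DivisionRing D] [Module D V] (P : (ι → V) → Prop) : Prop :=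
  ∀ M i j (c : D), i ≠ j → P M → P (T i j c M)

/-- closed under scalings -/
def ClS (D : Type*) [DivisionRing D] [Module D V] (P : (ι → V) → Prop) : Prop :=
  ∀ M i (c : D), c ≠ 0 → P M → P (Sc i c M)

theorem ClT.col {P : (ι → V) → Prop} (h : ClT D P) {M : ι → V} (hM : P M) (k : ι) (t : ι → D)
    (s : Finset ι) (hk : k ∉ s) : P fun i => if i ∈ s then M i + t i • M k else M i := by
  induction s using Finset.induction_on with
  | empty => simpa using hM
  | insert a s ha ih =>
    rw [mem_insert, not_or] at hk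
    have := h _ a k (t a) (Ne.symm hk.1) (ih hk.2)
    convert this using 1
    funext i
    by_cases hi : i = a
    · subst hi; simp [ha, hk.2]
    · simp [T_ne hi, hi]

theorem ClT.row {P : (ι → V) → Prop} (h : ClT D P) {M : ι → V} (hM : P M) (k : ι) (t : ι → D)
    (s : Finset ι) (hk : k ∉ s) : P fun i => if i = k then M k + ∑ j ∈ s, t j • M j else M i := by
  induction s using Finset.induction_on with
  | empty =>
    convert hM using 1
    funext i
    by_cases hi : i = k <;> simp [hi]
  | insert a s ha ih =>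
    rw [mem_insert, not_or] at hk
    have := h _ k a (t a) hk.1 (ih hk.2)
    convert this using 1
    funext i
    by_cases hi : i = k
    · subst hi; simp [sum_insert ha, Ne.symm hk.1]; abel
    · simp [T_ne hi, hi]

theorem clT_span : ClT D fun M : ι → V => Submodule.span D (Set.range M) = ⊤ := by
  intro M i j c hij hM
  rw [eq_top_iff, ← hM, Submodule.span_le]
  rintro _ ⟨k, rfl⟩
  have h1 : ∀ k, T i j c M k ∈ Submodule.span D (Set.range (T i j c M)) := fun k =>
    Submodule.subset_span ⟨k, rfl⟩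
  by_cases hk : k = i
  · subst hk
    have := sub_mem (h1 k) (Submodule.smul_mem _ c (h1 j))
    rw [T_self, T_ne hij.symm, add_sub_cancel_right] at this
    exact this
  · have := h1 k
    rw [T_ne hk] at this
    exact this

theorem clS_span : ClS D fun M : ι → V => Submodule.span D (Set.range M) = ⊤ := by
  intro M i c hc hM
  rw [eq_top_iff, ← hM, Submodule.span_le]
  rintro _ ⟨k, rfl⟩
  have h1 : ∀ k, Sc i c M k ∈ Submodule.span D (Set.range (Sc i c M)) := fun k =>
    Submodule.subset_span ⟨k, rfl⟩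
  by_cases hk : k = i
  · subst hk
    have := Submodule.smul_mem _ c⁻¹ (h1 k)
    rw [Sc_self, inv_smul_smul₀ hc] at this
    exact this
  · have := h1 k
    rw [Sc_ne hk] at this
    exact this

/-- Gauss elimination: row operations connect any two bases. -/
theorem connect [Fintype ι] {P : (ι → V) → Prop} (hT : ClT D P) (hS : ClS D P) {M b : ι → V}
    (hM : P M) (hs : Submodule.span D (Set.range M) = ⊤) (hb : LinearIndependent D b) : P b := by
  classical
  let Q : (ι → V) → Prop := fun M => P M ∧ Submodule.span D (Set.range M) = ⊤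
  have qT : ClT D Q := fun M i j c h hq => ⟨hT M i j c h hq.1, clT_span M i j c h hq.2⟩
  have qS : ClS D Q := fun M i c h hq => ⟨hS M i c h hq.1, clS_span M i c h hq.2⟩
  suffices H : ∀ (s : Finset ι) (M : ι → V), Q M → (∀ i, i ∉ s → M i = b i) → P b from
    H univ M ⟨hM, hs⟩ (by simp)
  intro s
  induction s using Finset.induction_on with
  | empty =>
    intro M hq h
    have : M = b := funext fun i => h i (by simp)
    exact this ▸ hq.1
  | insert i s hi ih =>
    have A : ∀ (M : ι → V) (c : ι → D), Q M → (∀ k, k ∉ insert i s → M k = b k) →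
        ∑ j, c j • M j = b i → c i ≠ 0 → P b := by
      intro M c hq h hc hci
      refine ih _ (qT.row (qS M i (c i) hci hq) i c (univ.erase i) (by simp)) fun k hk => ?_
      by_cases hki : k = i
      · subst hki
        rw [if_pos rfl, Sc_self, ← hc, ← add_sum_erase univ _ (mem_univ k)]
        congr 1
        exact sum_congr rfl fun j hj => by rw [Sc_ne (ne_of_mem_erase hj)]
      · rw [if_neg hki, Sc_ne hki]
        exact h k (by simp [hki, hk])
    intro M hq h
    have hmem : b i ∈ Submodule.span D (Set.range M) := by rw [hq.2]; trivial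
    obtain ⟨c, hc⟩ := (Submodule.mem_span_range_iff_exists_fun D).1 hmem
    by_cases hci : c i = 0
    · have : ∃ j ∈ s, c j ≠ 0 := by
        by_contra hn
        push Not at hn
        have h1 : ∑ j, (c j - if j = i then 1 else 0) • b j = 0 := by
          simp only [sub_smul, sum_sub_distrib, ite_smul, one_smul, zero_smul, sum_ite_eq',
            mem_univ, if_true]
          rw [← hc, sub_eq_zero]
          refine sum_congr rfl fun j _ => ?_
          by_cases hj : j ∈ insert i s
          · rcases mem_insert.1 hj with rfl | hj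
            · simp [hci]
            · simp [hn j hj]
          · rw [h j hj]
        have := Fintype.linearIndependent_iff.1 hb _ h1 i
        simp [hci] at this
      obtain ⟨j, hj, hcj⟩ := this
      have hji : j ≠ i := fun e => hi (e ▸ hj)
      refine A (T j i (-1 : D) M) (fun k => if k = i then c j else c k) (qT M j i _ hji hq)
        (fun k hk => ?_) ?_ (by simpa using hcj)
      · rw [T_ne (fun e => hk (by simp [e, hj]))]
        exact h k hk
      · rw [← hc, ← sub_eq_zero, ← sum_sub_distrib]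
        rw [← add_sum_erase univ _ (mem_univ i), ← add_sum_erase _ _ (a := j) (by simp [hji])]
        rw [sum_eq_zero]
        · simp [T_ne hji.symm, hji, hci]
        · intro k hk
          simp only [mem_erase] at hk
          simp [T_ne hk.1, hk.2.1]
    · exact A M c hq h hc hci

end ops

section det
variable {D V ι A : Type*} [DivisionRing D] [AddCommGroup V] [Module D V] [DecidableEq ι]
  [CommGroupWithZero A]

/-- a determinant function -/
structure IsDet (χ : D →*₀ A) (Δ : (ι → V) → A) : Prop where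
  add : ∀ M i j (c : D), i ≠ j → Δ (T i j c M) = Δ M
  smul : ∀ M i (c : D), c ≠ 0 → Δ (Sc i c M) = χ c * Δ M

theorem IsDet.clT {χ : D →*₀ A} {Δ : (ι → V) → A} (h : IsDet χ Δ) (a : A) :
    ClT D fun M => Δ M = a := fun M i j c hij hM => (h.add M i j c hij).trans hM

theorem isDet_of_one {χ : D →*₀ A} {Δ : (ι → V) → A}
    (h1 : ∀ M i j, i ≠ j → Δ (T i j (1 : D) M) = Δ M)
    (hs : ∀ M i (c : D), c ≠ 0 → Δ (Sc i c M) = χ c * Δ M) : IsDet χ Δ := by
  refine ⟨fun M i j c hij => ?_, hs⟩
  by_cases hc : c = 0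
  · congr 1
    funext k
    by_cases hk : k = i <;> simp [T, hk, hc]
  · have : T i j c M = Sc j c⁻¹ (T i j (1 : D) (Sc j c M)) := by
      funext k
      by_cases hk : k = i
      · subst hk; simp [Sc_ne hij]
      · by_cases hkj : k = j
        · subst hkj; simp [T_ne hk, hc]
        · simp [T_ne hk, Sc_ne hkj]
    rw [this, hs _ _ _ (inv_ne_zero hc), h1 _ _ _ hij, hs _ _ _ hc, ← mul_assoc, ← map_mul,
      inv_mul_cancel₀ hc, map_one, one_mul]

variable {n : ℕ}

/-- the Schur complement -/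
def sch (M : Fin (n + 1) → Fin (n + 1) → D) : Fin n → Fin n → D :=
  fun i j => M i.succ j.succ - M i.succ 0 * (M 0 0)⁻¹ * M 0 j.succ

/-- the determinant on the big cell -/
def Sd (χ : D →*₀ A) (Δ : (Fin n → Fin n → D) → A) (M : Fin (n + 1) → Fin (n + 1) → D) : A :=
  χ (M 0 0) * Δ (sch M)

variable {χ : D →*₀ A} {Δ : (Fin n → Fin n → D) → A}

theorem Sd_low (h : IsDet χ Δ) (M : Fin (n + 1) → Fin (n + 1) → D) (hM : M 0 0 ≠ 0)
    {i j : Fin (n + 1)} (hi : i ≠ 0) (hij : i ≠ j) (c : D) : Sd χ Δ (T i j c M) = Sd χ Δ M := by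
  obtain ⟨i, rfl⟩ := Fin.exists_succ_eq.2 hi
  unfold Sd
  rw [T_ne hi.symm]
  congr 1
  by_cases hj : j = 0
  · subst hj
    congr 1
    funext k l
    by_cases hk : k = i
    · subst hk
      simp only [sch, T_self, T_ne hi.symm, Pi.add_apply, Pi.smul_apply, smul_eq_mul, add_mul,
        mul_inv_cancel_right₀ hM]
      abel
    · simp only [sch, T_ne hi.symm, T_ne (fun e => hk (Fin.succ_injective _ e))]
  · obtain ⟨j, rfl⟩ := Fin.exists_succ_eq.2 hj
    rw [← h.add (sch M) i j c fun e => hij (congrArg _ e)]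
    congr 1
    funext k l
    by_cases hk : k = i
    · subst hk
      simp only [sch, T_self, T_ne hi.symm, Pi.add_apply, Pi.smul_apply, smul_eq_mul]
      noncomm_ring
    · simp only [sch, T_ne hi.symm, T_ne (fun e => hk (Fin.succ_injective _ e)), T_ne hk]

theorem Sd_smul (h : IsDet χ Δ) (M : Fin (n + 1) → Fin (n + 1) → D) (i : Fin (n + 1)) {c : D}
    (hc : c ≠ 0) : Sd χ Δ (Sc i c M) = χ c * Sd χ Δ M := by
  unfold Sd
  by_cases hi : i = 0
  · subst hi
    rw [Sc_self, Pi.smul_apply, smul_eq_mul, map_mul, mul_assoc]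
    congr 3
    funext k l
    simp only [sch, Sc_self, Sc_ne (Fin.succ_ne_zero k), Pi.smul_apply, smul_eq_mul, mul_inv_rev,
      mul_assoc, inv_mul_cancel_left₀ hc]
  · obtain ⟨i, rfl⟩ := Fin.exists_succ_eq.2 hi
    rw [Sc_ne (Ne.symm hi), mul_left_comm, ← h.smul (sch M) i c hc]
    congr 2
    funext k l
    by_cases hk : k = i
    · subst hk
      simp only [sch, Sc_self, Sc_ne (Ne.symm hi), Pi.smul_apply, smul_eq_mul]
      noncomm_ring
    · simp only [sch, Sc_ne (Ne.symm hi), Sc_ne (fun e => hk (Fin.succ_injective _ e)), Sc_ne hk]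

theorem Sd_up (h : IsDet χ Δ) (M : Fin (n + 1) → Fin (n + 1) → D) (hM : M 0 0 ≠ 0)
    {j : Fin (n + 1)} (hj : j ≠ 0) (c : D) (hM' : M 0 0 + c * M j 0 ≠ 0) :
    Sd χ Δ (T 0 j c M) = Sd χ Δ M := by
  by_cases hc : c = 0
  · congr 1
    funext k
    by_cases hk : k = 0 <;> simp [T, hk, hc]
  obtain ⟨j, rfl⟩ := Fin.exists_succ_eq.2 hj
  set l := M 0 0 with hl
  set l' := l + c * M j.succ 0 with hl'
  have e1 : 1 - M j.succ 0 * l'⁻¹ * c = c⁻¹ * (l * l'⁻¹) * c := by
    have : l = l' - c * M j.succ 0 := by rw [hl']; abel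
    rw [this, sub_mul, mul_inv_cancel₀ hM', mul_sub, sub_mul, mul_one, inv_mul_cancel₀ hc,
      mul_assoc c, inv_mul_cancel_left₀ hc]
  have e0 : 1 - M j.succ 0 * l'⁻¹ * c ≠ 0 := by
    rw [e1]
    exact mul_ne_zero (mul_ne_zero (inv_ne_zero hc) (mul_ne_zero hM (inv_ne_zero hM'))) hc
  have key : ∀ k m, sch (T 0 j.succ c M) k m =
      sch M k m - M k.succ 0 * l'⁻¹ * c * sch M j m := by
    intro k m
    have e2 : l⁻¹ = l'⁻¹ + l'⁻¹ * (c * M j.succ 0) * l⁻¹ := by
      have : c * M j.succ 0 = l' - l := by rw [hl']; abel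
      rw [this, mul_sub, inv_mul_cancel₀ hM', sub_mul, one_mul, mul_assoc, mul_inv_cancel₀ hM,
        mul_one]
      abel
    simp only [sch, T_self, T_ne (Fin.succ_ne_zero _), Pi.add_apply, Pi.smul_apply, smul_eq_mul,
      ← hl, ← hl']
    conv_rhs => rw [e2]
    have e3 : (l'⁻¹ + l'⁻¹ * (c * M j.succ 0) * l⁻¹) = l⁻¹ := e2.symm
    conv_rhs => enter [2, 2, 2]; rw [e3]
    noncomm_ring
  have h1 := (h.clT (Δ (sch M))).col rfl j (fun k => -(M k.succ 0 * l'⁻¹ * c)) (univ.erase j)
    (by simp)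
  have h2 := h.smul (fun i => if i ∈ univ.erase j then
    sch M i + (-(M i.succ 0 * l'⁻¹ * c)) • sch M j else sch M i) j _ e0
  unfold Sd
  have h3 : sch (T 0 j.succ c M) = Sc j (1 - M j.succ 0 * l'⁻¹ * c) fun i => if i ∈ univ.erase j then
      sch M i + (-(M i.succ 0 * l'⁻¹ * c)) • sch M j else sch M i := by
    funext k m
    rw [key]
    by_cases hk : k = j
    · subst hk; simp [sub_mul]
    · simp [Sc_ne hk, hk, sub_eq_add_neg]
  rw [h3, h2, h1, T_self, Pi.add_apply, Pi.smul_apply, smul_eq_mul, ← hl, ← hl', e1, ← mul_assoc]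
  congr 1
  have hc' : χ c ≠ 0 := by simpa using hc
  have hl0 : χ l' ≠ 0 := by simpa using hM'
  simp only [map_mul, map_inv₀]
  field_simp

open Classical in
/-- the determinant of the next size -/
noncomputable def Dd (χ : D →*₀ A) (Δ : (Fin n → Fin n → D) → A)
    (M : Fin (n + 1) → Fin (n + 1) → D) : A :=
  if M 0 0 ≠ 0 then Sd χ Δ M else if h : ∃ j, M j 0 ≠ 0 then Sd χ Δ (T 0 h.choose (1 : D) M) else 0

theorem Dd_pos {M : Fin (n + 1) → Fin (n + 1) → D} (hM : M 0 0 ≠ 0) : Dd χ Δ M = Sd χ Δ M :=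
  if_pos hM

theorem Dd_zero {M : Fin (n + 1) → Fin (n + 1) → D} (hM : ∀ j, M j 0 = 0) : Dd χ Δ M = 0 := by
  simp [Dd, hM]

theorem T_T {i j k : ι} (hk : k ≠ i) (c e : D) (M : ι → V) (hj : j ≠ i) :
    T i j c (T i k e M) = T i k e (T i j c M) := by
  funext l
  by_cases hl : l = i
  · subst hl; simp only [T_self, T_ne hk, T_ne hj]; abel
  · simp only [T_ne hl]

theorem T_add {i j : ι} (c e : D) (M : ι → V) (hj : j ≠ i) :
    T i j c (T i j e M) = T i j (e + c) M := by
  funext l
  by_cases hl : l = i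
  · subst hl; simp only [T_self, T_ne hj, add_smul]; abel
  · simp only [T_ne hl]

theorem T_zero (i j : ι) (M : ι → V) : T i j (0 : D) M = M := by
  funext l
  by_cases hl : l = i <;> simp [T, hl]

theorem Dd_neg (h2 : (2 : D) ≠ 0) (h : IsDet χ Δ) {M : Fin (n + 1) → Fin (n + 1) → D}
    (hM : M 0 0 = 0) {j : Fin (n + 1)} {c : D} (hc : c * M j 0 ≠ 0) :
    Dd χ Δ M = Sd χ Δ (T 0 j c M) := by
  have hj0 : M j 0 ≠ 0 := right_ne_zero_of_mul hc
  have hex : ∃ j, M j 0 ≠ 0 := ⟨j, hj0⟩
  have hk := hex.choose_spec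
  rw [Dd, if_neg (by simpa using hM), dif_pos hex]
  generalize hex.choose = k at hk
  have hj : j ≠ 0 := fun e => hj0 (e ▸ hM)
  have hk0 : k ≠ 0 := fun e => hk (e ▸ hM)
  set t := M k 0 * (M j 0)⁻¹ with ht
  have e : t * M j 0 = M k 0 := inv_mul_cancel_right₀ hj0 _
  have h22 : M k 0 + M k 0 ≠ 0 := by rw [← two_mul]; exact mul_ne_zero h2 hk
  have s1 := Sd_up h (T 0 k (1 : D) M) (by simpa [hM] using hk) hj t
    (by simpa [hM, T_ne hj, e] using h22)
  have s2 := Sd_up h (T 0 j t M) (by simpa [hM, e] using hk) hk0 1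
    (by simpa [hM, T_ne hk0, e] using h22)
  have s3 := Sd_up h (T 0 j t M) (by simpa [hM, e] using hk) hj (c - t)
    (by simpa [hM, T_ne hj, sub_mul] using hc)
  rw [T_add _ _ _ hj, add_sub_cancel] at s3
  rw [← s1, T_T hk0 _ _ _ hj, s2, s3]

theorem Dd_up (h2 : (2 : D) ≠ 0) (h : IsDet χ Δ) (M : Fin (n + 1) → Fin (n + 1) → D)
    {j : Fin (n + 1)} (hj : j ≠ 0) (c : D) : Dd χ Δ (T 0 j c M) = Dd χ Δ M := by
  by_cases h0 : M 0 0 = 0
  · by_cases h1 : c * M j 0 = 0
    · by_cases hz : ∀ k, M k 0 = 0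
      · rw [Dd_zero hz, Dd_zero]
        intro k
        by_cases hk : k = 0
        · subst hk; simp [hz]
        · rw [T_ne hk, hz]
      · push Not at hz
        obtain ⟨k, hk⟩ := hz
        have hk0 : k ≠ 0 := fun e => hk (e ▸ h0)
        rw [Dd_neg h2 h h0 (j := k) (c := 1) (by simpa using hk),
          Dd_neg h2 h (M := T 0 j c M) (by simp [h0, h1]) (j := k) (c := 1)
            (by simpa [T_ne hk0] using hk), T_T hj _ _ _ hk0]
        exact Sd_up h _ (by simpa [h0] using hk) hj c (by simpa [h0, T_ne hj, h1] using hk)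
    · rw [Dd_neg h2 h h0 h1, Dd_pos (by simpa [h0] using h1)]
  · by_cases h1 : M 0 0 + c * M j 0 = 0
    · have : (-c) * T 0 j c M j 0 ≠ 0 := by
        rw [T_ne hj, neg_mul, ← eq_neg_of_add_eq_zero_left h1]; exact h0
      rw [Dd_neg h2 h (by simpa using h1) this, T_add _ _ _ hj, add_neg_cancel, T_zero, Dd_pos h0]
    · rw [Dd_pos h0, Dd_pos (by simpa using h1), Sd_up h M h0 hj c h1]

theorem Dd_smul (h2 : (2 : D) ≠ 0) (h : IsDet χ Δ) (M : Fin (n + 1) → Fin (n + 1) → D)
    (i : Fin (n + 1)) (c : D) (hc : c ≠ 0) : Dd χ Δ (Sc i c M) = χ c * Dd χ Δ M := by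
  have hS : ∀ (M : Fin (n + 1) → Fin (n + 1) → D) k, Sc i c M k 0 = 0 ↔ M k 0 = 0 := by
    intro M k
    by_cases hk : k = i
    · subst hk; simp [hc]
    · rw [Sc_ne hk]
  have pos : ∀ M : Fin (n + 1) → Fin (n + 1) → D, M 0 0 ≠ 0 →
      Dd χ Δ (Sc i c M) = χ c * Dd χ Δ M := fun M h0 => by
    rw [Dd_pos h0, Dd_pos (mt (hS M 0).1 h0), Sd_smul h M i hc]
  by_cases h0 : M 0 0 = 0
  · by_cases hz : ∀ k, M k 0 = 0
    · rw [Dd_zero hz, Dd_zero fun k => (hS M k).2 (hz k), mul_zero]
    · push Not at hz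
      obtain ⟨k, hk⟩ := hz
      have hk0 : k ≠ 0 := fun e => hk (e ▸ h0)
      have : ∃ e : D, Sc i c (T 0 k (1 : D) M) = T 0 k e (Sc i c M) := by
        by_cases hi : i = 0
        · subst hi
          refine ⟨c, funext fun l => ?_⟩
          by_cases hl : l = 0
          · subst hl; simp [Sc_ne hk0]
          · simp [Sc_ne hl, T_ne hl]
        · refine ⟨if k = i then c⁻¹ else 1, funext fun l => ?_⟩
          by_cases hl : l = 0
          · subst hl
            by_cases hki : k = i
            · subst hki; simp [Sc_ne (Ne.symm hi), hc]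
            · simp [Sc_ne (Ne.symm hi), Sc_ne hki, hki]
          · by_cases hli : l = i
            · subst hli; simp [T_ne hl]
            · simp [T_ne hl, Sc_ne hli]
      obtain ⟨e, he⟩ := this
      rw [← Dd_up h2 h M hk0 1, ← pos _ (by simpa [h0] using hk), he, Dd_up h2 h _ hk0]
  · exact pos M h0

theorem Dd_col (h2 : (2 : D) ≠ 0) (h : IsDet χ Δ) (M : Fin (n + 1) → Fin (n + 1) → D)
    {i : Fin (n + 1)} (hi : i ≠ 0) : Dd χ Δ (T i 0 (1 : D) M) = Dd χ Δ M := by
  have pos : ∀ (M : Fin (n + 1) → Fin (n + 1) → D) (j : Fin (n + 1)) (c : D), M 0 0 ≠ 0 → i ≠ j →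
      Dd χ Δ (T i j c M) = Dd χ Δ M := fun M j c h0 hij => by
    rw [Dd_pos h0, Dd_pos (by rwa [T_ne hi.symm]), Sd_low h M h0 hi hij]
  by_cases h0 : M 0 0 = 0
  · by_cases hi0 : M i 0 = 0
    · by_cases hz : ∀ k, M k 0 = 0
      · rw [Dd_zero hz, Dd_zero]
        intro k
        by_cases hk : k = i
        · subst hk; simp [hz]
        · rw [T_ne hk, hz]
      · push Not at hz
        obtain ⟨k, hk⟩ := hz
        have hk0 : k ≠ 0 := fun e => hk (e ▸ h0)
        have hki : k ≠ i := fun e => hk (e ▸ hi0)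
        have : T 0 k (1 : D) (T i 0 (1 : D) M) =
            T i k (-1 : D) (T i 0 (1 : D) (T 0 k (1 : D) M)) := by
          funext l
          by_cases hl : l = 0
          · subst hl; simp [T_ne hi.symm, T_ne hki]
          · by_cases hli : l = i
            · subst hli; simp [T_ne hl, T_ne hki, T_ne hk0, add_assoc]
            · simp [T_ne hl, T_ne hli]
        have p : T 0 k (1 : D) M 0 0 ≠ 0 := by simpa [h0] using hk
        rw [← Dd_up h2 h _ hk0 1, this, pos _ _ _ (by rwa [T_ne hi.symm]) hki.symm,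
          pos _ _ _ p hi, Dd_up h2 h _ hk0]
    · have : Sc 0 (2 : D) (T i 0 (1 : D) M) =
          T 0 i (1 : D) (Sc i (2 : D) (T i 0 (2 : D)⁻¹ (T 0 i (-1 : D) M))) := by
        funext l
        by_cases hl : l = 0
        · subst hl
          simp only [Sc_self, T_self, T_ne hi.symm, Sc_ne hi.symm, T_ne hi, smul_add,
            smul_inv_smul₀ h2, one_smul, neg_smul, smul_neg, two_smul]
          abel
        · by_cases hli : l = i
          · subst hli
            simp only [Sc_self, T_self, Sc_ne hi, T_ne hi, smul_add,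
              smul_inv_smul₀ h2, one_smul, neg_smul]
            rw [two_smul]
            abel
          · simp [T_ne hl, T_ne hli, Sc_ne hl, Sc_ne hli]
      have e := congrArg (Dd χ Δ) this
      rw [Dd_smul h2 h _ _ _ h2, Dd_up h2 h _ hi, Dd_smul h2 h _ _ _ h2,
        pos (T 0 i (-1 : D) M) _ _ (by simpa [h0] using hi0) hi, Dd_up h2 h _ hi] at e
      exact mul_left_cancel₀ (by simpa using h2) e
  · exact pos M 0 1 h0 hi

theorem isDet_Dd (h2 : (2 : D) ≠ 0) (h : IsDet χ Δ) : IsDet χ (Dd χ Δ) := by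
  have col : ∀ (M : Fin (n + 1) → Fin (n + 1) → D) (i : Fin (n + 1)) (c : D), i ≠ 0 →
      Dd χ Δ (T i 0 c M) = Dd χ Δ M := by
    intro M i c hi
    by_cases hc : c = 0
    · rw [hc, T_zero]
    · have : T i 0 c M = Sc 0 c⁻¹ (T i 0 (1 : D) (Sc 0 c M)) := by
        funext k
        by_cases hk : k = i
        · subst hk; simp [Sc_ne hi]
        · by_cases hkj : k = 0
          · subst hkj; simp [T_ne hk, hc]
          · simp [T_ne hk, Sc_ne hkj]
      rw [this, Dd_smul h2 h _ _ _ (inv_ne_zero hc), Dd_col h2 h _ hi, Dd_smul h2 h _ _ _ hc,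
        ← mul_assoc, ← map_mul, inv_mul_cancel₀ hc, map_one, one_mul]
  refine ⟨fun M i j c hij => ?_, Dd_smul h2 h⟩
  by_cases hi : i = 0
  · subst hi; exact Dd_up h2 h M hij.symm c
  by_cases hj : j = 0
  · subst hj; exact col M i c hi
  have : T i j c M = T 0 j (-1 : D) (T i 0 c (T 0 j (1 : D) (T i 0 (-c) M))) := by
    funext l
    by_cases hl : l = 0
    · subst hl; simp [T_ne (Ne.symm hi), T_ne hj, T_ne hij.symm]
    · by_cases hli : l = i
      · subst hli; simp [T_ne hl, T_ne (Ne.symm hi), T_ne hij.symm]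
      · simp [T_ne hl, T_ne hli]
  rw [this, Dd_up h2 h _ hj, col _ _ _ hi, Dd_up h2 h _ hj, col _ _ _ hi]

theorem exists_isDet (h2 : (2 : D) ≠ 0) (χ : D →*₀ A) (n : ℕ) :
    ∃ Δ : (Fin n → Fin n → D) → A, IsDet χ Δ ∧ Δ (fun i => Pi.single i 1) = 1 := by
  induction n with
  | zero => exact ⟨fun _ => 1, ⟨fun _ i => i.elim0, fun _ i => i.elim0⟩, rfl⟩
  | succ n ih =>
    obtain ⟨Δ, h, h1⟩ := ih
    refine ⟨Dd χ Δ, isDet_Dd h2 h, ?_⟩
    rw [Dd_pos (by simp), Sd]
    have : sch (fun i : Fin (n + 1) => (Pi.single i 1 : Fin (n + 1) → D)) =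
        fun i => Pi.single i 1 := by
      funext k l
      simp [sch, Pi.single_apply, (Fin.succ_ne_zero _).symm]
    simp [this, h1]

/-- The Dieudonné determinant. -/
theorem exists_ddet (h2 : (2 : D) ≠ 0) (χ : D →*₀ A) (b : Basis (Fin n) D V) :
    ∃ δ : (V ≃ₗ[D] V) →* A, ∀ (g : V ≃ₗ[D] V) (d : Fin n → D), (∀ i, g (b i) = d i • b i) →
      δ g = ∏ i, χ (d i) := by
  obtain ⟨Δ₀, h₀, h1⟩ := exists_isDet h2 χ n
  let Δ : (V ≃ₗ[D] V) → (Fin n → V) → A := fun g M => Δ₀ fun i => b.equivFun (g (M i))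
  have h : ∀ g, IsDet χ (Δ g) := fun g => by
    refine ⟨fun M i j c hij => ?_, fun M i c hc => ?_⟩
    · rw [← show _ = Δ g M from h₀.add _ i j c hij]
      refine congrArg Δ₀ (funext fun k => ?_)
      by_cases hk : k = i
      · subst hk; simp only [T_self, map_add, map_smul]
      · simp only [T_ne hk]
    · rw [← show _ = χ c * Δ g M from h₀.smul _ i c hc]
      refine congrArg Δ₀ (funext fun k => ?_)
      by_cases hk : k = i
      · subst hk; simp only [Sc_self, map_smul]
      · simp only [Sc_ne hk]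
  have one : Δ 1 b = 1 := by
    rw [← h1]
    refine congrArg Δ₀ (funext fun i => funext fun j => ?_)
    simp [Pi.single_apply, eq_comm]
  have key : ∀ (g : V ≃ₗ[D] V) (M : Fin n → V), LinearIndependent D M →
      Δ g M = Δ g b * Δ 1 M := fun g M hM =>
    connect (D := D) (P := fun M => Δ g M = Δ g b * Δ 1 M)
      (fun M i j c hij hP => by
        beta_reduce at hP ⊢
        rw [(h g).add _ _ _ _ hij, (h 1).add _ _ _ _ hij, hP])
      (fun M i c hc hP => by
        beta_reduce at hP ⊢
        rw [(h g).smul _ _ _ hc, (h 1).smul _ _ _ hc, hP, mul_left_comm])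
      (M := b) (by rw [one, mul_one]) b.span_eq hM
  refine ⟨⟨⟨fun g => Δ g b, one⟩, fun g g' => key g (fun i => g' (b i))
    (b.linearIndependent.map' g'.toLinearMap g'.ker)⟩, fun g d hd => ?_⟩
  have hd0 : ∀ i, d i ≠ 0 := fun i e => b.ne_zero i (g.injective (by rw [hd, e]; simp))
  have : ∀ s : Finset (Fin n), Δ 1 (fun i => if i ∈ s then d i • b i else b i) = ∏ i ∈ s, χ (d i) := by
    intro s
    induction s using Finset.induction_on with
    | empty => simpa using one
    | insert a s ha ih =>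
      rw [prod_insert ha, ← ih, ← (h 1).smul _ a _ (hd0 a)]
      congr 1
      funext k
      by_cases hk : k = a
      · subst hk; simp [ha]
      · simp [Sc_ne hk, hk]
  rw [← this univ]
  simp only [mem_univ, if_true, ← hd]
  rfl

end det

section out
variable {D V A : Type*} [DivisionRing D] [AddCommGroup V] [Module D V] [CommGroup A] {n : ℕ}

open Classical in
/-- extension by zero -/
noncomputable def ext0 (χ : Dˣ →* A) : D →*₀ WithZero A where
  toFun d := if h : d = 0 then 0 else (χ (Units.mk0 d h) : A)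
  map_zero' := by simp
  map_one' := by
    rw [dif_neg one_ne_zero, show Units.mk0 (1 : D) one_ne_zero = 1 from Units.ext rfl, map_one]
    rfl
  map_mul' x y := by
    by_cases hx : x = 0
    · simp [hx]
    by_cases hy : y = 0
    · simp [hy]
    rw [dif_neg hx, dif_neg hy, dif_neg (mul_ne_zero hx hy), ← WithZero.coe_mul, ← map_mul,
      Units.mk0_mul]

theorem ext0_coe (χ : Dˣ →* A) (d : Dˣ) : ext0 χ (d : D) = (χ d : A) := by
  simp [ext0]

/-- **Dieudonné determinant** with values in any commutative group. -/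
theorem exists_ddetU (h2 : (2 : D) ≠ 0) (χ : Dˣ →* A) (b : Basis (Fin n) D V) :
    ∃ δ : (V ≃ₗ[D] V) →* A, ∀ (g : V ≃ₗ[D] V) (d : Fin n → Dˣ),
      (∀ i, g (b i) = (d i : D) • b i) → δ g = ∏ i, χ (d i) := by
  obtain ⟨δ, h⟩ := exists_ddet h2 (ext0 χ) b
  refine ⟨(WithZero.unitsWithZeroEquiv (α := A)).toMonoidHom.comp δ.toHomUnits, fun g d hd => ?_⟩
  apply WithZero.coe_injective
  have := h g (fun i => d i) hd
  simp only [ext0_coe] at this
  rw [show ((∏ i, χ (d i) : A) : WithZero A) = ∏ i, (χ (d i) : WithZero A) from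
    map_prod (WithZero.coeMonoidHom (α := A)) _ _, ← this]
  exact WithZero.coe_unitsWithZeroEquiv_eq_units_val _

end out

section mat
variable {D ι : Type*} [DivisionRing D] [Fintype ι] [DecidableEq ι]

/-- one diagonal entry -/
def dg (i : ι) : Dˣ →* (Matrix ι ι D)ˣ :=
  Units.map ((Matrix.diagonalRingHom ι D).toMonoidHom.comp (MonoidHom.mulSingle (fun _ => D) i))

theorem dg_val (i : ι) (d : Dˣ) :
    (dg i d : Matrix ι ι D) = Matrix.diagonal (Pi.mulSingle i (d : D)) := rfl

/-- a transvection -/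
def tv {i j : ι} (h : i ≠ j) (c : D) : (Matrix ι ι D)ˣ where
  val := 1 + Matrix.single i j c
  inv := 1 + Matrix.single i j (-c)
  val_inv := by
    simp only [mul_add, add_mul, one_mul, mul_one, Matrix.single_mul_single_of_ne _ _ _ _ h.symm,
      add_zero, add_assoc, ← Matrix.single_add, add_neg_cancel, Matrix.single_zero]
  inv_val := by
    simp only [mul_add, add_mul, one_mul, mul_one, Matrix.single_mul_single_of_ne _ _ _ _ h.symm,
      add_zero, add_assoc, ← Matrix.single_add, neg_add_cancel, Matrix.single_zero]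

theorem tv_mul {i j : ι} (h : i ≠ j) (c : D) (M : ι → ι → D) :
    (tv h c : Matrix ι ι D) * Matrix.of M = Matrix.of (T i j c M) := by
  ext k l
  change ((1 + Matrix.single i j c) * Matrix.of M) k l = _
  rw [add_mul, one_mul, Matrix.add_apply]
  by_cases hk : k = i
  · subst hk; simp
  · rw [Matrix.single_mul_apply_of_ne _ _ _ _ _ hk]
    simp [T_ne hk]

theorem dg_mul (i : ι) (d : Dˣ) (M : ι → ι → D) :
    (dg i d : Matrix ι ι D) * Matrix.of M = Matrix.of (Sc i (d : D) M) := by
  ext k l
  rw [dg_val, Matrix.diagonal_mul]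
  by_cases hk : k = i
  · subst hk; simp
  · simp [Sc_ne hk, Pi.mulSingle_eq_of_ne hk]

theorem ext_of {u v : (Matrix ι ι D)ˣ}
    (h : ∀ N : ι → ι → D, (u : Matrix ι ι D) * Matrix.of N = (v : Matrix ι ι D) * Matrix.of N) :
    u = v := Units.ext (by simpa using h (Matrix.of.symm 1))

theorem of_tv (h2 : (2 : D) ≠ 0) {i j : ι} (h : i ≠ j) (c : D) :
    Abelianization.of (tv h c) = 1 := by
  have : dg i (Units.mk0 2 h2) * tv h c = tv h c * (tv h c * dg i (Units.mk0 2 h2)) := by
    refine ext_of fun N => ?_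
    simp only [Units.val_mul, Matrix.mul_assoc, tv_mul, dg_mul]
    refine congrArg _ (funext fun k => ?_)
    by_cases hk : k = i
    · subst hk
      simp only [T_self, Sc_self, T_ne h.symm, Sc_ne h.symm, Units.val_mk0, two_smul]
      abel
    · simp only [T_ne hk, Sc_ne hk]
  have := congrArg Abelianization.of this
  simp only [map_mul] at this
  rw [mul_comm (Abelianization.of (tv h c)) (Abelianization.of _), mul_left_comm,
    mul_right_inj] at this
  simpa using this

theorem of_dg (h2 : (2 : D) ≠ 0) (i j : ι) (d : Dˣ) :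
    Abelianization.of (dg i d) = Abelianization.of (dg j d) := by
  by_cases h : i = j
  · rw [h]
  have h' : j ≠ i := Ne.symm h
  have : dg i d * (tv h 1 * (tv h' (-1) * tv h 1)) =
      tv h 1 * (tv h' (-1) * (tv h 1 * dg j d)) := by
    refine ext_of fun N => ?_
    simp only [Units.val_mul, Matrix.mul_assoc, tv_mul, dg_mul]
    refine congrArg _ (funext fun k => ?_)
    by_cases hk : k = i
    · subst hk
      simp [T_ne h', T_ne h, Sc_ne h]
    · by_cases hj : k = j
      · subst hj
        simp [T_ne h', T_ne h, Sc_ne h, Sc_ne h']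
      · simp only [T_ne hk, Sc_ne hk, T_ne hj, Sc_ne hj]
  have := congrArg Abelianization.of this
  simpa only [map_mul, of_tv h2, one_mul, mul_one] using this

/-- every invertible matrix is `diag (d, 1, …, 1)` modulo commutators -/
theorem exists_dg (h2 : (2 : D) ≠ 0) (i₀ : ι) (u : (Matrix ι ι D)ˣ) :
    ∃ d : Dˣ, Abelianization.of u = Abelianization.of (dg i₀ d) := by
  have hli : LinearIndependent D (u : Matrix ι ι D).row := by
    rw [Fintype.linearIndependent_iff]
    intro g hg
    have h1 : Matrix.vecMul g (u : Matrix ι ι D) = 0 := by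
      rw [Matrix.vecMul_eq_sum]; exact hg
    have h3 := congrArg (fun v => Matrix.vecMul v (↑u⁻¹ : Matrix ι ι D)) h1
    simp only [Matrix.vecMul_vecMul, Units.mul_inv, Matrix.vecMul_one, Matrix.zero_vecMul] at h3
    exact congrFun h3
  have := connect (D := D) (P := fun M : ι → ι → D => ∃ v : (Matrix ι ι D)ˣ,
      (v : Matrix ι ι D) = Matrix.of M ∧
      ∃ d : Dˣ, Abelianization.of v = Abelianization.of (dg i₀ d))
    (by
      rintro M i j c hij ⟨v, hv, d, hd⟩
      exact ⟨tv hij c * v, by rw [Units.val_mul, hv, tv_mul], d, by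
        rw [map_mul, of_tv h2, one_mul, hd]⟩)
    (by
      rintro M i c hc ⟨v, hv, d, hd⟩
      exact ⟨dg i (Units.mk0 c hc) * v, by rw [Units.val_mul, hv, dg_mul]; rfl,
        Units.mk0 c hc * d, by rw [map_mul, map_mul, map_mul, hd, of_dg h2 i i₀]⟩)
    (M := Matrix.of.symm (1 : Matrix ι ι D)) ⟨1, rfl, 1, by simp⟩
    (by
      rw [← (Pi.basisFun D ι).span_eq]
      congr 2
      funext i j
      simp [Matrix.one_apply, Pi.single_apply, eq_comm]) hli
  obtain ⟨v, hv, d, hd⟩ := this
  exact ⟨d, (Units.ext hv : v = u) ▸ hd⟩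

end mat

end Crest.Agent.T24.Wg
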